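import Mathlib
import Crest.Agent.R013.CE1_280
import Crest.Agent.R013.RR12_948

-- ▼ part R013/CE2_280
section

/-!
# R013 / CE2: structure of `Ω ⊗ K` modulo `x - a` (helper280)
-/

set_option autoImplicit false
set_option linter.all false

namespace Crest.Agent.R013.CE2_280

open WithZero Module TensorProduct Polynomial nonZeroDivisors
open Crest.Agent.R013.RR7_948 Crest.Agent.R013.RR8_948 Crest.Agent.R013.RR9_948
open Crest.Agent.R013.RR11_948 Crest.Agent.R013.RR13_948 Crest.Agent.R013.CE1_280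

section Basic

variable {F K Ω : Type*} [Field F] [Field K] [Algebra F K] [Field Ω] [Algebra F Ω]

/-- evaluation of `Ω ⊗ K` at an `Ω`-point of `K` -/
noncomputable def ev (Q : K →ₐ[F] Ω) : Ω ⊗[F] K →ₐ[Ω] Ω :=
  Algebra.TensorProduct.lift (AlgHom.id Ω Ω) Q (fun _ _ => Commute.all _ _)

@[simp] theorem ev_tmul (Q : K →ₐ[F] Ω) (c : Ω) (f : K) : ev Q (c ⊗ₜ f) = c * Q f := by
  simp [ev]

/-- the element `x - a` of `Ω ⊗ K` -/
noncomputable def piT (F K : Type*) {Ω : Type*} [Field F] [Field K] [Algebra F K] [Field Ω]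
    [Algebra F Ω] [Algebra (RatFunc F) K] (a : Ω) : Ω ⊗[F] K := 1 ⊗ₜ xK F K - a ⊗ₜ 1

theorem ev_piT [Algebra (RatFunc F) K] (Q : K →ₐ[F] Ω) (a : Ω) :
    ev Q (piT F K a) = Q (xK F K) - a := by
  simp [piT]

theorem transcendental_of_notMem [IsAlgClosed F] {a : Ω} (ha : a ∉ Set.range (algebraMap F Ω)) :
    Transcendental F a := by
  intro h
  exact ha (minpoly.mem_range_of_degree_eq_one F a
    (IsAlgClosed.degree_eq_one_of_irreducible F (minpoly.irreducible h.isIntegral)))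

/-- `F(X) → Ω`, `X ↦ a` -/
noncomputable def rho {a : Ω} (ha : Transcendental F a) : RatFunc F →ₐ[F] Ω :=
  RatFunc.liftAlgHom (aeval a) (by
    intro p hp
    rw [Submonoid.mem_comap, mem_nonZeroDivisors_iff_ne_zero]
    exact fun h => nonZeroDivisors.ne_zero hp ((transcendental_iff.mp ha) p h))

theorem rho_algebraMap {a : Ω} (ha : Transcendental F a) (p : F[X]) :
    rho ha (algebraMap F[X] (RatFunc F) p) = aeval a p := by
  have h := RatFunc.liftAlgHom_apply_div (φ := aeval (R := F) a) (hφ := by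
    intro p hp
    rw [Submonoid.mem_comap, mem_nonZeroDivisors_iff_ne_zero]
    exact fun h => nonZeroDivisors.ne_zero hp ((transcendental_iff.mp ha) p h)) p 1
  rw [map_one, div_one, map_one, div_one] at h
  exact h

theorem algHom_ratFunc_eq {B : Type*} [CommRing B] {f g : RatFunc F →+* B}
    (h : ∀ p : F[X], f (algebraMap F[X] (RatFunc F) p) = g (algebraMap F[X] (RatFunc F) p)) :
    f = g := by
  apply IsLocalization.ringHom_ext (F[X]⁰)
  ext1
  · ext p
    exact h _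
  · exact h _

/-- a polynomial in `x` -/
theorem algebraMap_poly_K [Algebra (RatFunc F) K] [IsScalarTower F (RatFunc F) K] (p : F[X]) :
    algebraMap (RatFunc F) K (algebraMap F[X] (RatFunc F) p) = aeval (xK F K) p := by
  have h : (algebraMap (RatFunc F) K).comp (algebraMap F[X] (RatFunc F)) =
      (aeval (R := F) (xK F K) : F[X] →ₐ[F] K).toRingHom := by
    ext1
    · ext c
      simp only [RingHom.comp_apply, AlgHom.toRingHom_eq_coe, RingHom.coe_coe, aeval_C]
      rw [RatFunc.algebraMap_C, ← RR2_948.algebraMap_eq_C, ← IsScalarTower.algebraMap_apply]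
    · simp [xK]
  exact congrArg (fun f => f p) h

theorem algHom_algebraMap [Algebra (RatFunc F) K] [IsScalarTower F (RatFunc F) K]
    (Q : K →ₐ[F] Ω) {a : Ω} (ha : Transcendental F a) (hQ : Q (xK F K) = a) (r : RatFunc F) :
    Q (algebraMap (RatFunc F) K r) = rho ha r := by
  have h : (Q : K →+* Ω).comp (algebraMap (RatFunc F) K) = (rho ha : RatFunc F →+* Ω) := by
    apply algHom_ratFunc_eq
    intro p
    simp only [RingHom.comp_apply, RingHom.coe_coe]
    rw [rho_algebraMap, algebraMap_poly_K]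
    show Q (aeval (xK F K) p) = _
    rw [← Polynomial.aeval_algHom_apply, hQ]
  exact congrArg (fun f => f r) h

theorem ratFunc_congr [Algebra (RatFunc F) K] [IsScalarTower F (RatFunc F) K]
    {a : Ω} (ha : Transcendental F a) (r : RatFunc F) :
    (1 ⊗ₜ algebraMap (RatFunc F) K r - rho ha r ⊗ₜ 1 : Ω ⊗[F] K) ∈ Ideal.span {piT F K a} := by
  rw [← Ideal.Quotient.eq]
  have h : ((Ideal.Quotient.mk (Ideal.span {piT F K a})).comp
      (Algebra.TensorProduct.includeRight : K →ₐ[F] Ω ⊗[F] K).toRingHom).comp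
        (algebraMap (RatFunc F) K) =
      ((Ideal.Quotient.mk (Ideal.span {piT F K a})).comp
      (Algebra.TensorProduct.includeLeftRingHom : Ω →+* Ω ⊗[F] K)).comp
        (rho ha : RatFunc F →+* Ω) := by
    apply algHom_ratFunc_eq
    intro p
    simp only [RingHom.comp_apply, RingHom.coe_coe, AlgHom.toRingHom_eq_coe]
    rw [rho_algebraMap, algebraMap_poly_K, Ideal.Quotient.eq, Ideal.mem_span_singleton]
    have h1 := Polynomial.sub_dvd_eval_sub (1 ⊗ₜ xK F K : Ω ⊗[F] K) (a ⊗ₜ 1)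
      (p.map (algebraMap F (Ω ⊗[F] K)))
    rw [Polynomial.eval_map_algebraMap, Polynomial.eval_map_algebraMap] at h1
    have h2 : aeval (1 ⊗ₜ xK F K : Ω ⊗[F] K) p =
        (Algebra.TensorProduct.includeRight : K →ₐ[F] Ω ⊗[F] K) (aeval (xK F K) p) := by
      rw [← Polynomial.aeval_algHom_apply]; rfl
    have h3 : aeval (a ⊗ₜ 1 : Ω ⊗[F] K) p =
        (Algebra.TensorProduct.includeLeft : Ω →ₐ[F] Ω ⊗[F] K) (aeval a p) := by
      rw [← Polynomial.aeval_algHom_apply]; rfl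
    rw [h2, h3] at h1
    exact h1
  exact congrArg (fun f => f r) h

variable [Algebra (RatFunc F) K] [IsScalarTower F (RatFunc F) K]

theorem exists_repr {ι : Type*} [Fintype ι] (b : Basis ι (RatFunc F) K) {a : Ω}
    (ha : Transcendental F a) (t : Ω ⊗[F] K) :
    ∃ s : ι → Ω, t - ∑ i, s i ⊗ₜ b i ∈ Ideal.span {piT F K a} := by
  induction t with
  | zero => exact ⟨0, by simp⟩
  | add t t' h h' =>
    obtain ⟨s, hs⟩ := h
    obtain ⟨s', hs'⟩ := h'
    refine ⟨s + s', ?_⟩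
    have : t + t' - ∑ i, (s + s') i ⊗ₜ b i = (t - ∑ i, s i ⊗ₜ b i) + (t' - ∑ i, s' i ⊗ₜ b i) := by
      simp only [Pi.add_apply, TensorProduct.add_tmul, Finset.sum_add_distrib]
      abel
    rw [this]
    exact Ideal.add_mem _ hs hs'
  | tmul c f =>
    refine ⟨fun i => c * rho ha (b.repr f i), ?_⟩
    have h1 : (c ⊗ₜ f : Ω ⊗[F] K) = ∑ i, c ⊗ₜ (b.repr f i • b i) := by
      rw [← TensorProduct.tmul_sum, b.sum_repr]
    rw [h1, ← Finset.sum_sub_distrib]
    refine Ideal.sum_mem _ fun i _ => ?_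
    have h2 : (c ⊗ₜ (b.repr f i • b i) - (c * rho ha (b.repr f i)) ⊗ₜ b i : Ω ⊗[F] K) =
        (c ⊗ₜ b i) * (1 ⊗ₜ algebraMap (RatFunc F) K (b.repr f i) - rho ha (b.repr f i) ⊗ₜ 1) := by
      rw [mul_sub, Algebra.TensorProduct.tmul_mul_tmul, Algebra.TensorProduct.tmul_mul_tmul,
        mul_one, mul_one, Algebra.smul_def, mul_comm (b i)]
    rw [h2]
    exact Ideal.mul_mem_left _ _ (ratFunc_congr ha _)

variable [FiniteDimensional (RatFunc F) K] [Algebra.IsSeparable (RatFunc F) K] [IsAlgClosed Ω]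

/-- a basis of `K / F(x)` and an enumeration of the points over `a` with invertible matrix -/
theorem exists_matrix {a : Ω} (ha : Transcendental F a) :
    ∃ (d : ℕ) (b : Basis (Fin d) (RatFunc F) K) (Q : Fin d → K →ₐ[F] Ω),
      (∀ j, Q j (xK F K) = a) ∧ (∀ R : K →ₐ[F] Ω, R (xK F K) = a → ∃ j, R = Q j) ∧
      (Matrix.of fun i j => Q j (b i)).det ≠ 0 := by
  classical
  letI := (rho ha : RatFunc F →ₐ[F] Ω).toRingHom.toAlgebra
  haveI : IsScalarTower F (RatFunc F) Ω := IsScalarTower.of_algebraMap_eq fun c => by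
    show _ = rho ha _
    rw [AlgHom.commutes]
  let d := finrank (RatFunc F) K
  let b := Module.finBasis (RatFunc F) K
  let e : Fin d ≃ (K →ₐ[RatFunc F] Ω) := Fintype.equivOfCardEq (by
    rw [Fintype.card_fin]
    exact (AlgHom.card (RatFunc F) K Ω).symm)
  refine ⟨d, b, fun j => (e j).restrictScalars F, ?_, ?_, ?_⟩
  · intro j
    show e j (algebraMap (RatFunc F) K RatFunc.X) = a
    rw [AlgHom.commutes]
    show rho ha RatFunc.X = a
    rw [← RatFunc.algebraMap_X, rho_algebraMap, aeval_X]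
  · intro R hR
    let R' : K →ₐ[RatFunc F] Ω :=
      { toRingHom := (R : K →+* Ω)
        commutes' := fun r => algHom_algebraMap R ha hR r }
    refine ⟨e.symm R', ?_⟩
    ext f
    show R f = (e (e.symm R')) f
    rw [Equiv.apply_symm_apply]
    rfl
  · have h := Algebra.discr_eq_det_embeddingsMatrixReindex_pow_two (RatFunc F) Ω b e
    have h1 := Algebra.discr_not_zero_of_basis (RatFunc F) b
    intro h0
    have h2 : (Algebra.embeddingsMatrixReindex (RatFunc F) Ω b e) =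
        Matrix.of fun i j => (e j).restrictScalars F (b i) := by
      ext i j
      simp [Algebra.embeddingsMatrixReindex, Algebra.embeddingsMatrix]
    rw [h2, h0, zero_pow two_ne_zero, map_eq_zero] at h
    exact h1 h

/-- an element of `Ω ⊗ K` vanishing at all points over `a` is divisible by `x - a` -/
theorem mem_of_forall {a : Ω} (ha : Transcendental F a) {t : Ω ⊗[F] K}
    (h : ∀ Q : K →ₐ[F] Ω, Q (xK F K) = a → ev Q t = 0) :
    ∃ t' : Ω ⊗[F] K, t = piT F K a * t' := by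
  obtain ⟨d, b, Q, hQ, -, hdet⟩ := exists_matrix (F := F) (K := K) ha
  obtain ⟨s, hs⟩ := exists_repr b ha t
  rw [Ideal.mem_span_singleton] at hs
  have h1 : ∀ j, ∑ i, s i * Q j (b i) = 0 := by
    intro j
    obtain ⟨u, hu⟩ := hs
    have h2 := congrArg (ev (Q j)) hu
    rw [map_sub, h _ (hQ j), map_mul, ev_piT, hQ j, sub_self, zero_mul, zero_sub, neg_eq_zero,
      map_sum] at h2
    simpa using h2
  have h2 : s = 0 := by
    have := Matrix.eq_zero_of_vecMul_eq_zero hdet (v := s) (by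
      ext j
      simp only [Matrix.vecMul, dotProduct, Matrix.of_apply, Pi.zero_apply]
      exact h1 j)
    exact this
  rw [h2] at hs
  simp only [Pi.zero_apply, TensorProduct.zero_tmul, Finset.sum_const_zero, sub_zero] at hs
  exact hs

theorem exists_idem {a : Ω} (ha : Transcendental F a) (Q₀ : K →ₐ[F] Ω) (h₀ : Q₀ (xK F K) = a) :
    ∃ e : Ω ⊗[F] K, ev Q₀ e = 1 ∧ ∀ Q : K →ₐ[F] Ω, Q (xK F K) = a → Q ≠ Q₀ → ev Q e = 0 := by
  classical
  obtain ⟨d, b, Q, hQ, hall, hdet⟩ := exists_matrix (F := F) (K := K) ha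
  obtain ⟨j₀, hj₀⟩ := hall Q₀ h₀
  let M : Matrix (Fin d) (Fin d) Ω := Matrix.of fun i j => Q j (b i)
  let s : Fin d → Ω := fun i => M⁻¹ j₀ i
  have hs : ∀ j, ∑ i, s i * Q j (b i) = if j = j₀ then 1 else 0 := by
    intro j
    have h1 : (M⁻¹ * M) j₀ j = (1 : Matrix (Fin d) (Fin d) Ω) j₀ j := by
      rw [Matrix.nonsing_inv_mul _ (Ne.isUnit hdet)]
    rw [Matrix.mul_apply, Matrix.one_apply] at h1
    rw [show (if j = j₀ then (1 : Ω) else 0) = if j₀ = j then 1 else 0 by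
      simp [eq_comm]]
    exact h1
  have hinj : ∀ j, Q j = Q j₀ → j = j₀ := by
    intro j hj
    by_contra hne
    have h1 := hs j
    have h2 := hs j₀
    rw [if_neg hne, hj] at h1
    rw [if_pos rfl, h1] at h2
    exact zero_ne_one h2
  refine ⟨∑ i, s i ⊗ₜ b i, ?_, ?_⟩
  · rw [map_sum, hj₀]
    simp only [ev_tmul]
    rw [hs j₀, if_pos rfl]
  · intro R hR hne
    obtain ⟨j, rfl⟩ := hall R hR
    rw [map_sum]
    simp only [ev_tmul]
    rw [hs j, if_neg]
    rintro rfl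
    exact hne hj₀.symm

/-- local divisibility at a point -/
theorem exists_mul_eq (Q : K →ₐ[F] Ω) (ha : Transcendental F (Q (xK F K))) {t : Ω ⊗[F] K}
    (ht : ev Q t = 0) :
    ∃ e t' : Ω ⊗[F] K, ev Q e = 1 ∧ e * t = piT F K (Q (xK F K)) * t' := by
  obtain ⟨e, he, he'⟩ := exists_idem ha Q rfl
  obtain ⟨t', ht'⟩ := mem_of_forall ha (t := e * t) (by
    intro R hR
    rw [map_mul]
    by_cases h : R = Q
    · rw [h, ht, mul_zero]
    · rw [he' R hR h, zero_mul])
  exact ⟨e, t', he, ht'⟩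

omit [FiniteDimensional (RatFunc F) K] [Algebra.IsSeparable (RatFunc F) K] [IsAlgClosed Ω] in
theorem xK_notMem_range : xK F K ∉ Set.range (algebraMap F K) := by
  rintro ⟨c, hc⟩
  have h1 : algebraMap (RatFunc F) K (RatFunc.X - RatFunc.C c) = 0 := by
    rw [map_sub, ← RR2_948.algebraMap_eq_C, ← IsScalarTower.algebraMap_apply, hc]
    exact sub_self _
  rw [map_eq_zero] at h1
  have h2 : algebraMap F[X] (RatFunc F) (X - C c) = 0 := by
    rw [map_sub, RatFunc.algebraMap_X, RatFunc.algebraMap_C]; exact h1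
  exact X_sub_C_ne_zero c ((map_eq_zero_iff _ (RatFunc.algebraMap_injective F)).mp h2)

omit [FiniteDimensional (RatFunc F) K] [Algebra.IsSeparable (RatFunc F) K] [IsAlgClosed Ω] in
/-- the `x`-coordinate of a point is transcendental -/
theorem transcendental_x [IsAlgClosed F] (Q : K →ₐ[F] Ω) : Transcendental F (Q (xK F K)) := by
  apply transcendental_of_notMem
  rintro ⟨c, hc⟩
  apply xK_notMem_range (F := F) (K := K)
  refine ⟨c, ?_⟩
  have h : Q (algebraMap F K c) = Q (xK F K) := by rw [AlgHom.commutes, hc]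
  exact (Q : K →+* Ω).injective h

end Basic

end Crest.Agent.R013.CE2_280
end

-- ▼ part R013/CE3_280
section

/-!
# R013 / CE3: places of the constant field extension `K_Ω` (helper280)

`ι : K → L`, `IsCE ι`: `L` is the field of fractions of `Ω ⊗_F K`. Every place of `L/Ω` is either
over a place of `K/F` (`Over`) or a point `Q : K →ₐ[F] Ω` (`At`).
-/

set_option autoImplicit false
set_option linter.all false

namespace Crest.Agent.R013.CE3_280

open WithZero Module TensorProduct Polynomial nonZeroDivisors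
open Crest.Agent.R013.RR7_948 Crest.Agent.R013.RR8_948 Crest.Agent.R013.RR9_948
open Crest.Agent.R013.RR11_948 Crest.Agent.R013.RR13_948 Crest.Agent.R013.CE1_280
open Crest.Agent.R013.CE2_280

section Defs

variable {F K Ω L : Type*} [Field F] [Field K] [Algebra F K] [Field Ω] [Algebra F Ω]
  [Field L] [Algebra Ω L] [Algebra F L] [IsScalarTower F Ω L]

/-- the natural map `Ω ⊗ K → L` -/
noncomputable def mu (ι : K →ₐ[F] L) : Ω ⊗[F] K →ₐ[Ω] L :=
  Algebra.TensorProduct.lift (Algebra.ofId Ω L) ι (fun _ _ => Commute.all _ _)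

@[simp] theorem mu_tmul (ι : K →ₐ[F] L) (c : Ω) (f : K) :
    mu ι (c ⊗ₜ f) = algebraMap Ω L c * ι f := by
  simp [mu, Algebra.ofId_apply]

/-- `L` is the constant field extension of `K` to `Ω` -/
structure IsCE (Ω : Type*) [Field Ω] [Algebra F Ω] [Algebra Ω L] [IsScalarTower F Ω L]
    (ι : K →ₐ[F] L) : Prop where
  inj : Function.Injective (mu (Ω := Ω) ι)
  frac : ∀ f : L, ∃ a b : Ω ⊗[F] K, b ≠ 0 ∧ f * mu ι b = mu ι a

/-- the place `w` is centred at the point `Q` -/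
def At (ι : K →ₐ[F] L) (w : Pl Ω L) (Q : K →ₐ[F] Ω) : Prop :=
  ∀ f : K, w.v (ι f - algebraMap Ω L (Q f)) < 1

/-- the place `w` lies over the place `P` of `K` -/
def Over (ι : K →ₐ[F] L) (w : Pl Ω L) (P : Pl F K) : Prop :=
  (∀ f : K, P.v f ≤ 1 → w.v (ι f) ≤ 1) ∧ (∀ f : K, P.v f < 1 → w.v (ι f) < 1)

variable {ι : K →ₐ[F] L} {w : Pl Ω L} {Q : K →ₐ[F] Ω}

theorem IsCE.ne_zero (h : IsCE Ω ι) {t : Ω ⊗[F] K} (ht : t ≠ 0) : mu (Ω := Ω) ι t ≠ 0 := by
  intro h0
  exact ht (h.inj (by rw [h0, map_zero]))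

theorem lt_one_iff_le {x : ℤᵐ⁰} : x < 1 ↔ x ≤ exp (-1) := RR2_948.lt_one_iff x

theorem tmul_ne [Algebra (RatFunc F) K] [IsScalarTower F (RatFunc F) K] (c : Ω) :
    (1 ⊗ₜ xK F K : Ω ⊗[F] K) ≠ c ⊗ₜ 1 := by
  intro h2
  obtain ⟨φ, hφ⟩ := Projective.exists_dual_eq_one F (one_ne_zero : (1 : Ω) ≠ 0)
  have h3 := congrArg (fun t => TensorProduct.lid F K (φ.rTensor K t)) h2
  simp only [LinearMap.rTensor_tmul, TensorProduct.lid_tmul, hφ, one_smul] at h3
  apply xK_notMem_range (F := F) (K := K)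
  exact ⟨φ c, by rw [h3, Algebra.algebraMap_eq_smul_one]⟩

theorem piT_ne_zero [Algebra (RatFunc F) K] [IsScalarTower F (RatFunc F) K] (c : Ω) :
    piT F K c ≠ 0 := fun h0 => tmul_ne c (sub_eq_zero.mp h0)

/-- residue of a tensor -/
theorem At.ev (h : At ι w Q) (t : Ω ⊗[F] K) :
    w.v (mu ι t - algebraMap Ω L (CE2_280.ev Q t)) < 1 := by
  induction t with
  | zero => simp
  | add t t' h h' =>
    rw [map_add, map_add, map_add, add_sub_add_comm]
    exact lt_of_le_of_lt (Valuation.map_add _ _ _) (max_lt h h')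
  | tmul c f =>
    rw [mu_tmul, ev_tmul, map_mul, ← mul_sub, map_mul]
    calc _ ≤ 1 * w.v (ι f - algebraMap Ω L (Q f)) :=
          mul_le_mul_left (v_algebraMap_le w c) _
      _ < 1 := by rw [one_mul]; exact h f

theorem At.le_one (h : At ι w Q) (t : Ω ⊗[F] K) : w.v (mu ι t) ≤ 1 := by
  have h1 : mu ι t = (mu ι t - algebraMap Ω L (CE2_280.ev Q t)) +
      algebraMap Ω L (CE2_280.ev Q t) := by ring
  rw [h1]
  exact (Valuation.map_add _ _ _).trans (max_le (h.ev t).le (v_algebraMap_le w _))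

theorem At.lt_one_iff (h : At ι w Q) (t : Ω ⊗[F] K) :
    w.v (mu ι t) < 1 ↔ CE2_280.ev Q t = 0 := by
  constructor
  · intro h1
    apply v_algebraMap_lt w
    have h2 : algebraMap Ω L (CE2_280.ev Q t) =
        mu ι t - (mu ι t - algebraMap Ω L (CE2_280.ev Q t)) := by ring
    rw [h2]
    exact lt_of_le_of_lt (Valuation.map_sub _ _ _) (max_lt h1 (h.ev t))
  · intro h1
    have := h.ev t
    rwa [h1, map_zero, sub_zero] at this

theorem At.eq_one (h : At ι w Q) {t : Ω ⊗[F] K} (ht : CE2_280.ev Q t ≠ 0) :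
    w.v (mu ι t) = 1 :=
  le_antisymm (h.le_one t) (not_lt.mp fun h1 => ht ((h.lt_one_iff t).mp h1))

theorem At.iota_eq_one (h : At ι w Q) {f : K} (hf : f ≠ 0) : w.v (ι f) = 1 := by
  have h1 : ι f = mu (Ω := Ω) ι (1 ⊗ₜ f) := by simp
  rw [h1]
  apply h.eq_one
  rw [ev_tmul, one_mul]
  exact fun h0 => hf ((Q : K →+* Ω).injective (by rw [map_zero]; exact h0))

/-- the centre of a place which is trivial on `K` -/
theorem exists_At [IsAlgClosed Ω] [Algebra (RatFunc Ω) L] [IsScalarTower Ω (RatFunc Ω) L]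
    [FiniteDimensional (RatFunc Ω) L] [Algebra.IsSeparable (RatFunc Ω) L]
    (hw : ∀ f : K, f ≠ 0 → w.v (ι f) = 1) : ∃ Q : K →ₐ[F] Ω, At ι w Q := by
  have hle : ∀ f : K, w.v (ι f) ≤ 1 := by
    intro f
    by_cases hf : f = 0
    · simp [hf]
    · exact (hw f hf).le
  choose r hr using fun f : K => exists_residue w (hle f)
  have huniq : ∀ f c, w.v (ι f - algebraMap Ω L c) < 1 → r f = c := fun f c h =>
    residue_unique w (hr f) h
  have hrle : ∀ c : Ω, w.v (algebraMap Ω L c) ≤ 1 := v_algebraMap_le w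
  refine ⟨{ toFun := r, map_one' := ?_, map_mul' := ?_, map_zero' := ?_, map_add' := ?_,
            commutes' := ?_ }, hr⟩
  · apply huniq; simp
  · intro f g
    apply huniq
    have : ι (f * g) - algebraMap Ω L (r f * r g) =
        ι f * (ι g - algebraMap Ω L (r g)) + (ι f - algebraMap Ω L (r f)) *
          algebraMap Ω L (r g) := by
      rw [map_mul, map_mul]; ring
    rw [this]
    refine lt_of_le_of_lt (Valuation.map_add _ _ _) (max_lt ?_ ?_)
    · rw [map_mul]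
      calc _ ≤ 1 * w.v (ι g - algebraMap Ω L (r g)) := mul_le_mul_left (hle f) _
        _ < 1 := by rw [one_mul]; exact hr g
    · rw [map_mul]
      calc _ ≤ w.v (ι f - algebraMap Ω L (r f)) * 1 := mul_le_mul_right (hrle _) _
        _ < 1 := by rw [mul_one]; exact hr f
  · apply huniq; simp
  · intro f g
    apply huniq
    have : ι (f + g) - algebraMap Ω L (r f + r g) =
        (ι f - algebraMap Ω L (r f)) + (ι g - algebraMap Ω L (r g)) := by
      rw [map_add, map_add]; ring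
    rw [this]
    exact lt_of_le_of_lt (Valuation.map_add _ _ _) (max_lt (hr f) (hr g))
  · intro c
    apply huniq
    rw [AlgHom.commutes, ← IsScalarTower.algebraMap_apply, sub_self, map_zero]
    exact zero_lt_one

end Defs

section Points

variable {F K Ω L : Type*} [Field F] [IsAlgClosed F] [Field K] [Algebra F K]
  [Algebra (RatFunc F) K] [IsScalarTower F (RatFunc F) K] [FiniteDimensional (RatFunc F) K]
  [Algebra.IsSeparable (RatFunc F) K]
  [Field Ω] [Algebra F Ω] [IsAlgClosed Ω]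
  [Field L] [Algebra Ω L] [Algebra F L] [IsScalarTower F Ω L]
  {ι : K →ₐ[F] L} {w w' : Pl Ω L} {Q : K →ₐ[F] Ω}

omit [IsAlgClosed F] [IsScalarTower F (RatFunc F) K] [FiniteDimensional (RatFunc F) K]
  [Algebra.IsSeparable (RatFunc F) K] [IsAlgClosed Ω] in
theorem At.pi_lt (h : At ι w Q) : w.v (mu ι (piT F K (Q (xK F K)))) ≤ exp (-1) := by
  rw [← lt_one_iff_le, h.lt_one_iff, ev_piT, sub_self]

/-- local form of an element of `Ω ⊗ K` at a point -/
theorem At.exists_form_aux (hι : IsCE Ω ι) (h : At ι w Q) (m : ℕ) :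
    ∀ t : Ω ⊗[F] K, t ≠ 0 → exp (-(m : ℤ)) ≤ w.v (mu ι t) →
    ∃ (k : ℕ) (e t' : Ω ⊗[F] K), CE2_280.ev Q e ≠ 0 ∧ CE2_280.ev Q t' ≠ 0 ∧
      e * t = piT F K (Q (xK F K)) ^ k * t' := by
  induction m with
  | zero =>
    intro t ht hm
    refine ⟨0, 1, t, by simp, ?_, by simp⟩
    intro h0
    rw [← h.lt_one_iff] at h0
    simp at hm
    exact absurd h0 (not_lt.mpr hm)
  | succ m ih =>
    intro t ht hm
    by_cases h0 : CE2_280.ev Q t = 0
    · obtain ⟨e, t', he, het⟩ := exists_mul_eq Q (transcendental_x Q) h0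
      have he0 : e ≠ 0 := by
        rintro rfl
        simp at he
      have ht' : t' ≠ 0 := by
        rintro rfl
        rw [mul_zero] at het
        exact (mul_ne_zero he0 ht) het
      have h1 := congrArg (fun s => w.v (mu ι s)) het
      simp only [map_mul] at h1
      rw [h.eq_one (by rw [he]; exact one_ne_zero), one_mul] at h1
      obtain ⟨k, e', t'', he', ht'', heq⟩ := ih t' ht' (by
        have h2 : exp (-((m + 1 : ℕ) : ℤ)) ≤ exp (-1) * w.v (mu ι t') := by
          refine hm.trans ?_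
          rw [h1]
          exact mul_le_mul_left h.pi_lt _
        have h3 : exp (-((m + 1 : ℕ) : ℤ)) = exp (-1) * exp (-(m : ℤ)) := by
          rw [← exp_add]; congr 1; push_cast; ring
        rw [h3] at h2
        exact (mul_le_mul_iff_right₀ (by simp)).mp h2)
      refine ⟨k + 1, e' * e, t'', ?_, ht'', ?_⟩
      · rw [map_mul, he, mul_one]; exact he'
      · rw [mul_assoc, het, pow_succ, mul_assoc, mul_left_comm, heq]
        ring
    · exact ⟨0, 1, t, by simp, h0, by simp⟩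

theorem At.exists_form_T (hι : IsCE Ω ι) (h : At ι w Q) {t : Ω ⊗[F] K} (ht : t ≠ 0) :
    ∃ (k : ℕ) (e t' : Ω ⊗[F] K), CE2_280.ev Q e ≠ 0 ∧ CE2_280.ev Q t' ≠ 0 ∧
      e * t = piT F K (Q (xK F K)) ^ k * t' := by
  have h1 : w.v (mu ι t) ≠ 0 := (Valuation.ne_zero_iff _).mpr (hι.ne_zero ht)
  refine h.exists_form_aux hι (-log (w.v (mu ι t))).toNat t ht ?_
  conv_rhs => rw [← exp_log h1]
  rw [exp_le_exp]
  have h2 := Int.self_le_toNat (-log (w.v (mu ι t)))
  omega

/-- local form of an element of `L` at a point -/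
theorem At.exists_form (hι : IsCE Ω ι) (h : At ι w Q) {f : L} (hf : f ≠ 0) :
    ∃ (k : ℤ) (u₁ u₂ : Ω ⊗[F] K), CE2_280.ev Q u₁ ≠ 0 ∧ CE2_280.ev Q u₂ ≠ 0 ∧
      f * mu ι u₂ = mu ι (piT F K (Q (xK F K))) ^ k * mu ι u₁ := by
  obtain ⟨a, b, hb, hab⟩ := hι.frac f
  have ha : a ≠ 0 := by
    rintro rfl
    rw [map_zero] at hab
    exact (mul_ne_zero hf (hι.ne_zero hb)) hab
  obtain ⟨k, e, t, he, ht, heq⟩ := h.exists_form_T hι ha
  obtain ⟨k', e', t', he', ht', heq'⟩ := h.exists_form_T hι hb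
  have hpi : mu ι (piT F K (Q (xK F K))) ≠ 0 := hι.ne_zero (piT_ne_zero _)
  refine ⟨(k : ℤ) - k', t * e', e * t', ?_, ?_, ?_⟩
  · rw [map_mul]; exact mul_ne_zero ht he'
  · rw [map_mul]; exact mul_ne_zero he ht'
  · have h1 := congrArg (mu ι) heq
    have h2 := congrArg (mu ι) heq'
    rw [map_mul, map_mul, map_pow] at h1 h2
    have h3 : mu ι b ≠ 0 := hι.ne_zero hb
    have hpk : mu ι (piT F K (Q (xK F K))) ^ k' ≠ 0 := pow_ne_zero _ hpi
    rw [zpow_sub₀ hpi, zpow_natCast, zpow_natCast, map_mul, map_mul]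
    rw [div_mul_eq_mul_div, eq_div_iff hpk]
    apply mul_right_cancel₀ h3
    calc f * (mu ι e * mu ι t') * mu ι (piT F K (Q (xK F K))) ^ k' * mu ι b
        = (f * mu ι b) * mu ι e * (mu ι (piT F K (Q (xK F K))) ^ k' * mu ι t') := by ring
      _ = mu ι a * mu ι e * (mu ι e' * mu ι b) := by rw [hab, h2]
      _ = (mu ι e * mu ι a) * mu ι e' * mu ι b := by ring
      _ = _ := by rw [h1]; ring

theorem At.v_eq_zpow (hι : IsCE Ω ι) (h : At ι w Q) {f : L} {k : ℤ} {u₁ u₂ : Ω ⊗[F] K}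
    (h₁ : CE2_280.ev Q u₁ ≠ 0) (h₂ : CE2_280.ev Q u₂ ≠ 0)
    (hf : f * mu ι u₂ = mu ι (piT F K (Q (xK F K))) ^ k * mu ι u₁) :
    w.v f = w.v (mu ι (piT F K (Q (xK F K)))) ^ k := by
  have h3 := congrArg w.v hf
  rwa [map_mul, map_mul, h.eq_one h₁, h.eq_one h₂, mul_one, mul_one, map_zpow₀] at h3

/-- `x - Q(x)` is a uniformizer at `Q` -/
theorem At.v_pi (hι : IsCE Ω ι) (h : At ι w Q) :
    w.v (mu ι (piT F K (Q (xK F K)))) = exp (-1) := by
  obtain ⟨f, hf⟩ := w.surj (exp (-1))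
  have hf0 : f ≠ 0 := by
    rintro rfl; rw [map_zero] at hf; exact exp_ne_zero hf.symm
  obtain ⟨k, u₁, u₂, h₁, h₂, heq⟩ := h.exists_form hι hf0
  have h3 := h.v_eq_zpow hι h₁ h₂ heq
  have h4 := h.pi_lt
  have h5 : w.v (mu ι (piT F K (Q (xK F K)))) ≠ 0 := by
    intro h0
    rw [h0, hf] at h3
    by_cases hk : k = 0
    · rw [hk, zpow_zero, ← exp_zero, exp_inj] at h3
      omega
    · rw [zero_zpow k hk] at h3
      exact exp_ne_zero h3
  obtain ⟨m, hm⟩ : ∃ m : ℤ, w.v (mu ι (piT F K (Q (xK F K)))) = exp m :=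
    ⟨_, (exp_log h5).symm⟩
  rw [hm] at h3 h4 ⊢
  rw [exp_le_exp] at h4
  rw [hf, ← exp_zsmul, exp_inj, smul_eq_mul] at h3
  have h6 : m ∣ 1 := ⟨-k, by linear_combination -h3⟩
  have h7 := Int.isUnit_iff.mp (isUnit_of_dvd_one h6)
  congr 1
  omega

theorem At.v_eq (hι : IsCE Ω ι) (h : At ι w Q) {f : L} {k : ℤ} {u₁ u₂ : Ω ⊗[F] K}
    (h₁ : CE2_280.ev Q u₁ ≠ 0) (h₂ : CE2_280.ev Q u₂ ≠ 0)
    (hf : f * mu ι u₂ = mu ι (piT F K (Q (xK F K))) ^ k * mu ι u₁) :
    w.v f = exp (-k) := by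
  rw [h.v_eq_zpow hι h₁ h₂ hf, h.v_pi hι, ← exp_zsmul]
  simp

theorem At.unique (hι : IsCE Ω ι) (h : At ι w Q) (h' : At ι w' Q) : w = w' := by
  apply Pl.ext
  ext f
  by_cases hf : f = 0
  · simp [hf]
  · obtain ⟨k, u₁, u₂, h₁, h₂, heq⟩ := h.exists_form hι hf
    rw [h.v_eq hι h₁ h₂ heq, h'.v_eq hι h₁ h₂ heq]

omit [IsAlgClosed F] [Algebra (RatFunc F) K] [IsScalarTower F (RatFunc F) K]
  [FiniteDimensional (RatFunc F) K] [Algebra.IsSeparable (RatFunc F) K] [IsAlgClosed Ω] in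
theorem At.unique_point {Q' : K →ₐ[F] Ω} (h : At ι w Q) (h' : At ι w Q') : Q = Q' := by
  ext f
  exact residue_unique w (h f) (h' f)

variable [Algebra (RatFunc Ω) L] [IsScalarTower Ω (RatFunc Ω) L]
  [FiniteDimensional (RatFunc Ω) L] [Algebra.IsSeparable (RatFunc Ω) L]

omit [IsAlgClosed Ω] [FiniteDimensional (RatFunc F) K] [Algebra.IsSeparable (RatFunc F) K] in
/-- existence of the place of a point -/
theorem exists_place_At (hι : IsCE Ω ι) (Q : K →ₐ[F] Ω) : ∃ w : Pl Ω L, At ι w Q := by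
  let e := AlgEquiv.ofInjective (mu (Ω := Ω) ι) hι.inj
  let ψ : (mu (Ω := Ω) ι).range →ₐ[Ω] Ω := (CE2_280.ev Q).comp e.symm.toAlgHom
  have hψ : ∀ t : Ω ⊗[F] K, ψ ⟨mu ι t, ⟨t, rfl⟩⟩ = CE2_280.ev Q t := by
    intro t
    have : e.symm ⟨mu ι t, ⟨t, rfl⟩⟩ = t := by
      rw [AlgEquiv.symm_apply_eq]
      rfl
    show CE2_280.ev Q (e.symm ⟨mu ι t, ⟨t, rfl⟩⟩) = _
    rw [this]
  obtain ⟨w, hw⟩ := exists_pl_of_hom (mu (Ω := Ω) ι).range ψ (by
    refine ⟨⟨mu (Ω := Ω) ι (1 ⊗ₜ[F] xK F K), ⟨_, rfl⟩⟩, ?_⟩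
    rw [hψ]
    intro h0
    refine tmul_ne (F := F) (K := K) (CE2_280.ev Q (1 ⊗ₜ[F] xK F K)) (hι.inj ?_)
    rw [mu_tmul ι (CE2_280.ev Q (1 ⊗ₜ[F] xK F K)) 1, map_one, mul_one]
    exact h0)
  refine ⟨w, fun f => ?_⟩
  have h1 := hw ⟨mu (Ω := Ω) ι (1 ⊗ₜ[F] f), ⟨_, rfl⟩⟩
  rw [hψ] at h1
  simpa using h1

/-- the place of `L` attached to a point -/
noncomputable def plQ (hι : IsCE Ω ι) (Q : K →ₐ[F] Ω) : Pl Ω L := (exists_place_At hι Q).choose

omit [IsAlgClosed Ω] [FiniteDimensional (RatFunc F) K] [Algebra.IsSeparable (RatFunc F) K] in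
theorem plQ_At (hι : IsCE Ω ι) (Q : K →ₐ[F] Ω) : At ι (plQ hι Q) Q :=
  (exists_place_At hι Q).choose_spec

omit [IsAlgClosed Ω] [FiniteDimensional (RatFunc F) K] [Algebra.IsSeparable (RatFunc F) K] in
theorem plQ_injective (hι : IsCE Ω ι) : Function.Injective (plQ hι) := by
  intro Q Q' h
  have h1 := plQ_At hι Q
  rw [h] at h1
  exact h1.unique_point (plQ_At hι Q')

end Points

end Crest.Agent.R013.CE3_280
end

-- ▼ part R013/CE4_280
section

/-!
# R013 / CE4: places of `L = K_Ω` over the places of `K` (helper280)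
-/

set_option autoImplicit false
set_option linter.all false

namespace Crest.Agent.R013.CE3_280

open WithZero Module TensorProduct Polynomial nonZeroDivisors
open Crest.Agent.R013.RR7_948 Crest.Agent.R013.RR8_948 Crest.Agent.R013.RR9_948
open Crest.Agent.R013.RR11_948 Crest.Agent.R013.RR13_948 Crest.Agent.R013.CE1_280
open Crest.Agent.R013.CE2_280 Crest.Agent.R013.CE3_280

section Const

variable {F K Ω L : Type*} [Field F] [IsAlgClosed F] [Field K] [Algebra F K]
  [Algebra (RatFunc F) K] [IsScalarTower F (RatFunc F) K] [FiniteDimensional (RatFunc F) K]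
  [Algebra.IsSeparable (RatFunc F) K]
  [Field Ω] [Algebra F Ω]
  [Field L] [Algebra Ω L] [Algebra F L] [IsScalarTower F Ω L]
  {ι : K →ₐ[F] L} {w w' : Pl Ω L} {P : Pl F K}

theorem exists_Over (hw : ¬ ∀ f : K, f ≠ 0 → w.v (ι f) = 1) : ∃ P : Pl F K, Over ι w P := by
  push Not at hw
  obtain ⟨f, hf0, hf⟩ := hw
  obtain ⟨P, hP⟩ := exists_place (k := F) (w.v.comap (ι : K →+* L)) (by
    intro c hc
    rw [Valuation.comap_apply]
    show w.v (ι (algebraMap F K c)) = 1
    rw [AlgHom.commutes, IsScalarTower.algebraMap_apply F Ω L]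
    exact w.const _ (by simpa using hc)) ⟨f, by
      rw [Valuation.comap_apply]
      exact ⟨(Valuation.ne_zero_iff _).mpr (by simpa using hf0), hf⟩⟩
  exact ⟨P, fun g hg => hP.le_one_iff_le_one.mp hg, fun g hg => hP.lt_one_iff_lt_one.mp hg⟩

omit [IsAlgClosed F] [Algebra (RatFunc F) K] [IsScalarTower F (RatFunc F) K]
  [FiniteDimensional (RatFunc F) K] [Algebra.IsSeparable (RatFunc F) K] in
theorem Over.iota_eq_one (h : Over ι w P) {f : K} (hf : P.v f = 1) : w.v (ι f) = 1 := by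
  have hf0 : f ≠ 0 := by
    rintro rfl; simp at hf
  refine le_antisymm (h.1 f hf.le) ?_
  have h1 := h.1 f⁻¹ (by rw [map_inv₀, hf, inv_one])
  rw [map_inv₀, map_inv₀] at h1
  have h2 : 0 < w.v (ι f) := by
    rw [Valuation.pos_iff]; simpa using hf0
  exact (inv_le_one₀ h2).mp h1

omit [IsAlgClosed F] [Algebra (RatFunc F) K] [IsScalarTower F (RatFunc F) K]
  [FiniteDimensional (RatFunc F) K] [Algebra.IsSeparable (RatFunc F) K] in
theorem Over.v_zpow (h : Over ι w P) {u : K} (hu : P.v u = exp (-1)) {f : K} {n : ℤ}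
    (hf : P.v f = exp n) : w.v (ι f) = w.v (ι u) ^ (-n) := by
  have hu0 : u ≠ 0 := by
    rintro rfl; rw [map_zero] at hu; exact exp_ne_zero hu.symm
  have h1 := h.iota_eq_one (f := f * u ^ n) (by
    rw [map_mul, map_zpow₀, hf, hu, ← exp_zsmul, ← exp_add]; simp)
  rw [map_mul, map_zpow₀, map_mul, map_zpow₀] at h1
  rw [zpow_neg]
  exact eq_inv_of_mul_eq_one_left h1

/-- value of a tensor in terms of a linearly independent family of `Ω / F` (Gauss) -/
theorem Over.gauss (h : Over ι w P) {u : K} (hu : P.v u = exp (-1)) {κ : Type*}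
    {b : κ → Ω} (hb : LinearIndependent F b) (c : κ →₀ K) (n : ℤ)
    (hle : ∀ i, P.v (c i) ≤ exp n) {i₀ : κ}
    (hi₀ : P.v (c i₀) = exp n) :
    w.v (mu ι (c.sum fun i f => b i ⊗ₜ f)) = w.v (ι u) ^ (-n) := by
  classical
  have hu0 : u ≠ 0 := by
    rintro rfl; rw [map_zero] at hu; exact exp_ne_zero hu.symm
  have hg : ∀ i, P.v (c i * u ^ n) ≤ 1 := by
    intro i
    rw [map_mul, map_zpow₀, hu, ← exp_zsmul]
    calc _ ≤ exp n * exp (n • (-1)) := mul_le_mul_left (hle i) _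
      _ = 1 := by rw [← exp_add]; simp
  choose r hr using fun i => exists_residue P (hg i)
  have hr0 : r i₀ ≠ 0 := by
    intro h0
    have h1 := hr i₀
    rw [h0, map_zero, sub_zero, map_mul, map_zpow₀, hi₀, hu, ← exp_zsmul, ← exp_add] at h1
    simp at h1
  have hsum : algebraMap Ω L (∑ i ∈ c.support, r i • b i) ≠ 0 := by
    rw [ne_eq, map_eq_zero]
    intro h0
    have h1 := linearIndependent_iff'.mp hb c.support r h0 i₀ (by
      rw [Finsupp.mem_support_iff]
      intro h2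
      rw [h2, map_zero] at hi₀
      exact exp_ne_zero hi₀.symm)
    exact hr0 h1
  have hs1 : w.v (algebraMap Ω L (∑ i ∈ c.support, r i • b i)) = 1 :=
    w.const _ (fun h0 => hsum (by rw [h0, map_zero]))
  have hdiff : mu ι (c.sum fun i f => b i ⊗ₜ f) * ι u ^ n -
      algebraMap Ω L (∑ i ∈ c.support, r i • b i) =
      ∑ i ∈ c.support, algebraMap Ω L (b i) * ι (c i * u ^ n - algebraMap F K (r i)) := by
    rw [Finsupp.sum, map_sum, Finset.sum_mul, map_sum, ← Finset.sum_sub_distrib]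
    refine Finset.sum_congr rfl fun i _ => ?_
    rw [mu_tmul, map_sub, map_mul, map_zpow₀, AlgHom.commutes, Algebra.smul_def, map_mul,
      ← IsScalarTower.algebraMap_apply]
    ring
  have hlt : w.v (mu ι (c.sum fun i f => b i ⊗ₜ f) * ι u ^ n -
      algebraMap Ω L (∑ i ∈ c.support, r i • b i)) < 1 := by
    rw [hdiff]
    refine Valuation.map_sum_lt _ one_ne_zero fun i _ => ?_
    rw [map_mul]
    calc _ ≤ 1 * w.v (ι (c i * u ^ n - algebraMap F K (r i))) :=
          mul_le_mul_left (v_algebraMap_le w _) _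
      _ < 1 := by rw [one_mul]; exact h.2 _ (hr i)
  have h1 : w.v (mu ι (c.sum fun i f => b i ⊗ₜ f) * ι u ^ n) = 1 := by
    have h2 := Valuation.map_add_eq_of_lt_right (v := w.v)
      (x := mu ι (c.sum fun i f => b i ⊗ₜ f) * ι u ^ n -
        algebraMap Ω L (∑ i ∈ c.support, r i • b i))
      (y := algebraMap Ω L (∑ i ∈ c.support, r i • b i)) (by rw [hs1]; exact hlt)
    rw [sub_add_cancel, hs1] at h2
    exact h2
  rw [map_mul, map_zpow₀] at h1
  rw [zpow_neg]
  exact eq_inv_of_mul_eq_one_left h1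

omit [IsAlgClosed F] [Algebra (RatFunc F) K] [IsScalarTower F (RatFunc F) K]
  [FiniteDimensional (RatFunc F) K] [Algebra.IsSeparable (RatFunc F) K] in
theorem exists_max {κ : Type*} (P : Pl F K) {c : κ →₀ K} (hc : c ≠ 0) :
    ∃ (n : ℤ) (i₀ : κ), P.v (c i₀) = exp n ∧ ∀ i, P.v (c i) ≤ exp n := by
  classical
  have hne : c.support.Nonempty := Finsupp.support_nonempty_iff.mpr hc
  obtain ⟨i₀, hi₀, hmax⟩ := Finset.exists_max_image c.support (fun i => P.v (c i)) hne
  have h1 : P.v (c i₀) ≠ 0 := (Valuation.ne_zero_iff _).mpr (Finsupp.mem_support_iff.mp hi₀)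
  refine ⟨log (P.v (c i₀)), i₀, (exp_log h1).symm, ?_⟩
  intro i
  rw [exp_log h1]
  by_cases hi : c i = 0
  · rw [hi, map_zero]; exact zero_le
  · exact hmax i (Finsupp.mem_support_iff.mpr hi)

theorem Over.v_u (hι : IsCE Ω ι) (h : Over ι w P) {u : K} (hu : P.v u = exp (-1)) :
    w.v (ι u) = exp (-1) := by
  classical
  let b := Basis.ofVectorSpace F Ω
  have hu0 : u ≠ 0 := by
    rintro rfl; rw [map_zero] at hu; exact exp_ne_zero hu.symm
  have key : ∀ t : Ω ⊗[F] K, t ≠ 0 → ∃ n : ℤ, w.v (mu ι t) = w.v (ι u) ^ n := by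
    intro t ht
    obtain ⟨c, rfl⟩ := TensorProduct.eq_repr_basis_left b t
    obtain ⟨n, i₀, hi₀, hle⟩ := exists_max P (c := c) (by
      rintro rfl; exact ht (by simp))
    exact ⟨-n, h.gauss hu b.linearIndependent c n hle hi₀⟩
  obtain ⟨f, hf⟩ := w.surj (exp (-1))
  have hf0 : f ≠ 0 := by
    rintro rfl; rw [map_zero] at hf; exact exp_ne_zero hf.symm
  obtain ⟨a, b', hb', hab⟩ := hι.frac f
  have ha : a ≠ 0 := by
    rintro rfl
    rw [map_zero] at hab
    exact (mul_ne_zero hf0 (hι.ne_zero hb')) hab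
  obtain ⟨n, hn⟩ := key a ha
  obtain ⟨n', hn'⟩ := key b' hb'
  have h5 : w.v (ι u) ≠ 0 := (Valuation.ne_zero_iff _).mpr (by simpa using hu0)
  have h3 : exp (-1) = w.v (ι u) ^ (n - n') := by
    have h6 := congrArg w.v hab
    rw [map_mul, hn, hn', hf] at h6
    rw [zpow_sub₀ h5, ← h6, mul_div_assoc, div_self (zpow_ne_zero _ h5), mul_one]
  have h4 : w.v (ι u) ≤ exp (-1) := by
    rw [← lt_one_iff_le]
    apply h.2
    rw [hu, ← exp_zero, exp_lt_exp]; norm_num
  obtain ⟨m, hm⟩ : ∃ m : ℤ, w.v (ι u) = exp m := ⟨_, (exp_log h5).symm⟩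
  rw [hm] at h3 h4 ⊢
  rw [exp_le_exp] at h4
  rw [← exp_zsmul, exp_inj, smul_eq_mul] at h3
  have h6 : m ∣ 1 := ⟨-(n - n'), by linear_combination -h3⟩
  have h7 := Int.isUnit_iff.mp (isUnit_of_dvd_one h6)
  congr 1
  omega

theorem Over.v_iota (hι : IsCE Ω ι) (h : Over ι w P) (f : K) : w.v (ι f) = P.v f := by
  obtain ⟨u, hu⟩ := P.surj (exp (-1))
  by_cases hf : f = 0
  · simp [hf]
  · have h1 : P.v f = exp (log (P.v f)) := (exp_log ((Valuation.ne_zero_iff _).mpr hf)).symm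
    rw [h.v_zpow hu h1, h.v_u hι hu, ← exp_zsmul]
    conv_rhs => rw [h1]
    simp

theorem Over.v_sum_eq' (hι : IsCE Ω ι) (h : Over ι w P) {κ : Type*} {b : κ → Ω}
    (hb : LinearIndependent F b)
    (c : κ →₀ K) (n : ℤ) (hle : ∀ i, P.v (c i) ≤ exp n) {i₀ : κ} (hi₀ : P.v (c i₀) = exp n) :
    w.v (mu ι (c.sum fun i f => b i ⊗ₜ f)) = exp n := by
  obtain ⟨u, hu⟩ := P.surj (exp (-1))
  rw [h.gauss hu hb c n hle hi₀, h.v_u hι hu, ← exp_zsmul]
  simp

theorem Over.v_sum_eq (hι : IsCE Ω ι) (h : Over ι w P) {κ : Type*} (b : Basis κ F Ω)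
    (c : κ →₀ K) (n : ℤ) (hle : ∀ i, P.v (c i) ≤ exp n) {i₀ : κ} (hi₀ : P.v (c i₀) = exp n) :
    w.v (mu ι (c.sum fun i f => b i ⊗ₜ f)) = exp n :=
  h.v_sum_eq' hι b.linearIndependent c n hle hi₀

theorem Over.v_sum_le_iff (hι : IsCE Ω ι) (h : Over ι w P) {κ : Type*} (b : Basis κ F Ω)
    (c : κ →₀ K) (n : ℤ) :
    w.v (mu ι (c.sum fun i f => b i ⊗ₜ f)) ≤ exp n ↔ ∀ i, P.v (c i) ≤ exp n := by
  by_cases hc : c = 0
  · subst hc; simp
  · obtain ⟨m, i₀, hi₀, hle⟩ := exists_max P hc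
    rw [h.v_sum_eq hι b c m hle hi₀]
    constructor
    · intro h1 i
      exact (hle i).trans h1
    · intro h1
      rw [← hi₀]
      exact h1 i₀

theorem Over.unique (hι : IsCE Ω ι) (h : Over ι w P) (h' : Over ι w' P) : w = w' := by
  classical
  let b := Basis.ofVectorSpace F Ω
  have key : ∀ t : Ω ⊗[F] K, w.v (mu ι t) = w'.v (mu ι t) := by
    intro t
    by_cases ht : t = 0
    · simp [ht]
    · obtain ⟨c, rfl⟩ := TensorProduct.eq_repr_basis_left b t
      obtain ⟨n, i₀, hi₀, hle⟩ := exists_max P (c := c) (by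
        rintro rfl; exact ht (by simp))
      rw [h.v_sum_eq hι b c n hle hi₀, h'.v_sum_eq hι b c n hle hi₀]
  apply Pl.ext
  ext f
  obtain ⟨a, b', hb', hab⟩ := hι.frac f
  have h1 := congrArg w.v hab
  have h2 := congrArg w'.v hab
  rw [map_mul, key a, key b'] at h1
  rw [map_mul, ← h1] at h2
  exact (mul_right_cancel₀ ((Valuation.ne_zero_iff _).mpr (hι.ne_zero hb')) h2).symm

theorem Over.unique_place (hι : IsCE Ω ι) {P' : Pl F K} (h : Over ι w P) (h' : Over ι w P') :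
    P = P' := by
  apply Pl.ext
  ext f
  rw [← h.v_iota hι, ← h'.v_iota hι]

/-- a place is not both over a place of `K` and centred at a point -/
theorem Over.not_At (hι : IsCE Ω ι) (h : Over ι w P) {Q : K →ₐ[F] Ω} (h' : At ι w Q) : False := by
  obtain ⟨u, hu⟩ := P.surj (exp (-1))
  have hu0 : u ≠ 0 := by
    rintro rfl; rw [map_zero] at hu; exact exp_ne_zero hu.symm
  have h1 := h.v_u hι hu
  rw [h'.iota_eq_one hu0, ← exp_zero, exp_inj] at h1
  omega

end Const

section Exist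

variable {F K Ω L : Type*} [Field F] [IsAlgClosed F] [Field K] [Algebra F K]
  [Algebra (RatFunc F) K] [IsScalarTower F (RatFunc F) K] [FiniteDimensional (RatFunc F) K]
  [Algebra.IsSeparable (RatFunc F) K]
  [Field Ω] [Algebra F Ω]
  [Field L] [Algebra Ω L] [Algebra F L] [IsScalarTower F Ω L]
  [Algebra (RatFunc Ω) L] [IsScalarTower Ω (RatFunc Ω) L]
  [FiniteDimensional (RatFunc Ω) L] [Algebra.IsSeparable (RatFunc Ω) L]
  {ι : K →ₐ[F] L}

/-- the valuation ring of a place as a subalgebra -/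
def valSub (P : Pl F K) : Subalgebra F K where
  carrier := {f | P.v f ≤ 1}
  mul_mem' {a b} ha hb := by
    simp only [Set.mem_ofPred_eq] at ha hb ⊢
    rw [map_mul]
    exact mul_le_one' ha hb
  add_mem' {a b} ha hb := by
    simp only [Set.mem_ofPred_eq] at ha hb ⊢
    exact (Valuation.map_add _ _ _).trans (max_le ha hb)
  algebraMap_mem' c := v_algebraMap_le P c

omit [IsAlgClosed F] [Algebra (RatFunc F) K] [IsScalarTower F (RatFunc F) K]
  [FiniteDimensional (RatFunc F) K] [Algebra.IsSeparable (RatFunc F) K] in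
theorem mem_valSub {P : Pl F K} {f : K} : f ∈ valSub P ↔ P.v f ≤ 1 := by
  rw [← SetLike.mem_coe]; simp [valSub]

omit [IsAlgClosed F] [FiniteDimensional (RatFunc F) K] [Algebra.IsSeparable (RatFunc F) K]
  [Algebra (RatFunc F) K] [IsScalarTower F (RatFunc F) K] in
theorem exists_place_Over (hι : IsCE Ω ι) (P : Pl F K) : ∃ w : Pl Ω L, Over ι w P := by
  obtain ⟨u, hu⟩ := P.surj (exp (-1))
  have hu0 : u ≠ 0 := by
    rintro rfl; rw [map_zero] at hu; exact exp_ne_zero hu.symm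
  have hu1 : P.v u ≤ 1 := by rw [hu, ← exp_zero, exp_le_exp]; norm_num
  let m : Ω ⊗[F] (valSub P) →ₐ[Ω] Ω ⊗[F] K :=
    Algebra.TensorProduct.map (AlgHom.id Ω Ω) (valSub P).val
  let O : Subalgebra Ω L := ((mu (Ω := Ω) ι).comp m).range
  have hO : ∀ f : K, P.v f ≤ 1 → ι f ∈ O := by
    intro f hf
    refine ⟨(1 : Ω) ⊗ₜ[F] (⟨f, mem_valSub.mpr hf⟩ : valSub P), ?_⟩
    show mu ι (m ((1 : Ω) ⊗ₜ[F] (⟨f, mem_valSub.mpr hf⟩ : valSub P))) = ι f
    simp [m]
  obtain ⟨φ, hφ⟩ := Projective.exists_dual_eq_one F (one_ne_zero : (1 : Ω) ≠ 0)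
  let Φ : Ω ⊗[F] K →ₗ[F] K := (TensorProduct.lid F K).toLinearMap.comp (φ.rTensor K)
  have hΦ1 : ∀ t : Ω ⊗[F] (valSub P), P.v (Φ (m t)) ≤ 1 := by
    intro t
    induction t with
    | zero => simp
    | add t t' h h' =>
      rw [map_add, map_add]
      exact (Valuation.map_add _ _ _).trans (max_le h h')
    | tmul c f =>
      have : Φ (m (c ⊗ₜ f)) = algebraMap F K (φ c) * (f : K) := by
        simp [Φ, m, Algebra.smul_def]
      rw [this, map_mul]
      exact mul_le_one' (v_algebraMap_le P _) (mem_valSub.mp f.2)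
  have hΦ2 : ∀ t : Ω ⊗[F] K, Φ (t * (1 ⊗ₜ u)) = Φ t * u := by
    intro t
    induction t with
    | zero => simp
    | add t t' h h' => rw [add_mul, map_add, map_add, h, h', add_mul]
    | tmul c f =>
      rw [Algebra.TensorProduct.tmul_mul_tmul, mul_one]
      simp [Φ, smul_mul_assoc]
  let I : Ideal O := Ideal.span {⟨ι u, hO u hu1⟩}
  obtain ⟨w, hw, hw1⟩ := exists_pl_of_ideal O I (by
    intro htop
    have h1 : (1 : O) ∈ I := by rw [htop]; trivial
    rw [Ideal.mem_span_singleton'] at h1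
    obtain ⟨⟨a, t, rfl⟩, ha⟩ := h1
    have h2 := congrArg (Subtype.val) ha
    have h3 : mu ι (m t * (1 ⊗ₜ u)) = mu ι (1 : Ω ⊗[F] K) := by
      rw [map_mul, map_one]
      have h4 : mu (Ω := Ω) ι (1 ⊗ₜ u) = ι u := by simp
      rw [h4]
      exact h2
    have h4 := congrArg Φ (hι.inj h3)
    rw [hΦ2] at h4
    have h5 : Φ 1 = 1 := by
      rw [Algebra.TensorProduct.one_def]
      simp [Φ, hφ]
    have h6 := congrArg P.v h4
    rw [h5, map_one, map_mul, hu] at h6
    have h7 : (1 : ℤᵐ⁰) ≤ exp (-1) := by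
      calc 1 = P.v (Φ (m t)) * exp (-1) := h6.symm
        _ ≤ 1 * exp (-1) := mul_le_mul_left (hΦ1 t) _
        _ = exp (-1) := one_mul _
    rw [← exp_zero, exp_le_exp] at h7
    omega) ⟨⟨ι u, hO u hu1⟩, Ideal.subset_span rfl, by simpa using hu0⟩
  have hwu : w.v (ι u) < 1 := hw1 _ (Ideal.subset_span rfl)
  refine ⟨w, fun f hf => hw ⟨ι f, hO f hf⟩, fun f hf => ?_⟩
  have h1 : P.v (f * u⁻¹) ≤ 1 := by
    rw [lt_one_iff_le] at hf
    rw [map_mul, map_inv₀, hu, ← exp_neg]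
    calc _ ≤ exp (-1) * exp (- -1) := mul_le_mul_left hf _
      _ = 1 := by rw [← exp_add]; simp
  have h2 := hw ⟨_, hO _ h1⟩
  have h3 : ι f = ι (f * u⁻¹) * ι u := by
    rw [← map_mul, mul_assoc, inv_mul_cancel₀ hu0, mul_one]
  rw [h3, map_mul]
  calc _ ≤ 1 * w.v (ι u) := mul_le_mul_left h2 _
    _ < 1 := by rw [one_mul]; exact hwu

/-- the place of `L` over a place of `K` -/
noncomputable def conP (hι : IsCE Ω ι) (P : Pl F K) : Pl Ω L := (exists_place_Over hι P).choose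

omit [IsAlgClosed F] [FiniteDimensional (RatFunc F) K] [Algebra.IsSeparable (RatFunc F) K]
  [Algebra (RatFunc F) K] [IsScalarTower F (RatFunc F) K] in
theorem conP_Over (hι : IsCE Ω ι) (P : Pl F K) : Over ι (conP hι P) P :=
  (exists_place_Over hι P).choose_spec

theorem conP_injective (hι : IsCE Ω ι) : Function.Injective (conP hι) := by
  intro P P' h
  have h1 := conP_Over hι P
  rw [h] at h1
  exact h1.unique_place hι (conP_Over hι P')

theorem conP_ne_plQ (hι : IsCE Ω ι) (P : Pl F K) (Q : K →ₐ[F] Ω) : conP hι P ≠ plQ hι Q := by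
  intro h
  have h1 := conP_Over hι P
  rw [h] at h1
  exact h1.not_At hι (plQ_At hι Q)

/-- classification of the places of `L` -/
theorem cases [IsAlgClosed Ω] (hι : IsCE Ω ι) (w : Pl Ω L) :
    (∃ P, w = conP hι P) ∨ (∃ Q, w = plQ hι Q) := by
  by_cases hw : ∀ f : K, f ≠ 0 → w.v (ι f) = 1
  · obtain ⟨Q, hQ⟩ := exists_At hw
    exact Or.inr ⟨Q, hQ.unique hι (plQ_At hι Q)⟩
  · obtain ⟨P, hP⟩ := exists_Over hw
    exact Or.inl ⟨P, hP.unique hι (conP_Over hι P)⟩

end Exist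

end Crest.Agent.R013.CE3_280
end

-- ▼ part R013/CE5_280

/-!
# R013 / CE5: `L(D_Ω) = L(D) ⊗ Ω`, the genus does not change (helper280)
-/

set_option autoImplicit false
set_option linter.all false

namespace Crest.Agent.R013.CE5_280

open WithZero Module TensorProduct Polynomial nonZeroDivisors
open Crest.Agent.R013.RR7_948 Crest.Agent.R013.RR8_948 Crest.Agent.R013.RR9_948
open Crest.Agent.R013.RR11_948 Crest.Agent.R013.RR13_948 Crest.Agent.R013.CE1_280
open Crest.Agent.R013.CE2_280 Crest.Agent.R013.CE3_280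

section AlgClosed

variable {k K : Type*} [Field k] [Field K] [Algebra k K]

theorem algebraicClosure_eq_bot [IsAlgClosed k] : algebraicClosure k K = ⊥ := by
  rw [eq_bot_iff]
  intro f hf
  rw [mem_algebraicClosure_iff] at hf
  rw [IntermediateField.mem_bot]
  exact minpoly.mem_range_of_degree_eq_one k f
    (IsAlgClosed.degree_eq_one_of_irreducible k (minpoly.irreducible hf.isIntegral))

variable [Algebra (RatFunc k) K] [IsScalarTower k (RatFunc k) K] [FiniteDimensional (RatFunc k) K]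
  [Algebra.IsSeparable (RatFunc k) K]

/-- all places have degree one -/
theorem degP_eq_one [IsAlgClosed k] (P : Pl k K) : degP P = 1 := by
  let g : k →ₗ[k] (ball P 0 ⧸ (ball P (-1)).submoduleOf (ball P 0)) :=
    (Submodule.mkQ _).comp (LinearMap.codRestrict (ball P 0) (Algebra.linearMap k K)
      (fun c => by rw [mem_ball, exp_zero]; exact v_algebraMap_le P c))
  have hg : Function.Bijective g := by
    constructor
    · rw [← LinearMap.ker_eq_bot, LinearMap.ker_eq_bot']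
      intro c hc
      simp only [g, LinearMap.comp_apply, Submodule.mkQ_apply] at hc
      rw [Submodule.Quotient.mk_eq_zero, Submodule.submoduleOf, Submodule.mem_comap, mem_ball,
        ← lt_one_iff_le] at hc
      exact v_algebraMap_lt P hc
    · intro y
      obtain ⟨⟨f, hf⟩, rfl⟩ := Submodule.Quotient.mk_surjective _ y
      rw [mem_ball, exp_zero] at hf
      obtain ⟨c, hc⟩ := exists_residue P hf
      refine ⟨c, ?_⟩
      simp only [g, LinearMap.comp_apply, Submodule.mkQ_apply]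
      rw [Submodule.Quotient.eq, Submodule.submoduleOf, Submodule.mem_comap, mem_ball,
        ← lt_one_iff_le]
      rw [Valuation.map_sub_swap] at hc
      exact hc
  have h1 : degE P = 1 := by
    unfold degE RR1_948.ri
    rw [← (LinearEquiv.ofBijective g hg).length_eq]
    exact Module.length_eq_one_iff.mpr inferInstance
  unfold degP
  rw [h1]
  rfl

theorem degD_eq_sum [IsAlgClosed k] (D : Pl k K →₀ ℤ) : degD D = D.sum fun _ n => n := by
  unfold degD
  refine Finsupp.sum_congr fun P _ => ?_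
  rw [degP_eq_one]; simp

end AlgClosed

section Reg

variable {F K Ω L : Type*} [Field F] [IsAlgClosed F] [Field K] [Algebra F K]
  [Algebra (RatFunc F) K] [IsScalarTower F (RatFunc F) K] [FiniteDimensional (RatFunc F) K]
  [Algebra.IsSeparable (RatFunc F) K]
  [Field Ω] [Algebra F Ω] [IsAlgClosed Ω]
  [Field L] [Algebra Ω L] [Algebra F L] [IsScalarTower F Ω L]
  [Algebra (RatFunc Ω) L] [IsScalarTower Ω (RatFunc Ω) L]
  [FiniteDimensional (RatFunc Ω) L] [Algebra.IsSeparable (RatFunc Ω) L]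
  {ι : K →ₐ[F] L}

theorem mem_range_of_pi_mul (hι : IsCE Ω ι) {a : Ω} {f : L}
    (hf : ∃ t : Ω ⊗[F] K, mu ι t = mu ι (piT F K a) * f)
    (hreg : ∀ Q : K →ₐ[F] Ω, (plQ hι Q).v f ≤ 1) : ∃ t : Ω ⊗[F] K, mu ι t = f := by
  obtain ⟨t, ht⟩ := hf
  by_cases ha : a ∈ Set.range (algebraMap F Ω)
  · obtain ⟨c, rfl⟩ := ha
    have h0 : xK F K - algebraMap F K c ≠ 0 := by
      intro h0
      exact xK_notMem_range (F := F) (K := K) ⟨c, (sub_eq_zero.mp h0).symm⟩
    have h1 : piT F K (algebraMap F Ω c) = 1 ⊗ₜ (xK F K - algebraMap F K c) := by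
      unfold piT
      rw [TensorProduct.tmul_sub]
      congr 1
      rw [Algebra.algebraMap_eq_smul_one, Algebra.algebraMap_eq_smul_one, TensorProduct.smul_tmul]
    refine ⟨(1 ⊗ₜ (xK F K - algebraMap F K c)⁻¹) * t, ?_⟩
    rw [map_mul, ht, ← mul_assoc, ← map_mul, h1, Algebra.TensorProduct.tmul_mul_tmul,
      inv_mul_cancel₀ h0, mul_one, ← Algebra.TensorProduct.one_def, map_one, one_mul]
  · have ha' := transcendental_of_notMem ha
    obtain ⟨t', ht'⟩ := mem_of_forall (K := K) ha' (t := t) (by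
      intro Q hQ
      rw [← (plQ_At hι Q).lt_one_iff, ht, map_mul]
      have h1 : (plQ hι Q).v (mu ι (piT F K a)) < 1 := by
        rw [(plQ_At hι Q).lt_one_iff, ev_piT, hQ, sub_self]
      calc _ ≤ (plQ hι Q).v (mu ι (piT F K a)) * 1 := mul_le_mul_right (hreg Q) _
        _ < 1 := by rwa [mul_one])
    refine ⟨t', ?_⟩
    apply mul_left_cancel₀ (hι.ne_zero (piT_ne_zero (F := F) (K := K) a))
    rw [← ht, ht', map_mul]

theorem v_aeval_le_one (w : Pl Ω L) {y : L} (hy : w.v y ≤ 1) (q : (Polynomial Ω)) : w.v (aeval y q) ≤ 1 :=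
  RR14_948.v_aeval_le w hy q

theorem mem_range_of_poly_mul (hι : IsCE Ω ι) (n : ℕ) :
    ∀ q : (Polynomial Ω), q ≠ 0 → q.natDegree = n → ∀ f : L,
    (∃ t : Ω ⊗[F] K, mu ι t = aeval (ι (xK F K)) q * f) →
    (∀ Q : K →ₐ[F] Ω, (plQ hι Q).v f ≤ 1) → ∃ t : Ω ⊗[F] K, mu ι t = f := by
  induction n with
  | zero =>
    intro q hq hn f hf hreg
    obtain ⟨t, ht⟩ := hf
    rw [eq_C_of_natDegree_eq_zero hn] at hq ht
    have hc : q.coeff 0 ≠ 0 := fun h => hq (by rw [h, C_0])
    rw [aeval_C] at ht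
    refine ⟨(q.coeff 0)⁻¹ • t, ?_⟩
    rw [map_smul, ht, Algebra.smul_def, ← mul_assoc, ← map_mul, inv_mul_cancel₀ hc, map_one,
      one_mul]
  | succ n ih =>
    intro q hq hn f hf hreg
    obtain ⟨a, ha⟩ := IsAlgClosed.exists_root q (by
      intro h0
      rw [degree_eq_natDegree hq, hn] at h0
      have : n + 1 = 0 := by exact_mod_cast h0
      omega)
    obtain ⟨q₁, rfl⟩ := dvd_iff_isRoot.mpr ha
    have hq₁ : q₁ ≠ 0 := right_ne_zero_of_mul hq
    have hn₁ : q₁.natDegree = n := by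
      rw [natDegree_mul (X_sub_C_ne_zero a) hq₁, natDegree_X_sub_C] at hn
      omega
    obtain ⟨t, ht⟩ := hf
    have hvx : ∀ Q : K →ₐ[F] Ω, (plQ hι Q).v (ι (xK F K)) ≤ 1 := fun Q => by
      have := (plQ_At hι Q).le_one (1 ⊗ₜ xK F K)
      simpa using this
    refine ih q₁ hq₁ hn₁ f (mem_range_of_pi_mul hι (a := a) ⟨t, ?_⟩ ?_) hreg
    · rw [ht, map_mul, map_sub, aeval_X, aeval_C, piT, map_sub, mu_tmul, mu_tmul]
      simp only [map_one, one_mul, mul_one]
      ring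
    · intro Q
      rw [map_mul]
      exact mul_le_one' (v_aeval_le_one _ (hvx Q) _) (hreg Q)

omit [IsAlgClosed Ω] in
/-- every nonzero element of `Ω ⊗ K` divides a nonzero polynomial in `x` -/
theorem exists_dvd_poly (hι : IsCE Ω ι) (hx : xK Ω L = ι (xK F K)) {b : Ω ⊗[F] K} (hb : b ≠ 0) :
    ∃ (q : (Polynomial Ω)) (s : Ω ⊗[F] K), q ≠ 0 ∧ aeval (1 ⊗ₜ xK F K : Ω ⊗[F] K) q = b * s := by
  letI := (aeval (R := Ω) (1 ⊗ₜ xK F K : Ω ⊗[F] K)).toRingHom.toAlgebra
  letI := algPoly Ω L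
  haveI := towerPoly Ω L
  have hmu : ∀ q : (Polynomial Ω), mu ι (algebraMap (Polynomial Ω) (Ω ⊗[F] K) q) = algebraMap (Polynomial Ω) L q := by
    intro q
    show mu ι (aeval (R := Ω) (1 ⊗ₜ xK F K : Ω ⊗[F] K) q) = _
    rw [← Polynomial.aeval_algHom_apply, mu_tmul, map_one, one_mul, ← hx, ← algebraMap_poly_K]
    rfl
  let m : Ω ⊗[F] K →ₐ[(Polynomial Ω)] L :=
    { toRingHom := ((mu (Ω := Ω) ι : Ω ⊗[F] K →ₐ[Ω] L) : Ω ⊗[F] K →+* L), commutes' := hmu }
  have h1 : IsAlgebraic (Polynomial Ω) (m b) :=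
    (IsFractionRing.isAlgebraic_iff (Polynomial Ω) (RatFunc Ω) L).mpr (Algebra.IsAlgebraic.isAlgebraic _)
  have h2 : IsAlgebraic (Polynomial Ω) b := (isAlgebraic_algHom_iff m (hι.inj)).mp h1
  obtain ⟨q, hq, s, hs⟩ := h2.exists_nonzero_dvd (mem_nonZeroDivisors_of_ne_zero hb)
  exact ⟨q, s, hq, hs⟩

/-- a function regular at all points lies in `Ω ⊗ K` -/
theorem mem_range_of_reg (hι : IsCE Ω ι) (hx : xK Ω L = ι (xK F K)) {f : L}
    (hreg : ∀ Q : K →ₐ[F] Ω, (plQ hι Q).v f ≤ 1) : ∃ t : Ω ⊗[F] K, mu ι t = f := by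
  obtain ⟨a, b, hb, hab⟩ := hι.frac f
  obtain ⟨q, s, hq, hs⟩ := exists_dvd_poly hι hx hb
  refine mem_range_of_poly_mul hι q.natDegree q hq rfl f ⟨s * a, ?_⟩ hreg
  have h1 := congrArg (mu ι) hs
  rw [← Polynomial.aeval_algHom_apply, mu_tmul, map_one, one_mul, map_mul] at h1
  rw [h1, map_mul, ← hab]
  ring

/-- the base change of a divisor -/
noncomputable def base (hι : IsCE Ω ι) : (Pl F K →₀ ℤ) →+ (Pl Ω L →₀ ℤ) :=
  Finsupp.mapDomain.addMonoidHom (conP hι)

omit [IsAlgClosed Ω] in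
theorem base_conP (hι : IsCE Ω ι) (D : Pl F K →₀ ℤ) (P : Pl F K) :
    base hι D (conP hι P) = D P :=
  Finsupp.mapDomain_apply (conP_injective hι) D P

omit [IsAlgClosed Ω] in
theorem base_plQ (hι : IsCE Ω ι) (D : Pl F K →₀ ℤ) (Q : K →ₐ[F] Ω) :
    base hι D (plQ hι Q) = 0 := by
  apply Finsupp.mapDomain_of_notMem_range
  rintro ⟨P, hP⟩
  exact conP_ne_plQ hι P Q hP

omit [IsAlgClosed Ω] in
theorem base_single (hι : IsCE Ω ι) (P : Pl F K) (n : ℤ) :
    base hι (Finsupp.single P n) = Finsupp.single (conP hι P) n :=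
  Finsupp.mapDomain_single

theorem degD_base (hι : IsCE Ω ι) (D : Pl F K →₀ ℤ) : degD (base hι D) = degD D := by
  rw [degD_eq_sum, degD_eq_sum]
  exact Finsupp.sum_mapDomain_index (fun _ => rfl) (fun _ _ _ => rfl)

variable (Ω) in
/-- `Ω ⊗ L(D) → L` -/
noncomputable def lam (ι : K →ₐ[F] L) (D : Pl F K →₀ ℤ) : Ω ⊗[F] (LD D) →ₗ[Ω] L :=
  (mu (Ω := Ω) ι).toLinearMap.comp ((LD D).subtype.baseChange Ω)

omit [IsAlgClosed F] [Algebra (RatFunc F) K] [IsScalarTower F (RatFunc F) K]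
  [FiniteDimensional (RatFunc F) K] [Algebra.IsSeparable (RatFunc F) K] [IsAlgClosed Ω]
  [Algebra (RatFunc Ω) L] [IsScalarTower Ω (RatFunc Ω) L]
  [FiniteDimensional (RatFunc Ω) L] [Algebra.IsSeparable (RatFunc Ω) L] in
@[simp] theorem lam_tmul (D : Pl F K →₀ ℤ) (c : Ω) (g : LD D) :
    lam Ω ι D (c ⊗ₜ g) = algebraMap Ω L c * ι g := by
  simp [lam]

omit [IsAlgClosed F] [Algebra (RatFunc F) K] [IsScalarTower F (RatFunc F) K]
  [FiniteDimensional (RatFunc F) K] [Algebra.IsSeparable (RatFunc F) K] [IsAlgClosed Ω]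
  [Algebra (RatFunc Ω) L] [IsScalarTower Ω (RatFunc Ω) L]
  [FiniteDimensional (RatFunc Ω) L] [Algebra.IsSeparable (RatFunc Ω) L] in
theorem lam_injective (hι : IsCE Ω ι) (D : Pl F K →₀ ℤ) : Function.Injective (lam Ω ι D) := by
  have h := Module.Flat.lTensor_preserves_injective_linearMap (M := Ω) (LD D).subtype
    (Subtype.val_injective)
  exact hι.inj.comp h

theorem range_lam (hι : IsCE Ω ι) (hx : xK Ω L = ι (xK F K)) (D : Pl F K →₀ ℤ) :
    LinearMap.range (lam Ω ι D) = LD (base hι D) := by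
  classical
  apply le_antisymm
  · rintro _ ⟨t, rfl⟩
    induction t with
    | zero => rw [map_zero]; exact Submodule.zero_mem _
    | add t t' h h' => rw [map_add]; exact Submodule.add_mem _ h h'
    | tmul c g =>
      rw [lam_tmul, ← Algebra.smul_def]
      refine Submodule.smul_mem _ _ ?_
      rw [mem_LD]
      intro w
      rcases cases hι w with ⟨P, rfl⟩ | ⟨Q, rfl⟩
      · rw [base_conP, (conP_Over hι P).v_iota hι]
        exact mem_LD.mp g.2 P
      · rw [base_plQ, exp_zero]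
        by_cases hg : (g : K) = 0
        · simp [hg]
        · exact ((plQ_At hι Q).iota_eq_one hg).le
  · intro f hf
    rw [mem_LD] at hf
    obtain ⟨t, rfl⟩ := mem_range_of_reg hι hx (f := f) (by
      intro Q
      have := hf (plQ hι Q)
      rwa [base_plQ, exp_zero] at this)
    let b := Basis.ofVectorSpace F Ω
    obtain ⟨c, rfl⟩ := TensorProduct.eq_repr_basis_left b t
    have hc : ∀ i, c i ∈ LD D := by
      intro i
      rw [mem_LD]
      intro P
      have h1 := hf (conP hι P)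
      rw [base_conP, (conP_Over hι P).v_sum_le_iff hι b] at h1
      exact h1 i
    refine ⟨∑ i ∈ c.support, b i ⊗ₜ ⟨c i, hc i⟩, ?_⟩
    rw [map_sum, Finsupp.sum, map_sum]
    refine Finset.sum_congr rfl fun i _ => ?_
    rw [lam_tmul, mu_tmul]

/-- **base change does not change the dimension of Riemann-Roch spaces** -/
theorem ell_base (hι : IsCE Ω ι) (hx : xK Ω L = ι (xK F K)) (D : Pl F K →₀ ℤ) :
    ell (base hι D) = ell D := by
  unfold ell
  rw [← range_lam hι hx D, LinearMap.finrank_range_of_inj (lam_injective hι D),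
    Module.finrank_baseChange]

/-- **the genus does not change** -/
theorem gen_eq (hι : IsCE Ω ι) (hx : xK Ω L = ι (xK F K)) : gen Ω L = gen F K := by
  obtain ⟨P, -⟩ := RR12_948.exists_notMem (∅ : Finset (Pl F K))
  let N : ℤ := 2 * (gen F K : ℤ) + 2 * (gen Ω L : ℤ)
  have h1 : degD (Finsupp.single P N) = N := by rw [degD_single, degP_eq_one]; simp
  have h2 := ell_eq_of_lt (algebraicClosure_eq_bot (k := F) (K := K))
    (D := Finsupp.single P N) (by rw [h1]; omega)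
  have h3 := ell_eq_of_lt (algebraicClosure_eq_bot (k := Ω) (K := L))
    (D := base hι (Finsupp.single P N)) (by rw [degD_base, h1]; omega)
  rw [ell_base hι hx, degD_base, h2] at h3
  omega

/-- the base change of the canonical divisor is canonical -/
theorem exists_canD (hι : IsCE Ω ι) (hx : xK Ω L = ι (xK F K)) :
    ∃ f : L, f ≠ 0 ∧ base hι (canD F K) = canD Ω L + divf f := by
  apply exists_eq_add_divf (algebraicClosure_eq_bot (k := Ω) (K := L))
  · rw [degD_base, degD_canD (algebraicClosure_eq_bot (k := F) (K := K)), gen_eq hι hx]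
  · rw [ell_base hι hx, gen_eq hι hx]
    rfl

theorem ell_canD_sub (hι : IsCE Ω ι) (hx : xK Ω L = ι (xK F K)) (E : Pl Ω L →₀ ℤ) :
    ell (canD Ω L - E) = ell (base hι (canD F K) - E) := by
  obtain ⟨f, hf, h⟩ := exists_canD hι hx
  rw [h, show canD Ω L + divf f - E = (canD Ω L - E) + divf f by abel, ell_add_divf _ hf]

end Reg

end Crest.Agent.R013.CE5_280
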