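import Mathlib
import Crest.Agent.R013.CE8_280

-- ▼ part R013/CE9_280
section

/-!
# R013 / CE9: construction of `K_Ω` (helper280)
-/

set_option autoImplicit false
set_option linter.all false

namespace Crest.Agent.R013.CE9_280

open WithZero Module TensorProduct nonZeroDivisors
open Crest.Agent.R013.RR7_948 Crest.Agent.R013.RR8_948 Crest.Agent.R013.RR9_948
open Crest.Agent.R013.RR11_948 Crest.Agent.R013.RR13_948 Crest.Agent.R013.CE1_280
open Crest.Agent.R013.CE2_280 Crest.Agent.R013.CE3_280 Crest.Agent.R013.CE5_280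
open Crest.Agent.R013.CE6_280 Crest.Agent.R013.CE7_280 Crest.Agent.R013.CE8_280

section Construct

variable (F K Ω : Type*) [Field F] [IsAlgClosed F] [Field K] [Algebra F K] [Field Ω]
  [Algebra F Ω]

/-- the constant field extension `K_Ω` -/
def KO : Type _ := FractionRing (Ω ⊗[F] K)

noncomputable instance : Field (KO F K Ω) := inferInstanceAs (Field (FractionRing (Ω ⊗[F] K)))

noncomputable instance : Algebra (Ω ⊗[F] K) (KO F K Ω) :=
  inferInstanceAs (Algebra (Ω ⊗[F] K) (FractionRing (Ω ⊗[F] K)))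

instance : IsFractionRing (Ω ⊗[F] K) (KO F K Ω) :=
  inferInstanceAs (IsFractionRing (Ω ⊗[F] K) (FractionRing (Ω ⊗[F] K)))

noncomputable instance : Algebra Ω (KO F K Ω) :=
  ((algebraMap (Ω ⊗[F] K) (KO F K Ω)).comp (algebraMap Ω (Ω ⊗[F] K))).toAlgebra

noncomputable instance : Algebra F (KO F K Ω) :=
  ((algebraMap Ω (KO F K Ω)).comp (algebraMap F Ω)).toAlgebra

instance : IsScalarTower F Ω (KO F K Ω) := IsScalarTower.of_algebraMap_eq fun _ => rfl

instance : IsScalarTower Ω (Ω ⊗[F] K) (KO F K Ω) := IsScalarTower.of_algebraMap_eq fun _ => rfl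

/-- the embedding `K → K_Ω` -/
noncomputable def iota : K →ₐ[F] KO F K Ω :=
  { toRingHom := (algebraMap (Ω ⊗[F] K) (KO F K Ω)).comp
      (Algebra.TensorProduct.includeRight : K →ₐ[F] Ω ⊗[F] K).toRingHom
    commutes' := by
      intro c
      show algebraMap (Ω ⊗[F] K) (KO F K Ω)
        ((Algebra.TensorProduct.includeRight : K →ₐ[F] Ω ⊗[F] K) (algebraMap F K c)) =
        algebraMap (Ω ⊗[F] K) (KO F K Ω) (algebraMap Ω (Ω ⊗[F] K) (algebraMap F Ω c))
      rw [AlgHom.commutes, IsScalarTower.algebraMap_apply F Ω (Ω ⊗[F] K)] }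

theorem iota_apply (f : K) : iota F K Ω f = algebraMap (Ω ⊗[F] K) (KO F K Ω) (1 ⊗ₜ f) := rfl

theorem mu_eq (t : Ω ⊗[F] K) : mu (iota F K Ω) t = algebraMap (Ω ⊗[F] K) (KO F K Ω) t := by
  induction t with
  | zero => simp
  | add t t' h h' => rw [map_add, map_add, h, h']
  | tmul c f =>
    rw [mu_tmul, iota_apply, IsScalarTower.algebraMap_apply Ω (Ω ⊗[F] K), ← map_mul,
      Algebra.TensorProduct.algebraMap_apply, Algebra.TensorProduct.tmul_mul_tmul]
    simp

theorem isCE : IsCE Ω (iota F K Ω) where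
  inj := by
    intro a b h
    rw [mu_eq, mu_eq] at h
    exact IsFractionRing.injective _ _ h
  frac := by
    intro f
    obtain ⟨a, b, hb, rfl⟩ := IsFractionRing.div_surjective (A := Ω ⊗[F] K) f
    refine ⟨a, b, nonZeroDivisors.ne_zero hb, ?_⟩
    rw [mu_eq, mu_eq, div_mul_cancel₀]
    exact (map_ne_zero_iff _ (IsFractionRing.injective (Ω ⊗[F] K) (KO F K Ω))).mpr
      (nonZeroDivisors.ne_zero hb)

variable [Algebra (RatFunc F) K] [IsScalarTower F (RatFunc F) K]

theorem transcendental_iota : Transcendental Ω (iota F K Ω (xK F K)) := by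
  rw [transcendental_iff]
  intro q hq
  have hinj : Function.Injective (Polynomial.aeval (R := F) (xK F K)) := by
    rw [← transcendental_iff_injective]
    exact transcendental_of_notMem (xK_notMem_range (F := F) (K := K))
  have hind : LinearIndependent F (fun n : Fin (q.natDegree + 1) => xK F K ^ (n : ℕ)) := by
    have h1 := (Polynomial.basisMonomials F).linearIndependent.map'
      (Polynomial.aeval (R := F) (xK F K)).toLinearMap (LinearMap.ker_eq_bot.mpr hinj)
    have h2 := h1.comp (fun n : Fin (q.natDegree + 1) => (n : ℕ)) Fin.val_injective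
    have h3 : (fun n : Fin (q.natDegree + 1) => xK F K ^ (n : ℕ)) =
        ((Polynomial.aeval (R := F) (xK F K)).toLinearMap ∘ (Polynomial.basisMonomials F)) ∘
          (fun n : Fin (q.natDegree + 1) => (n : ℕ)) := by
      ext n
      simp [← Polynomial.X_pow_eq_monomial]
    rw [h3]
    exact h2
  have h3 := coeff_eq_zero (N := Ω) hind (fun n => q.coeff n) (by
    apply (isCE F K Ω).inj
    rw [map_sum, map_zero, ← hq, Polynomial.aeval_eq_sum_range, Finset.sum_range]
    refine Finset.sum_congr rfl fun i _ => ?_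
    rw [mu_tmul, map_pow, Algebra.smul_def])
  ext n
  by_cases hn : n < q.natDegree + 1
  · exact congrFun h3 ⟨n, hn⟩
  · rw [Polynomial.coeff_zero]
    exact Polynomial.coeff_eq_zero_of_natDegree_lt (by omega)

theorem aeval_injective :
    Function.Injective (Polynomial.aeval (R := Ω) (iota F K Ω (xK F K))).toRingHom := by
  have := transcendental_iff_injective.mp (transcendental_iota F K Ω)
  exact this

noncomputable instance : Algebra (RatFunc Ω) (KO F K Ω) :=
  (IsFractionRing.lift (A := Polynomial Ω) (K := RatFunc Ω) (aeval_injective F K Ω)).toAlgebra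

theorem algebraMap_ratFunc_poly (q : Polynomial Ω) :
    algebraMap (RatFunc Ω) (KO F K Ω) (algebraMap (Polynomial Ω) (RatFunc Ω) q) =
      Polynomial.aeval (iota F K Ω (xK F K)) q :=
  IsFractionRing.lift_algebraMap (aeval_injective F K Ω) q

instance : IsScalarTower Ω (RatFunc Ω) (KO F K Ω) := IsScalarTower.of_algebraMap_eq fun c => by
  rw [RR2_948.algebraMap_eq_C, ← RatFunc.algebraMap_C, algebraMap_ratFunc_poly,
    Polynomial.aeval_C]

theorem xK_eq : xK Ω (KO F K Ω) = iota F K Ω (xK F K) := by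
  unfold xK
  rw [← RatFunc.algebraMap_X, algebraMap_ratFunc_poly, Polynomial.aeval_X]
  rfl

theorem map_algebraMap_injective :
    Function.Injective ((algebraMap (Polynomial Ω) (RatFunc Ω)).comp
      (Polynomial.mapRingHom (algebraMap F Ω))) :=
  (RatFunc.algebraMap_injective Ω).comp (Polynomial.map_injective _ (algebraMap F Ω).injective)

/-- `F(X) → Ω(X)` -/
noncomputable def theta : RatFunc F →+* RatFunc Ω :=
  IsFractionRing.lift (A := Polynomial F) (K := RatFunc F) (map_algebraMap_injective F Ω)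

theorem theta_comp : (algebraMap (RatFunc Ω) (KO F K Ω)).comp (theta F Ω) =
    (iota F K Ω : K →+* KO F K Ω).comp (algebraMap (RatFunc F) K) := by
  apply algHom_ratFunc_eq
  intro p
  simp only [RingHom.comp_apply]
  have h1 : theta F Ω (algebraMap (Polynomial F) (RatFunc F) p) =
      algebraMap (Polynomial Ω) (RatFunc Ω) (p.map (algebraMap F Ω)) :=
    IsFractionRing.lift_algebraMap (map_algebraMap_injective F Ω) p
  rw [h1, algebraMap_ratFunc_poly, algebraMap_poly_K]
  show _ = iota F K Ω (Polynomial.aeval (xK F K) p)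
  rw [← Polynomial.aeval_algHom_apply, Polynomial.aeval_map_algebraMap]

instance [FiniteDimensional (RatFunc F) K] : FiniteDimensional (RatFunc Ω) (KO F K Ω) := by
  let b := Module.finBasis (RatFunc F) K
  let S : Set (KO F K Ω) := Set.range fun i => iota F K Ω (b i)
  have hint : ∀ f : K, IsIntegral (RatFunc Ω) (iota F K Ω f) := by
    intro f
    exact (Algebra.IsIntegral.isIntegral (R := RatFunc F) f).map_of_comp_eq (theta F Ω)
      (iota F K Ω : K →+* KO F K Ω) (theta_comp F K Ω)
  have hK : ∀ f : K, iota F K Ω f ∈ IntermediateField.adjoin (RatFunc Ω) S := by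
    intro f
    rw [← b.sum_repr f, map_sum]
    refine sum_mem fun i _ => ?_
    rw [Algebra.smul_def, map_mul]
    refine mul_mem ?_ (IntermediateField.subset_adjoin _ _ ⟨i, rfl⟩)
    have h1 := congrArg (fun g => g (b.repr f i)) (theta_comp F K Ω)
    simp only [RingHom.comp_apply] at h1
    rw [show iota F K Ω (algebraMap (RatFunc F) K (b.repr f i)) =
      algebraMap (RatFunc Ω) (KO F K Ω) (theta F Ω (b.repr f i)) from h1.symm]
    exact IntermediateField.algebraMap_mem _ _
  have htop : IntermediateField.adjoin (RatFunc Ω) S = ⊤ := by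
    rw [eq_top_iff]
    intro f _
    have hmu : ∀ t : Ω ⊗[F] K, mu (iota F K Ω) t ∈ IntermediateField.adjoin (RatFunc Ω) S := by
      intro t
      induction t with
      | zero => rw [map_zero]; exact zero_mem _
      | add t t' h h' => rw [map_add]; exact add_mem h h'
      | tmul c g =>
        rw [mu_tmul]
        refine mul_mem ?_ (hK g)
        rw [IsScalarTower.algebraMap_apply Ω (RatFunc Ω)]
        exact IntermediateField.algebraMap_mem _ _
    obtain ⟨a, c, hc, hac⟩ := (isCE F K Ω).frac f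
    have h1 : f = mu (iota F K Ω) a / mu (iota F K Ω) c := by
      rw [eq_div_iff ((isCE F K Ω).ne_zero hc)]
      exact hac
    rw [h1]
    exact div_mem (hmu a) (hmu c)
  have hS : S.Finite := Set.finite_range _
  haveI := hS.to_subtype
  have h2 : FiniteDimensional (RatFunc Ω) (IntermediateField.adjoin (RatFunc Ω) S) :=
    IntermediateField.finiteDimensional_adjoin (by
      rintro _ ⟨i, rfl⟩
      exact hint _)
  rw [htop] at h2
  exact (IntermediateField.topEquiv (F := RatFunc Ω) (E := KO F K Ω)).toLinearEquiv.finiteDimensional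

instance [CharZero F] : CharZero (KO F K Ω) :=
  charZero_of_injective_algebraMap (algebraMap F (KO F K Ω)).injective

end Construct

end Crest.Agent.R013.CE9_280
end

-- ▼ part R013/CE10_280
section

/-!
# R013 / CE10: rigidity, generic points (helper280)
-/

set_option autoImplicit false
set_option linter.all false

namespace Crest.Agent.R013.CE10_280

open WithZero Module TensorProduct nonZeroDivisors
open Crest.Agent.R013.RR7_948 Crest.Agent.R013.RR8_948 Crest.Agent.R013.RR9_948
open Crest.Agent.R013.RR11_948 Crest.Agent.R013.RR13_948 Crest.Agent.R013.CE1_280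
open Crest.Agent.R013.CE2_280 Crest.Agent.R013.CE3_280 Crest.Agent.R013.CE5_280
open Crest.Agent.R013.CE6_280 Crest.Agent.R013.CE7_280 Crest.Agent.R013.CE8_280

section Rig

variable {F K Ω L : Type*} [Field F] [IsAlgClosed F] [Field K] [Algebra F K]
  [Algebra (RatFunc F) K] [IsScalarTower F (RatFunc F) K] [FiniteDimensional (RatFunc F) K]
  [Algebra.IsSeparable (RatFunc F) K]
  [Field Ω] [Algebra F Ω] [IsAlgClosed Ω]
  [Field L] [Algebra Ω L] [Algebra F L] [IsScalarTower F Ω L]
  [Algebra (RatFunc Ω) L] [IsScalarTower Ω (RatFunc Ω) L]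
  [FiniteDimensional (RatFunc Ω) L] [Algebra.IsSeparable (RatFunc Ω) L]
  {ι : K →ₐ[F] L}

/-- there is a place over `K` outside any finite set -/
theorem exists_conP_eq_one (hι : IsCE Ω ι) {h : L} (h0 : h ≠ 0) :
    ∃ P : Pl F K, (conP hι P).v h = 1 := by
  classical
  have hfin := finite_ne_one (k := Ω) h0
  have hfin' : {P : Pl F K | (conP hι P).v h ≠ 1}.Finite :=
    Set.Finite.preimage (f := conP hι) ((conP_injective hι).injOn) hfin
  obtain ⟨P, hP⟩ := RR12_948.exists_notMem hfin'.toFinset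
  refine ⟨P, ?_⟩
  by_contra hcon
  exact hP (by simpa using hcon)

theorem mem_one_of_ell_eq_one {E : Pl Ω L →₀ ℤ} (hE : 0 ≤ E) (hell : ell E = 1) {f : L}
    (hf : f ∈ LD E) : ∃ c : Ω, f = algebraMap Ω L c := by
  have h1 : (1 : L) ∈ LD E := by
    rw [mem_LD]
    intro P
    rw [map_one, ← exp_zero, exp_le_exp]
    exact hE P
  haveI := LD_finite E
  have h2 := (finrank_eq_one_iff_of_nonzero' (⟨1, h1⟩ : LD E) (by
    intro h
    exact one_ne_zero (congrArg Subtype.val h))).mp hell ⟨f, hf⟩
  obtain ⟨c, hc⟩ := h2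
  refine ⟨c, ?_⟩
  have h3 := congrArg Subtype.val hc
  rw [Algebra.algebraMap_eq_smul_one]
  exact h3.symm

/-- **rigidity** -/
theorem rig [CharZero Ω] (hι : IsCE Ω ι) {d : Derivation F Ω Ω} {D : Derivation F L L}
    (hD : IsExt ι d D) {E : Pl Ω L →₀ ℤ} (hE : 0 ≤ E) (hell : ell E = 1) {h : L} (h0 : h ≠ 0)
    (hyp : ∀ Q : K →ₐ[F] Ω, (plQ hι Q).v h ≠ 1 → d (Q (xK F K)) = 0 ∨ 1 ≤ E (plQ hι Q)) :
    ∀ Q : K →ₐ[F] Ω, (plQ hι Q).v h ≠ 1 → d (Q (xK F K)) = 0 := by
  have hmem : D h / h ∈ LD E := by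
    rw [mem_LD]
    intro w
    have hEw : (1 : ℤᵐ⁰) ≤ exp (E w) := by
      rw [← exp_zero, exp_le_exp]; exact hE w
    rcases cases hι w with ⟨P, rfl⟩ | ⟨Q, rfl⟩
    · exact (dlog_Over hι hD (conP_Over hι P) h0).trans hEw
    · by_cases h1 : (plQ hι Q).v h = 1
      · exact (dlog_At_le_one hι hD (plQ_At hι Q) h0 (Or.inl h1)).trans hEw
      · rcases hyp Q h1 with h2 | h2
        · exact (dlog_At_le_one hι hD (plQ_At hι Q) h0 (Or.inr h2)).trans hEw
        · refine (dlog_At_le hι hD (plQ_At hι Q) h0).trans ?_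
          rw [exp_le_exp]
          exact h2
  obtain ⟨lam, hlam⟩ := mem_one_of_ell_eq_one hE hell hmem
  rw [div_eq_iff h0] at hlam
  obtain ⟨P, hP⟩ := exists_conP_eq_one hι h0
  obtain ⟨r, hr⟩ := exists_residue (conP hι P) hP.le
  have hr0 : r ≠ 0 := by
    rintro rfl
    rw [map_zero, sub_zero, hP] at hr
    exact lt_irrefl _ hr
  -- the residue satisfies the same differential equation
  have hdr : d r = lam * r := by
    have h1 : (conP hι P).v (D (h - algebraMap Ω L r)) < 1 := by
      by_cases h2 : h - algebraMap Ω L r = 0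
      · rw [h2]; simp
      · have h3 := dlog_Over hι hD (conP_Over hι P) h2
        rw [map_div₀] at h3
        have h4 : 0 < (conP hι P).v (h - algebraMap Ω L r) := by
          rw [Valuation.pos_iff]; exact h2
        exact lt_of_le_of_lt ((div_le_one₀ h4).mp h3) hr
    rw [map_sub, hD.const, hlam] at h1
    have h5 : (conP hι P).v (algebraMap Ω L (d r - lam * r)) < 1 := by
      have h6 : algebraMap Ω L (d r - lam * r) =
          algebraMap Ω L lam * (h - algebraMap Ω L r) -
            (algebraMap Ω L lam * h - algebraMap Ω L (d r)) := by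
        rw [map_sub, map_mul]; ring
      rw [h6]
      refine lt_of_le_of_lt (Valuation.map_sub _ _ _) (max_lt ?_ h1)
      rw [map_mul]
      calc _ ≤ 1 * (conP hι P).v (h - algebraMap Ω L r) :=
            mul_le_mul_left (v_algebraMap_le _ _) _
        _ < 1 := by rw [one_mul]; exact hr
    exact sub_eq_zero.mp (v_algebraMap_lt _ h5)
  have hrL : algebraMap Ω L r ≠ 0 := by simpa using hr0
  have hh' : D (h / algebraMap Ω L r) = 0 := by
    rw [D.leibniz_div, hD.const, hlam, hdr, map_mul]
    simp only [smul_eq_mul]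
    ring
  intro Q hQ
  by_contra hd
  refine dlog_At_ne_zero hι hD (plQ_At hι Q) (f := h / algebraMap Ω L r)
    (div_ne_zero h0 hrL) ?_ hd hh'
  rw [map_div₀, (plQ hι Q).const r hr0, div_one]
  exact hQ

end Rig

section Generic

variable {F K Ω : Type*} [Field F] [IsAlgClosed F] [Field K] [Algebra F K]
  [Algebra (RatFunc F) K] [IsScalarTower F (RatFunc F) K] [FiniteDimensional (RatFunc F) K]
  [Field Ω] [Algebra F Ω] [IsAlgClosed Ω]

/-- the relative algebraic closure of the field generated by some elements -/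
noncomputable def acl (F : Type*) {Ω : Type*} [Field F] [Field Ω] [Algebra F Ω] (S : Set Ω) :
    IntermediateField F Ω :=
  (algebraicClosure (IntermediateField.adjoin F S) Ω).restrictScalars F

omit [IsAlgClosed F] [IsAlgClosed Ω] in
theorem mem_acl {S : Set Ω} {y : Ω} : y ∈ acl F S ↔ IsAlgebraic (IntermediateField.adjoin F S) y :=
  mem_algebraicClosure_iff

instance isAlgClosed_acl (S : Set Ω) : IsAlgClosed (acl F S) := by
  have h : IsAlgClosed (algebraicClosure (IntermediateField.adjoin F S) Ω) :=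
    (algebraicClosure.isAlgClosure (IntermediateField.adjoin F S) Ω).isAlgClosed
  exact h

omit [IsAlgClosed F] [IsAlgClosed Ω] in
theorem subset_acl {S : Set Ω} {y : Ω} (hy : y ∈ S) : y ∈ acl F S := by
  rw [mem_acl]
  exact isAlgebraic_algebraMap (⟨y, IntermediateField.subset_adjoin F S hy⟩ :
    IntermediateField.adjoin F S)

/-- values of a point lie in every algebraically closed subfield containing the value of `x` -/
theorem mem_of_point {N : IntermediateField F Ω} [IsAlgClosed N] (Q : K →ₐ[F] Ω)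
    (hQ : Q (xK F K) ∈ N) (f : K) : Q f ∈ N := by
  have hr : ∀ r : RatFunc F, Q (algebraMap (RatFunc F) K r) ∈ N := by
    intro r
    obtain ⟨p, q, hq, rfl⟩ := IsFractionRing.div_surjective (A := Polynomial F) r
    have hp : ∀ p : Polynomial F,
        Q (algebraMap (RatFunc F) K (algebraMap (Polynomial F) (RatFunc F) p)) ∈ N := by
      intro p
      rw [algebraMap_poly_K, ← Polynomial.aeval_algHom_apply]
      have h1 : Polynomial.aeval (Q (xK F K)) p =
          ((Polynomial.aeval (⟨Q (xK F K), hQ⟩ : N) p : N) : Ω) := by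
        have := Polynomial.aeval_algHom_apply N.val (⟨Q (xK F K), hQ⟩ : N) p
        exact this
      rw [h1]
      exact SetLike.coe_mem _
    rw [map_div₀, map_div₀]
    exact div_mem (hp p) (hp q)
  let φ : RatFunc F →+* N := ((Q : K →+* Ω).comp (algebraMap (RatFunc F) K)).codRestrict N hr
  have hint : IsIntegral N (Q f) := by
    refine (Algebra.IsIntegral.isIntegral (R := RatFunc F) f).map_of_comp_eq φ (Q : K →+* Ω) ?_
    ext r
    rfl
  have h2 : Q f ∈ Set.range (algebraMap N Ω) := by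
    by_contra h3
    exact transcendental_of_notMem h3 hint.isAlgebraic
  obtain ⟨y, hy⟩ := h2
  rw [← hy]
  exact y.2

/-- **generic points impose independent conditions** -/
theorem det_ne_zero {g : ℕ} {ω : Fin g → K} (hω : LinearIndependent F ω)
    (Q : Fin g → K →ₐ[F] Ω) (hz : AlgebraicIndependent F fun i => Q i (xK F K)) :
    (Matrix.of fun i j => Q i (ω j)).det ≠ 0 := by
  classical
  intro h0
  obtain ⟨v, hv, hvM⟩ := Matrix.exists_vecMul_eq_zero_iff.mpr h0
  obtain ⟨i₁, hi₁⟩ : ∃ i, v i ≠ 0 := by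
    by_contra h; push Not at h; exact hv (funext h)
  let T : Finset (Fin g) := Finset.univ.filter fun i => v i ≠ 0
  have hT : T.Nonempty := ⟨i₁, by simp [T, hi₁]⟩
  let i₀ := T.max' hT
  have hi₀ : v i₀ ≠ 0 := by
    have := T.max'_mem hT
    simpa [T] using this
  have hgt : ∀ i, i₀ < i → v i = 0 := by
    intro i hi
    by_contra h
    have h1 := T.le_max' i (by simp [T, h])
    exact absurd hi (not_lt.mpr h1)
  let S : Set Ω := (fun i => Q i (xK F K)) '' {k | k < i₀}
  let N := acl F S
  have hN : ∀ k, k < i₀ → ∀ f, Q k f ∈ N := fun k hk f =>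
    mem_of_point (N := acl F S) (Q k) (subset_acl (S := S) ⟨k, hk, rfl⟩) f
  have htr : Transcendental N (Q i₀ (xK F K)) := by
    apply transcendental_of_notMem
    rintro ⟨y, hy⟩
    have h1 : Q i₀ (xK F K) ∈ N := by rw [← hy]; exact y.2
    rw [mem_acl, IntermediateField.isAlgebraic_adjoin_iff] at h1
    exact hz.transcendental_adjoin (s := {k | k < i₀}) (i := i₀) (by simp) h1
  let Λ : (Fin g → N) →ₗ[N] ({k : Fin g // k < i₀} → N) :=
    { toFun := fun c k => ∑ j, c j * (⟨Q k (ω j), hN k k.2 _⟩ : N)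
      map_add' := by
        intro c c'
        ext k
        simp [add_mul, Finset.sum_add_distrib]
      map_smul' := by
        intro a c
        ext k
        simp [Finset.mul_sum, mul_assoc] }
  have hker : LinearMap.ker Λ ≠ ⊥ := by
    apply LinearMap.ker_ne_bot_of_finrank_lt
    rw [finrank_fintype_fun_eq_card, finrank_fintype_fun_eq_card, Fintype.card_fin]
    calc Fintype.card {k : Fin g // k < i₀} < Fintype.card (Fin g) :=
          Fintype.card_subtype_lt (x := i₀) (by simp)
      _ = g := Fintype.card_fin g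
  obtain ⟨c, hc, hc0⟩ := Submodule.exists_mem_ne_zero_of_ne_bot hker
  have hck : ∀ k, k < i₀ → ∑ j, algebraMap N Ω (c j) * Q k (ω j) = 0 := by
    intro k hk
    have h1 := congrFun (LinearMap.mem_ker.mp hc) ⟨k, hk⟩
    have h2 := congrArg (algebraMap N Ω) h1
    simp only [Λ, LinearMap.coe_mk, AddHom.coe_mk, map_sum, map_mul, Pi.zero_apply,
      map_zero] at h2
    exact h2
  apply hc0
  apply eq_zero_of_sum_eq_zero (Q i₀) htr hω c
  have h3 : ∑ j, algebraMap N Ω (c j) * (∑ i, v i * Q i (ω j)) = 0 := by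
    refine Finset.sum_eq_zero fun j _ => ?_
    have h4 := congrFun hvM j
    simp only [Matrix.vecMul, dotProduct, Matrix.of_apply, Pi.zero_apply] at h4
    rw [h4, mul_zero]
  have h5 : ∑ i, v i * (∑ j, algebraMap N Ω (c j) * Q i (ω j)) = 0 := by
    rw [← h3]
    simp only [Finset.mul_sum]
    rw [Finset.sum_comm]
    refine Finset.sum_congr rfl fun j _ => Finset.sum_congr rfl fun i _ => ?_
    ring
  rw [Finset.sum_eq_single i₀] at h5
  · exact (mul_eq_zero.mp h5).resolve_left hi₀
  · intro i _ hne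
    rcases lt_or_gt_of_ne hne with h | h
    · rw [hck i h, mul_zero]
    · rw [hgt i h, zero_mul]
  · intro h; exact absurd (Finset.mem_univ _) h

end Generic

section GenericDivisor

variable {F K Ω L : Type*} [Field F] [IsAlgClosed F] [Field K] [Algebra F K]
  [Algebra (RatFunc F) K] [IsScalarTower F (RatFunc F) K] [FiniteDimensional (RatFunc F) K]
  [Algebra.IsSeparable (RatFunc F) K]
  [Field Ω] [Algebra F Ω] [IsAlgClosed Ω]
  [Field L] [Algebra Ω L] [Algebra F L] [IsScalarTower F Ω L]
  [Algebra (RatFunc Ω) L] [IsScalarTower Ω (RatFunc Ω) L]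
  [FiniteDimensional (RatFunc Ω) L] [Algebra.IsSeparable (RatFunc Ω) L]
  {ι : K →ₐ[F] L}

/-- sum of points -/
noncomputable def sumQ (hι : IsCE Ω ι) {g : ℕ} (Q : Fin g → K →ₐ[F] Ω) : Pl Ω L →₀ ℤ :=
  ∑ i, Finsupp.single (plQ hι (Q i)) 1

theorem sumQ_nonneg (hι : IsCE Ω ι) {g : ℕ} (Q : Fin g → K →ₐ[F] Ω) : 0 ≤ sumQ hι Q := by
  classical
  intro w
  rw [Finsupp.zero_apply, sumQ, Finsupp.finset_sum_apply]
  refine Finset.sum_nonneg fun i _ => ?_
  rw [Finsupp.single_apply]
  split_ifs <;> norm_num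

theorem one_le_sumQ (hι : IsCE Ω ι) {g : ℕ} (Q : Fin g → K →ₐ[F] Ω) (i : Fin g) :
    1 ≤ sumQ hι Q (plQ hι (Q i)) := by
  classical
  rw [sumQ, Finsupp.finset_sum_apply]
  calc (1 : ℤ) = (Finsupp.single (plQ hι (Q i)) (1 : ℤ)) (plQ hι (Q i)) := by
        rw [Finsupp.single_eq_same]
    _ ≤ _ := Finset.single_le_sum (f := fun j => (Finsupp.single (plQ hι (Q j)) (1 : ℤ))
        (plQ hι (Q i))) (fun j _ => by
          show (0 : ℤ) ≤ (Finsupp.single (plQ hι (Q j)) (1 : ℤ)) (plQ hι (Q i))
          rw [Finsupp.single_apply]; split_ifs <;> norm_num) (Finset.mem_univ i)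


theorem degD_sumQ (hι : IsCE Ω ι) {g : ℕ} (Q : Fin g → K →ₐ[F] Ω) : degD (sumQ hι Q) = g := by
  have h : ∀ (s : Finset (Fin g)), degD (∑ i ∈ s, Finsupp.single (plQ hι (Q i)) (1 : ℤ)) =
      s.card := by
    classical
    intro s
    induction s using Finset.induction_on with
    | empty => simp [degD_zero]
    | insert a s ha ih =>
      rw [Finset.sum_insert ha, degD_add, ih, degD_single, degP_eq_one, Finset.card_insert_of_notMem ha]
      push_cast; ring
  have := h Finset.univ
  rw [Finset.card_univ, Fintype.card_fin] at this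
  exact this

/-- `ℓ = 1` for a sum of `g` generic points -/
theorem ell_sumQ (hι : IsCE Ω ι) (hx : xK Ω L = ι (xK F K)) (Q : Fin (gen F K) → K →ₐ[F] Ω)
    (hz : AlgebraicIndependent F fun i => Q i (xK F K)) : ell (sumQ hι Q) = 1 := by
  classical
  have hrr := riemann_roch (algebraicClosure_eq_bot (k := Ω) (K := L)) (sumQ hι Q)
  rw [degD_sumQ, gen_eq hι hx, ell_canD_sub hι hx] at hrr
  have hzero : ell (base hι (canD F K) - sumQ hι Q) = 0 := by
    unfold ell
    have hbot : LD (base hι (canD F K) - sumQ hι Q) = ⊥ := by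
      rw [eq_bot_iff]
      intro f hf
      rw [mem_LD] at hf
      have hf1 : f ∈ LD (base hι (canD F K)) := by
        rw [mem_LD]
        intro w
        refine (hf w).trans ?_
        rw [exp_le_exp, Finsupp.sub_apply]
        have := sumQ_nonneg hι Q w
        rw [Finsupp.zero_apply] at this
        omega
      rw [← range_lam hι hx] at hf1
      obtain ⟨t, rfl⟩ := hf1
      haveI := LD_finite (canD F K)
      let ω := Module.finBasis F (LD (canD F K))
      obtain ⟨c, rfl⟩ := TensorProduct.eq_repr_basis_right ω t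
      -- the coefficients
      have hsum : lam Ω ι (canD F K) (c.sum fun i m => m ⊗ₜ ω i) =
          mu ι (∑ i, c i ⊗ₜ[F] ((ω i : LD (canD F K)) : K)) := by
        rw [Finsupp.sum_fintype _ _ (fun i => by simp), map_sum, map_sum]
        refine Finset.sum_congr rfl fun i _ => ?_
        rw [lam_tmul, mu_tmul]
      rw [hsum] at hf ⊢
      have hωK : LinearIndependent F (fun i => ((ω i : LD (canD F K)) : K)) :=
        ω.linearIndependent.map' (LD (canD F K)).subtype (Submodule.ker_subtype _)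
      have hdet := det_ne_zero (ω := fun i : Fin (gen F K) => ((ω i : LD (canD F K)) : K)) hωK Q hz
      have hc : c = 0 := by
        have h1 := Matrix.eq_zero_of_mulVec_eq_zero hdet (v := fun i => c i) (by
          ext i
          have h2 := hf (plQ hι (Q i))
          have h3 : (plQ hι (Q i)).v (mu ι (∑ i, c i ⊗ₜ[F] ((ω i : LD (canD F K)) : K))) < 1 := by
            refine lt_of_le_of_lt h2 ?_
            rw [Finsupp.sub_apply, base_plQ, ← exp_zero, exp_lt_exp]
            have := one_le_sumQ hι Q i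
            omega
          rw [(plQ_At hι (Q i)).lt_one_iff, map_sum] at h3
          simp only [ev_tmul] at h3
          simp only [Matrix.mulVec, dotProduct, Matrix.of_apply, Pi.zero_apply]
          rw [← h3]
          exact Finset.sum_congr rfl fun j _ => mul_comm _ _)
        ext i
        exact congrFun h1 i
      rw [hc]
      simp
    rw [hbot]
    simp
  rw [hzero] at hrr
  push_cast at hrr
  omega

end GenericDivisor

end Crest.Agent.R013.CE10_280
end

-- ▼ part R013/Div1_280
section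

/-!
# R013 / Div1: the generic relation `n E + E'' ~ (n+1) g P₀` (helper280)
-/

set_option autoImplicit false
set_option linter.all false

namespace Crest.Agent.R013.Div1_280

open WithZero Module TensorProduct nonZeroDivisors
open Crest.Agent.R013.RR7_948 Crest.Agent.R013.RR8_948 Crest.Agent.R013.RR9_948
open Crest.Agent.R013.RR11_948 Crest.Agent.R013.RR13_948 Crest.Agent.R013.CE1_280
open Crest.Agent.R013.CE2_280 Crest.Agent.R013.CE3_280 Crest.Agent.R013.CE5_280
open Crest.Agent.R013.CE6_280 Crest.Agent.R013.CE7_280 Crest.Agent.R013.CE8_280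
open Crest.Agent.R013.CE10_280

section GnDef

variable (k K : Type*) [Field k] [Field K] [Algebra k K] [Algebra (RatFunc k) K]
  [IsScalarTower k (RatFunc k) K] [FiniteDimensional (RatFunc k) K]
  [Algebra.IsSeparable (RatFunc k) K]

/-- divisors whose class is divisible by `n` -/
noncomputable def Gn (n : ℕ) : AddSubgroup (Pl k K →₀ ℤ) where
  carrier := {D | ∃ (E : Pl k K →₀ ℤ) (f : K), f ≠ 0 ∧ D = n • E + divf f}
  add_mem' := by
    rintro _ _ ⟨E, f, hf, rfl⟩ ⟨E', f', hf', rfl⟩
    refine ⟨E + E', f * f', mul_ne_zero hf hf', ?_⟩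
    rw [divf_mul hf hf', smul_add]
    abel
  zero_mem' := ⟨0, 1, one_ne_zero, by rw [divf_one]; simp⟩
  neg_mem' := by
    rintro _ ⟨E, f, hf, rfl⟩
    refine ⟨-E, f⁻¹, inv_ne_zero hf, ?_⟩
    rw [divf_inv hf, smul_neg]
    abel

variable {k K}


theorem divf_mem_Gn (n : ℕ) {f : K} (hf : f ≠ 0) : divf (k := k) f ∈ Gn k K n :=
  ⟨0, f, hf, by simp⟩


theorem degD_nsmul (n : ℕ) (E : Pl k K →₀ ℤ) : degD (n • E) = n * degD E := by
  induction n with
  | zero => simp [degD_zero]
  | succ n ih =>
    rw [succ_nsmul, degD_add, ih]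
    push_cast; ring

theorem degD_nonneg {D : Pl k K →₀ ℤ} (hD : 0 ≤ D) : 0 ≤ degD D := by
  unfold degD
  exact Finsupp.sum_nonneg fun P _ => mul_nonneg (hD P) (by positivity)

theorem eq_zero_of_nonneg {D : Pl k K →₀ ℤ} (hD : 0 ≤ D) (h : degD D = 0) : D = 0 := by
  ext P
  by_contra hP
  rw [Finsupp.zero_apply] at hP
  have hpos : 0 < degD D := by
    unfold degD
    refine Finset.sum_pos' (fun Q _ => mul_nonneg (hD Q) (by positivity)) ⟨P, ?_, ?_⟩
    · exact Finsupp.mem_support_iff.mpr hP
    · have h3 : 0 < D P := lt_of_le_of_ne (hD P) (Ne.symm hP)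
      have h4 : 0 < (degP P : ℤ) := by exact_mod_cast degP_pos P
      exact mul_pos h3 h4
  omega

end GnDef

section Main

variable {F K Ω L : Type*} [Field F] [IsAlgClosed F] [CharZero F] [Field K] [Algebra F K]
  [Algebra (RatFunc F) K] [IsScalarTower F (RatFunc F) K] [FiniteDimensional (RatFunc F) K]
  [Algebra.IsSeparable (RatFunc F) K]
  [Field Ω] [Algebra F Ω] [IsAlgClosed Ω]
  [Field L] [Algebra Ω L] [Algebra F L] [IsScalarTower F Ω L]
  [Algebra (RatFunc Ω) L] [IsScalarTower Ω (RatFunc Ω) L]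
  [FiniteDimensional (RatFunc Ω) L] [Algebra.IsSeparable (RatFunc Ω) L]
  {ι : K →ₐ[F] L}

omit [CharZero F] [IsAlgClosed F] [Algebra.IsSeparable (RatFunc F) K] in
/-- a point with prescribed transcendental `x`-coordinate -/
theorem exists_point {a : Ω} (ha : Transcendental F a) : ∃ Q : K →ₐ[F] Ω, Q (xK F K) = a := by
  letI := (rho ha : RatFunc F →ₐ[F] Ω).toRingHom.toAlgebra
  haveI : IsScalarTower F (RatFunc F) Ω := IsScalarTower.of_algebraMap_eq fun c => by
    show _ = rho ha _
    rw [AlgHom.commutes]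
  let Q : K →ₐ[RatFunc F] Ω := IsAlgClosed.lift
  refine ⟨Q.restrictScalars F, ?_⟩
  show Q (algebraMap (RatFunc F) K RatFunc.X) = a
  rw [AlgHom.commutes]
  show rho ha RatFunc.X = a
  rw [← RatFunc.algebraMap_X, rho_algebraMap, Polynomial.aeval_X]

/-- key step: from generic points to generic points -/
theorem exists_generic_relation (hι : IsCE Ω ι) (hx : xK Ω L = ι (xK F K))
    {z : Fin (gen F K) → Ω} (hz : IsTranscendenceBasis F z) {n : ℕ} (hn : 0 < n) (P₀ : Pl F K) :
    ∃ R : Fin (gen F K) → K →ₐ[F] Ω, IsTranscendenceBasis F (fun i => R i (xK F K)) ∧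
      sumQ hι R - base hι (Finsupp.single P₀ (gen F K : ℤ)) ∈ Gn Ω L n := by
  classical
  haveI : CharZero Ω := charZero_of_injective_algebraMap (algebraMap F Ω).injective
  choose Q hQ using fun i => exists_point (K := K) (hz.1.transcendental i)
  have hQz : (fun i => Q i (xK F K)) = z := funext hQ
  have hell := ell_sumQ hι hx Q (by rw [hQz]; exact hz.1)
  let D₀ : Pl Ω L →₀ ℤ := base hι (Finsupp.single P₀ (((n + 1) * gen F K : ℕ) : ℤ)) - n • sumQ hι Q
  have hD₀ : degD D₀ = gen F K := by
    rw [degD_sub, degD_base, degD_single, degP_eq_one, degD_nsmul, degD_sumQ]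
    push_cast; ring
  have h1 : 1 ≤ ell D₀ := by
    have := ell_ge (algebraicClosure_eq_bot (k := Ω) (K := L)) D₀
    rw [hD₀, gen_eq hι hx] at this
    have h2 : (1 : ℤ) ≤ ell D₀ := by linarith
    exact_mod_cast h2
  have h2 : LD D₀ ≠ ⊥ := by
    intro h0
    unfold ell at h1
    rw [h0] at h1
    simp at h1
  obtain ⟨h, hh, hh0⟩ := Submodule.exists_mem_ne_zero_of_ne_bot h2
  rw [mem_LD_iff hh0] at hh
  set E : Pl Ω L →₀ ℤ := D₀ + divf h with hE
  have hEdeg : degD E = gen F K := by rw [hE, degD_add, degD_divf hh0, hD₀, add_zero]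
  have hEpt : ∀ R : K →ₐ[F] Ω, E (plQ hι R) =
      divf h (plQ hι R) - n * sumQ hι Q (plQ hι R) := by
    intro R
    rw [hE, Finsupp.add_apply]
    show D₀ (plQ hι R) + _ = _
    rw [Finsupp.sub_apply, base_plQ, Finsupp.smul_apply]
    simp only [nsmul_eq_mul]
    ring
  -- the support of `E` among the points
  have hfin : {R : K →ₐ[F] Ω | E (plQ hι R) ≠ 0}.Finite := by
    have h3 : {w : Pl Ω L | E w ≠ 0}.Finite := by
      refine E.support.finite_toSet.subset fun w hw => ?_
      simpa using hw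
    exact h3.preimage (f := plQ hι) ((plQ_injective hι).injOn)
  let S : Finset (K →ₐ[F] Ω) := hfin.toFinset
  have hS : ∀ R, R ∈ S ↔ E (plQ hι R) ≠ 0 := fun R => by simp [S]
  let T : Set Ω := Set.range fun R : S => (R : K →ₐ[F] Ω) (xK F K)
  -- the coordinates of `Q` are algebraic over those of `S`
  have halg : ∀ i, IsAlgebraic (Algebra.adjoin F T) (z i) := by
    intro i
    by_contra hcon
    rw [← IntermediateField.isAlgebraic_adjoin_iff] at hcon
    obtain ⟨d, hd⟩ := exists_derivation (M := IntermediateField.adjoin F T) hcon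
    let d' : Derivation F Ω Ω := d.restrictScalars F
    obtain ⟨D, hD⟩ := exists_ext hι d'
    have hrig := rig hι hD (sumQ_nonneg hι Q) hell hh0 (by
      intro R hR
      by_cases hRS : R ∈ S
      · left
        have h3 : R (xK F K) ∈ IntermediateField.adjoin F T :=
          IntermediateField.subset_adjoin _ _ ⟨⟨R, hRS⟩, rfl⟩
        have h4 := d.map_algebraMap (⟨R (xK F K), h3⟩ : IntermediateField.adjoin F T)
        exact h4
      · right
        have h3 : E (plQ hι R) = 0 := by
          by_contra h4; exact hRS ((hS R).mpr h4)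
        rw [hEpt] at h3
        have h4 : divf (k := Ω) h (plQ hι R) ≠ 0 := by
          intro h5
          apply hR
          rw [v_eq hh0, h5]; simp
        have h5 := sumQ_nonneg hι Q (plQ hι R)
        rw [Finsupp.zero_apply] at h5
        by_contra h6
        have h7 : sumQ hι Q (plQ hι R) = 0 := by omega
        rw [h7] at h3
        apply h4
        linarith)
    have h3 := hrig (Q i) (by
      intro h4
      have h5 : divf (k := Ω) h (plQ hι (Q i)) = 0 := by
        rw [v_eq hh0, ← exp_zero, exp_inj] at h4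
        omega
      have h6 := hEpt (Q i)
      rw [h5] at h6
      have h7 := hh (plQ hι (Q i))
      rw [Finsupp.zero_apply] at h7
      have h8 := one_le_sumQ hι Q i
      have h9 : (0 : ℤ) < n := by exact_mod_cast hn
      have h10 : 0 < (n : ℤ) * sumQ hι Q (plQ hι (Q i)) := by positivity
      omega)
    rw [hQ i] at h3
    have h4 : d' (z i) = 1 := hd
    rw [h4] at h3
    exact one_ne_zero h3
  have hdegsum : ∀ s : Finset (K →ₐ[F] Ω),
      degD (∑ R ∈ s, Finsupp.single (plQ hι R) (1 : ℤ)) = s.card := by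
    intro s
    induction s using Finset.induction_on with
    | empty => simp [degD_zero]
    | insert a s ha ih =>
      rw [Finset.sum_insert ha, degD_add, ih, degD_single, degP_eq_one,
        Finset.card_insert_of_notMem ha]
      push_cast; ring
  have hnonneg : 0 ≤ E - ∑ R ∈ S, Finsupp.single (plQ hι R) (1 : ℤ) := by
    intro w
    rw [Finsupp.zero_apply, Finsupp.sub_apply, Finsupp.finset_sum_apply]
    rcases cases hι w with ⟨P, rfl⟩ | ⟨R, rfl⟩
    · have h4 : ∑ R ∈ S, (Finsupp.single (plQ hι R) (1 : ℤ)) (conP hι P) = 0 :=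
        Finset.sum_eq_zero fun R _ => by
          rw [Finsupp.single_apply, if_neg (fun h => conP_ne_plQ hι P R h.symm)]
      rw [h4, sub_zero]
      exact hh _
    · have h4 : ∑ R' ∈ S, (Finsupp.single (plQ hι R') (1 : ℤ)) (plQ hι R) =
          if R ∈ S then 1 else 0 := by
        simp only [Finsupp.single_apply, (plQ_injective hι).eq_iff]
        rw [Finset.sum_ite_eq' S R (fun _ => (1 : ℤ))]
      rw [h4]
      have h5 : 0 ≤ E (plQ hι R) := hh _
      split_ifs with h6
      · have := (hS R).mp h6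
        omega
      · omega
  have hcardS : S.card ≤ gen F K := by
    have h3 := degD_nonneg hnonneg
    rw [degD_sub, hdegsum, hEdeg] at h3
    omega
  -- `Ω` is algebraic over the coordinates of `S`
  haveI halgΩ : Algebra.IsAlgebraic (Algebra.adjoin F T) Ω := by
    have h3 := hz.isAlgebraic
    refine ⟨fun y => ?_⟩
    refine IsAlgebraic.adjoin_of_forall_isAlgebraic (s := Set.range z) (t := T) ?_
      (h3.isAlgebraic y)
    rintro _ ⟨⟨i, rfl⟩, _⟩
    exact halg i
  have htr := hz.lift_cardinalMk_eq_trdeg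
  have hb : IsTranscendenceBasis F (fun R : S => (R : K →ₐ[F] Ω) (xK F K)) := by
    apply Algebra.IsAlgebraic.isTranscendenceBasis_of_lift_le_trdeg_of_finite
    rw [Cardinal.mk_fin, Cardinal.lift_natCast] at htr
    have h3 : Algebra.trdeg F Ω = (gen F K : ℕ) := by
      have := htr.symm
      rwa [Cardinal.lift_id'] at this
    rw [h3, Cardinal.lift_natCast, Cardinal.mk_coe_finset, Cardinal.lift_natCast]
    exact_mod_cast hcardS
  have hcard : Fintype.card S = gen F K := by
    have h3 := hb.lift_cardinalMk_eq hz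
    rw [Cardinal.mk_fin, Cardinal.lift_natCast, Cardinal.mk_fintype, Cardinal.lift_natCast] at h3
    exact_mod_cast h3
  have hcard' : S.card = gen F K := by rw [← hcard, Fintype.card_coe]
  have hEeq : E = ∑ R ∈ S, Finsupp.single (plQ hι R) (1 : ℤ) := by
    apply sub_eq_zero.mp
    apply eq_zero_of_nonneg hnonneg
    rw [degD_sub, hdegsum, hEdeg, hcard', sub_self]
  let e : Fin (gen F K) ≃ S := (Fintype.equivFinOfCardEq hcard).symm
  refine ⟨fun i => (e i : K →ₐ[F] Ω), ?_, ?_⟩
  · exact hb.comp_equiv e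
  · have h3 : sumQ hι (fun i => (e i : K →ₐ[F] Ω)) = E := by
      rw [hEeq, sumQ, Equiv.sum_comp e (fun R : S => Finsupp.single (plQ hι (R : K →ₐ[F] Ω)) (1 : ℤ)),
        Finset.sum_coe_sort S (fun R => Finsupp.single (plQ hι R) (1 : ℤ))]
    rw [h3]
    refine ⟨base hι (Finsupp.single P₀ (gen F K : ℤ)) - sumQ hι Q, h, hh0, ?_⟩
    rw [hE]
    have h4 : base hι (Finsupp.single P₀ (((n + 1) * gen F K : ℕ) : ℤ)) =
        n • base hι (Finsupp.single P₀ (gen F K : ℤ)) +
          base hι (Finsupp.single P₀ (gen F K : ℤ)) := by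
      rw [base_single, base_single, Finsupp.smul_single, ← Finsupp.single_add]
      congr 1
      push_cast
      simp
      ring
    show base hι (Finsupp.single P₀ (((n + 1) * gen F K : ℕ) : ℤ)) - n • sumQ hι Q + divf h -
      base hι (Finsupp.single P₀ (gen F K : ℤ)) = _
    rw [h4, smul_sub]
    abel

end Main

end Crest.Agent.R013.Div1_280
end

-- ▼ part R013/Div2_280
section

/-!
# R013 / Div2: automorphisms of `Ω`, moving (helper280)
-/

set_option autoImplicit false
set_option linter.all false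

namespace Crest.Agent.R013.Div2_280

open WithZero Module TensorProduct nonZeroDivisors
open Crest.Agent.R013.RR7_948 Crest.Agent.R013.RR8_948 Crest.Agent.R013.RR9_948
open Crest.Agent.R013.RR11_948 Crest.Agent.R013.RR13_948 Crest.Agent.R013.CE1_280
open Crest.Agent.R013.CE2_280 Crest.Agent.R013.CE3_280 Crest.Agent.R013.CE5_280
open Crest.Agent.R013.CE6_280 Crest.Agent.R013.CE7_280 Crest.Agent.R013.CE8_280
open Crest.Agent.R013.CE9_280 Crest.Agent.R013.CE10_280 Crest.Agent.R013.Div1_280

theorem exists_ringEquiv (M Ω₁ Ω₂ : Type*) [Field M] [Field Ω₁] [Field Ω₂] [Algebra M Ω₁]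
    [Algebra M Ω₂] [IsAlgClosed Ω₁] [IsAlgClosed Ω₂] [Algebra.IsAlgebraic M Ω₁]
    [Algebra.IsAlgebraic M Ω₂] :
    ∃ e : Ω₁ ≃+* Ω₂, ∀ y : M, e (algebraMap M Ω₁ y) = algebraMap M Ω₂ y := by
  haveI : IsAlgClosure M Ω₁ := ⟨inferInstance, inferInstance⟩
  haveI : IsAlgClosure M Ω₂ := ⟨inferInstance, inferInstance⟩
  exact ⟨(IsAlgClosure.equiv M Ω₁ Ω₂).toRingEquiv, fun y => (IsAlgClosure.equiv M Ω₁ Ω₂).commutes y⟩

/-- exchange in transcendence degree one -/
theorem exchange {N Ω : Type*} [Field N] [Field Ω] [Algebra N Ω] {a b : Ω}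
    (ha : Transcendental N a) (hb : Transcendental N b)
    (halg : Algebra.IsAlgebraic (Algebra.adjoin N {a}) Ω) :
    Algebra.IsAlgebraic (Algebra.adjoin N {b}) Ω := by
  have hra : Set.range (fun _ : Unit => a) = {a} := Set.range_const
  have hrb : Set.range (fun _ : Unit => b) = {b} := Set.range_const
  have h1 : IsTranscendenceBasis N (fun _ : Unit => a) := by
    rw [isTranscendenceBasis_iff_algebraicIndependent_isAlgebraic]
    refine ⟨(algebraicIndependent_unique_type_iff).mpr ha, ?_⟩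
    rw [hra]
    exact halg
  have h2 : AlgebraicIndependent N (fun _ : Unit => b) :=
    (algebraicIndependent_unique_type_iff).mpr hb
  have h3 : IsTranscendenceBasis N (fun _ : Unit => b) := by
    apply h2.isTranscendenceBasis_of_lift_trdeg_le_of_finite
    rw [← h1.lift_cardinalMk_eq_trdeg]
  have h4 := h3.isAlgebraic
  rw [hrb] at h4
  exact h4

section Auto

variable {F K Ω : Type*} [Field F] [IsAlgClosed F] [Field K] [Algebra F K]
  [Algebra (RatFunc F) K] [IsScalarTower F (RatFunc F) K] [FiniteDimensional (RatFunc F) K]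
  [Field Ω] [Algebra F Ω] [IsAlgClosed Ω]

variable {N : Type*} [Field N] [Algebra F N] [Algebra N Ω] [IsScalarTower F N Ω]

/-- `Frac (N ⊗ K) → Ω` at a point transcendental over `N` -/
noncomputable def phi (Q : K →ₐ[F] Ω) (hQ : Transcendental N (Q (xK F K))) :
    KO F K N →ₐ[N] Ω :=
  IsFractionRing.liftAlgHom (A := N ⊗[F] K) (K := KO F K N) (g := nu N Q) (nu_injective Q hQ)

omit [IsAlgClosed Ω] in
theorem phi_algebraMap (Q : K →ₐ[F] Ω) (hQ : Transcendental N (Q (xK F K))) (t : N ⊗[F] K) :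
    phi Q hQ (algebraMap _ _ t) = nu N Q t :=
  IsFractionRing.lift_algebraMap (A := N ⊗[F] K) (K := KO F K N)
    (g := (nu N Q).toRingHom) (nu_injective Q hQ) t

omit [IsAlgClosed Ω] in
theorem phi_iota (Q : K →ₐ[F] Ω) (hQ : Transcendental N (Q (xK F K))) (f : K) :
    phi Q hQ (iota F K N f) = Q f := by
  rw [iota_apply, phi_algebraMap, nu_tmul, map_one, one_mul]

omit [IsAlgClosed Ω] in
theorem isAlgebraic_phi (Q : K →ₐ[F] Ω) (hQ : Transcendental N (Q (xK F K)))
    (halg : Algebra.IsAlgebraic (Algebra.adjoin N {Q (xK F K)}) Ω) :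
    @Algebra.IsAlgebraic (KO F K N) Ω _ _ (phi Q hQ).toRingHom.toAlgebra := by
  letI algMΩ : Algebra (KO F K N) Ω := (phi Q hQ).toRingHom.toAlgebra
  letI algP : Algebra (Polynomial N) (KO F K N) := algPoly N (KO F K N)
  letI algPΩ : Algebra (Polynomial N) Ω :=
    (Polynomial.aeval (R := N) (Q (xK F K))).toRingHom.toAlgebra
  haveI : IsScalarTower (Polynomial N) (KO F K N) Ω :=
    IsScalarTower.of_algebraMap_eq fun p => by
      show Polynomial.aeval (R := N) (Q (xK F K)) p = phi Q hQ (algebraMap (RatFunc N) (KO F K N)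
        (algebraMap (Polynomial N) (RatFunc N) p))
      rw [algebraMap_ratFunc_poly, ← Polynomial.aeval_algHom_apply, phi_iota]
  haveI : Algebra.IsAlgebraic (Polynomial N) Ω := by
    let f : Polynomial N →+* Algebra.adjoin N {Q (xK F K)} :=
      (Polynomial.aeval (R := N) (⟨Q (xK F K), Algebra.self_mem_adjoin_singleton N _⟩ :
        Algebra.adjoin N {Q (xK F K)})).toRingHom
    refine Algebra.IsAlgebraic.of_ringHom_of_comp_eq f (RingHom.id Ω) ?_ Function.injective_id ?_
    · rintro ⟨y, hy⟩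
      have hy' := hy
      rw [Algebra.adjoin_singleton_eq_range_aeval] at hy'
      obtain ⟨p, hp⟩ := hy'
      refine ⟨p, Subtype.ext ?_⟩
      refine Eq.trans ?_ hp
      exact (Polynomial.aeval_algHom_apply (Algebra.adjoin N {Q (xK F K)}).val _ p).symm
    · refine RingHom.ext fun p => ?_
      exact (Polynomial.aeval_algHom_apply (Algebra.adjoin N {Q (xK F K)}).val _ p).symm
  have hinj : Function.Injective (algebraMap (Polynomial N) (KO F K N)) := by
    have h1 : Function.Injective (algebraMap (Polynomial N) Ω) :=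
      transcendental_iff_injective.mp hQ
    intro p q hpq
    apply h1
    rw [IsScalarTower.algebraMap_apply (Polynomial N) (KO F K N) Ω, hpq,
      ← IsScalarTower.algebraMap_apply]
  exact Algebra.IsAlgebraic.extendScalars hinj

/-- automorphisms of `Ω` moving a point -/
theorem exists_auto' (Q R : K →ₐ[F] Ω)
    (hQ : Transcendental N (Q (xK F K))) (hR : Transcendental N (R (xK F K)))
    (halg : Algebra.IsAlgebraic (Algebra.adjoin N {Q (xK F K)}) Ω) :
    ∃ σ : Ω ≃+* Ω, (∀ y : N, σ (algebraMap N Ω y) = algebraMap N Ω y) ∧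
      ∀ f : K, σ (Q f) = R f := by
  have halg' := exchange hQ hR halg
  obtain ⟨e, he⟩ := @exists_ringEquiv (KO F K N) Ω Ω _ _ _ (phi Q hQ).toRingHom.toAlgebra
    (phi R hR).toRingHom.toAlgebra _ _ (isAlgebraic_phi Q hQ halg) (isAlgebraic_phi R hR halg')
  have he' : ∀ y : KO F K N, e (phi Q hQ y) = phi R hR y := fun y => he y
  refine ⟨e, fun y => ?_, fun f => ?_⟩
  · have h1 := he' (algebraMap N (KO F K N) y)
    rwa [AlgHom.commutes, AlgHom.commutes] at h1
  · have h1 := he' (iota F K N f)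
    rwa [phi_iota, phi_iota] at h1

theorem exists_auto {N : IntermediateField F Ω} [IsAlgClosed N] (Q R : K →ₐ[F] Ω)
    (hQ : Q (xK F K) ∉ N) (hR : R (xK F K) ∉ N)
    (halg : Algebra.IsAlgebraic (Algebra.adjoin N {Q (xK F K)}) Ω) :
    ∃ σ : Ω ≃ₐ[F] Ω, (∀ y ∈ N, σ y = y) ∧ ∀ f : K, σ (Q f) = R f := by
  have htr : ∀ a : Ω, a ∉ N → Transcendental N a := by
    intro a ha
    apply transcendental_of_notMem
    rintro ⟨y, rfl⟩
    exact ha y.2
  obtain ⟨e, he, he'⟩ := exists_auto' Q R (htr _ hQ) (htr _ hR) halg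
  have hN : ∀ y ∈ N, e y = y := fun y hy => he ⟨y, hy⟩
  exact ⟨AlgEquiv.ofRingEquiv (f := e) (fun c => hN _ (N.algebraMap_mem c)), hN, he'⟩

end Auto

section Act

variable {F K Ω L : Type*} [Field F] [IsAlgClosed F] [Field K] [Algebra F K]
  [Algebra (RatFunc F) K] [IsScalarTower F (RatFunc F) K] [FiniteDimensional (RatFunc F) K]
  [Algebra.IsSeparable (RatFunc F) K]
  [Field Ω] [Algebra F Ω]
  [Field L] [Algebra Ω L] [Algebra F L] [IsScalarTower F Ω L]
  {ι : K →ₐ[F] L}

/-- `s` is a semilinear automorphism of `L` trivial on `K` -/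
structure IsLift (ι : K →ₐ[F] L) (σ : Ω ≃ₐ[F] Ω) (s : L ≃+* L) : Prop where
  const : ∀ c : Ω, s (algebraMap Ω L c) = algebraMap Ω L (σ c)
  iota : ∀ f : K, s (ι f) = ι f

omit [Algebra (RatFunc F) K] [IsScalarTower F (RatFunc F) K] [FiniteDimensional (RatFunc F) K]
  [Algebra.IsSeparable (RatFunc F) K] in
theorem exists_lift (hι : IsCE Ω ι) (σ : Ω ≃ₐ[F] Ω) : ∃ s : L ≃+* L, IsLift ι σ s := by
  letI : Algebra (Ω ⊗[F] K) L := (CE3_280.mu (Ω := Ω) ι).toRingHom.toAlgebra
  have halg : ∀ t : Ω ⊗[F] K, algebraMap (Ω ⊗[F] K) L t = CE3_280.mu ι t := fun t => rfl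
  haveI : FaithfulSMul (Ω ⊗[F] K) L := (faithfulSMul_iff_algebraMap_injective _ _).mpr hι.inj
  haveI : IsFractionRing (Ω ⊗[F] K) L := IsFractionRing.of_field _ _ fun z => by
    obtain ⟨a, b, hb, hab⟩ := hι.frac z
    exact ⟨a, b, by
      rw [halg, halg, eq_div_iff (hι.ne_zero hb)]
      exact hab⟩
  let h : Ω ⊗[F] K ≃+* Ω ⊗[F] K :=
    (Algebra.TensorProduct.congr σ (AlgEquiv.refl : K ≃ₐ[F] K)).toRingEquiv
  have hh : ∀ c f, h (c ⊗ₜ f) = σ c ⊗ₜ f := fun c f => rfl
  refine ⟨IsFractionRing.ringEquivOfRingEquiv (K := L) (L := L) h, ?_, ?_⟩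
  · intro c
    have h1 := IsFractionRing.ringEquivOfRingEquiv_algebraMap (K := L) (L := L) h (c ⊗ₜ 1)
    rw [hh, halg, halg, mu_tmul, mu_tmul, map_one, mul_one, mul_one] at h1
    exact h1
  · intro f
    have h1 := IsFractionRing.ringEquivOfRingEquiv_algebraMap (K := L) (L := L) h (1 ⊗ₜ f)
    rw [hh, halg, halg, mu_tmul, mu_tmul, map_one, map_one, one_mul, map_one, one_mul] at h1
    exact h1

variable {σ : Ω ≃ₐ[F] Ω} {s : L ≃+* L}

/-- action on places -/
noncomputable def act (hs : IsLift ι σ s) (w : Pl Ω L) : Pl Ω L where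
  v := w.v.comap (s.symm : L →+* L)
  const := by
    intro c hc
    have h1 : s.symm (algebraMap Ω L c) = algebraMap Ω L (σ.symm c) := by
      rw [RingEquiv.symm_apply_eq, hs.const, AlgEquiv.apply_symm_apply]
    rw [Valuation.comap_apply]
    show w.v (s.symm (algebraMap Ω L c)) = 1
    rw [h1]
    exact w.const _ (by simpa using hc)
  surj := by
    intro y
    obtain ⟨f, hf⟩ := w.surj y
    refine ⟨s f, ?_⟩
    rw [Valuation.comap_apply]
    show w.v (s.symm (s f)) = y
    rw [RingEquiv.symm_apply_apply, hf]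

omit [IsAlgClosed F] [Algebra (RatFunc F) K] [IsScalarTower F (RatFunc F) K]
  [FiniteDimensional (RatFunc F) K] [Algebra.IsSeparable (RatFunc F) K] in
theorem act_v (hs : IsLift ι σ s) (w : Pl Ω L) (f : L) : (act hs w).v (s f) = w.v f := by
  show w.v (s.symm (s f)) = w.v f
  rw [RingEquiv.symm_apply_apply]

omit [IsAlgClosed F] [Algebra (RatFunc F) K] [IsScalarTower F (RatFunc F) K]
  [FiniteDimensional (RatFunc F) K] [Algebra.IsSeparable (RatFunc F) K] in
theorem act_injective (hs : IsLift ι σ s) : Function.Injective (act hs) := by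
  intro w w' h
  apply Pl.ext
  ext f
  rw [← act_v hs w, ← act_v hs w', h]

omit [IsAlgClosed F] [Algebra (RatFunc F) K] [IsScalarTower F (RatFunc F) K]
  [FiniteDimensional (RatFunc F) K] [Algebra.IsSeparable (RatFunc F) K] in
theorem act_surjective (hs : IsLift ι σ s) : Function.Surjective (act hs) := by
  have hs' : IsLift ι σ.symm s.symm :=
    ⟨fun c => by rw [RingEquiv.symm_apply_eq, hs.const, AlgEquiv.apply_symm_apply],
      fun f => by rw [RingEquiv.symm_apply_eq, hs.iota]⟩
  intro w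
  refine ⟨act hs' w, ?_⟩
  apply Pl.ext
  ext f
  show w.v (s (s.symm f)) = w.v f
  rw [RingEquiv.apply_symm_apply]

variable [IsAlgClosed Ω] [Algebra (RatFunc Ω) L] [IsScalarTower Ω (RatFunc Ω) L]
  [FiniteDimensional (RatFunc Ω) L] [Algebra.IsSeparable (RatFunc Ω) L]

theorem act_plQ (hι : IsCE Ω ι) (hs : IsLift ι σ s) (Q : K →ₐ[F] Ω) :
    act hs (plQ hι Q) = plQ hι ((σ : Ω →ₐ[F] Ω).comp Q) := by
  have h1 : At ι (act hs (plQ hι Q)) ((σ : Ω →ₐ[F] Ω).comp Q) := by
    intro f
    have h2 : ι f - algebraMap Ω L (((σ : Ω →ₐ[F] Ω).comp Q) f) =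
        s (ι f - algebraMap Ω L (Q f)) := by
      rw [map_sub, hs.iota, hs.const]
      rfl
    rw [h2, act_v]
    exact plQ_At hι Q f
  exact h1.unique hι (plQ_At hι _)

theorem act_conP (hι : IsCE Ω ι) (hs : IsLift ι σ s) (P : Pl F K) :
    act hs (conP hι P) = conP hι P := by
  have h0 : ∀ f : K, (act hs (conP hι P)).v (ι f) = (conP hι P).v (ι f) := by
    intro f
    rw [← act_v hs (conP hι P) (ι f), hs.iota]
  have h1 : Over ι (act hs (conP hι P)) P :=
    ⟨fun f hf => by rw [h0]; exact (conP_Over hι P).1 f hf,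
      fun f hf => by rw [h0]; exact (conP_Over hι P).2 f hf⟩
  exact h1.unique hι (conP_Over hι P)

theorem mapDomain_divf (hs : IsLift ι σ s) {f : L} (hf : f ≠ 0) :
    (divf (k := Ω) f).mapDomain (act hs) = divf (k := Ω) (s f) := by
  ext w
  obtain ⟨w, rfl⟩ := act_surjective hs w
  rw [Finsupp.mapDomain_apply (act_injective hs)]
  have h1 := act_v hs w f
  rw [v_eq hf, v_eq (by simpa using hf), exp_inj] at h1
  omega

theorem mapDomain_mem_Gn (hs : IsLift ι σ s) {n : ℕ} {D : Pl Ω L →₀ ℤ} (hD : D ∈ Gn Ω L n) :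
    D.mapDomain (act hs) ∈ Gn Ω L n := by
  obtain ⟨E, f, hf, rfl⟩ := hD
  refine ⟨E.mapDomain (act hs), s f, by simpa using hf, ?_⟩
  rw [Finsupp.mapDomain_add, mapDomain_divf hs hf]
  congr 1
  exact map_nsmul (Finsupp.mapDomain.addMonoidHom (act hs)) n E

theorem mapDomain_base (hι : IsCE Ω ι) (hs : IsLift ι σ s) (D : Pl F K →₀ ℤ) :
    (base hι D).mapDomain (act hs) = base hι D := by
  unfold base
  show (D.mapDomain (conP hι)).mapDomain (act hs) = D.mapDomain (conP hι)
  rw [← Finsupp.mapDomain_comp]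
  congr 1
  funext P
  exact act_conP hι hs P

theorem mapDomain_sumQ (hι : IsCE Ω ι) (hs : IsLift ι σ s) {g : ℕ} (Q : Fin g → K →ₐ[F] Ω) :
    (sumQ hι Q).mapDomain (act hs) = sumQ hι fun i => (σ : Ω →ₐ[F] Ω).comp (Q i) := by
  unfold sumQ
  rw [← Finsupp.mapDomain.addMonoidHom_apply, map_sum]
  refine Finset.sum_congr rfl fun i _ => ?_
  rw [Finsupp.mapDomain.addMonoidHom_apply, Finsupp.mapDomain_single, act_plQ]

end Act

end Crest.Agent.R013.Div2_280
end

-- ▼ part R013/Div3_280

/-!
# R013 / Div3: `base D` is divisible over `Ω` (helper280)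
-/

set_option autoImplicit false
set_option linter.all false

namespace Crest.Agent.R013.Div3_280

open WithZero Module TensorProduct nonZeroDivisors
open Crest.Agent.R013.RR7_948 Crest.Agent.R013.RR8_948 Crest.Agent.R013.RR9_948
open Crest.Agent.R013.RR11_948 Crest.Agent.R013.RR13_948 Crest.Agent.R013.CE1_280
open Crest.Agent.R013.CE2_280 Crest.Agent.R013.CE3_280 Crest.Agent.R013.CE5_280
open Crest.Agent.R013.CE6_280 Crest.Agent.R013.CE7_280 Crest.Agent.R013.CE8_280
open Crest.Agent.R013.CE9_280 Crest.Agent.R013.CE10_280 Crest.Agent.R013.Div1_280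
open Crest.Agent.R013.Div2_280

theorem adjoin_le_restrictScalars {F N Ω κ : Type*} [Field F] [Field N] [Field Ω] [Algebra F N]
    [Algebra N Ω] [Algebra F Ω] [IsScalarTower F N Ω] (x : κ → Ω) (i₀ : κ)
    (hN : ∀ i, i ≠ i₀ → ∃ y : N, algebraMap N Ω y = x i) :
    Algebra.adjoin F (Set.range x) ≤ (Algebra.adjoin N {x i₀}).restrictScalars F := by
  classical
  rw [Algebra.adjoin_le_iff]
  rintro _ ⟨i, rfl⟩
  rw [SetLike.mem_coe, Subalgebra.mem_restrictScalars]
  by_cases hi : i = i₀
  · rw [hi]; exact Algebra.subset_adjoin (Set.mem_singleton (x i₀))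
  · obtain ⟨y, hy⟩ := hN i hi
    rw [← hy]
    exact Subalgebra.algebraMap_mem (Algebra.adjoin N {x i₀}) _

theorem isAlgebraic_of_ringHom {R₁ R₂ Ω : Type*} [CommRing R₁] [CommRing R₂] [Field Ω]
    [Algebra R₁ Ω] [Algebra R₂ Ω]
    (f : R₁ →+* R₂) (hf : ∀ y, algebraMap R₂ Ω (f y) = algebraMap R₁ Ω y)
    (hinj : Function.Injective (algebraMap R₁ Ω)) {y : Ω} (h : IsAlgebraic R₁ y) :
    IsAlgebraic R₂ y := by
  have hfi : Function.Injective f := by
    intro a b hab
    apply hinj
    rw [← hf, ← hf, hab]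
  exact h.ringHom_of_comp_eq f (RingHom.id Ω) hfi (RingHom.ext hf)

/-- change of base field for algebraicity -/
theorem isAlgebraic_adjoin_singleton {F N Ω κ : Type*} [Field F] [Field N] [Field Ω] [Algebra F N]
    [Algebra N Ω] [Algebra F Ω] [IsScalarTower F N Ω] (x : κ → Ω) (i₀ : κ)
    (hN : ∀ i, i ≠ i₀ → ∃ y : N, algebraMap N Ω y = x i)
    (h : Algebra.IsAlgebraic (Algebra.adjoin F (Set.range x)) Ω) :
    Algebra.IsAlgebraic (Algebra.adjoin N {x i₀}) Ω := by
  refine ⟨fun y => isAlgebraic_of_ringHom (R₁ := Algebra.adjoin F (Set.range x))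
    (R₂ := Algebra.adjoin N {x i₀})
    ((Subalgebra.inclusion (adjoin_le_restrictScalars x i₀ hN)).toRingHom) ?_ ?_ (h.isAlgebraic y)⟩
  · intro y; rfl
  · exact Subtype.val_injective

section Moving

variable {F K Ω L : Type*} [Field F] [IsAlgClosed F] [CharZero F] [Field K] [Algebra F K]
  [Algebra (RatFunc F) K] [IsScalarTower F (RatFunc F) K] [FiniteDimensional (RatFunc F) K]
  [Algebra.IsSeparable (RatFunc F) K]
  [Field Ω] [Algebra F Ω] [IsAlgClosed Ω]
  [Field L] [Algebra Ω L] [Algebra F L] [IsScalarTower F Ω L]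
  [Algebra (RatFunc Ω) L] [IsScalarTower Ω (RatFunc Ω) L]
  [FiniteDimensional (RatFunc Ω) L] [Algebra.IsSeparable (RatFunc Ω) L]
  {ι : K →ₐ[F] L}

/-- all points outside some algebraically closed subfield have the same class modulo `n` -/
theorem exists_N (hι : IsCE Ω ι) (hx : xK Ω L = ι (xK F K))
    {z : Fin (gen F K) → Ω} (hz : IsTranscendenceBasis F z) {n : ℕ} (hn : 0 < n) (P₀ : Pl F K)
    (hg : 0 < gen F K) :
    ∃ (N : IntermediateField F Ω) (_ : IsAlgClosed N) (Q₁ : K →ₐ[F] Ω), Q₁ (xK F K) ∉ N ∧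
      ∀ R : K →ₐ[F] Ω, R (xK F K) ∉ N →
        Finsupp.single (plQ hι R) (1 : ℤ) - Finsupp.single (plQ hι Q₁) 1 ∈ Gn Ω L n := by
  classical
  obtain ⟨R, hR, hmem⟩ := exists_generic_relation hι hx hz hn P₀
  let i₀ : Fin (gen F K) := ⟨0, hg⟩
  let S : Set Ω := (fun i => R i (xK F K)) '' {i | i ≠ i₀}
  have hcl : IsAlgClosed (acl F S) := isAlgClosed_acl S
  have hN : ∀ i, i ≠ i₀ → ∀ f, R i f ∈ acl F S := fun i hi f =>
    mem_of_point (N := acl F S) (R i) (subset_acl (S := S) ⟨i, hi, rfl⟩) f
  have hQ₁ : R i₀ (xK F K) ∉ acl F S := by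
    intro h1
    rw [mem_acl, IntermediateField.isAlgebraic_adjoin_iff] at h1
    exact hR.1.transcendental_adjoin (s := {i | i ≠ i₀}) (i := i₀) (by simp) h1
  -- algebraicity
  have halg : Algebra.IsAlgebraic (Algebra.adjoin (acl F S) {R i₀ (xK F K)}) Ω :=
    isAlgebraic_adjoin_singleton (N := acl F S) (fun i => R i (xK F K)) i₀
      (fun i hi => ⟨⟨_, hN i hi _⟩, rfl⟩) hR.isAlgebraic
  refine ⟨acl F S, hcl, R i₀, hQ₁, fun R' hR' => ?_⟩
  obtain ⟨σ, hσ, hσR⟩ := exists_auto (R i₀) R' hQ₁ hR' halg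
  obtain ⟨s, hs⟩ := exists_lift hι σ
  have h2 := mapDomain_mem_Gn hs hmem
  rw [← Finsupp.mapDomain.addMonoidHom_apply, map_sub, Finsupp.mapDomain.addMonoidHom_apply,
    Finsupp.mapDomain.addMonoidHom_apply, mapDomain_sumQ hι hs, mapDomain_base hι hs] at h2
  have h3 := (Gn Ω L n).sub_mem h2 hmem
  have h4 : sumQ hι (fun i => (σ : Ω →ₐ[F] Ω).comp (R i)) -
      base hι (Finsupp.single P₀ (gen F K : ℤ)) -
      (sumQ hι R - base hι (Finsupp.single P₀ (gen F K : ℤ))) =
      Finsupp.single (plQ hι R') (1 : ℤ) - Finsupp.single (plQ hι (R i₀)) 1 := by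
    have h5 : sumQ hι (fun i => (σ : Ω →ₐ[F] Ω).comp (R i)) - sumQ hι R =
        Finsupp.single (plQ hι R') (1 : ℤ) - Finsupp.single (plQ hι (R i₀)) 1 := by
      unfold sumQ
      rw [← Finset.sum_sub_distrib, Finset.sum_eq_single i₀]
      · have h6 : (σ : Ω →ₐ[F] Ω).comp (R i₀) = R' := by
          ext f
          exact hσR f
        simp only [h6]
      · intro i _ hi
        have h6 : (σ : Ω →ₐ[F] Ω).comp (R i) = R i := by
          ext f
          exact hσ _ (hN i hi f)
        simp only [h6, sub_self]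
      · intro h; exact absurd (Finset.mem_univ _) h
    rw [← h5]
    abel
  rw [h4] at h3
  exact h3

omit [CharZero F] in
/-- a function in `L(A_Ω)` all of whose zeros are points outside `N` -/
theorem exists_good_function (hι : IsCE Ω ι) (hx : xK Ω L = ι (xK F K))
    {N : IntermediateField F Ω} [IsAlgClosed N] {z₀ : Ω} (hz₀ : z₀ ∉ N)
    {A : Pl F K →₀ ℤ} (hA : 2 * (gen F K : ℤ) ≤ degD A) :
    ∃ f : L, f ≠ 0 ∧ 0 ≤ base hι A + divf f ∧
      (∀ P, (base hι A + divf f : Pl Ω L →₀ ℤ) (conP hι P) = 0) ∧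
      ∀ R : K →ₐ[F] Ω, (base hι A + divf f : Pl Ω L →₀ ℤ) (plQ hι R) ≠ 0 →
        R (xK F K) ∉ N := by
  classical
  haveI := LD_finite A
  let g := Module.finBasis F (LD A)
  let m := Module.finrank F (LD A)
  let c : Fin m → Ω := fun j => z₀ ^ (j : ℕ)
  have htr : Transcendental N z₀ := by
    apply transcendental_of_notMem
    rintro ⟨y, rfl⟩
    exact hz₀ y.2
  have hcN : LinearIndependent N c := by
    have h1 := (Polynomial.basisMonomials N).linearIndependent.map'
      (Polynomial.aeval (R := N) z₀).toLinearMap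
      (LinearMap.ker_eq_bot.mpr (transcendental_iff_injective.mp htr))
    have h2 := h1.comp (fun j : Fin m => (j : ℕ)) Fin.val_injective
    have h3 : c = ((Polynomial.aeval (R := N) z₀).toLinearMap ∘ (Polynomial.basisMonomials N)) ∘
          (fun n : Fin m => (n : ℕ)) := by
      ext n
      simp [c, ← Polynomial.X_pow_eq_monomial]
    rw [h3]
    exact h2
  have hcF : LinearIndependent F c := hcN.restrict_scalars (by
    intro a b hab
    simpa [Algebra.smul_def] using hab)
  let t : Ω ⊗[F] K := ∑ j, c j ⊗ₜ[F] ((g j : LD A) : K)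
  let c' : Fin m →₀ K := Finsupp.equivFunOnFinite.symm fun j => ((g j : LD A) : K)
  have hc' : (c'.sum fun i f => c i ⊗ₜ[F] f) = t := by
    rw [Finsupp.sum_fintype _ _ (fun i => by simp)]
    rfl
  have hell : ∀ P : Pl F K, ∃ j, P.v ((g j : LD A) : K) = exp (A P) := by
    intro P
    by_contra hcon
    push Not at hcon
    have hle : LD A ≤ LD (A - Finsupp.single P 1) := by
      have h1 : ∀ j, ((g j : LD A) : K) ∈ LD (A - Finsupp.single P 1) := by
        intro j
        rw [mem_LD]
        intro P'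
        rw [Finsupp.sub_apply, Finsupp.single_apply]
        have h2 := mem_LD.mp (g j).2 P'
        split_ifs with h3
        · subst h3
          rw [← RR2_948.lt_exp_iff]
          exact lt_of_le_of_ne h2 (hcon j)
        · rw [sub_zero]; exact h2
      intro f hf
      have h3 := g.sum_repr ⟨f, hf⟩
      have h4 : f = ∑ j, g.repr ⟨f, hf⟩ j • ((g j : LD A) : K) := by
        have h5 := congrArg (LD A).subtype h3
        rw [map_sum] at h5
        simp only [map_smul, Submodule.subtype_apply] at h5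
        exact h5.symm
      rw [h4]
      exact Submodule.sum_mem _ fun j _ => Submodule.smul_mem _ _ (h1 j)
    haveI := LD_finite (A - Finsupp.single P 1)
    have h6 := Submodule.finrank_mono hle
    have h7 := ell_eq_of_lt (algebraicClosure_eq_bot (k := F) (K := K)) (D := A) (by omega)
    have h8 : degD (A - Finsupp.single P 1) = degD A - 1 := by
      rw [degD_sub, degD_single, degP_eq_one]; simp
    have h9 := ell_eq_of_lt (algebraicClosure_eq_bot (k := F) (K := K))
      (D := A - Finsupp.single P 1) (by omega)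
    unfold ell at h7 h9
    rw [h8] at h9
    omega
  have hfP : ∀ P : Pl F K, (conP hι P).v (mu ι t) = exp (A P) := by
    intro P
    obtain ⟨j, hj⟩ := hell P
    rw [← hc']
    exact (conP_Over hι P).v_sum_eq' hι hcF c' (A P) (fun i => mem_LD.mp (g i).2 P) (i₀ := j) hj
  have hf0 : mu ι t ≠ 0 := by
    obtain ⟨P, -⟩ := RR12_948.exists_notMem (∅ : Finset (Pl F K))
    intro h0
    have := hfP P
    rw [h0, map_zero] at this
    exact exp_ne_zero this.symm
  have hmem : mu ι t ∈ LD (base hι A) := by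
    rw [← range_lam hι hx]
    refine ⟨∑ j, c j ⊗ₜ[F] (g j : LD A), ?_⟩
    rw [map_sum, map_sum]
    refine Finset.sum_congr rfl fun j _ => ?_
    rw [lam_tmul, mu_tmul]
  refine ⟨mu ι t, hf0, (mem_LD_iff hf0).mp hmem, fun P => ?_, fun R hR hRN => hR ?_⟩
  · have h1 := hfP P
    rw [v_eq hf0, exp_inj] at h1
    rw [Finsupp.add_apply, base_conP]
    omega
  · have hRN' : ∀ f, R f ∈ N := mem_of_point R hRN
    have h1 : ev R t ≠ 0 := by
      intro h0
      simp only [t, map_sum, ev_tmul] at h0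
      have h2 : ∑ j, (⟨R ((g j : LD A) : K), hRN' _⟩ : N) • c j = 0 := by
        rw [← h0]
        refine Finset.sum_congr rfl fun j _ => ?_
        rw [Algebra.smul_def, mul_comm]
        rfl
      have h3 := Fintype.linearIndependent_iff.mp hcN _ h2
      -- some basis vector exists
      obtain ⟨P, -⟩ := RR12_948.exists_notMem (∅ : Finset (Pl F K))
      obtain ⟨j, hj⟩ := hell P
      have h4 := congrArg Subtype.val (h3 j)
      have h5 : ((g j : LD A) : K) = 0 := (R : K →+* Ω).injective (by rw [map_zero]; exact h4)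
      rw [h5, map_zero] at hj
      exact exp_ne_zero hj.symm
    have h2 := (plQ_At hι R).eq_one h1
    rw [v_eq hf0, ← exp_zero, exp_inj] at h2
    rw [Finsupp.add_apply, base_plQ]
    omega

/-- divisors of large degree on `K` -/
theorem base_sub_mem_Gn (hι : IsCE Ω ι) (hx : xK Ω L = ι (xK F K)) {n : ℕ}
    {N : IntermediateField F Ω} [IsAlgClosed N] {Q₁ : K →ₐ[F] Ω} (hQ₁ : Q₁ (xK F K) ∉ N)
    (hcl : ∀ R : K →ₐ[F] Ω, R (xK F K) ∉ N →
        Finsupp.single (plQ hι R) (1 : ℤ) - Finsupp.single (plQ hι Q₁) 1 ∈ Gn Ω L n)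
    {A : Pl F K →₀ ℤ} (hA : 2 * (gen F K : ℤ) ≤ degD A) :
    base hι A - degD A • Finsupp.single (plQ hι Q₁) (1 : ℤ) ∈ Gn Ω L n := by
  classical
  obtain ⟨f, hf0, hf1, hf2, hf3⟩ := exists_good_function hι hx hQ₁ hA
  set B : Pl Ω L →₀ ℤ := base hι A + divf f with hB
  have hBdeg : degD B = degD A := by rw [hB, degD_add, degD_divf hf0, degD_base, add_zero]
  have h1 : B - degD A • Finsupp.single (plQ hι Q₁) (1 : ℤ) ∈ Gn Ω L n := by
    have h2 : B - degD A • Finsupp.single (plQ hι Q₁) (1 : ℤ) =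
        B.sum fun w m => m • (Finsupp.single w (1 : ℤ) - Finsupp.single (plQ hι Q₁) 1) := by
      have h3 : (B.sum fun w m => m • (Finsupp.single w (1 : ℤ) -
          Finsupp.single (plQ hι Q₁) (1 : ℤ))) =
          (B.sum fun w m => Finsupp.single w m) -
            (B.sum fun _ m => m) • Finsupp.single (plQ hι Q₁) (1 : ℤ) := by
        rw [Finsupp.sum, Finsupp.sum, Finsupp.sum, Finset.sum_smul, ← Finset.sum_sub_distrib]
        refine Finset.sum_congr rfl fun w _ => ?_
        rw [smul_sub, Finsupp.smul_single, smul_eq_mul, mul_one]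
      rw [h3, Finsupp.sum_single, ← degD_eq_sum, hBdeg]
    rw [h2]
    refine AddSubgroup.sum_mem _ fun w hw => ?_
    rw [Finsupp.mem_support_iff] at hw
    refine AddSubgroup.zsmul_mem _ ?_ _
    rcases cases hι w with ⟨P, rfl⟩ | ⟨R, rfl⟩
    · exact absurd (hf2 P) hw
    · exact hcl R (hf3 R hw)
  have h4 : base hι A - degD A • Finsupp.single (plQ hι Q₁) (1 : ℤ) =
      (B - degD A • Finsupp.single (plQ hι Q₁) (1 : ℤ)) - divf f := by
    rw [hB]; abel
  rw [h4]
  exact AddSubgroup.sub_mem _ h1 (divf_mem_Gn n hf0)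

/-- **divisors of degree zero on `K` become divisible by `n` over `Ω`** -/
theorem base_mem_Gn (hι : IsCE Ω ι) (hx : xK Ω L = ι (xK F K))
    {z : Fin (gen F K) → Ω} (hz : IsTranscendenceBasis F z) {n : ℕ} (hn : 0 < n)
    {D : Pl F K →₀ ℤ} (hD : degD D = 0) : base hι D ∈ Gn Ω L n := by
  classical
  obtain ⟨P₀, -⟩ := RR12_948.exists_notMem (∅ : Finset (Pl F K))
  rcases Nat.eq_zero_or_pos (gen F K) with hg | hg
  · -- genus zero: `D` is principal
    have h1 := ell_ge (algebraicClosure_eq_bot (k := Ω) (K := L)) (base hι D)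
    rw [degD_base, hD, gen_eq hι hx, hg] at h1
    have h2 : 1 ≤ ell (base hι D) := by
      have : (1 : ℤ) ≤ ell (base hι D) := by simpa using h1
      exact_mod_cast this
    have h3 : LD (base hι D) ≠ ⊥ := by
      intro h0
      unfold ell at h2
      rw [h0] at h2
      simp at h2
    obtain ⟨f, hf, hf0⟩ := Submodule.exists_mem_ne_zero_of_ne_bot h3
    rw [mem_LD_iff hf0] at hf
    have h4 : base hι D + divf f = 0 := eq_zero_of_nonneg hf (by
      rw [degD_add, degD_base, hD, degD_divf hf0, add_zero])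
    rw [eq_neg_of_add_eq_zero_left h4]
    exact AddSubgroup.neg_mem _ (divf_mem_Gn n hf0)
  · obtain ⟨N, hN, Q₁, hQ₁, hcl⟩ := exists_N hι hx hz hn P₀ hg
    let M : Pl F K →₀ ℤ := Finsupp.single P₀ (2 * (gen F K : ℤ))
    have hM : degD M = 2 * (gen F K : ℤ) := by rw [degD_single, degP_eq_one]; simp
    have h1 := base_sub_mem_Gn hι hx hQ₁ hcl (A := D + M) (by rw [degD_add, hD, hM, zero_add])
    have h2 := base_sub_mem_Gn hι hx hQ₁ hcl (A := M) (by rw [hM])
    have h3 := AddSubgroup.sub_mem _ h1 h2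
    rw [degD_add, hD, zero_add, map_add] at h3
    have h4 : base hι D + base hι M - degD M • Finsupp.single (plQ hι Q₁) (1 : ℤ) -
        (base hι M - degD M • Finsupp.single (plQ hι Q₁) (1 : ℤ)) = base hι D := by abel
    rwa [h4] at h3

end Moving

end Crest.Agent.R013.Div3_280
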