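import Mathlib
import Crest.Agent.R013.Div3_280

-- ▼ part R013/Div4_280
section

/-!
# R013 / Div4: descent of divisibility (helper280)
-/

set_option autoImplicit false
set_option linter.all false

namespace Crest.Agent.R013.Div4_280

open WithZero Module TensorProduct nonZeroDivisors
open Crest.Agent.R013.RR7_948 Crest.Agent.R013.RR8_948 Crest.Agent.R013.RR9_948
open Crest.Agent.R013.RR11_948 Crest.Agent.R013.RR13_948 Crest.Agent.R013.CE1_280
open Crest.Agent.R013.CE2_280 Crest.Agent.R013.CE3_280 Crest.Agent.R013.CE5_280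
open Crest.Agent.R013.CE6_280 Crest.Agent.R013.CE7_280 Crest.Agent.R013.CE8_280
open Crest.Agent.R013.CE9_280 Crest.Agent.R013.CE10_280 Crest.Agent.R013.Div1_280

section Sub

variable {F K Ω : Type*} [Field F] [Field K] [Algebra F K] [Field Ω] [Algebra F Ω]

/-- the map `A ⊗ O → Ω ⊗ K` -/
noncomputable def jmap (A : Subalgebra F Ω) (O : Subalgebra F K) : A ⊗[F] O →ₐ[F] Ω ⊗[F] K :=
  Algebra.TensorProduct.map A.val O.val

@[simp] theorem jmap_tmul (A : Subalgebra F Ω) (O : Subalgebra F K) (a : A) (y : O) :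
    jmap A O (a ⊗ₜ y) = (a : Ω) ⊗ₜ (y : K) := by
  simp [jmap]

theorem jmap_injective (A : Subalgebra F Ω) (O : Subalgebra F K) :
    Function.Injective (jmap A O) :=
  TensorProduct.map_injective_of_flat_flat A.val.toLinearMap O.val.toLinearMap
    Subtype.val_injective Subtype.val_injective

/-- every tensor is supported on finite sets -/
theorem exists_support (s : Ω ⊗[F] K) : ∃ (C : Finset Ω) (Y : Finset K),
    ∀ (A : Subalgebra F Ω) (O : Subalgebra F K), (∀ c ∈ C, c ∈ A) → (∀ y ∈ Y, y ∈ O) →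
      ∃ s' : A ⊗[F] O, jmap A O s' = s := by
  classical
  induction s with
  | zero => exact ⟨∅, ∅, fun A O _ _ => ⟨0, map_zero _⟩⟩
  | add s t hs ht =>
    obtain ⟨C, Y, h⟩ := hs
    obtain ⟨C', Y', h'⟩ := ht
    refine ⟨C ∪ C', Y ∪ Y', fun A O hA hO => ?_⟩
    obtain ⟨s', hs'⟩ := h A O (fun c hc => hA c (Finset.mem_union_left _ hc))
      (fun y hy => hO y (Finset.mem_union_left _ hy))
    obtain ⟨t', ht'⟩ := h' A O (fun c hc => hA c (Finset.mem_union_right _ hc))
      (fun y hy => hO y (Finset.mem_union_right _ hy))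
    exact ⟨s' + t', by rw [map_add, hs', ht']⟩
  | tmul c f =>
    refine ⟨{c}, {f}, fun A O hA hO => ?_⟩
    exact ⟨(⟨c, hA c (Finset.mem_singleton_self _)⟩ : A) ⊗ₜ
      (⟨f, hO f (Finset.mem_singleton_self _)⟩ : O), by simp⟩

/-- specialisation `A ⊗ O → K` -/
noncomputable def spec {A : Subalgebra F Ω} (ρ : A →ₐ[F] F) (O : Subalgebra F K) :
    A ⊗[F] O →ₐ[F] K :=
  Algebra.TensorProduct.productMap ((Algebra.ofId F K).comp ρ) O.val

@[simp] theorem spec_tmul {A : Subalgebra F Ω} (ρ : A →ₐ[F] F) (O : Subalgebra F K) (a : A)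
    (y : O) : spec ρ O (a ⊗ₜ y) = algebraMap F K (ρ a) * (y : K) := by
  simp [spec, Algebra.ofId_apply]

/-- specialisation at a point -/
noncomputable def psi {A : Subalgebra F Ω} (ρ : A →ₐ[F] F) {O : Subalgebra F K} (Q : K →ₐ[F] Ω)
    (hQ : ∀ y ∈ O, Q y ∈ A) : O →ₐ[F] F :=
  ρ.comp ((Q.comp O.val).codRestrict A fun y => hQ y y.2)

theorem psi_apply {A : Subalgebra F Ω} (ρ : A →ₐ[F] F) {O : Subalgebra F K} (Q : K →ₐ[F] Ω)
    (hQ : ∀ y ∈ O, Q y ∈ A) (y : O) : psi ρ Q hQ y = ρ ⟨Q y, hQ y y.2⟩ := rfl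

theorem ev_mem {A : Subalgebra F Ω} {O : Subalgebra F K} (Q : K →ₐ[F] Ω)
    (hQ : ∀ y ∈ O, Q y ∈ A) (s : A ⊗[F] O) : ev Q (jmap A O s) ∈ A := by
  induction s with
  | zero => rw [map_zero, map_zero]; exact A.zero_mem
  | add s t hs ht => rw [map_add, map_add]; exact A.add_mem hs ht
  | tmul a y => rw [jmap_tmul, ev_tmul]; exact A.mul_mem a.2 (hQ y y.2)

theorem ev_add_sub {A : Subalgebra F Ω} {O : Subalgebra F K} (Q : K →ₐ[F] Ω)
    (hQ : ∀ y ∈ O, Q y ∈ A) (ρ : A →ₐ[F] F) (s t : A ⊗[F] O) :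
    ρ ⟨ev Q (jmap A O (s + t)), ev_mem Q hQ (s + t)⟩ =
      ρ ⟨ev Q (jmap A O s), ev_mem Q hQ s⟩ + ρ ⟨ev Q (jmap A O t), ev_mem Q hQ t⟩ := by
  rw [← map_add]
  congr 1
  apply Subtype.ext
  show ev Q (jmap A O (s + t)) = ev Q (jmap A O s) + ev Q (jmap A O t)
  rw [map_add, map_add]

/-- residues of specialised tensors -/
theorem spec_residue {A : Subalgebra F Ω} {O : Subalgebra F K} (Q : K →ₐ[F] Ω)
    (hQ : ∀ y ∈ O, Q y ∈ A) (ρ : A →ₐ[F] F) {P : Pl F K}
    (hP : ∀ y : O, P.v ((y : K) - algebraMap F K (psi ρ Q hQ y)) < 1) (s : A ⊗[F] O) :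
    P.v (spec ρ O s - algebraMap F K (ρ ⟨ev Q (jmap A O s), ev_mem Q hQ s⟩)) < 1 := by
  induction s with
  | zero =>
    have h1 : (⟨ev Q (jmap A O 0), ev_mem Q hQ 0⟩ : A) = 0 := by
      apply Subtype.ext
      show ev Q (jmap A O 0) = 0
      rw [map_zero, map_zero]
    rw [h1]; simp
  | add s t hs ht =>
    rw [ev_add_sub Q hQ ρ, map_add, map_add, add_sub_add_comm]
    exact lt_of_le_of_lt (Valuation.map_add _ _ _) (max_lt hs ht)
  | tmul a y =>
    have h1 : (⟨ev Q (jmap A O (a ⊗ₜ y)), ev_mem Q hQ (a ⊗ₜ y)⟩ : A) = a * ⟨Q y, hQ y y.2⟩ := by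
      apply Subtype.ext
      show ev Q (jmap A O (a ⊗ₜ y)) = (a : Ω) * Q y
      rw [jmap_tmul, ev_tmul]
    rw [h1, map_mul, map_mul, spec_tmul, ← psi_apply ρ Q hQ y, ← mul_sub, map_mul]
    calc _ ≤ 1 * P.v ((y : K) - algebraMap F K (psi ρ Q hQ y)) :=
          mul_le_mul_left (v_algebraMap_le P _) _
      _ < 1 := by rw [one_mul]; exact hP y

end Sub

section Descent

variable {F K Ω L : Type*} [Field F] [IsAlgClosed F] [Field K] [Algebra F K]
  [Algebra (RatFunc F) K] [IsScalarTower F (RatFunc F) K] [FiniteDimensional (RatFunc F) K]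
  [Algebra.IsSeparable (RatFunc F) K]
  [Field Ω] [Algebra F Ω] [IsAlgClosed Ω]
  [Field L] [Algebra Ω L] [Algebra F L] [IsScalarTower F Ω L]
  [Algebra (RatFunc Ω) L] [IsScalarTower Ω (RatFunc Ω) L]
  [FiniteDimensional (RatFunc Ω) L] [Algebra.IsSeparable (RatFunc Ω) L]
  {ι : K →ₐ[F] L}

/-- **specialisation of an effective divisor**: `f ∈ L(D)_Ω` with zeros of order `k Q` at finitely
many points specialises to `f' ∈ L(D)` with zeros of order `k Q` at distinct places `P Q` outside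
the support of `D` -/
theorem exists_specialization (hι : IsCE Ω ι) (hx : xK Ω L = ι (xK F K)) {D : Pl F K →₀ ℤ}
    {f : L} (hf0 : f ≠ 0) (hf : f ∈ LD (base hι D)) (S : Finset (K →ₐ[F] Ω))
    (k : (K →ₐ[F] Ω) → ℕ) (hk : ∀ Q, (plQ hι Q).v f = exp (-(k Q : ℤ))) :
    ∃ (f' : K) (P : (K →ₐ[F] Ω) → Pl F K), f' ≠ 0 ∧ f' ∈ LD D ∧
      (∀ Q ∈ S, (P Q).v f' ≤ exp (-(k Q : ℤ))) ∧ (∀ Q ∈ S, D (P Q) = 0) ∧
      (∀ Q ∈ S, ∀ Q' ∈ S, P Q = P Q' → Q = Q') := by
  classical
  haveI := LD_finite D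
  let g := Module.finBasis F (LD D)
  rw [← range_lam hι hx] at hf
  obtain ⟨t₀, rfl⟩ := hf
  obtain ⟨c, rfl⟩ := TensorProduct.eq_repr_basis_right g t₀
  let t : Ω ⊗[F] K := ∑ j, c j ⊗ₜ[F] ((g j : LD D) : K)
  have ht : lam Ω ι D (c.sum fun i m => m ⊗ₜ g i) = mu ι t := by
    rw [Finsupp.sum_fintype _ _ (fun i => by simp), map_sum, map_sum]
    refine Finset.sum_congr rfl fun i _ => ?_
    rw [lam_tmul, mu_tmul]
  rw [ht] at hf0 hk
  have ht0 : t ≠ 0 := by
    intro h; rw [h, map_zero] at hf0; exact hf0 rfl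
  obtain ⟨j₀, hj₀⟩ : ∃ j, c j ≠ 0 := by
    by_contra h
    push Not at h
    exact ht0 (Finset.sum_eq_zero fun j _ => by rw [h j, TensorProduct.zero_tmul])
  -- local forms at the points
  have hform : ∀ Q : K →ₐ[F] Ω, ∃ e t' : Ω ⊗[F] K, ev Q e ≠ 0 ∧ ev Q t' ≠ 0 ∧
      e * t = piT F K (Q (xK F K)) ^ (k Q) * t' := by
    intro Q
    obtain ⟨m, e, t', he, ht', heq⟩ := (plQ_At hι Q).exists_form_T hι ht0
    have h1 := congrArg (fun s => (plQ hι Q).v (mu ι s)) heq
    simp only [map_mul, map_pow] at h1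
    rw [(plQ_At hι Q).eq_one he, (plQ_At hι Q).eq_one ht', hk, (plQ_At hι Q).v_pi hι, one_mul,
      mul_one, ← exp_nsmul, exp_inj] at h1
    have h2 : m = k Q := by
      simp at h1
      exact_mod_cast h1.symm
    subst h2
    exact ⟨e, t', he, ht', heq⟩
  choose e t' he ht' heq using hform
  -- supports
  choose Ce Ye hCe using fun Q : K →ₐ[F] Ω => exists_support (e Q)
  choose Ct Yt hCt using fun Q : K →ₐ[F] Ω => exists_support (t' Q)
  have hsep : ∀ Q Q' : K →ₐ[F] Ω, ∃ y : K, Q ≠ Q' → Q y ≠ Q' y := by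
    intro Q Q'
    by_cases h : Q = Q'
    · exact ⟨0, fun h' => absurd h h'⟩
    · by_contra hcon
      push Not at hcon
      exact h (AlgHom.ext fun y => (hcon y).2)
  choose sep hsep using hsep
  have hres : ∀ P : Pl F K, ∃ r : F, P.v (xK F K) ≤ 1 → P.v (xK F K - algebraMap F K r) < 1 := by
    intro P
    by_cases h : P.v (xK F K) ≤ 1
    · obtain ⟨r, hr⟩ := exists_residue P h
      exact ⟨r, fun _ => hr⟩
    · exact ⟨0, fun h' => absurd h' h⟩
  choose res hres using hres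
  let Y : Finset K := {xK F K} ∪ (Finset.univ.image fun j => ((g j : LD D) : K)) ∪
    (S.biUnion Ye ∪ S.biUnion Yt) ∪ (S ×ˢ S).image (fun p => sep p.1 p.2)
  let T : Finset Ω := (Finset.univ.image fun j => c j) ∪ (S.biUnion Ce ∪ S.biUnion Ct) ∪
    (S ×ˢ Y).image (fun p => p.1 p.2) ∪ S.image (fun Q => ev Q (e Q)) ∪
    (S ×ˢ S).image (fun p => p.1 (sep p.1 p.2) - p.2 (sep p.1 p.2)) ∪
    (S ×ˢ D.support).image (fun p => p.1 (xK F K) - algebraMap F Ω (res p.2))
  obtain ⟨A, ρ, hA, hρ⟩ := exists_spec (F := F) Ω T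
  let O : Subalgebra F K := Algebra.adjoin F (Y : Set K)
  have hYO : ∀ y ∈ Y, y ∈ O := fun y hy => Algebra.subset_adjoin hy
  have hxY : xK F K ∈ Y := by simp [Y]
  have hgO : ∀ j, ((g j : LD D) : K) ∈ O := fun j => hYO _ (by
    simp only [Y, Finset.mem_union, Finset.mem_image, Finset.mem_univ, true_and]
    exact Or.inl (Or.inl (Or.inr ⟨j, rfl⟩)))
  have hcA : ∀ j, c j ∈ A := fun j => hA _ (by
    simp only [T, Finset.mem_union, Finset.mem_image, Finset.mem_univ, true_and]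
    exact Or.inl (Or.inl (Or.inl (Or.inl (Or.inl ⟨j, rfl⟩)))))
  have hQO : ∀ Q ∈ S, ∀ y ∈ O, Q y ∈ A := by
    intro Q hQ
    have h1 : O ≤ A.comap Q := Algebra.adjoin_le fun y hy => hA _ (by
      simp only [T, Finset.mem_union]
      exact Or.inl (Or.inl (Or.inl (Or.inr (Finset.mem_image.mpr
        ⟨(Q, y), Finset.mem_product.mpr ⟨hQ, hy⟩, rfl⟩)))))
    exact fun y hy => h1 hy
  -- the places
  have hP : ∀ Q : K →ₐ[F] Ω, ∃ P : Pl F K, ∀ hQ : Q ∈ S,
      ∀ y : O, P.v ((y : K) - algebraMap F K (psi ρ Q (hQO Q hQ) y)) < 1 := by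
    intro Q
    by_cases hQ : Q ∈ S
    · obtain ⟨P, hP⟩ := exists_pl_of_hom O (psi ρ Q (hQO Q hQ)) ⟨⟨xK F K, hYO _ hxY⟩, by
        intro h
        exact xK_notMem_range (F := F) (K := K) ⟨_, h.symm⟩⟩
      exact ⟨P, fun _ => hP⟩
    · obtain ⟨P, -⟩ := RR12_948.exists_notMem (∅ : Finset (Pl F K))
      exact ⟨P, fun h => absurd h hQ⟩
  choose P hP using hP
  -- the specialised function
  let tA : A ⊗[F] O := ∑ j, (⟨c j, hcA j⟩ : A) ⊗ₜ[F] (⟨((g j : LD D) : K), hgO j⟩ : O)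
  have htA : jmap A O tA = t := by
    simp only [tA, t, map_sum, jmap_tmul]
  have hspec : spec ρ O tA = ∑ j, ρ ⟨c j, hcA j⟩ • ((g j : LD D) : K) := by
    simp only [tA, map_sum, spec_tmul, Algebra.smul_def]
  refine ⟨spec ρ O tA, P, ?_, ?_, ?_, ?_, ?_⟩
  · intro h0
    rw [hspec] at h0
    have hgK : LinearIndependent F (fun j => ((g j : LD D) : K)) :=
      g.linearIndependent.map' (LD D).subtype (Submodule.ker_subtype _)
    have h1 := Fintype.linearIndependent_iff.mp hgK _ h0 j₀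
    refine hρ ⟨c j₀, hcA j₀⟩ ?_ hj₀ h1
    simp only [T, Finset.mem_union, Finset.mem_image, Finset.mem_univ, true_and]
    exact Or.inl (Or.inl (Or.inl (Or.inl (Or.inl ⟨j₀, rfl⟩))))
  · rw [hspec]
    exact Submodule.sum_mem _ fun j _ => Submodule.smul_mem _ _ (g j).2
  · intro Q hQ
    obtain ⟨eA, heA⟩ := hCe Q A O (fun c hc => hA _ (by
      simp only [T, Finset.mem_union]
      exact Or.inl (Or.inl (Or.inl (Or.inl (Or.inr (Or.inl (Finset.mem_biUnion.mpr
        ⟨Q, hQ, hc⟩))))))))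
      (fun y hy => hYO _ (by
        simp only [Y, Finset.mem_union]
        exact Or.inl (Or.inr (Or.inl (Finset.mem_biUnion.mpr ⟨Q, hQ, hy⟩)))))
    obtain ⟨t'A, ht'A⟩ := hCt Q A O (fun c hc => hA _ (by
      simp only [T, Finset.mem_union]
      exact Or.inl (Or.inl (Or.inl (Or.inl (Or.inr (Or.inr (Finset.mem_biUnion.mpr
        ⟨Q, hQ, hc⟩))))))))
      (fun y hy => hYO _ (by
        simp only [Y, Finset.mem_union]
        exact Or.inl (Or.inr (Or.inr (Finset.mem_biUnion.mpr ⟨Q, hQ, hy⟩)))))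
    have hxO : xK F K ∈ O := hYO _ hxY
    let πA : A ⊗[F] O := 1 ⊗ₜ[F] (⟨xK F K, hxO⟩ : O) -
      (⟨Q (xK F K), hQO Q hQ _ hxO⟩ : A) ⊗ₜ[F] 1
    have hπA : jmap A O πA = piT F K (Q (xK F K)) := by
      simp [πA, piT]
    have h1 : eA * tA = πA ^ (k Q) * t'A := by
      apply jmap_injective
      rw [map_mul, map_mul, map_pow, heA, htA, hπA, ht'A]
      exact heq Q
    have h2 := congrArg (fun s => (P Q).v (spec ρ O s)) h1
    simp only [map_mul, map_pow] at h2
    have hres1 := spec_residue Q (hQO Q hQ) ρ (hP Q hQ)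
    have h3 : (P Q).v (spec ρ O eA) = 1 := by
      have h4 := hres1 eA
      have h5 : ρ ⟨ev Q (jmap A O eA), ev_mem Q (hQO Q hQ) eA⟩ ≠ 0 := by
        apply hρ
        · show ev Q (jmap A O eA) ∈ T
          rw [heA]
          simp only [T, Finset.mem_union]
          exact Or.inl (Or.inl (Or.inr (Finset.mem_image.mpr ⟨Q, hQ, rfl⟩)))
        · show ev Q (jmap A O eA) ≠ 0
          rw [heA]
          exact he Q
      have h6 := (P Q).const _ h5
      have h7 := Valuation.map_add_eq_of_lt_right (v := (P Q).v)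
        (x := spec ρ O eA - algebraMap F K (ρ ⟨ev Q (jmap A O eA), ev_mem Q (hQO Q hQ) eA⟩))
        (y := algebraMap F K (ρ ⟨ev Q (jmap A O eA), ev_mem Q (hQO Q hQ) eA⟩)) (by rw [h6]; exact h4)
      rwa [sub_add_cancel, h6] at h7
    have h8 : (P Q).v (spec ρ O πA) ≤ exp (-1) := by
      rw [← lt_one_iff_le]
      have h9 := hP Q hQ ⟨xK F K, hxO⟩
      have h10 : spec ρ O πA = xK F K - algebraMap F K (psi ρ Q (hQO Q hQ) ⟨xK F K, hxO⟩) := by
        rw [psi_apply]
        simp [πA]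
      rw [h10]
      exact h9
    have h11 : (P Q).v (spec ρ O t'A) ≤ 1 := by
      have h12 : spec ρ O t'A = (spec ρ O t'A -
          algebraMap F K (ρ ⟨ev Q (jmap A O t'A), ev_mem Q (hQO Q hQ) t'A⟩)) +
          algebraMap F K (ρ ⟨ev Q (jmap A O t'A), ev_mem Q (hQO Q hQ) t'A⟩) := by ring
      rw [h12]
      exact (Valuation.map_add _ _ _).trans (max_le (hres1 t'A).le (v_algebraMap_le _ _))
    rw [h3, one_mul] at h2
    rw [h2]
    calc (P Q).v (spec ρ O πA) ^ (k Q) * (P Q).v (spec ρ O t'A)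
        ≤ exp (-1) ^ (k Q) * 1 := mul_le_mul' (pow_le_pow_left' h8 _) h11
      _ = exp (-(k Q : ℤ)) := by
        rw [mul_one, ← exp_nsmul]
        congr 1
        simp
  · intro Q hQ
    by_contra hD
    have hxO : xK F K ∈ O := hYO _ hxY
    have h1 := hP Q hQ ⟨xK F K, hxO⟩
    have hle : (P Q).v (xK F K) ≤ 1 := by
      have h2 : xK F K = (xK F K - algebraMap F K (psi ρ Q (hQO Q hQ) ⟨xK F K, hxO⟩)) +
        algebraMap F K (psi ρ Q (hQO Q hQ) ⟨xK F K, hxO⟩) := by ring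
      rw [h2]
      exact (Valuation.map_add _ _ _).trans (max_le h1.le (v_algebraMap_le _ _))
    have h2 := residue_unique (P Q) h1 (hres (P Q) hle)
    have hmem : Q (xK F K) - algebraMap F Ω (res (P Q)) ∈ T := by
      simp only [T, Finset.mem_union]
      exact Or.inr (Finset.mem_image.mpr ⟨(Q, P Q), Finset.mem_product.mpr
        ⟨hQ, by simpa using hD⟩, rfl⟩)
    have hne : Q (xK F K) - algebraMap F Ω (res (P Q)) ≠ 0 := by
      intro h3
      have h4 := transcendental_x Q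
      rw [sub_eq_zero.mp h3] at h4
      exact h4 (isAlgebraic_algebraMap _)
    have h3 := hρ ⟨_, hA _ hmem⟩ hmem hne
    apply h3
    have h4 : (⟨Q (xK F K) - algebraMap F Ω (res (P Q)), hA _ hmem⟩ : A) =
        ⟨Q (xK F K), hQO Q hQ _ hxO⟩ - algebraMap F A (res (P Q)) := Subtype.ext rfl
    rw [h4, map_sub, AlgHom.commutes]
    rw [psi_apply] at h2
    show ρ ⟨Q (xK F K), hQO Q hQ _ hxO⟩ - res (P Q) = 0
    rw [← h2]
    exact sub_self _
  · intro Q hQ Q' hQ' hPQ
    by_contra hne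
    have hy : sep Q Q' ∈ O := hYO _ (by
      simp only [Y, Finset.mem_union]
      exact Or.inr (Finset.mem_image.mpr ⟨(Q, Q'), Finset.mem_product.mpr ⟨hQ, hQ'⟩, rfl⟩))
    have h1 := hP Q hQ ⟨_, hy⟩
    have h2 := hP Q' hQ' ⟨_, hy⟩
    rw [← hPQ] at h2
    have h3 := residue_unique (P Q) h1 h2
    have hmem : Q (sep Q Q') - Q' (sep Q Q') ∈ T := by
      simp only [T, Finset.mem_union]
      exact Or.inl (Or.inr (Finset.mem_image.mpr ⟨(Q, Q'), Finset.mem_product.mpr
        ⟨hQ, hQ'⟩, rfl⟩))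
    have h4 := hρ ⟨_, hA _ hmem⟩ hmem (sub_ne_zero.mpr (hsep Q Q' hne))
    apply h4
    have h5 : (⟨Q (sep Q Q') - Q' (sep Q Q'), hA _ hmem⟩ : A) =
        ⟨Q (sep Q Q'), hQO Q hQ _ hy⟩ - ⟨Q' (sep Q Q'), hQO Q' hQ' _ hy⟩ := Subtype.ext rfl
    rw [h5, map_sub]
    rw [psi_apply, psi_apply] at h3
    rw [h3]
    exact sub_self _

end Descent

end Crest.Agent.R013.Div4_280
end

-- ▼ part R013/Div5_280
section

/-!
# R013 / Div5: descent of divisibility and the theorem `Pic⁰(K)` is divisible (helper280)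
-/

set_option autoImplicit false
set_option linter.all false

namespace Crest.Agent.R013.Div5_280

open WithZero Module TensorProduct nonZeroDivisors
open Crest.Agent.R013.RR7_948 Crest.Agent.R013.RR8_948 Crest.Agent.R013.RR9_948
open Crest.Agent.R013.RR11_948 Crest.Agent.R013.RR13_948 Crest.Agent.R013.CE1_280
open Crest.Agent.R013.CE2_280 Crest.Agent.R013.CE3_280 Crest.Agent.R013.CE5_280
open Crest.Agent.R013.CE6_280 Crest.Agent.R013.CE7_280 Crest.Agent.R013.CE8_280
open Crest.Agent.R013.CE9_280 Crest.Agent.R013.CE10_280 Crest.Agent.R013.Div1_280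
open Crest.Agent.R013.Div3_280 Crest.Agent.R013.Div4_280

section Descent

variable {F K Ω L : Type*} [Field F] [IsAlgClosed F] [Field K] [Algebra F K]
  [Algebra (RatFunc F) K] [IsScalarTower F (RatFunc F) K] [FiniteDimensional (RatFunc F) K]
  [Algebra.IsSeparable (RatFunc F) K]
  [Field Ω] [Algebra F Ω] [IsAlgClosed Ω]
  [Field L] [Algebra Ω L] [Algebra F L] [IsScalarTower F Ω L]
  [Algebra (RatFunc Ω) L] [IsScalarTower Ω (RatFunc Ω) L]
  [FiniteDimensional (RatFunc Ω) L] [Algebra.IsSeparable (RatFunc Ω) L]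
  {ι : K →ₐ[F] L}

/-- **descent of divisibility** along a constant field extension of algebraically closed fields -/
theorem descend (hι : IsCE Ω ι) (hx : xK Ω L = ι (xK F K)) {n : ℕ} (hn : 0 < n)
    {D : Pl F K →₀ ℤ} (hD : degD D = 0) (hmem : base hι D ∈ Gn Ω L n) : D ∈ Gn F K n := by
  classical
  obtain ⟨E, h, hh, hE⟩ := hmem
  obtain ⟨P₀, -⟩ := RR12_948.exists_notMem (∅ : Finset (Pl F K))
  have hdegE : degD E = 0 := by
    have h1 := congrArg degD hE
    rw [degD_base, hD, degD_add, degD_divf hh, degD_nsmul, add_zero] at h1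
    have h2 : (n : ℤ) ≠ 0 := by exact_mod_cast hn.ne'
    exact (mul_eq_zero.mp h1.symm).resolve_left h2
  -- an effective representative
  obtain ⟨h₁, hh₁0, hh₁⟩ : ∃ h₁ : L, h₁ ≠ 0 ∧
      0 ≤ E + base hι (Finsupp.single P₀ (gen F K : ℤ)) + divf h₁ := by
    have hdeg : degD (E + base hι (Finsupp.single P₀ (gen F K : ℤ))) = gen F K := by
      rw [degD_add, hdegE, degD_base, degD_single, degP_eq_one]
      push_cast; ring
    have h1 : 1 ≤ ell (E + base hι (Finsupp.single P₀ (gen F K : ℤ))) := by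
      have := ell_ge (algebraicClosure_eq_bot (k := Ω) (K := L))
        (E + base hι (Finsupp.single P₀ (gen F K : ℤ)))
      rw [hdeg, gen_eq hι hx] at this
      have h2 : (1 : ℤ) ≤ ell (E + base hι (Finsupp.single P₀ (gen F K : ℤ))) := by linarith
      exact_mod_cast h2
    have h2 : LD (E + base hι (Finsupp.single P₀ (gen F K : ℤ))) ≠ ⊥ := by
      intro h0
      unfold ell at h1
      rw [h0] at h1
      simp at h1
    obtain ⟨h₁, hh₁, hh₁0⟩ := Submodule.exists_mem_ne_zero_of_ne_bot h2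
    rw [mem_LD_iff hh₁0] at hh₁
    exact ⟨h₁, hh₁0, hh₁⟩
  obtain ⟨E', hE'⟩ : ∃ E' : Pl Ω L →₀ ℤ,
      E' = E + base hι (Finsupp.single P₀ (gen F K : ℤ)) + divf h₁ := ⟨_, rfl⟩
  rw [← hE'] at hh₁
  have hdegE' : degD E' = gen F K := by
    rw [hE', degD_add, degD_add, hdegE, degD_base, degD_single, degP_eq_one, degD_divf hh₁0]
    push_cast; ring
  set D₁ : Pl F K →₀ ℤ := D + n • Finsupp.single P₀ (gen F K : ℤ) with hD₁
  have hpow0 : h₁ ^ n ≠ 0 := pow_ne_zero _ hh₁0
  have hdivpow : ∀ m : ℕ, divf (k := Ω) (h₁ ^ m) = m • divf h₁ := by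
    intro m
    induction m with
    | zero => rw [pow_zero, divf_one, zero_smul]
    | succ m ih => rw [pow_succ, divf_mul (pow_ne_zero _ hh₁0) hh₁0, ih, succ_nsmul]
  set f : L := h₁ ^ n * h⁻¹ with hf
  have hf0 : f ≠ 0 := mul_ne_zero hpow0 (inv_ne_zero hh)
  have hdivf : divf (k := Ω) f = n • E' - base hι D₁ := by
    rw [hf, divf_mul hpow0 (inv_ne_zero hh), divf_inv hh, hdivpow, hD₁, map_add, map_nsmul, hE, hE',
      smul_add, smul_add]
    abel
  -- constant part
  set Ec : Pl F K →₀ ℤ := E'.comapDomain (conP hι) (conP_injective hι).injOn with hEc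
  have hEc' : ∀ P, Ec P = E' (conP hι P) := fun P => Finsupp.comapDomain_apply _ _ _ _
  set D₂ : Pl F K →₀ ℤ := D₁ - n • Ec with hD₂
  have hfp : ∀ Q : K →ₐ[F] Ω, divf (k := Ω) f (plQ hι Q) = n * E' (plQ hι Q) := by
    intro Q
    rw [hdivf, Finsupp.sub_apply, base_plQ, Finsupp.smul_apply, sub_zero, nsmul_eq_mul]
  have hfL : f ∈ LD (base hι D₂) := by
    rw [mem_LD_iff hf0]
    intro w
    rcases cases hι w with ⟨P, rfl⟩ | ⟨Q, rfl⟩
    · show 0 ≤ base hι D₂ (conP hι P) + divf f (conP hι P)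
      have e1 : divf (k := Ω) f (conP hι P) = n * E' (conP hι P) - D₁ P := by
        rw [hdivf, Finsupp.sub_apply, base_conP, Finsupp.smul_apply, nsmul_eq_mul]
      have e2 : D₂ P = D₁ P - n * E' (conP hι P) := by
        rw [hD₂, Finsupp.sub_apply, Finsupp.smul_apply, hEc', nsmul_eq_mul]
      rw [base_conP, e1, e2]
      apply le_of_eq
      ring
    · show 0 ≤ base hι D₂ (plQ hι Q) + divf f (plQ hι Q)
      rw [base_plQ, hfp, zero_add]
      exact mul_nonneg (by positivity) (hh₁ _)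
  let k : (K →ₐ[F] Ω) → ℕ := fun Q => n * (E' (plQ hι Q)).toNat
  have hkZ : ∀ Q, ((k Q : ℕ) : ℤ) = n * E' (plQ hι Q) := by
    intro Q
    show ((n * (E' (plQ hι Q)).toNat : ℕ) : ℤ) = _
    push_cast
    rw [Int.toNat_of_nonneg (hh₁ _)]
  have hk : ∀ Q, (plQ hι Q).v f = exp (-(k Q : ℤ)) := by
    intro Q
    rw [v_eq (k := Ω) hf0, hfp, hkZ]
  have hfin : {Q : K →ₐ[F] Ω | E' (plQ hι Q) ≠ 0}.Finite := by
    have h1 : {Q : K →ₐ[F] Ω | E' (plQ hι Q) ≠ 0} = plQ hι ⁻¹' (E'.support : Set (Pl Ω L)) := by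
      ext Q; simp
    rw [h1]
    exact E'.support.finite_toSet.preimage (plQ_injective hι).injOn
  obtain ⟨f', P, hf'0, hf', hvP, hDP, hinj⟩ :=
    exists_specialization hι hx hf0 hfL hfin.toFinset k hk
  set S := hfin.toFinset with hS
  have hSmem : ∀ Q, Q ∉ S → E' (plQ hι Q) = 0 := by
    intro Q hQ
    by_contra h'
    exact hQ (by rw [hS, Set.Finite.mem_toFinset]; exact h')
  -- the decomposition of `E'`
  have hdec : E' = base hι Ec + ∑ Q ∈ S, Finsupp.single (plQ hι Q) (E' (plQ hι Q)) := by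
    ext w
    rw [Finsupp.add_apply, Finsupp.finsetSum_apply S]
    rcases cases hι w with ⟨P, rfl⟩ | ⟨Q, rfl⟩
    · rw [base_conP, hEc', Finset.sum_eq_zero, add_zero]
      intro Q hQ
      exact Finsupp.single_eq_of_ne (conP_ne_plQ hι P Q)
    · rw [base_plQ, zero_add]
      by_cases hQ : Q ∈ S
      · rw [Finset.sum_eq_single_of_mem Q hQ, Finsupp.single_eq_same]
        intro Q' hQ' hne
        exact Finsupp.single_eq_of_ne (fun h' => hne (plQ_injective hι h').symm)
      · rw [hSmem Q hQ, Finset.sum_eq_zero]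
        intro Q' hQ'
        exact Finsupp.single_eq_of_ne (fun h' => hQ (plQ_injective hι h' ▸ hQ'))
  have hdegsum : ∀ (T : Finset (K →ₐ[F] Ω)), degD (∑ Q ∈ T, Finsupp.single (plQ hι Q)
      (E' (plQ hι Q))) = ∑ Q ∈ T, E' (plQ hι Q) := by
    intro T
    induction T using Finset.induction_on with
    | empty => simp [degD_zero]
    | insert Q T hQ ih =>
      rw [Finset.sum_insert hQ, Finset.sum_insert hQ, degD_add, ih, degD_single, degP_eq_one]
      simp
  have hdegP : ∀ (T : Finset (K →ₐ[F] Ω)), degD (∑ Q ∈ T, Finsupp.single (P Q)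
      (E' (plQ hι Q))) = ∑ Q ∈ T, E' (plQ hι Q) := by
    intro T
    induction T using Finset.induction_on with
    | empty => simp [degD_zero]
    | insert Q T hQ ih =>
      rw [Finset.sum_insert hQ, Finset.sum_insert hQ, degD_add, ih, degD_single, degP_eq_one]
      simp
  have hdeg₁ : degD Ec + ∑ Q ∈ S, E' (plQ hι Q) = gen F K := by
    rw [← hdegE', ← degD_base hι Ec, ← hdegsum S, ← degD_add, ← hdec]
  set Z : Pl F K →₀ ℤ := ∑ Q ∈ S, Finsupp.single (P Q) (E' (plQ hι Q)) with hZ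
  have hdeg₂ : degD (D₂ + divf f' - n • Z) = 0 := by
    rw [degD_sub, degD_add, degD_divf hf'0, degD_nsmul, hZ, hdegP, hD₂, degD_sub, degD_nsmul, hD₁,
      degD_add, degD_nsmul, degD_single, degP_eq_one, hD]
    push_cast
    linear_combination (-(n : ℤ)) * hdeg₁
  have hnonneg : 0 ≤ D₂ + divf f' - n • Z := by
    intro R
    rw [Finsupp.zero_apply, Finsupp.sub_apply, Finsupp.smul_apply, Finsupp.add_apply]
    by_cases hR : ∃ Q ∈ S, P Q = R
    · obtain ⟨Q, hQ, rfl⟩ := hR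
      have h1 : Z (P Q) = E' (plQ hι Q) := by
        rw [hZ, Finsupp.finsetSum_apply, Finset.sum_eq_single_of_mem Q hQ, Finsupp.single_eq_same]
        intro Q' hQ' hne
        exact Finsupp.single_eq_of_ne (fun h' => hne (hinj Q' hQ' Q hQ h'.symm))
      have h2 := hvP Q hQ
      rw [v_eq (k := F) hf'0, exp_le_exp] at h2
      rw [h1, hDP Q hQ, zero_add, nsmul_eq_mul, ← hkZ]
      linarith
    · have h1 : Z R = 0 := by
        rw [hZ, Finsupp.finsetSum_apply, Finset.sum_eq_zero]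
        intro Q hQ
        exact Finsupp.single_eq_of_ne (fun h' => hR ⟨Q, hQ, h'.symm⟩)
      rw [mem_LD_iff hf'0] at hf'
      rw [h1, smul_zero, sub_zero]
      exact hf' R
  have hfinal := eq_zero_of_nonneg hnonneg hdeg₂
  refine ⟨Z + Ec - Finsupp.single P₀ (gen F K : ℤ), f'⁻¹, inv_ne_zero hf'0, ?_⟩
  rw [divf_inv hf'0]
  have h1 : D₂ = n • Z - divf f' := by
    rw [← sub_eq_zero, ← hfinal]
    abel
  have h2 : D = D₂ + n • Ec - n • Finsupp.single P₀ (gen F K : ℤ) := by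
    rw [hD₂, hD₁]; abel
  rw [h2, h1, smul_sub, smul_add]
  abel

end Descent

end Crest.Agent.R013.Div5_280
end

-- ▼ part R013/Div6_280

/-!
# R013 / Div6: `Pic⁰` of a function field over an algebraically closed field of characteristic zero
is divisible (helper280)
-/

set_option autoImplicit false
set_option linter.all false
namespace Crest.Agent.R013.Div6_280
open WithZero Module TensorProduct nonZeroDivisors
open Crest.Agent.R013.RR7_948 Crest.Agent.R013.RR8_948 Crest.Agent.R013.RR9_948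
open Crest.Agent.R013.RR11_948 Crest.Agent.R013.RR13_948 Crest.Agent.R013.CE1_280
open Crest.Agent.R013.CE2_280 Crest.Agent.R013.CE3_280 Crest.Agent.R013.CE5_280
open Crest.Agent.R013.CE6_280 Crest.Agent.R013.CE7_280 Crest.Agent.R013.CE8_280
open Crest.Agent.R013.CE9_280 Crest.Agent.R013.CE10_280 Crest.Agent.R013.Div1_280
open Crest.Agent.R013.Div3_280 Crest.Agent.R013.Div4_280 Crest.Agent.R013.Div5_280

universe u

/-- an algebraically closed field with a prescribed finite transcendence basis -/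
theorem exists_omega (F : Type u) [Field F] (m : ℕ) :
    ∃ (Ω : Type u) (_ : Field Ω) (_ : Algebra F Ω)
    (_ : IsAlgClosed Ω) (z : Fin m → Ω), IsTranscendenceBasis F z := by
  let M := FractionRing (MvPolynomial (Fin m) F)
  have h0 : IsTranscendenceBasis F (MvPolynomial.X : Fin m → MvPolynomial (Fin m) F) := 
    IsTranscendenceBasis.mvPolynomial (Fin m) F
  haveI : Algebra.IsAlgebraic (MvPolynomial (Fin m) F) (AlgebraicClosure M) :=
    (IsFractionRing.comap_isAlgebraic_iff (A := MvPolynomial (Fin m) F) (K := M)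
      (C := AlgebraicClosure M)).mpr inferInstance
  haveI : FaithfulSMul (MvPolynomial (Fin m) F) (AlgebraicClosure M) := by
    rw [faithfulSMul_iff_algebraMap_injective,
      IsScalarTower.algebraMap_eq (MvPolynomial (Fin m) F) M (AlgebraicClosure M)]
    exact (algebraMap M (AlgebraicClosure M)).injective.comp
      (IsFractionRing.injective (MvPolynomial (Fin m) F) M)
  have h1 := h0.algebraMap_comp (A := AlgebraicClosure M)
  exact ⟨AlgebraicClosure M, inferInstance, inferInstance, inferInstance, _, h1⟩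

section Final

variable {F : Type u} {K : Type*} [Field F] [IsAlgClosed F] [CharZero F] [Field K] [Algebra F K]
  [Algebra (RatFunc F) K] [IsScalarTower F (RatFunc F) K] [FiniteDimensional (RatFunc F) K]
  [Algebra.IsSeparable (RatFunc F) K]

/-- **`Pic⁰` of a function field over an algebraically closed field of characteristic zero is
divisible.** -/
theorem exists_div {n : ℕ} (hn : 0 < n) {D : Pl F K →₀ ℤ} (hD : degD D = 0) :
    ∃ (E : Pl F K →₀ ℤ) (f : K), f ≠ 0 ∧ degD E = 0 ∧ D = n • E + divf f := by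
  obtain ⟨Ω, _, _, _, z, hz⟩ := exists_omega F (gen F K)
  haveI : CharZero Ω := charZero_of_injective_algebraMap (algebraMap F Ω).injective
  haveI : CharZero (RatFunc Ω) :=
    charZero_of_injective_algebraMap (algebraMap Ω (RatFunc Ω)).injective
  have h1 := base_mem_Gn (isCE F K Ω) (xK_eq F K Ω) hz hn hD
  obtain ⟨E, f, hf, hE⟩ := descend (isCE F K Ω) (xK_eq F K Ω) hn hD h1
  refine ⟨E, f, hf, ?_, hE⟩
  have h2 := congrArg degD hE
  rw [hD, degD_add, degD_nsmul, degD_divf hf, add_zero] at h2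
  have h3 : (n : ℤ) ≠ 0 := by exact_mod_cast hn.ne'
  exact (mul_eq_zero.mp h2.symm).resolve_left h3

end Final

end Crest.Agent.R013.Div6_280
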