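import Mathlib

/-!
Row 13, part A: points of the analytic space of a field and compactness.
-/

set_option autoImplicit false

noncomputable section

namespace Crest.Agent.R013.A2b_275

open scoped NNReal ENNReal Topology
open Filter

/-- A point of the `p`-adic analytic space of `L`: a multiplicative ultrametric function with
values in `[0, ∞]` extending the `p`-adic absolute value (norms, and places composed with the
absolute value of the residue field). -/
structure IsPt (p : ℕ) [Fact p.Prime] (k L : Type*) [Field k] [Algebra ℚ_[p] k] [Field L]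
    [Algebra k L] (φ : L → ℝ≥0∞) : Prop where
  add : ∀ a b, φ (a + b) ≤ max (φ a) (φ b)
  mul : ∀ a b, (φ a ≠ 0 ∨ φ b ≠ ∞) → (φ b ≠ 0 ∨ φ a ≠ ∞) → φ (a * b) = φ a * φ b
  inv : ∀ a, a ≠ 0 → φ a⁻¹ = (φ a)⁻¹
  ext : ∀ c : ℚ_[p], φ (algebraMap k L (algebraMap ℚ_[p] k c)) = ‖c‖₊

section

variable {p : ℕ} [Fact p.Prime] {k : Type*} [Field k] [Algebra ℚ_[p] k]

/-- A norm is a point. -/
lemma isPt_of_valuation {L : Type*} [Field L] [Algebra k L] (w : Valuation L ℝ≥0)
    (hw : ∀ c : ℚ_[p], w (algebraMap k L (algebraMap ℚ_[p] k c)) = ‖c‖₊) :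
    IsPt p k L (fun a => (w a : ℝ≥0∞)) where
  add a b := by
    rw [← ENNReal.coe_max]
    exact ENNReal.coe_le_coe.mpr (w.map_add a b)
  mul a b _ _ := by rw [map_mul, ENNReal.coe_mul]
  inv a ha := by rw [map_inv₀, ENNReal.coe_inv ((Valuation.ne_zero_iff w).mpr ha)]
  ext c := by rw [hw]

variable {K M : Type*} [Field K] [Field M] [Algebra k K] [Algebra K M] [Algebra k M]
  [IsScalarTower k K M] [Algebra.IsAlgebraic K M]


end

section basics

variable {p : ℕ} [Fact p.Prime] {k L : Type*} [Field k] [Algebra ℚ_[p] k] [Field L] [Algebra k L]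
  {φ : L → ℝ≥0∞}

lemma IsPt.map_zero (h : IsPt p k L φ) : φ 0 = 0 := by
  have := h.ext 0
  simpa using this

lemma IsPt.map_one (h : IsPt p k L φ) : φ 1 = 1 := by
  have := h.ext 1
  simpa using this

lemma IsPt.map_neg (h : IsPt p k L φ) (a : L) : φ (-a) = φ a := by
  have h1 : φ (-1) = 1 := by
    have := h.ext (-1)
    simpa using this
  have h2 := h.mul (-1) a (Or.inl (by rw [h1]; exact one_ne_zero))
    (Or.inr (by rw [h1]; exact ENNReal.one_ne_top))
  rw [neg_one_mul, h1, one_mul] at h2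
  exact h2

lemma IsPt.mul_ne_top (h : IsPt p k L φ) {a b : L} (ha : φ a ≠ ∞) (hb : φ b ≠ ∞) :
    φ (a * b) ≠ ∞ := by
  rw [h.mul a b (Or.inr hb) (Or.inr ha)]
  exact ENNReal.mul_ne_top ha hb

lemma IsPt.add_ne_top (h : IsPt p k L φ) {a b : L} (ha : φ a ≠ ∞) (hb : φ b ≠ ∞) :
    φ (a + b) ≠ ∞ := by
  refine ne_top_of_le_ne_top ?_ (h.add a b)
  exact (max_lt (lt_top_iff_ne_top.mpr ha) (lt_top_iff_ne_top.mpr hb)).ne

/-- The valuation of a point that is finite everywhere. -/
def IsPt.toValuation (h : IsPt p k L φ) (hfin : ∀ a, φ a ≠ ∞) : Valuation L ℝ≥0 where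
  toFun a := (φ a).toNNReal
  map_zero' := by rw [h.map_zero]; rfl
  map_one' := by rw [h.map_one]; rfl
  map_mul' a b := by
    rw [h.mul a b (Or.inr (hfin b)) (Or.inr (hfin a)), ENNReal.toNNReal_mul]
  map_add_le_max' a b := by
    rw [← ENNReal.coe_le_coe, ENNReal.coe_max, ENNReal.coe_toNNReal (hfin _),
      ENNReal.coe_toNNReal (hfin _), ENNReal.coe_toNNReal (hfin _)]
    exact h.add a b

lemma IsPt.coe_toValuation (h : IsPt p k L φ) (hfin : ∀ a, φ a ≠ ∞) (a : L) :
    ((h.toValuation hfin a : ℝ≥0) : ℝ≥0∞) = φ a := ENNReal.coe_toNNReal (hfin a)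

/-- The valuation ring of a point. -/
def IsPt.ring (h : IsPt p k L φ) : ValuationSubring L where
  carrier := {a | φ a ≠ ∞}
  mul_mem' ha hb := h.mul_ne_top ha hb
  one_mem' := by
    change φ 1 ≠ ∞
    rw [h.map_one]; exact ENNReal.one_ne_top
  add_mem' ha hb := h.add_ne_top ha hb
  zero_mem' := by
    change φ 0 ≠ ∞
    rw [h.map_zero]; exact ENNReal.zero_ne_top
  neg_mem' {a} ha := by
    change φ (-a) ≠ ∞
    rw [h.map_neg]; exact ha
  mem_or_inv_mem' a := by
    change φ a ≠ ∞ ∨ φ a⁻¹ ≠ ∞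
    rcases eq_or_ne a 0 with rfl | ha
    · left; rw [h.map_zero]; exact ENNReal.zero_ne_top
    · by_cases h1 : φ a = ∞
      · right
        rw [h.inv a ha, h1, ENNReal.inv_top]; exact ENNReal.zero_ne_top
      · left; exact h1

lemma IsPt.mem_ring (h : IsPt p k L φ) (a : L) : a ∈ h.ring ↔ φ a ≠ ∞ := Iff.rfl

/-- Elements algebraic over `ℚ_p` are in the ring of a point. -/
lemma IsPt.ne_top_of_isIntegral (h : IsPt p k L φ) [Algebra ℚ_[p] L] [IsScalarTower ℚ_[p] k L]
    {c : L} (hc : IsIntegral ℚ_[p] c) : φ c ≠ ∞ := by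
  intro htop
  have hc0 : c ≠ 0 := by
    rintro rfl
    rw [h.map_zero] at htop
    exact ENNReal.zero_ne_top htop
  have hinv : φ c⁻¹ = 0 := by rw [h.inv c hc0, htop, ENNReal.inv_top]
  -- powers of the inverse
  have hpow : ∀ n : ℕ, 0 < n → φ (c⁻¹ ^ n) = 0 := by
    intro n hn
    induction n with
    | zero => omega
    | succ n ih =>
      rcases Nat.eq_zero_or_pos n with rfl | hn'
      · simpa using hinv
      · have h1 := ih hn'
        rw [pow_succ, h.mul _ _ (Or.inr (by rw [hinv]; exact ENNReal.zero_ne_top))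
          (Or.inr (by rw [h1]; exact ENNReal.zero_ne_top)), h1, zero_mul]
  have hfin : ∀ q : ℚ_[p], φ (algebraMap ℚ_[p] L q) = ‖q‖₊ := by
    intro q
    rw [IsScalarTower.algebraMap_apply ℚ_[p] k L]
    exact h.ext q
  obtain ⟨P, hP, hPc⟩ := hc
  set n := P.natDegree with hn
  -- 1 = - sum_{i<n} a_i c^{-(n-i)}
  have h1 : (1 : L) = - ∑ i ∈ Finset.range n, algebraMap ℚ_[p] L (P.coeff i) * c⁻¹ ^ (n - i) := by
    have h2 : Polynomial.eval₂ (algebraMap ℚ_[p] L) c P =
        ∑ i ∈ Finset.range (n + 1), algebraMap ℚ_[p] L (P.coeff i) * c ^ i := by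
      rw [Polynomial.eval₂_eq_sum_range]
    rw [hPc, Finset.sum_range_succ, hP.coeff_natDegree, _root_.map_one, one_mul] at h2
    have h3 : c ^ n = - ∑ i ∈ Finset.range n, algebraMap ℚ_[p] L (P.coeff i) * c ^ i :=
      eq_neg_of_add_eq_zero_right h2.symm
    have h4 : (1 : L) = c⁻¹ ^ n * c ^ n := by
      rw [← mul_pow, inv_mul_cancel₀ hc0, one_pow]
    rw [h4, h3, mul_neg, Finset.mul_sum]
    congr 1
    refine Finset.sum_congr rfl fun i hi => ?_
    have hi' : i < n := Finset.mem_range.mp hi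
    have h5 : c⁻¹ ^ n = c⁻¹ ^ (n - i) * c⁻¹ ^ i := by
      rw [← pow_add]; congr 1; omega
    have h6 : c⁻¹ ^ i * c ^ i = 1 := by rw [← mul_pow, inv_mul_cancel₀ hc0, one_pow]
    rw [h5]
    calc c⁻¹ ^ (n - i) * c⁻¹ ^ i * (algebraMap ℚ_[p] L (P.coeff i) * c ^ i)
        = algebraMap ℚ_[p] L (P.coeff i) * c⁻¹ ^ (n - i) * (c⁻¹ ^ i * c ^ i) := by ring
      _ = _ := by rw [h6, mul_one]
  have hz : ∀ s : Finset ℕ, (∀ i ∈ s, i < n) →
      φ (∑ i ∈ s, algebraMap ℚ_[p] L (P.coeff i) * c⁻¹ ^ (n - i)) = 0 := by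
    intro s
    induction s using Finset.induction_on with
    | empty => intro _; rw [Finset.sum_empty, h.map_zero]
    | insert a s ha ih =>
      intro hs
      rw [Finset.sum_insert ha]
      have h2 := h.add (algebraMap ℚ_[p] L (P.coeff a) * c⁻¹ ^ (n - a))
        (∑ i ∈ s, algebraMap ℚ_[p] L (P.coeff i) * c⁻¹ ^ (n - i))
      rw [ih (fun i hi => hs i (Finset.mem_insert_of_mem hi))] at h2
      have h3 : φ (algebraMap ℚ_[p] L (P.coeff a) * c⁻¹ ^ (n - a)) = 0 := by
        have h4 : φ (c⁻¹ ^ (n - a)) = 0 :=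
          hpow _ (by have := hs a (Finset.mem_insert_self _ _); omega)
        rw [h.mul _ _ (Or.inr (by rw [h4]; exact ENNReal.zero_ne_top))
          (Or.inr (by rw [hfin]; exact ENNReal.coe_ne_top)), h4, mul_zero]
      rw [h3, max_self] at h2
      exact le_antisymm h2 zero_le
  have h7 : φ 1 = 0 := by
    rw [h1, h.map_neg]
    exact hz _ fun i hi => Finset.mem_range.mp hi
  rw [h.map_one] at h7
  exact one_ne_zero h7

end basics

end Crest.Agent.R013.A2b_275
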