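import Mathlib
import Crest.Agent.R013.RR15_948
import Crest.Agent.R013.Car5_700

-- ▼ part R013/Car1_700
section

/-!
# R013 / Car1: Cartier operator on a field with a one-element p-basis (helper700)

`κ` a field of characteristic `p`, `x : κ`, `D` an additive derivation with `D x = 1`, every element is
`∑_{i<p} (g i)^p x^i`.  Then `C (∑ (g i)^p x^i) = g (p-1)` is the Cartier operator (in terms of `dx`).
-/

set_option autoImplicit false
set_option linter.all false

namespace Crest.Agent.R013.Car1_700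

open Finset

/-- a field with a one-element `p`-basis `x` and the derivation `D = d/dx`. -/
structure PB (p : ℕ) (κ : Type*) [Field κ] where
  hp : p.Prime
  char : CharP κ p
  x : κ
  D : κ → κ
  D_add : ∀ a b, D (a + b) = D a + D b
  D_mul : ∀ a b, D (a * b) = a * D b + b * D a
  D_x : D x = 1
  span : ∀ y : κ, ∃ g : ℕ → κ, y = ∑ i ∈ range p, g i ^ p * x ^ i

namespace PB

variable {p : ℕ} {κ : Type*} [Field κ] (S : PB p κ)

include S

theorem cast_p : (p : κ) = 0 := by
  haveI := S.char
  exact CharP.cast_eq_zero κ p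

theorem cast_ne {n : ℕ} (h0 : 0 < n) (h : n < p) : (n : κ) ≠ 0 := by
  haveI := S.char
  intro h1
  rw [CharP.cast_eq_zero_iff κ p] at h1
  exact absurd (Nat.le_of_dvd h0 h1) (not_le.mpr h)

theorem add_pow' (a b : κ) : (a + b) ^ p = a ^ p + b ^ p := by
  haveI := S.char
  haveI := Fact.mk S.hp
  exact add_pow_char a b p



theorem natCast_pow (n : ℕ) : (n : κ) ^ p = n := by
  haveI := S.char
  haveI := Fact.mk S.hp
  have h := map_natCast (frobenius κ p) n
  rwa [frobenius_def] at h

theorem D_zero : S.D 0 = 0 := by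
  have h := S.D_add 0 0
  simpa using h

theorem D_one : S.D 1 = 0 := by
  have h := S.D_mul 1 1
  simpa using h


theorem D_sum {ι : Type*} (s : Finset ι) (f : ι → κ) : S.D (∑ i ∈ s, f i) = ∑ i ∈ s, S.D (f i) := by
  classical
  induction s using Finset.induction_on with
  | empty => simp [S.D_zero]
  | insert a s ha ih => rw [sum_insert ha, sum_insert ha, S.D_add, ih]

theorem D_pow (a : κ) (n : ℕ) : S.D (a ^ n) = n * a ^ (n - 1) * S.D a := by
  induction n with
  | zero => simp [S.D_one]
  | succ n ih =>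
    rw [pow_succ, S.D_mul, ih]
    rcases Nat.eq_zero_or_pos n with h | h
    · subst h; simp
    · obtain ⟨m, rfl⟩ := Nat.exists_eq_add_of_le' h
      simp only [Nat.add_sub_cancel]
      push_cast
      ring

theorem D_natCast (n : ℕ) : S.D (n : κ) = 0 := by
  induction n with
  | zero => simp [S.D_zero]
  | succ n ih => rw [Nat.cast_succ, S.D_add, ih, S.D_one, add_zero]

theorem D_pow_p (a : κ) : S.D (a ^ p) = 0 := by
  rw [S.D_pow, S.cast_p]; simp

theorem D_pow_mul (a b : κ) : S.D (a ^ p * b) = a ^ p * S.D b := by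
  rw [S.D_mul, S.D_pow_p]; ring

theorem D_x_pow (n : ℕ) : S.D (S.x ^ n) = n * S.x ^ (n - 1) := by
  rw [S.D_pow, S.D_x, mul_one]

theorem sum_range_p {M : Type*} [AddCommMonoid M] (f : ℕ → M) :
    ∑ i ∈ range p, f i = ∑ i ∈ range (p - 1), f i + f (p - 1) := by
  have hp1 : p - 1 + 1 = p := Nat.sub_add_cancel S.hp.pos
  rw [← sum_range_succ, hp1]

/-- derivative of an expansion -/
theorem D_expansion (n : ℕ) (g : ℕ → κ) :
    S.D (∑ i ∈ range (n + 1), g i ^ p * S.x ^ i)
      = ∑ i ∈ range n, (((i + 1 : ℕ) : κ) * g (i + 1)) ^ p * S.x ^ i := by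
  rw [S.D_sum, sum_range_succ']
  simp only [pow_zero, mul_one, S.D_pow_p, add_zero]
  refine sum_congr rfl fun i _ => ?_
  rw [S.D_pow_mul, S.D_x_pow, mul_pow, S.natCast_pow, Nat.add_sub_cancel]
  ring

theorem unique_aux (n : ℕ) : n ≤ p → ∀ g : ℕ → κ, ∑ i ∈ range n, g i ^ p * S.x ^ i = 0 →
    ∀ i < n, g i = 0 := by
  induction n with
  | zero => intro _ g _ i hi; exact absurd hi (Nat.not_lt_zero _)
  | succ n ih =>
    intro hn g hg i hi
    have h1 := congrArg S.D hg
    rw [S.D_expansion, S.D_zero] at h1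
    have h2 := ih (by omega) (fun i => ((i + 1 : ℕ) : κ) * g (i + 1)) h1
    have h3 : ∀ j < n, g (j + 1) = 0 := by
      intro j hj
      have h4 := h2 j hj
      rcases mul_eq_zero.mp h4 with h5 | h5
      · exact absurd h5 (S.cast_ne (Nat.succ_pos _) (by omega))
      · exact h5
    rcases Nat.eq_zero_or_pos i with h | h
    · subst h
      rw [sum_range_succ'] at hg
      have h4 : ∑ k ∈ range n, g (k + 1) ^ p * S.x ^ (k + 1) = 0 := by
        refine sum_eq_zero fun k hk => ?_
        rw [h3 k (mem_range.mp hk), zero_pow S.hp.ne_zero, zero_mul]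
      rw [h4, zero_add, pow_zero, mul_one] at hg
      exact pow_eq_zero_iff S.hp.ne_zero |>.mp hg
    · obtain ⟨j, rfl⟩ := Nat.exists_eq_add_of_le' h
      exact h3 j (by omega)

theorem unique {g h : ℕ → κ}
    (hgh : ∑ i ∈ range p, g i ^ p * S.x ^ i = ∑ i ∈ range p, h i ^ p * S.x ^ i) :
    ∀ i < p, g i = h i := by
  intro i hi
  have h1 : ∑ i ∈ range p, (g i + -h i) ^ p * S.x ^ i = 0 := by
    rw [← sub_eq_zero, ← sum_sub_distrib] at hgh
    rw [← hgh]
    refine sum_congr rfl fun i _ => ?_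
    rw [S.add_pow']
    have h2 : (-h i) ^ p = -(h i ^ p) := by
      have h3 := S.add_pow' (h i) (-h i)
      rw [add_neg_cancel, zero_pow S.hp.ne_zero] at h3
      exact (neg_eq_of_add_eq_zero_right h3.symm).symm
    rw [h2]; ring
  have h2 := S.unique_aux p le_rfl _ h1 i hi
  rwa [← sub_eq_add_neg, sub_eq_zero] at h2

/-- coordinates -/
noncomputable def co (y : κ) : ℕ → κ := (S.span y).choose

theorem co_spec (y : κ) : y = ∑ i ∈ range p, S.co y i ^ p * S.x ^ i := (S.span y).choose_spec

theorem co_eq {y : κ} {g : ℕ → κ} (h : y = ∑ i ∈ range p, g i ^ p * S.x ^ i) {i : ℕ} (hi : i < p) :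
    S.co y i = g i :=
  S.unique ((S.co_spec y).symm.trans h) i hi

/-- the Cartier operator -/
noncomputable def C (y : κ) : κ := S.co y (p - 1)

theorem pred_lt : p - 1 < p := Nat.sub_lt S.hp.pos Nat.one_pos

theorem C_eq {y : κ} {g : ℕ → κ} (h : y = ∑ i ∈ range p, g i ^ p * S.x ^ i) :
    S.C y = g (p - 1) := S.co_eq h S.pred_lt

theorem co_add (y z : κ) {i : ℕ} (hi : i < p) : S.co (y + z) i = S.co y i + S.co z i := by
  refine S.co_eq (g := fun i => S.co y i + S.co z i) ?_ hi
  conv_lhs => rw [S.co_spec y, S.co_spec z]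
  rw [← sum_add_distrib]
  refine sum_congr rfl fun i _ => ?_
  rw [S.add_pow']; ring

theorem co_pow_mul (y z : κ) {i : ℕ} (hi : i < p) : S.co (y ^ p * z) i = y * S.co z i := by
  refine S.co_eq (g := fun i => y * S.co z i) ?_ hi
  conv_lhs => rw [S.co_spec z]
  rw [mul_sum]
  refine sum_congr rfl fun i _ => ?_
  rw [mul_pow]; ring

theorem C_add (y z : κ) : S.C (y + z) = S.C y + S.C z := S.co_add y z S.pred_lt

theorem C_pow (y z : κ) : S.C (y ^ p * z) = y * S.C z := S.co_pow_mul y z S.pred_lt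

theorem C_zero : S.C 0 = 0 := by
  have h := S.C_add 0 0
  simpa using h



theorem C_sum {ι : Type*} (s : Finset ι) (f : ι → κ) : S.C (∑ i ∈ s, f i) = ∑ i ∈ s, S.C (f i) := by
  classical
  induction s using Finset.induction_on with
  | empty => simp [S.C_zero]
  | insert a s ha ih => rw [sum_insert ha, sum_insert ha, S.C_add, ih]

/-- the derivative of an arbitrary element in coordinates -/
theorem D_eq (y : κ) :
    S.D y = ∑ i ∈ range p, (if i + 1 < p then ((i + 1 : ℕ) : κ) * S.co y (i + 1) else 0) ^ p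
      * S.x ^ i := by
  have hp1 : p - 1 + 1 = p := Nat.sub_add_cancel S.hp.pos
  conv_lhs => rw [S.co_spec y]
  have hexp := S.D_expansion (p - 1) (S.co y)
  simp only [hp1] at hexp
  rw [hexp, S.sum_range_p (fun i => (if i + 1 < p then ((i + 1 : ℕ) : κ) * S.co y (i + 1) else 0) ^ p
      * S.x ^ i)]
  rw [if_neg (by omega), zero_pow S.hp.ne_zero, zero_mul, add_zero]
  refine sum_congr rfl fun i hi => ?_
  rw [if_pos (by have := mem_range.mp hi; omega)]

theorem C_exact (y : κ) : S.C (S.D y) = 0 := by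
  rw [S.C_eq (S.D_eq y), if_neg (by have := S.hp.pos; omega)]



/-- a form killed by `C` is exact -/
theorem exact_of_C_eq_zero {y : κ} (h : S.C y = 0) : ∃ z, y = S.D z := by
  have hp1 : p - 1 + 1 = p := Nat.sub_add_cancel S.hp.pos
  refine ⟨∑ i ∈ range (p - 1), (((i + 1 : ℕ) : κ)⁻¹ * S.co y i) ^ p * S.x ^ (i + 1), ?_⟩
  rw [S.D_sum]
  conv_lhs => rw [S.co_spec y]
  have h0 : S.co y (p - 1) = 0 := h
  rw [S.sum_range_p (fun i => S.co y i ^ p * S.x ^ i), h0, zero_pow S.hp.ne_zero, zero_mul, add_zero]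
  refine sum_congr rfl fun i hi => ?_
  have hi' : i + 1 < p := by have := mem_range.mp hi; omega
  rw [S.D_pow_mul, S.D_x_pow, Nat.add_sub_cancel, mul_pow, inv_pow, S.natCast_pow]
  have h1 := S.cast_ne (Nat.succ_pos i) hi'
  field_simp

theorem C_eq_zero_iff (y : κ) : S.C y = 0 ↔ ∃ z, y = S.D z :=
  ⟨S.exact_of_C_eq_zero, by rintro ⟨z, rfl⟩; exact S.C_exact z⟩

theorem C_x : S.C (S.x ^ (p - 1)) = 1 := by
  rw [S.C_eq (g := fun i => if i = p - 1 then 1 else 0)]
  · simp
  · rw [Finset.sum_eq_single (p - 1)]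
    · simp
    · intro i _ hi
      simp [hi, zero_pow S.hp.ne_zero]
    · intro h; exact absurd (mem_range.mpr S.pred_lt) h

/-! ### The formula `C (f^(p-1) df) = df` -/

/-- `((a+b)^(p-1) - a^(p-1)) Da + ((a+b)^(p-1) - b^(p-1)) Db` is exact. -/
theorem exists_phi (a b : κ) : ∃ F : κ,
    S.D F = ((a + b) ^ (p - 1) - a ^ (p - 1)) * S.D a + ((a + b) ^ (p - 1) - b ^ (p - 1)) * S.D b := by
  obtain ⟨q, hq⟩ : ∃ q, p = q + 1 := ⟨p - 1, (Nat.sub_add_cancel S.hp.pos).symm⟩
  have hq1 : p - 1 = q := by omega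
  -- coefficients `c i = choose p i / p`
  have hc : ∀ i, 0 < i → i < p → ∃ c : ℕ, p.choose i = p * c := fun i h0 h1 =>
    S.hp.dvd_choose_self h0.ne' h1
  choose! c hc using hc
  refine ⟨∑ i ∈ range q, (c (i + 1) : κ) * (a ^ (i + 1) * b ^ (q - i)), ?_⟩
  rw [S.D_sum]
  have hterm : ∀ i ∈ range q, S.D ((c (i + 1) : κ) * (a ^ (i + 1) * b ^ (q - i)))
      = (q.choose i : κ) * a ^ i * b ^ (q - i) * S.D a
        + (q.choose (i + 1) : κ) * a ^ (i + 1) * b ^ (q - (i + 1)) * S.D b := by
    intro i hi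
    have hi' := mem_range.mp hi
    have h1 : (c (i + 1)) * (i + 1) = q.choose i := by
      have h2 := hc (i + 1) (Nat.succ_pos _) (by omega)
      have h3 : p.choose (i + 1) * (i + 1) = p * q.choose i := by
        rw [hq]
        exact (Nat.add_one_mul_choose_eq q i).symm
      rw [h2, mul_assoc] at h3
      exact Nat.eq_of_mul_eq_mul_left S.hp.pos h3
    have h2 : (c (i + 1)) * (q - i) = q.choose (i + 1) := by
      have h4 : q.choose i * (q - i) = q.choose (i + 1) * (i + 1) := (Nat.choose_succ_right_eq q i).symm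
      rw [← h1] at h4
      have h5 : (c (i + 1) * (q - i)) * (i + 1) = q.choose (i + 1) * (i + 1) := by
        rw [← h4]; ring
      exact Nat.eq_of_mul_eq_mul_right (Nat.succ_pos i) h5
    have h1' : (c (i + 1) : κ) * ((i + 1 : ℕ) : κ) = (q.choose i : κ) := by exact_mod_cast congrArg (Nat.cast (R := κ)) h1
    have h2' : (c (i + 1) : κ) * ((q - i : ℕ) : κ) = (q.choose (i + 1) : κ) := by exact_mod_cast congrArg (Nat.cast (R := κ)) h2
    rw [S.D_mul, S.D_natCast, mul_zero, add_zero, S.D_mul, S.D_pow, S.D_pow, ← h1', ← h2',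
      Nat.add_sub_cancel]
    have h6 : q - i - 1 = q - (i + 1) := by omega
    rw [h6]
    ring
  rw [sum_congr rfl hterm, sum_add_distrib, hq1]
  congr 1
  · -- first sum
    have h1 : (a + b) ^ q = ∑ i ∈ range (q + 1), a ^ i * b ^ (q - i) * (q.choose i : κ) :=
      add_pow a b q
    rw [h1, sum_range_succ, Nat.sub_self, pow_zero, Nat.choose_self]
    simp only [mul_one, Nat.cast_one, add_sub_cancel_right]
    rw [sum_mul]
    refine sum_congr rfl fun i _ => by ring
  · have h1 : (a + b) ^ q = ∑ i ∈ range (q + 1), a ^ i * b ^ (q - i) * (q.choose i : κ) :=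
      add_pow a b q
    rw [h1, sum_range_succ', pow_zero, Nat.choose_zero_right, Nat.sub_zero]
    simp only [one_mul, mul_one, Nat.cast_one, add_sub_cancel_right]
    rw [sum_mul]
    refine sum_congr rfl fun i _ => by ring

theorem C_log_add {a b : κ} (ha : S.C (a ^ (p - 1) * S.D a) = S.D a)
    (hb : S.C (b ^ (p - 1) * S.D b) = S.D b) :
    S.C ((a + b) ^ (p - 1) * S.D (a + b)) = S.D (a + b) := by
  obtain ⟨F, hF⟩ := S.exists_phi a b
  have h1 : (a + b) ^ (p - 1) * S.D (a + b)
      = S.D F + a ^ (p - 1) * S.D a + b ^ (p - 1) * S.D b := by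
    rw [hF, S.D_add]; ring
  rw [h1, S.C_add, S.C_add, S.C_exact, ha, hb, S.D_add, zero_add]

theorem C_log_mul {a b : κ} (ha : S.C (a ^ (p - 1) * S.D a) = S.D a)
    (hb : S.C (b ^ (p - 1) * S.D b) = S.D b) :
    S.C ((a * b) ^ (p - 1) * S.D (a * b)) = S.D (a * b) := by
  have hp1 : ∀ c : κ, c ^ (p - 1) * c = c ^ p := fun c => by
    rw [← pow_succ, Nat.sub_add_cancel S.hp.pos]
  have h1 : (a * b) ^ (p - 1) * S.D (a * b)
      = a ^ p * (b ^ (p - 1) * S.D b) + b ^ p * (a ^ (p - 1) * S.D a) := by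
    rw [S.D_mul, ← hp1 a, ← hp1 b, mul_pow]; ring
  rw [h1, S.C_add, S.C_pow, S.C_pow, ha, hb, S.D_mul]

theorem C_log_pow {a : κ} (ha : S.C (a ^ (p - 1) * S.D a) = S.D a) (n : ℕ) :
    S.C ((a ^ n) ^ (p - 1) * S.D (a ^ n)) = S.D (a ^ n) := by
  induction n with
  | zero => simp [S.D_one, S.C_zero]
  | succ n ih => rw [pow_succ]; exact S.C_log_mul ih ha

theorem C_log_pth (a : κ) : S.C ((a ^ p) ^ (p - 1) * S.D (a ^ p)) = S.D (a ^ p) := by
  rw [S.D_pow_p, mul_zero, S.C_zero]

theorem C_log_x : S.C (S.x ^ (p - 1) * S.D S.x) = S.D S.x := by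
  rw [S.D_x, mul_one, S.C_x]

theorem C_log_sum {ι : Type*} (s : Finset ι) (f : ι → κ)
    (h : ∀ i ∈ s, S.C (f i ^ (p - 1) * S.D (f i)) = S.D (f i)) :
    S.C ((∑ i ∈ s, f i) ^ (p - 1) * S.D (∑ i ∈ s, f i)) = S.D (∑ i ∈ s, f i) := by
  classical
  induction s using Finset.induction_on with
  | empty => simp [S.D_zero, S.C_zero]
  | insert a s ha ih =>
    rw [sum_insert ha]
    exact S.C_log_add (h a (mem_insert_self a s)) (ih fun i hi => h i (mem_insert_of_mem hi))

/-- **`C (f^(p-1) df) = df`** -/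
theorem C_log (f : κ) : S.C (f ^ (p - 1) * S.D f) = S.D f := by
  rw [S.co_spec f]
  exact S.C_log_sum _ _ fun i _ => S.C_log_mul (S.C_log_pth _) (S.C_log_pow S.C_log_x i)


/-! ### Change of the `p`-basis -/

/-- if `D t ≠ 0` then `t` is a `p`-basis -/
theorem span_of_D_ne_zero {t : κ} (ht : S.D t ≠ 0) :
    ∀ y : κ, ∃ g : ℕ → κ, y = ∑ i ∈ range p, g i ^ p * t ^ i := by
  classical
  haveI := S.char
  haveI := Fact.mk S.hp
  -- work over the subfield of `p`-th powers
  let F : Subfield κ := (frobenius κ p).fieldRange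
  have hF : ∀ a : κ, a ^ p ∈ F := fun a => ⟨a, rfl⟩
  have hF' : ∀ a : F, ∃ b : κ, (a : κ) = b ^ p := by
    rintro ⟨a, b, hb⟩
    exact ⟨b, hb.symm⟩
  choose rt hrt using hF'
  -- `κ` is generated over `F` by `x`, of dimension `≤ p`
  have hspan : Submodule.span F (Set.range fun i : Fin p => S.x ^ (i : ℕ)) = ⊤ := by
    rw [eq_top_iff]
    intro y _
    rw [S.co_spec y]
    refine Submodule.sum_mem _ fun i hi => ?_
    have h1 : S.co y i ^ p * S.x ^ i = (⟨S.co y i ^ p, hF _⟩ : F) • S.x ^ i := rfl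
    rw [h1]
    exact Submodule.smul_mem _ _ (Submodule.subset_span ⟨⟨i, mem_range.mp hi⟩, rfl⟩)
  haveI hfin : Module.Finite F κ := by
    refine ⟨⟨Finset.univ.image fun i : Fin p => S.x ^ (i : ℕ), ?_⟩⟩
    rw [Finset.coe_image, Finset.coe_univ, Set.image_univ]
    exact hspan
  have hle : Module.finrank F κ ≤ p := by
    have h1 := finrank_range_le_card (R := F) (fun i : Fin p => S.x ^ (i : ℕ))
    rw [Set.finrank, hspan, finrank_top, Fintype.card_fin] at h1
    exact h1
  -- powers of `t` are independent: use the structure with `D' = D / D t`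
  have hind : LinearIndependent F (fun i : Fin p => t ^ (i : ℕ)) := by
    rw [Fintype.linearIndependent_iff]
    intro g hg
    have key : ∀ n ≤ p, ∀ g : ℕ → κ, ∑ i ∈ range n, g i ^ p * t ^ i = 0 → ∀ i < n, g i = 0 := by
      intro n
      induction n with
      | zero => intro _ g _ i hi; exact absurd hi (Nat.not_lt_zero _)
      | succ n ih =>
        intro hn g hg i hi
        have h1 := congrArg S.D hg
        rw [S.D_sum, S.D_zero, sum_range_succ'] at h1
        simp only [pow_zero, mul_one, S.D_pow_p, add_zero] at h1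
        have h1' : ∑ i ∈ range n, (((i + 1 : ℕ) : κ) * g (i + 1)) ^ p * t ^ i = 0 := by
          have h2 : (∑ i ∈ range n, (((i + 1 : ℕ) : κ) * g (i + 1)) ^ p * t ^ i) * S.D t = 0 := by
            rw [← h1, sum_mul]
            refine sum_congr rfl fun i _ => ?_
            rw [S.D_pow_mul, S.D_pow, mul_pow, S.natCast_pow, Nat.add_sub_cancel]
            ring
          exact (mul_eq_zero.mp h2).resolve_right ht
        have h2 := ih (by omega) (fun i => ((i + 1 : ℕ) : κ) * g (i + 1)) h1'
        have h3 : ∀ j < n, g (j + 1) = 0 := by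
          intro j hj
          rcases mul_eq_zero.mp (h2 j hj) with h5 | h5
          · exact absurd h5 (S.cast_ne (Nat.succ_pos _) (by omega))
          · exact h5
        rcases Nat.eq_zero_or_pos i with h | h
        · subst h
          rw [sum_range_succ'] at hg
          have h4 : ∑ k ∈ range n, g (k + 1) ^ p * t ^ (k + 1) = 0 := by
            refine sum_eq_zero fun k hk => ?_
            rw [h3 k (mem_range.mp hk), zero_pow S.hp.ne_zero, zero_mul]
          rw [h4, zero_add, pow_zero, mul_one] at hg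
          exact pow_eq_zero_iff S.hp.ne_zero |>.mp hg
        · obtain ⟨j, rfl⟩ := Nat.exists_eq_add_of_le' h
          exact h3 j (by omega)
    have h2 : ∑ i ∈ range p, (fun j => if h : j < p then rt (g ⟨j, h⟩) else 0) i ^ p * t ^ i = 0 := by
      refine Eq.trans ?_ hg
      rw [← Fin.sum_univ_eq_sum_range
        (fun i => (fun j => if h : j < p then rt (g ⟨j, h⟩) else 0) i ^ p * t ^ i) p]
      refine Finset.sum_congr rfl fun i _ => ?_
      have h3 : (i : ℕ) < p := i.2
      simp only [h3, dif_pos]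
      rw [← hrt]
      rfl
    intro i
    have h4 := key p le_rfl _ h2 i i.2
    simp only [i.2, dif_pos] at h4
    have h5 := hrt (g i)
    rw [h4, zero_pow S.hp.ne_zero] at h5
    exact Subtype.ext h5
  have htop : Submodule.span F (Set.range fun i : Fin p => t ^ (i : ℕ)) = ⊤ := by
    refine LinearIndependent.span_eq_top_of_card_eq_finrank' hind ?_
    refine le_antisymm ?_ ?_
    · exact hind.fintype_card_le_finrank
    · rw [Fintype.card_fin]; exact hle
  intro y
  have hy : y ∈ Submodule.span F (Set.range fun i : Fin p => t ^ (i : ℕ)) := by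
    rw [htop]; trivial
  rw [Submodule.mem_span_range_iff_exists_fun] at hy
  obtain ⟨c, hc⟩ := hy
  refine ⟨fun j => if h : j < p then rt (c ⟨j, h⟩) else 0, ?_⟩
  rw [← hc, ← Fin.sum_univ_eq_sum_range
    (fun i => (fun j => if h : j < p then rt (c ⟨j, h⟩) else 0) i ^ p * t ^ i) p]
  refine Finset.sum_congr rfl fun i _ => ?_
  have h3 : (i : ℕ) < p := i.2
  simp only [h3, dif_pos]
  rw [← hrt]
  rfl

/-- the structure with coordinate `t` instead of `x` -/
@[simps] noncomputable def chg {t : κ} (ht : S.D t ≠ 0) : PB p κ where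
  hp := S.hp
  char := S.char
  x := t
  D := fun y => S.D y / S.D t
  D_add := fun a b => by rw [S.D_add, add_div]
  D_mul := fun a b => by rw [S.D_mul]; ring
  D_x := div_self ht
  span := S.span_of_D_ne_zero ht

/-- **independence of the coordinate**: `C_x (g dt/dx) = C_t (g) dt/dx` -/
theorem C_chg {t : κ} (ht : S.D t ≠ 0) (g : κ) :
    S.C (g * S.D t) = (S.chg ht).C g * S.D t := by
  have hp1 : p - 1 + 1 = p := Nat.sub_add_cancel S.hp.pos
  conv_lhs => rw [(S.chg ht).co_spec g]
  rw [sum_mul, S.C_sum]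
  have h1 : ∀ i ∈ range p, S.C ((S.chg ht).co g i ^ p * (S.chg ht).x ^ i * S.D t)
      = if i = p - 1 then (S.chg ht).co g i * S.D t else 0 := by
    intro i hi
    have hi' := mem_range.mp hi
    rw [mul_assoc, S.C_pow]
    have hx : (S.chg ht).x = t := rfl
    rw [hx]
    split_ifs with h
    · subst h
      rw [S.C_log]
    · have h2 : t ^ i * S.D t = S.D ((((i + 1 : ℕ) : κ)⁻¹) ^ p * t ^ (i + 1)) := by
        rw [S.D_pow_mul, S.D_pow, inv_pow, S.natCast_pow, Nat.add_sub_cancel]
        have h3 := S.cast_ne (Nat.succ_pos i) (show i + 1 < p by omega)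
        field_simp
      rw [h2, S.C_exact, mul_zero]
  rw [sum_congr rfl h1, sum_ite_eq' (range p) (p - 1), if_pos (mem_range.mpr S.pred_lt)]
  rfl

/-! ### Perfect constants -/



end PB

end Crest.Agent.R013.Car1_700
end

-- ▼ part R013/Car2_700
section

/-!
# R013 / Car2: the Cartier operator of a function field over a perfect field of characteristic `p` (helper700)
-/

set_option autoImplicit false
set_option linter.all false

namespace Crest.Agent.R013.Car2_700

open Polynomial WithZero Module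
open Crest.Agent.R013.RR7_948 Crest.Agent.R013.RR8_948 Crest.Agent.R013.RR9_948
open Crest.Agent.R013.RR11_948 Crest.Agent.R013.RR12_948 Crest.Agent.R013.RR14_948
open Crest.Agent.R013.RR15_948
open Crest.Agent.R013.Car1_700

section Span

variable (p : ℕ) [hp : Fact p.Prime] (k : Type*) [Field k] [CharP k p] [PerfectField k]
  (K : Type*) [Field K] [Algebra k K] [Algebra (RatFunc k) K]
  [IsScalarTower k (RatFunc k) K] [FiniteDimensional (RatFunc k) K]
  [Algebra.IsSeparable (RatFunc k) K]

include k in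
theorem charP_K : CharP K p := charP_of_injective_algebraMap (algebraMap k K).injective p

theorem exists_expansion (y : K) : ∃ g : ℕ → K, y = ∑ i ∈ Finset.range p, g i ^ p * (xK k K) ^ i := by
  classical
  haveI : CharP K p := charP_K p k K
  haveI : CharP (RatFunc k) p := charP_of_injective_algebraMap (algebraMap k (RatFunc k)).injective p
  haveI : ExpChar (RatFunc k) p := ExpChar.prime hp.out
  haveI : ExpChar k p := ExpChar.prime hp.out
  haveI : PerfectRing k p := PerfectField.toPerfectRing p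
  set X := xK k K with hX
  let F : Subfield K := (frobenius K p).fieldRange
  have hF : ∀ a : K, a ^ p ∈ F := fun a => ⟨a, rfl⟩
  have hF' : ∀ a : F, ∃ b : K, (a : K) = b ^ p := by
    rintro ⟨a, b, hb⟩
    exact ⟨b, hb.symm⟩
  -- the set of expansions
  let T : Submodule F K :=
    { carrier := {y | ∃ g : ℕ → K, y = ∑ i ∈ Finset.range p, g i ^ p * X ^ i}
      add_mem' := by
        rintro _ _ ⟨g, rfl⟩ ⟨h, rfl⟩
        refine ⟨fun i => g i + h i, ?_⟩
        rw [← Finset.sum_add_distrib]
        refine Finset.sum_congr rfl fun i _ => ?_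
        rw [add_pow_char]; ring
      zero_mem' := ⟨fun _ => 0, by simp [zero_pow hp.out.ne_zero]⟩
      smul_mem' := by
        rintro a _ ⟨g, rfl⟩
        obtain ⟨b, hb⟩ := hF' a
        refine ⟨fun i => b * g i, ?_⟩
        have h1 : a • (∑ i ∈ Finset.range p, g i ^ p * X ^ i)
            = (a : K) * ∑ i ∈ Finset.range p, g i ^ p * X ^ i := rfl
        rw [h1, hb, Finset.mul_sum]
        refine Finset.sum_congr rfl fun i _ => ?_
        rw [mul_pow]; ring }
  have hT : ∀ y, y ∈ T ↔ ∃ g : ℕ → K, y = ∑ i ∈ Finset.range p, g i ^ p * X ^ i := fun y => Iff.rfl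
  have hmulX : ∀ y ∈ T, X * y ∈ T := by
    intro y hy
    obtain ⟨g, rfl⟩ := (hT y).mp hy
    obtain ⟨q, hq⟩ : ∃ q, p = q + 1 := ⟨p - 1, (Nat.sub_add_cancel hp.out.pos).symm⟩
    rw [hT]
    refine ⟨fun i => if i = 0 then g q * X else g (i - 1), ?_⟩
    have h1 : ∀ f : ℕ → K, ∑ i ∈ Finset.range p, f i = ∑ i ∈ Finset.range q, f i + f q := by
      intro f; rw [← Finset.sum_range_succ, ← hq]
    have h2 : ∀ f : ℕ → K, ∑ i ∈ Finset.range p, f i = ∑ i ∈ Finset.range q, f (i + 1) + f 0 := by
      intro f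
      rw [show Finset.range p = Finset.range (q + 1) by rw [hq], Finset.sum_range_succ']
    rw [h1, h2, mul_add, Finset.mul_sum]
    congr 1
    · refine Finset.sum_congr rfl fun i _ => ?_
      show X * (g i ^ p * X ^ i) = (if i + 1 = 0 then g q * X else g (i + 1 - 1)) ^ p * X ^ (i + 1)
      rw [if_neg (Nat.succ_ne_zero i), Nat.add_sub_cancel]; ring
    · show X * (g q ^ p * X ^ q) = (if (0:ℕ) = 0 then g q * X else g (0 - 1)) ^ p * X ^ 0
      rw [if_pos rfl, mul_pow, pow_zero, mul_one]
      have : X ^ p = X ^ q * X := by rw [← pow_succ, ← hq]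
      rw [this]; ring
  have hone : (1 : K) ∈ T := by
    rw [hT]
    refine ⟨fun i => if i = 0 then 1 else 0, ?_⟩
    rw [Finset.sum_eq_single 0]
    · simp
    · intro i _ hi; simp [hi, zero_pow hp.out.ne_zero]
    · intro h; exact absurd (Finset.mem_range.mpr hp.out.pos) h
  have hpow : ∀ n : ℕ, X ^ n ∈ T := by
    intro n
    induction n with
    | zero => simpa using hone
    | succ n ih => rw [pow_succ, mul_comm]; exact hmulX _ ih
  -- `X` is integral over `F`
  have hint : IsIntegral F X := by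
    refine ⟨Polynomial.X ^ p - Polynomial.C (⟨X ^ p, hF X⟩ : F), ?_, ?_⟩
    · exact Polynomial.monic_X_pow_sub_C _ hp.out.ne_zero
    · rw [Polynomial.eval₂_sub, Polynomial.eval₂_X_pow, Polynomial.eval₂_C]
      exact sub_self _
  let E : IntermediateField F K := IntermediateField.adjoin F {X}
  have hEalg : ∀ y : K, y ∈ E ↔ y ∈ Algebra.adjoin F ({X} : Set K) := by
    intro y
    rw [← IntermediateField.mem_toSubalgebra,
      IntermediateField.adjoin_simple_toSubalgebra_of_isAlgebraic hint.isAlgebraic]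
  have hET : ∀ y ∈ E, y ∈ T := by
    intro y hy
    rw [hEalg, Algebra.adjoin_singleton_eq_range_aeval] at hy
    obtain ⟨f, rfl⟩ := hy
    show Polynomial.aeval X f ∈ T
    rw [Polynomial.aeval_eq_sum_range]
    exact Submodule.sum_mem _ fun i _ => Submodule.smul_mem _ _ (hpow i)
  have hXE : X ∈ E := IntermediateField.mem_adjoin_simple_self F X
  have hFE : ∀ a : K, a ^ p ∈ E := fun a => E.algebraMap_mem (⟨a ^ p, hF a⟩ : F)
  have hkE : ∀ c : k, algebraMap k K c ∈ E := by
    intro c
    obtain ⟨d, hd⟩ := surjective_frobenius k p c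
    rw [← hd, frobenius_def, map_pow]
    exact hFE _
  have hpoly : ∀ f : k[X], Polynomial.aeval X f ∈ E := by
    intro f
    rw [Polynomial.aeval_eq_sum_range]
    refine sum_mem fun i _ => ?_
    rw [Algebra.smul_def]
    exact mul_mem (hkE _) (pow_mem hXE _)
  have hrat : ∀ r : RatFunc k, algebraMap (RatFunc k) K r ∈ E := by
    intro r
    rw [← RatFunc.num_div_denom r, map_div₀, algebraMap_poly, algebraMap_poly]
    exact div_mem (hpoly _) (hpoly _)
  refine (hT y).mp (hET y ?_)
  -- `y ∈ k(X)(y^p)`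
  have h1 : y ∈ IntermediateField.adjoin (RatFunc k) ({y} : Set K) :=
    IntermediateField.mem_adjoin_simple_self _ y
  rw [IntermediateField.adjoin_simple_eq_adjoin_pow_expChar_of_isSeparable' (RatFunc k) K y p] at h1
  refine IntermediateField.adjoin_induction (RatFunc k) (s := {y ^ p}) (p := fun z _ => z ∈ E)
    ?_ ?_ ?_ ?_ ?_ h1
  · rintro z hz
    rw [Set.mem_singleton_iff] at hz
    rw [hz]; exact hFE y
  · intro r; exact hrat r
  · intro a b _ _ ha hb; exact add_mem ha hb
  · intro a _ ha; exact inv_mem ha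
  · intro a b _ _ ha hb; exact mul_mem ha hb

/-- **the p-basis structure of a function field**: coordinate `xK k K`, derivation `del k K`. -/
noncomputable def pb : PB p K where
  hp := hp.out
  char := charP_K p k K
  x := xK k K
  D := del k K
  D_add := map_add _
  D_mul := fun a b => by
    rw [Derivation.leibniz, smul_eq_mul, smul_eq_mul]
  D_x := del_xK k K
  span := exists_expansion p k K

theorem pb_D : (pb p k K).D = del k K := rfl

end Span

end Crest.Agent.R013.Car2_700
end

-- ▼ part R013/Car6_700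

/-!
# R013 / Car6: orders of `C w` (helper700)
-/

set_option autoImplicit false
set_option linter.all false

namespace Crest.Agent.R013.Car6_700

open WithZero Module
open Crest.Agent.R013.Car1_700

section Local

variable {p : ℕ} {κ : Type*} [Field κ] (S : PB p κ) (v : Valuation κ ℤᵐ⁰)

/-- the value of an expansion is the maximum of the values of its terms -/
theorem v_expansion (hx : v S.x = exp (-1)) {y : κ} (hy : y ≠ 0) :
    ∃ i < p, v y = v (S.co y i ^ p * S.x ^ i) ∧
      ∀ j < p, v (S.co y j ^ p * S.x ^ j) ≤ v y := by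
  classical
  set f : ℕ → κ := fun i => S.co y i ^ p * S.x ^ i with hf
  have hsum : y = ∑ i ∈ Finset.range p, f i := S.co_spec y
  obtain ⟨i, hi, hmax⟩ := Finset.exists_max_image (Finset.range p) (fun i => v (f i))
    ⟨0, Finset.mem_range.mpr S.hp.pos⟩
  have hvf : ∀ i, S.co y i ≠ 0 → v (f i) = exp (p * log (v (S.co y i)) - i) := by
    intro i h0
    have h1 : v (S.co y i) = exp (log (v (S.co y i))) :=
      (exp_log ((Valuation.ne_zero_iff v).mpr h0)).symm
    rw [hf]
    show v (S.co y i ^ p * S.x ^ i) = _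
    rw [map_mul, map_pow, map_pow, hx]
    conv_lhs => rw [h1]
    rw [← exp_nsmul, ← exp_nsmul, ← exp_add]
    congr 1
    simp
    ring
  have hlt : ∀ j ∈ Finset.range p \ {i}, v (f j) < v (f i) := by
    intro j hj
    rw [Finset.mem_sdiff, Finset.mem_singleton, Finset.mem_range] at hj
    refine lt_of_le_of_ne (hmax j (Finset.mem_range.mpr hj.1)) ?_
    intro heq
    by_cases h0 : S.co y i = 0
    · -- then all terms vanish
      have h1 : v (f i) = 0 := by
        rw [hf]; show v (S.co y i ^ p * S.x ^ i) = 0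
        rw [h0, zero_pow S.hp.ne_zero, zero_mul, map_zero]
      apply hy
      rw [hsum]
      refine Finset.sum_eq_zero fun l hl => ?_
      have h2 := hmax l hl
      rw [h1] at h2
      exact (Valuation.zero_iff v).mp (le_antisymm h2 zero_le)
    · have h0' : S.co y j ≠ 0 := by
        intro h3
        have h4 : v (f j) = 0 := by
          rw [hf]; show v (S.co y j ^ p * S.x ^ j) = 0
          rw [h3, zero_pow S.hp.ne_zero, zero_mul, map_zero]
        rw [h4, hvf i h0] at heq
        exact exp_ne_zero heq.symm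
      rw [hvf i h0, hvf j h0', exp_inj] at heq
      have hi' := Finset.mem_range.mp hi
      have h5 : (p : ℤ) ∣ (i : ℤ) - j := ⟨log (v (S.co y i)) - log (v (S.co y j)), by
        rw [mul_sub]; linarith⟩
      have h6 : (i : ℤ) - j = 0 := by
        apply Int.eq_zero_of_abs_lt_dvd h5
        rw [abs_lt]; omega
      exact hj.2 (by omega)
  have hvy : v y = v (f i) := by
    rw [hsum]; exact Valuation.map_sum_eq_of_lt v hi hlt
  refine ⟨i, Finset.mem_range.mp hi, hvy, fun j hj => ?_⟩
  rw [hvy]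
  exact hmax j (Finset.mem_range.mpr hj)

theorem v_co_le (hx : v S.x = exp (-1)) {y : κ} {m : ℤ} {i : ℕ} (hi : i < p)
    (hy : v y ≤ exp (-(p * m))) : v (S.co y i) ≤ exp (-m) := by
  by_cases h0 : S.co y i = 0
  · rw [h0, map_zero]; exact zero_le
  have hy0 : y ≠ 0 := by
    rintro rfl
    apply h0
    exact S.co_eq (g := fun _ => 0) (by simp [zero_pow S.hp.ne_zero]) hi
  obtain ⟨j, hj, h1, h2⟩ := v_expansion S v hx hy0
  have h3 := (h2 i hi).trans hy
  have h4 : v (S.co y i) = exp (log (v (S.co y i))) :=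
    (exp_log ((Valuation.ne_zero_iff v).mpr h0)).symm
  rw [map_mul, map_pow, map_pow, hx, h4, ← exp_nsmul, ← exp_nsmul, ← exp_add, exp_le_exp] at h3
  rw [h4, exp_le_exp]
  simp only [nsmul_eq_mul, mul_neg, mul_one] at h3
  by_contra hcon
  have h5 : -m + 1 ≤ log (v (S.co y i)) := by omega
  have hp : (0 : ℤ) < p := by exact_mod_cast S.hp.pos
  have h6 : (p : ℤ) * (-m + 1) ≤ p * log (v (S.co y i)) := mul_le_mul_of_nonneg_left h5 hp.le
  have h7 : (i : ℤ) < p := by exact_mod_cast hi
  nlinarith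

theorem v_co_eq (hx : v S.x = exp (-1)) {y : κ} {m : ℤ} {r : ℕ} (hr : r < p)
    (hy : v y = exp (-(p * m + r))) : v (S.co y r) = exp (-m) := by
  have hy0 : y ≠ 0 := by rintro rfl; rw [map_zero] at hy; exact exp_ne_zero hy.symm
  obtain ⟨j, hj, h1, h2⟩ := v_expansion S v hx hy0
  have h0 : S.co y j ≠ 0 := by
    intro h0
    rw [h0, zero_pow S.hp.ne_zero, zero_mul, map_zero, hy] at h1
    exact exp_ne_zero h1
  have h4 : v (S.co y j) = exp (log (v (S.co y j))) :=
    (exp_log ((Valuation.ne_zero_iff v).mpr h0)).symm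
  rw [hy, map_mul, map_pow, map_pow, hx, h4, ← exp_nsmul, ← exp_nsmul, ← exp_add, exp_inj] at h1
  simp only [nsmul_eq_mul, mul_neg, mul_one] at h1
  have hp : (0 : ℤ) < p := by exact_mod_cast S.hp.pos
  have h5 : (p : ℤ) ∣ (j : ℤ) - r := ⟨log (v (S.co y j)) + m, by rw [mul_add]; linarith⟩
  have h6 : (j : ℤ) - r = 0 := by
    apply Int.eq_zero_of_abs_lt_dvd h5
    rw [abs_lt]; omega
  have h7 : j = r := by omega
  subst h7
  rw [h4, exp_inj]
  have h8 : (p : ℤ) * (log (v (S.co y j)) + m) = 0 := by rw [mul_add]; linarith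
  rcases mul_eq_zero.mp h8 with h9 | h9
  · omega
  · omega

end Local

section Global

open Crest.Agent.R013.RR7_948 Crest.Agent.R013.RR8_948 Crest.Agent.R013.RR9_948
open Crest.Agent.R013.RR11_948 Crest.Agent.R013.RR12_948 Crest.Agent.R013.RR14_948
open Crest.Agent.R013.RR15_948 Crest.Agent.R013.Car2_700 Crest.Agent.R013.Car5_700

variable (p : ℕ) [hp : Fact p.Prime] (k : Type*) [Field k] [CharP k p] [PerfectField k]
  (K : Type*) [Field K] [Algebra k K] [Algebra (RatFunc k) K]
  [IsScalarTower k (RatFunc k) K] [FiniteDimensional (RatFunc k) K]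
  [Algebra.IsSeparable (RatFunc k) K]

/-- the Cartier operator on functions: `g dX ↦ C(g) dX` -/
noncomputable abbrev CK : K → K := (pb p k K).C

variable {k K}

theorem CK_eq {t : K} (ht : del k K t ≠ 0) (g : K) :
    CK p k K g = ((pb p k K).chg (t := t) ht).C (g / del k K t) * del k K t := by
  have h := (pb p k K).C_chg (t := t) ht (g / del k K t)
  rw [pb_D, div_mul_cancel₀ _ ht] at h
  exact h

/-- **order estimate**: `ord w ≥ p m → ord (C w) ≥ m` -/
theorem v_CK_le (P : Pl k K) {g : K} {m : ℤ} (hg : P.v g ≤ exp (canD k K P - p * m)) :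
    P.v (CK p k K g) ≤ exp (canD k K P - m) := by
  obtain ⟨t, ht0, ht⟩ := exists_v_eq P (-1)
  have hdt : del k K t ≠ 0 := del_uniformizer_ne_zero P ht
  rw [CK_eq p hdt g, map_mul, v_del_eq P ht]
  have h1 : P.v (((pb p k K).chg (t := t) hdt).C (g / del k K t)) ≤ exp (-m) := by
    apply v_co_le _ P.v (show P.v t = exp (-1) from ht) (Nat.sub_lt hp.out.pos Nat.one_pos)
    rw [map_div₀, v_del_eq P ht]
    calc P.v g / exp (canD k K P) ≤ exp (canD k K P - p * m) / exp (canD k K P) :=
        div_le_div_of_nonneg_right hg zero_le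
      _ = exp (-(p * m)) := by rw [← exp_sub]; congr 1; ring
  calc _ ≤ exp (-m) * exp (canD k K P) := mul_le_mul_left h1 _
    _ = exp (canD k K P - m) := by rw [← exp_add]; congr 1; ring

/-- `ord w = p m + p - 1 → ord (C w) = m` -/
theorem v_CK_eq (P : Pl k K) {g : K} {m : ℤ}
    (hg : P.v g = exp (canD k K P - (p * m + (p - 1 : ℕ)))) :
    P.v (CK p k K g) = exp (canD k K P - m) := by
  obtain ⟨t, ht0, ht⟩ := exists_v_eq P (-1)
  have hdt : del k K t ≠ 0 := del_uniformizer_ne_zero P ht
  rw [CK_eq p hdt g, map_mul, v_del_eq P ht]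
  have h1 : P.v (((pb p k K).chg (t := t) hdt).C (g / del k K t)) = exp (-m) := by
    apply v_co_eq _ P.v (show P.v t = exp (-1) from ht) (Nat.sub_lt hp.out.pos Nat.one_pos)
    rw [map_div₀, v_del_eq P ht, hg, ← exp_sub]; congr 1; ring
  rw [h1, ← exp_add]; congr 1; ring

/-- `C` maps `L(canD - p D)` to `L(canD - D)` -/
theorem CK_mem_LD {D : Pl k K →₀ ℤ} {g : K} (hg : g ∈ LD (canD k K - p • D)) :
    CK p k K g ∈ LD (canD k K - D) := by
  rw [mem_LD] at hg ⊢
  intro P
  refine v_CK_le p P ?_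
  have h := hg P
  simpa using h

/-- regular forms go to regular forms -/
theorem CK_mem_LD_canD {g : K} (hg : g ∈ LD (canD k K)) : CK p k K g ∈ LD (canD k K) := by
  have h := CK_mem_LD p (D := (0 : Pl k K →₀ ℤ)) (g := g) (by simpa using hg)
  simpa using h







/-! ### logarithmic differentials -/







end Global

end Crest.Agent.R013.Car6_700
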