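import Mathlib
import Crest.Agent.R013.CntF1_398
import Crest.Agent.R013.CntB3_491
import Crest.Agent.R013.CntB7_491
import Crest.Agent.R013.CntA3_560

-- ▼ part R013/CntF2_398
section

/-!
# R013 / CNT-F2: Frobenius on `H¹(D)`, transfer along finite constant extensions (helper398)
-/

set_option autoImplicit false
set_option linter.all false

namespace Crest.Agent.R013.CntF2_398

open Polynomial WithZero Module
open Crest.Agent.R013.RR1_948 Crest.Agent.R013.RR7_948 Crest.Agent.R013.RR8_948
open Crest.Agent.R013.RR9_948 Crest.Agent.R013.RR11_948 Crest.Agent.R013.RR12_948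
open Crest.Agent.R013.RR13_948 Crest.Agent.R013.RR14_948 Crest.Agent.R013.RR18_948
open Crest.Agent.R013.PicD_398
open Crest.Agent.R013.CntF1_398
open Crest.Agent.R013.CntB1_491 Crest.Agent.R013.CntB2_491 Crest.Agent.R013.CntB3_491

section V

variable {k : Type*} [Field k] {K : Type*} [Field K] [Algebra k K]

/-- functions with poles bounded by `D` where `v(y) ≤ 1` -/
noncomputable def V0 (y : K) (D : Pl k K →₀ ℤ) : Submodule k K :=
  ⨅ P : {P : Pl k K // P.v y ≤ 1}, ball P.1 (D P.1)

/-- functions with poles bounded by `D` where `1 < v(y)` -/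
noncomputable def V1 (y : K) (D : Pl k K →₀ ℤ) : Submodule k K :=
  ⨅ P : {P : Pl k K // 1 < P.v y}, ball P.1 (D P.1)

theorem mem_V0 {y : K} {D : Pl k K →₀ ℤ} {f : K} :
    f ∈ V0 y D ↔ ∀ P : Pl k K, P.v y ≤ 1 → P.v f ≤ exp (D P) := by
  simp [V0, Submodule.mem_iInf, mem_ball]

theorem mem_V1 {y : K} {D : Pl k K →₀ ℤ} {f : K} :
    f ∈ V1 y D ↔ ∀ P : Pl k K, 1 < P.v y → P.v f ≤ exp (D P) := by
  simp [V1, Submodule.mem_iInf, mem_ball]

theorem V0_xK [Algebra (RatFunc k) K] (D : Pl k K →₀ ℤ) : V0 (xK k K) D = U0 D := rfl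

theorem V1_xK [Algebra (RatFunc k) K] (D : Pl k K →₀ ℤ) : V1 (xK k K) D = U1 D := rfl

theorem LD_eq_V (y : K) (D : Pl k K →₀ ℤ) : LD D = V0 y D ⊓ V1 y D := by
  ext f
  rw [Submodule.mem_inf, mem_LD, mem_V0, mem_V1]
  constructor
  · intro h; exact ⟨fun P _ => h P, fun P _ => h P⟩
  · rintro ⟨h0, h1⟩ P
    rcases le_or_gt (P.v y) 1 with h | h
    · exact h0 P h
    · exact h1 P h

theorem pow_mem_V0 {y : K} {D : Pl k K →₀ ℤ} {f : K} (hf : f ∈ V0 y D) (n : ℕ) :
    f ^ n ∈ V0 y (n • D) := by
  rw [mem_V0] at *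
  intro P hP
  rw [map_pow, Finsupp.smul_apply, exp_nsmul]
  exact pow_le_pow_left₀ zero_le (hf P hP) n

theorem pow_mem_V1 {y : K} {D : Pl k K →₀ ℤ} {f : K} (hf : f ∈ V1 y D) (n : ℕ) :
    f ^ n ∈ V1 y (n • D) := by
  rw [mem_V1] at *
  intro P hP
  rw [map_pow, Finsupp.smul_apply, exp_nsmul]
  exact pow_le_pow_left₀ zero_le (hf P hP) n

/-- Frobenius `H¹(D) → H¹(pD)` is injective -/
def FInj (p : ℕ) (y : K) (D : Pl k K →₀ ℤ) : Prop :=
  ∀ x : K, x ^ p ∈ V0 y (p • D) ⊔ V1 y (p • D) → x ∈ V0 y D ⊔ V1 y D

end V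

section Global

variable {k : Type*} [Field k] {K : Type*} [Field K] [Algebra k K] [Algebra (RatFunc k) K]
  [IsScalarTower k (RatFunc k) K] [FiniteDimensional (RatFunc k) K]
  [Algebra.IsSeparable (RatFunc k) K]

theorem exists_gt_of {y : K} (hy : ¬ IsAlgebraic k y) : ∃ P : Pl k K, 1 < P.v y := by
  by_contra hcon
  push Not at hcon
  exact hy (isAlgebraic_of_no_poles hcon)

theorem exists_le_of {y : K} (hy : ¬ IsAlgebraic k y) : ∃ P : Pl k K, P.v y ≤ 1 := by
  obtain ⟨P, hP⟩ := exists_gt_of hy
  have hy0 : y ≠ 0 := by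
    rintro rfl; exact hy isAlgebraic_zero
  obtain ⟨Q, hQ⟩ := exists_lt_of_exists_gt hy0 hP
  exact ⟨Q, hQ.le⟩

/-- DIFF, for the charts of any nonconstant function `y` -/
theorem diff_pow_V [PerfectField k] (p : ℕ) [hp : Fact p.Prime] [CharP K p] {y : K}
    (hy : ¬ IsAlgebraic k y) (D : Pl k K →₀ ℤ)
    (hL : LD (p • D) = ⊥) (hF : FInj p y D)
    {h : K} (hh : ∀ P : Pl k K, ∀ t : K, P.v t = exp (-1) →
      P.v (del k K h) ≤ P.v (del k K t) * exp (p * D P)) :
    ∃ s : K, h = s ^ p := by
  obtain ⟨P1, hP1⟩ := exists_gt_of hy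
  obtain ⟨P0, hP0⟩ := exists_le_of hy
  obtain ⟨s0, hs0⟩ := chart_pow p D hh P1
  obtain ⟨s1, hs1⟩ := chart_pow p D hh P0
  have hD : ∀ P : Pl k K, ((p • D) P : ℤ) = p * D P := by
    intro P; rw [Finsupp.smul_apply, nsmul_eq_mul]
  have m0 : h - s0 ^ p ∈ V0 y (p • D) := by
    rw [mem_V0]
    intro P hP
    rw [hD]
    exact hs0 P (by rintro rfl; exact absurd hP (not_le.mpr hP1))
  have m1 : h - s1 ^ p ∈ V1 y (p • D) := by
    rw [mem_V1]
    intro P hP
    rw [hD]
    exact hs1 P (by rintro rfl; exact absurd hP (not_lt.mpr hP0))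
  have hmem : s0 - s1 ∈ V0 y D ⊔ V1 y D := by
    apply hF
    rw [sub_pow_char]
    have : s0 ^ p - s1 ^ p = -(h - s0 ^ p) + (h - s1 ^ p) := by ring
    rw [this]
    exact Submodule.add_mem_sup (Submodule.neg_mem _ m0) m1
  obtain ⟨a, ha, b, hb, hab⟩ := Submodule.mem_sup.mp hmem
  refine ⟨s0 - a, ?_⟩
  have h0 : h - (s0 - a) ^ p ∈ V0 y (p • D) := by
    have : h - (s0 - a) ^ p = (h - s0 ^ p) + a ^ p := by rw [sub_pow_char]; ring
    rw [this]
    exact Submodule.add_mem _ m0 (pow_mem_V0 ha p)
  have h1 : h - (s0 - a) ^ p ∈ V1 y (p • D) := by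
    have e : s0 - a = s1 + b := by
      have : s0 - s1 - a - b = 0 := by rw [← hab]; ring
      linear_combination this
    have : h - (s0 - a) ^ p = (h - s1 ^ p) - b ^ p := by rw [e, add_pow_char]; ring
    rw [this]
    exact Submodule.sub_mem _ m1 (pow_mem_V1 hb p)
  have h2 : h - (s0 - a) ^ p ∈ LD (p • D) := by
    rw [LD_eq_V y]; exact ⟨h0, h1⟩
  rw [hL, Submodule.mem_bot, sub_eq_zero] at h2
  exact h2

theorem diff_del_V [PerfectField k] (p : ℕ) [hp : Fact p.Prime] [CharP K p] {y : K}
    (hy : ¬ IsAlgebraic k y) (D : Pl k K →₀ ℤ)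
    (hL : LD (p • D) = ⊥) (hF : FInj p y D)
    {h : K} (hh : ∀ P : Pl k K, ∀ t : K, P.v t = exp (-1) →
      P.v (del k K h) ≤ P.v (del k K t) * exp (p * D P)) :
    del k K h = 0 := by
  obtain ⟨s, rfl⟩ := diff_pow_V p hy D hL hF hh
  exact del_pow_p p s

end Global

section CE

variable {k k' K K' : Type*} [Field k] [Field k'] [Field K] [Field K'] [Algebra k k']
  [Algebra k K] [Algebra k' K'] [Algebra K K'] [Algebra k K'] [IsScalarTower k k' K']
  [IsScalarTower k K K'] [FiniteDimensional k k'] [Algebra.IsSeparable k k']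
  [FiniteDimensional K K'] [Algebra.IsSeparable K K']
  [Algebra (RatFunc k) K] [IsScalarTower k (RatFunc k) K] [FiniteDimensional (RatFunc k) K]
  [Algebra.IsSeparable (RatFunc k) K]
  [Algebra (RatFunc k') K'] [IsScalarTower k' (RatFunc k') K'] [FiniteDimensional (RatFunc k') K']
  [Algebra.IsSeparable (RatFunc k') K']

theorem con_nsmul (n : ℕ) (D : Pl k K →₀ ℤ) : con k' K' (n • D) = n • con k' K' D :=
  map_nsmul (conHom k k' K K') n D

theorem mem_V0_con (h : IsCE k k' K K') {ι : Type*} [Fintype ι] (b : Basis ι k k')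
    {D : Pl k K →₀ ℤ} {y : K} {x : K'} :
    x ∈ V0 (algebraMap K K' y) (con k' K' D) ↔ ∀ i, (h.basis b).repr x i ∈ V0 y D := by
  constructor
  · intro hx i
    rw [mem_V0]
    intro P hP
    apply repr_le h b P x
    rintro Q rfl
    exact mem_V0.mp hx Q (by rw [← res_v h]; exact hP)
  · intro hx
    rw [mem_V0]
    intro Q hQ
    rw [con_apply]
    apply le_of_repr h b Q x
    intro i
    exact mem_V0.mp (hx i) _ (by rw [res_v h]; exact hQ)

theorem mem_V1_con (h : IsCE k k' K K') {ι : Type*} [Fintype ι] (b : Basis ι k k')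
    {D : Pl k K →₀ ℤ} {y : K} {x : K'} :
    x ∈ V1 (algebraMap K K' y) (con k' K' D) ↔ ∀ i, (h.basis b).repr x i ∈ V1 y D := by
  constructor
  · intro hx i
    rw [mem_V1]
    intro P hP
    apply repr_le h b P x
    rintro Q rfl
    exact mem_V1.mp hx Q (by rw [← res_v h]; exact hP)
  · intro hx
    rw [mem_V1]
    intro Q hQ
    rw [con_apply]
    apply le_of_repr h b Q x
    intro i
    exact mem_V1.mp (hx i) _ (by rw [res_v h]; exact hQ)

/-- injectivity of Frobenius on `H¹` passes to finite constant extensions -/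
theorem FInj.con (p : ℕ) [hp : Fact p.Prime] [CharP K p] (h : IsCE k k' K K') {y : K}
    {D : Pl k K →₀ ℤ} (hF : FInj p y D) : FInj p (algebraMap K K' y) (con k' K' D) := by
  classical
  haveI : CharP k p :=
    (RingHom.charP_iff (algebraMap k K) (algebraMap k K).injective p).mpr inferInstance
  haveI : CharP K' p :=
    (RingHom.charP_iff (algebraMap K K') (algebraMap K K').injective p).mp inferInstance
  haveI : ExpChar k p := ExpChar.prime hp.out
  let b := Module.finBasis k k'
  let c := b.mapPowExpCharPowOfIsSeparable p 1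
  have hc : ∀ i, c i = b i ^ p := by
    intro i
    show (Basis.mk _ _) i = _
    rw [Basis.mk_apply, pow_one]
  intro x hx
  rw [← con_nsmul] at hx
  obtain ⟨a, ha, a', ha', haa⟩ := Submodule.mem_sup.mp hx
  rw [mem_V0_con h c] at ha
  rw [mem_V1_con h c] at ha'
  have hxp : x ^ p = ∑ i, ((h.basis b).repr x i) ^ p • (h.basis c) i := by
    conv_lhs => rw [← (h.basis b).sum_repr x]
    rw [sum_pow_char]
    refine Finset.sum_congr rfl fun i _ => ?_
    rw [Algebra.smul_def, mul_pow, ← map_pow (algebraMap K K'), h.basis_apply, h.basis_apply, hc,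
      map_pow (algebraMap k' K'), Algebra.smul_def]
  have hrepr : ∀ i, (h.basis c).repr (x ^ p) i = ((h.basis b).repr x i) ^ p := by
    intro i
    rw [hxp, Basis.repr_sum_self]
  have hcoord : ∀ i, (h.basis b).repr x i ∈ V0 y D ⊔ V1 y D := by
    intro i
    apply hF
    rw [← hrepr, ← haa, map_add, Finsupp.add_apply]
    exact Submodule.add_mem_sup (ha i) (ha' i)
  choose u hu w hw huw using fun i => Submodule.mem_sup.mp (hcoord i)
  rw [Submodule.mem_sup]
  refine ⟨∑ i, u i • (h.basis b) i, ?_, ∑ i, w i • (h.basis b) i, ?_, ?_⟩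
  · rw [mem_V0_con h b]
    intro i
    rw [Basis.repr_sum_self]; exact hu i
  · rw [mem_V1_con h b]
    intro i
    rw [Basis.repr_sum_self]; exact hw i
  · rw [← Finset.sum_add_distrib]
    conv_rhs => rw [← (h.basis b).sum_repr x]
    refine Finset.sum_congr rfl fun i _ => ?_
    rw [← add_smul, huw]

end CE

end Crest.Agent.R013.CntF2_398
end

-- ▼ part R013/CntF3_398
section

/-!
# R013 / CNT-F3: constant extension to an infinite algebraic extension (helper398)

`C = K·F`, `F/k` algebraic separable (e.g. an algebraic closure of a finite field).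
-/

set_option autoImplicit false
set_option linter.all false

namespace Crest.Agent.R013.CntF3_398

open Polynomial WithZero Module
open Crest.Agent.R013.RR1_948 Crest.Agent.R013.RR7_948 Crest.Agent.R013.RR8_948
open Crest.Agent.R013.RR9_948 Crest.Agent.R013.RR11_948 Crest.Agent.R013.RR12_948
open Crest.Agent.R013.RR13_948 Crest.Agent.R013.RR14_948 Crest.Agent.R013.RR18_948
open Crest.Agent.R013.PicD_398
open Crest.Agent.R013.CntF1_398 Crest.Agent.R013.CntF2_398
open Crest.Agent.R013.CntB1_491 Crest.Agent.R013.CntB2_491 Crest.Agent.R013.CntB3_491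
open Crest.Agent.R013.CntB7_491

universe u v w

section levels

variable {k : Type u} {FF : Type w} {K C : Type v} [Field k] [Field FF] [Field K] [Field C]
  [Algebra k FF] [Algebra k K] [Algebra FF C] [Algebra K C] [Algebra k C]
  [IsScalarTower k FF C] [IsScalarTower k K C] [Algebra.IsAlgebraic k FF]
  [Algebra.IsSeparable k FF]
  [Algebra (RatFunc k) K] [IsScalarTower k (RatFunc k) K] [FiniteDimensional (RatFunc k) K]
  [Algebra.IsSeparable (RatFunc k) K]

/-- every element of `C = K·F` is in `K(T)` for a finite set of constants `T` -/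
theorem exists_finset (h : IsCE k FF K C) (x : C) :
    ∃ T : Finset FF, x ∈ IntermediateField.adjoin K ((algebraMap FF C) '' (T : Set FF)) := by
  classical
  have hx : x ∈ Algebra.adjoin K (Set.range (algebraMap FF C)) := by rw [h.gen]; trivial
  induction hx using Algebra.adjoin_induction with
  | mem x hx =>
    obtain ⟨c, rfl⟩ := hx
    refine ⟨{c}, IntermediateField.subset_adjoin K _ ⟨c, by simp, rfl⟩⟩
  | algebraMap y => exact ⟨∅, IntermediateField.algebraMap_mem _ y⟩
  | add a b _ _ ha hb =>
    obtain ⟨S, hS⟩ := ha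
    obtain ⟨T, hT⟩ := hb
    refine ⟨S ∪ T, add_mem ?_ ?_⟩
    · exact IntermediateField.adjoin.mono K _ _ (Set.image_mono (by simp)) hS
    · exact IntermediateField.adjoin.mono K _ _ (Set.image_mono (by simp)) hT
  | mul a b _ _ ha hb =>
    obtain ⟨S, hS⟩ := ha
    obtain ⟨T, hT⟩ := hb
    refine ⟨S ∪ T, mul_mem ?_ ?_⟩
    · exact IntermediateField.adjoin.mono K _ _ (Set.image_mono (by simp)) hS
    · exact IntermediateField.adjoin.mono K _ _ (Set.image_mono (by simp)) hT

/-- finite levels inside `C` -/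
theorem exists_level (h : IsCE k FF K C) (S : Finset C) :
    ∃ (E : CExt.{u, v, w} k K) (_ : Algebra E.k' FF) (_ : Algebra E.K' C) (_ : Algebra E.k' C)
      (_ : IsScalarTower k E.k' FF) (_ : IsScalarTower E.k' FF C) (_ : IsScalarTower E.k' E.K' C)
      (_ : IsScalarTower K E.K' C), ∀ s ∈ S, ∃ s' : E.K', algebraMap E.K' C s' = s := by
  classical
  choose T hT using exists_finset h
  let U : Finset FF := S.biUnion T
  let k' : IntermediateField k FF := IntermediateField.adjoin k (U : Set FF)
  haveI f1 : FiniteDimensional k k' :=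
    IntermediateField.finiteDimensional_adjoin fun x _ => Algebra.IsIntegral.isIntegral x
  haveI f2 : Algebra.IsSeparable k k' := inferInstance
  let K' : IntermediateField K C :=
    IntermediateField.adjoin K (Set.range fun c : k' => algebraMap FF C (c : FF))
  have hK' : ∀ c : k', algebraMap FF C (c : FF) ∈ K' := fun c =>
    IntermediateField.subset_adjoin K _ ⟨c, rfl⟩
  letI a1 : Algebra k' K' :=
    (((algebraMap FF C).comp (algebraMap k' FF)).codRestrict K' hK').toAlgebra
  letI t1 : IsScalarTower k k' K' := IsScalarTower.of_algebraMap_eq fun c => by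
    ext
    show algebraMap k C c = algebraMap FF C (algebraMap k' FF (algebraMap k k' c))
    rw [← IsScalarTower.algebraMap_apply k k' FF, ← IsScalarTower.algebraMap_apply k FF C]
  have hce : IsCE k k' K K' := by
    refine ⟨?_, h.hc⟩
    apply Subalgebra.map_injective (f := K'.val) Subtype.val_injective
    rw [AlgHom.map_adjoin, Algebra.map_top, ← Set.range_comp]
    have h1 : (K'.val ∘ (algebraMap k' K') : k' → C) = fun c : k' => algebraMap FF C (c : FF) := rfl
    rw [h1, ← IntermediateField.adjoin_toSubalgebra_of_isAlgebraic (fun x hx => by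
      obtain ⟨c, rfl⟩ := hx
      have h2 : IsAlgebraic k (algebraMap FF C (c : FF)) :=
        (Algebra.IsAlgebraic.isAlgebraic (R := k) (c : FF)).algHom (IsScalarTower.toAlgHom k FF C)
      exact h2.tower_top K)]
    ext x
    rw [AlgHom.mem_range]
    constructor
    · intro hx
      exact ⟨⟨x, hx⟩, rfl⟩
    · rintro ⟨y, rfl⟩
      exact y.2
  haveI := hce.finiteDimensional
  haveI := isSeparable_of_isCE hce
  obtain ⟨i1, i2, i3, i4, hX⟩ := exists_rat (k := k) (k' := k') (K := K) (K' := K')
  refine ⟨{ k' := k', K' := K', ce := hce, hX := hX }, inferInstanceAs (Algebra k' FF),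
    inferInstanceAs (Algebra K' C), ((algebraMap FF C).comp (algebraMap k' FF)).toAlgebra,
    inferInstanceAs (IsScalarTower k k' FF), ?_, ?_, inferInstanceAs (IsScalarTower K K' C), ?_⟩
  · exact @IsScalarTower.of_algebraMap_eq k' FF C _ _ _ _ _
      (((algebraMap FF C).comp (algebraMap k' FF)).toAlgebra) fun _ => rfl
  · exact @IsScalarTower.of_algebraMap_eq k' K' C _ _ _ _ _
      (((algebraMap FF C).comp (algebraMap k' FF)).toAlgebra) fun _ => rfl
  · intro s hs
    refine ⟨⟨s, ?_⟩, rfl⟩
    have h3 := hT s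
    refine (IntermediateField.adjoin_le_iff.mpr ?_) h3
    rintro _ ⟨c, hc, rfl⟩
    have hcU : c ∈ U := Finset.mem_biUnion.mpr ⟨s, hs, hc⟩
    exact hK' ⟨c, IntermediateField.subset_adjoin k _ hcU⟩

end levels

section places

variable {k : Type u} {FF : Type w} {K C : Type v} [Field k] [Field FF] [Field K] [Field C]
  [Algebra k FF] [Algebra k K] [Algebra FF C] [Algebra K C] [Algebra k C]
  [IsScalarTower k FF C] [IsScalarTower k K C] [Algebra.IsAlgebraic k FF]
  [Algebra.IsSeparable k FF]
  [Algebra (RatFunc k) K] [IsScalarTower k (RatFunc k) K] [FiniteDimensional (RatFunc k) K]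
  [Algebra.IsSeparable (RatFunc k) K]

/-- a place of `C` restricts to a place of `K`, unramified -/
theorem exists_resC (h : IsCE k FF K C) (Q : Pl FF C) :
    ∃ P : Pl k K, ∀ f : K, P.v f = Q.v (algebraMap K C f) := by
  classical
  obtain ⟨t, ht0, ht⟩ := exists_v_eq Q (-1)
  obtain ⟨E, _, _, _, _, _, _, _, hE⟩ := exists_level h {t}
  obtain ⟨t', ht'⟩ := hE t (by simp)
  let P' : Pl E.k' E.K' :=
    { v := Q.v.comap (algebraMap E.K' C)
      const := fun c hc => by
        rw [Valuation.comap_apply, ← IsScalarTower.algebraMap_apply E.k' E.K' C,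
          IsScalarTower.algebraMap_apply E.k' FF C]
        exact Q.const _ (by simpa using hc)
      surj := fun y => by
        by_cases hy : y = 0
        · exact ⟨0, by rw [map_zero, hy]⟩
        · refine ⟨t' ^ (-(log y)), ?_⟩
          rw [Valuation.comap_apply, map_zpow₀, ht', map_zpow₀, ht, ← exp_zsmul, smul_eq_mul,
            neg_mul_neg, mul_one, exp_log hy] }
  refine ⟨res k K P', fun f => ?_⟩
  rw [res_v E.ce, IsScalarTower.algebraMap_apply K E.K' C]
  rfl

/-- restriction of places -/
noncomputable def resC (h : IsCE k FF K C) (Q : Pl FF C) : Pl k K := (exists_resC h Q).choose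

theorem resC_v (h : IsCE k FF K C) (Q : Pl FF C) (f : K) :
    (resC h Q).v f = Q.v (algebraMap K C f) := (exists_resC h Q).choose_spec f

theorem resC_eq_iff (h : IsCE k FF K C) {Q : Pl FF C} {P : Pl k K} :
    resC h Q = P ↔ ∀ f : K, P.v f = Q.v (algebraMap K C f) := by
  constructor
  · rintro rfl f; exact resC_v h Q f
  · intro hf
    apply Pl.ext
    ext f
    rw [resC_v, hf]

/-- constants -/
theorem not_isAlgebraic_algebraMap {f : K} (hf : ¬ IsAlgebraic k f) :
    ¬ IsAlgebraic FF (algebraMap K C f) := by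
  intro h
  have h1 : IsAlgebraic k (algebraMap K C f) := h.restrictScalars k
  exact hf ((isAlgebraic_algebraMap_iff (algebraMap K C).injective).mp h1)

theorem not_isAlgebraic_of_pole {P : Pl k K} {f : K} (hf : 1 < P.v f) : ¬ IsAlgebraic k f := by
  intro h2
  have h3 : P.v f ≤ 1 := le_one_of_integral (S := k) P.v (fun c => by
    by_cases hc : c = 0
    · simp [hc]
    · rw [P.const c hc]) h2.isIntegral
  exact absurd hf (not_lt.mpr h3)

variable [Algebra (RatFunc FF) C] [IsScalarTower FF (RatFunc FF) C]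
  [FiniteDimensional (RatFunc FF) C] [Algebra.IsSeparable (RatFunc FF) C]

theorem resC_surjective (h : IsCE k FF K C) : Function.Surjective (resC h) := by
  intro P
  obtain ⟨f, hf, hf'⟩ := CntA3_560.exists_only_pole P
  obtain ⟨Q, hQ⟩ := exists_gt_of (not_isAlgebraic_algebraMap (FF := FF) (C := C)
    (not_isAlgebraic_of_pole hf))
  refine ⟨Q, ?_⟩
  by_contra hne
  have h1 := hf' _ hne
  rw [resC_v] at h1
  exact absurd hQ (not_lt.mpr h1)

theorem finite_fibre (h : IsCE k FF K C) (P : Pl k K) : {Q : Pl FF C | resC h Q = P}.Finite := by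
  obtain ⟨f, hf, hf'⟩ := CntA3_560.exists_only_pole P
  have hf0 : algebraMap K C f ≠ 0 := by
    rw [ne_eq, FaithfulSMul.algebraMap_eq_zero_iff]
    rintro rfl
    rw [map_zero] at hf
    exact absurd hf (not_lt.mpr zero_le_one)
  refine (finite_ne_one (k := FF) hf0).subset ?_
  rintro Q rfl
  simp only [Set.mem_ofPred_eq]
  rw [resC_v] at hf
  exact hf.ne'

/-- the conorm of a divisor -/
noncomputable def conC (h : IsCE k FF K C) (D : Pl k K →₀ ℤ) : Pl FF C →₀ ℤ :=
  Finsupp.ofSupportFinite (fun Q => D (resC h Q)) (by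
    have h1 : (⋃ P ∈ D.support, {Q : Pl FF C | resC h Q = P}).Finite :=
      Set.Finite.biUnion (Finset.finite_toSet _) fun P _ => finite_fibre h P
    refine h1.subset ?_
    intro Q hQ
    simp only [Function.mem_support] at hQ
    simp only [Set.mem_iUnion, Set.mem_ofPred_eq, exists_prop, exists_eq_right']
    exact Finsupp.mem_support_iff.mpr hQ)

theorem conC_apply (h : IsCE k FF K C) (D : Pl k K →₀ ℤ) (Q : Pl FF C) :
    conC h D Q = D (resC h Q) := rfl

theorem conC_nsmul (h : IsCE k FF K C) (n : ℕ) (D : Pl k K →₀ ℤ) :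
    conC h (n • D) = n • conC h D := by
  ext Q
  rw [conC_apply, Finsupp.smul_apply, Finsupp.smul_apply, conC_apply]


theorem conC_divf (h : IsCE k FF K C) {f : K} (hf : f ≠ 0) :
    conC h (divf (k := k) f) = divf (algebraMap K C f) := by
  have hf' : algebraMap K C f ≠ 0 := by simpa using hf
  ext Q
  have h1 := v_eq hf' Q
  have h2 := v_eq hf (resC h Q)
  rw [resC_v, h1, exp_inj] at h2
  rw [conC_apply]
  omega

theorem algebraMap_mem_V0 (h : IsCE k FF K C) {y f : K} {D : Pl k K →₀ ℤ} :
    algebraMap K C f ∈ V0 (algebraMap K C y) (conC h D) ↔ f ∈ V0 y D := by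
  rw [mem_V0, mem_V0]
  constructor
  · intro hf P hP
    obtain ⟨Q, rfl⟩ := resC_surjective h P
    rw [resC_v] at hP ⊢
    exact hf Q hP
  · intro hf Q hQ
    rw [conC_apply, ← resC_v h]
    exact hf _ (by rw [resC_v]; exact hQ)

theorem algebraMap_mem_V1 (h : IsCE k FF K C) {y f : K} {D : Pl k K →₀ ℤ} :
    algebraMap K C f ∈ V1 (algebraMap K C y) (conC h D) ↔ f ∈ V1 y D := by
  rw [mem_V1, mem_V1]
  constructor
  · intro hf P hP
    obtain ⟨Q, rfl⟩ := resC_surjective h P
    rw [resC_v] at hP ⊢
    exact hf Q hP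
  · intro hf Q hQ
    rw [conC_apply, ← resC_v h]
    exact hf _ (by rw [resC_v]; exact hQ)

theorem algebraMap_mem_LD (h : IsCE k FF K C) {f : K} {D : Pl k K →₀ ℤ} :
    algebraMap K C f ∈ LD (conC h D) ↔ f ∈ LD D := by
  rw [mem_LD, mem_LD]
  constructor
  · intro hf P
    obtain ⟨Q, rfl⟩ := resC_surjective h P
    rw [resC_v]
    exact hf Q
  · intro hf Q
    rw [conC_apply, ← resC_v h]
    exact hf _

/-- the upper half of a finite level is a constant extension -/
theorem isCE_upper (h : IsCE k FF K C) (E : CExt.{u, v, w} k K) [Algebra E.k' FF]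
    [Algebra E.K' C] [Algebra E.k' C] [IsScalarTower k E.k' FF] [IsScalarTower E.k' FF C]
    [IsScalarTower E.k' E.K' C] [IsScalarTower K E.K' C] : IsCE E.k' FF E.K' C where
  gen := by
    rw [eq_top_iff]
    intro x hx0
    have hx : x ∈ Algebra.adjoin K (Set.range (algebraMap FF C)) := by rw [h.gen]; trivial
    clear hx0
    induction hx using Algebra.adjoin_induction with
    | mem x hx => exact Algebra.subset_adjoin hx
    | algebraMap y =>
      rw [IsScalarTower.algebraMap_apply K E.K' C]
      exact Subalgebra.algebraMap_mem _ _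
    | add a b _ _ ha hb => exact add_mem ha hb
    | mul a b _ _ ha hb => exact mul_mem ha hb
  hc := E.ce.hc'

theorem conC_con (h : IsCE k FF K C) (E : CExt.{u, v, w} k K) [Algebra E.k' FF]
    [Algebra E.K' C] [Algebra E.k' C] [IsScalarTower k E.k' FF] [IsScalarTower E.k' FF C]
    [IsScalarTower E.k' E.K' C] [IsScalarTower K E.K' C] [Algebra.IsAlgebraic E.k' FF]
    [Algebra.IsSeparable E.k' FF] (h' : IsCE E.k' FF E.K' C) (D : Pl k K →₀ ℤ) :
    conC h' (con E.k' E.K' D) = conC h D := by
  ext Q
  rw [conC_apply, conC_apply, con_apply]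
  congr 1
  symm
  rw [resC_eq_iff]
  intro f
  rw [res_v E.ce, resC_v, ← IsScalarTower.algebraMap_apply]

/-- injectivity of Frobenius on `H¹` passes to `C` -/
theorem FInj.conC (p : ℕ) [hp : Fact p.Prime] [CharP K p] (h : IsCE k FF K C) {y : K}
    {D : Pl k K →₀ ℤ} (hF : FInj p y D) : FInj p (algebraMap K C y) (conC h D) := by
  classical
  intro x hx
  obtain ⟨a, ha, b, hb, hab⟩ := Submodule.mem_sup.mp hx
  obtain ⟨E, _, _, _, _, _, _, _, hE⟩ := exists_level h {x, a, b}
  haveI : Algebra.IsAlgebraic E.k' FF := Algebra.IsAlgebraic.tower_top (K := k) E.k'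
  haveI : Algebra.IsSeparable E.k' FF := Algebra.isSeparable_tower_top_of_isSeparable k E.k' FF
  have h' : IsCE E.k' FF E.K' C := isCE_upper h E
  obtain ⟨x', rfl⟩ := hE x (by simp)
  obtain ⟨a', rfl⟩ := hE a (by simp)
  obtain ⟨b', rfl⟩ := hE b (by simp)
  have hF' := FInj.con p E.ce hF
  have hxab : x' ^ p = a' + b' := by
    apply (algebraMap E.K' C).injective
    rw [map_pow, map_add]; exact hab.symm
  have ha' : a' ∈ V0 (algebraMap K E.K' y) (p • con E.k' E.K' D) := by
    rw [← algebraMap_mem_V0 h', ← IsScalarTower.algebraMap_apply, conC_nsmul, conC_con h E h']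
    exact ha
  have hb' : b' ∈ V1 (algebraMap K E.K' y) (p • con E.k' E.K' D) := by
    rw [← algebraMap_mem_V1 h', ← IsScalarTower.algebraMap_apply, conC_nsmul, conC_con h E h']
    exact hb
  have h1 := hF' x' (by rw [hxab]; exact Submodule.add_mem_sup ha' hb')
  obtain ⟨c, hc, d, hd, hcd⟩ := Submodule.mem_sup.mp h1
  rw [← hcd, map_add]
  apply Submodule.add_mem_sup
  · have := (algebraMap_mem_V0 h').mpr hc
    rw [← IsScalarTower.algebraMap_apply, conC_con h E h'] at this
    exact this
  · have := (algebraMap_mem_V1 h').mpr hd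
    rw [← IsScalarTower.algebraMap_apply, conC_con h E h'] at this
    exact this

/-- `L(D) = 0` passes to `C` -/
theorem LD_conC_eq_bot (h : IsCE k FF K C) {D : Pl k K →₀ ℤ} (hD : LD D = ⊥) :
    LD (conC h D) = ⊥ := by
  classical
  rw [eq_bot_iff]
  intro x hx
  obtain ⟨E, _, _, _, _, _, _, _, hE⟩ := exists_level h {x}
  haveI : Algebra.IsAlgebraic E.k' FF := Algebra.IsAlgebraic.tower_top (K := k) E.k'
  haveI : Algebra.IsSeparable E.k' FF := Algebra.isSeparable_tower_top_of_isSeparable k E.k' FF
  have h' : IsCE E.k' FF E.K' C := isCE_upper h E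
  obtain ⟨x', rfl⟩ := hE x (by simp)
  rw [← conC_con h E h', algebraMap_mem_LD, mem_LD_con E.ce (Module.finBasis k E.k')] at hx
  have h1 : x' = 0 := by
    apply (E.ce.basis (Module.finBasis k E.k')).repr.injective
    rw [map_zero]
    ext i
    have := hx i
    rw [hD, Submodule.mem_bot] at this
    rw [this]; rfl
  rw [h1, map_zero]
  exact Submodule.zero_mem _

end places

end Crest.Agent.R013.CntF3_398
end

-- ▼ part R013/CntF4_398
section

/-!
# R013 / CNT-F4: transfer of COUNT from a finite level to the algebraic closure (helper398)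
-/

set_option autoImplicit false
set_option linter.all false

namespace Crest.Agent.R013.CntF4_398

open Polynomial WithZero Module
open Crest.Agent.R013.RR1_948 Crest.Agent.R013.RR7_948 Crest.Agent.R013.RR8_948
open Crest.Agent.R013.RR9_948 Crest.Agent.R013.RR11_948 Crest.Agent.R013.RR12_948
open Crest.Agent.R013.RR13_948 Crest.Agent.R013.RR14_948 Crest.Agent.R013.RR18_948
open Crest.Agent.R013.PicD_398
open Crest.Agent.R013.CntF1_398 Crest.Agent.R013.CntF2_398 Crest.Agent.R013.CntF3_398
open Crest.Agent.R013.CntB1_491 Crest.Agent.R013.CntB2_491 Crest.Agent.R013.CntB3_491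
open Crest.Agent.R013.CntB7_491

universe u v w

section out

variable {k : Type*} [Field k] {K : Type*} [Field K] [Algebra k K] [Algebra (RatFunc k) K]
  [IsScalarTower k (RatFunc k) K] [FiniteDimensional (RatFunc k) K]
  [Algebra.IsSeparable (RatFunc k) K]

variable (k K) in
/-- the output of the count over a finite field -/
def Out (p : ℕ) : Prop :=
  ∃ (N : ℕ) (E : Pl k K →₀ ℤ) (u : K), 2 ≤ N ∧ N.Coprime p ∧ u ≠ 0 ∧
    divf (k := k) u = N • E ∧ (∀ m : ℕ, cls (m • E) = 0 → N ∣ m) ∧
    ∀ j : ℕ, FInj p (xK k K) (-(p ^ j • E))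

theorem degD_nsmul (n : ℕ) (D : Pl k K →₀ ℤ) : degD (n • D) = n * degD D := by
  induction n with
  | zero => rw [zero_smul, degD_zero]; simp
  | succ n ih => rw [succ_nsmul, degD_add, ih]; push_cast; ring

/-- degree of a torsion divisor -/
theorem degD_eq_zero_of_nsmul {N : ℕ} (hN : N ≠ 0) {E : Pl k K →₀ ℤ} {u : K} (hu : u ≠ 0)
    (h : divf (k := k) u = N • E) : degD E = 0 := by
  have h1 := degD_divf (k := k) hu
  rw [h, degD_nsmul] at h1
  rcases mul_eq_zero.mp h1 with h2 | h2
  · exact absurd (by exact_mod_cast h2) hN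
  · exact h2

theorem LD_eq_bot_of {D : Pl k K →₀ ℤ} (hd : degD D = 0) (hc : cls D ≠ 0) : LD D = ⊥ := by
  haveI := LD_finite D
  by_contra h
  apply hc
  apply ell_pos_deg_zero hd
  unfold ell
  rw [Module.finrank_pos_iff]
  exact Submodule.nontrivial_iff_ne_bot.mpr h

end out

section transfer

variable {k : Type u} {FF : Type w} {K C : Type v} [Field k] [Field FF] [Field K] [Field C]
  [Algebra k FF] [Algebra k K] [Algebra FF C] [Algebra K C] [Algebra k C]
  [IsScalarTower k FF C] [IsScalarTower k K C] [Algebra.IsAlgebraic k FF]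
  [Algebra.IsSeparable k FF]
  [Algebra (RatFunc k) K] [IsScalarTower k (RatFunc k) K] [FiniteDimensional (RatFunc k) K]
  [Algebra.IsSeparable (RatFunc k) K]
  [Algebra (RatFunc FF) C] [IsScalarTower FF (RatFunc FF) C]
  [FiniteDimensional (RatFunc FF) C] [Algebra.IsSeparable (RatFunc FF) C]

theorem cls_conC_eq_zero (h : IsCE k FF K C) {D : Pl k K →₀ ℤ} (hd : degD D = 0)
    (hc : cls (conC h D) = 0) : cls D = 0 := by
  by_contra hne
  have h1 := LD_conC_eq_bot h (LD_eq_bot_of hd hne)
  have h2 := ell_pos_of_cls_eq_zero hc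
  unfold ell at h2
  rw [h1] at h2
  simp at h2

/-- **transfer of COUNT to the algebraic closure** -/
theorem transfer [PerfectField FF] (p : ℕ) [hp : Fact p.Prime] [CharP K p]
    (h : IsCE k FF K C) (hout : Out k K p) :
    ∃ (N : ℕ) (E : Pl FF C →₀ ℤ) (u : C), 2 ≤ N ∧ N.Coprime p ∧ u ≠ 0 ∧
      divf (k := FF) u = N • E ∧ (∀ m : ℕ, cls (m • E) = 0 → N ∣ m) ∧
      ∀ (j : ℕ) (f : C), (∀ (P : Pl FF C) (t : C), P.v t = exp (-1) →
        P.v (del FF C f) ≤ P.v (del FF C t) * exp (-(p ^ (j + 1) * E P))) → del FF C f = 0 := by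
  obtain ⟨N, E, u, hN, hNp, hu, hdiv, hord, hF⟩ := hout
  haveI : CharP C p :=
    (RingHom.charP_iff (algebraMap K C) (algebraMap K C).injective p).mp inferInstance
  have hE0 : degD E = 0 := degD_eq_zero_of_nsmul (by omega) hu hdiv
  refine ⟨N, conC h E, algebraMap K C u, hN, hNp, by simpa using hu, ?_, ?_, ?_⟩
  · rw [← conC_divf h hu, hdiv, conC_nsmul]
  · intro m hm
    apply hord
    rw [← conC_nsmul] at hm
    exact cls_conC_eq_zero h (by rw [degD_nsmul, hE0, mul_zero]) hm
  · intro j f hf
    have hy : ¬ IsAlgebraic FF (algebraMap K C (xK k K)) :=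
      not_isAlgebraic_algebraMap (RR20_948.transcendental_xK)
    refine diff_del_V p hy (conC h (-(p ^ j • E))) ?_ (FInj.conC p h (hF j)) ?_
    · rw [← conC_nsmul]
      apply LD_conC_eq_bot
      apply LD_eq_bot_of
      · rw [degD_nsmul, degD_neg, degD_nsmul, hE0]; simp
      · intro hc
        have h1 : cls ((p ^ (j + 1)) • E) = 0 := by
          have h2 : p • -(p ^ j • E) = -((p ^ (j + 1)) • E) := by
            rw [smul_neg, smul_smul, pow_succ']
          rw [h2, map_neg, neg_eq_zero] at hc
          exact hc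
        have h3 := hord _ h1
        have h5 : Nat.Coprime N (p ^ (j + 1)) := Nat.Coprime.pow_right _ hNp
        have h6 : N = 1 := Nat.Coprime.eq_one_of_dvd h5 h3
        omega
    · intro P t ht
      have h1 := hf P t ht
      have h2 : (p : ℤ) * conC h (-(p ^ j • E)) P = -(p ^ (j + 1) * conC h E P) := by
        rw [conC_apply, conC_apply, Finsupp.neg_apply, Finsupp.smul_apply, nsmul_eq_mul]
        push_cast
        ring
      rw [h2]
      exact h1

end transfer

end Crest.Agent.R013.CntF4_398
end

-- ▼ part R013/CntF5_398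
section

/-!
# R013 / CNT-F5: a function field over an algebraic closure of a finite field comes from a
finite field (helper398)
-/

set_option autoImplicit false
set_option linter.all false

namespace Crest.Agent.R013.CntF5_398

open Polynomial WithZero Module
open Crest.Agent.R013.RR1_948 Crest.Agent.R013.RR7_948 Crest.Agent.R013.RR8_948
open Crest.Agent.R013.RR9_948 Crest.Agent.R013.RR11_948 Crest.Agent.R013.RR12_948
open Crest.Agent.R013.RR13_948 Crest.Agent.R013.RR14_948 Crest.Agent.R013.RR18_948
open Crest.Agent.R013.CntB1_491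

universe u v w

section rat

variable {k FF : Type*} [Field k] [Field FF] [Algebra k FF]

variable (k FF) in
/-- `k(X) → F(X)` -/
noncomputable def jj : RatFunc k →+* RatFunc FF := RatFunc.liftRingHom
    ((algebraMap FF[X] (RatFunc FF)).comp (Polynomial.mapRingHom (algebraMap k FF)))
    (nonZeroDivisors_le_comap_nonZeroDivisors_of_injective _
      ((RatFunc.algebraMap_injective FF).comp
        (Polynomial.map_injective _ (algebraMap k FF).injective)))

theorem jj_poly (p : k[X]) : jj k FF (algebraMap k[X] (RatFunc k) p)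
    = algebraMap FF[X] (RatFunc FF) (p.map (algebraMap k FF)) :=
  RatFunc.liftRingHom_algebraMap _ _ p

theorem jj_C (c : k) : jj k FF (algebraMap k (RatFunc k) c)
    = algebraMap FF (RatFunc FF) (algebraMap k FF c) := by
  rw [RatFunc.algebraMap_eq_C, ← RatFunc.algebraMap_C, jj_poly, Polynomial.map_C,
    RatFunc.algebraMap_C, ← RatFunc.algebraMap_eq_C]

theorem jj_X : jj k FF RatFunc.X = RatFunc.X := by
  rw [← RatFunc.algebraMap_X, jj_poly, Polynomial.map_X, RatFunc.algebraMap_X]

/-- a rational function with coefficients in `k` -/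
theorem mem_range_jj {r : RatFunc FF}
    (h1 : ∀ n, r.num.coeff n ∈ Set.range (algebraMap k FF))
    (h2 : ∀ n, r.denom.coeff n ∈ Set.range (algebraMap k FF)) : r ∈ Set.range (jj k FF) := by
  have e1 : r.num ∈ lifts (algebraMap k FF) := (lifts_iff_coeff_lifts _).mpr h1
  have e2 : r.denom ∈ lifts (algebraMap k FF) := (lifts_iff_coeff_lifts _).mpr h2
  obtain ⟨a, ha⟩ := (mem_lifts _).mp e1
  obtain ⟨b, hb⟩ := (mem_lifts _).mp e2
  refine ⟨algebraMap k[X] (RatFunc k) a / algebraMap k[X] (RatFunc k) b, ?_⟩
  rw [map_div₀, jj_poly, jj_poly, ha, hb, RatFunc.num_div_denom]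

/-- a rational function over `k` which is constant over `F` is a constant of `k` -/
theorem eq_C_of_jj [Algebra.IsAlgebraic k FF] {r : RatFunc k} {c : FF}
    (h : jj k FF r = algebraMap FF (RatFunc FF) c) : ∃ a : k, r = algebraMap k (RatFunc k) a := by
  by_contra hcon
  have hne : ¬ ∃ a : k, r = RatFunc.C a := by
    rintro ⟨a, ha⟩
    exact hcon ⟨a, by rw [ha, RatFunc.algebraMap_eq_C]⟩
  have htr := r.transcendental_of_ne_C hne
  apply htr
  obtain ⟨f, hf0, hf⟩ := Algebra.IsAlgebraic.isAlgebraic (R := k) c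
  refine ⟨f, hf0, ?_⟩
  apply (jj k FF).injective
  rw [map_zero, aeval_def, hom_eval₂]
  have e1 : (jj k FF).comp (algebraMap k (RatFunc k))
      = (algebraMap FF (RatFunc FF)).comp (algebraMap k FF) := by
    ext a; exact jj_C a
  rw [e1, h, ← hom_eval₂]
  rw [aeval_def] at hf
  rw [hf, map_zero]

end rat

section descend

/-- descent to a field of constants containing the coefficients of a primitive element -/
theorem descend_aux {k FF : Type w} {L : Type v} [Field k] [Field FF] [Field L] [Algebra k FF]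
    [Algebra.IsAlgebraic k FF] [IsAlgClosed FF] [Algebra FF L] [Algebra k L]
    [IsScalarTower k FF L]
    [Algebra (RatFunc FF) L] [IsScalarTower FF (RatFunc FF) L]
    [FiniteDimensional (RatFunc FF) L] [Algebra.IsSeparable (RatFunc FF) L]
    {θ : L} (hθ : IntermediateField.adjoin (RatFunc FF) {θ} = ⊤)
    (hcoef : ∀ i, (minpoly (RatFunc FF) θ).coeff i ∈ Set.range (jj k FF)) :
    ∃ (K : Type v) (_ : Field K)
      (_ : Algebra k K) (_ : Algebra K L) 
      (_ : IsScalarTower k K L) (_ : Algebra (RatFunc k) K) (_ : IsScalarTower k (RatFunc k) K)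
      (_ : FiniteDimensional (RatFunc k) K) (_ : Algebra.IsSeparable (RatFunc k) K),
      IsCE k FF K L ∧ xK FF L = algebraMap K L (xK k K) := by
  classical
  set f := minpoly (RatFunc FF) θ with hf
  have hθi : IsIntegral (RatFunc FF) θ := Algebra.IsIntegral.isIntegral θ
  have hlift : f ∈ lifts (jj k FF) := (lifts_iff_coeff_lifts _).mpr hcoef
  obtain ⟨g, hg, hgdeg, hgm⟩ := lifts_and_natDegree_eq_and_monic hlift (minpoly.monic hθi)
  -- the algebra structures
  letI aC : Algebra (RatFunc k) L := ((algebraMap (RatFunc FF) L).comp (jj k FF)).toAlgebra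
  haveI t2 : IsScalarTower k (RatFunc k) L := IsScalarTower.of_algebraMap_eq fun c => by
    show algebraMap k L c = algebraMap (RatFunc FF) L (jj k FF _)
    rw [jj_C, ← IsScalarTower.algebraMap_apply, ← IsScalarTower.algebraMap_apply]
  have hg0 : aeval θ g = 0 := by
    have h1 : aeval θ f = 0 := minpoly.aeval _ _
    rw [← hg, aeval_def, eval₂_map] at h1
    exact h1
  have hθk : IsIntegral (RatFunc k) θ := ⟨g, hgm, hg0⟩
  have hgmin : minpoly (RatFunc k) θ = g := by
    symm
    apply minpoly.unique _ _ hgm hg0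
    intro q hq hq0
    have h1 : aeval θ (q.map (jj k FF)) = 0 := by
      rw [aeval_def, eval₂_map]; exact hq0
    have h2 : f.degree ≤ (q.map (jj k FF)).degree :=
      minpoly.min _ _ (hq.map _) h1
    rw [degree_map, ← hg, degree_map] at h2
    exact h2
  have hsep : IsSeparable (RatFunc k) θ := by
    unfold IsSeparable
    rw [hgmin, ← Polynomial.separable_map (jj k FF), hg]
    exact Algebra.IsSeparable.isSeparable (RatFunc FF) θ
  let K : IntermediateField (RatFunc k) L := IntermediateField.adjoin (RatFunc k) {θ}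
  haveI f1 : FiniteDimensional (RatFunc k) K := IntermediateField.adjoin.finiteDimensional hθk
  haveI f2 : Algebra.IsSeparable (RatFunc k) K :=
    (IntermediateField.isSeparable_adjoin_simple_iff_isSeparable _ _).mpr hsep
  have hθK : θ ∈ K := IntermediateField.mem_adjoin_simple_self _ θ
  letI akK : Algebra k K := ((algebraMap (RatFunc k) K).comp (algebraMap k (RatFunc k))).toAlgebra
  haveI t3 : IsScalarTower k (RatFunc k) K := IsScalarTower.of_algebraMap_eq fun _ => rfl
  haveI t4 : IsScalarTower k K L := IsScalarTower.of_algebraMap_eq fun c => by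
    show algebraMap k L c = algebraMap (RatFunc k) L (algebraMap k (RatFunc k) c)
    exact IsScalarTower.algebraMap_apply k (RatFunc k) L c
  -- constants of `K`
  have hc : algebraicClosure k K = ⊥ := by
    rw [eq_bot_iff]
    intro a ha
    rw [mem_algebraicClosure_iff] at ha
    -- `a` is a constant `c` of `F`
    obtain ⟨c, hc⟩ : ∃ c : FF, algebraMap FF L c = (a : L) := by
      have h1 : IsAlgebraic k (algebraMap K L a) := ha.algebraMap
      have h2 : IsAlgebraic FF (a : L) := h1.tower_top FF
      have h3 : (a : L) ∈ algebraicClosure FF L := mem_algebraicClosure_iff.mpr h2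
      obtain ⟨c, hc⟩ := (IsAlgClosed.algebraMap_bijective_of_isIntegral
        (k := FF) (K := algebraicClosure FF L)).2 ⟨(a : L), h3⟩
      refine ⟨c, ?_⟩
      have := congrArg (fun z : algebraicClosure FF L => (z : L)) hc
      exact this
    -- expand in powers of `θ`
    obtain ⟨P, hP, hPa⟩ : ∃ P : (RatFunc k)[X], P.degree < g.degree ∧
        aeval θ P = (a : L) := by
      have h1 : (a : L) ∈ Algebra.adjoin (RatFunc k) {θ} := by
        rw [← IntermediateField.adjoin_simple_toSubalgebra_of_isAlgebraic hθk.isAlgebraic]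
        exact a.2
      rw [Algebra.adjoin_singleton_eq_range_aeval] at h1
      obtain ⟨Q, hQ⟩ := h1
      have hQ' : aeval θ Q = (a : L) := hQ
      refine ⟨Q %ₘ g, Polynomial.degree_modByMonic_lt Q hgm, ?_⟩
      rw [← hQ', Polynomial.aeval_modByMonic_eq_self_of_root hg0]
    have hg1 : 0 < g.degree := by
      rw [← Polynomial.degree_map g (jj k FF), hg]
      exact minpoly.degree_pos hθi
    have h2 : P.map (jj k FF) = C (algebraMap FF (RatFunc FF) c) := by
      by_contra hne
      have h3 : aeval θ (P.map (jj k FF) - C (algebraMap FF (RatFunc FF) c)) = 0 := by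
        rw [map_sub, aeval_C, ← IsScalarTower.algebraMap_apply, hc, sub_eq_zero, ← hPa,
          aeval_def, eval₂_map]
        rfl
      have h4 := minpoly.degree_le_of_ne_zero (RatFunc FF) θ (sub_ne_zero.mpr hne) h3
      have h5 : (P.map (jj k FF) - C (algebraMap FF (RatFunc FF) c)).degree < g.degree := by
        refine lt_of_le_of_lt (Polynomial.degree_sub_le _ _) (max_lt ?_ ?_)
        · rw [degree_map]; exact hP
        · exact lt_of_le_of_lt Polynomial.degree_C_le hg1
      rw [← hf, ← hg, degree_map] at h4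
      exact absurd h5 (not_lt.mpr h4)
    have h3 : jj k FF (P.coeff 0) = algebraMap FF (RatFunc FF) c := by
      have := congrArg (fun q => q.coeff 0) h2
      simp only [coeff_map, coeff_C_zero] at this
      exact this
    obtain ⟨b, hb⟩ := eq_C_of_jj h3
    rw [IntermediateField.mem_bot]
    refine ⟨b, ?_⟩
    apply Subtype.ext
    rw [hb, jj_C] at h3
    have h5 : algebraMap k FF b = c := (algebraMap FF (RatFunc FF)).injective h3
    have h6 : (algebraMap K L) (algebraMap k K b) = algebraMap k L b :=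
      (IsScalarTower.algebraMap_apply k K L b).symm
    show (algebraMap K L) (algebraMap k K b) = (a : L)
    rw [h6, IsScalarTower.algebraMap_apply k FF L, h5, hc]
  refine ⟨K, inferInstance, akK, inferInstance, t4, inferInstance, t3, f1, f2, ⟨?_, hc⟩, ?_⟩
  · -- generation
    have hrange : ∀ x ∈ Set.range (algebraMap FF L), IsAlgebraic K x := by
      rintro _ ⟨c, rfl⟩
      have h1 : IsAlgebraic k (algebraMap FF L c) :=
        (Algebra.IsAlgebraic.isAlgebraic (R := k) c).algHom (IsScalarTower.toAlgHom k FF L)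
      exact h1.tower_top K
    rw [← IntermediateField.adjoin_toSubalgebra_of_isAlgebraic hrange]
    set M := IntermediateField.adjoin K (Set.range (algebraMap FF L)) with hM
    have hFM : ∀ c : FF, algebraMap FF L c ∈ M := fun c =>
      IntermediateField.subset_adjoin K _ ⟨c, rfl⟩
    have hKM : ∀ x : K, (x : L) ∈ M := fun x => IntermediateField.algebraMap_mem M x
    have hxM : xK FF L ∈ M := by
      have h1 : xK FF L = algebraMap (RatFunc k) L RatFunc.X := by
        show algebraMap (RatFunc FF) L RatFunc.X = algebraMap (RatFunc FF) L (jj k FF RatFunc.X)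
        rw [jj_X]
      rw [h1]
      exact hKM (algebraMap (RatFunc k) K RatFunc.X)
    have hpoly : ∀ q : FF[X], algebraMap (RatFunc FF) L (algebraMap FF[X] (RatFunc FF) q) ∈ M := by
      intro q
      rw [RR15_948.algebraMap_poly, aeval_eq_sum_range]
      refine sum_mem fun i _ => ?_
      rw [Algebra.smul_def]
      exact mul_mem (hFM _) (pow_mem hxM _)
    have hrat : ∀ r : RatFunc FF, algebraMap (RatFunc FF) L r ∈ M := by
      intro r
      rw [← RatFunc.num_div_denom r, map_div₀]
      exact div_mem (hpoly _) (hpoly _)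
    have htop : M = ⊤ := by
      rw [eq_top_iff]
      intro x _
      have hx : x ∈ IntermediateField.adjoin (RatFunc FF) {θ} := by rw [hθ]; trivial
      let M' : IntermediateField (RatFunc FF) L :=
        { M.toSubfield with
          algebraMap_mem' := hrat }
      have h1 : IntermediateField.adjoin (RatFunc FF) {θ} ≤ M' := by
        rw [IntermediateField.adjoin_le_iff, Set.singleton_subset_iff]
        exact hKM ⟨θ, hθK⟩
      exact h1 hx
    rw [htop]
    rfl
  · show algebraMap (RatFunc FF) L RatFunc.X = algebraMap (RatFunc FF) L (jj k FF RatFunc.X)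
    rw [jj_X]

/-- descent of `L/F` to a finite field -/
theorem descend (p : ℕ) [hp : Fact p.Prime] {FF : Type w} {L : Type v} [Field FF] [Field L]
    [Algebra (ZMod p) FF] [Algebra.IsAlgebraic (ZMod p) FF] [IsAlgClosed FF] [Algebra FF L]
    [Algebra (RatFunc FF) L] [IsScalarTower FF (RatFunc FF) L]
    [FiniteDimensional (RatFunc FF) L] [Algebra.IsSeparable (RatFunc FF) L] :
    ∃ (k : Type w) (K : Type v) (_ : Field k) (_ : Field K) (_ : Finite k) (_ : Algebra k FF)
      (_ : Algebra k K) (_ : Algebra K L) (_ : Algebra k L) (_ : IsScalarTower k FF L)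
      (_ : IsScalarTower k K L) (_ : Algebra (RatFunc k) K) (_ : IsScalarTower k (RatFunc k) K)
      (_ : FiniteDimensional (RatFunc k) K) (_ : Algebra.IsSeparable (RatFunc k) K)
      (_ : Algebra.IsAlgebraic k FF),
      IsCE k FF K L ∧ xK FF L = algebraMap K L (xK k K) := by
  classical
  obtain ⟨θ, hθ⟩ := Field.exists_primitive_element (RatFunc FF) L
  set f := minpoly (RatFunc FF) θ with hf
  -- the coefficients
  let T : Finset FF := (Finset.range (f.natDegree + 1)).biUnion fun i =>
    (f.coeff i).num.coeffs ∪ (f.coeff i).denom.coeffs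
  let k : IntermediateField (ZMod p) FF := IntermediateField.adjoin (ZMod p) (T : Set FF)
  haveI fk : FiniteDimensional (ZMod p) k :=
    IntermediateField.finiteDimensional_adjoin fun x _ => Algebra.IsIntegral.isIntegral x
  haveI fink : Finite k := Module.finite_of_finite (ZMod p)
  haveI halg : Algebra.IsAlgebraic k FF := Algebra.IsAlgebraic.tower_top (K := ZMod p) k
  have hcoef : ∀ i, f.coeff i ∈ Set.range (jj k FF) := by
    intro i
    by_cases hi : i ∈ Finset.range (f.natDegree + 1)
    · apply mem_range_jj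
      · intro n
        by_cases h0 : (f.coeff i).num.coeff n = 0
        · exact ⟨0, by rw [h0, map_zero]⟩
        · have h1 : (f.coeff i).num.coeff n ∈ T := by
            refine Finset.mem_biUnion.mpr ⟨i, hi, Finset.mem_union_left _ ?_⟩
            exact Polynomial.coeff_mem_coeffs h0
          exact ⟨⟨_, IntermediateField.subset_adjoin _ _ h1⟩, rfl⟩
      · intro n
        by_cases h0 : (f.coeff i).denom.coeff n = 0
        · exact ⟨0, by rw [h0, map_zero]⟩
        · have h1 : (f.coeff i).denom.coeff n ∈ T := by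
            refine Finset.mem_biUnion.mpr ⟨i, hi, Finset.mem_union_right _ ?_⟩
            exact Polynomial.coeff_mem_coeffs h0
          exact ⟨⟨_, IntermediateField.subset_adjoin _ _ h1⟩, rfl⟩
    · refine ⟨0, ?_⟩
      rw [Finset.mem_range, not_lt] at hi
      rw [map_zero, Polynomial.coeff_eq_zero_of_natDegree_lt (by omega)]
  obtain ⟨K, i1, i2, i3, i4, i5, i6, i7, i8, h⟩ := descend_aux (k := k) hθ hcoef
  exact ⟨k, K, inferInstance, i1, fink, inferInstance, i2, i3, inferInstance, inferInstance,
    i4, i5, i6, i7, i8, halg, h⟩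

end descend

end Crest.Agent.R013.CntF5_398
end

-- ▼ part R013/CntF6_398

/-!
# R013 / CNT-F6: a constant extension embeds in the constant extension to the algebraic closure;
COUNT follows from COUNT at some finite level (helper398)
-/

set_option autoImplicit false
set_option linter.all false

namespace Crest.Agent.R013.CntF6_398

open Polynomial WithZero Module
open Crest.Agent.R013.RR1_948 Crest.Agent.R013.RR7_948 Crest.Agent.R013.RR8_948
open Crest.Agent.R013.RR9_948 Crest.Agent.R013.RR11_948 Crest.Agent.R013.RR12_948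
open Crest.Agent.R013.RR13_948 Crest.Agent.R013.RR14_948 Crest.Agent.R013.RR18_948
open Crest.Agent.R013.PicD_398
open Crest.Agent.R013.CntF1_398 Crest.Agent.R013.CntF2_398 Crest.Agent.R013.CntF3_398
open Crest.Agent.R013.CntF4_398 Crest.Agent.R013.CntF5_398
open Crest.Agent.R013.CntB1_491 Crest.Agent.R013.CntB2_491 Crest.Agent.R013.CntB3_491
open Crest.Agent.R013.CntB7_491

universe u v w w'

section embed

variable {k : Type u} {FF : Type w} {K C : Type v} [Field k] [Field FF] [Field K] [Field C]
  [Algebra k FF] [Algebra k K] [Algebra FF C] [Algebra K C] [Algebra k C]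
  [IsScalarTower k FF C] [IsScalarTower k K C] [IsAlgClosed FF]
  [Algebra (RatFunc k) K] [IsScalarTower k (RatFunc k) K] [FiniteDimensional (RatFunc k) K]
  [Algebra.IsSeparable (RatFunc k) K]

/-- elements of `C` algebraic over `F` are constants -/
theorem exists_const {x : C} (hx : IsAlgebraic FF x) : ∃ c : FF, algebraMap FF C c = x := by
  have h3 : x ∈ algebraicClosure FF C := mem_algebraicClosure_iff.mpr hx
  obtain ⟨c, hc⟩ := (IsAlgClosed.algebraMap_bijective_of_isIntegral
    (k := FF) (K := algebraicClosure FF C)).2 ⟨x, h3⟩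
  refine ⟨c, ?_⟩
  have := congrArg (fun z : algebraicClosure FF C => (z : C)) hc
  exact this

/-- the upper half of a finite level is a constant extension -/
theorem isCE_upper' (h : IsCE k FF K C) (E : CExt.{u, v, w'} k K) [Algebra E.k' FF]
    [Algebra E.K' C] [Algebra E.k' C] [IsScalarTower k E.k' FF] [IsScalarTower E.k' FF C]
    [IsScalarTower E.k' E.K' C] [IsScalarTower K E.K' C] : IsCE E.k' FF E.K' C where
  gen := by
    rw [eq_top_iff]
    intro x hx0
    have hx : x ∈ Algebra.adjoin K (Set.range (algebraMap FF C)) := by rw [h.gen]; trivial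
    clear hx0
    induction hx using Algebra.adjoin_induction with
    | mem x hx => exact Algebra.subset_adjoin hx
    | algebraMap y =>
      rw [IsScalarTower.algebraMap_apply K E.K' C]
      exact Subalgebra.algebraMap_mem _ _
    | add a b _ _ ha hb => exact add_mem ha hb
    | mul a b _ _ ha hb => exact mul_mem ha hb
  hc := E.ce.hc'

theorem exists_embed (h : IsCE k FF K C) (E : CExt.{u, v, w'} k K) :
    ∃ (_ : Algebra E.k' FF) (_ : Algebra E.K' C) (_ : Algebra E.k' C)
      (_ : IsScalarTower k E.k' FF) (_ : IsScalarTower E.k' FF C) (_ : IsScalarTower E.k' E.K' C)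
      (_ : IsScalarTower K E.K' C), IsCE E.k' FF E.K' C := by
  classical
  obtain ⟨φ⟩ : Nonempty (E.K' →ₐ[K] C) := by
    apply IntermediateField.nonempty_algHom_of_adjoin_splits
      (S := Set.range (algebraMap E.k' E.K'))
    · rintro _ ⟨z, rfl⟩
      refine ⟨Algebra.IsIntegral.isIntegral _, ?_⟩
      rw [E.ce.minpoly_eq, Polynomial.map_map, ← IsScalarTower.algebraMap_eq k K C,
        IsScalarTower.algebraMap_eq k FF C, ← Polynomial.map_map]
      exact (IsAlgClosed.splits _).map _
    · rw [IntermediateField.adjoin_eq_top_iff_of_isAlgebraic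
        (fun x _ => Algebra.IsAlgebraic.isAlgebraic x)]
      exact E.ce.gen
  -- the constants
  have hc : ∀ c : E.k', ∃ d : FF, algebraMap FF C d = φ (algebraMap E.k' E.K' c) := by
    intro c
    apply exists_const
    have h1 : IsAlgebraic k (algebraMap E.k' E.K' c) :=
      (Algebra.IsAlgebraic.isAlgebraic (R := k) c).algHom (IsScalarTower.toAlgHom k E.k' E.K')
    have h2 : IsAlgebraic k (φ (algebraMap E.k' E.K' c)) :=
      h1.algHom (φ.restrictScalars k)
    exact h2.tower_top FF
  let R : Subring C := (algebraMap FF C).range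
  let e : FF ≃+* R := RingEquiv.ofBijective (algebraMap FF C).rangeRestrict
    ⟨fun a b hab => (algebraMap FF C).injective (congrArg Subtype.val hab),
      (algebraMap FF C).rangeRestrict_surjective⟩
  let ψ : E.k' →+* FF := (e.symm : R →+* FF).comp
    (((φ : E.K' →+* C).comp (algebraMap E.k' E.K')).codRestrict R (fun c => hc c))
  have hψ : ∀ c : E.k', algebraMap FF C (ψ c) = φ (algebraMap E.k' E.K' c) := by
    intro c
    have h1 : (e (ψ c) : C) = φ (algebraMap E.k' E.K' c) := by
      show ((e (e.symm _) : R) : C) = _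
      rw [RingEquiv.apply_symm_apply]
      rfl
    exact h1
  letI a1 : Algebra E.k' FF := ψ.toAlgebra
  letI a2 : Algebra E.K' C := (φ : E.K' →+* C).toAlgebra
  letI a3 : Algebra E.k' C := ((algebraMap FF C).comp (algebraMap E.k' FF)).toAlgebra
  haveI t2 : IsScalarTower E.k' FF C := IsScalarTower.of_algebraMap_eq fun _ => rfl
  haveI t3 : IsScalarTower E.k' E.K' C := IsScalarTower.of_algebraMap_eq fun c => hψ c
  haveI t4 : IsScalarTower K E.K' C := IsScalarTower.of_algebraMap_eq fun c =>
    (φ.commutes c).symm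
  haveI t1 : IsScalarTower k E.k' FF := IsScalarTower.of_algebraMap_eq fun c => by
    apply (algebraMap FF C).injective
    rw [← IsScalarTower.algebraMap_apply k FF C, ← IsScalarTower.algebraMap_apply E.k' FF C,
      IsScalarTower.algebraMap_apply E.k' E.K' C, ← IsScalarTower.algebraMap_apply k E.k' E.K',
      IsScalarTower.algebraMap_apply k K E.K', ← IsScalarTower.algebraMap_apply K E.K' C,
      ← IsScalarTower.algebraMap_apply k K C]
  exact ⟨a1, a2, a3, t1, t2, t3, t4, isCE_upper' h E⟩

end embed

/-- the output of the count over an algebraically closed field of constants -/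
def OutC (p : ℕ) (FF : Type*) (C : Type*) [Field FF] [Field C] [Algebra FF C]
    [Algebra (RatFunc FF) C] [IsScalarTower FF (RatFunc FF) C]
    [FiniteDimensional (RatFunc FF) C] [Algebra.IsSeparable (RatFunc FF) C] : Prop :=
  ∃ (N : ℕ) (E : Pl FF C →₀ ℤ) (u : C), 2 ≤ N ∧ N.Coprime p ∧ u ≠ 0 ∧
    divf (k := FF) u = N • E ∧ (∀ m : ℕ, cls (m • E) = 0 → N ∣ m) ∧
    ∀ (j : ℕ) (f : C), (∀ (P : Pl FF C) (t : C), P.v t = exp (-1) →
      P.v (del FF C f) ≤ P.v (del FF C t) * exp (-(p ^ (j + 1) * E P))) → del FF C f = 0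

section reduction

section ell

variable {k : Type u} {FF : Type w} {K C : Type v} [Field k] [Field FF] [Field K] [Field C]
  [Algebra k FF] [Algebra k K] [Algebra FF C] [Algebra K C] [Algebra k C]
  [IsScalarTower k FF C] [IsScalarTower k K C] [Algebra.IsAlgebraic k FF]
  [Algebra.IsSeparable k FF]
  [Algebra (RatFunc k) K] [IsScalarTower k (RatFunc k) K] [FiniteDimensional (RatFunc k) K]
  [Algebra.IsSeparable (RatFunc k) K]

/-- `K` and `F` are linearly disjoint over `k` -/
theorem linearIndependent_map (h : IsCE k FF K C) {ι : Type*} [Fintype ι] {v : ι → K}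
    (hv : LinearIndependent k v) : LinearIndependent FF (fun i => algebraMap K C (v i)) := by
  classical
  rw [Fintype.linearIndependent_iff]
  intro c hc i
  obtain ⟨E, _, _, _, _, _, _, _, hE⟩ :=
    exists_level h (Finset.univ.image fun i => algebraMap FF C (c i))
  haveI : Algebra.IsAlgebraic E.k' FF := Algebra.IsAlgebraic.tower_top (K := k) E.k'
  have hx' : ∀ i, ∃ x : E.K', algebraMap E.K' C x = algebraMap FF C (c i) := fun i =>
    hE (algebraMap FF C (c i)) (Finset.mem_image.mpr ⟨i, Finset.mem_univ _, rfl⟩)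
  choose x hx using hx'
  -- `x i` is a constant
  have hd : ∀ i, ∃ d : E.k', algebraMap E.k' E.K' d = x i := by
    intro i
    have h0 : IsAlgebraic E.k' (algebraMap FF C (c i)) :=
      (Algebra.IsAlgebraic.isAlgebraic (R := E.k') (c i)).algHom
        (IsScalarTower.toAlgHom E.k' FF C)
    rw [← hx] at h0
    have h1 : IsAlgebraic E.k' (x i) :=
      (isAlgebraic_algebraMap_iff (algebraMap E.K' C).injective).mp h0
    have h2 : x i ∈ algebraicClosure E.k' E.K' := mem_algebraicClosure_iff.mpr h1
    rw [E.ce.hc', IntermediateField.mem_bot] at h2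
    exact h2
  choose d hd using hd
  have h3 : ∑ i, v i • algebraMap E.k' E.K' (d i) = 0 := by
    apply (algebraMap E.K' C).injective
    rw [map_zero, map_sum, ← hc]
    refine Finset.sum_congr rfl fun i _ => ?_
    rw [Algebra.smul_def, Algebra.smul_def, map_mul, hd, hx,
      ← IsScalarTower.algebraMap_apply K E.K' C, mul_comm]
  let β := Module.finBasis k E.k'
  have h4 : ∀ j, ∑ i, β.repr (d i) j • v i = 0 := by
    intro j
    have h5 := congrArg (fun z => (E.ce.basis β).repr z j) h3
    simp only [map_sum, Finsupp.finset_sum_apply, map_zero, Finsupp.zero_apply, map_smul,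
      Finsupp.smul_apply, E.ce.basis_repr_algebraMap] at h5
    rw [← h5]
    refine Finset.sum_congr rfl fun i _ => ?_
    rw [Algebra.smul_def, smul_eq_mul, mul_comm]
  have h6 : ∀ i j, β.repr (d i) j = 0 := fun i j => Fintype.linearIndependent_iff.mp hv _ (h4 j) i
  have h7 : d i = 0 := β.repr.injective (by ext j; simp [h6])
  apply (algebraMap FF C).injective
  rw [map_zero, ← hx, ← hd, h7, map_zero, map_zero]

variable [Algebra (RatFunc FF) C] [IsScalarTower FF (RatFunc FF) C]
  [FiniteDimensional (RatFunc FF) C] [Algebra.IsSeparable (RatFunc FF) C]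

/-- `ℓ` is preserved -/
theorem ell_conC (h : IsCE k FF K C) (D : Pl k K →₀ ℤ) : ell (conC h D) = ell D := by
  classical
  haveI := LD_finite D
  let b := Module.finBasis k (LD D)
  have hb : LinearIndependent k (fun i => (b i : K)) :=
    b.linearIndependent.map' (LD D).subtype (Submodule.ker_subtype _)
  have hbC := linearIndependent_map h hb
  have hspan : Submodule.span FF (Set.range fun i => algebraMap K C (b i : K)) = LD (conC h D) := by
    apply le_antisymm
    · rw [Submodule.span_le]
      rintro _ ⟨i, rfl⟩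
      exact (algebraMap_mem_LD h).mpr (b i).2
    · intro x hx
      obtain ⟨E, _, _, _, _, _, _, _, hE⟩ := exists_level h {x}
      haveI : Algebra.IsAlgebraic E.k' FF := Algebra.IsAlgebraic.tower_top (K := k) E.k'
      haveI : Algebra.IsSeparable E.k' FF := Algebra.isSeparable_tower_top_of_isSeparable k E.k' FF
      have h' : IsCE E.k' FF E.K' C := isCE_upper h E
      obtain ⟨x', rfl⟩ := hE x (by simp)
      rw [← conC_con h E h', algebraMap_mem_LD, mem_LD_con E.ce (Module.finBasis k E.k')] at hx
      have h1 : ∀ y ∈ LD D, algebraMap K C y ∈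
          Submodule.span FF (Set.range fun i => algebraMap K C (b i : K)) := by
        intro y hy
        have h2 : y = ∑ i, b.repr ⟨y, hy⟩ i • (b i : K) := by
          have h9 := congrArg (Subtype.val) (b.sum_repr ⟨y, hy⟩)
          rw [AddSubmonoidClass.coe_finset_sum] at h9
          exact h9.symm
        rw [h2, map_sum]
        refine Submodule.sum_mem _ fun i _ => ?_
        rw [Algebra.smul_def, map_mul, ← IsScalarTower.algebraMap_apply k K C,
          IsScalarTower.algebraMap_apply k FF C, ← Algebra.smul_def]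
        exact Submodule.smul_mem _ _ (Submodule.subset_span ⟨i, rfl⟩)
      rw [← (E.ce.basis (Module.finBasis k E.k')).sum_repr x', map_sum]
      refine Submodule.sum_mem _ fun j _ => ?_
      rw [Algebra.smul_def, map_mul, ← IsScalarTower.algebraMap_apply K E.K' C, E.ce.basis_apply,
        ← IsScalarTower.algebraMap_apply E.k' E.K' C, IsScalarTower.algebraMap_apply E.k' FF C,
        mul_comm, ← Algebra.smul_def]
      exact Submodule.smul_mem _ _ (h1 _ (hx j))
  have h8 := finrank_span_eq_card hbC
  unfold ell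
  rw [← hspan, h8, Fintype.card_fin]

/-- **genus and degree are preserved** -/
theorem gen_degD (h : IsCE k FF K C) (hcC : algebraicClosure FF C = ⊥) :
    gen FF C = gen k K := by
  classical
  obtain ⟨P, _⟩ := exists_notMem (k := k) (K := K) ∅
  set D : Pl k K →₀ ℤ := Finsupp.single P 1 with hD
  have hd : 0 < degD D := by
    rw [hD, degD_single, one_mul]
    exact_mod_cast degP_pos P
  have hd' : 0 < degD (conC h D) := by
    obtain ⟨Q, hQ⟩ := resC_surjective h P
    rw [lt_iff_le_and_ne]
    have hnn : 0 ≤ conC h D := by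
      intro R
      rw [conC_apply, hD, Finsupp.single_apply]
      split_ifs <;> simp
    refine ⟨degD_nonneg hnn, fun h0 => ?_⟩
    have h1 := eq_zero_of_nonneg hnn h0.symm
    have h2 : conC h D Q = 0 := by rw [h1]; rfl
    rw [conC_apply, hQ, hD, Finsupp.single_eq_same] at h2
    exact one_ne_zero h2
  have key : ∀ n : ℕ, 2 * (gen k K : ℤ) + 2 * (gen FF C : ℤ) < n →
      (n : ℤ) * degD (conC h D) - gen FF C = n * degD D - gen k K := by
    intro n hn
    have h1 := ell_eq_of_lt h.hc (D := n • D) (by rw [degD_nsmul]; nlinarith)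
    have h2 := ell_eq_of_lt hcC (D := n • conC h D) (by rw [degD_nsmul]; nlinarith)
    rw [← conC_nsmul, ell_conC h, h1, conC_nsmul, degD_nsmul, degD_nsmul] at h2
    linarith
  obtain ⟨n, hn⟩ : ∃ n : ℕ, 2 * (gen k K : ℤ) + 2 * (gen FF C : ℤ) < n :=
    ⟨2 * gen k K + 2 * gen FF C + 1, by push_cast; linarith⟩
  have h1 := key n hn
  have h2 := key (n + 1) (by push_cast; linarith)
  push_cast at h2
  have h3 : degD (conC h D) = degD D := by linarith
  rw [h3] at h1
  have h4 : (gen FF C : ℤ) = gen k K := by linarith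
  exact_mod_cast h4

end ell

theorem algClosed_const {FF C : Type*} [Field FF] [Field C] [Algebra FF C] [IsAlgClosed FF] :
    algebraicClosure FF C = ⊥ := IntermediateField.eq_bot_of_isAlgClosed_of_isAlgebraic _

/-- COUNT follows from COUNT at a finite level -/
theorem outC_of (p : ℕ) [hp : Fact p.Prime] {FF : Type u} {C : Type v} [Field FF] [Field C]
    [Algebra (ZMod p) FF] [Algebra.IsAlgebraic (ZMod p) FF] [IsAlgClosed FF] [Algebra FF C]
    [Algebra (RatFunc FF) C] [IsScalarTower FF (RatFunc FF) C]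
    [FiniteDimensional (RatFunc FF) C] [Algebra.IsSeparable (RatFunc FF) C]
    (hg : 1 ≤ gen FF C)
    (hfin : ∀ (k : Type u) (K : Type v) (_ : Field k) (_ : Field K) (_ : Finite k)
      (_ : CharP k p) (_ : Algebra k K)
      (_ : Algebra (RatFunc k) K) (_ : IsScalarTower k (RatFunc k) K)
      (_ : FiniteDimensional (RatFunc k) K) (_ : Algebra.IsSeparable (RatFunc k) K),
      algebraicClosure k K = ⊥ → 1 ≤ gen k K → ∃ E : CExt.{u, v, u} k K, Out E.k' E.K' p) :
    OutC p FF C := by
  obtain ⟨k, K, _, _, _, _, _, _, _, _, _, _, _, _, _, _, h, hx⟩ := descend p (FF := FF) (L := C)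
  haveI : CharP FF p := charP_of_injective_algebraMap (algebraMap (ZMod p) FF).injective p
  haveI : CharP k p :=
    (RingHom.charP_iff (algebraMap k FF) (algebraMap k FF).injective p).mpr inferInstance
  obtain ⟨E, hE⟩ := hfin k K _ _ inferInstance inferInstance _ _ inferInstance inferInstance
    inferInstance h.hc (by rw [← gen_degD h algClosed_const]; exact hg)
  obtain ⟨_, _, _, _, _, _, _, h'⟩ := exists_embed h E
  haveI : Algebra.IsAlgebraic E.k' FF := Algebra.IsAlgebraic.tower_top (K := k) E.k'
  haveI : CharP E.k' p :=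
    (RingHom.charP_iff (algebraMap k E.k') (algebraMap k E.k').injective p).mp inferInstance
  haveI : CharP E.K' p :=
    (RingHom.charP_iff (algebraMap E.k' E.K') (algebraMap E.k' E.K').injective p).mp inferInstance
  exact transfer p h' hE

end reduction

end Crest.Agent.R013.CntF6_398
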