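import Mathlib
import Crest.Agent.R013.RR11_948

-- ▼ part R013/CntChr_262
section

/-!
# R013 / CNT: `chr φ = det (1 - T φ)` for endomorphisms of vector spaces (0 in infinite dimension),
multiplicativity in exact sequences, equivariant index lemma (helper262)
-/

set_option autoImplicit false

namespace Crest.Agent.R013.CntChr_262

open Polynomial Module

section Basic

variable {k : Type*} [Field k]

/-- `det (1 - T φ)`, and `0` in infinite dimension -/
noncomputable def chr {M : Type*} [AddCommGroup M] [Module k M] (φ : M →ₗ[k] M) : k[X] := by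
  classical
  exact if h : Module.Finite k M then φ.charpoly.reverse else 0

theorem chr_eq {M : Type*} [AddCommGroup M] [Module k M] [Module.Finite k M] (φ : M →ₗ[k] M) :
    chr φ = φ.charpoly.reverse := by
  unfold chr
  rw [dif_pos ‹Module.Finite k M›]

theorem chr_infinite {M : Type*} [AddCommGroup M] [Module k M] (h : ¬ Module.Finite k M)
    (φ : M →ₗ[k] M) : chr φ = 0 := by
  unfold chr
  rw [dif_neg h]

theorem chr_toMatrix {M : Type*} [AddCommGroup M] [Module k M] {ι : Type*} [Fintype ι]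
    [DecidableEq ι] (b : Basis ι k M) (φ : M →ₗ[k] M) :
    chr φ = (LinearMap.toMatrix b b φ).charpolyRev := by
  have : Module.Finite k M := Module.Finite.of_basis b
  rw [chr_eq, ← Matrix.reverse_charpoly, LinearMap.charpoly_toMatrix]

theorem chr_coeff_zero {M : Type*} [AddCommGroup M] [Module k M] [Module.Finite k M]
    (φ : M →ₗ[k] M) : (chr φ).coeff 0 = 1 := by
  rw [chr_toMatrix (Module.finBasis k M) φ, Polynomial.coeff_zero_eq_eval_zero,
    Matrix.eval_charpolyRev]

theorem chr_ne_zero {M : Type*} [AddCommGroup M] [Module k M] [Module.Finite k M]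
    (φ : M →ₗ[k] M) : chr φ ≠ 0 := by
  intro h
  have := chr_coeff_zero φ
  rw [h] at this
  simp at this

theorem chr_conj {M M' : Type*} [AddCommGroup M] [Module k M] [AddCommGroup M'] [Module k M']
    (e : M ≃ₗ[k] M') (φ : M →ₗ[k] M) (φ' : M' →ₗ[k] M') (h : ∀ x, e (φ x) = φ' (e x)) :
    chr φ = chr φ' := by
  by_cases hM : Module.Finite k M
  · have hM' : Module.Finite k M' := Module.Finite.equiv e
    rw [chr_eq, chr_eq]
    have : φ' = e.conj φ := by
      ext x
      rw [LinearEquiv.conj_apply, LinearMap.comp_apply, LinearMap.comp_apply,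
        LinearEquiv.coe_coe, LinearEquiv.coe_coe, h, LinearEquiv.apply_symm_apply]
    rw [this, LinearEquiv.charpoly_conj]
  · have hM' : ¬ Module.Finite k M' := fun h' => hM (Module.Finite.equiv e.symm)
    rw [chr_infinite hM, chr_infinite hM']

theorem charpoly_eq_mul {V : Type*} [AddCommGroup V] [Module k V] [Module.Finite k V]
    (W : Submodule k V) (e : V →ₗ[k] V) (he : W ≤ W.comap e) :
    e.charpoly = (e.restrict he).charpoly * (W.mapQ W e he).charpoly := by
  classical
  let m := Module.Free.ChooseBasisIndex k W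
  let bW : Basis m k W := Module.Free.chooseBasis k W
  let n := Module.Free.ChooseBasisIndex k (V ⧸ W)
  let bQ : Basis n k (V ⧸ W) := Module.Free.chooseBasis k (V ⧸ W)
  let b := Basis.sumQuot bW bQ
  let A : Matrix m m k := LinearMap.toMatrix bW bW (e.restrict he)
  let B : Matrix m n k := Matrix.of fun i l ↦
    ((Basis.sumQuot bW bQ).repr (e ((Basis.sumQuot bW bQ) (Sum.inr l)))) (Sum.inl i)
  let D : Matrix n n k := LinearMap.toMatrix bQ bQ (W.mapQ W e he)
  suffices LinearMap.toMatrix b b e = Matrix.fromBlocks A B 0 D by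
    rw [← LinearMap.charpoly_toMatrix e b, this, ← LinearMap.charpoly_toMatrix _ bW,
      ← LinearMap.charpoly_toMatrix _ bQ, Matrix.charpoly_fromBlocks_zero₂₁]
  ext u v
  cases u with
  | inl i =>
    cases v with
    | inl k =>
      simp only [b, Basis.sumQuot_inl, Matrix.fromBlocks_apply₁₁, A, LinearMap.toMatrix_apply]
      apply Basis.sumQuot_repr_inl_of_mem
    | inr l => simp [b, LinearMap.toMatrix_apply, Matrix.fromBlocks_apply₁₂, B]
  | inr j =>
    cases v with
    | inl k =>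
      suffices W.mkQ (e (bW k)) = 0 by simp [LinearMap.toMatrix_apply, b, this]
      rw [← LinearMap.mem_ker, Submodule.ker_mkQ]
      exact he (Submodule.coe_mem (bW k))
    | inr l =>
      simp only [LinearMap.toMatrix_apply, Basis.sumQuot_repr_inr,
        Matrix.fromBlocks_apply₂₂, b, D]
      rw [← Basis.sumQuot_inr bW bQ l, W.mapQ_apply]
      simp

/-- multiplicativity in short exact sequences -/
theorem chr_exact {M₁ M₂ M₃ : Type*} [AddCommGroup M₁] [Module k M₁] [AddCommGroup M₂]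
    [Module k M₂] [AddCommGroup M₃] [Module k M₃] (f : M₁ →ₗ[k] M₂) (g : M₂ →ₗ[k] M₃)
    (hf : Function.Injective f) (hg : Function.Surjective g) (hfg : Function.Exact f g)
    (φ₁ : M₁ →ₗ[k] M₁) (φ₂ : M₂ →ₗ[k] M₂) (φ₃ : M₃ →ₗ[k] M₃)
    (h₁ : ∀ x, f (φ₁ x) = φ₂ (f x)) (h₂ : ∀ x, g (φ₂ x) = φ₃ (g x)) :
    chr φ₂ = chr φ₁ * chr φ₃ := by
  by_cases hM : Module.Finite k M₂
  · have hM₁ : Module.Finite k M₁ := Module.Finite.of_injective f hf
    have hM₃ : Module.Finite k M₃ := Module.Finite.of_surjective g hg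
    let W := LinearMap.range f
    have hW : W ≤ W.comap φ₂ := by
      rintro _ ⟨x, rfl⟩
      exact ⟨φ₁ x, h₁ x⟩
    have e1 := charpoly_eq_mul W φ₂ hW
    have e2 : chr φ₁ = chr (φ₂.restrict hW) := by
      refine chr_conj (LinearEquiv.ofInjective f hf) _ _ fun x => ?_
      apply Subtype.ext
      simp only [LinearEquiv.ofInjective_apply, LinearMap.restrict_apply]
      exact h₁ x
    have hker : LinearMap.ker g = W := by
      exact hfg.linearMap_ker_eq
    have e3 : chr (W.mapQ W φ₂ hW) = chr φ₃ := by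
      refine chr_conj ((Submodule.quotEquivOfEq _ _ hker.symm).trans
        (g.quotKerEquivOfSurjective hg)) _ _ fun x => ?_
      obtain ⟨x, rfl⟩ := Submodule.Quotient.mk_surjective _ x
      rw [Submodule.mapQ_apply]
      simp only [LinearEquiv.trans_apply, Submodule.quotEquivOfEq_mk]
      show g (φ₂ x) = φ₃ (g x)
      exact h₂ x
    rw [e2, ← e3, chr_eq, chr_eq, chr_eq, e1, Polynomial.reverse_mul_of_domain]
  · rw [chr_infinite hM]
    symm
    by_cases hM₁ : Module.Finite k M₁
    · have hM₃ : ¬ Module.Finite k M₃ := by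
        intro hM₃
        apply hM
        exact Module.Finite.of_exact hfg hg
      rw [chr_infinite hM₃, mul_zero]
    · rw [chr_infinite hM₁, zero_mul]

theorem chr_subsingleton {M : Type*} [AddCommGroup M] [Module k M] [Subsingleton M]
    (φ : M →ₗ[k] M) : chr φ = 1 := by
  have h := chr_toMatrix (Basis.empty M : Basis Empty k M) φ
  rw [h]
  unfold Matrix.charpolyRev
  exact Matrix.det_isEmpty

/-- nilpotent endomorphisms -/
theorem chr_of_pow_eq_zero {M : Type*} [AddCommGroup M] [Module k M] [Module.Finite k M]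
    (φ : M →ₗ[k] M) (n : ℕ) (h : φ ^ n = 0) : chr φ = 1 := by
  have h1 : φ.charpoly = X ^ finrank k M := by
    have := (LinearMap.charpoly_eq_X_pow_iff φ).mpr
    apply this
    intro m
    exact ⟨n, by rw [h]; rfl⟩
  rw [chr_eq, h1, ← one_mul (X ^ finrank k M), Polynomial.reverse_mul_X_pow]
  exact Polynomial.reverse_C 1

end Basic

section Index

variable {k V : Type*} [Field k] [AddCommGroup V] [Module k V]

/-- `P` is stable under `Φ` -/
def St (Φ : V →ₗ[k] V) (P : Submodule k V) : Prop := ∀ x ∈ P, Φ x ∈ P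

theorem St.inf {Φ : V →ₗ[k] V} {P Q : Submodule k V} (hP : St Φ P) (hQ : St Φ Q) :
    St Φ (P ⊓ Q) := fun x hx => ⟨hP x hx.1, hQ x hx.2⟩

theorem St.sup {Φ : V →ₗ[k] V} {P Q : Submodule k V} (hP : St Φ P) (hQ : St Φ Q) :
    St Φ (P ⊔ Q) := by
  intro x hx
  obtain ⟨y, hy, z, hz, rfl⟩ := Submodule.mem_sup.mp hx
  rw [map_add]
  exact Submodule.add_mem_sup (hP y hy) (hQ z hz)

theorem St.top (Φ : V →ₗ[k] V) : St Φ ⊤ := fun _ _ => trivial

theorem St.bot (Φ : V →ₗ[k] V) : St Φ ⊥ := by
  intro x hx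
  rw [Submodule.mem_bot] at hx ⊢
  rw [hx, map_zero]

/-- the induced endomorphism of `Q / P ⊓ Q` -/
noncomputable def ind (Φ : V →ₗ[k] V) {P Q : Submodule k V} (hP : St Φ P) (hQ : St Φ Q) :
    (Q ⧸ P.submoduleOf Q) →ₗ[k] (Q ⧸ P.submoduleOf Q) :=
  Submodule.mapQ _ _ (Φ.restrict hQ) (by
    intro x hx
    simp only [Submodule.submoduleOf, Submodule.mem_comap] at hx ⊢
    exact hP _ hx)

theorem ind_mk (Φ : V →ₗ[k] V) {P Q : Submodule k V} (hP : St Φ P) (hQ : St Φ Q) (x : Q) :
    ind Φ hP hQ (Submodule.Quotient.mk x) = Submodule.Quotient.mk (⟨Φ x, hQ x x.2⟩ : Q) := by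
  unfold ind
  rw [Submodule.mapQ_apply]
  rfl

/-- `det (1 - T Φ | Q / P ⊓ Q)` -/
noncomputable def dq (Φ : V →ₗ[k] V) {P Q : Submodule k V} (hP : St Φ P) (hQ : St Φ Q) : k[X] :=
  chr (ind Φ hP hQ)

theorem dq_self (Φ : V →ₗ[k] V) {P : Submodule k V} (hP : St Φ P) : dq Φ hP hP = 1 := by
  have : Subsingleton (P ⧸ P.submoduleOf P) := by
    rw [Submodule.submoduleOf_self]
    exact Submodule.Quotient.subsingleton_iff.mpr rfl
  exact chr_subsingleton _

theorem dq_congr (Φ : V →ₗ[k] V) {P Q P' Q' : Submodule k V} (hP : St Φ P) (hQ : St Φ Q)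
    (hP' : St Φ P') (hQ' : St Φ Q') (h1 : P = P') (h2 : Q = Q') :
    dq Φ hP hQ = dq Φ hP' hQ' := by
  subst h1 h2
  rfl

/-- additivity -/
theorem dq_mul (Φ : V →ₗ[k] V) {P Q S : Submodule k V} (hP : St Φ P) (hQ : St Φ Q)
    (hS : St Φ S) (h : P ≤ Q) (h' : Q ≤ S) :
    dq Φ hP hS = dq Φ hP hQ * dq Φ hQ hS := by
  let f : (Q ⧸ P.submoduleOf Q) →ₗ[k] (S ⧸ P.submoduleOf S) :=
    Submodule.mapQ _ _ (Submodule.inclusion h') (by
      intro x hx
      simpa [Submodule.submoduleOf] using hx)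
  let g : (S ⧸ P.submoduleOf S) →ₗ[k] (S ⧸ Q.submoduleOf S) :=
    Submodule.mapQ _ _ LinearMap.id (by
      intro x hx
      simp only [Submodule.submoduleOf, Submodule.mem_comap] at hx ⊢
      exact h hx)
  refine chr_exact f g ?_ ?_ ?_ _ _ _ ?_ ?_
  · rw [← LinearMap.ker_eq_bot, LinearMap.ker_eq_bot']
    intro x
    obtain ⟨x, rfl⟩ := Submodule.Quotient.mk_surjective _ x
    intro hx
    simp only [f, Submodule.mapQ_apply, Submodule.Quotient.mk_eq_zero] at hx ⊢
    simpa [Submodule.submoduleOf] using hx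
  · intro x
    obtain ⟨x, rfl⟩ := Submodule.Quotient.mk_surjective _ x
    exact ⟨Submodule.Quotient.mk x, by simp only [g, Submodule.mapQ_apply, LinearMap.id_apply]⟩
  · intro x
    obtain ⟨x, rfl⟩ := Submodule.Quotient.mk_surjective _ x
    constructor
    · intro hx
      simp only [g, Submodule.mapQ_apply, LinearMap.id_apply, Submodule.Quotient.mk_eq_zero] at hx
      refine ⟨Submodule.Quotient.mk ⟨x, hx⟩, ?_⟩
      simp only [f, Submodule.mapQ_apply]
      congr 1
    · rintro ⟨y, hy⟩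
      obtain ⟨y, rfl⟩ := Submodule.Quotient.mk_surjective _ y
      rw [← hy]
      simp only [f, g, Submodule.mapQ_apply, LinearMap.id_apply, Submodule.Quotient.mk_eq_zero]
      exact y.2
  · intro x
    obtain ⟨x, rfl⟩ := Submodule.Quotient.mk_surjective _ x
    simp only [f]
    rw [ind_mk, Submodule.mapQ_apply, Submodule.mapQ_apply, ind_mk]
    rfl
  · intro x
    obtain ⟨x, rfl⟩ := Submodule.Quotient.mk_surjective _ x
    simp only [g]
    rw [ind_mk, Submodule.mapQ_apply, Submodule.mapQ_apply, LinearMap.id_apply,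
      LinearMap.id_apply, ind_mk]

/-- second isomorphism theorem -/
theorem dq_sup (Φ : V →ₗ[k] V) {M N : Submodule k V} (hM : St Φ M) (hN : St Φ N) :
    dq Φ hM (hN.sup hM) = dq Φ hM hN := by
  symm
  have hNM : N ≤ N ⊔ M := le_sup_left
  let f : (N ⧸ M.submoduleOf N) →ₗ[k] ((N ⊔ M : Submodule k V) ⧸ M.submoduleOf (N ⊔ M)) :=
    Submodule.mapQ _ _ (Submodule.inclusion hNM) (by
      intro x hx
      simpa [Submodule.submoduleOf] using hx)
  have hf : Function.Bijective f := by
    constructor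
    · rw [← LinearMap.ker_eq_bot, LinearMap.ker_eq_bot']
      intro x
      obtain ⟨x, rfl⟩ := Submodule.Quotient.mk_surjective _ x
      intro hx
      simp only [f, Submodule.mapQ_apply, Submodule.Quotient.mk_eq_zero] at hx ⊢
      simpa [Submodule.submoduleOf] using hx
    · intro x
      obtain ⟨⟨x, hx⟩, rfl⟩ := Submodule.Quotient.mk_surjective _ x
      obtain ⟨y, hy, z, hz, rfl⟩ := Submodule.mem_sup.mp hx
      refine ⟨Submodule.Quotient.mk ⟨y, hy⟩, ?_⟩
      simp only [f, Submodule.mapQ_apply]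
      rw [Submodule.Quotient.eq, Submodule.submoduleOf, Submodule.mem_comap]
      have : -z ∈ M := M.neg_mem hz
      simpa using this
  refine chr_conj (LinearEquiv.ofBijective f hf) _ _ fun x => ?_
  obtain ⟨x, rfl⟩ := Submodule.Quotient.mk_surjective _ x
  simp only [LinearEquiv.ofBijective_apply, f]
  rw [ind_mk, Submodule.mapQ_apply, Submodule.mapQ_apply, ind_mk]
  rfl

theorem dq_inf (Φ : V →ₗ[k] V) {M N : Submodule k V} (hM : St Φ M) (hN : St Φ N) :
    dq Φ (hM.inf hN) hN = dq Φ hM hN := by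
  have h1 : (M ⊓ N).submoduleOf N = M.submoduleOf N := by
    ext x; simp [Submodule.submoduleOf]
  refine chr_conj (Submodule.quotEquivOfEq _ _ h1) _ _ fun x => ?_
  obtain ⟨x, rfl⟩ := Submodule.Quotient.mk_surjective _ x
  rw [ind_mk, Submodule.quotEquivOfEq_mk, Submodule.quotEquivOfEq_mk, ind_mk]

theorem dq_split (Φ : V →ₗ[k] V) {M N N₁ : Submodule k V} (hM : St Φ M) (hN : St Φ N)
    (hN₁ : St Φ N₁) (h : N ≤ N₁) :
    dq Φ hN hN₁ = dq Φ (hM.inf hN) (hM.inf hN₁) * dq Φ (hM.sup hN) (hM.sup hN₁) := by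
  have h1 : N ≤ (M ⊓ N₁) ⊔ N := le_sup_right
  have h2 : (M ⊓ N₁) ⊔ N ≤ N₁ := sup_le inf_le_right h
  rw [dq_mul Φ hN ((hM.inf hN₁).sup hN) hN₁ h1 h2, dq_sup Φ hN (hM.inf hN₁)]
  congr 1
  · rw [← dq_inf Φ hN (hM.inf hN₁)]
    apply dq_congr
    · rw [inf_comm N, inf_assoc, inf_eq_right.mpr h]
    · rfl
  · have h3 : M ⊔ N₁ = N₁ ⊔ (M ⊔ N) := by
      rw [sup_comm N₁, sup_assoc, sup_eq_right.mpr h]
    rw [dq_congr Φ (hM.sup hN) (hM.sup hN₁) (hM.sup hN) (hN₁.sup (hM.sup hN)) rfl h3,
      dq_sup Φ (hM.sup hN) hN₁,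
      ← dq_inf Φ (hM.sup hN) hN₁]
    apply dq_congr
    · rw [sup_comm M N, sup_inf_assoc_of_le _ h, sup_comm]
    · rfl

/-- `det (1 - T Φ | M ⊓ N)` -/
noncomputable def d0 (Φ : V →ₗ[k] V) {M N : Submodule k V} (hM : St Φ M) (hN : St Φ N) : k[X] :=
  dq Φ (St.bot Φ) (hM.inf hN)

/-- `det (1 - T Φ | V / (M ⊔ N))` -/
noncomputable def d1 (Φ : V →ₗ[k] V) {M N : Submodule k V} (hM : St Φ M) (hN : St Φ N) : k[X] :=
  dq Φ (hM.sup hN) (St.top Φ)

/-- equivariant index lemma -/
theorem d_index (Φ : V →ₗ[k] V) {M N N₁ : Submodule k V} (hM : St Φ M) (hN : St Φ N)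
    (hN₁ : St Φ N₁) (h : N ≤ N₁) :
    d0 Φ hM hN₁ * d1 Φ hM hN = d0 Φ hM hN * d1 Φ hM hN₁ * dq Φ hN hN₁ := by
  have e0 : d0 Φ hM hN₁ = d0 Φ hM hN * dq Φ (hM.inf hN) (hM.inf hN₁) :=
    dq_mul Φ _ _ _ bot_le (inf_le_inf_left M h)
  have e1 : d1 Φ hM hN = dq Φ (hM.sup hN) (hM.sup hN₁) * d1 Φ hM hN₁ :=
    dq_mul Φ _ _ _ (sup_le_sup_left h M) le_top
  rw [e0, e1, dq_split Φ hM hN hN₁ h]
  ring

theorem d0_comm (Φ : V →ₗ[k] V) {M N : Submodule k V} (hM : St Φ M) (hN : St Φ N) :
    d0 Φ hM hN = d0 Φ hN hM := dq_congr _ _ _ _ _ rfl (inf_comm _ _)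

theorem d1_comm (Φ : V →ₗ[k] V) {M N : Submodule k V} (hM : St Φ M) (hN : St Φ N) :
    d1 Φ hM hN = d1 Φ hN hM := dq_congr _ _ _ _ _ (sup_comm _ _) rfl

theorem d0_congr (Φ : V →ₗ[k] V) {M N M' N' : Submodule k V} (hM : St Φ M) (hN : St Φ N)
    (hM' : St Φ M') (hN' : St Φ N') (h1 : M = M') (h2 : N = N') :
    d0 Φ hM hN = d0 Φ hM' hN' := by
  subst h1 h2; rfl

theorem d1_congr (Φ : V →ₗ[k] V) {M N M' N' : Submodule k V} (hM : St Φ M) (hN : St Φ N)
    (hM' : St Φ M') (hN' : St Φ N') (h1 : M = M') (h2 : N = N') :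
    d1 Φ hM hN = d1 Φ hM' hN' := by
  subst h1 h2; rfl

theorem d0_of_inf_eq_bot (Φ : V →ₗ[k] V) {M N : Submodule k V} (hM : St Φ M) (hN : St Φ N)
    (h : M ⊓ N = ⊥) : d0 Φ hM hN = 1 := by
  rw [← dq_self Φ (St.bot Φ)]
  exact dq_congr _ _ _ _ _ rfl h

/-- if some iterate of `Φ` maps `Q` to `P`, `Q/P` finite, then `det (1 - TΦ | Q/P) = 1`. -/
theorem dq_nilpotent (Φ : V →ₗ[k] V) {P Q : Submodule k V} (hP : St Φ P) (hQ : St Φ Q)
    (hfin : Module.Finite k (Q ⧸ P.submoduleOf Q)) (n : ℕ)
    (h : ∀ x ∈ Q, (Φ ^ n) x ∈ P) : dq Φ hP hQ = 1 := by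
  apply chr_of_pow_eq_zero _ n
  ext x
  simp only [LinearMap.comp_apply, Submodule.mkQ_apply, LinearMap.zero_apply]
  have key : ∀ m, ∃ hm : (Φ ^ m) (x : V) ∈ Q, ((ind Φ hP hQ) ^ m) (Submodule.Quotient.mk x)
      = Submodule.Quotient.mk (⟨(Φ ^ m) (x : V), hm⟩ : Q) := by
    intro m
    induction m with
    | zero => exact ⟨x.2, rfl⟩
    | succ m ih =>
      obtain ⟨hm, ih⟩ := ih
      have e : (Φ ^ (m + 1)) (x : V) = Φ ((Φ ^ m) (x : V)) := by
        rw [pow_succ']; rfl
      refine ⟨by rw [e]; exact hQ _ hm, ?_⟩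
      rw [pow_succ', Module.End.mul_apply, ih, ind_mk]
      congr 1
      exact Subtype.ext e.symm
  obtain ⟨hm, hk⟩ := key n
  rw [hk, Submodule.Quotient.mk_eq_zero]
  exact h _ x.2

/-- computing `d0` -/
theorem d0_eq_chr (Φ : V →ₗ[k] V) {M N : Submodule k V} (hM : St Φ M) (hN : St Φ N) :
    d0 Φ hM hN = chr (Φ.restrict (hM.inf hN)) := by
  symm
  let f : (M ⊓ N : Submodule k V) →ₗ[k]
      ((M ⊓ N : Submodule k V) ⧸ (⊥ : Submodule k V).submoduleOf (M ⊓ N)) := Submodule.mkQ _
  have hf : Function.Bijective f := by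
    constructor
    · rw [← LinearMap.ker_eq_bot, Submodule.ker_mkQ]
      ext x; simp [Submodule.submoduleOf]
    · exact Submodule.mkQ_surjective _
  refine chr_conj (LinearEquiv.ofBijective f hf) _ _ fun x => ?_
  rfl

/-- computing `d1` -/
theorem d1_eq_chr (Φ : V →ₗ[k] V) {M N : Submodule k V} (hM : St Φ M) (hN : St Φ N) :
    d1 Φ hM hN = chr (Submodule.mapQ (M ⊔ N) (M ⊔ N) Φ (hM.sup hN)) := by
  let f : ((⊤ : Submodule k V) ⧸ (M ⊔ N).submoduleOf ⊤) →ₗ[k] (V ⧸ (M ⊔ N)) :=
    Submodule.mapQ _ _ (Submodule.subtype _) (by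
      intro x hx
      simpa [Submodule.submoduleOf] using hx)
  have hf : Function.Bijective f := by
    constructor
    · rw [← LinearMap.ker_eq_bot, LinearMap.ker_eq_bot']
      intro x
      obtain ⟨x, rfl⟩ := Submodule.Quotient.mk_surjective _ x
      intro hx
      simp only [f, Submodule.mapQ_apply, Submodule.Quotient.mk_eq_zero] at hx ⊢
      simpa [Submodule.submoduleOf] using hx
    · intro x
      obtain ⟨x, rfl⟩ := Submodule.Quotient.mk_surjective _ x
      exact ⟨Submodule.Quotient.mk ⟨x, trivial⟩, rfl⟩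
  refine chr_conj (LinearEquiv.ofBijective f hf) _ _ fun x => ?_
  obtain ⟨x, rfl⟩ := Submodule.Quotient.mk_surjective _ x
  simp only [LinearEquiv.ofBijective_apply, f]
  rw [ind_mk, Submodule.mapQ_apply, Submodule.mapQ_apply]
  rfl

end Index

end Crest.Agent.R013.CntChr_262
end

-- ▼ part R013/CntLoc_262

/-!
# R013 / CNT: the local factor `det (1 - TΦ | O(E)_P / O(E-P)_P) = 1 - χ_f(P) T^(deg P)` (helper262)
-/

set_option autoImplicit false
set_option linter.unusedSectionVars false

namespace Crest.Agent.R013.CntLoc_262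

open Polynomial Module
open Crest.Agent.R013.CntChr_262

section FF

variable {k : Type*} [Field k] [Fintype k]

/-- the `k`-linear map `s ↦ f s^q` -/
noncomputable def phi {R : Type*} [CommRing R] [Algebra k R] (f : R) : R →ₗ[k] R :=
  (LinearMap.mulLeft k f).comp (FiniteField.frobeniusAlgHom k R).toLinearMap

theorem phi_apply {R : Type*} [CommRing R] [Algebra k R] (f s : R) :
    phi (k := k) f s = f * s ^ Fintype.card k := rfl

/-- `1 + q + ... + q^(n-1)` -/
def gs (q n : ℕ) : ℕ := ∑ j ∈ Finset.range n, q ^ j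

theorem gs_succ (q n : ℕ) : gs q (n + 1) = 1 + q * gs q n := by
  unfold gs
  rw [Finset.sum_range_succ', pow_zero, Finset.mul_sum, add_comm]
  congr 1
  exact Finset.sum_congr rfl fun j _ => by rw [pow_succ']


theorem phi_pow {R : Type*} [CommRing R] [Algebra k R] (f s : R) (i : ℕ) :
    (phi (k := k) f ^ i) s = f ^ gs (Fintype.card k) i * s ^ (Fintype.card k ^ i) := by
  induction i with
  | zero => simp [gs]
  | succ i ih =>
    rw [pow_succ', Module.End.mul_apply, ih, phi_apply, gs_succ]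
    ring

variable {κ : Type*} [Field κ] [Algebra k κ] [Module.Finite k κ]

theorem charpoly_psi {u : κ} (hu : u ≠ 0) :
    (phi (k := k) u).charpoly = X ^ finrank k κ - C (Algebra.norm k u) := by
  set q := Fintype.card k with hq
  set n := finrank k κ with hn
  have hn0 : 0 < n := Module.finrank_pos
  have hκ : Finite κ := Module.finite_of_finite k
  have := Fintype.ofFinite κ
  have hcard : Fintype.card κ = q ^ n := Module.card_eq_pow_finrank
  have hq1 : 1 < q := Fintype.one_lt_card
  have hnorm : algebraMap k κ (Algebra.norm k u) = u ^ gs q n := by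
    rw [FiniteField.algebraMap_norm_eq_pow_sum, Nat.card_eq_fintype_card]
    rfl
  have hmon : (X ^ n - C (Algebra.norm k u)).Monic := monic_X_pow_sub_C _ hn0.ne'
  have hdeg : (X ^ n - C (Algebra.norm k u)).natDegree = n := natDegree_X_pow_sub_C
  -- annihilating polynomial
  have h1 : aeval (phi (k := k) u) (X ^ n - C (Algebra.norm k u)) = 0 := by
    ext y
    rw [map_sub, map_pow, aeval_X, aeval_C, LinearMap.sub_apply, phi_pow,
      Module.algebraMap_end_apply, Algebra.smul_def, hnorm, ← hcard, FiniteField.pow_card,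
      sub_self, LinearMap.zero_apply]
  -- independence
  have h2 : ∀ r : k[X], r.natDegree < n → aeval (phi (k := k) u) r = 0 → r = 0 := by
    intro r hr h0
    let G : κ[X] := ∑ i ∈ Finset.range n, C (algebraMap k κ (r.coeff i) * u ^ gs q i) * X ^ (q ^ i)
    have hG : ∀ y, G.eval y = 0 := by
      intro y
      have h3 := LinearMap.congr_fun h0 y
      rw [Polynomial.aeval_eq_sum_range' hr, LinearMap.sum_apply, LinearMap.zero_apply] at h3
      rw [← h3]
      simp only [G, eval_finsetSum, eval_mul, eval_C, eval_pow, eval_X]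
      refine Finset.sum_congr rfl fun i _ => ?_
      rw [LinearMap.smul_apply, phi_pow, Algebra.smul_def, mul_assoc]
    have hG0 : G = 0 := by
      apply Polynomial.eq_zero_of_natDegree_lt_card_of_eval_eq_zero G
        (f := (fun y : κ => y)) Function.injective_id hG
      rw [hcard]
      refine lt_of_le_of_lt (Polynomial.natDegree_sum_le_of_forall_le (n := q ^ (n - 1)) _ _
        fun i hi => ?_) (Nat.pow_lt_pow_right hq1 (by omega))
      refine (natDegree_C_mul_X_pow_le _ _).trans ?_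
      exact Nat.pow_le_pow_right (by omega) (by have := Finset.mem_range.mp hi; omega)
    ext i
    rw [coeff_zero]
    by_cases hi : i < n
    · have h4 := congrArg (fun g => g.coeff (q ^ i)) hG0
      simp only [G, coeff_zero, finsetSum_coeff, coeff_C_mul, coeff_X_pow] at h4
      rw [Finset.sum_eq_single i] at h4
      · rw [if_pos rfl, mul_one] at h4
        rcases mul_eq_zero.mp h4 with h5 | h5
        · exact (FaithfulSMul.algebraMap_eq_zero_iff k κ).mp h5
        · exact absurd h5 (pow_ne_zero _ hu)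
      · intro j _ hj
        rw [if_neg, mul_zero]
        intro h6
        exact hj (Nat.pow_right_injective hq1 h6).symm
      · intro h6
        exact absurd (Finset.mem_range.mpr hi) h6
    · exact coeff_eq_zero_of_natDegree_lt (by omega)
  have hint : IsIntegral k (phi (k := k) u) := Algebra.IsIntegral.isIntegral _
  have h3 : n ≤ (minpoly k (phi (k := k) u)).natDegree := by
    by_contra hcon
    rw [not_le] at hcon
    exact minpoly.ne_zero hint (h2 _ hcon (minpoly.aeval _ _))
  have h4 : X ^ n - C (Algebra.norm k u) = minpoly k (phi (k := k) u) :=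
    eq_of_monic_of_dvd_of_natDegree_le (minpoly.monic hint) hmon
      (minpoly.dvd k _ h1) (by rw [hdeg]; exact h3)
  have h5 : (phi (k := k) u).charpoly = minpoly k (phi (k := k) u) :=
    eq_of_monic_of_dvd_of_natDegree_le (minpoly.monic hint)
      (LinearMap.charpoly_monic _) (LinearMap.minpoly_dvd_charpoly _)
      (by rw [LinearMap.charpoly_natDegree]; exact h3)
  rw [h5, ← h4]

theorem chr_psi {u : κ} (hu : u ≠ 0) :
    chr (phi (k := k) u) = 1 - C (Algebra.norm k u) * X ^ finrank k κ := by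
  have hn0 : 0 < finrank k κ := Module.finrank_pos
  rw [chr_eq, charpoly_psi hu, Polynomial.reverse, natDegree_X_pow_sub_C]
  have e : (X ^ finrank k κ - C (Algebra.norm k u) : k[X])
      = X ^ finrank k κ + C (-Algebra.norm k u) := by rw [C_neg]; ring
  rw [e, reflect_add, reflect_C, reflect_monomial, revAt_le le_rfl, Nat.sub_self, pow_zero, C_neg]
  ring

end FF

section Res

open WithZero IsLocalRing
open Crest.Agent.R013.RR1_948 Crest.Agent.R013.RR7_948 Crest.Agent.R013.RR8_948
open Crest.Agent.R013.RR10_948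

variable {k : Type*} [Field k] {K : Type*} [Field K] [Algebra k K]

theorem v_const_le (P : Pl k K) (c : k) : P.v (algebraMap k K c) ≤ 1 := by
  by_cases hc : c = 0
  · simp [hc]
  · rw [P.const c hc]

/-- `k → O_P` -/
noncomputable def toO (P : Pl k K) : k →+* P.v.valuationSubring :=
  (algebraMap k K).codRestrict P.v.valuationSubring (fun c => v_const_le P c)

/-- `O_P` as a `k`-algebra -/
@[reducible] noncomputable def algO (P : Pl k K) : Algebra k P.v.valuationSubring :=
  (toO P).toAlgebra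

attribute [local instance] algO


/-- the residue field -/
abbrev Kap (P : Pl k K) : Type _ := ResidueField P.v.valuationSubring

theorem residue_eq_zero_iff (P : Pl k K) (x : P.v.valuationSubring) :
    residue P.v.valuationSubring x = 0 ↔ P.v (x : K) < 1 := by
  rw [IsLocalRing.residue_eq_zero_iff]
  exact Valuation.mem_maximalIdeal_iff (v := P.v)

theorem div_mem {P : Pl k K} {e : K} {n : ℤ} (he : P.v e = exp n) {s : K} (hs : P.v s ≤ exp n) :
    P.v (s / e) ≤ 1 := by
  rw [map_div₀, he]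
  exact div_le_one_of_le₀ hs zero_le

/-- `ball P n → κ(P)`, `s ↦ (s/e)(P)` -/
noncomputable def rho (P : Pl k K) (e : K) (n : ℤ) (he : P.v e = exp n) : ball P n →ₗ[k] Kap P where
  toFun s := residue P.v.valuationSubring ⟨(s : K) / e, div_mem he (mem_ball.mp s.2)⟩
  map_add' s t := by
    rw [← map_add]
    congr 1
    apply Subtype.ext
    show ((s + t : ball P n) : K) / e = (s : K) / e + (t : K) / e
    rw [Submodule.coe_add, add_div]
  map_smul' c s := by
    rw [RingHom.id_apply]
    have : c • residue P.v.valuationSubring ⟨(s : K) / e, div_mem he (mem_ball.mp s.2)⟩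
        = residue P.v.valuationSubring
          (algebraMap k P.v.valuationSubring c * ⟨(s : K) / e, div_mem he (mem_ball.mp s.2)⟩) := by
      rw [map_mul, Algebra.smul_def]
      rfl
    rw [this]
    congr 1
    apply Subtype.ext
    show ((c • s : ball P n) : K) / e = algebraMap k K c * ((s : K) / e)
    rw [Submodule.coe_smul, Algebra.smul_def, mul_div_assoc]

theorem rho_surj (P : Pl k K) (e : K) (n : ℤ) (he : P.v e = exp n) :
    Function.Surjective (rho P e n he) := by
  intro y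
  obtain ⟨⟨x, hx⟩, rfl⟩ := residue_surjective y
  have he0 : e ≠ 0 := by
    rintro rfl
    rw [map_zero] at he
    exact exp_ne_zero he.symm
  have hx' : P.v x ≤ 1 := hx
  refine ⟨⟨x * e, ?_⟩, ?_⟩
  · rw [mem_ball, map_mul, he]
    calc _ ≤ 1 * exp n := mul_le_mul_left hx' _
      _ = exp n := one_mul _
  · show residue P.v.valuationSubring ⟨x * e / e, _⟩ = _
    congr 1
    apply Subtype.ext
    show x * e / e = x
    rw [mul_div_cancel_right₀ _ he0]

theorem rho_ker (P : Pl k K) (e : K) (n : ℤ) (he : P.v e = exp n) :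
    LinearMap.ker (rho P e n he) = (ball P (n - 1)).submoduleOf (ball P n) := by
  ext s
  rw [LinearMap.mem_ker, Submodule.submoduleOf, Submodule.mem_comap, Submodule.subtype_apply,
    mem_ball]
  show residue P.v.valuationSubring ⟨(s : K) / e, _⟩ = 0 ↔ _
  rw [residue_eq_zero_iff]
  show P.v ((s : K) / e) < 1 ↔ _
  rw [map_div₀, he, ← RR2_948.lt_exp_iff, div_lt_one₀ (by simp)]

/-- `ball P n / ball P (n-1) ≃ κ(P)` -/
noncomputable def grEquiv (P : Pl k K) (e : K) (n : ℤ) (he : P.v e = exp n) :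
    (ball P n ⧸ (ball P (n - 1)).submoduleOf (ball P n)) ≃ₗ[k] Kap P :=
  (Submodule.quotEquivOfEq _ _ (rho_ker P e n he).symm).trans
    ((rho P e n he).quotKerEquivOfSurjective (rho_surj P e n he))

theorem grEquiv_mk (P : Pl k K) (e : K) (n : ℤ) (he : P.v e = exp n) (s : ball P n) :
    grEquiv P e n he (Submodule.Quotient.mk s) = rho P e n he s := rfl

theorem finrank_Kap (P : Pl k K) (hdeg : degE P = degP P) :
    Module.Finite k (Kap P) ∧ finrank k (Kap P) = degP P := by
  have h1 : P.v (1 : K) = exp (0 : ℤ) := by rw [map_one, exp_zero]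
  have e := grEquiv P 1 0 h1
  have h2 : Module.length k (Kap P) = degP P := by
    rw [← hdeg, ← LinearEquiv.length_eq e]
    rfl
  exact finite_of_length h2

end Res

section Factor

open WithZero IsLocalRing
open Crest.Agent.R013.RR1_948 Crest.Agent.R013.RR7_948 Crest.Agent.R013.RR8_948
open Crest.Agent.R013.RR10_948

variable {k : Type*} [Field k] [Fintype k] {K : Type*} [Field K] [Algebra k K]

attribute [local instance] algO

/-- `(f e^(q-1))(P)` in the residue field, for `v_P(e) = exp n`, `v_P(f) ≤ exp (-(q-1) n)` -/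
noncomputable def uu (P : Pl k K) (f e : K) (h : P.v (f * e ^ (Fintype.card k - 1)) ≤ 1) : Kap P :=
  residue P.v.valuationSubring ⟨f * e ^ (Fintype.card k - 1), h⟩

theorem dq_ball_aux (P : Pl k K) (f e : K) (n : ℤ) (he : P.v e = exp n)
    (h : P.v (f * e ^ (Fintype.card k - 1)) ≤ 1)
    (hP : St (phi (k := k) f) (ball P (n - 1))) (hQ : St (phi (k := k) f) (ball P n)) :
    dq (phi (k := k) f) hP hQ = chr (phi (k := k) (uu P f e h)) := by
  have he0 : e ≠ 0 := by
    rintro rfl
    rw [map_zero] at he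
    exact exp_ne_zero he.symm
  have hq : 1 ≤ Fintype.card k := Fintype.card_pos
  refine chr_conj (grEquiv P e n he) _ _ fun x => ?_
  obtain ⟨x, rfl⟩ := Submodule.Quotient.mk_surjective _ x
  rw [ind_mk, grEquiv_mk, grEquiv_mk]
  show residue P.v.valuationSubring ⟨phi (k := k) f (x : K) / e, _⟩
    = residue P.v.valuationSubring ⟨f * e ^ (Fintype.card k - 1), h⟩
      * residue P.v.valuationSubring ⟨(x : K) / e, _⟩ ^ Fintype.card k
  rw [← map_pow, ← map_mul]
  congr 1
  apply Subtype.ext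
  show f * (x : K) ^ Fintype.card k / e
    = f * e ^ (Fintype.card k - 1) * ((x : K) / e) ^ Fintype.card k
  rw [div_pow]
  have : e ^ Fintype.card k = e ^ (Fintype.card k - 1) * e := by
    rw [← pow_succ]; congr 1; omega
  rw [this]
  field_simp

/-- `c = χ_f(P)`: `c ∈ k` is the norm of `(f e^(q-1))(P)`, `v_P(e) = exp (E_P)`. -/
def IsChi (f : K) (E : Pl k K →₀ ℤ) (P : Pl k K) (c : k) : Prop :=
  ∃ e : K, P.v e = exp (E P) ∧
    P.v ((f * e ^ (Fintype.card k - 1)) ^ gs (Fintype.card k) (degP P) - algebraMap k K c) < 1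

theorem v_fe (P : Pl k K) {f e : K} {n : ℤ} (he : P.v e = exp n)
    (hf : P.v f = exp (-((Fintype.card k - 1 : ℤ) * n))) :
    P.v (f * e ^ (Fintype.card k - 1)) = 1 := by
  have hq : 1 ≤ Fintype.card k := Fintype.card_pos
  rw [map_mul, map_pow, he, hf, ← exp_nsmul, ← exp_add, ← exp_zero]
  congr 1
  rw [nsmul_eq_mul]
  push_cast [hq]
  ring

theorem norm_uu_iff (P : Pl k K) (hdeg : degE P = degP P) (f e : K)
    (h : P.v (f * e ^ (Fintype.card k - 1)) ≤ 1) (c : k) :
    P.v ((f * e ^ (Fintype.card k - 1)) ^ gs (Fintype.card k) (degP P) - algebraMap k K c) < 1 ↔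
      Algebra.norm k (uu P f e h) = c := by
  obtain ⟨hfin, hrank⟩ := finrank_Kap P hdeg
  have hnorm : algebraMap k (Kap P) (Algebra.norm k (uu P f e h))
      = (uu P f e h) ^ gs (Fintype.card k) (degP P) := by
    have hκ : Finite (Kap P) := Module.finite_of_finite k
    rw [FiniteField.algebraMap_norm_eq_pow_sum, Nat.card_eq_fintype_card, hrank]
    rfl
  rw [← (algebraMap k (Kap P)).injective.eq_iff, hnorm, ← sub_eq_zero]
  have e1 : uu P f e h ^ gs (Fintype.card k) (degP P) - algebraMap k (Kap P) c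
      = residue P.v.valuationSubring ((⟨f * e ^ (Fintype.card k - 1), h⟩ : P.v.valuationSubring)
        ^ gs (Fintype.card k) (degP P) - algebraMap k P.v.valuationSubring c) := by
    rw [map_sub, map_pow]
    rfl
  rw [e1, residue_eq_zero_iff]
  rfl


/-- the local factor -/
theorem dq_ball (P : Pl k K) (hdeg : degE P = degP P) (f : K) (E : Pl k K →₀ ℤ)
    (hf : P.v f = exp (-((Fintype.card k - 1 : ℤ) * E P))) (c : k) (hc : IsChi f E P c)
    (hP : St (phi (k := k) f) (ball P (E P - 1))) (hQ : St (phi (k := k) f) (ball P (E P))) :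
    dq (phi (k := k) f) hP hQ = 1 - C c * X ^ degP P := by
  obtain ⟨hfin, hrank⟩ := finrank_Kap P hdeg
  obtain ⟨e, he, hc⟩ := hc
  have hv := v_fe P he hf
  rw [norm_uu_iff P hdeg f e hv.le] at hc
  rw [dq_ball_aux P f e _ he hv.le, chr_psi, hc, hrank]
  intro h0
  have h1 := (residue_eq_zero_iff P ⟨f * e ^ (Fintype.card k - 1), hv.le⟩).mp h0
  simp only [hv, lt_self_iff_false] at h1

theorem st_ball (P : Pl k K) (f : K) (a n : ℤ)
    (hf : P.v f ≤ exp (-((Fintype.card k - 1 : ℤ) * a))) (hn : n ≤ a) :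
    St (phi (k := k) f) (ball P n) := by
  intro s hs
  have hq : 2 ≤ Fintype.card k := Fintype.one_lt_card
  rw [mem_ball] at hs ⊢
  rw [phi_apply, map_mul, map_pow]
  calc P.v f * P.v s ^ Fintype.card k
      ≤ exp (-((Fintype.card k - 1 : ℤ) * a)) * exp n ^ Fintype.card k :=
        mul_le_mul' hf (pow_le_pow_left₀ zero_le hs _)
    _ = exp (-((Fintype.card k - 1 : ℤ) * a) + Fintype.card k * n) := by
        rw [← exp_nsmul, ← exp_add, nsmul_eq_mul]
    _ ≤ exp n := by
        rw [exp_le_exp]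
        have : (2 : ℤ) ≤ Fintype.card k := by exact_mod_cast hq
        nlinarith

/-- below the critical level `Φ` is zero on the graded pieces -/
theorem dq_ball_one (P : Pl k K) (hdeg : degE P = degP P) (f : K) (a n : ℤ)
    (hf : P.v f ≤ exp (-((Fintype.card k - 1 : ℤ) * a))) (hn : n < a)
    (hP : St (phi (k := k) f) (ball P (n - 1))) (hQ : St (phi (k := k) f) (ball P n)) :
    dq (phi (k := k) f) hP hQ = 1 := by
  obtain ⟨e, he⟩ := P.surj (exp n)
  obtain ⟨hfin, hrank⟩ := finrank_Kap P hdeg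
  refine dq_nilpotent _ _ _ (Module.Finite.equiv (grEquiv P e n he).symm) 1 fun s hs => ?_
  rw [pow_one]
  have hq : 2 ≤ Fintype.card k := Fintype.one_lt_card
  rw [mem_ball] at hs ⊢
  rw [phi_apply, map_mul, map_pow]
  calc P.v f * P.v s ^ Fintype.card k
      ≤ exp (-((Fintype.card k - 1 : ℤ) * a)) * exp n ^ Fintype.card k :=
        mul_le_mul' hf (pow_le_pow_left₀ zero_le hs _)
    _ = exp (-((Fintype.card k - 1 : ℤ) * a) + Fintype.card k * n) := by
        rw [← exp_nsmul, ← exp_add, nsmul_eq_mul]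
    _ ≤ exp (n - 1) := by
        rw [exp_le_exp]
        have : (2 : ℤ) ≤ Fintype.card k := by exact_mod_cast hq
        nlinarith


end Factor

end Crest.Agent.R013.CntLoc_262
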