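import Mathlib
import Crest.Agent.R013.RR15_948
import Crest.Agent.R013.PicD_398
import Crest.Agent.R013.CntP2_127

-- ▼ part R013/CntP1_127
section

/-!
# R013 / CntP1: growth of the `p`-part, abstract group theory (helper127)
-/

set_option autoImplicit false
set_option linter.all false

namespace Crest.Agent.R013.CntP1_127

/-- the `p`-primary part of an abelian group -/
def pp (p : ℕ) (A : Type*) [AddCommGroup A] : AddSubgroup A where
  carrier := {z | ∃ n : ℕ, p ^ n • z = 0}
  add_mem' := by
    rintro a b ⟨n, hn⟩ ⟨m, hm⟩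
    refine ⟨n + m, ?_⟩
    rw [smul_add, pow_add]
    nth_rewrite 1 [mul_comm]
    rw [mul_smul, hn, smul_zero, mul_smul, hm, smul_zero, add_zero]
  zero_mem' := ⟨0, by simp⟩
  neg_mem' := by
    rintro a ⟨n, hn⟩
    exact ⟨n, by rw [smul_neg, hn, neg_zero]⟩


section Group

variable {A B : Type*} [AddCommGroup A] [AddCommGroup B]

/-- the norm on `p`-primary parts -/
def ppMap (p : ℕ) (f : B →+ A) : pp p B →+ pp p A where
  toFun z := ⟨f z, by
    obtain ⟨n, hn⟩ := z.2
    exact ⟨n, by rw [← map_nsmul, hn, map_zero]⟩⟩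
  map_zero' := by ext; simp
  map_add' x y := by ext; simp

@[simp] theorem ppMap_coe (p : ℕ) (f : B →+ A) (z : pp p B) : (ppMap p f z : A) = f z := rfl

theorem card_eq_ker_mul_range {G H : Type*} [AddCommGroup G] [AddCommGroup H] (f : G →+ H) :
    Nat.card G = Nat.card f.ker * Nat.card f.range := by
  rw [AddSubgroup.card_eq_card_quotient_mul_card_addSubgroup f.ker,
    Nat.card_congr (QuotientAddGroup.quotientKerEquivRange f).toEquiv, mul_comm]

/-- the kernel of the norm is killed by `l` if `B[p^2]` comes from `A` -/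
theorem ker_nm {p l : ℕ} (hp : p.Prime) (hl : l.Prime) (con : A →+ B) (nm : B →+ A)
    (hinj : Function.Injective con) (hnm : ∀ a, nm (con a) = l • a)
    (hB : ∀ b : B, p ^ 2 • b = 0 → ∃ a, con a = b) {b : B} (hb : b ∈ pp p B) (h0 : nm b = 0) :
    (if l = p then p • b = 0 else b = 0) := by
  classical
  by_cases hlp : l = p
  · rw [if_pos hlp]
    obtain ⟨n, hn⟩ := hb
    by_contra hpb
    -- least n with p^n b = 0 is at least 2
    have hex : ∃ n : ℕ, p ^ n • b = 0 := ⟨n, hn⟩
    set s := Nat.find hex with hs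
    have hs0 : p ^ s • b = 0 := Nat.find_spec hex
    have hmin : ∀ m, m < s → p ^ m • b ≠ 0 := fun m hm => Nat.find_min hex hm
    have hs2 : 2 ≤ s := by
      by_contra hlt
      push Not at hlt
      interval_cases h : s
      · rw [pow_zero, one_smul] at hs0
        apply hpb; rw [hs0, smul_zero]
      · rw [pow_one] at hs0
        exact hpb hs0
    have h1 : p ^ 2 • (p ^ (s - 2) • b) = 0 := by
      rw [← mul_smul, ← pow_add, show 2 + (s - 2) = s by omega, hs0]
    obtain ⟨a, ha⟩ := hB _ h1
    have h2 : p • a = 0 := by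
      rw [← hlp, ← hnm a, ha, map_nsmul, h0, smul_zero]
    have h3 : p ^ (s - 1) • b = 0 := by
      rw [show s - 1 = 1 + (s - 2) by omega, pow_add, pow_one, mul_smul, ← ha, ← map_nsmul, h2,
        map_zero]
    exact hmin (s - 1) (by omega) h3
  · rw [if_neg hlp]
    obtain ⟨n, hn⟩ := hb
    by_contra hb0
    have hex : ∃ n : ℕ, p ^ n • b = 0 := ⟨n, hn⟩
    set s := Nat.find hex with hs
    have hs0 : p ^ s • b = 0 := Nat.find_spec hex
    have hmin : ∀ m, m < s → p ^ m • b ≠ 0 := fun m hm => Nat.find_min hex hm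
    have hs1 : 1 ≤ s := by
      by_contra hlt
      push Not at hlt
      interval_cases h : s
      rw [pow_zero, one_smul] at hs0
      exact hb0 hs0
    have h1 : p • (p ^ (s - 1) • b) = 0 := by
      rw [← mul_smul, ← pow_succ', show s - 1 + 1 = s by omega, hs0]
    obtain ⟨a, ha⟩ := hB (p ^ (s - 1) • b) (by rw [pow_two, mul_smul, h1, smul_zero])
    have h2 : l • a = 0 := by
      rw [← hnm a, ha, map_nsmul, h0, smul_zero]
    have h3 : p • a = 0 := by
      apply hinj
      rw [map_nsmul, ha, h1, map_zero]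
    have hcop : Nat.Coprime l p := (Nat.coprime_primes hl hp).mpr hlp
    have h4 : a = 0 := by
      have hdl : addOrderOf a ∣ l := addOrderOf_dvd_of_nsmul_eq_zero h2
      have hdp : addOrderOf a ∣ p := addOrderOf_dvd_of_nsmul_eq_zero h3
      have := Nat.dvd_gcd hdl hdp
      rw [hcop] at this
      exact AddMonoid.addOrderOf_eq_one_iff.mp (Nat.dvd_one.mp this)
    apply hmin (s - 1) (by omega)
    rw [← ha, h4, map_zero]

theorem card_pp_le {p l : ℕ} (hp : p.Prime) (hl : l.Prime) (con : A →+ B) (nm : B →+ A)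
    (hinj : Function.Injective con) (hnm : ∀ a, nm (con a) = l • a)
    (hB : ∀ b : B, p ^ 2 • b = 0 → ∃ a, con a = b) (hA : Finite (pp p A))
    (hfin : Finite {b : B // p • b = 0}) :
    Finite (pp p B) ∧ Nat.card (pp p B) ≤
      Nat.card (pp p A) * (if l = p then Nat.card {b : B // p • b = 0} else 1) := by
  classical
  let f := ppMap p nm
  have hker : ∀ z : f.ker, if l = p then p • ((z : pp p B) : B) = 0 else ((z : pp p B) : B) = 0 :=
    fun z => ker_nm hp hl con nm hinj hnm hB (z : pp p B).2 (by
      have := z.2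
      rw [AddMonoidHom.mem_ker] at this
      exact congrArg Subtype.val this)
  have hkf : Finite f.ker ∧
      Nat.card f.ker ≤ (if l = p then Nat.card {b : B // p • b = 0} else 1) := by
    by_cases hlp : l = p
    · simp only [if_pos hlp] at hker ⊢
      let g : f.ker → {b : B // p • b = 0} := fun z => ⟨((z : pp p B) : B), hker z⟩
      have hg : Function.Injective g := by
        intro x y hxy
        have := congrArg Subtype.val hxy
        exact Subtype.ext (Subtype.ext this)
      exact ⟨Finite.of_injective g hg, Nat.card_le_card_of_injective g hg⟩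
    · simp only [if_neg hlp] at hker ⊢
      have hsub : Subsingleton f.ker := ⟨fun x y => by
        apply Subtype.ext; apply Subtype.ext
        rw [hker x, hker y]⟩
      exact ⟨inferInstance, Finite.card_le_one_iff_subsingleton.mpr hsub⟩
  obtain ⟨hkfin, hkc⟩ := hkf
  haveI : Finite f.range := Finite.of_injective (fun x : f.range => (x : pp p A))
    Subtype.val_injective
  have hq : Finite (pp p B ⧸ f.ker) :=
    Finite.of_equiv _ (QuotientAddGroup.quotientKerEquivRange f).toEquiv.symm
  have hBf : Finite (pp p B) :=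
    Finite.of_equiv _ (AddSubgroup.addGroupEquivQuotientProdAddSubgroup (s := f.ker)).symm
  refine ⟨hBf, ?_⟩
  rw [card_eq_ker_mul_range f, mul_comm]
  refine Nat.mul_le_mul ?_ hkc
  exact Nat.card_le_card_of_injective (fun x : f.range => (x : pp p A)) Subtype.val_injective

/-- if `A[n]` and `B[n]` have the same number of elements an injection `A → B` is onto on `B[n]` -/
theorem surj_of_card {n : ℕ} (con : A →+ B) (hinj : Function.Injective con)
    (hfin : Finite {b : B // n • b = 0})
    (hcard : Nat.card {b : B // n • b = 0} ≤ Nat.card {a : A // n • a = 0}) {b : B}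
    (hb : n • b = 0) : ∃ a, con a = b := by
  let g : {a : A // n • a = 0} → {b : B // n • b = 0} := fun a => ⟨con a, by
    rw [← map_nsmul, a.2, map_zero]⟩
  have hg : Function.Injective g := by
    intro x y hxy
    exact Subtype.ext (hinj (congrArg Subtype.val hxy))
  haveI : Finite {a : A // n • a = 0} := Finite.of_injective g hg
  have hcard' : Nat.card {a : A // n • a = 0} = Nat.card {b : B // n • b = 0} :=
    le_antisymm (Nat.card_le_card_of_injective g hg) hcard
  have hbij := (Nat.bijective_iff_injective_and_card g).mpr ⟨hg, hcard'⟩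
  obtain ⟨a, ha⟩ := hbij.2 ⟨b, hb⟩
  exact ⟨a, congrArg Subtype.val ha⟩

/-- `|B[p^2]| ≤ |B[p]|^2` -/
theorem card_sq_le {p : ℕ} (hfin : Finite {b : B // p • b = 0}) :
    Finite {b : B // p ^ 2 • b = 0} ∧
      Nat.card {b : B // p ^ 2 • b = 0} ≤ Nat.card {b : B // p • b = 0} ^ 2 := by
  let G : AddSubgroup B := (nsmulAddMonoidHom (α := B) (p ^ 2)).ker
  let H : AddSubgroup B := (nsmulAddMonoidHom (α := B) p).ker
  have hG : ∀ b, b ∈ G ↔ p ^ 2 • b = 0 := fun b => Iff.rfl
  have hH : ∀ b, b ∈ H ↔ p • b = 0 := fun b => Iff.rfl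
  let f : G →+ H :=
    { toFun := fun x => ⟨p • (x : B), by
        rw [hH, ← mul_smul, ← pow_two]
        exact x.2⟩
      map_zero' := by ext; simp
      map_add' := fun x y => by ext; simp }
  haveI : Finite H := hfin
  have hk : Function.Injective (fun z : f.ker => (⟨((z : G) : B), by
      rw [hH]
      exact congrArg Subtype.val ((AddMonoidHom.mem_ker).mp z.2)⟩ : H)) := by
    intro x y hxy
    have h1 := congrArg Subtype.val hxy
    exact Subtype.ext (Subtype.ext h1)
  haveI : Finite f.ker := Finite.of_injective _ hk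
  have hq : Finite (G ⧸ f.ker) :=
    Finite.of_equiv _ (QuotientAddGroup.quotientKerEquivRange f).toEquiv.symm
  have hGf : Finite G :=
    Finite.of_equiv _ (AddSubgroup.addGroupEquivQuotientProdAddSubgroup (s := f.ker)).symm
  refine ⟨hGf, ?_⟩
  show Nat.card G ≤ Nat.card H ^ 2
  rw [card_eq_ker_mul_range f, pow_two]
  exact Nat.mul_le_mul (Nat.card_le_card_of_injective _ hk)
    (Nat.card_le_card_of_injective (fun x : f.range => (x : H)) Subtype.val_injective)

end Group

end Crest.Agent.R013.CntP1_127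
end

-- ▼ part R013/CntP3_127
section

/-!
# R013 / CntP3: `Pic[p]` is finite, function fields over perfect fields (helper127)
-/

set_option autoImplicit false
set_option linter.all false

namespace Crest.Agent.R013.CntP3_127

open Finset WithZero Module
open Crest.Agent.R013.RR7_948 Crest.Agent.R013.RR8_948 Crest.Agent.R013.RR9_948
open Crest.Agent.R013.RR11_948 Crest.Agent.R013.RR14_948 Crest.Agent.R013.RR15_948
open Crest.Agent.R013.PicD_398 Crest.Agent.R013.CntP1_127 Crest.Agent.R013.CntP2_127

section Rep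

variable {K : Type*} [Field K] (p : ℕ) [hp : Fact p.Prime] [CharP K p]

theorem rep_add (x : K) {a b : K} (ha : ∃ f : ℕ → K, a = ∑ i ∈ range p, f i ^ p * x ^ i)
    (hb : ∃ f : ℕ → K, b = ∑ i ∈ range p, f i ^ p * x ^ i) :
    ∃ f : ℕ → K, a + b = ∑ i ∈ range p, f i ^ p * x ^ i := by
  obtain ⟨f, rfl⟩ := ha
  obtain ⟨g, rfl⟩ := hb
  refine ⟨fun i => f i + g i, ?_⟩
  rw [← sum_add_distrib]
  refine sum_congr rfl fun i _ => ?_
  rw [add_pow_char, add_mul]

theorem rep_mono (x f : K) (n : ℕ) :
    ∃ g : ℕ → K, f ^ p * x ^ n = ∑ i ∈ range p, g i ^ p * x ^ i := by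
  refine ⟨fun i => if i = n % p then f * x ^ (n / p) else 0, ?_⟩
  rw [sum_eq_single (n % p)]
  · simp only [if_true]
    rw [mul_pow, ← pow_mul, mul_assoc, ← pow_add, Nat.div_add_mod']
  · intro i _ hi
    simp only [if_neg hi]
    rw [zero_pow hp.out.ne_zero, zero_mul]
  · intro h
    exact absurd (mem_range.mpr (Nat.mod_lt _ hp.out.pos)) h

end Rep

section Span

variable {k : Type*} [Field k] {K : Type*} [Field K] [Algebra k K] [Algebra (RatFunc k) K]
  [IsScalarTower k (RatFunc k) K] [FiniteDimensional (RatFunc k) K]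
  [Algebra.IsSeparable (RatFunc k) K]
  (p : ℕ) [hp : Fact p.Prime] [CharP K p] [CharP k p] [PerfectField k]

omit [FiniteDimensional (RatFunc k) K] in
theorem exists_root (c : k) : ∃ d : k, d ^ p = c := by
  haveI : PerfectRing k p := PerfectField.toPerfectRing p
  obtain ⟨d, hd⟩ := surjective_frobenius k p c
  exact ⟨d, hd⟩

theorem exists_rep (h : K) : ∃ f : ℕ → K, h = ∑ i ∈ range p, f i ^ p * (xK k K) ^ i := by
  set x := xK k K with hx
  let F₀ : Subfield K := (frobenius K p).fieldRange
  have hF : ∀ y : K, y ^ p ∈ F₀ := fun y => ⟨y, rfl⟩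
  have hF' : ∀ y : F₀, ∃ z : K, z ^ p = (y : K) := fun y => y.2
  have hxint : IsIntegral F₀ x := by
    refine ⟨Polynomial.X ^ p - Polynomial.C ⟨x ^ p, hF x⟩, ?_, ?_⟩
    · exact Polynomial.monic_X_pow_sub_C _ hp.out.ne_zero
    · rw [Polynomial.eval₂_sub, Polynomial.eval₂_X_pow, Polynomial.eval₂_C]
      exact sub_self _
  let E : IntermediateField F₀ K := IntermediateField.adjoin F₀ {x}
  have hxE : x ∈ E := IntermediateField.mem_adjoin_simple_self F₀ x
  have hkE : ∀ c : k, algebraMap k K c ∈ E := by
    intro c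
    obtain ⟨d, rfl⟩ := exists_root p c
    rw [map_pow]
    exact E.algebraMap_mem ⟨_, hF (algebraMap k K d)⟩
  have hpoly : ∀ q : Polynomial k, Polynomial.aeval x q ∈ E := by
    intro q
    rw [Polynomial.aeval_eq_sum_range]
    refine E.sum_mem fun i _ => ?_
    rw [Algebra.smul_def]
    exact E.mul_mem (hkE _) (pow_mem hxE _)
  have hrat : ∀ f : RatFunc k, algebraMap (RatFunc k) K f ∈ E := by
    intro f
    rw [← RatFunc.num_div_denom f, map_div₀, algebraMap_poly, algebraMap_poly]
    exact E.div_mem (hpoly _) (hpoly _)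
  have hsurj : ∀ y : K, y ∈ E := by
    letI : Algebra (RatFunc k) E :=
      ((algebraMap (RatFunc k) K).codRestrict E hrat).toAlgebra
    haveI : IsScalarTower (RatFunc k) E K := IsScalarTower.of_algebraMap_eq fun _ => rfl
    haveI : Algebra.IsSeparable E K := Algebra.isSeparable_tower_top_of_isSeparable (RatFunc k) E K
    haveI : ExpChar E p := by
      haveI : CharP E p := by
        haveI := (algebraMap E K).charP_iff (algebraMap E K).injective p
        exact this.mpr inferInstance
      exact ExpChar.prime hp.out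
    haveI : IsPurelyInseparable E K := by
      rw [isPurelyInseparable_iff_pow_mem E p]
      intro y
      refine ⟨1, ?_⟩
      rw [pow_one]
      exact ⟨⟨y ^ p, E.algebraMap_mem ⟨_, hF y⟩⟩, rfl⟩
    intro y
    obtain ⟨z, hz⟩ := IsPurelyInseparable.surjective_algebraMap_of_isSeparable E K y
    rw [← hz]
    exact z.2
  have hh := hsurj h
  have hh' : h ∈ E.toSubalgebra := hh
  rw [IntermediateField.adjoin_simple_toSubalgebra_of_isAlgebraic hxint.isAlgebraic,
    Algebra.adjoin_singleton_eq_range_aeval] at hh'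
  obtain ⟨q, rfl⟩ := hh'
  show ∃ f : ℕ → K, Polynomial.aeval x q = _
  rw [Polynomial.aeval_eq_sum_range]
  have key : ∀ s : Finset ℕ, ∃ f : ℕ → K, ∑ i ∈ s, q.coeff i • x ^ i
      = ∑ i ∈ range p, f i ^ p * x ^ i := by
    classical
    intro s
    induction s using Finset.induction_on with
    | empty =>
      refine ⟨fun _ => 0, ?_⟩
      rw [sum_empty]
      symm
      refine sum_eq_zero fun i _ => ?_
      rw [zero_pow hp.out.ne_zero, zero_mul]
    | insert i s hi ih =>
      rw [sum_insert hi]
      refine rep_add p x ?_ ih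
      obtain ⟨z, hz⟩ := hF' (q.coeff i)
      rw [Algebra.smul_def]
      have : algebraMap F₀ K (q.coeff i) = z ^ p := hz.symm
      rw [this]
      exact rep_mono p x z i
  exact key _

end Span

section Indep

variable {k : Type*} [Field k] {K : Type*} [Field K] [Algebra k K]
  (p : ℕ) [hp : Fact p.Prime] [CharP K p] [CharP k p] [PerfectField k]

theorem mem_prime_field {d : k} (hd : d ^ p = d) :
    ∃ z : ZMod p, ZMod.castHom (dvd_refl p) k z = d := by
  have h1 := (Subfield.mem_bot_iff_pow_eq_self (F := k) (p := p)).mpr hd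
  have h2 : (⊥ : Subfield k) ≤ (ZMod.castHom (dvd_refl p) k).fieldRange := bot_le
  exact h2 h1

/-- `𝔽_p`-linear independence implies `k`-linear independence on the fixed vectors of a
`p⁻¹`-linear operator -/
theorem relation {ι : Type*} (Φ : K → K) (hadd : ∀ a b, Φ (a + b) = Φ a + Φ b)
    (hsmul : ∀ (c : k) a, Φ (c • a) = c • Φ a) (v : ι → K) (hv : ∀ i, Φ (v i) = v i ^ p)
    (hli : ∀ (s : Finset ι) (c : ι → ZMod p),
      ∑ i ∈ s, (ZMod.castHom (dvd_refl p) k (c i)) • v i = 0 → ∀ i ∈ s, c i = 0)
    (s : Finset ι) (c : ι → k) (hc : ∑ i ∈ s, c i • v i = 0) : ∀ i ∈ s, c i = 0 := by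
  classical
  have hΦ0 : Φ 0 = 0 := by
    have := hadd 0 0
    rw [add_zero] at this
    exact left_eq_add.mp this
  have hΦs : ∀ (s : Finset ι) (c : ι → k), Φ (∑ i ∈ s, c i • v i) = ∑ i ∈ s, c i • v i ^ p := by
    intro s c
    induction s using Finset.induction_on with
    | empty => simp [hΦ0]
    | insert i s hi ih => rw [sum_insert hi, sum_insert hi, hadd, ih, hsmul, hv]
  induction s using Finset.induction_on generalizing c with
  | empty => intro i hi; simp at hi
  | insert j s hj ih =>
    by_cases hcj : c j = 0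
    · rw [sum_insert hj, hcj, zero_smul, zero_add] at hc
      intro i hi
      rcases Finset.mem_insert.mp hi with rfl | hi
      · exact hcj
      · exact ih c hc i hi
    · exfalso
      -- normalise
      let d : ι → k := fun i => c i / c j
      have hdj : d j = 1 := div_self hcj
      have hd : ∑ i ∈ insert j s, d i • v i = 0 := by
        have h1 : ∑ i ∈ insert j s, d i • v i = (c j)⁻¹ • ∑ i ∈ insert j s, c i • v i := by
          rw [smul_sum]
          refine sum_congr rfl fun i _ => ?_
          rw [smul_smul]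
          congr 1
          show c i / c j = _
          rw [div_eq_inv_mul]
        rw [h1, hc, smul_zero]
      have h1 : ∑ i ∈ insert j s, d i • v i ^ p = 0 := by
        rw [← hΦs, hd, hΦ0]
      have h2 : ∑ i ∈ insert j s, d i ^ p • v i ^ p = 0 := by
        have h3 := congrArg (fun y => y ^ p) hd
        simp only [zero_pow hp.out.ne_zero] at h3
        rw [← h3, sum_pow_char]
        refine sum_congr rfl fun i _ => ?_
        rw [smul_pow]
      have h3 : ∑ i ∈ s, (d i ^ p - d i) • v i ^ p = 0 := by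
        have h4 : ∑ i ∈ insert j s, (d i ^ p - d i) • v i ^ p = 0 := by
          simp only [sub_smul]
          rw [sum_sub_distrib, h1, h2, sub_zero]
        rw [sum_insert hj, hdj, one_pow, sub_self, zero_smul, zero_add] at h4
        exact h4
      choose e he using fun i => exists_root (k := k) p (d i ^ p - d i)
      have h5 : (∑ i ∈ s, e i • v i) ^ p = 0 := by
        rw [sum_pow_char, ← h3]
        refine sum_congr rfl fun i _ => ?_
        rw [smul_pow, he]
      have h6 := ih e (pow_eq_zero_iff hp.out.ne_zero |>.mp h5)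
      have h7 : ∀ i ∈ insert j s, d i ^ p = d i := by
        intro i hi
        rcases Finset.mem_insert.mp hi with rfl | hi
        · rw [hdj, one_pow]
        · have h8 := he i
          rw [h6 i hi, zero_pow hp.out.ne_zero] at h8
          exact (sub_eq_zero.mp h8.symm)
      have h8 : ∀ i, ∃ z : ZMod p, i ∈ insert j s → ZMod.castHom (dvd_refl p) k z = d i := by
        intro i
        by_cases hi : i ∈ insert j s
        · obtain ⟨z, hz⟩ := mem_prime_field p (h7 i hi)
          exact ⟨z, fun _ => hz⟩
        · exact ⟨0, fun h => absurd h hi⟩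
      choose z hz using h8
      have h9 := hli (insert j s) z (by
        rw [← hd]
        refine sum_congr rfl fun i hi => ?_
        rw [hz i hi]) j (Finset.mem_insert_self _ _)
      have h10 := hz j (Finset.mem_insert_self _ _)
      rw [h9, map_zero, hdj] at h10
      exact zero_ne_one h10

theorem card_le (Φ : K → K) (hadd : ∀ a b, Φ (a + b) = Φ a + Φ b)
    (hsmul : ∀ (c : k) a, Φ (c • a) = c • Φ a) (V : AddSubgroup K) (hV : ∀ a ∈ V, Φ a = a ^ p)
    (L : Submodule k K) [Module.Finite k L] (hVL : ∀ a ∈ V, a ∈ L) :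
    Finite V ∧ Nat.card V ≤ p ^ finrank k L := by
  classical
  letI : Algebra (ZMod p) K := ZMod.algebra K p
  letI : Algebra (ZMod p) k := ZMod.algebra k p
  let V' : Submodule (ZMod p) K := AddSubgroup.toZModSubmodule p V
  have hV' : ∀ a, a ∈ V' ↔ a ∈ V := fun a => Iff.rfl
  let b := Module.Free.chooseBasis (ZMod p) V'
  let v : Module.Free.ChooseBasisIndex (ZMod p) V' → K := fun i => (b i : K)
  have hv : LinearIndependent (ZMod p) v := b.linearIndependent.map' V'.subtype (by simp)
  have hcast : ∀ (z : ZMod p) (y : K), (ZMod.castHom (dvd_refl p) k z) • y = z • y := by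
    intro z y
    rw [Algebra.smul_def, Algebra.smul_def]
    congr 1
    have : (algebraMap k K).comp (ZMod.castHom (dvd_refl p) k) = algebraMap (ZMod p) K :=
      Subsingleton.elim _ _
    rw [← this]
    rfl
  have hk : LinearIndependent k v := by
    rw [linearIndependent_iff']
    intro s c hc
    refine relation p Φ hadd hsmul v (fun i => hV _ (b i).2) ?_ s c hc
    intro s c hc
    rw [linearIndependent_iff'] at hv
    apply hv
    rw [← hc]
    refine sum_congr rfl fun i _ => (hcast _ _).symm
  let w : Module.Free.ChooseBasisIndex (ZMod p) V' → L := fun i => ⟨v i, hVL _ (b i).2⟩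
  have hw : LinearIndependent k w := by
    have : (v : _ → K) = L.subtype ∘ w := rfl
    rw [this] at hk
    exact LinearIndependent.of_comp _ hk
  haveI : Finite (Module.Free.ChooseBasisIndex (ZMod p) V') := hw.finite
  haveI := Fintype.ofFinite (Module.Free.ChooseBasisIndex (ZMod p) V')
  have hcardι := hw.fintype_card_le_finrank
  have e : V ≃ (Module.Free.ChooseBasisIndex (ZMod p) V' → ZMod p) := b.equivFun.toEquiv
  haveI : Finite (Module.Free.ChooseBasisIndex (ZMod p) V' → ZMod p) := inferInstance
  refine ⟨Finite.of_equiv _ e.symm, ?_⟩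
  rw [Nat.card_congr e, Nat.card_fun, Nat.card_zmod, Nat.card_eq_fintype_card]
  exact Nat.pow_le_pow_right hp.out.pos hcardι

end Indep

end Crest.Agent.R013.CntP3_127
end

-- ▼ part R013/CntP4_127

/-!
# R013 / CntP4: uniform bound for `d/dX`, `|Pic[p]| ≤ p ^ ℓ(W)` (helper127)
-/

set_option autoImplicit false
set_option linter.all false

namespace Crest.Agent.R013.CntP4_127

open Polynomial Finset WithZero Module IsDedekindDomain nonZeroDivisors
open Crest.Agent.R013.RR2_948 Crest.Agent.R013.RR3_948
open Crest.Agent.R013.RR7_948 Crest.Agent.R013.RR8_948 Crest.Agent.R013.RR9_948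
open Crest.Agent.R013.RR11_948 Crest.Agent.R013.RR12_948
open Crest.Agent.R013.RR14_948 Crest.Agent.R013.RR15_948
open Crest.Agent.R013.PicD_398 Crest.Agent.R013.CntP1_127 Crest.Agent.R013.CntP2_127
open Crest.Agent.R013.CntP3_127

section Bounded

variable {k : Type*} [Field k] {K : Type*} [Field K] [Algebra k K]
  {A : Type*} [CommRing A] [IsDedekindDomain A] [Algebra A K] [IsFractionRing A K]
  {S : Type*} [CommRing S] [Algebra S A] [Module.Finite S A] [Algebra S K] [IsScalarTower S A K]

/-- a derivation is bounded on a chart, uniformly -/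
theorem exists_gens (d : Derivation k K K) :
    ∃ G : Finset K, ∀ (w : HeightOneSpectrum A) (N : ℤ), 0 ≤ N →
      (∀ s : S, w.valuation K (d (algebraMap S K s)) ≤ 1) →
      (∀ g ∈ G, w.valuation K (d g) ≤ exp N) →
      ∀ u : K, w.valuation K u ≤ 1 → w.valuation K (d u) ≤ exp N := by
  classical
  obtain ⟨G, hG⟩ := (Module.Finite.fg_top : (⊤ : Submodule S A).FG)
  refine ⟨G.image (algebraMap A K), ?_⟩
  intro w N hN0 hS hN
  replace hN : ∀ g ∈ G, w.valuation K (d (algebraMap A K g)) ≤ exp N :=
    fun g hg => hN _ (Finset.mem_image_of_mem _ hg)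
  have h1N : (1 : ℤᵐ⁰) ≤ exp N := by rw [← exp_zero, exp_le_exp]; exact hN0
  have hA : ∀ a : A, w.valuation K (d (algebraMap A K a)) ≤ exp N := by
    intro a
    have ha : a ∈ Submodule.span S (G : Set A) := by rw [hG]; trivial
    induction ha using Submodule.span_induction with
    | mem x hx => exact hN x hx
    | zero => simp
    | add x y _ _ hx hy =>
      rw [map_add, map_add]
      exact (Valuation.map_add _ _ _).trans (max_le hx hy)
    | smul s x _ hx =>
      have h1 : algebraMap A K (s • x) = algebraMap S K s * algebraMap A K x := by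
        rw [Algebra.smul_def, map_mul, ← IsScalarTower.algebraMap_apply]
      rw [h1, Derivation.leibniz, smul_eq_mul, smul_eq_mul]
      have hs : w.valuation K (algebraMap S K s) ≤ 1 := by
        rw [IsScalarTower.algebraMap_apply S A K]; exact w.valuation_le_one _
      have hx' : w.valuation K (algebraMap A K x) ≤ 1 := w.valuation_le_one _
      refine (Valuation.map_add _ _ _).trans (max_le ?_ ?_)
      · rw [map_mul]
        calc _ ≤ 1 * exp N := mul_le_mul' hs hx
          _ = exp N := one_mul _
      · rw [map_mul]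
        calc _ ≤ 1 * 1 := mul_le_mul' hx' (hS s)
          _ ≤ exp N := by rw [one_mul]; exact h1N
  intro u hu
  obtain ⟨n, b, hnb⟩ := w.exists_primeCompl_mul_eq_of_integer u hu
  have hb : w.valuation K (algebraMap A K (b : A)) = 1 := by
    rw [HeightOneSpectrum.valuation_of_algebraMap]
    exact (w.intValuation_eq_one_iff_mem_primeCompl _).mpr b.2
  have h1 := congrArg d hnb
  rw [Derivation.leibniz, smul_eq_mul, smul_eq_mul] at h1
  have h2 : algebraMap A K (b : A) * d u = d (algebraMap A K n) - u * d (algebraMap A K (b : A)) := by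
    rw [← h1]; ring
  have h3 : w.valuation K (d u) = w.valuation K (algebraMap A K (b : A) * d u) := by
    rw [map_mul, hb, one_mul]
  rw [h3, h2]
  refine (Valuation.map_sub _ _ _).trans (max_le (hA n) ?_)
  rw [map_mul]
  calc _ ≤ 1 * exp N := mul_le_mul' hu (hA _)
    _ = exp N := one_mul _

end Bounded

section Global

variable {k : Type*} [Field k] {K : Type*} [Field K] [Algebra k K] [Algebra (RatFunc k) K]
  [IsScalarTower k (RatFunc k) K] [FiniteDimensional (RatFunc k) K]
  [Algebra.IsSeparable (RatFunc k) K]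

/-- `d/dX` is bounded by `1` on functions of `X` regular at infinity -/
theorem del_Rinf (P : Pl k K) (h : 1 < P.v (xK k K)) (f : RatFunc k) (hs : vinf k f ≤ 1) :
    P.v (del k K (algebraMap (RatFunc k) K f)) ≤ 1 := by
  have htriv : P.v.IsTrivialOn k := ⟨P.const⟩
  have hq0 : f.denom ≠ 0 := f.denom_ne_zero
  have hf' : algebraMap (RatFunc k) K f
      = Polynomial.aeval (xK k K) f.num / Polynomial.aeval (xK k K) f.denom := by
    rw [← algebraMap_poly, ← algebraMap_poly, ← map_div₀, RatFunc.num_div_denom]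
  set c := P.v (xK k K) with hc
  have hc0 : 0 < c := lt_trans zero_lt_one h
  have hval : ∀ p : k[X], p ≠ 0 → P.v (Polynomial.aeval (xK k K) p) = c ^ p.natDegree :=
    fun p hp => Polynomial.valuation_aeval_eq_valuation_X_pow_natDegree_of_one_lt_valuation_X _ h hp
  have hder : ∀ p : k[X], P.v (Polynomial.aeval (xK k K) (Polynomial.derivative p)) * c
      ≤ c ^ p.natDegree := by
    intro p
    by_cases h0 : Polynomial.derivative p = 0
    · rw [h0]; simp
    · rw [hval _ h0, ← pow_succ]
      apply pow_le_pow_right₀ h.le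
      have : (Polynomial.derivative p).natDegree < p.natDegree := by
        apply Polynomial.natDegree_derivative_lt
        intro h1
        apply h0
        rw [Polynomial.eq_C_of_natDegree_eq_zero h1]; simp
      omega
  by_cases hp0 : f.num = 0
  · have : f = 0 := RatFunc.num_eq_zero_iff.mp hp0
    rw [this]; simp
  rw [hf', Derivation.leibniz_div, smul_eq_mul, smul_eq_mul, smul_eq_mul, del_poly, del_poly]
  have hdeg : f.num.natDegree ≤ f.denom.natDegree := by
    have h1 : vinf k f ≤ 1 := hs
    have h2 : vinf k f = vinf k (algebraMap k[X] (RatFunc k) f.num)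
        / vinf k (algebraMap k[X] (RatFunc k) f.denom) := by
      rw [← map_div₀, RatFunc.num_div_denom]
    rw [h2, vinf_poly k hp0, vinf_poly k hq0, ← exp_sub, ← exp_zero, exp_le_exp] at h1
    omega
  set m := f.num.natDegree with hm
  set n := f.denom.natDegree with hn
  have hX : P.v (Polynomial.aeval (xK k K) f.denom *
        Polynomial.aeval (xK k K) (Polynomial.derivative f.num) -
      Polynomial.aeval (xK k K) f.num *
        Polynomial.aeval (xK k K) (Polynomial.derivative f.denom)) * c ≤ c ^ (m + n) := by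
    have h3 : ∀ a b : K, P.v (a - b) * c ≤ max (P.v a * c) (P.v b * c) := by
      intro a b
      have h5 := Valuation.map_sub P.v a b
      rcases max_choice (P.v a) (P.v b) with hm | hm
      · rw [hm] at h5; exact le_max_of_le_left (mul_le_mul_left h5 _)
      · rw [hm] at h5; exact le_max_of_le_right (mul_le_mul_left h5 _)
    refine (h3 _ _).trans (max_le ?_ ?_)
    · rw [map_mul, mul_assoc, hval _ hq0, add_comm m n, pow_add]
      exact mul_le_mul_right (hder _) _
    · rw [map_mul, mul_assoc, hval _ hp0, pow_add]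
      exact mul_le_mul_right (hder _) _
  rw [map_mul, map_pow, map_inv₀, hval _ hq0]
  have h4 : P.v (Polynomial.aeval (xK k K) f.denom *
        Polynomial.aeval (xK k K) (Polynomial.derivative f.num) -
      Polynomial.aeval (xK k K) f.num *
        Polynomial.aeval (xK k K) (Polynomial.derivative f.denom)) ≤ c ^ (m + n) := by
    refine le_trans ?_ hX
    exact le_mul_of_one_le_right' h.le
  calc ((c ^ n)⁻¹) ^ 2 * _ ≤ ((c ^ n)⁻¹) ^ 2 * c ^ (m + n) := mul_le_mul_right h4 _
    _ ≤ ((c ^ n)⁻¹) ^ 2 * c ^ (n + n) :=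
        mul_le_mul_right (pow_le_pow_right₀ h.le (by omega)) _
    _ = 1 := by
        rw [pow_add, inv_pow, ← sq]
        exact inv_mul_cancel₀ (pow_ne_zero _ (pow_ne_zero _ hc0.ne'))

/-- polar part of the divisor of a function -/
noncomputable def polar (f : K) : Pl k K →₀ ℤ := (-divf (k := k) f) ⊔ 0

theorem polar_nonneg (f : K) : 0 ≤ polar (k := k) f := le_sup_right

theorem v_le_polar (f : K) (P : Pl k K) : P.v f ≤ exp (polar (k := k) f P) := by
  by_cases hf : f = 0
  · rw [hf, map_zero]; exact zero_le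
  · rw [v_eq hf, exp_le_exp]
    have : (-divf (k := k) f) ≤ polar f := le_sup_left
    exact this P

/-- a divisor `W` bounding `d/dX` -/
def Bd (W : Pl k K →₀ ℤ) : Prop :=
  ∀ (P : Pl k K) (u : K), P.v u ≤ 1 → P.v (del k K u) ≤ exp (W P)

variable (k K) in
theorem exists_Bd : ∃ W : Pl k K →₀ ℤ, Bd W := by
  use_charts k, K
  haveI : Module.Finite (Polynomial k) (integralClosure (Polynomial k) K) :=
    IsIntegralClosure.finite (Polynomial k) (RatFunc k) K _
  haveI : Module.Finite (Rinf k) (integralClosure (Rinf k) K) :=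
    IsIntegralClosure.finite (Rinf k) (RatFunc k) K _
  obtain ⟨G₀, hG₀⟩ := exists_gens (A := integralClosure (Polynomial k) K) (S := Polynomial k)
    (del k K)
  obtain ⟨G₁, hG₁⟩ := exists_gens (A := integralClosure (Rinf k) K) (S := Rinf k)
    (del k K)
  let W₀ : Pl k K →₀ ℤ := ∑ g ∈ G₀, polar (del k K g)
  let W₁ : Pl k K →₀ ℤ := ∑ g ∈ G₁, polar (del k K g)
  have hW₀ : 0 ≤ W₀ := Finset.sum_nonneg fun _ _ => polar_nonneg _
  have hW₁ : 0 ≤ W₁ := Finset.sum_nonneg fun _ _ => polar_nonneg _
  have hg₀ : ∀ g ∈ G₀, polar (del k K g) ≤ W₀ + W₁ := fun g hg =>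
    (Finset.single_le_sum (f := fun g => polar (k := k) (del k K g))
      (fun _ _ => polar_nonneg _) hg).trans (le_add_of_nonneg_right hW₁)
  have hg₁ : ∀ g ∈ G₁, polar (del k K g) ≤ W₀ + W₁ := fun g hg =>
    (Finset.single_le_sum (f := fun g => polar (k := k) (del k K g))
      (fun _ _ => polar_nonneg _) hg).trans (le_add_of_nonneg_left hW₀)
  refine ⟨W₀ + W₁, ?_⟩
  intro P u hu
  rcases le_or_gt (P.v (xK k K)) 1 with h | h
  · obtain ⟨w, rfl⟩ := exists_ofH₀ (A₀ := integralClosure (Polynomial k) K) P h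
    refine hG₀ w _ ?_ ?_ ?_ u hu
    · exact add_nonneg (hW₀ (ofH w)) (hW₁ (ofH w))
    · intro s
      rw [IsScalarTower.algebraMap_apply k[X] (RatFunc k) K, algebraMap_poly, del_poly]
      exact v_aeval_le (ofH w) h _
    · intro g hg
      exact (v_le_polar (del k K g) (ofH w : Pl k K)).trans (exp_le_exp.mpr (hg₀ g hg (ofH w)))
  · obtain ⟨w, rfl⟩ := exists_ofH₁ (A₁ := integralClosure (Rinf k) K) P h
    refine hG₁ w _ ?_ ?_ ?_ u hu
    · exact add_nonneg (hW₀ (ofH w)) (hW₁ (ofH w))
    · intro s
      exact del_Rinf (ofH w) h (s : RatFunc k) s.2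
    · intro g hg
      exact (v_le_polar (del k K g) (ofH w : Pl k K)).trans (exp_le_exp.mpr (hg₁ g hg (ofH w)))

variable (p : ℕ) [hp : Fact p.Prime] [CharP K p] [CharP k p] [PerfectField k]

omit [CharP k p] [PerfectField k] in
theorem divf_pow {f : K} (hf : f ≠ 0) (n : ℕ) : divf (k := k) (f ^ n) = n • divf f := by
  induction n with
  | zero => rw [pow_zero, divf_one, zero_smul]
  | succ n ih => rw [pow_succ, divf_mul (pow_ne_zero _ hf) hf, ih, succ_nsmul]

/-- logarithmic derivatives of functions with divisor divisible by `p` -/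
noncomputable def dlogs : AddSubgroup K where
  carrier := {a | ∃ h : K, h ≠ 0 ∧ (∃ D : Pl k K →₀ ℤ, divf (k := k) h = p • D) ∧
    a = del k K h / h}
  add_mem' := by
    rintro _ _ ⟨h, h0, ⟨D, hD⟩, rfl⟩ ⟨g, g0, ⟨E, hE⟩, rfl⟩
    refine ⟨h * g, mul_ne_zero h0 g0, ⟨D + E, by rw [divf_mul h0 g0, hD, hE, smul_add]⟩, ?_⟩
    rw [Derivation.leibniz, smul_eq_mul, smul_eq_mul]
    field_simp
    ring
  zero_mem' := ⟨1, one_ne_zero, ⟨0, by rw [divf_one, smul_zero]⟩, by simp⟩
  neg_mem' := by
    rintro _ ⟨h, h0, ⟨D, hD⟩, rfl⟩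
    refine ⟨h⁻¹, inv_ne_zero h0, ⟨-D, by rw [divf_inv h0, hD, smul_neg]⟩, ?_⟩
    rw [Derivation.leibniz_inv, smul_eq_mul]
    field_simp


omit [CharP k p] [PerfectField k] in
theorem dlogs_le {W : Pl k K →₀ ℤ} (hW : Bd W) {a : K} (ha : a ∈ dlogs (k := k) p) :
    a ∈ LD W := by
  obtain ⟨h, h0, ⟨D, hD⟩, rfl⟩ := ha
  rw [mem_LD]
  intro P
  obtain ⟨t, ht0, ht⟩ := exists_v_eq P (D P)
  have hu : P.v (t ^ p * h) = 1 := by
    rw [map_mul, map_pow, ht, v_eq h0, hD, ← exp_nsmul, ← exp_add]
    simp
  have h1 : del k K h / h = del k K (t ^ p * h) / (t ^ p * h) := by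
    rw [del_pow_mul]
    have : t ^ p ≠ 0 := pow_ne_zero _ ht0
    field_simp
  rw [h1, map_div₀, hu, div_one]
  exact hW P _ hu.le

/-- **`Pic[p]` is finite** -/
theorem card_pic_le {W : Pl k K →₀ ℤ} (hW : Bd W) :
    Finite {z : Pic k K // p • z = 0} ∧ Nat.card {z : Pic k K // p • z = 0} ≤ p ^ ell W := by
  classical
  have hspan := exists_rep (k := k) (K := K) p
  have hx := del_xK k K
  haveI := LD_finite W
  -- the operator
  let Φ : K → K := fun a => - (del k K)^[p - 1] a
  have h1 := card_le (k := k) p Φ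
    (fun a b => by simp only [Φ]; rw [iter_add, neg_add])
    (fun c a => by simp only [Φ]; rw [iter_smul, smul_neg])
    (dlogs (k := k) p) (by
      rintro _ ⟨h, h0, _, rfl⟩
      simp only [Φ]
      rw [jacobson p (del k K) hx hspan h0, neg_neg])
    (LD W) (fun a ha => dlogs_le p hW ha)
  obtain ⟨hfin, hcard⟩ := h1
  have hex : ∀ z : {z : Pic k K // p • z = 0}, ∃ (h : K) (D : Pl k K →₀ ℤ), h ≠ 0 ∧
      divf (k := k) h = p • D ∧ cls D = (z : Pic k K) := by
    rintro ⟨z, hz⟩
    obtain ⟨D, rfl⟩ := cls_surjective z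
    rw [← map_nsmul, cls_eq_zero_iff] at hz
    obtain ⟨f, hf, hfD⟩ := hz
    exact ⟨f, D, hf, hfD, rfl⟩
  choose h D h0 hD hcls using hex
  let φ : {z : Pic k K // p • z = 0} → dlogs (k := k) (K := K) p :=
    fun z => ⟨del k K (h z) / h z, ⟨h z, h0 z, ⟨D z, hD z⟩, rfl⟩⟩
  have hφ : Function.Injective φ := by
    intro z w hzw
    have h2 : del k K (h z) / h z = del k K (h w) / h w := congrArg Subtype.val hzw
    have h3 : del k K (h z / h w) = 0 := by
      have hz0 := h0 z
      have hw0 := h0 w
      rw [Derivation.leibniz_div, smul_eq_mul, smul_eq_mul, smul_eq_mul]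
      rw [div_eq_div_iff hz0 hw0] at h2
      rw [mul_comm (h w), h2]
      ring
    obtain ⟨f, hf⟩ := exists_pow_of_del_eq_zero p (del k K) hx hspan h3
    have hf0 : f ≠ 0 := by
      rintro rfl
      rw [zero_pow hp.out.ne_zero, div_eq_zero_iff] at hf
      exact hf.elim (h0 z) (h0 w)
    have h4 : divf (k := k) (h z) = p • divf f + divf (h w) := by
      rw [← divf_pow hf0, ← divf_mul (pow_ne_zero _ hf0) (h0 w), ← hf, div_mul_cancel₀ _ (h0 w)]
    rw [hD z, hD w, ← smul_add] at h4
    have h5 : D z = D w + divf (k := k) f := by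
      rw [add_comm]
      ext P
      have h6 := DFunLike.congr_fun h4 P
      simp only [Finsupp.smul_apply, nsmul_eq_mul] at h6
      exact mul_left_cancel₀ (by exact_mod_cast hp.out.ne_zero) h6
    apply Subtype.ext
    rw [← hcls z, ← hcls w]
    exact cls_eq_iff.mpr ⟨f, hf0, h5⟩
  exact ⟨Finite.of_injective φ hφ, (Nat.card_le_card_of_injective φ hφ).trans hcard⟩

end Global

end Crest.Agent.R013.CntP4_127
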