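import Mathlib
import Crest.Agent.R013.RR12_948
import Crest.Agent.R013.PicD_398

-- ▼ part R013/WR1_777
section

/-!
# R013 / WR1: determinants in short exact sequences and commuting squares (helper777)

Abstract linear algebra for Weil reciprocity.
-/

set_option autoImplicit false

namespace Crest.Agent.R013.WR1_777

open LinearMap Module

section det

variable {k : Type*} [Field k] {E E' Q : Type*} [AddCommGroup E] [Module k E]
  [AddCommGroup E'] [Module k E'] [AddCommGroup Q] [Module k Q]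

/-- multiplicativity of the determinant in a short exact sequence `0 → E' → E → Q → 0` -/
theorem det_exact [Module.Finite k E] (j : E' →ₗ[k] E) (hj : Function.Injective j)
    (l : E →ₗ[k] Q) (hl : Function.Surjective l) (hex : ∀ x, l x = 0 ↔ ∃ y, j y = x)
    (F' : E' →ₗ[k] E') (F : E →ₗ[k] E) (g : Q →ₗ[k] Q)
    (h1 : ∀ y, F (j y) = j (F' y)) (h2 : ∀ x, l (F x) = g (l x)) :
    LinearMap.det F = LinearMap.det F' * LinearMap.det g := by
  have hN : ∀ x ∈ LinearMap.range j, F x ∈ LinearMap.range j := by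
    rintro _ ⟨y, rfl⟩
    exact ⟨F' y, (h1 y).symm⟩
  have hker : LinearMap.range j = LinearMap.ker l := by
    ext x
    rw [LinearMap.mem_range, LinearMap.mem_ker, hex]
  have hN' : LinearMap.range j ≤ (LinearMap.range j).comap F := fun x hx => hN x hx
  rw [LinearMap.det_eq_det_mul_det (LinearMap.range j) F hN']
  congr 1
  · -- the restriction
    let e : E' ≃ₗ[k] LinearMap.range j := LinearEquiv.ofInjective j hj
    have : (F.restrict hN' : LinearMap.range j →ₗ[k] LinearMap.range j)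
        = (e : E' →ₗ[k] LinearMap.range j) ∘ₗ F' ∘ₗ
          (e.symm : LinearMap.range j →ₗ[k] E') := by
      refine LinearMap.ext fun x => Subtype.ext ?_
      obtain ⟨y, rfl⟩ := e.surjective x
      simp only [LinearMap.restrict_apply, LinearMap.coe_comp, LinearEquiv.coe_coe,
        Function.comp_apply, LinearEquiv.symm_apply_apply]
      exact h1 y
    rw [this, LinearMap.det_conj]
  · let e : (E ⧸ LinearMap.range j) ≃ₗ[k] Q :=
      (Submodule.quotEquivOfEq _ _ hker).trans (l.quotKerEquivOfSurjective hl)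
    have he : ∀ x : E, e (Submodule.Quotient.mk x) = l x := fun x => rfl
    have : g = (e : _ →ₗ[k] Q) ∘ₗ ((LinearMap.range j).mapQ (LinearMap.range j) F hN')
        ∘ₗ (e.symm : Q →ₗ[k] _) := by
      ext x
      obtain ⟨y, rfl⟩ := e.surjective x
      obtain ⟨z, rfl⟩ := Submodule.Quotient.mk_surjective _ y
      simp only [LinearMap.coe_comp, LinearEquiv.coe_coe,
        Function.comp_apply, LinearEquiv.symm_apply_apply]
      rw [Submodule.mapQ_apply, he, he, h2]
    rw [this, LinearMap.det_conj]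

/-- conjugate endomorphisms have the same determinant -/
theorem det_conj' (j : E' →ₗ[k] E) (hj : Function.Bijective j)
    (F' : E' →ₗ[k] E') (F : E →ₗ[k] E) (h1 : ∀ y, F (j y) = j (F' y)) :
    LinearMap.det F = LinearMap.det F' := by
  let e : E' ≃ₗ[k] E := LinearEquiv.ofBijective j hj
  have : F = (e : E' →ₗ[k] _) ∘ₗ F' ∘ₗ (e.symm : _ →ₗ[k] E') := by
    ext x
    obtain ⟨y, rfl⟩ := e.surjective x
    simp only [LinearMap.coe_comp, LinearEquiv.coe_coe,
      Function.comp_apply, LinearEquiv.symm_apply_apply]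
    exact h1 y
  rw [this, LinearMap.det_conj]

theorem det_ne_zero_of_inj [Module.Finite k E] (F : E →ₗ[k] E) (hF : Function.Injective F) :
    LinearMap.det F ≠ 0 := by
  have h : IsUnit F := (LinearMap.isUnit_iff_ker_eq_bot F).mpr (LinearMap.ker_eq_bot.mpr hF)
  exact (h.map LinearMap.det).ne_zero

/-- lift a map through an injective map -/
theorem exists_lift {V : Type*} [AddCommGroup V] [Module k V] (e : E →ₗ[k] V)
    (he : Function.Injective e) (g : E' →ₗ[k] V) (hg : ∀ x, ∃ y, e y = g x) :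
    ∃ F : E' →ₗ[k] E, ∀ x, e (F x) = g x := by
  obtain ⟨r, hr⟩ := e.exists_leftInverse_of_injective (LinearMap.ker_eq_bot.mpr he)
  refine ⟨r ∘ₗ g, fun x => ?_⟩
  obtain ⟨y, hy⟩ := hg x
  have : r (e y) = y := LinearMap.congr_fun hr y
  rw [LinearMap.comp_apply, ← hy, this]

end det

section quad

variable {k : Type*} [Field k] {V : Type*} [AddCommGroup V] [Module k V]

/-- the map `I × X × Z → V`, `(i, x, z) ↦ i + s x + t z` -/
noncomputable def qm {X Z : Type*} [AddCommGroup X] [Module k X] [AddCommGroup Z] [Module k Z]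
    (I : Submodule k V) (s : X →ₗ[k] V) (t : Z →ₗ[k] V) : (I × X × Z) →ₗ[k] V :=
  I.subtype.coprod (s.coprod t)

theorem qm_apply {X Z : Type*} [AddCommGroup X] [Module k X] [AddCommGroup Z] [Module k Z]
    (I : Submodule k V) (s : X →ₗ[k] V) (t : Z →ₗ[k] V) (i : I) (x : X) (z : Z) :
    qm I s t (i, x, z) = i + (s x + t z) := by
  simp [qm]

/-- `s` embeds `X` onto a complement of `I` in `A` -/
structure Cmp {X : Type*} [AddCommGroup X] [Module k X] (I A : Submodule k V)
    (s : X →ₗ[k] V) : Prop where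
  inj : Function.Injective s
  disj : ∀ x, s x ∈ I → x = 0
  le : I ≤ A
  mem : ∀ x, s x ∈ A
  sup : ∀ a ∈ A, ∃ i ∈ I, ∃ x, a = i + s x

theorem exists_Cmp {I A : Submodule k V} (h : I ≤ A) :
    ∃ X : Submodule k V, Cmp I A X.subtype := by
  obtain ⟨X0, hX0⟩ := Submodule.exists_isCompl (I.submoduleOf A)
  refine ⟨X0.map A.subtype, ⟨Subtype.val_injective, ?_, h, ?_, ?_⟩⟩
  · rintro ⟨_, ⟨x, hx, rfl⟩⟩ hI
    have h1 : x ∈ I.submoduleOf A ⊓ X0 := ⟨hI, hx⟩
    rw [hX0.inf_eq_bot] at h1
    have h2 : x = 0 := h1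
    subst h2
    rfl
  · rintro ⟨_, ⟨x, hx, rfl⟩⟩
    exact x.2
  · intro a ha
    have h1 : (⟨a, ha⟩ : A) ∈ I.submoduleOf A ⊔ X0 := by rw [hX0.sup_eq_top]; trivial
    obtain ⟨i, hi, x, hx, hix⟩ := Submodule.mem_sup.mp h1
    refine ⟨i, hi, ⟨(x : V), ⟨x, hx, rfl⟩⟩, ?_⟩
    have := congrArg (Subtype.val) hix
    exact this.symm

theorem Cmp.finrank {X : Type*} [AddCommGroup X] [Module k X] {I A : Submodule k V}
    {s : X →ₗ[k] V} (h : Cmp I A s) [Module.Finite k A] :
    finrank k I + finrank k X = finrank k A := by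
  have : Module.Finite k I := Submodule.finiteDimensional_of_le h.le
  have hr : LinearMap.range s ≤ A := by rintro _ ⟨x, rfl⟩; exact h.mem x
  have : Module.Finite k (LinearMap.range s) := Submodule.finiteDimensional_of_le hr
  have h1 : I ⊔ LinearMap.range s = A := by
    refine le_antisymm (sup_le h.le hr) ?_
    intro a ha
    obtain ⟨i, hi, x, rfl⟩ := h.sup a ha
    exact Submodule.mem_sup.mpr ⟨i, hi, s x, ⟨x, rfl⟩, rfl⟩
  have h2 : I ⊓ LinearMap.range s = ⊥ := by
    rw [eq_bot_iff]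
    rintro _ ⟨hi, x, rfl⟩
    have := h.disj x hi
    subst this
    simp
  have h3 := Submodule.finrank_sup_add_finrank_inf_eq I (LinearMap.range s)
  rw [h1, h2, finrank_bot, LinearMap.finrank_range_of_inj h.inj] at h3
  omega

theorem Cmp.finite {X : Type*} [AddCommGroup X] [Module k X] {I A : Submodule k V}
    {s : X →ₗ[k] V} (h : Cmp I A s) [Module.Finite k A] : Module.Finite k X := by
  have hr : LinearMap.range s ≤ A := by rintro _ ⟨x, rfl⟩; exact h.mem x
  have : Module.Finite k (LinearMap.range s) := Submodule.finiteDimensional_of_le hr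
  exact Module.Finite.equiv (LinearEquiv.ofInjective s h.inj).symm

theorem Cmp.comp {X X' : Type*} [AddCommGroup X] [Module k X] [AddCommGroup X'] [Module k X']
    {I A : Submodule k V} {s : X →ₗ[k] V} (h : Cmp I A s) (e : X' ≃ₗ[k] X) :
    Cmp I A (s ∘ₗ (e : X' →ₗ[k] X)) where
  inj := h.inj.comp e.injective
  disj := fun x hx => by
    have := h.disj (e x) hx
    exact e.map_eq_zero_iff.mp this
  le := h.le
  mem := fun x => h.mem _
  sup := fun a ha => by
    obtain ⟨i, hi, x, rfl⟩ := h.sup a ha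
    refine ⟨i, hi, e.symm x, ?_⟩
    simp

section
variable {X Z : Type*} [AddCommGroup X] [Module k X] [AddCommGroup Z] [Module k Z]
  {I A B : Submodule k V} {s : X →ₗ[k] V} {t : Z →ₗ[k] V}

theorem qm_inj (hs : Cmp I A s) (ht : Cmp I B t) (hAB : A ⊓ B ≤ I) :
    Function.Injective (qm I s t) := by
  rw [injective_iff_map_eq_zero]
  rintro ⟨i, x, z⟩ h
  rw [qm_apply] at h
  have h1 : t z ∈ I := by
    refine hAB ⟨?_, ht.mem z⟩
    have : t z = -((i : V) + s x) := by
      rw [← add_assoc] at h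
      exact (neg_eq_of_add_eq_zero_right h).symm
    rw [this]
    exact A.neg_mem (A.add_mem (hs.le i.2) (hs.mem x))
  have hz := ht.disj z h1
  subst hz
  rw [map_zero, add_zero] at h
  have h2 : s x ∈ I := by
    have : s x = -(i : V) := (neg_eq_of_add_eq_zero_right h).symm
    rw [this]
    exact I.neg_mem i.2
  have hx := hs.disj x h2
  subst hx
  rw [map_zero, add_zero] at h
  have hi : i = 0 := Subtype.ext h
  rw [hi]
  rfl

theorem qm_range (hs : Cmp I A s) (ht : Cmp I B t) (v : V) :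
    (∃ p, qm I s t p = v) ↔ v ∈ A ⊔ B := by
  constructor
  · rintro ⟨⟨i, x, z⟩, rfl⟩
    rw [qm_apply, ← add_assoc]
    exact Submodule.add_mem_sup (A.add_mem (hs.le i.2) (hs.mem x)) (ht.mem z)
  · intro hv
    obtain ⟨a, ha, b, hb, rfl⟩ := Submodule.mem_sup.mp hv
    obtain ⟨i, hi, x, rfl⟩ := hs.sup a ha
    obtain ⟨i', hi', z, rfl⟩ := ht.sup b hb
    refine ⟨(⟨i, hi⟩ + ⟨i', hi'⟩, x, z), ?_⟩
    rw [qm_apply, Submodule.coe_add]
    abel

end

end quad

end Crest.Agent.R013.WR1_777
end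

-- ▼ part R013/WR2_777
section

/-!
# R013 / WR2: local norms and determinants of multiplication modulo a divisor (helper777)

`nrm P f : kˣ` is the norm to `k` of the value of `f` at the place `P` (for `P.v f = 1`; it is `1`
otherwise), defined as the determinant of multiplication by `f` on `ball P 0 / ball P (-1)`.
-/

set_option autoImplicit false
set_option linter.all false

namespace Crest.Agent.R013.WR2_777

open WithZero Module
open Crest.Agent.R013.RR1_948 Crest.Agent.R013.RR2_948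
open Crest.Agent.R013.RR7_948 Crest.Agent.R013.RR8_948 Crest.Agent.R013.RR9_948
open Crest.Agent.R013.RR11_948 Crest.Agent.R013.RR12_948 Crest.Agent.R013.WR1_777

section local_

variable {k : Type*} [Field k] {K : Type*} [Field K] [Algebra k K]

/-- the graded piece `ball P m / ball P (m-1)` -/
abbrev gr (P : Pl k K) (m : ℤ) := ball P m ⧸ (ball P (m - 1)).submoduleOf (ball P m)

theorem mul_mem_ball {P : Pl k K} {m : ℤ} {f : K} (hf : P.v f ≤ 1) {x : K} (hx : x ∈ ball P m) :
    f * x ∈ ball P m := by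
  rw [mem_ball] at *
  rw [map_mul]
  calc P.v f * P.v x ≤ 1 * exp m := mul_le_mul' hf hx
    _ = exp m := one_mul _

/-- multiplication by `f` on `ball P m` -/
noncomputable def mulB (P : Pl k K) (m : ℤ) (f : K) (hf : P.v f ≤ 1) :
    ball P m →ₗ[k] ball P m :=
  (LinearMap.mulLeft k f).restrict fun _ hx => mul_mem_ball hf hx

theorem coe_mulB (P : Pl k K) (m : ℤ) (f : K) (hf : P.v f ≤ 1) (x : ball P m) :
    (mulB P m f hf x : K) = f * x := rfl

/-- multiplication by `f` on the graded piece -/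
noncomputable def mulGr (P : Pl k K) (m : ℤ) (f : K) (hf : P.v f ≤ 1) : gr P m →ₗ[k] gr P m :=
  Submodule.mapQ _ _ (mulB P m f hf) fun x hx => by
    show (mulB P m f hf x : K) ∈ ball P (m - 1)
    rw [coe_mulB]
    exact mul_mem_ball hf hx

theorem mulGr_mk (P : Pl k K) (m : ℤ) (f : K) (hf : P.v f ≤ 1) (x : ball P m) :
    mulGr P m f hf (Submodule.Quotient.mk x) = Submodule.Quotient.mk (mulB P m f hf x) := rfl

theorem gr_eq {P : Pl k K} {m : ℤ} {x y : ball P m} :
    (Submodule.Quotient.mk x : gr P m) = Submodule.Quotient.mk y ↔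
      (x : K) - y ∈ ball P (m - 1) := by
  rw [Submodule.Quotient.eq]
  rfl

theorem mulGr_congr (P : Pl k K) (m : ℤ) {f g : K} (hf : P.v f ≤ 1) (hg : P.v g ≤ 1)
    (h : P.v (f - g) < 1) : mulGr P m f hf = mulGr P m g hg := by
  refine LinearMap.ext fun x => ?_
  obtain ⟨x, rfl⟩ := Submodule.Quotient.mk_surjective _ x
  rw [mulGr_mk, mulGr_mk, gr_eq, coe_mulB, coe_mulB, ← sub_mul, mem_ball, map_mul]
  have h1 : P.v (f - g) ≤ exp (-1) := (lt_one_iff _).mp h
  calc P.v (f - g) * P.v (x : K) ≤ exp (-1) * exp m := mul_le_mul' h1 (mem_ball.mp x.2)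
    _ = exp (m - 1) := by rw [← exp_add]; congr 1; ring

theorem mulGr_mul (P : Pl k K) (m : ℤ) {f g : K} (hf : P.v f ≤ 1) (hg : P.v g ≤ 1)
    (hfg : P.v (f * g) ≤ 1) : mulGr P m (f * g) hfg = mulGr P m f hf ∘ₗ mulGr P m g hg := by
  refine LinearMap.ext fun x => ?_
  obtain ⟨x, rfl⟩ := Submodule.Quotient.mk_surjective _ x
  rw [LinearMap.comp_apply, mulGr_mk, mulGr_mk, mulGr_mk]
  congr 1
  exact Subtype.ext (mul_assoc _ _ _)

theorem v_const_le (P : Pl k K) (c : k) : P.v (algebraMap k K c) ≤ 1 := by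
  by_cases hc : c = 0
  · simp [hc]
  · rw [P.const c hc]

theorem mulGr_const (P : Pl k K) (m : ℤ) (c : k) :
    mulGr P m (algebraMap k K c) (v_const_le P c) = c • LinearMap.id := by
  refine LinearMap.ext fun x => ?_
  obtain ⟨x, rfl⟩ := Submodule.Quotient.mk_surjective _ x
  rw [mulGr_mk, LinearMap.smul_apply, LinearMap.id_apply, ← Submodule.Quotient.mk_smul]
  congr 1
  refine Subtype.ext ?_
  rw [coe_mulB, Submodule.coe_smul, Algebra.smul_def]

theorem det_mulGr_mul (P : Pl k K) (m : ℤ) {f g : K} (hf : P.v f ≤ 1) (hg : P.v g ≤ 1)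
    (hfg : P.v (f * g) ≤ 1) : LinearMap.det (mulGr P m (f * g) hfg)
      = LinearMap.det (mulGr P m f hf) * LinearMap.det (mulGr P m g hg) := by
  rw [mulGr_mul P m hf hg, LinearMap.det_comp]

theorem det_mulGr_one (P : Pl k K) (m : ℤ) (h : P.v (1 : K) ≤ 1) :
    LinearMap.det (mulGr P m 1 h) = 1 := by
  have : mulGr P m 1 h = LinearMap.id := by
    refine LinearMap.ext fun x => ?_
    obtain ⟨x, rfl⟩ := Submodule.Quotient.mk_surjective _ x
    rw [mulGr_mk, LinearMap.id_apply]
    congr 1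
    refine Subtype.ext ?_
    rw [coe_mulB, one_mul]
  rw [this, LinearMap.det_id]

theorem det_mulGr_ne_zero (P : Pl k K) (m : ℤ) {f : K} (hf : P.v f = 1) :
    LinearMap.det (mulGr P m f hf.le) ≠ 0 := by
  have hf0 : f ≠ 0 := by rintro rfl; simp at hf
  have h1 : P.v f⁻¹ ≤ 1 := by rw [map_inv₀, hf, inv_one]
  have h2 : P.v (f * f⁻¹) ≤ 1 := by rw [mul_inv_cancel₀ hf0, map_one]
  have h3 := det_mulGr_mul P m hf.le h1 h2
  have h4 : LinearMap.det (mulGr P m (f * f⁻¹) h2) = 1 := by
    have : mulGr P m (f * f⁻¹) h2 = mulGr P m 1 (by rw [map_one]) := by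
      congr 1
      exact mul_inv_cancel₀ hf0
    rw [this, det_mulGr_one]
  intro h
  rw [h4, h, zero_mul] at h3
  exact one_ne_zero h3

open Classical in
/-- the norm of the value of `f` at `P` -/
noncomputable def nrm (P : Pl k K) (f : K) : kˣ :=
  if h : P.v f = 1 then Units.mk0 _ (det_mulGr_ne_zero P 0 h) else 1

theorem nrm_of_ne {P : Pl k K} {f : K} (h : P.v f ≠ 1) : nrm P f = 1 := dif_neg h

theorem coe_nrm {P : Pl k K} {f : K} (h : P.v f = 1) :
    (nrm P f : k) = LinearMap.det (mulGr P 0 f h.le) := by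
  unfold nrm
  rw [dif_pos h]
  rfl

/-- the determinant on any graded piece -/
theorem det_mulGr (P : Pl k K) (m : ℤ) {f : K} (h : P.v f = 1) :
    LinearMap.det (mulGr P m f h.le) = nrm P f := by
  rw [coe_nrm h]
  obtain ⟨t, ht0, ht⟩ := exists_v_eq P m
  have hmem : ∀ (n : ℤ) (x : K), x ∈ ball P n → t * x ∈ ball P (n + m) := by
    intro n x hx
    rw [mem_ball] at *
    rw [map_mul, ht]
    calc exp m * P.v x ≤ exp m * exp n := mul_le_mul_right hx _
      _ = exp (n + m) := by rw [← exp_add]; congr 1; ring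
  have hmem0 : ∀ x : K, x ∈ ball P 0 → t * x ∈ ball P m := by
    intro x hx
    have := hmem 0 x hx
    rwa [zero_add] at this
  let T : ball P 0 →ₗ[k] ball P m := (LinearMap.mulLeft k t).restrict fun x hx => hmem0 x hx
  have hT : ∀ x, (T x : K) = t * x := fun x => rfl
  let j : gr P 0 →ₗ[k] gr P m := Submodule.mapQ _ _ T (by
    intro x hx
    show (T x : K) ∈ ball P (m - 1)
    rw [hT]
    have := hmem (0 - 1) x hx
    have h2 : (0 : ℤ) - 1 + m = m - 1 := by ring
    rwa [h2] at this)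
  have hj : ∀ x, j (Submodule.Quotient.mk x) = Submodule.Quotient.mk (T x) := fun x => rfl
  refine det_conj' j ⟨?_, ?_⟩ _ _ ?_
  · rw [injective_iff_map_eq_zero]
    intro x hx
    obtain ⟨x, rfl⟩ := Submodule.Quotient.mk_surjective _ x
    rw [hj, ← Submodule.Quotient.mk_zero, gr_eq, hT, Submodule.coe_zero, sub_zero, mem_ball,
      map_mul, ht] at hx
    rw [← Submodule.Quotient.mk_zero, gr_eq, Submodule.coe_zero, sub_zero, mem_ball]
    have h1 : exp (-m) * (exp m * P.v (x : K)) ≤ exp (-m) * exp (m - 1) := mul_le_mul_right hx _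
    rw [← mul_assoc, ← exp_add, ← exp_add] at h1
    have h2 : -m + m = 0 := by ring
    have h3 : -m + (m - 1) = 0 - 1 := by ring
    rw [h2, h3, exp_zero, one_mul] at h1
    exact h1
  · intro y
    obtain ⟨y, rfl⟩ := Submodule.Quotient.mk_surjective _ y
    have h1 : t⁻¹ * (y : K) ∈ ball P 0 := by
      have := mem_ball.mp y.2
      rw [mem_ball, map_mul, map_inv₀, ht, ← exp_neg]
      calc exp (-m) * P.v (y : K) ≤ exp (-m) * exp m := mul_le_mul_right this _
        _ = exp 0 := by rw [← exp_add]; congr 1; ring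
    refine ⟨Submodule.Quotient.mk ⟨_, h1⟩, ?_⟩
    rw [hj]
    congr 1
    refine Subtype.ext ?_
    rw [hT]
    show t * (t⁻¹ * (y : K)) = y
    rw [← mul_assoc, mul_inv_cancel₀ ht0, one_mul]
  · intro y
    obtain ⟨y, rfl⟩ := Submodule.Quotient.mk_surjective _ y
    rw [hj, mulGr_mk, mulGr_mk, hj]
    congr 1
    refine Subtype.ext ?_
    rw [coe_mulB, hT, hT, coe_mulB]
    ring

theorem nrm_mul {P : Pl k K} {f g : K} (hf : P.v f = 1) (hg : P.v g = 1) :
    nrm P (f * g) = nrm P f * nrm P g := by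
  have hfg : P.v (f * g) = 1 := by rw [map_mul, hf, hg, one_mul]
  refine Units.ext ?_
  rw [Units.val_mul, coe_nrm hfg, coe_nrm hf, coe_nrm hg, det_mulGr_mul]

@[simp] theorem nrm_one (P : Pl k K) : nrm P (1 : K) = 1 := by
  refine Units.ext ?_
  rw [coe_nrm (map_one _), det_mulGr_one, Units.val_one]


theorem nrm_pow {P : Pl k K} {f : K} (hf : P.v f = 1) (n : ℕ) : nrm P (f ^ n) = nrm P f ^ n := by
  induction n with
  | zero => simp
  | succ n ih =>
    rw [pow_succ, pow_succ, nrm_mul (by rw [map_pow, hf, one_pow]) hf, ih]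

/-- `nrm` depends only on the residue class -/
theorem nrm_congr {P : Pl k K} {f g : K} (hf : P.v f = 1) (h : P.v (f - g) < 1) :
    nrm P f = nrm P g := by
  have hg : P.v g = 1 := by
    have : g = f - (f - g) := by ring
    rw [this]
    rw [Valuation.map_sub_eq_of_lt_left _ (by rw [hf]; exact h)]
    exact hf
  refine Units.ext ?_
  rw [coe_nrm hf, coe_nrm hg, mulGr_congr P 0 hf.le hg.le h]

/-- lists of places as effective divisors -/
noncomputable def S (l : List (Pl k K)) : Pl k K →₀ ℤ :=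
  (l.map fun P => Finsupp.single P (1 : ℤ)).sum

@[simp] theorem S_nil : S ([] : List (Pl k K)) = 0 := rfl

@[simp] theorem S_cons (P : Pl k K) (l : List (Pl k K)) :
    S (P :: l) = Finsupp.single P 1 + S l := by
  simp [S]

theorem S_append (l l' : List (Pl k K)) : S (l ++ l') = S l + S l' := by
  simp [S]

theorem S_nonneg (l : List (Pl k K)) : 0 ≤ S l := by
  induction l with
  | nil => simp
  | cons P l ih =>
    rw [S_cons]
    refine add_nonneg ?_ ih
    exact Finsupp.single_nonneg.mpr zero_le_one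

theorem S_eq_zero {l : List (Pl k K)} {P : Pl k K} (h : P ∉ l) : S l P = 0 := by
  classical
  induction l with
  | nil => simp
  | cons Q l ih =>
    rw [List.mem_cons, not_or] at h
    rw [S_cons, Finsupp.add_apply, ih h.2, Finsupp.single_apply, if_neg (Ne.symm h.1), add_zero]

theorem S_replicate (P : Pl k K) (n : ℕ) : S (List.replicate n P) = Finsupp.single P (n : ℤ) := by
  induction n with
  | zero => simp
  | succ n ih =>
    rw [List.replicate_succ, S_cons, ih, ← Finsupp.single_add]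
    congr 1
    push_cast
    ring

end local_

section global

variable {k : Type*} [Field k] {K : Type*} [Field K] [Algebra k K] [Algebra (RatFunc k) K]
  [IsScalarTower k (RatFunc k) K] [FiniteDimensional (RatFunc k) K]
  [Algebra.IsSeparable (RatFunc k) K]

theorem degD_S_nonneg (l : List (Pl k K)) : 0 ≤ degD (S l) := by
  unfold degD
  exact Finsupp.sum_nonneg fun P _ => mul_nonneg (S_nonneg l P) (by positivity)

theorem finite_gr (P : Pl k K) (m : ℤ) : Module.Finite k (gr P m) := by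
  have h := ri_ball P (m - 1)
  rw [sub_add_cancel, degE_eq] at h
  exact (Crest.Agent.R013.RR10_948.finite_of_length h).1

theorem finrank_gr (P : Pl k K) (m : ℤ) : finrank k (gr P m) = degP P := by
  have h := ri_ball P (m - 1)
  rw [sub_add_cancel, degE_eq] at h
  exact (Crest.Agent.R013.RR10_948.finite_of_length h).2

theorem nrm_const (P : Pl k K) (c : kˣ) : nrm P (algebraMap k K c) = c ^ degP P := by
  have h : P.v (algebraMap k K c) = 1 := P.const c c.ne_zero
  refine Units.ext ?_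
  rw [coe_nrm h, Units.val_pow_eq_pow_val]
  have h2 := mulGr_const P 0 (c : k)
  have h3 : mulGr P 0 (algebraMap k K c) h.le = (c : k) • LinearMap.id := h2
  have := finite_gr P 0
  rw [h3, LinearMap.det_smul, LinearMap.det_id, mul_one, finrank_gr]

/-- a function with value the constant `c` -/
theorem nrm_of_sub_lt {P : Pl k K} {f : K} {c : kˣ} (h : P.v (f - algebraMap k K c) < 1) :
    nrm P f = c ^ degP P := by
  have h1 : P.v (algebraMap k K c) = 1 := P.const c c.ne_zero
  rw [← nrm_const, eq_comm]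
  refine nrm_congr h1 ?_
  rw [← Valuation.map_neg, neg_sub]
  exact h

universe u v

/-- the determinant of a map congruent to multiplication by `f` modulo a divisor -/
theorem det_list (f : K) : ∀ (l : List (Pl k K)) (hl : ∀ P ∈ l, P.v f = 1) (D : Pl k K →₀ ℤ)
    (E : Type u) [AddCommGroup E] [Module k E] (e : E →ₗ[k] K) (he : Function.Injective e)
    (hr : ∀ v, (∃ x, e x = v) ↔ v ∈ LD D)
    (E' : Type v) [AddCommGroup E'] [Module k E'] (e' : E' →ₗ[k] K)
    (he' : Function.Injective e') (hr' : ∀ v, (∃ x, e' x = v) ↔ v ∈ LD (D - S l))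
    (j : E' →ₗ[k] E) (hj : ∀ y, e (j y) = e' y) (F : E →ₗ[k] E) (F' : E' →ₗ[k] E')
    (hF : ∀ y, F (j y) = j (F' y)) (hdeg : degD (canD k K) < degD (D - S l))
    (hc : ∀ P ∈ l, ∀ x, P.v (e (F x) - f * e x) ≤ exp ((D - S l) P)),
    LinearMap.det F = LinearMap.det F' * (l.map fun P => (nrm P f : k)).prod := by
  intro l
  classical
  induction l with
  | nil =>
    intro hl D E _ _ e he hr E' _ _ e' he' hr' j hj F F' hF hdeg hc
    rw [List.map_nil, List.prod_nil, mul_one]
    refine det_conj' j ⟨?_, ?_⟩ F' F hF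
    · intro x y hxy
      apply he'
      rw [← hj, ← hj, hxy]
    · intro x
      have h1 : e x ∈ LD D := (hr _).mp ⟨x, rfl⟩
      rw [← sub_zero D] at h1
      obtain ⟨y, hy⟩ := (hr' _).mpr h1
      refine ⟨y, he ?_⟩
      rw [hj, hy]
  | cons P l ih =>
    intro hl D E _ _ e he hr E' _ _ e' he' hr' j hj F F' hF hdeg hc
    have hPf : P.v f = 1 := hl P List.mem_cons_self
    set D1 := D - Finsupp.single P 1 with hD1
    have hD1S : D - S (P :: l) = D1 - S l := by rw [S_cons, hD1]; abel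
    have hD1P : D1 P = D P - 1 := by
      rw [hD1, Finsupp.sub_apply, Finsupp.single_eq_same]
    have hD1Q : ∀ Q, Q ≠ P → D1 Q = D Q := by
      intro Q hQ
      rw [hD1, Finsupp.sub_apply, Finsupp.single_apply, if_neg (Ne.symm hQ), sub_zero]
    have hD1D : D1 ≤ D := by
      intro Q
      by_cases hQ : Q = P
      · rw [hQ, hD1P]; omega
      · rw [hD1Q Q hQ]
    have hle1 : D1 - S l ≤ D1 := by
      intro Q
      have := S_nonneg l Q
      rw [Finsupp.zero_apply] at this
      rw [Finsupp.sub_apply]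
      omega
    have hdeg1 : degD (canD k K) < degD D1 := by
      rw [hD1S, degD_sub] at hdeg
      have := degD_S_nonneg l
      omega
    -- `E` is finite dimensional
    have hmemD : ∀ x, e x ∈ LD D := fun x => (hr _).mp ⟨x, rfl⟩
    have hfinD := LD_finite D
    have hfinE : Module.Finite k E :=
      Module.Finite.of_injective (e.codRestrict (LD D) hmemD) (fun x y hxy => he (by
        simpa using congrArg Subtype.val hxy))
    -- the subspace
    let E1 : Submodule k E := (LD D1).comap e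
    have hE1 : ∀ x, x ∈ E1 ↔ e x ∈ LD D1 := fun x => Iff.rfl
    have hcP := hc P List.mem_cons_self
    have hFE1 : ∀ x ∈ E1, F x ∈ E1 := by
      intro x hx
      rw [hE1] at *
      have h1 := hmemD (F x)
      rw [mem_LD] at h1 hx ⊢
      intro Q
      by_cases hQ : Q = P
      · subst hQ
        have h2 := hcP x
        have h3 : (D - S (Q :: l)) Q ≤ D1 Q := by rw [hD1S]; exact hle1 Q
        have h4 : e (F x) = (e (F x) - f * e x) + f * e x := by ring
        rw [h4]
        refine (Valuation.map_add _ _ _).trans (max_le (h2.trans (exp_le_exp.mpr h3)) ?_)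
        rw [map_mul, hPf, one_mul]
        exact hx Q
      · rw [hD1Q Q hQ]
        exact h1 Q
    let F1 : E1 →ₗ[k] E1 := F.restrict hFE1
    have hF1 : ∀ x, (F1 x : E) = F x := fun x => rfl
    -- the embedding of `E'`
    have hjE1 : ∀ y, j y ∈ E1 := by
      intro y
      rw [hE1, hj]
      have h1 : e' y ∈ LD (D - S (P :: l)) := (hr' _).mp ⟨y, rfl⟩
      rw [hD1S] at h1
      exact LD_mono hle1 h1
    let j1 : E' →ₗ[k] E1 := j.codRestrict E1 hjE1
    have hj1 : ∀ y, (j1 y : E) = j y := fun y => rfl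
    have key := ih (fun Q hQ => hl Q (List.mem_cons_of_mem _ hQ)) D1 E1 (e ∘ₗ E1.subtype)
      (he.comp Subtype.val_injective) (by
        intro v
        constructor
        · rintro ⟨x, rfl⟩
          exact x.2
        · intro hv
          obtain ⟨x, hx⟩ := (hr v).mpr (LD_mono hD1D hv)
          exact ⟨⟨x, by rw [hE1, hx]; exact hv⟩, hx⟩)
      E' e' he' (by intro v; rw [hr', hD1S]) j1 (fun y => hj y) F1 F'
      (fun y => Subtype.ext (hF y)) (by rw [← hD1S]; exact hdeg)
      (fun Q hQ x => by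
        rw [← hD1S]
        exact hc Q (List.mem_cons_of_mem _ hQ) x)
    -- the quotient
    have hball : ∀ x, e x ∈ ball P (D P) := fun x => mem_ball.mpr (mem_LD.mp (hmemD x) P)
    let L : E →ₗ[k] ball P (D P) := e.codRestrict _ hball
    have hL : ∀ x, (L x : K) = e x := fun x => rfl
    let q : E →ₗ[k] gr P (D P) := (Submodule.mkQ _) ∘ₗ L
    have hq : ∀ x, q x = Submodule.Quotient.mk (L x) := fun x => rfl
    have hq0 : ∀ x, q x = 0 ↔ x ∈ E1 := by
      intro x
      rw [hq, ← Submodule.Quotient.mk_zero, gr_eq, hL, Submodule.coe_zero, sub_zero, hE1]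
      constructor
      · intro h
        rw [mem_LD]
        intro Q
        by_cases hQ : Q = P
        · rw [hQ, hD1P]; exact mem_ball.mp h
        · rw [hD1Q Q hQ]; exact mem_LD.mp (hmemD x) Q
      · intro h
        rw [mem_ball, ← hD1P]
        exact mem_LD.mp h P
    have hstep : LinearMap.det F = LinearMap.det F1 * LinearMap.det (mulGr P (D P) f hPf.le) := by
      refine det_exact E1.subtype Subtype.val_injective q ?_ ?_ F1 F (mulGr P (D P) f hPf.le)
        (fun y => rfl) ?_
      · intro a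
        obtain ⟨a, rfl⟩ := Submodule.Quotient.mk_surjective _ a
        obtain ⟨g, hg1, hg2⟩ := approx_one hdeg1 P (a : K)
        have hgD : g ∈ LD D := by
          rw [mem_LD]
          intro Q
          by_cases hQ : Q = P
          · subst hQ
            have h4 : g = (g - a) + a := by ring
            rw [h4]
            exact (Valuation.map_add _ _ _).trans
              (max_le (hg1.trans (exp_le_exp.mpr (hD1D Q))) (mem_ball.mp a.2))
          · exact (hg2 Q hQ).trans (exp_le_exp.mpr (hD1D Q))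
        obtain ⟨x, hx⟩ := (hr g).mpr hgD
        refine ⟨x, ?_⟩
        rw [hq, gr_eq, hL, hx, mem_ball, ← hD1P]
        exact hg1
      · intro x
        rw [hq0]
        constructor
        · intro hx
          exact ⟨⟨x, hx⟩, rfl⟩
        · rintro ⟨y, rfl⟩
          exact y.2
      · intro x
        rw [hq, hq, mulGr_mk, gr_eq, coe_mulB, hL, hL, mem_ball]
        refine (hcP x).trans (exp_le_exp.mpr ?_)
        rw [hD1S, ← hD1P]
        exact hle1 P
    rw [hstep, key, det_mulGr P (D P) hPf, List.map_cons, List.prod_cons]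
    ring

end global

end Crest.Agent.R013.WR2_777
end

-- ▼ part R013/WR3_777
section

/-!
# R013 / WR3: Weil reciprocity (helper777)

For `f, h : K` nonzero with disjoint divisors, `∏_P nrm P f ^ (v_P h) = ∏_P nrm P h ^ (v_P f)`.
-/

set_option autoImplicit false
set_option linter.all false

namespace Crest.Agent.R013.WR3_777

open WithZero Module
open Crest.Agent.R013.RR1_948 Crest.Agent.R013.RR2_948
open Crest.Agent.R013.RR7_948 Crest.Agent.R013.RR8_948 Crest.Agent.R013.RR9_948
open Crest.Agent.R013.RR11_948 Crest.Agent.R013.RR12_948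
open Crest.Agent.R013.WR1_777 Crest.Agent.R013.WR2_777

section pm

variable {k : Type*} [Field k] {V : Type*} [AddCommGroup V] [Module k V]
variable {X Z : Type*} [AddCommGroup X] [Module k X] [AddCommGroup Z] [Module k Z]
  {I A B : Submodule k V} {s : X →ₗ[k] V} {t : Z →ₗ[k] V}

/-- `(i, x) ↦ i + s x` -/
noncomputable def pm (I : Submodule k V) (s : X →ₗ[k] V) : (I × X) →ₗ[k] V :=
  I.subtype.coprod s

theorem pm_apply (i : I) (x : X) : pm I s (i, x) = i + s x := by simp [pm]

theorem pm_inj (hs : Cmp I A s) : Function.Injective (pm I s) := by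
  rw [injective_iff_map_eq_zero]
  rintro ⟨i, x⟩ h
  rw [pm_apply] at h
  have h2 : s x ∈ I := by
    have : s x = -(i : V) := (neg_eq_of_add_eq_zero_right h).symm
    rw [this]
    exact I.neg_mem i.2
  have hx := hs.disj x h2
  subst hx
  rw [map_zero, add_zero] at h
  have hi : i = 0 := Subtype.ext h
  rw [hi]
  rfl

theorem pm_range (hs : Cmp I A s) (v : V) : (∃ p, pm I s p = v) ↔ v ∈ A := by
  constructor
  · rintro ⟨⟨i, x⟩, rfl⟩
    rw [pm_apply]
    exact A.add_mem (hs.le i.2) (hs.mem x)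
  · intro hv
    obtain ⟨i, hi, x, rfl⟩ := hs.sup v hv
    exact ⟨(⟨i, hi⟩, x), pm_apply _ _⟩

/-- the inclusion of `{z = 0}` -/
noncomputable def jX (I : Submodule k V) (X Z : Type*) [AddCommGroup X] [Module k X]
    [AddCommGroup Z] [Module k Z] : (I × X) →ₗ[k] (I × X × Z) :=
  LinearMap.prodMap LinearMap.id (LinearMap.inl k X Z)

/-- the inclusion of `{x = 0}` -/
noncomputable def jZ (I : Submodule k V) (X Z : Type*) [AddCommGroup X] [Module k X]
    [AddCommGroup Z] [Module k Z] : (I × Z) →ₗ[k] (I × X × Z) :=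
  LinearMap.prodMap LinearMap.id (LinearMap.inr k X Z)

theorem qm_jX (p : I × X) : qm I s t (jX I X Z p) = pm I s p := by
  obtain ⟨i, x⟩ := p
  simp [qm, jX, pm]

theorem qm_jZ (p : I × Z) : qm I s t (jZ I X Z p) = pm I t p := by
  obtain ⟨i, x⟩ := p
  simp [qm, jZ, pm]

theorem qm_sub_right (t' : Z →ₗ[k] V) (p : I × X × Z) :
    qm I s t p - qm I s t' p = t p.2.2 - t' p.2.2 := by
  obtain ⟨i, x, z⟩ := p
  rw [qm_apply, qm_apply]
  abel

theorem qm_sub_left (s' : X →ₗ[k] V) (p : I × X × Z) :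
    qm I s t p - qm I s' t p = s p.2.1 - s' p.2.1 := by
  obtain ⟨i, x, z⟩ := p
  rw [qm_apply, qm_apply]
  abel

end pm

variable {k : Type*} [Field k] {K : Type*} [Field K] [Algebra k K] [Algebra (RatFunc k) K]
  [IsScalarTower k (RatFunc k) K] [FiniteDimensional (RatFunc k) K]
  [Algebra.IsSeparable (RatFunc k) K]

theorem mul_mem_LD {f : K} (hf : f ≠ 0) {D : Pl k K →₀ ℤ} {x : K} (hx : x ∈ LD D) :
    f * x ∈ LD (D - divf f) := by
  rw [mem_LD] at *
  intro P
  rw [map_mul, v_eq hf, Finsupp.sub_apply]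
  calc _ ≤ exp (-divf f P) * exp (D P) := mul_le_mul_right (hx P) _
    _ = _ := by rw [← exp_add]; congr 1; ring

theorem finrank_LD_eq {D D' : Pl k K →₀ ℤ} (h : degD D = degD D')
    (hD : degD (canD k K) < degD D) : finrank k (LD D) = finrank k (LD D') := by
  have h1 := ell_sub_of_lt hD
  have h2 := ell_sub_of_lt (k := k) (D := D') (by omega)
  unfold ell at h1 h2
  omega

theorem inf_LD {D A B : Pl k K →₀ ℤ} (hA : 0 ≤ A) (hB : 0 ≤ B) (hAB : ∀ P, A P = 0 ∨ B P = 0) :
    LD (D - A) ⊓ LD (D - B) = LD (D - A - B) := by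
  ext x
  rw [Submodule.mem_inf, mem_LD, mem_LD, mem_LD]
  constructor
  · rintro ⟨h1, h2⟩ P
    have h3 := h1 P
    have h4 := h2 P
    rw [Finsupp.sub_apply] at *
    rw [Finsupp.sub_apply]
    rcases hAB P with h | h
    · rw [h, sub_zero]; exact h4
    · rw [h, sub_zero]; exact h3
  · intro h
    refine ⟨fun P => (h P).trans (exp_le_exp.mpr ?_), fun P => (h P).trans (exp_le_exp.mpr ?_)⟩
    · have := hB P
      rw [Finsupp.zero_apply] at this
      rw [Finsupp.sub_apply, Finsupp.sub_apply]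
      omega
    · have := hA P
      rw [Finsupp.zero_apply] at this
      rw [Finsupp.sub_apply, Finsupp.sub_apply, Finsupp.sub_apply]
      omega

theorem degD_nonneg' {D : Pl k K →₀ ℤ} (hD : 0 ≤ D) : 0 ≤ degD D := by
  unfold degD
  exact Finsupp.sum_nonneg fun P _ => mul_nonneg (hD P) (by positivity)

theorem sup_LD {D A B : Pl k K →₀ ℤ} (hA : 0 ≤ A) (hB : 0 ≤ B) (hAB : ∀ P, A P = 0 ∨ B P = 0)
    (hdeg : degD (canD k K) < degD (D - A - B)) : LD (D - A) ⊔ LD (D - B) = LD D := by
  have hf := LD_finite D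
  have hf1 := LD_finite (D - A)
  have hf2 := LD_finite (D - B)
  have hle1 : D - A ≤ D := sub_le_self _ hA
  have hle2 : D - B ≤ D := sub_le_self _ hB
  have hle : LD (D - A) ⊔ LD (D - B) ≤ LD D := sup_le (LD_mono hle1) (LD_mono hle2)
  refine Submodule.eq_of_le_of_finrank_eq hle ?_
  have h := Submodule.finrank_sup_add_finrank_inf_eq (LD (D - A)) (LD (D - B))
  rw [inf_LD hA hB hAB] at h
  have dA := degD_nonneg' hA
  have dB := degD_nonneg' hB
  rw [degD_sub, degD_sub] at hdeg
  have h1 := ell_sub_of_lt (k := k) (D := D) (by omega)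
  have h2 := ell_sub_of_lt (k := k) (D := D - A) (by rw [degD_sub]; omega)
  have h3 := ell_sub_of_lt (k := k) (D := D - B) (by rw [degD_sub]; omega)
  have h4 := ell_sub_of_lt (k := k) (D := D - A - B) (by rw [degD_sub, degD_sub]; omega)
  rw [degD_sub] at h2 h3
  rw [degD_sub, degD_sub] at h4
  unfold ell at h1 h2 h3 h4
  omega

variable (k K) in
theorem exists_large (n : ℤ) : ∃ D : Pl k K →₀ ℤ, n < degD D := by
  classical
  obtain ⟨P0, -⟩ := exists_notMem (k := k) (K := K) ∅
  refine ⟨Finsupp.single P0 ((n + 1).toNat : ℤ), ?_⟩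
  rw [degD_single]
  have h1 := Int.self_le_toNat (n + 1)
  have h2 : (1 : ℤ) ≤ degP P0 := by exact_mod_cast degP_pos P0
  nlinarith

/-- comparison of the determinants of `F0, F1` (one side of the square) -/
theorem side {X Z : Type*} [AddCommGroup X] [Module k X] [AddCommGroup Z] [Module k Z]
    {I : Submodule k K} {s s' : X →ₗ[k] K} {t t' : Z →ₗ[k] K} {f : K} (hf : f ≠ 0)
    {D D' D2 : Pl k K →₀ ℤ} {b b' : List (Pl k K)}
    (hb : ∀ P ∈ b, P.v f = 1) (hb' : ∀ P ∈ b', P.v f = 1)
    (hD' : D' = D - divf f) (hD2 : D2 - S b' = D - S b)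
    (ht : Cmp I (LD (D - S b)) t) (ht' : Cmp I (LD (D' - S b)) t')
    (h00 : Function.Injective (qm I s t)) (h00r : ∀ v, (∃ p, qm I s t p = v) ↔ v ∈ LD D)
    (h01 : Function.Injective (qm I s' t)) (h01r : ∀ v, (∃ p, qm I s' t p = v) ↔ v ∈ LD D2)
    (h10 : Function.Injective (qm I s t')) (h11 : Function.Injective (qm I s' t'))
    (hdeg : degD (canD k K) < degD (D - S b))
    (F0 F1 : (I × X × Z) →ₗ[k] (I × X × Z))
    (hF0 : ∀ p, qm I s t' (F0 p) = f * qm I s t p)
    (hF1 : ∀ p, qm I s' t' (F1 p) = f * qm I s' t p) :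
    ∃ c : k, c ≠ 0 ∧ LinearMap.det F0 = c * (b.map fun P => (nrm P f : k)).prod ∧
      LinearMap.det F1 = c * (b'.map fun P => (nrm P f : k)).prod := by
  have hfI : Module.Finite k I := by
    have := LD_finite (D - S b)
    exact Submodule.finiteDimensional_of_le ht.le
  have hfZ : Module.Finite k Z := by
    have := LD_finite (D - S b)
    exact ht.finite
  obtain ⟨F', hF'⟩ := exists_lift (pm I t') (pm_inj ht')
    ((LinearMap.mulLeft k f) ∘ₗ (pm I t)) (by
      intro y
      rw [pm_range ht']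
      have h1 : pm I t y ∈ LD (D - S b) := (pm_range ht _).mp ⟨y, rfl⟩
      have h2 := mul_mem_LD hf h1
      have h3 : D - S b - divf f = D' - S b := by rw [hD']; abel
      rw [h3] at h2
      exact h2)
  have hF'' : ∀ y, pm I t' (F' y) = f * pm I t y := hF'
  have hinjF' : Function.Injective F' := by
    intro x y hxy
    apply pm_inj ht
    have h1 := hF'' x
    rw [hxy, hF''] at h1
    exact (mul_left_cancel₀ hf h1).symm
  have hval : ∀ P, P.v f = 1 → (D' - S b) P = (D - S b) P := by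
    intro P hP
    have h1 := v_eq hf P
    rw [hP, ← exp_zero, exp_inj] at h1
    rw [hD', Finsupp.sub_apply, Finsupp.sub_apply, Finsupp.sub_apply]
    omega
  have hsmall : ∀ P, P.v f = 1 → ∀ z, P.v (t z - t' z) ≤ exp ((D - S b) P) := by
    intro P hP z
    have h1 := mem_LD.mp (ht.mem z) P
    have h2 := mem_LD.mp (ht'.mem z) P
    rw [hval P hP] at h2
    exact (Valuation.map_sub _ _ _).trans (max_le h1 h2)
  refine ⟨LinearMap.det F', det_ne_zero_of_inj F' hinjF', ?_, ?_⟩
  · refine det_list f b hb D (I × X × Z) (qm I s t) h00 h00r (I × Z) (pm I t) (pm_inj ht)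
      (pm_range ht) (jZ I X Z) (fun y => qm_jZ y) F0 F' ?_ hdeg ?_
    · intro y
      apply h10
      rw [hF0, qm_jZ, qm_jZ, hF'']
    · intro P hP x
      rw [← hF0, qm_sub_right]
      exact hsmall P (hb P hP) _
  · refine det_list f b' hb' D2 (I × X × Z) (qm I s' t) h01 h01r (I × Z) (pm I t) (pm_inj ht)
      (by rw [hD2]; exact pm_range ht) (jZ I X Z) (fun y => qm_jZ y) F1 F' ?_
      (by rw [hD2]; exact hdeg) ?_
    · intro y
      apply h11
      rw [hF1, qm_jZ, qm_jZ, hF'']
    · intro P hP x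
      rw [← hF1, qm_sub_right, hD2]
      exact hsmall P (hb' P hP) _

/-- comparison of the determinants of `H0, H1` (the other side of the square) -/
theorem side' {X Z : Type*} [AddCommGroup X] [Module k X] [AddCommGroup Z] [Module k Z]
    {I : Submodule k K} {s s' : X →ₗ[k] K} {t t' : Z →ₗ[k] K} {f : K} (hf : f ≠ 0)
    {D D' D2 : Pl k K →₀ ℤ} {b b' : List (Pl k K)}
    (hb : ∀ P ∈ b, P.v f = 1) (hb' : ∀ P ∈ b', P.v f = 1)
    (hD' : D' = D - divf f) (hD2 : D2 - S b' = D - S b)
    (ht : Cmp I (LD (D - S b)) s) (ht' : Cmp I (LD (D' - S b)) s')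
    (h00 : Function.Injective (qm I s t)) (h00r : ∀ v, (∃ p, qm I s t p = v) ↔ v ∈ LD D)
    (h01 : Function.Injective (qm I s t')) (h01r : ∀ v, (∃ p, qm I s t' p = v) ↔ v ∈ LD D2)
    (h10 : Function.Injective (qm I s' t)) (h11 : Function.Injective (qm I s' t'))
    (hdeg : degD (canD k K) < degD (D - S b))
    (F0 F1 : (I × X × Z) →ₗ[k] (I × X × Z))
    (hF0 : ∀ p, qm I s' t (F0 p) = f * qm I s t p)
    (hF1 : ∀ p, qm I s' t' (F1 p) = f * qm I s t' p) :
    ∃ c : k, c ≠ 0 ∧ LinearMap.det F0 = c * (b.map fun P => (nrm P f : k)).prod ∧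
      LinearMap.det F1 = c * (b'.map fun P => (nrm P f : k)).prod := by
  have hfI : Module.Finite k I := by
    have := LD_finite (D - S b)
    exact Submodule.finiteDimensional_of_le ht.le
  have hfZ : Module.Finite k X := by
    have := LD_finite (D - S b)
    exact ht.finite
  obtain ⟨F', hF'⟩ := exists_lift (pm I s') (pm_inj ht')
    ((LinearMap.mulLeft k f) ∘ₗ (pm I s)) (by
      intro y
      rw [pm_range ht']
      have h1 : pm I s y ∈ LD (D - S b) := (pm_range ht _).mp ⟨y, rfl⟩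
      have h2 := mul_mem_LD hf h1
      have h3 : D - S b - divf f = D' - S b := by rw [hD']; abel
      rw [h3] at h2
      exact h2)
  have hF'' : ∀ y, pm I s' (F' y) = f * pm I s y := hF'
  have hinjF' : Function.Injective F' := by
    intro x y hxy
    apply pm_inj ht
    have h1 := hF'' x
    rw [hxy, hF''] at h1
    exact (mul_left_cancel₀ hf h1).symm
  have hval : ∀ P, P.v f = 1 → (D' - S b) P = (D - S b) P := by
    intro P hP
    have h1 := v_eq hf P
    rw [hP, ← exp_zero, exp_inj] at h1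
    rw [hD', Finsupp.sub_apply, Finsupp.sub_apply, Finsupp.sub_apply]
    omega
  have hsmall : ∀ P, P.v f = 1 → ∀ z, P.v (s z - s' z) ≤ exp ((D - S b) P) := by
    intro P hP z
    have h1 := mem_LD.mp (ht.mem z) P
    have h2 := mem_LD.mp (ht'.mem z) P
    rw [hval P hP] at h2
    exact (Valuation.map_sub _ _ _).trans (max_le h1 h2)
  refine ⟨LinearMap.det F', det_ne_zero_of_inj F' hinjF', ?_, ?_⟩
  · refine det_list f b hb D (I × X × Z) (qm I s t) h00 h00r (I × X) (pm I s) (pm_inj ht)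
      (pm_range ht) (jX I X Z) (fun y => qm_jX y) F0 F' ?_ hdeg ?_
    · intro y
      apply h10
      rw [hF0, qm_jX, qm_jX, hF'']
    · intro P hP x
      rw [← hF0, qm_sub_left]
      exact hsmall P (hb P hP) _
  · refine det_list f b' hb' D2 (I × X × Z) (qm I s t') h01 h01r (I × X) (pm I s) (pm_inj ht)
      (by rw [hD2]; exact pm_range ht) (jX I X Z) (fun y => qm_jX y) F1 F' ?_
      (by rw [hD2]; exact hdeg) ?_
    · intro y
      apply h11
      rw [hF1, qm_jX, qm_jX, hF'']
    · intro P hP x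
      rw [← hF1, qm_sub_left, hD2]
      exact hsmall P (hb' P hP) _

/-- **Weil reciprocity**, for lists of places -/
theorem reciprocity_list {f h : K} (hf : f ≠ 0) (hh : h ≠ 0) {a a' b b' : List (Pl k K)}
    (hda : divf (k := k) f = S a - S a') (hdb : divf (k := k) h = S b - S b')
    (hfb : ∀ P ∈ b, P.v f = 1) (hfb' : ∀ P ∈ b', P.v f = 1)
    (hha : ∀ P ∈ a, P.v h = 1) (hha' : ∀ P ∈ a', P.v h = 1)
    (hab : ∀ P ∈ a, P ∉ b) (hab' : ∀ P ∈ a, P ∉ b') (ha'b : ∀ P ∈ a', P ∉ b)
    (ha'b' : ∀ P ∈ a', P ∉ b') :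
    (b'.map fun P => (nrm P f : k)).prod * (a.map fun P => (nrm P h : k)).prod =
      (a'.map fun P => (nrm P h : k)).prod * (b.map fun P => (nrm P f : k)).prod := by
  classical
  obtain ⟨D0, hD0⟩ := exists_large k K (degD (canD k K))
  set D := D0 + S a + S b with hD
  have hDI : D - S a - S b = D0 := by rw [hD]; abel
  set D' := D - divf f with hD'
  set D2 := D - divf h with hD2
  set D3 := D' - divf h with hD3
  have hdis : ∀ {l l' : List (Pl k K)}, (∀ P ∈ l, P ∉ l') → ∀ P, S l P = 0 ∨ S l' P = 0 := by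
    intro l l' hl P
    by_cases hP : P ∈ l
    · exact Or.inr (S_eq_zero (hl P hP))
    · exact Or.inl (S_eq_zero hP)
  -- identities between the divisors
  have e1 : D' - S a' = D - S a := by rw [hD', hda]; abel
  have e2 : D2 - S b' = D - S b := by rw [hD2, hdb]; abel
  have e3 : D3 - S b' = D' - S b := by rw [hD3, hdb]; abel
  have e4 : D3 - S a' = D2 - S a := by rw [hD3, hD', hD2, hda]; abel
  have e00 : D - S a - S b = D0 := hDI
  have e10 : D' - S a' - S b = D0 := by rw [e1, hDI]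
  have e01 : D2 - S a - S b' = D0 := by
    have : D2 - S a - S b' = D2 - S b' - S a := by abel
    rw [this, e2, ← hDI]; abel
  have e11 : D3 - S a' - S b' = D0 := by rw [e4, e01]
  have dle : ∀ l : List (Pl k K), 0 ≤ degD (S l) := degD_S_nonneg
  -- the intersections
  have i00 : LD (D - S a) ⊓ LD (D - S b) = LD D0 := by
    rw [inf_LD (S_nonneg a) (S_nonneg b) (hdis hab), e00]
  have i10 : LD (D - S a) ⊓ LD (D' - S b) = LD D0 := by
    rw [← e1, inf_LD (S_nonneg a') (S_nonneg b) (hdis ha'b), e10]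
  have i01 : LD (D2 - S a) ⊓ LD (D - S b) = LD D0 := by
    rw [← e2, inf_LD (S_nonneg a) (S_nonneg b') (hdis hab'), e01]
  have i11 : LD (D2 - S a) ⊓ LD (D' - S b) = LD D0 := by
    rw [← e3, ← e4, inf_LD (S_nonneg a') (S_nonneg b') (hdis ha'b'), e11]
  have s00 : LD (D - S a) ⊔ LD (D - S b) = LD D :=
    sup_LD (S_nonneg a) (S_nonneg b) (hdis hab) (by rw [e00]; exact hD0)
  have s10 : LD (D - S a) ⊔ LD (D' - S b) = LD D' := by
    rw [← e1]
    exact sup_LD (S_nonneg a') (S_nonneg b) (hdis ha'b) (by rw [e10]; exact hD0)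
  have s01 : LD (D2 - S a) ⊔ LD (D - S b) = LD D2 := by
    rw [← e2]
    exact sup_LD (S_nonneg a) (S_nonneg b') (hdis hab') (by rw [e01]; exact hD0)
  have s11 : LD (D2 - S a) ⊔ LD (D' - S b) = LD D3 := by
    rw [← e3, ← e4]
    exact sup_LD (S_nonneg a') (S_nonneg b') (hdis ha'b') (by rw [e11]; exact hD0)
  -- complements
  have le1 : LD D0 ≤ LD (D - S a) := i00 ▸ inf_le_left
  have le2 : LD D0 ≤ LD (D2 - S a) := i01 ▸ inf_le_left
  have le3 : LD D0 ≤ LD (D - S b) := i00 ▸ inf_le_right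
  have le4 : LD D0 ≤ LD (D' - S b) := i10 ▸ inf_le_right
  obtain ⟨X, cX⟩ := exists_Cmp le1
  obtain ⟨Y, cY⟩ := exists_Cmp le2
  obtain ⟨Z, cZ⟩ := exists_Cmp le3
  obtain ⟨W, cW⟩ := exists_Cmp le4
  have fin1 := LD_finite (D - S a)
  have fin2 := LD_finite (D2 - S a)
  have fin3 := LD_finite (D - S b)
  have fin4 := LD_finite (D' - S b)
  have fin0 := LD_finite D0
  have fX := cX.finite
  have fY := cY.finite
  have fZ := cZ.finite
  have fW := cW.finite
  have dega : degD (canD k K) < degD (D - S a) := by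
    rw [← e00, degD_sub] at hD0
    have := dle b
    omega
  have degb : degD (canD k K) < degD (D - S b) := by
    rw [← e00, degD_sub, degD_sub] at hD0
    rw [degD_sub]
    have := dle a
    omega
  have dXY : finrank k X = finrank k Y := by
    have h1 := cX.finrank
    have h2 := cY.finrank
    have h3 := finrank_LD_eq (k := k) (D := D - S a) (D' := D2 - S a)
      (by rw [degD_sub, degD_sub, hD2, degD_sub, degD_divf hh, sub_zero]) dega
    omega
  have dZW : finrank k Z = finrank k W := by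
    have h1 := cZ.finrank
    have h2 := cW.finrank
    have h3 := finrank_LD_eq (k := k) (D := D - S b) (D' := D' - S b)
      (by rw [degD_sub, degD_sub, hD', degD_sub, degD_divf hf, sub_zero]) degb
    omega
  let σ : X ≃ₗ[k] Y := LinearEquiv.ofFinrankEq X Y dXY
  let τ : Z ≃ₗ[k] W := LinearEquiv.ofFinrankEq Z W dZW
  have cY' := cY.comp σ
  have cW' := cW.comp τ
  set s := X.subtype with hs
  set s' := Y.subtype ∘ₗ (σ : X →ₗ[k] Y) with hs'
  set t := Z.subtype with ht
  set t' := W.subtype ∘ₗ (τ : Z →ₗ[k] W) with ht'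
  have j00 : Function.Injective (qm (LD D0) s t) := qm_inj cX cZ i00.le
  have j10 : Function.Injective (qm (LD D0) s t') := qm_inj cX cW' i10.le
  have j01 : Function.Injective (qm (LD D0) s' t) := qm_inj cY' cZ i01.le
  have j11 : Function.Injective (qm (LD D0) s' t') := qm_inj cY' cW' i11.le
  have r00 : ∀ v, (∃ p, qm (LD D0) s t p = v) ↔ v ∈ LD D := by
    intro v; rw [qm_range cX cZ, s00]
  have r10 : ∀ v, (∃ p, qm (LD D0) s t' p = v) ↔ v ∈ LD D' := by
    intro v; rw [qm_range cX cW', s10]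
  have r01 : ∀ v, (∃ p, qm (LD D0) s' t p = v) ↔ v ∈ LD D2 := by
    intro v; rw [qm_range cY' cZ, s01]
  have r11 : ∀ v, (∃ p, qm (LD D0) s' t' p = v) ↔ v ∈ LD D3 := by
    intro v; rw [qm_range cY' cW', s11]
  -- the square
  obtain ⟨F0, hF0⟩ := exists_lift (qm (LD D0) s t') j10
    ((LinearMap.mulLeft k f) ∘ₗ (qm (LD D0) s t)) (fun y => (r10 _).mpr
      (mul_mem_LD hf ((r00 _).mp ⟨y, rfl⟩)))
  obtain ⟨F1, hF1⟩ := exists_lift (qm (LD D0) s' t') j11
    ((LinearMap.mulLeft k f) ∘ₗ (qm (LD D0) s' t)) (fun y => (r11 _).mpr (by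
      have h1 := mul_mem_LD hf ((r01 _).mp ⟨y, rfl⟩)
      have h2 : D2 - divf f = D3 := by rw [hD3, hD', hD2]; abel
      rw [h2] at h1
      exact h1))
  obtain ⟨H0, hH0⟩ := exists_lift (qm (LD D0) s' t) j01
    ((LinearMap.mulLeft k h) ∘ₗ (qm (LD D0) s t)) (fun y => (r01 _).mpr
      (mul_mem_LD hh ((r00 _).mp ⟨y, rfl⟩)))
  obtain ⟨H1, hH1⟩ := exists_lift (qm (LD D0) s' t') j11
    ((LinearMap.mulLeft k h) ∘ₗ (qm (LD D0) s t')) (fun y => (r11 _).mpr
      (mul_mem_LD hh ((r10 _).mp ⟨y, rfl⟩)))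
  have hF0' : ∀ p, qm (LD D0) s t' (F0 p) = f * qm (LD D0) s t p := hF0
  have hF1' : ∀ p, qm (LD D0) s' t' (F1 p) = f * qm (LD D0) s' t p := hF1
  have hH0' : ∀ p, qm (LD D0) s' t (H0 p) = h * qm (LD D0) s t p := hH0
  have hH1' : ∀ p, qm (LD D0) s' t' (H1 p) = h * qm (LD D0) s t' p := hH1
  have hcomm : F1 ∘ₗ H0 = H1 ∘ₗ F0 := by
    refine LinearMap.ext fun p => j11 ?_
    rw [LinearMap.comp_apply, LinearMap.comp_apply, hF1', hH0', hH1', hF0']
    ring
  have hdet : LinearMap.det F1 * LinearMap.det H0 = LinearMap.det H1 * LinearMap.det F0 := by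
    rw [← LinearMap.det_comp, ← LinearMap.det_comp, hcomm]
  obtain ⟨c, hc, hc0, hc1⟩ := side hf hfb hfb' hD' e2 cZ cW' j00 r00 j01 r01 j10 j11 degb
    F0 F1 hF0' hF1'
  obtain ⟨d, hd, hd0, hd1⟩ := side' hh hha hha' hD2 e1 cX cY' j00 r00 j10 r10 j01 j11 dega
    H0 H1 hH0' hH1'
  rw [hc0, hc1, hd0, hd1] at hdet
  have hcd : c * d ≠ 0 := mul_ne_zero hc hd
  refine mul_left_cancel₀ hcd ?_
  linear_combination hdet

end Crest.Agent.R013.WR3_777
end

-- ▼ part R013/WR4_777

/-!
# R013 / WR4: Weil reciprocity, divisor form, and the characters `χ_f` of `Pic` (helper777)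
-/

set_option autoImplicit false
set_option linter.all false

namespace Crest.Agent.R013.WR4_777

open WithZero Module
open Crest.Agent.R013.RR1_948 Crest.Agent.R013.RR2_948
open Crest.Agent.R013.RR7_948 Crest.Agent.R013.RR8_948 Crest.Agent.R013.RR9_948
open Crest.Agent.R013.RR11_948 Crest.Agent.R013.RR12_948
open Crest.Agent.R013.WR1_777 Crest.Agent.R013.WR2_777 Crest.Agent.R013.WR3_777
open Crest.Agent.R013.PicD_398

section pw

variable {k : Type*} [Field k] {K : Type*} [Field K] [Algebra k K] {G : Type*} [CommGroup G]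

/-- `∏_P φ(P) ^ D(P)` -/
noncomputable def pw (φ : Pl k K → G) (D : Pl k K →₀ ℤ) : G := D.prod fun P n => φ P ^ n

@[simp] theorem pw_zero (φ : Pl k K → G) : pw φ 0 = 1 := Finsupp.prod_zero_index

theorem pw_add (φ : Pl k K → G) (D D' : Pl k K →₀ ℤ) : pw φ (D + D') = pw φ D * pw φ D' := by
  classical
  exact Finsupp.prod_add_index' (fun _ => zpow_zero _) (fun _ _ _ => zpow_add _ _ _)

theorem pw_neg (φ : Pl k K → G) (D : Pl k K →₀ ℤ) : pw φ (-D) = (pw φ D)⁻¹ := by
  have h := pw_add φ D (-D)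
  rw [add_neg_cancel, pw_zero] at h
  exact (inv_eq_of_mul_eq_one_right h.symm).symm

theorem pw_sub (φ : Pl k K → G) (D D' : Pl k K →₀ ℤ) : pw φ (D - D') = pw φ D / pw φ D' := by
  rw [sub_eq_add_neg, pw_add, pw_neg, div_eq_mul_inv]

@[simp] theorem pw_single (φ : Pl k K → G) (P : Pl k K) (n : ℤ) :
    pw φ (Finsupp.single P n) = φ P ^ n := Finsupp.prod_single_index (zpow_zero _)

theorem pw_S (φ : Pl k K → G) (l : List (Pl k K)) : pw φ (S l) = (l.map φ).prod := by
  induction l with
  | nil => simp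
  | cons P l ih => rw [S_cons, pw_add, pw_single, ih, List.map_cons, List.prod_cons, zpow_one]

theorem pw_congr {φ ψ : Pl k K → G} {D : Pl k K →₀ ℤ} (h : ∀ P, D P ≠ 0 → φ P = ψ P) :
    pw φ D = pw ψ D :=
  Finsupp.prod_congr fun P hP => by rw [h P (Finsupp.mem_support_iff.mp hP)]

theorem pw_mul (φ ψ : Pl k K → G) (D : Pl k K →₀ ℤ) :
    pw (fun P => φ P * ψ P) D = pw φ D * pw ψ D := by
  unfold pw
  rw [← Finsupp.prod_mul]
  exact Finsupp.prod_congr fun P _ => mul_zpow _ _ _

theorem pw_nsmul (φ : Pl k K → G) (n : ℕ) (D : Pl k K →₀ ℤ) : pw φ (n • D) = pw φ D ^ n := by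
  induction n with
  | zero => simp
  | succ n ih => rw [succ_nsmul, pw_add, ih, pow_succ]

theorem exists_S_nat (g : Pl k K →₀ ℕ) :
    ∃ l : List (Pl k K), (∀ P, S l P = g P) ∧ ∀ P ∈ l, g P ≠ 0 := by
  classical
  induction g using Finsupp.induction with
  | zero => exact ⟨[], fun P => by simp, fun P h => by simp at h⟩
  | single_add a b g ha hb ih =>
    obtain ⟨l, hl1, hl2⟩ := ih
    refine ⟨List.replicate b a ++ l, fun P => ?_, fun P hP => ?_⟩
    · rw [S_append, S_replicate, Finsupp.add_apply, Finsupp.add_apply, hl1 P,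
        Finsupp.single_apply, Finsupp.single_apply]
      split_ifs <;> simp
    · rw [Finsupp.add_apply]
      rcases List.mem_append.mp hP with h | h
      · have := List.eq_of_mem_replicate h
        subst this
        rw [Finsupp.single_eq_same]
        omega
      · have := hl2 P h
        omega

theorem exists_S_sub (D : Pl k K →₀ ℤ) :
    ∃ l l' : List (Pl k K), D = S l - S l' ∧ (∀ P ∈ l, D P ≠ 0) ∧ ∀ P ∈ l', D P ≠ 0 := by
  obtain ⟨l, h1, h2⟩ := exists_S_nat (D.mapRange Int.toNat rfl)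
  obtain ⟨l', h3, h4⟩ := exists_S_nat ((-D).mapRange Int.toNat rfl)
  refine ⟨l, l', ?_, fun P hP => ?_, fun P hP => ?_⟩
  · ext P
    rw [Finsupp.sub_apply, h1, h3, Finsupp.mapRange_apply, Finsupp.mapRange_apply,
      Finsupp.neg_apply]
    omega
  · have := h2 P hP
    rw [Finsupp.mapRange_apply] at this
    omega
  · have := h4 P hP
    rw [Finsupp.mapRange_apply, Finsupp.neg_apply] at this
    omega

end pw

variable {k : Type*} [Field k] {K : Type*} [Field K] [Algebra k K] [Algebra (RatFunc k) K]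
  [IsScalarTower k (RatFunc k) K] [FiniteDimensional (RatFunc k) K]
  [Algebra.IsSeparable (RatFunc k) K]

theorem v_eq_one_iff {f : K} (hf : f ≠ 0) (P : Pl k K) : P.v f = 1 ↔ divf (k := k) f P = 0 := by
  rw [v_eq hf, ← exp_zero, exp_inj]
  omega

/-- **Weil reciprocity**: `∏_P N(f(P))^(v_P h) = ∏_P N(h(P))^(v_P f)` for `f, h` with disjoint
divisors -/
theorem weil_reciprocity {f h : K} (hf : f ≠ 0) (hh : h ≠ 0)
    (hdis : ∀ P : Pl k K, divf (k := k) f P = 0 ∨ divf (k := k) h P = 0) :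
    pw (fun P => nrm P f) (divf (k := k) h) = pw (fun P => nrm P h) (divf (k := k) f) := by
  obtain ⟨a, a', hda, ha, ha'⟩ := exists_S_sub (divf (k := k) f)
  obtain ⟨b, b', hdb, hb, hb'⟩ := exists_S_sub (divf (k := k) h)
  have hfa : ∀ P, divf (k := k) f P ≠ 0 → P.v h = 1 := fun P hP =>
    (v_eq_one_iff hh P).mpr ((hdis P).resolve_left hP)
  have hhb : ∀ P, divf (k := k) h P ≠ 0 → P.v f = 1 := fun P hP =>
    (v_eq_one_iff hf P).mpr ((hdis P).resolve_right hP)
  have hne : ∀ P, divf (k := k) f P ≠ 0 → divf (k := k) h P ≠ 0 → False := fun P h1 h2 =>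
    (hdis P).elim h1 h2
  have key := reciprocity_list hf hh hda hdb (fun P hP => hhb P (hb P hP))
    (fun P hP => hhb P (hb' P hP)) (fun P hP => hfa P (ha P hP)) (fun P hP => hfa P (ha' P hP))
    (fun P h1 h2 => hne P (ha P h1) (hb P h2)) (fun P h1 h2 => hne P (ha P h1) (hb' P h2))
    (fun P h1 h2 => hne P (ha' P h1) (hb P h2)) (fun P h1 h2 => hne P (ha' P h1) (hb' P h2))
  have hcoe : ∀ (l : List (Pl k K)) (u : K), (l.map fun P => (nrm P u : k)).prod
      = (((l.map fun P => nrm P u).prod : kˣ) : k) := by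
    intro l u
    induction l with
    | nil => simp
    | cons P l ih => rw [List.map_cons, List.prod_cons, List.map_cons, List.prod_cons, ih,
        Units.val_mul]
  rw [hcoe, hcoe, hcoe, hcoe, ← Units.val_mul, ← Units.val_mul, Units.val_inj] at key
  rw [hda, hdb, pw_sub, pw_sub, pw_S, pw_S, pw_S, pw_S, div_eq_div_iff_mul_eq_mul]
  rw [mul_comm _ (List.map (fun P => nrm P f) b').prod, key, mul_comm]

/-- a function of prescribed valuation at `P` -/
noncomputable def pe (P : Pl k K) (m : ℤ) : K := (exists_v_eq P m).choose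

theorem pe_ne_zero (P : Pl k K) (m : ℤ) : pe P m ≠ 0 := (exists_v_eq P m).choose_spec.1

theorem v_pe (P : Pl k K) (m : ℤ) : P.v (pe P m) = exp m := (exists_v_eq P m).choose_spec.2

/-- the local symbol `N((f e^n)(P))`, where `v_P(e) = - E_P` and `div f = n E` -/
noncomputable def chiP (n : ℕ) (f : K) (E : Pl k K →₀ ℤ) (P : Pl k K) : kˣ :=
  nrm P (f * pe P (E P) ^ n)

theorem v_mul_pow {n : ℕ} {f : K} (hf : f ≠ 0) {E : Pl k K →₀ ℤ} (hE : divf (k := k) f = n • E)
    {P : Pl k K} {e : K} (he : P.v e = exp (E P)) : P.v (f * e ^ n) = 1 := by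
  rw [map_mul, map_pow, he, v_eq hf, hE, Finsupp.smul_apply, ← exp_nsmul, ← exp_add, ← exp_zero]
  congr 1
  simp

theorem chiP_eq {n : ℕ} (hn : ∀ c : kˣ, c ^ n = 1) {f : K} (hf : f ≠ 0) {E : Pl k K →₀ ℤ}
    (hE : divf (k := k) f = n • E) {P : Pl k K} {e : K} (he : P.v e = exp (E P)) :
    chiP n f E P = nrm P (f * e ^ n) := by
  unfold chiP
  have he0 : e ≠ 0 := by
    rintro rfl
    rw [map_zero] at he
    exact exp_ne_zero he.symm
  have h1 : P.v (e / pe P (E P)) = 1 := by
    rw [map_div₀, he, v_pe, div_self exp_ne_zero]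
  have h2 : f * e ^ n = f * pe P (E P) ^ n * (e / pe P (E P)) ^ n := by
    rw [mul_assoc, ← mul_pow, mul_div_cancel₀ _ (pe_ne_zero P (E P))]
  rw [h2, nrm_mul (v_mul_pow hf hE (v_pe P _)) (by rw [map_pow, h1, one_pow]), nrm_pow h1, hn,
    mul_one]

theorem divf_pow {f : K} (hf : f ≠ 0) (n : ℕ) : divf (k := k) (f ^ n) = n • divf f := by
  induction n with
  | zero => rw [pow_zero, divf_one, zero_smul]
  | succ n ih => rw [pow_succ, divf_mul (pow_ne_zero n hf) hf, ih, succ_nsmul]

/-- **`χ_f` is trivial on principal divisors** -/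
theorem pw_chiP_divf {n : ℕ} (hn : ∀ c : kˣ, c ^ n = 1) {f : K} (hf : f ≠ 0)
    {E : Pl k K →₀ ℤ} (hE : divf (k := k) f = n • E) {h : K} (hh : h ≠ 0) :
    pw (chiP n f E) (divf (k := k) h) = 1 := by
  obtain ⟨u, hu0, hu⟩ := exists_prescribed (divf (k := k) h).support E
  have hf' : f * u ^ n ≠ 0 := mul_ne_zero hf (pow_ne_zero _ hu0)
  have h1 : pw (chiP n f E) (divf (k := k) h) = pw (fun P => nrm P (f * u ^ n)) (divf h) :=
    pw_congr fun P hP => chiP_eq hn hf hE (hu P (Finsupp.mem_support_iff.mpr hP))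
  have h2 : ∀ P : Pl k K, divf (k := k) (f * u ^ n) P = 0 ∨ divf (k := k) h P = 0 := by
    intro P
    by_cases hP : divf (k := k) h P = 0
    · exact Or.inr hP
    · left
      rw [← v_eq_one_iff hf']
      exact v_mul_pow hf hE (hu P (Finsupp.mem_support_iff.mpr hP))
  rw [h1, weil_reciprocity hf' hh h2, divf_mul hf (pow_ne_zero _ hu0), divf_pow hu0, hE,
    ← nsmul_add, pw_nsmul, hn]

/-- the character `χ_f` of the divisor class group (`div f = n E`, `k^* ` killed by `n`) -/
noncomputable def chiPic (n : ℕ) (hn : ∀ c : kˣ, c ^ n = 1) {f : K} (hf : f ≠ 0)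
    (E : Pl k K →₀ ℤ) (hE : divf (k := k) f = n • E) : Pic k K →+ Additive kˣ :=
  QuotientAddGroup.lift (Prin k K)
    { toFun := fun D => Additive.ofMul (pw (chiP n f E) D)
      map_zero' := by rw [pw_zero]; rfl
      map_add' := fun D D' => by rw [pw_add]; rfl }
    (by
      rintro _ ⟨h, hh, rfl⟩
      show Additive.ofMul _ = 0
      rw [pw_chiP_divf hn hf hE hh]
      rfl)

theorem chiPic_cls (n : ℕ) (hn : ∀ c : kˣ, c ^ n = 1) {f : K} (hf : f ≠ 0)
    (E : Pl k K →₀ ℤ) (hE : divf (k := k) f = n • E) (D : Pl k K →₀ ℤ) :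
    (chiPic n hn hf E hE (cls D)).toMul = pw (chiP n f E) D := rfl





/-- `χ_f` for `f = h ^ m`, `div h = N E`, `n = N m`: the `m`-th power of the norm of `h e ^ N` -/
theorem chiP_pow {N m : ℕ} {h : K} (hh : h ≠ 0) {E : Pl k K →₀ ℤ}
    (hE : divf (k := k) h = N • E) (P : Pl k K) :
    chiP (N * m) (h ^ m) E P = nrm P (h * pe P (E P) ^ N) ^ m := by
  unfold chiP
  rw [← nrm_pow (v_mul_pow hh hE (v_pe P _)), mul_pow, ← pow_mul]

/-- multiplicativity of `χ_f` in `f` -/
theorem chiP_mul {n : ℕ} (hn : ∀ c : kˣ, c ^ n = 1) {f f' : K} (hf : f ≠ 0) (hf' : f' ≠ 0)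
    {E E' : Pl k K →₀ ℤ} (hE : divf (k := k) f = n • E) (hE' : divf (k := k) f' = n • E')
    (P : Pl k K) : chiP n (f * f') (E + E') P = chiP n f E P * chiP n f' E' P := by
  have he : P.v (pe P (E P) * pe P (E' P)) = exp ((E + E') P) := by
    rw [map_mul, v_pe, v_pe, Finsupp.add_apply, exp_add]
  rw [chiP_eq hn (mul_ne_zero hf hf') (by rw [divf_mul hf hf', hE, hE', nsmul_add]) he]
  unfold chiP
  rw [← nrm_mul (v_mul_pow hf hE (v_pe P _)) (v_mul_pow hf' hE' (v_pe P _))]
  congr 1
  ring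

/-- `χ` of the `n`-th power of a function is trivial -/
theorem chiP_nth_power {n : ℕ} (hn : ∀ c : kˣ, c ^ n = 1) {u : K} (hu : u ≠ 0)
    (P : Pl k K) : chiP n (u ^ n) (divf (k := k) u) P = 1 := by
  have he : P.v u⁻¹ = exp ((divf (k := k) u) P) := by
    rw [map_inv₀, v_eq hu, ← exp_neg, neg_neg]
  rw [chiP_eq hn (pow_ne_zero _ hu) (divf_pow hu n) he, ← mul_pow, mul_inv_cancel₀ hu, one_pow,
    nrm_one]

/-- for a finite field, `c ^ (q - 1) = 1` -/
theorem pow_card_sub_one [Finite k] (c : kˣ) : c ^ (Nat.card k - 1) = 1 := by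
  have := Fintype.ofFinite k
  classical
  rw [Nat.card_eq_fintype_card, ← Fintype.card_units]
  exact pow_card_eq_one

end Crest.Agent.R013.WR4_777
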