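import Mathlib
import Crest.Agent.R013.CntG1_398
import Crest.Agent.R013.PicD_398
import Crest.Agent.R013.RR12_948
import Crest.Agent.R013.CntP4_127
import Crest.Agent.R013.CntA1_560
import Crest.Agent.R013.CntB4_491
import Crest.Agent.R013.CntB7_491
import Crest.Agent.R013.WR4_777
import Crest.Agent.R013.CntA3_560
import Crest.Agent.R013.CntLoc_262

-- ▼ part R013/CntG2_398
section

/-!
# R013 / CntG2: Fourier analysis on a finite abelian group with values in characteristic p (helper398)

(G) of BP-R6 (helper262, post 2259), second half, pure group theory: `G` finite abelian, `P` a subgroup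
of index prime to `p` , `E` a field of characteristic `p` with enough roots of unity,
`S` a subset of `G`. If the number of elements of `S` in one coset of `P` is `1` and in another one `0`
then some character `χ ≠ 1` of `G`, trivial on `P`, has `∑_{u ∈ S} χ(u) ≠ 0`.
-/

set_option autoImplicit false

namespace Crest.Agent.R013.CntG2_398

open scoped Classical in
/-- orthogonality: the sum of all characters at `g ≠ 1` vanishes -/
theorem sum_char {G : Type*} [CommGroup G] [Finite G] {E : Type*} [Field E]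
    [HasEnoughRootsOfUnity E (Monoid.exponent G)] [Fintype (G →* Eˣ)] {g : G} (hg : g ≠ 1) :
    ∑ χ : G →* Eˣ, ((χ g : Eˣ) : E) = 0 := by
  obtain ⟨φ, hφ⟩ := CommGroup.exists_apply_ne_one_of_hasEnoughRootsOfUnity G E hg
  have h1 : ∑ χ : G →* Eˣ, ((χ g : Eˣ) : E) = ∑ χ : G →* Eˣ, (((φ * χ) g : Eˣ) : E) :=
    (Fintype.sum_equiv (Equiv.mulLeft φ) _ _ fun χ => rfl).symm
  have h2 : ∑ χ : G →* Eˣ, (((φ * χ) g : Eˣ) : E) = (φ g : E) * ∑ χ : G →* Eˣ, ((χ g : Eˣ) : E) := by
    rw [Finset.mul_sum]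
    refine Finset.sum_congr rfl fun χ _ => ?_
    rw [MonoidHom.mul_apply, Units.val_mul]
  rw [h2] at h1
  have h3 : ((φ g : E) - 1) * ∑ χ : G →* Eˣ, ((χ g : Eˣ) : E) = 0 := by
    rw [sub_mul, one_mul, ← h1, sub_self]
  rcases mul_eq_zero.mp h3 with h4 | h4
  · exfalso
    apply hφ
    apply Units.ext
    rw [Units.val_one]
    exact sub_eq_zero.mp h4
  · exact h4

/-- Fourier: a function all of whose non trivial coefficients vanish is constant -/
theorem const_of_sum_eq_zero {G : Type*} [CommGroup G] [Finite G] {E : Type*} [Field E]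
    [HasEnoughRootsOfUnity E (Monoid.exponent G)] (hE : (Nat.card G : E) ≠ 0) [Fintype G]
    (n : G → E) (h : ∀ χ : G →* Eˣ, χ ≠ 1 → ∑ g, n g * ((χ g : Eˣ) : E) = 0) (a b : G) :
    n a = n b := by
  classical
  haveI : Finite (G →* Eˣ) := by
    apply Nat.finite_of_card_ne_zero
    rw [CommGroup.card_monoidHom_of_hasEnoughRootsOfUnity]
    exact Nat.card_pos.ne'
  haveI : Fintype (G →* Eˣ) := Fintype.ofFinite _
  have hcard : ((Fintype.card (G →* Eˣ) : ℕ) : E) ≠ 0 := by
    rw [← Nat.card_eq_fintype_card, CommGroup.card_monoidHom_of_hasEnoughRootsOfUnity]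
    exact hE
  -- inversion
  have key : ∀ a : G, (Fintype.card (G →* Eˣ) : E) * n a =
      ∑ χ : G →* Eˣ, ((χ a⁻¹ : Eˣ) : E) * ∑ g, n g * ((χ g : Eˣ) : E) := by
    intro a
    have h1 : ∑ χ : G →* Eˣ, ((χ a⁻¹ : Eˣ) : E) * ∑ g, n g * ((χ g : Eˣ) : E) =
        ∑ g, n g * ∑ χ : G →* Eˣ, ((χ (a⁻¹ * g) : Eˣ) : E) := by
      simp_rw [Finset.mul_sum]
      rw [Finset.sum_comm]
      refine Finset.sum_congr rfl fun g _ => Finset.sum_congr rfl fun χ _ => ?_
      rw [map_mul, Units.val_mul]
      ring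
    rw [h1, Finset.sum_eq_single a]
    · rw [inv_mul_cancel]
      simp only [map_one, Units.val_one, Finset.sum_const, Finset.card_univ, nsmul_eq_mul, mul_one]
      ring
    · intro g _ hg
      rw [sum_char, mul_zero]
      intro h2
      apply hg
      rw [inv_mul_eq_one] at h2
      exact h2.symm
    · intro h2
      exact absurd (Finset.mem_univ a) h2
  have key2 : ∀ a : G, (Fintype.card (G →* Eˣ) : E) * n a = ∑ g, n g := by
    intro a
    rw [key a, Finset.sum_eq_single (1 : G →* Eˣ)]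
    · simp
    · intro χ _ hχ
      rw [h χ hχ, mul_zero]
    · intro h2
      exact absurd (Finset.mem_univ _) h2
  have h3 := (key2 a).trans (key2 b).symm
  exact mul_left_cancel₀ hcard h3

end Crest.Agent.R013.CntG2_398
end

-- ▼ part R013/CntG3_398
section

/-!
# R013 / CntG3: a character with non vanishing sum over a subset (helper398)

Pure group theory behind (G) of BP-R6 (helper262, post 2259).
-/

set_option autoImplicit false

namespace Crest.Agent.R013.CntG3_398

/-- the elements of `p`-power order of an additive commutative group -/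
def Ptor (p : ℕ) (A : Type*) [AddCommGroup A] : AddSubgroup A where
  carrier := {z | ∃ n : ℕ, p ^ n • z = 0}
  add_mem' := by
    rintro a b ⟨m, hm⟩ ⟨n, hn⟩
    refine ⟨m + n, ?_⟩
    rw [smul_add, pow_add, mul_comm, mul_smul, hm, smul_zero, zero_add, mul_comm, mul_smul, hn,
      smul_zero]
  zero_mem' := ⟨0, by simp⟩
  neg_mem' := by
    rintro a ⟨m, hm⟩
    exact ⟨m, by rw [smul_neg, hm, neg_zero]⟩


/-- the order of `A / Ptor p A` is prime to `p` -/
theorem card_quot_ne_zero (p : ℕ) [Fact p.Prime] (A : Type*) [AddCommGroup A] [Finite A]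
    (E : Type*) [Field E] [CharP E p] : ((Nat.card (A ⧸ Ptor p A) : ℕ) : E) ≠ 0 := by
  intro h
  rw [CharP.cast_eq_zero_iff E p] at h
  obtain ⟨x, hx⟩ : ∃ x : A ⧸ Ptor p A, addOrderOf x = p := exists_prime_addOrderOf_dvd_card' p h
  obtain ⟨a, rfl⟩ := QuotientAddGroup.mk_surjective x
  have h1 : p • (QuotientAddGroup.mk a : A ⧸ Ptor p A) = 0 := by
    have h0 := addOrderOf_nsmul_eq_zero (QuotientAddGroup.mk a : A ⧸ Ptor p A)
    rwa [hx] at h0
  have h2 : (QuotientAddGroup.mk (p • a) : A ⧸ Ptor p A) = 0 := by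
    rw [QuotientAddGroup.mk_nsmul]; exact h1
  rw [QuotientAddGroup.eq_zero_iff] at h2
  obtain ⟨n, hn⟩ := h2
  have h3 : a ∈ Ptor p A := ⟨n + 1, by rw [pow_succ, mul_smul]; exact hn⟩
  have h4 : (QuotientAddGroup.mk a : A ⧸ Ptor p A) = 0 := (QuotientAddGroup.eq_zero_iff a).mpr h3
  rw [h4, addOrderOf_zero] at hx
  exact (Fact.out : p.Prime).one_lt.ne hx

open scoped Classical in
/-- If one coset of the `p`-part meets `S` in exactly one point and another one does not meet `S`,
some non trivial character of `A` with values in characteristic `p` has non vanishing sum over `S`. -/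
theorem exists_char (p : ℕ) [Fact p.Prime] {A : Type*} [AddCommGroup A] [Finite A]
    {E : Type*} [Field E] [IsAlgClosed E] [CharP E p] (S : Set A) (u₁ u₀ : A)
    (h₁ : ∀ x ∈ Ptor p A, u₁ + x ∈ S ↔ x = 0) (h₀ : ∀ x ∈ Ptor p A, u₀ + x ∉ S) :
    ∃ χ : Multiplicative (A ⧸ Ptor p A) →* Eˣ, χ ≠ 1 ∧
      ∑ᶠ u ∈ S, ((χ (Multiplicative.ofAdd (QuotientAddGroup.mk u : A ⧸ Ptor p A)) : Eˣ) : E) ≠ 0 := by
  by_contra hcon
  push Not at hcon
  let G := Multiplicative (A ⧸ Ptor p A)
  have := Fintype.ofFinite A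
  have : Fintype (A ⧸ Ptor p A) := Fintype.ofFinite _
  have : Fintype G := Fintype.ofFinite _
  have hE : ((Nat.card G : ℕ) : E) ≠ 0 := card_quot_ne_zero p A E
  have hexp : NeZero ((Monoid.exponent G : ℕ) : E) := by
    refine ⟨fun h => hE ?_⟩
    rw [CharP.cast_eq_zero_iff E p] at h ⊢
    exact h.trans Group.exponent_dvd_nat_card
  let q : A → G := fun u => Multiplicative.ofAdd (QuotientAddGroup.mk u : A ⧸ Ptor p A)
  let n : G → E := fun c => ∑ u : A, if q u = c ∧ u ∈ S then 1 else 0
  have hn : ∀ χ : G →* Eˣ, χ ≠ 1 → ∑ g, n g * ((χ g : Eˣ) : E) = 0 := by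
    intro χ hχ
    rw [← hcon χ hχ]
    have h1 : ∀ g, n g * ((χ g : Eˣ) : E) =
        ∑ u : A, if q u = g ∧ u ∈ S then ((χ (q u) : Eˣ) : E) else 0 := by
      intro g
      show (∑ u : A, if q u = g ∧ u ∈ S then (1 : E) else 0) * _ = _
      rw [Finset.sum_mul]
      refine Finset.sum_congr rfl fun u _ => ?_
      split_ifs with h
      · rw [one_mul, h.1]
      · rw [zero_mul]
    simp_rw [h1]
    rw [Finset.sum_comm]
    rw [finsum_mem_eq_finite_toFinset_sum _ (Set.toFinite S)]
    rw [← Finset.sum_subset (Finset.subset_univ (Set.toFinite S).toFinset)]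
    · refine Finset.sum_congr rfl fun u hu => ?_
      rw [Set.Finite.mem_toFinset] at hu
      simp only [hu, and_true]
      rw [Finset.sum_ite_eq]
      simp only [Finset.mem_univ, if_true]
      rfl
    · intro u _ hu
      rw [Set.Finite.mem_toFinset] at hu
      simp [hu]
  have hconst := CntG2_398.const_of_sum_eq_zero (G := G) hE n hn (q u₁) (q u₀)
  have e1 : n (q u₁) = 1 := by
    show (∑ u : A, if q u = q u₁ ∧ u ∈ S then (1 : E) else 0) = 1
    rw [Finset.sum_eq_single u₁]
    · have : u₁ ∈ S := by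
        have := (h₁ 0 (zero_mem _)).mpr rfl
        rwa [add_zero] at this
      simp [this]
    · intro u _ hu
      rw [if_neg]
      rintro ⟨hq, hS⟩
      have hq' : (QuotientAddGroup.mk u₁ : A ⧸ Ptor p A) = QuotientAddGroup.mk u :=
        (Multiplicative.ofAdd.injective hq).symm
      rw [QuotientAddGroup.eq] at hq'
      have h2 := (h₁ (-u₁ + u) hq').mp (by rwa [add_neg_cancel_left])
      apply hu
      have h3 : u₁ + (-u₁ + u) = u₁ := by rw [h2, add_zero]
      rwa [add_neg_cancel_left] at h3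
    · intro h; exact absurd (Finset.mem_univ _) h
  have e0 : n (q u₀) = 0 := by
    show (∑ u : A, if q u = q u₀ ∧ u ∈ S then (1 : E) else 0) = 0
    refine Finset.sum_eq_zero fun u _ => ?_
    rw [if_neg]
    rintro ⟨hq, hS⟩
    have hq' : (QuotientAddGroup.mk u₀ : A ⧸ Ptor p A) = QuotientAddGroup.mk u :=
      (Multiplicative.ofAdd.injective hq).symm
    rw [QuotientAddGroup.eq] at hq'
    exact h₀ (-u₀ + u) hq' (by rwa [add_neg_cancel_left])
  rw [e1, e0] at hconst
  exact one_ne_zero hconst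

end Crest.Agent.R013.CntG3_398
end

-- ▼ part R013/CntG_398
section

/-!
# R013 / CntG: a character of the class group with `A_{g-1}(ψ) ≠ 0` (helper398)

(G) of BP-R6 (helper262, post 2259).
-/

set_option autoImplicit false
set_option linter.unusedSectionVars false

namespace Crest.Agent.R013.CntG_398

open WithZero Module
open Crest.Agent.R013.RR7_948 Crest.Agent.R013.RR8_948 Crest.Agent.R013.RR9_948
open Crest.Agent.R013.RR11_948 Crest.Agent.R013.PicD_398
open Crest.Agent.R013.CntG1_398 Crest.Agent.R013.CntG3_398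

variable {k : Type*} [Field k] {K : Type*} [Field K] [Algebra k K] [Algebra (RatFunc k) K]
  [IsScalarTower k (RatFunc k) K] [FiniteDimensional (RatFunc k) K]
  [Algebra.IsSeparable (RatFunc k) K]

/-- the part of degree zero relative to a class of degree one -/
noncomputable def proj (c : Pic k K) (hc : degPic c = 1) : Pic k K →+ Pic0 k K where
  toFun z := ⟨z - degPic z • c, by
    rw [mem_Pic0, map_sub, map_zsmul, hc, smul_eq_mul, mul_one, sub_self]⟩
  map_zero' := by
    apply Subtype.ext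
    simp
  map_add' a b := by
    apply Subtype.ext
    simp only [map_add, add_zsmul, AddSubgroup.coe_add]
    abel

theorem proj_coe (c : Pic k K) (hc : degPic c = 1) (z : Pic k K) :
    ((proj c hc z : Pic0 k K) : Pic k K) = z - degPic z • c := rfl

/-- the character of `Pic` defined by a character of `Pic⁰ / p`-part and a class of degree one -/
noncomputable def ext {p : ℕ} {E : Type*} [Field E] (c : Pic k K) (hc : degPic c = 1)
    (χ : Multiplicative (Pic0 k K ⧸ Ptor p (Pic0 k K)) →* Eˣ) : AddChar (Pic k K) E where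
  toFun z := ((χ (Multiplicative.ofAdd
    (QuotientAddGroup.mk (proj c hc z) : Pic0 k K ⧸ Ptor p (Pic0 k K))) : Eˣ) : E)
  map_zero_eq_one' := by
    rw [map_zero, QuotientAddGroup.mk_zero, ofAdd_zero, map_one, Units.val_one]
  map_add_eq_mul' a b := by
    rw [map_add, QuotientAddGroup.mk_add, ofAdd_add, map_mul, Units.val_mul]

theorem ext_apply {p : ℕ} {E : Type*} [Field E] (c : Pic k K) (hc : degPic c = 1)
    (χ : Multiplicative (Pic0 k K ⧸ Ptor p (Pic0 k K)) →* Eˣ) (z : Pic k K) :
    ext c hc χ z = ((χ (Multiplicative.ofAdd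
      (QuotientAddGroup.mk (proj c hc z) : Pic0 k K ⧸ Ptor p (Pic0 k K))) : Eˣ) : E) := rfl


/-- **(G) of BP-R6.** If `K` has more than `2 g² · #Pic⁰[p^∞]` rational places there is a character
`ψ` of the class group with values in characteristic `p`, non trivial on `Pic⁰`, of finite order prime
to `p`, with `A_{g-1}(ψ) = ∑_{deg z = g-1, ℓ(z) > 0} ψ(z) ≠ 0`. -/
theorem exists_psi (p : ℕ) [Fact p.Prime] (hc : algebraicClosure k K = ⊥) [Finite (Pic0 k K)]
    {E : Type*} [Field E] [IsAlgClosed E] [CharP E p] (hg : 1 ≤ gen k K)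
    (R : Finset (Pl k K)) (hR : ∀ P ∈ R, degP P = 1)
    (hN : 2 * gen k K ^ 2 * Nat.card (Ptor p (Pic0 k K)) < R.card)
    (P₀ : Pl k K) (hP₀ : degP P₀ = 1) :
    ∃ ψ : AddChar (Pic k K) E, (∃ z ∈ Pic0 k K, ψ z ≠ 1) ∧
      ψ (cls (Finsupp.single P₀ 1)) = 1 ∧
      (∃ N : ℕ, 0 < N ∧ N.Coprime p ∧ ∀ z, ψ z ^ N = 1) ∧
      ∑ᶠ z ∈ {z : Pic k K | degPic z = (gen k K : ℤ) - 1 ∧ 0 < ellPic z}, ψ z ≠ 0 := by
  classical
  set g : ℕ := gen k K with hgdef
  have hg' : (1 : ℤ) ≤ g := by exact_mod_cast hg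
  let c₀ : Pic k K := cls (Finsupp.single P₀ 1)
  have hc₀ : degPic c₀ = 1 := by
    show degD (Finsupp.single P₀ 1) = 1
    rw [degD_single, hP₀]; norm_num
  -- representatives of the `p`-part
  have hfinT : Finite (Ptor p (Pic0 k K)) := inferInstance
  have := Fintype.ofFinite (Ptor p (Pic0 k K))
  obtain ⟨r, hr⟩ : ∃ r : Pic k K → (Pl k K →₀ ℤ), ∀ z, cls (r z) = z :=
    ⟨fun z => (cls_surjective z).choose, fun z => (cls_surjective z).choose_spec⟩
  let T : Finset (Pl k K →₀ ℤ) :=
    Finset.image (fun x : Ptor p (Pic0 k K) => r ((x : Pic0 k K) : Pic k K)) Finset.univ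
  have hTcard : (T.card : ℤ) ≤ Nat.card (Ptor p (Pic0 k K)) := by
    rw [Nat.card_eq_fintype_card]
    exact_mod_cast (Finset.card_image_le (s := Finset.univ)
      (f := fun x : Ptor p (Pic0 k K) => r ((x : Pic0 k K) : Pic k K)))
  have hTdeg : ∀ x ∈ T, degD x = 0 := by
    intro x hx
    obtain ⟨y, -, rfl⟩ := Finset.mem_image.mp hx
    rw [← degPic_cls, hr]
    exact (y : Pic0 k K).2
  have hcardN : (2 * (g : ℤ) ^ 2 * Nat.card (Ptor p (Pic0 k K))) < R.card := by
    exact_mod_cast hN
  have hPpos : (1 : ℤ) ≤ Nat.card (Ptor p (Pic0 k K)) := by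
    exact_mod_cast Nat.card_pos
  -- first divisor
  have hstep1 : ((T.filter fun x => cls x ≠ 0).card : ℤ) * (2 * g - 2 - degD (0 : Pl k K →₀ ℤ)) <
      R.card := by
    have h1 : ((T.filter fun x => cls x ≠ 0).card : ℤ) ≤ Nat.card (Ptor p (Pic0 k K)) :=
      le_trans (by exact_mod_cast Finset.card_filter_le _ _) hTcard
    have h2 : (0 : ℤ) ≤ 2 * g - 2 := by linarith
    rw [degD_zero, sub_zero]
    calc _ ≤ (Nat.card (Ptor p (Pic0 k K)) : ℤ) * (2 * g - 2) := mul_le_mul_of_nonneg_right h1 h2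
      _ ≤ (Nat.card (Ptor p (Pic0 k K)) : ℤ) * (2 * (g : ℤ) ^ 2) :=
          mul_le_mul_of_nonneg_left (by nlinarith) (by linarith)
      _ = 2 * (g : ℤ) ^ 2 * Nat.card (Ptor p (Pic0 k K)) := by ring
      _ < _ := hcardN
  obtain ⟨E₁, hE₁, hE₁d, hE₁T⟩ := iterate hc (T.filter fun x => cls x ≠ 0)
    (fun x hx => hTdeg x (Finset.mem_filter.mp hx).1) R hR 0 (by
      intro x hx
      obtain ⟨hx1, hx2⟩ := Finset.mem_filter.mp hx
      rw [zero_add]
      by_contra h
      exact hx2 (ell_pos_deg_zero (hTdeg x hx1) (Nat.pos_of_ne_zero h))) hstep1 (g - 1) (by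
      rw [degD_zero, zero_add, Nat.cast_sub hg]
      push_cast
      exact le_refl _)
  -- second divisor
  have hstep2 : (T.card : ℤ) * (2 * g - 2 - degD (-(Finsupp.single P₀ 1) : Pl k K →₀ ℤ)) <
      R.card := by
    have h2 : (0 : ℤ) ≤ 2 * g - 1 := by linarith
    have h3 : (2 * (g : ℤ) - 2 - degD (-(Finsupp.single P₀ 1) : Pl k K →₀ ℤ)) = 2 * g - 1 := by
      rw [degD_neg, degD_single, hP₀]
      push_cast
      ring
    rw [h3]
    calc _ ≤ (Nat.card (Ptor p (Pic0 k K)) : ℤ) * (2 * g - 1) :=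
          mul_le_mul_of_nonneg_right hTcard h2
      _ ≤ (Nat.card (Ptor p (Pic0 k K)) : ℤ) * (2 * (g : ℤ) ^ 2) :=
          mul_le_mul_of_nonneg_left (by nlinarith) (by linarith)
      _ = 2 * (g : ℤ) ^ 2 * Nat.card (Ptor p (Pic0 k K)) := by ring
      _ < _ := hcardN
  obtain ⟨E₂, hE₂, hE₂d, hE₂T⟩ := iterate hc T hTdeg R hR (-(Finsupp.single P₀ 1)) (by
      intro x hx
      apply ell_of_degD_neg
      rw [degD_add, degD_neg, degD_single, hP₀, hTdeg x hx]
      norm_num) hstep2 g (by
      rw [degD_neg, degD_single, hP₀]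
      push_cast
      linarith)
  -- the two cosets
  let S : Set (Pic0 k K) := {u | 0 < ellPic ((u : Pic k K) + ((g : ℤ) - 1) • c₀)}
  let u₁ : Pic0 k K := proj c₀ hc₀ (cls E₁)
  let u₀ : Pic0 k K := proj c₀ hc₀ (cls (-(Finsupp.single P₀ 1) + E₂))
  have hu₁ : (u₁ : Pic k K) + ((g : ℤ) - 1) • c₀ = cls E₁ := by
    show cls E₁ - degPic (cls E₁) • c₀ + ((g : ℤ) - 1) • c₀ = cls E₁
    rw [degPic_cls, hE₁d, Nat.cast_sub hg]
    push_cast
    abel
  have hu₀ : (u₀ : Pic k K) + ((g : ℤ) - 1) • c₀ = cls (-(Finsupp.single P₀ 1) + E₂) := by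
    show cls (-(Finsupp.single P₀ 1) + E₂) -
      degPic (cls (-(Finsupp.single P₀ 1) + E₂)) • c₀ + ((g : ℤ) - 1) • c₀ = _
    rw [degPic_cls, degD_add, degD_neg, degD_single, hP₀, hE₂d]
    have h3 : (-((1 : ℤ) * ((1 : ℕ) : ℤ)) + (g : ℤ)) = (g : ℤ) - 1 := by push_cast; ring
    rw [h3]
    abel
  have h₁ : ∀ x ∈ Ptor p (Pic0 k K), u₁ + x ∈ S ↔ x = 0 := by
    intro x hx
    have e1 : ((u₁ + x : Pic0 k K) : Pic k K) + ((g : ℤ) - 1) • c₀ =
        cls (E₁ + r (x : Pic k K)) := by
      rw [map_add, hr, ← hu₁, AddSubgroup.coe_add]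
      abel
    have e2 : u₁ + x ∈ S ↔ 0 < ell (E₁ + r (x : Pic k K)) := by
      show 0 < ellPic (((u₁ + x : Pic0 k K) : Pic k K) + ((g : ℤ) - 1) • c₀) ↔ _
      rw [e1, ellPic_cls]
    rw [e2]
    constructor
    · intro h
      by_contra hx0
      have hmem : r (x : Pic k K) ∈ T.filter fun x => cls x ≠ 0 := by
        rw [Finset.mem_filter]
        refine ⟨Finset.mem_image.mpr ⟨⟨x, hx⟩, Finset.mem_univ _, rfl⟩, ?_⟩
        rw [hr]
        intro h0
        exact hx0 (Subtype.ext h0)
      have h3 := hE₁T _ hmem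
      rw [zero_add] at h3
      omega
    · rintro rfl
      rw [← ellPic_cls, map_add, hr, AddSubgroup.coe_zero, add_zero, ellPic_pos_iff]
      exact ⟨E₁, hE₁, rfl⟩
  have h₀ : ∀ x ∈ Ptor p (Pic0 k K), u₀ + x ∉ S := by
    intro x hx
    have e1 : ((u₀ + x : Pic0 k K) : Pic k K) + ((g : ℤ) - 1) • c₀ =
        cls (-(Finsupp.single P₀ 1) + E₂ + r (x : Pic k K)) := by
      rw [map_add cls _ (r _), hr, ← hu₀, AddSubgroup.coe_add]
      abel
    have e2 : u₀ + x ∈ S ↔ 0 < ell (-(Finsupp.single P₀ 1) + E₂ + r (x : Pic k K)) := by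
      show 0 < ellPic (((u₀ + x : Pic0 k K) : Pic k K) + ((g : ℤ) - 1) • c₀) ↔ _
      rw [e1, ellPic_cls]
    rw [e2, hE₂T _ (Finset.mem_image.mpr ⟨⟨x, hx⟩, Finset.mem_univ _, rfl⟩)]
    exact lt_irrefl 0
  obtain ⟨χ, hχ, hsum⟩ := exists_char p (E := E) S u₁ u₀ h₁ h₀
  refine ⟨ext c₀ hc₀ χ, ?_, ?_, ?_, ?_⟩
  · -- non trivial
    by_contra hcon
    push Not at hcon
    apply hχ
    refine MonoidHom.ext fun x => Units.ext ?_
    obtain ⟨y, hy⟩ : ∃ y : Pic0 k K,
        (QuotientAddGroup.mk y : Pic0 k K ⧸ Ptor p (Pic0 k K)) = Multiplicative.toAdd x :=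
      QuotientAddGroup.mk_surjective (Multiplicative.toAdd x)
    have h3 := hcon (y : Pic k K) y.2
    rw [ext_apply] at h3
    have h4 : proj c₀ hc₀ (y : Pic k K) = y := by
      apply Subtype.ext
      rw [proj_coe, mem_Pic0.mp y.2, zero_zsmul, sub_zero]
    rw [h4, hy] at h3
    simpa using h3
  · rw [ext_apply]
    have h4 : proj c₀ hc₀ c₀ = 0 := by
      apply Subtype.ext
      rw [proj_coe, hc₀, one_smul, sub_self, AddSubgroup.coe_zero]
    show ((χ (Multiplicative.ofAdd (QuotientAddGroup.mk (proj c₀ hc₀ c₀) :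
      Pic0 k K ⧸ Ptor p (Pic0 k K))) : Eˣ) : E) = 1
    rw [h4, QuotientAddGroup.mk_zero, ofAdd_zero, map_one, Units.val_one]
  · refine ⟨Nat.card (Pic0 k K ⧸ Ptor p (Pic0 k K)), Nat.card_pos, ?_, ?_⟩
    · rw [Nat.Coprime.eq_1, Nat.gcd_comm]
      refine (Nat.Prime.coprime_iff_not_dvd Fact.out).mpr ?_
      intro hdvd
      have h5 := card_quot_ne_zero p (Pic0 k K) E
      rw [Ne, CharP.cast_eq_zero_iff E p] at h5
      exact h5 hdvd
    · intro z
      rw [ext_apply, ← Units.val_pow_eq_pow_val, ← map_pow]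
      have h5 : (Multiplicative.ofAdd (QuotientAddGroup.mk (proj c₀ hc₀ z) :
          Pic0 k K ⧸ Ptor p (Pic0 k K))) ^ Nat.card (Pic0 k K ⧸ Ptor p (Pic0 k K)) = 1 := by
        have := pow_card_eq_one' (G := Multiplicative (Pic0 k K ⧸ Ptor p (Pic0 k K)))
          (x := Multiplicative.ofAdd (QuotientAddGroup.mk (proj c₀ hc₀ z)))
        exact this
      rw [h5, map_one, Units.val_one]
  · -- the sum
    have hbij : Set.BijOn (fun u : Pic0 k K => (u : Pic k K) + ((g : ℤ) - 1) • c₀) S
        {z : Pic k K | degPic z = (g : ℤ) - 1 ∧ 0 < ellPic z} := by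
      refine ⟨?_, ?_, ?_⟩
      · intro u hu
        refine ⟨?_, hu⟩
        rw [map_add, map_zsmul, hc₀, mem_Pic0.mp u.2]
        simp
      · intro u _ v _ huv
        exact Subtype.ext (add_right_cancel huv)
      · rintro z ⟨hz1, hz2⟩
        refine ⟨proj c₀ hc₀ z, ?_, ?_⟩
        · show 0 < ellPic (z - degPic z • c₀ + ((g : ℤ) - 1) • c₀)
          rw [hz1, sub_add_cancel]
          exact hz2
        · show z - degPic z • c₀ + ((g : ℤ) - 1) • c₀ = z
          rw [hz1, sub_add_cancel]
    have hsum2 := finsum_mem_eq_of_bijOn (f := fun u : Pic0 k K =>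
        ((χ (Multiplicative.ofAdd (QuotientAddGroup.mk u : Pic0 k K ⧸ Ptor p (Pic0 k K))) : Eˣ) : E))
      (g := fun z => ext c₀ hc₀ χ z) _ hbij (by
        intro u _
        show _ = ext c₀ hc₀ χ ((u : Pic k K) + ((g : ℤ) - 1) • c₀)
        rw [ext_apply]
        have h4 : proj c₀ hc₀ ((u : Pic k K) + ((g : ℤ) - 1) • c₀) = u := by
          apply Subtype.ext
          rw [proj_coe, map_add, map_zsmul, hc₀, mem_Pic0.mp u.2]
          simp
        rw [h4])
    rw [← hsum2]
    exact hsum

end Crest.Agent.R013.CntG_398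
end

-- ▼ part R013/CntP5_127
section

/-!
# R013 / CntP5: a function field over a finite field has many places (helper127)

For all `c`, `r` there is `m ≥ 1` with `c * m ^ r < m * #{P | deg P = m}`.
-/

set_option autoImplicit false
set_option linter.all false

namespace Crest.Agent.R013.CntP5_127

open Finset WithZero Module
open Crest.Agent.R013.RR7_948 Crest.Agent.R013.RR8_948 Crest.Agent.R013.RR9_948
open Crest.Agent.R013.RR11_948 Crest.Agent.R013.RR12_948 Crest.Agent.R013.PicD_398

section Abstract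

/-- finite Euler product inequality -/
theorem euler_le {α : Type*} [DecidableEq α] (S : Finset α) (t : α → ℝ) (ht0 : ∀ a, 0 ≤ t a)
    (ht1 : ∀ a ∈ S, t a ≤ 1 / 2) (F : Finset (α →₀ ℤ)) (hF0 : ∀ D ∈ F, 0 ≤ D)
    (hFS : ∀ D ∈ F, D.support ⊆ S) :
    ∑ D ∈ F, ∏ a ∈ S, t a ^ (D a).toNat ≤ Real.exp (2 * ∑ a ∈ S, t a) := by
  classical
  -- a bound for the multiplicities
  obtain ⟨X, hX⟩ : ∃ X : ℕ, ∀ D ∈ F, ∀ a : α, (D a).toNat < X := by
    refine ⟨∑ D ∈ F, ∑ a ∈ S, (D a).toNat + 1, ?_⟩
    intro D hD a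
    rw [Nat.lt_succ_iff]
    by_cases ha : a ∈ S
    · calc (D a).toNat ≤ ∑ a ∈ S, (D a).toNat :=
            Finset.single_le_sum (f := fun a => (D a).toNat) (fun _ _ => Nat.zero_le _) ha
        _ ≤ _ := Finset.single_le_sum (f := fun D : α →₀ ℤ => ∑ a ∈ S, (D a).toNat)
            (fun _ _ => Nat.zero_le _) hD
    · have : D a = 0 := by
        by_contra h0
        exact ha (hFS D hD (Finsupp.mem_support_iff.mpr h0))
      rw [this]
      exact Nat.zero_le _
  have h1 : ∑ D ∈ F, ∏ a ∈ S, t a ^ (D a).toNat ≤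
      ∑ f ∈ Fintype.piFinset (fun _ : S => range X), ∏ a : S, t a ^ f a := by
    have h2 : ∀ D : α →₀ ℤ, ∏ a ∈ S, t a ^ (D a).toNat
        = ∏ a : S, t a ^ ((fun b : S => (D b).toNat) a) := by
      intro D
      exact (Finset.prod_coe_sort S (fun a => t a ^ (D a).toNat)).symm
    have hinj : Set.InjOn (fun (D : α →₀ ℤ) (b : S) => (D b).toNat) (F : Set (α →₀ ℤ)) := by
      intro D hD E hE h
      ext a
      by_cases ha : a ∈ S
      · have h3 := congrFun h ⟨a, ha⟩
        simp only at h3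
        have h4 := hF0 D hD a
        have h5 := hF0 E hE a
        rw [Finsupp.zero_apply] at h4 h5
        omega
      · have h3 : D a = 0 := by
          by_contra h0
          exact ha (hFS D hD (Finsupp.mem_support_iff.mpr h0))
        have h4 : E a = 0 := by
          by_contra h0
          exact ha (hFS E hE (Finsupp.mem_support_iff.mpr h0))
        rw [h3, h4]
    calc ∑ D ∈ F, ∏ a ∈ S, t a ^ (D a).toNat
        = ∑ f ∈ F.image (fun (D : α →₀ ℤ) (b : S) => (D b).toNat), ∏ a : S, t a ^ f a := by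
          rw [Finset.sum_image hinj]
          exact Finset.sum_congr rfl fun D _ => h2 D
      _ ≤ _ := by
          refine Finset.sum_le_sum_of_subset_of_nonneg ?_ ?_
          · intro f hf
            obtain ⟨D, hD, rfl⟩ := Finset.mem_image.mp hf
            rw [Fintype.mem_piFinset]
            intro b
            exact mem_range.mpr (hX D hD b)
          · intro f _ _
            exact Finset.prod_nonneg fun a _ => pow_nonneg (ht0 a) _
  refine h1.trans ?_
  rw [← Finset.prod_univ_sum (fun _ : S => range X) (fun (a : S) (j : ℕ) => t a ^ j)]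
  rw [Finset.prod_coe_sort S (fun a => ∑ j ∈ range X, t a ^ j), Finset.mul_sum, Real.exp_sum]
  refine Finset.prod_le_prod (fun a _ => Finset.sum_nonneg fun j _ => pow_nonneg (ht0 a) _) ?_
  intro a ha
  have h0 := ht0 a
  have h12 := ht1 a ha
  have h3 : ∑ j ∈ range X, t a ^ j ≤ 1 + 2 * t a := by
    have h4 : (∑ j ∈ range X, t a ^ j) * (1 - t a) ≤ 1 := by
      rw [geom_sum_mul_neg]
      have := pow_nonneg h0 X
      linarith
    have h5 : 1 ≤ (1 + 2 * t a) * (1 - t a) := by nlinarith
    have h6 : (0 : ℝ) < 1 - t a := by linarith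
    exact le_of_mul_le_mul_right (h4.trans h5) h6
  refine h3.trans ?_
  have := Real.add_one_le_exp (2 * t a)
  linarith

end Abstract

section Count

variable {k : Type*} [Field k] {K : Type*} [Field K] [Algebra k K] [Algebra (RatFunc k) K]
  [IsScalarTower k (RatFunc k) K] [FiniteDimensional (RatFunc k) K]
  [Algebra.IsSeparable (RatFunc k) K]

/-- lower bound for the number of effective divisors in a class -/
theorem card_eff_ge [Finite k] (hc : algebraicClosure k K = ⊥) (D : Pl k K →₀ ℤ)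
    (hfin : {E : Pl k K →₀ ℤ | 0 ≤ E ∧ degD E = degD D}.Finite) :
    Nat.card k ^ ell D ≤ 1 + Nat.card k * hfin.toFinset.card := by
  classical
  haveI := LD_finite D
  haveI : Finite (LD D) := Module.finite_of_finite k
  haveI := Fintype.ofFinite (LD D)
  haveI := Fintype.ofFinite k
  have hcard : Nat.card k ^ ell D = (Finset.univ : Finset (LD D)).card := by
    rw [Finset.card_univ, ← Nat.card_eq_fintype_card,
      Module.natCard_eq_pow_finrank (K := k) (V := LD D)]
    rfl
  rw [hcard]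
  have h1 : (Finset.univ : Finset (LD D)).card = 1 + (Finset.univ.erase (0 : LD D)).card := by
    rw [Finset.card_erase_of_mem (Finset.mem_univ _)]
    have : 0 < (Finset.univ : Finset (LD D)).card := Finset.card_pos.mpr ⟨0, Finset.mem_univ _⟩
    omega
  rw [h1]
  refine Nat.add_le_add_left ?_ 1
  refine Finset.card_le_mul_card_image_of_maps_to
    (f := fun f : LD D => D + divf (k := k) (f : K)) ?_ (Nat.card k) ?_
  · intro f hf
    have hf0 : (f : K) ≠ 0 := by
      intro h
      exact (Finset.ne_of_mem_erase hf) (Subtype.ext h)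
    rw [Set.Finite.mem_toFinset]
    refine ⟨(mem_LD_iff hf0).mp f.2, ?_⟩
    rw [degD_add, degD_divf hf0, add_zero]
  · intro E hE
    by_cases hne : (Finset.filter (fun f : LD D => D + divf (k := k) (f : K) = E)
        (Finset.univ.erase (0 : LD D))).Nonempty
    · obtain ⟨g, hg⟩ := hne
      rw [Finset.mem_filter] at hg
      have hg0 : (g : K) ≠ 0 := by
        intro h
        exact (Finset.ne_of_mem_erase hg.1) (Subtype.ext h)
      have h2 : ∀ f ∈ (Finset.univ.erase (0 : LD D)).filter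
          (fun f : LD D => D + divf (k := k) (f : K) = E), ∃ c : k, c • g = f := by
        intro f hf
        rw [Finset.mem_filter] at hf
        have hf0 : (f : K) ≠ 0 := by
          intro h
          exact (Finset.ne_of_mem_erase hf.1) (Subtype.ext h)
        have h3 : divf (k := k) ((f : K) * (g : K)⁻¹) = 0 := by
          rw [divf_mul hf0 (inv_ne_zero hg0), divf_inv hg0]
          have h4 : D + divf (k := k) (f : K) = D + divf (k := k) (g : K) := by
            rw [hf.2, hg.2]
          rw [add_left_cancel h4, add_neg_cancel]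
        have h5 : (f : K) * (g : K)⁻¹ ∈ LD (0 : Pl k K →₀ ℤ) := by
          rw [mem_LD_iff (mul_ne_zero hf0 (inv_ne_zero hg0)), h3, add_zero]
        rw [LD_zero hc, Submodule.mem_one] at h5
        obtain ⟨c, hc'⟩ := h5
        refine ⟨c, Subtype.ext ?_⟩
        show c • (g : K) = f
        rw [Algebra.smul_def, hc', mul_assoc, inv_mul_cancel₀ hg0, mul_one]
      calc _ ≤ ((Finset.univ : Finset k).image (fun c : k => c • g)).card := by
            refine Finset.card_le_card ?_
            intro f hf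
            obtain ⟨c, hcf⟩ := h2 f hf
            exact Finset.mem_image.mpr ⟨c, Finset.mem_univ _, hcf⟩
        _ ≤ (Finset.univ : Finset k).card := Finset.card_image_le
        _ = Nat.card k := by rw [Finset.card_univ, Nat.card_eq_fintype_card]
    · rw [Finset.not_nonempty_iff_eq_empty] at hne
      rw [hne]
      simp

variable [Finite k] (hc : algebraicClosure k K = ⊥)
  (hfin : ∀ n : ℕ, {D : Pl k K →₀ ℤ | 0 ≤ D ∧ degD D = n}.Finite)

include hfin in
omit [Finite k] in
theorem finite_deg (m : ℕ) : {P : Pl k K | degP P = m}.Finite := by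
  have h := hfin m
  have hinj : Function.Injective (fun P : Pl k K => Finsupp.single P (1 : ℤ)) := by
    intro P Q hPQ
    exact (Finsupp.single_left_inj one_ne_zero).mp hPQ
  refine (h.preimage hinj.injOn).subset ?_
  intro P hP
  refine ⟨?_, ?_⟩
  · intro Q
    classical
    rw [Finsupp.single_apply, Finsupp.zero_apply]
    split_ifs <;> norm_num
  · show degD (Finsupp.single P 1) = m
    rw [degD_single, one_mul]
    exact_mod_cast hP

include hc hfin in
/-- **many places** -/
theorem many_places (c r : ℕ) :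
    ∃ m : ℕ, 1 ≤ m ∧ c * m ^ r < m * Nat.card {P : Pl k K // degP P = m} := by
  classical
  by_contra hcon
  push Not at hcon
  set q : ℕ := Nat.card k with hq
  have hq2 : 2 ≤ q := Finite.one_lt_card
  have hqR : (2 : ℝ) ≤ q := by exact_mod_cast hq2
  have hq0 : (0 : ℝ) < q := by linarith
  set t : Pl k K → ℝ := fun P => ((q : ℝ)⁻¹) ^ degP P with ht
  have ht0 : ∀ P, 0 ≤ t P := fun P => pow_nonneg (inv_nonneg.mpr hq0.le) _
  have hqi : (q : ℝ)⁻¹ ≤ 1 / 2 := by
    rw [one_div]; exact inv_anti₀ (by norm_num) hqR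
  have hqi0 : (0 : ℝ) ≤ (q : ℝ)⁻¹ := inv_nonneg.mpr hq0.le
  have ht1 : ∀ P, t P ≤ 1 / 2 := by
    intro P
    have hd := degP_pos P
    calc t P = ((q : ℝ)⁻¹) ^ degP P := rfl
      _ ≤ ((q : ℝ)⁻¹) ^ 1 := pow_le_pow_of_le_one hqi0 (by linarith) hd
      _ ≤ 1 / 2 := by rw [pow_one]; exact hqi
  -- the series
  have hsum : Summable (fun m : ℕ => (c : ℝ) * ((m : ℝ) ^ r * (1 / 2) ^ m)) := by
    have := summable_pow_mul_geometric_of_norm_lt_one (R := ℝ) r (r := 1 / 2) (by norm_num)
    exact this.mul_left _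
  set C : ℝ := ∑' m : ℕ, (c : ℝ) * ((m : ℝ) ^ r * (1 / 2) ^ m) with hC
  have hSbound : ∀ S : Finset (Pl k K), ∑ P ∈ S, t P ≤ C := by
    intro S
    obtain ⟨M, hM⟩ : ∃ M : ℕ, ∀ P ∈ S, degP P ∈ range M := by
      refine ⟨∑ P ∈ S, degP P + 1, fun P hP => ?_⟩
      rw [mem_range, Nat.lt_succ_iff]
      exact Finset.single_le_sum (f := fun P : Pl k K => degP P) (fun _ _ => Nat.zero_le _) hP
    rw [← Finset.sum_fiberwise_of_maps_to (g := fun P => degP P) hM]
    calc ∑ m ∈ range M, ∑ P ∈ S with degP P = m, t P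
        ≤ ∑ m ∈ range M, (c : ℝ) * ((m : ℝ) ^ r * (1 / 2) ^ m) := by
          refine Finset.sum_le_sum fun m _ => ?_
          have h1 : ∑ P ∈ S with degP P = m, t P = (#{P ∈ S | degP P = m} : ℝ) * ((q : ℝ)⁻¹) ^ m := by
            rw [← nsmul_eq_mul, ← Finset.sum_const]
            refine Finset.sum_congr rfl fun P hP => ?_
            rw [Finset.mem_filter] at hP
            simp only [ht]
            rw [hP.2]
          rw [h1]
          have hfm := finite_deg hfin m
          have h2 : #{P ∈ S | degP P = m} ≤ Nat.card {P : Pl k K // degP P = m} := by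
            haveI : Finite {P : Pl k K // degP P = m} := hfm
            rw [← Nat.card_eq_finsetCard]
            refine Nat.card_le_card_of_injective
              (fun P : {P // P ∈ S.filter (fun P => degP P = m)} =>
                (⟨P.1, (Finset.mem_filter.mp P.2).2⟩ : {P : Pl k K // degP P = m})) ?_
            intro P Q h
            exact Subtype.ext (congrArg (fun x => x.1) h)
          rcases Nat.eq_zero_or_pos m with rfl | hm
          · -- no places of degree zero
            have h3 : #{P ∈ S | degP P = 0} = 0 := by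
              rw [Finset.card_eq_zero, Finset.filter_eq_empty_iff]
              intro P _ h0
              have := degP_pos P
              omega
            rw [h3]
            simp only [Nat.cast_zero, zero_mul]
            positivity
          · have h3 := hcon m hm
            have h4 : #{P ∈ S | degP P = m} ≤ c * m ^ r := by
              calc _ ≤ Nat.card {P : Pl k K // degP P = m} := h2
                _ ≤ m * Nat.card {P : Pl k K // degP P = m} := Nat.le_mul_of_pos_left _ hm
                _ ≤ _ := h3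
            have h5 : (#{P ∈ S | degP P = m} : ℝ) ≤ c * (m : ℝ) ^ r := by exact_mod_cast h4
            have h6 : ((q : ℝ)⁻¹) ^ m ≤ (1 / 2) ^ m := pow_le_pow_left₀ hqi0 hqi m
            rw [← mul_assoc]
            exact mul_le_mul h5 h6 (pow_nonneg hqi0 _) (by positivity)
      _ ≤ C := hsum.sum_le_tsum _ (fun m _ => by positivity)
  -- upper bound for sums over effective divisors
  have hupper : ∀ F : Finset (Pl k K →₀ ℤ), (∀ D ∈ F, 0 ≤ D) →
      ∑ D ∈ F, ((q : ℝ)⁻¹) ^ (degD D).toNat ≤ Real.exp (2 * C) := by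
    intro F hF
    let S : Finset (Pl k K) := F.biUnion fun D => D.support
    have hS : ∀ D ∈ F, D.support ⊆ S := fun D hD => Finset.subset_biUnion_of_mem _ hD
    have h1 := euler_le S t ht0 (fun P _ => ht1 P) F hF hS
    have h2 : ∀ D ∈ F, ((q : ℝ)⁻¹) ^ (degD D).toNat = ∏ P ∈ S, t P ^ (D P).toNat := by
      intro D hD
      simp only [ht, ← pow_mul]
      rw [Finset.prod_pow_eq_pow_sum]
      congr 1
      have h3 : degD D = ∑ P ∈ S, D P * (degP P : ℤ) := by
        unfold degD
        exact Finsupp.sum_of_support_subset _ (hS D hD) _ (fun P _ => by simp)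
      have h4 : (degD D) = ((∑ P ∈ S, degP P * (D P).toNat : ℕ) : ℤ) := by
        rw [h3]
        push_cast
        refine Finset.sum_congr rfl fun P _ => ?_
        have := hF D hD P
        rw [Finsupp.zero_apply] at this
        rw [Int.toNat_of_nonneg this, mul_comm]
      rw [h4]
      exact Int.toNat_natCast _
    rw [Finset.sum_congr rfl h2]
    refine h1.trans (Real.exp_le_exp.mpr ?_)
    have := hSbound S
    linarith
  -- lower bound
  obtain ⟨P0, -⟩ := exists_notMem (∅ : Finset (Pl k K))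
  set d := degP P0 with hd
  have hd1 : 1 ≤ d := degP_pos P0
  set g := gen k K with hg
  have hlow : ∀ j : ℕ, g + 1 ≤ j →
      (q : ℝ)⁻¹ ^ (g + 1) ≤ ∑ D ∈ (hfin (j * d)).toFinset, ((q : ℝ)⁻¹) ^ (degD D).toNat := by
    intro j hj
    have hdeg : degD (Finsupp.single P0 (j : ℤ)) = (j * d : ℕ) := by
      rw [degD_single]; push_cast; rfl
    have hfin' : {E : Pl k K →₀ ℤ | 0 ≤ E ∧ degD E = degD (Finsupp.single P0 (j : ℤ))}.Finite := by
      rw [hdeg]; exact hfin _
    have h1 := card_eff_ge hc (Finsupp.single P0 (j : ℤ)) hfin'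
    have h2 := ell_ge hc (Finsupp.single P0 (j : ℤ))
    rw [hdeg] at h2
    have h3 : j * d + 1 - g ≤ ell (Finsupp.single P0 (j : ℤ)) := by
      rw [← hg] at h2
      have : ((j * d : ℕ) : ℤ) + 1 - (g : ℤ) ≤ (ell (Finsupp.single P0 (j : ℤ)) : ℤ) := h2
      omega
    have hjd : j ≤ j * d := Nat.le_mul_of_pos_right _ hd1
    have hcards : hfin'.toFinset = (hfin (j * d)).toFinset := by
      ext E
      rw [Set.Finite.mem_toFinset, Set.Finite.mem_toFinset]
      simp only [Set.mem_setOf_eq, hdeg]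
    rw [hcards] at h1
    set a := (hfin (j * d)).toFinset.card with ha
    have h4 : ∑ D ∈ (hfin (j * d)).toFinset, ((q : ℝ)⁻¹) ^ (degD D).toNat
        = a * ((q : ℝ)⁻¹) ^ (j * d) := by
      rw [ha, ← nsmul_eq_mul, ← Finset.sum_const]
      refine Finset.sum_congr rfl fun D hD => ?_
      rw [Set.Finite.mem_toFinset] at hD
      have := hD.2
      rw [this]
      congr 1
    rw [h4]
    -- `q ^ (jd + 1 - g) ≤ 1 + q a`
    have h5 : q ^ (j * d + 1 - g) ≤ 1 + q * a :=
      (Nat.pow_le_pow_right (by omega) h3).trans h1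
    have h6 : q ^ (j * d - g - 1) ≤ a := by
      have h7 : q ^ (j * d + 1 - g) = q * (q * q ^ (j * d - g - 1)) := by
        rw [← pow_succ', ← pow_succ']
        congr 1
        omega
      rw [h7] at h5
      have h8 : 1 ≤ q ^ (j * d - g - 1) := Nat.one_le_pow _ _ (by omega)
      by_contra hlt
      push Not at hlt
      have h9 : a + 1 ≤ q ^ (j * d - g - 1) := hlt
      have h10 : q * (q * (a + 1)) ≤ 1 + q * a := by
        refine le_trans ?_ h5
        exact Nat.mul_le_mul_left _ (Nat.mul_le_mul_left _ h9)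
      have h11 : 2 * (q * (a + 1)) ≤ q * (q * (a + 1)) := Nat.mul_le_mul_right _ hq2
      have h12 : q * (a + 1) = q * a + q := by ring
      omega
    have h7 : (q : ℝ) ^ (j * d - g - 1) ≤ a := by exact_mod_cast h6
    have h8 : (q : ℝ)⁻¹ ^ (g + 1) = (q : ℝ) ^ (j * d - g - 1) * (q : ℝ)⁻¹ ^ (j * d) := by
      have h9 : j * d = (j * d - g - 1) + (g + 1) := by omega
      conv_rhs => rw [h9]
      rw [show j * d - g - 1 + (g + 1) - g - 1 = j * d - g - 1 by omega,
        pow_add ((q : ℝ)⁻¹) (j * d - g - 1) (g + 1), ← mul_assoc,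
        ← mul_pow, mul_inv_cancel₀ hq0.ne', one_pow, one_mul]
    rw [h8]
    exact mul_le_mul_of_nonneg_right h7 (pow_nonneg hqi0 _)
  -- contradiction
  have hall : ∀ J : ℕ, (J : ℝ) * (q : ℝ)⁻¹ ^ (g + 1) ≤ Real.exp (2 * C) := by
    intro J
    let F : Finset (Pl k K →₀ ℤ) := (range J).biUnion fun i => (hfin ((g + 1 + i) * d)).toFinset
    have hdisj : ((range J : Finset ℕ) : Set ℕ).PairwiseDisjoint
        (fun i => (hfin ((g + 1 + i) * d)).toFinset) := by
      intro i _ i' _ hii
      rw [Function.onFun, Finset.disjoint_left]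
      intro D hD hD'
      rw [Set.Finite.mem_toFinset] at hD hD'
      have h1 := hD.2.symm.trans hD'.2
      have h2 : (g + 1 + i) * d = (g + 1 + i') * d := by exact_mod_cast h1
      have h3 := Nat.eq_of_mul_eq_mul_right (by omega) h2
      exact hii (by omega)
    have h1 := hupper F (by
      intro D hD
      obtain ⟨i, _, hD⟩ := Finset.mem_biUnion.mp hD
      rw [Set.Finite.mem_toFinset] at hD
      exact hD.1)
    rw [Finset.sum_biUnion hdisj] at h1
    refine le_trans ?_ h1
    have h2 : (J : ℝ) * (q : ℝ)⁻¹ ^ (g + 1) = ∑ i ∈ range J, (q : ℝ)⁻¹ ^ (g + 1) := by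
      rw [Finset.sum_const, card_range, nsmul_eq_mul]
    rw [h2]
    exact Finset.sum_le_sum fun i _ => hlow (g + 1 + i) (by omega)
  have hpos : (0 : ℝ) < (q : ℝ)⁻¹ ^ (g + 1) := pow_pos (inv_pos.mpr hq0) _
  obtain ⟨J, hJ⟩ := exists_nat_gt (Real.exp (2 * C) / (q : ℝ)⁻¹ ^ (g + 1))
  have h1 := hall J
  rw [div_lt_iff₀ hpos] at hJ
  linarith

end Count

end Crest.Agent.R013.CntP5_127
end

-- ▼ part R013/CntP6_127
section

/-!
# R013 / CntP6: the bound for `d/dX` in constant extensions; abstract towers (helper127)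
-/

set_option autoImplicit false
set_option linter.all false

namespace Crest.Agent.R013.CntP6_127

open Finset WithZero Module
open Crest.Agent.R013.RR7_948 Crest.Agent.R013.RR8_948 Crest.Agent.R013.RR9_948
open Crest.Agent.R013.RR11_948 Crest.Agent.R013.RR12_948 Crest.Agent.R013.RR14_948
open Crest.Agent.R013.RR15_948
open Crest.Agent.R013.PicD_398 Crest.Agent.R013.CntP1_127 Crest.Agent.R013.CntP4_127

section Ext

variable {k : Type*} [Field k] {K : Type*} [Field K] [Algebra k K] [Algebra (RatFunc k) K]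
  [IsScalarTower k (RatFunc k) K] [FiniteDimensional (RatFunc k) K]
  [Algebra.IsSeparable (RatFunc k) K]
  {k' : Type*} [Field k'] {K' : Type*} [Field K'] [Algebra k' K'] [Algebra (RatFunc k') K']
  [IsScalarTower k' (RatFunc k') K'] [FiniteDimensional (RatFunc k') K']
  [Algebra.IsSeparable (RatFunc k') K']
  [Algebra k k'] [Algebra k K'] [IsScalarTower k k' K'] [Algebra K K'] [IsScalarTower k K K']

/-- derivations commute with constant extensions -/
theorem del_compat (hX : xK k' K' = algebraMap K K' (xK k K)) (f : K) :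
    del k' K' (algebraMap K K' f) = algebraMap K K' (del k K f) := by
  -- restrict `del k' K'` to `K`
  let d : Derivation k K K' :=
    { toFun := fun f => del k' K' (algebraMap K K' f)
      map_add' := fun a b => by rw [map_add, map_add]
      map_smul' := fun c a => by
        rw [Algebra.smul_def, map_mul, ← IsScalarTower.algebraMap_apply k K K',
          IsScalarTower.algebraMap_apply k k' K', Derivation.leibniz, Derivation.map_algebraMap,
          smul_zero, add_zero, RingHom.id_apply, smul_eq_mul, ← IsScalarTower.algebraMap_apply,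
          Algebra.smul_def]
      map_one_eq_zero' := by
        show del k' K' (algebraMap K K' 1) = 0
        rw [map_one, Derivation.map_one_eq_zero]
      leibniz' := fun a b => by
        show del k' K' (algebraMap K K' (a * b)) = a • del k' K' (algebraMap K K' b)
          + b • del k' K' (algebraMap K K' a)
        rw [map_mul, Derivation.leibniz, Algebra.smul_def a, Algebra.smul_def b, smul_eq_mul,
          smul_eq_mul] }
  have h1 : ∀ f, d f = del k K f • d (xK k K) := by
    intro f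
    have h2 := D_eq k K f
    have h3 := congrArg d.liftKaehlerDifferential h2
    rw [map_smul, Derivation.liftKaehlerDifferential_comp_D,
      Derivation.liftKaehlerDifferential_comp_D] at h3
    exact h3
  have h4 : d (xK k K) = 1 := by
    show del k' K' (algebraMap K K' (xK k K)) = 1
    rw [← hX, del_xK]
  have h5 := h1 f
  rw [h4, Algebra.smul_def, mul_one] at h5
  exact h5

/-- **the bound for `d/dX` is inherited by constant extensions** -/
theorem Bd_of_res (hX : xK k' K' = algebraMap K K' (xK k K)) (res : Pl k' K' → Pl k K)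
    (hres : ∀ (Q : Pl k' K') (f : K), Q.v (algebraMap K K' f) = (res Q).v f)
    (hfib : ∀ P : Pl k K, {Q | res Q = P}.Finite) {ι : Type*} [Fintype ι] (b : ι → k')
    (hcoord : ∀ x : K', ∃ a : ι → K, x = ∑ i, algebraMap k' K' (b i) * algebraMap K K' (a i) ∧
      ∀ P : Pl k K, (∀ Q, res Q = P → Q.v x ≤ 1) → ∀ i, P.v (a i) ≤ 1)
    {W : Pl k K →₀ ℤ} {W' : Pl k' K' →₀ ℤ} (hW : Bd W) (hW' : ∀ Q, W' Q = W (res Q)) : Bd W' := by
  classical
  intro Q u hu
  set P := res Q with hP
  -- elements integral over `P`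
  have key : ∀ x : K', (∀ Q', res Q' = P → Q'.v x ≤ 1) → Q.v (del k' K' x) ≤ exp (W' Q) := by
    intro x hx
    obtain ⟨a, hxa, ha⟩ := hcoord x
    have ha' := ha P hx
    rw [hxa, map_sum]
    refine Valuation.map_sum_le _ fun i _ => ?_
    rw [Derivation.leibniz, Derivation.map_algebraMap, smul_zero, add_zero, smul_eq_mul,
      del_compat hX, map_mul, hres, hW']
    have hb : Q.v (algebraMap k' K' (b i)) ≤ 1 := by
      by_cases h0 : b i = 0
      · rw [h0]; simp
      · rw [Q.const _ h0]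
    calc _ ≤ 1 * exp (W (res Q)) := mul_le_mul' hb (hW _ _ (ha' i))
      _ = _ := one_mul _
  -- a denominator
  obtain ⟨t, ht0, ht⟩ := exists_prescribed (hfib P).toFinset
    (fun Q' => if Q' = Q then 0 else - max 0 (log (Q'.v u)))
  have hQt : Q.v t = 1 := by
    rw [ht Q ((hfib P).mem_toFinset.mpr hP.symm), if_pos rfl, exp_zero]
  have h1 : ∀ Q', res Q' = P → Q'.v t ≤ 1 := by
    intro Q' hQ'
    rw [ht Q' ((hfib P).mem_toFinset.mpr hQ'), ← exp_zero, exp_le_exp]
    split_ifs
    · exact le_rfl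
    · have := le_max_left 0 (log (Q'.v u))
      omega
  have h2 : ∀ Q', res Q' = P → Q'.v (u * t) ≤ 1 := by
    intro Q' hQ'
    by_cases hQQ : Q' = Q
    · rw [hQQ, map_mul, hQt, mul_one]; exact hu
    · rw [map_mul, ht Q' ((hfib P).mem_toFinset.mpr hQ'), if_neg hQQ]
      by_cases hu0 : Q'.v u = 0
      · rw [hu0, zero_mul]; exact zero_le
      · have h7 : Q'.v u = exp (log (Q'.v u)) := (exp_log hu0).symm
        have h8 := le_max_right 0 (log (Q'.v u))
        generalize log (Q'.v u) = z at h7 h8 ⊢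
        rw [h7, ← exp_add, ← exp_zero, exp_le_exp]
        omega
  have h3 := key _ h1
  have h4 := key _ h2
  have h5 : del k' K' u = (del k' K' (u * t) - u * del k' K' t) / t := by
    rw [Derivation.leibniz, smul_eq_mul, smul_eq_mul]
    field_simp
    ring
  rw [h5, map_div₀, hQt, div_one]
  refine (Valuation.map_sub _ _ _).trans (max_le h4 ?_)
  rw [map_mul]
  calc _ ≤ 1 * exp (W' Q) := mul_le_mul' hu h3
    _ = _ := one_mul _

end Ext

section Tower

/-- abstract growth of the `p`-part in towers -/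
theorem tower {Obj : Type*} (R : ℕ → Obj → Obj → Prop) (P T2 : Obj → ℕ) (p w B : ℕ)
    (hp : p.Prime) (X : Obj)
    (hrefl : ∀ Y, R 1 Y Y) (htrans : ∀ {m n : ℕ} {Y Z U}, R m Y Z → R n Z U → R (m * n) Y U)
    (hex : ∀ (Y : Obj) (l : ℕ), l.Prime → ∃ Z, R l Y Z)
    (hmono : ∀ {m : ℕ} {Y Z : Obj}, R m Y Z → T2 Y ≤ T2 Z)
    (hB : ∀ m Y, R m X Y → T2 Y ≤ B)
    (hstep : ∀ {m l : ℕ} {Y Z : Obj}, R m X Y → l.Prime → R l Y Z → T2 Z ≤ T2 Y →
      P Z ≤ P Y * (if l = p then p ^ w else 1)) :
    ∃ (m₀ : ℕ) (X₀ : Obj), R m₀ X X₀ ∧ ∀ m : ℕ, 1 ≤ m → ∃ Y, R m X₀ Y ∧ P Y ≤ P X₀ * m ^ w := by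
  classical
  -- maximal `T2`
  have hexB : ∃ n, ∃ (m : ℕ) (Y : Obj), R m X Y ∧ T2 Y = n := ⟨_, 1, X, hrefl X, rfl⟩
  obtain ⟨n, ⟨m₀, X₀, hR₀, hT₀⟩, hmax⟩ : ∃ n, (∃ (m : ℕ) (Y : Obj), R m X Y ∧ T2 Y = n) ∧
      ∀ (m : ℕ) (Y : Obj), R m X Y → T2 Y ≤ n := by
    let S : Set ℕ := {n | ∃ (m : ℕ) (Y : Obj), R m X Y ∧ T2 Y = n}
    have hbdd : BddAbove S := ⟨B, by rintro _ ⟨m, Y, h, rfl⟩; exact hB m Y h⟩
    refine ⟨sSup S, Nat.sSup_mem hexB hbdd, fun m Y h => le_csSup hbdd ⟨m, Y, h, rfl⟩⟩
  refine ⟨m₀, X₀, hR₀, ?_⟩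
  intro m
  induction m using Nat.strong_induction_on with
  | _ m ih =>
    intro hm
    by_cases hm1 : m = 1
    · subst hm1
      exact ⟨X₀, hrefl X₀, by simp⟩
    · have hl := Nat.minFac_prime hm1
      obtain ⟨m', hm'⟩ := Nat.minFac_dvd m
      set l := m.minFac with hldef
      have hm'1 : 1 ≤ m' := by
        rcases Nat.eq_zero_or_pos m' with h | h
        · rw [h] at hm'; omega
        · exact h
      have hlt : m' < m := by
        rw [hm']
        have := hl.two_le
        nlinarith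
      obtain ⟨Y, hY, hPY⟩ := ih m' hlt hm'1
      obtain ⟨Z, hZ⟩ := hex Y l hl
      have hXY := htrans hR₀ hY
      refine ⟨Z, ?_, ?_⟩
      · rw [hm', mul_comm]
        exact htrans hY hZ
      · have hT : T2 Z ≤ T2 Y := by
          refine (hmax _ _ (htrans hXY hZ)).trans ?_
          rw [← hT₀]
          exact hmono hY
        have h1 := hstep hXY hl hZ hT
        calc P Z ≤ P Y * (if l = p then p ^ w else 1) := h1
          _ ≤ (P X₀ * m' ^ w) * l ^ w := by
              refine Nat.mul_le_mul hPY ?_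
              split_ifs with h
              · rw [h]
              · exact Nat.one_le_pow _ _ hl.pos
          _ = P X₀ * m ^ w := by
              conv_rhs => rw [hm']
              rw [mul_pow]; ring

end Tower

end Crest.Agent.R013.CntP6_127
end

-- ▼ part R013/CntP8_127
section

/-!
# R013 / CntP8: splitting of places in constant extensions of finite fields (helper127)

`d = deg P`, `m = [k' : k]`: `gcd (d, m)` places above `P`, of degree `d / gcd (d, m)`.
-/

set_option autoImplicit false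
set_option linter.all false

namespace Crest.Agent.R013.CntP8_127

open Finset WithZero Module
open Crest.Agent.R013.RR7_948 Crest.Agent.R013.RR8_948 Crest.Agent.R013.RR9_948
open Crest.Agent.R013.RR11_948 Crest.Agent.R013.RR12_948 Crest.Agent.R013.RR18_948
open Crest.Agent.R013.PicD_398 Crest.Agent.R013.CntA1_560
open Crest.Agent.R013.CntB1_491 Crest.Agent.R013.CntB2_491 Crest.Agent.R013.CntB3_491
open Crest.Agent.R013.CntB4_491

variable {k k' K K' : Type*} [Field k] [Field k'] [Field K] [Field K'] [Algebra k k']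
  [Algebra k K] [Algebra k' K'] [Algebra K K'] [Algebra k K'] [IsScalarTower k k' K']
  [IsScalarTower k K K'] [FiniteDimensional k k'] [Algebra.IsSeparable k k']
  [FiniteDimensional K K'] [Algebra.IsSeparable K K']
  [Algebra (RatFunc k) K] [IsScalarTower k (RatFunc k) K] [FiniteDimensional (RatFunc k) K]
  [Algebra.IsSeparable (RatFunc k) K]
  [Algebra (RatFunc k') K'] [IsScalarTower k' (RatFunc k') K'] [FiniteDimensional (RatFunc k') K']
  [Algebra.IsSeparable (RatFunc k') K']

/-- the iterated Frobenius `x ↦ x ^ (q ^ N)` as an additive map -/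
theorem sum_pow_card [Finite k] {R : Type*} [CommRing R] [Algebra k R] {ι : Type*} (s : Finset ι)
    (f : ι → R) (N : ℕ) :
    (∑ i ∈ s, f i) ^ (Nat.card k ^ N) = ∑ i ∈ s, f i ^ (Nat.card k ^ N) := by
  haveI := Fintype.ofFinite k
  have h1 : ∀ x : R, x ^ (Nat.card k ^ N) = (FiniteField.frobeniusAlgHom k R ^ N) x := by
    intro x
    rw [AlgHom.coe_pow, FiniteField.coe_frobeniusAlgHom, pow_iterate, Nat.card_eq_fintype_card]
  simp only [h1, map_sum]

/-- Fermat at a place of a constant extension -/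
theorem fermat [Finite k] (h : IsCE k k' K K') (Q : Pl k' K') {N : ℕ}
    (hd : degP (res k K Q) ∣ N) (hm : finrank k k' ∣ N) {u : K'} (hu : Q.v u ≤ 1) :
    Q.v (u ^ (Nat.card k ^ N) - u) < 1 := by
  classical
  set P := res k K Q with hP
  haveI : Finite k' := Module.finite_of_finite k
  haveI := Fintype.ofFinite k'
  obtain ⟨x, hx⟩ := weak_approx (k := k') (K := K') (fib k' K' P)
    (fun Q' => if Q' = Q then u else 0) 1
  have hxQ : Q.v (x - u) < 1 := by
    have h1 := hx Q (mem_fib.mpr hP.symm)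
    rw [if_pos rfl] at h1
    exact lt_of_le_of_lt h1 (by rw [← exp_zero, exp_lt_exp]; norm_num)
  have hx1 : Q.v x ≤ 1 := by
    have h1 : x = (x - u) + u := by ring
    rw [h1]
    exact (Valuation.map_add _ _ _).trans (max_le hxQ.le hu)
  have hxall : ∀ Q' : Pl k' K', res k K Q' = P → Q'.v x ≤ exp 0 := by
    intro Q' hQ'
    rw [exp_zero]
    by_cases hQQ : Q' = Q
    · rw [hQQ]; exact hx1
    · have h1 := hx Q' (mem_fib.mpr hQ')
      rw [if_neg hQQ, sub_zero] at h1
      exact h1.trans (by rw [← exp_zero, exp_le_exp]; norm_num)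
  let b := Module.Free.chooseBasis k k'
  have hco := repr_le h b P x 0 hxall
  -- Fermat for `x`
  have hxx : Q.v (x ^ (Nat.card k ^ N) - x) < 1 := by
    have h1 : x = ∑ i, algebraMap K K' ((h.basis b).repr x i) * algebraMap k' K' (b i) := by
      conv_lhs => rw [← (h.basis b).sum_repr x]
      refine Finset.sum_congr rfl fun i _ => ?_
      rw [Algebra.smul_def, h.basis_apply]
    have hb : ∀ i, (algebraMap k' K' (b i)) ^ (Nat.card k ^ N) = algebraMap k' K' (b i) := by
      intro i
      rw [← map_pow]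
      congr 1
      obtain ⟨n, rfl⟩ := hm
      have h2 : Nat.card k ^ (finrank k k' * n) = Fintype.card k' ^ n := by
        rw [pow_mul, ← Nat.card_eq_fintype_card, Module.natCard_eq_pow_finrank (K := k) (V := k')]
      rw [h2]
      exact FiniteField.pow_card_pow n (b i)
    have h2 : x ^ (Nat.card k ^ N) - x = ∑ i, (algebraMap K K'
        ((h.basis b).repr x i ^ (Nat.card k ^ N) - (h.basis b).repr x i)) *
        algebraMap k' K' (b i) := by
      conv_lhs => rw [h1]
      rw [sum_pow_card, ← Finset.sum_sub_distrib]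
      refine Finset.sum_congr rfl fun i _ => ?_
      rw [mul_pow, hb, map_sub, map_pow, sub_mul]
    rw [h2]
    refine Valuation.map_sum_lt _ one_ne_zero fun i _ => ?_
    rw [map_mul, ← res_v h]
    have h3 := v_pow_sub_lt P (degE_eq P) hd (x := (h.basis b).repr x i) (by
      have := hco i; rwa [exp_zero] at this)
    have h4 : Q.v (algebraMap k' K' (b i)) ≤ 1 := by
      by_cases h0 : b i = 0
      · rw [h0]; simp
      · rw [Q.const _ h0]
    calc _ ≤ P.v ((h.basis b).repr x i ^ (Nat.card k ^ N) - (h.basis b).repr x i) * 1 :=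
          mul_le_mul_right h4 _
      _ < 1 := by rw [mul_one]; exact h3
  -- Fermat for `u`
  have h5 : u ^ (Nat.card k ^ N) - u = (x ^ (Nat.card k ^ N) - x) -
      ((x ^ (Nat.card k ^ N) - u ^ (Nat.card k ^ N)) - (x - u)) := by ring
  rw [h5]
  refine Valuation.map_sub_lt _ hxx (Valuation.map_sub_lt _ ?_ hxQ)
  obtain ⟨c, hc⟩ := sub_dvd_pow_sub_pow x u (Nat.card k ^ N)
  have hN0 : Nat.card k ^ N ≠ 0 := pow_ne_zero _ Nat.card_pos.ne'
  have h6 : x ^ (Nat.card k ^ N) - u ^ (Nat.card k ^ N) = (x - u) ^ (Nat.card k ^ N) := by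
    haveI := Fintype.ofFinite k
    have h7 : ∀ x : K', x ^ (Nat.card k ^ N) = (FiniteField.frobeniusAlgHom k K' ^ N) x := by
      intro x
      rw [AlgHom.coe_pow, FiniteField.coe_frobeniusAlgHom, pow_iterate, Nat.card_eq_fintype_card]
    rw [h7, h7, h7, map_sub]
  rw [h6, map_pow]
  exact pow_lt_one₀ zero_le hxQ hN0

/-- **degrees in constant extensions of finite fields** -/
theorem finrank_mul_degP [Finite k] (h : IsCE k k' K K') (Q : Pl k' K') :
    finrank k k' * degP Q = Nat.lcm (degP (res k K Q)) (finrank k k') := by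
  classical
  haveI : Finite k' := Module.finite_of_finite k
  apply Nat.dvd_antisymm
  swap
  · refine Nat.lcm_dvd ?_ (Dvd.intro _ rfl)
    rw [← degP_down (k := k) Q]
    exact degP_under_dvd (K := K) (down k Q)
  · set L := Nat.lcm (degP (res k K Q)) (finrank k k') with hL
    have hm : finrank k k' ∣ L := Nat.dvd_lcm_right _ _
    have hd : degP (res k K Q) ∣ L := Nat.dvd_lcm_left _ _
    have hLpos : 0 < L := Nat.lcm_pos (degP_pos _) finrank_pos
    -- the residue field has at most `q ^ L` elements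
    letI : Field (Q.v.integer ⧸ mI Q) := Ideal.Quotient.field _
    have hcard := card_quot_eq_pow Q (degE_eq Q)
    rw [Module.natCard_eq_pow_finrank (K := k) (V := k'), ← pow_mul] at hcard
    haveI hfin : Finite (Q.v.integer ⧸ mI Q) := by
      apply Nat.finite_of_card_ne_zero
      rw [hcard]
      exact pow_ne_zero _ (Nat.card_pos).ne'
    haveI := Fintype.ofFinite (Q.v.integer ⧸ mI Q)
    have hq1 : 1 < Nat.card k := Finite.one_lt_card
    have hall : ∀ y : Q.v.integer ⧸ mI Q, y ^ (Nat.card k ^ L) = y := by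
      intro y
      obtain ⟨⟨u, hu⟩, rfl⟩ := Ideal.Quotient.mk_surjective y
      rw [← map_pow, ← sub_eq_zero, ← map_sub, Ideal.Quotient.eq_zero_iff_mem, mem_mI]
      exact fermat h Q hd hm hu
    have hle : Nat.card (Q.v.integer ⧸ mI Q) ≤ Nat.card k ^ L := by
      have hN1 : 1 < Nat.card k ^ L := Nat.one_lt_pow hLpos.ne' hq1
      have hne : (Polynomial.X ^ (Nat.card k ^ L) - Polynomial.X :
          Polynomial (Q.v.integer ⧸ mI Q)) ≠ 0 := FiniteField.X_pow_card_sub_X_ne_zero _ hN1
      rw [Nat.card_eq_fintype_card, ← Finset.card_univ,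
        ← FiniteField.X_pow_card_sub_X_natDegree_eq (Q.v.integer ⧸ mI Q) hN1]
      refine Polynomial.card_le_degree_of_subset_roots ?_
      intro y _
      rw [Polynomial.mem_roots hne]
      simp [hall y]
    rw [hcard] at hle
    have h2 := (Nat.pow_le_pow_iff_right hq1).mp hle
    have h1 : L ∣ finrank k k' * degP Q := by
      refine Nat.lcm_dvd ?_ (Dvd.intro _ rfl)
      rw [← degP_down (k := k) Q]
      exact degP_under_dvd (K := K) (down k Q)
    have hpos : 0 < finrank k k' * degP Q := Nat.mul_pos finrank_pos (degP_pos Q)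
    have h3 := Nat.le_of_dvd hpos h1
    rw [le_antisymm h2 h3]

theorem degP_mul_gcd [Finite k] (h : IsCE k k' K K') (Q : Pl k' K') :
    degP Q * Nat.gcd (degP (res k K Q)) (finrank k k') = degP (res k K Q) := by
  have h1 := finrank_mul_degP h Q
  have h2 := Nat.gcd_mul_lcm (degP (res k K Q)) (finrank k k')
  rw [← h1] at h2
  have hm : 0 < finrank k k' := finrank_pos
  apply Nat.eq_of_mul_eq_mul_left hm
  rw [mul_comm (finrank k k') (degP (res k K Q)), ← h2]
  ring

theorem gcd_pos (Q : Pl k' K') : 0 < Nat.gcd (degP (res k K Q)) (finrank k k') :=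
  Nat.gcd_pos_of_pos_left _ (degP_pos _)

/-- `deg Q = d / gcd (d, m)` -/
theorem degP_eq [Finite k] (h : IsCE k k' K K') (Q : Pl k' K') :
    degP Q = degP (res k K Q) / Nat.gcd (degP (res k K Q)) (finrank k k') := by
  conv_rhs => rw [← degP_mul_gcd h Q]
  rw [degP_mul_gcd h Q]
  exact Nat.eq_div_of_mul_eq_left (gcd_pos Q).ne' (degP_mul_gcd h Q)

/-- `gcd (d, m)` places above `P` -/
theorem card_fib [Finite k] (h : IsCE k k' K K') (P : Pl k K) :
    (fib k' K' P).card = Nat.gcd (degP P) (finrank k k') := by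
  classical
  have h1 := sum_degP h P
  have h2 : ∀ Q ∈ fib k' K' P, degP Q = degP P / Nat.gcd (degP P) (finrank k k') := by
    intro Q hQ
    rw [mem_fib] at hQ
    have := degP_eq h Q
    rwa [hQ] at this
  rw [Finset.sum_congr rfl h2, Finset.sum_const, smul_eq_mul] at h1
  have hg : Nat.gcd (degP P) (finrank k k') ∣ degP P := Nat.gcd_dvd_left _ _
  have hpos : 0 < degP P := degP_pos P
  have hgpos : 0 < Nat.gcd (degP P) (finrank k k') := Nat.gcd_pos_of_pos_left _ hpos
  have hd := Nat.div_mul_cancel hg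
  have hqpos : 0 < degP P / Nat.gcd (degP P) (finrank k k') := Nat.div_pos (Nat.le_of_dvd hpos hg) hgpos
  apply Nat.eq_of_mul_eq_mul_right hqpos
  rw [h1, mul_comm, hd]


/-- places of degree `m` split completely into rational places -/
theorem card_rat_ge [Finite k] (h : IsCE k k' K K') :
    finrank k k' * Nat.card {P : Pl k K // degP P = finrank k k'} ≤
      Nat.card {Q : Pl k' K' // degP Q = 1} := by
  classical
  haveI : Finite k' := Module.finite_of_finite k
  have hf1 : {P : Pl k K | degP P = finrank k k'}.Finite :=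
    (finite_degP_le (finrank k k')).subset fun P hP => le_of_eq hP
  have hf2 : {Q : Pl k' K' | degP Q = 1}.Finite :=
    (finite_degP_le 1).subset fun P hP => le_of_eq hP
  have e1 : Nat.card {P : Pl k K // degP P = finrank k k'} = hf1.toFinset.card := by
    rw [← Nat.card_eq_card_finite_toFinset hf1]; rfl
  have e2 : Nat.card {Q : Pl k' K' // degP Q = 1} = hf2.toFinset.card := by
    rw [← Nat.card_eq_card_finite_toFinset hf2]; rfl
  rw [e1, e2]
  have h1 : (hf1.toFinset.biUnion (fun P => fib k' K' P)) ⊆ hf2.toFinset := by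
    intro Q hQ
    obtain ⟨P, hP, hQP⟩ := Finset.mem_biUnion.mp hQ
    rw [Set.Finite.mem_toFinset] at hP ⊢
    rw [mem_fib] at hQP
    have h2 := degP_eq h Q
    rw [hQP] at h2
    have hP' : degP P = finrank k k' := hP
    rw [hP', Nat.gcd_self, Nat.div_self finrank_pos] at h2
    exact h2
  refine le_trans ?_ (Finset.card_le_card h1)
  rw [Finset.card_biUnion]
  · rw [Finset.sum_congr rfl (g := fun _ => finrank k k')]
    · rw [Finset.sum_const, smul_eq_mul, mul_comm]
    · intro P hP
      rw [Set.Finite.mem_toFinset] at hP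
      have hP' : degP P = finrank k k' := hP
      rw [card_fib h P, hP', Nat.gcd_self]
  · intro P _ P' _ hne
    rw [Function.onFun, Finset.disjoint_left]
    intro Q hQ hQ'
    rw [mem_fib] at hQ hQ'
    exact hne (hQ.symm.trans hQ')

end Crest.Agent.R013.CntP8_127
end

-- ▼ part R013/CntP7_127
section

/-!
# R013 / CntP7: one step of a tower of constant extensions (helper127)
-/

set_option autoImplicit false
set_option linter.all false

namespace Crest.Agent.R013.CntP7_127

open Finset WithZero Module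
open Crest.Agent.R013.RR7_948 Crest.Agent.R013.RR8_948 Crest.Agent.R013.RR9_948
open Crest.Agent.R013.RR11_948 Crest.Agent.R013.RR12_948 Crest.Agent.R013.RR14_948
open Crest.Agent.R013.PicD_398 Crest.Agent.R013.CntA1_560
open Crest.Agent.R013.CntP1_127 Crest.Agent.R013.CntP4_127 Crest.Agent.R013.CntP6_127
open Crest.Agent.R013.CntB1_491 Crest.Agent.R013.CntB2_491 Crest.Agent.R013.CntB3_491
open Crest.Agent.R013.CntB4_491

section Single

variable {k K : Type*} [Field k] [Field K] [Algebra k K]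
  [Algebra (RatFunc k) K] [IsScalarTower k (RatFunc k) K] [FiniteDimensional (RatFunc k) K]
  [Algebra.IsSeparable (RatFunc k) K]

/-- torsion classes have degree zero -/
theorem degPic_of_torsion {n : ℕ} (hn : n ≠ 0) {z : Pic k K} (hz : n • z = 0) : degPic z = 0 := by
  have h1 := congrArg degPic hz
  rw [map_nsmul, map_zero, nsmul_eq_mul] at h1
  rcases mul_eq_zero.mp h1 with h2 | h2
  · exact absurd (by exact_mod_cast h2) hn
  · exact h2

theorem finite_pp [Finite k] (p : ℕ) (hp : p ≠ 0) : Finite (pp p (Pic k K)) := by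
  have h1 : ∀ z : pp p (Pic k K), (z : Pic k K) ∈ Pic0 k K := by
    rintro ⟨z, n, hn⟩
    exact degPic_of_torsion (pow_ne_zero n hp) hn
  exact Finite.of_injective (fun z : pp p (Pic k K) => (⟨z, h1 z⟩ : Pic0 k K)) (by
    intro x y h
    have h2 := congrArg Subtype.val h
    exact Subtype.ext h2)

/-- for a finite field `|Pic[p]|` is bounded by `p ^ ℓ(W)` -/
theorem card_pic_p_le [Finite k] (p : ℕ) [Fact p.Prime] [CharP k p] {W : Pl k K →₀ ℤ}
    (hW : Bd W) : Finite {z : Pic k K // p • z = 0} ∧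
      Nat.card {z : Pic k K // p • z = 0} ≤ p ^ ell W := by
  haveI : CharP K p := (algebraMap k K).charP_iff (algebraMap k K).injective p |>.mp inferInstance
  exact card_pic_le p hW

end Single

variable {k k' K K' : Type*} [Field k] [Field k'] [Field K] [Field K'] [Algebra k k']
  [Algebra k K] [Algebra k' K'] [Algebra K K'] [Algebra k K'] [IsScalarTower k k' K']
  [IsScalarTower k K K'] [FiniteDimensional k k'] [Algebra.IsSeparable k k']
  [FiniteDimensional K K'] [Algebra.IsSeparable K K']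
  [Algebra (RatFunc k) K] [IsScalarTower k (RatFunc k) K] [FiniteDimensional (RatFunc k) K]
  [Algebra.IsSeparable (RatFunc k) K]
  [Algebra (RatFunc k') K'] [IsScalarTower k' (RatFunc k') K'] [FiniteDimensional (RatFunc k') K']
  [Algebra.IsSeparable (RatFunc k') K']

/-- the bound for `d/dX` in a constant extension -/
theorem Bd_con (h : IsCE k k' K K') (hX : xK k' K' = algebraMap K K' (xK k K))
    {W : Pl k K →₀ ℤ} (hW : Bd W) : Bd (con k' K' W) := by
  classical
  let b := Module.Free.chooseBasis k k'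
  refine Bd_of_res hX (res k K) (fun Q f => (res_v h Q f).symm) ?_ (fun i => b i) ?_ hW
    (fun Q => rfl)
  · intro P
    refine (fib k' K' P).finite_toSet.subset ?_
    intro Q hQ
    exact mem_fib.mpr hQ
  · intro x
    refine ⟨fun i => (h.basis b).repr x i, ?_, ?_⟩
    · conv_lhs => rw [← (h.basis b).sum_repr x]
      refine Finset.sum_congr rfl fun i _ => ?_
      rw [Algebra.smul_def, h.basis_apply, mul_comm]
    · intro P hP i
      have := repr_le h b P x 0 (fun Q hQ => by rw [exp_zero]; exact hP Q hQ) i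
      rwa [exp_zero] at this

/-- `|Pic K [n]| ≤ |Pic K' [n]|` -/
theorem card_tors_mono (h : IsCE k k' K K') (n : ℕ) (hfin : Finite {z : Pic k' K' // n • z = 0}) :
    Nat.card {z : Pic k K // n • z = 0} ≤ Nat.card {z : Pic k' K' // n • z = 0} := by
  refine Nat.card_le_card_of_injective (fun z : {z : Pic k K // n • z = 0} =>
    (⟨conPic h z, by rw [← map_nsmul, z.2, map_zero]⟩ : {z : Pic k' K' // n • z = 0})) ?_
  intro x y hxy
  exact Subtype.ext (conPic_injective h (congrArg Subtype.val hxy))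

/-- one step -/
theorem step [IsGalois k k'] [Finite k] (h : IsCE k k' K K') (p : ℕ) (hp : p.Prime)
    (hl : (finrank k k').Prime) {w : ℕ}
    (hfin : Finite {z : Pic k' K' // p • z = 0})
    (hw : Nat.card {z : Pic k' K' // p • z = 0} ≤ p ^ w)
    (hT : Nat.card {z : Pic k' K' // p ^ 2 • z = 0} ≤ Nat.card {z : Pic k K // p ^ 2 • z = 0}) :
    Nat.card (pp p (Pic k' K')) ≤
      Nat.card (pp p (Pic k K)) * (if finrank k k' = p then p ^ w else 1) := by
  classical
  have hfin2 := (card_sq_le hfin).1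
  have h1 := card_pp_le hp hl (conPic h) (nmPic h) (conPic_injective h)
    (fun z => nmPic_conPic h z)
    (fun b hb => surj_of_card (conPic h) (conPic_injective h) hfin2 hT hb)
    (finite_pp p hp.ne_zero) hfin
  refine h1.2.trans (Nat.mul_le_mul_left _ ?_)
  split_ifs
  · exact hw
  · exact le_rfl

end Crest.Agent.R013.CntP7_127
end

-- ▼ part R013/CntP_127
section

/-!
# R013 / CntP: many rational places compared with the `p`-part of `Pic⁰` (helper127)
-/

set_option autoImplicit false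
set_option linter.all false

namespace Crest.Agent.R013.CntP_127

open Finset WithZero Module
open Crest.Agent.R013.RR7_948 Crest.Agent.R013.RR8_948 Crest.Agent.R013.RR9_948
open Crest.Agent.R013.RR11_948 Crest.Agent.R013.RR12_948 Crest.Agent.R013.RR14_948
open Crest.Agent.R013.PicD_398 Crest.Agent.R013.CntA1_560 Crest.Agent.R013.CntG3_398
open Crest.Agent.R013.CntP1_127 Crest.Agent.R013.CntP4_127 Crest.Agent.R013.CntP5_127
open Crest.Agent.R013.CntP6_127 Crest.Agent.R013.CntP7_127 Crest.Agent.R013.CntP8_127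
open Crest.Agent.R013.CntB1_491 Crest.Agent.R013.CntB2_491 Crest.Agent.R013.CntB3_491
open Crest.Agent.R013.CntB4_491 Crest.Agent.R013.CntB7_491

universe u v

/-- bundled function fields over finite fields of characteristic `p` -/
structure Ob (p : ℕ) where
  k : Type u
  K : Type v
  [fk : Field k]
  [fK : Field K]
  [a1 : Algebra k K]
  [a2 : Algebra (RatFunc k) K]
  [t1 : IsScalarTower k (RatFunc k) K]
  [d1 : FiniteDimensional (RatFunc k) K]
  [s1 : Algebra.IsSeparable (RatFunc k) K]
  [f1 : Finite k]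
  [c1 : CharP k p]
  hc : algebraicClosure k K = ⊥

attribute [instance] Ob.fk Ob.fK Ob.a1 Ob.a2 Ob.t1 Ob.d1 Ob.s1 Ob.f1 Ob.c1

/-- the object of a constant extension -/
noncomputable def Ob.ext {p : ℕ} (Y : Ob.{u, v} p) (F : CExt.{u, v, u} Y.k Y.K) : Ob.{u, v} p :=
  haveI : CharP F.k' p := charP_of_injective_algebraMap (algebraMap Y.k F.k').injective p
  { k := F.k', K := F.K', hc := hc_CExt F }

theorem finite_tors {k K : Type*} [Field k] [Field K] [Algebra k K]
    [Algebra (RatFunc k) K] [IsScalarTower k (RatFunc k) K] [FiniteDimensional (RatFunc k) K]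
    [Algebra.IsSeparable (RatFunc k) K] [Finite k] {n : ℕ} (hn : n ≠ 0) :
    Finite {z : Pic k K // n • z = 0} := by
  have h1 : ∀ z : {z : Pic k K // n • z = 0}, (z : Pic k K) ∈ Pic0 k K := by
    rintro ⟨z, hz⟩
    exact degPic_of_torsion hn hz
  exact Finite.of_injective (fun z : {z : Pic k K // n • z = 0} => (⟨z, h1 z⟩ : Pic0 k K)) (by
    intro x y h
    have h2 := congrArg Subtype.val h
    exact Subtype.ext h2)

variable {p : ℕ}

/-- `Z` is a constant extension of `Y` of degree `m` -/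
def Rel (m : ℕ) (Y Z : Ob.{u, v} p) : Prop :=
  ∃ F : CExt.{u, v, u} Y.k Y.K, Z = Y.ext F ∧ finrank Y.k F.k' = m

theorem Rel.refl (Y : Ob.{u, v} p) : Rel 1 Y Y := by
  refine ⟨CExt.refl Y.hc, rfl, ?_⟩
  exact finrank_self Y.k

theorem Rel.trans {m n : ℕ} {Y Z U : Ob.{u, v} p} (h1 : Rel m Y Z) (h2 : Rel n Z U) :
    Rel (m * n) Y U := by
  obtain ⟨F, rfl, hF⟩ := h1
  obtain ⟨G, rfl, hG⟩ := h2
  let G' : CExt.{u, v, u} F.k' F.K' := G
  have hG' : finrank F.k' G'.k' = n := hG
  refine ⟨F.trans G', rfl, ?_⟩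
  have h := CExt.finrank_trans F G'
  rw [hF, hG'] at h
  exact h

theorem Rel.exists (Y : Ob.{u, v} p) (m : ℕ) (hm : m ≠ 0) : ∃ Z, Rel m Y Z := by
  obtain ⟨F, hF⟩ := exists_CExt_of_finite.{u, v, u} Y.hc m hm
  exact ⟨Y.ext F, F, rfl, hF⟩

/-- the order of the `p`-part -/
noncomputable def PP (Y : Ob.{u, v} p) : ℕ := Nat.card (pp p (Pic Y.k Y.K))

/-- the order of the `p ^ 2`-torsion -/
noncomputable def T2 (Y : Ob.{u, v} p) : ℕ := Nat.card {z : Pic Y.k Y.K // p ^ 2 • z = 0}

variable [hp : Fact p.Prime]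

theorem T2_mono {m : ℕ} {Y Z : Ob.{u, v} p} (h : Rel m Y Z) : T2 Y ≤ T2 Z := by
  obtain ⟨F, rfl, hF⟩ := h
  exact card_tors_mono F.ce (p ^ 2) (finite_tors (pow_ne_zero 2 hp.out.ne_zero))

theorem card_p_le {X : Ob.{u, v} p} {W : Pl X.k X.K →₀ ℤ} (hW : Bd W) {m : ℕ} {Y : Ob.{u, v} p}
    (h : Rel m X Y) : Nat.card {z : Pic Y.k Y.K // p • z = 0} ≤ p ^ ell W := by
  obtain ⟨F, rfl, hF⟩ := h
  have h1 := Bd_con F.ce F.hX hW
  haveI : CharP F.k' p := charP_of_injective_algebraMap (algebraMap X.k F.k').injective p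
  have h2 := (card_pic_p_le p h1).2
  rw [ell_con F.ce] at h2
  exact h2

theorem T2_le {X : Ob.{u, v} p} {W : Pl X.k X.K →₀ ℤ} (hW : Bd W) {m : ℕ} {Y : Ob.{u, v} p}
    (h : Rel m X Y) : T2 Y ≤ (p ^ ell W) ^ 2 :=
  ((card_sq_le (finite_tors (k := Y.k) (K := Y.K) hp.out.ne_zero)).2).trans
    (Nat.pow_le_pow_left (card_p_le hW h) 2)

instance isGalois_of_finite (k k' : Type*) [Field k] [Field k'] [Algebra k k'] [Finite k]
    [FiniteDimensional k k'] : IsGalois k k' := by
  haveI : Finite k' := Module.finite_of_finite k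
  infer_instance

theorem step_le {X : Ob.{u, v} p} {W : Pl X.k X.K →₀ ℤ} (hW : Bd W) {m l : ℕ} {Y Z : Ob.{u, v} p}
    (h1 : Rel m X Y) (hl : l.Prime) (h2 : Rel l Y Z) (hT : T2 Z ≤ T2 Y) :
    PP Z ≤ PP Y * (if l = p then p ^ ell W else 1) := by
  have h3 := card_p_le hW (h1.trans h2)
  obtain ⟨G, rfl, hG⟩ := h2
  have h4 := step (k := Y.k) (k' := G.k') (K := Y.K) (K' := G.K') G.ce p hp.out
    (by rw [hG]; exact hl) (w := ell W) (finite_tors hp.out.ne_zero) h3 hT
  rw [hG] at h4
  exact h4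

/-- **growth of the `p`-part** -/
theorem growth (X : Ob.{u, v} p) : ∃ (w m₀ : ℕ) (X₀ : Ob.{u, v} p), Rel m₀ X X₀ ∧
    ∀ m : ℕ, 1 ≤ m → ∃ Y, Rel m X₀ Y ∧ PP Y ≤ PP X₀ * m ^ w := by
  obtain ⟨W, hW⟩ := exists_Bd X.k X.K
  obtain ⟨m₀, X₀, h1, h2⟩ := tower (Obj := Ob.{u, v} p) Rel PP T2 p (ell W) ((p ^ ell W) ^ 2)
    hp.out X Rel.refl (fun h1 h2 => h1.trans h2) (fun Y l hl => Rel.exists Y l hl.ne_zero)
    (fun h => T2_mono h) (fun m Y h => T2_le hW h)
    (fun h1 hl h2 hT => step_le hW h1 hl h2 hT)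
  exact ⟨ell W, m₀, X₀, h1, h2⟩

variable {k : Type u} {K : Type v} [Field k] [Field K] [Algebra k K] [Algebra (RatFunc k) K]
  [IsScalarTower k (RatFunc k) K] [FiniteDimensional (RatFunc k) K]
  [Algebra.IsSeparable (RatFunc k) K]

variable (p) in
/-- **CNT-P**: after a constant extension there are more than `2 g² |Pic[p^∞]|` rational places -/
theorem exists_many [Finite k] [CharP k p] (hc : algebraicClosure k K = ⊥) :
    ∃ E : CExt.{u, v, u} k K, 2 * gen E.k' E.K' ^ 2 * Nat.card (pp p (Pic E.k' E.K')) <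
      Nat.card {Q : Pl E.k' E.K' // degP Q = 1} := by
  let X : Ob.{u, v} p := { k := k, K := K, hc := hc }
  obtain ⟨w, m₀, X₀, h0, hgr⟩ := growth X
  obtain ⟨m, hm1, hm⟩ := many_places X₀.hc (fun n => finite_eff (k := X₀.k) (K := X₀.K) (n : ℤ))
    (2 * gen X₀.k X₀.K ^ 2 * PP X₀) w
  obtain ⟨Y, hY, hPY⟩ := hgr m hm1
  obtain ⟨E, hE, _⟩ := h0.trans hY
  refine ⟨E, ?_⟩
  obtain ⟨G, rfl, hG⟩ := hY
  have h1 : Nat.card (pp p (Pic E.k' E.K')) = PP (X₀.ext G) := by rw [hE]; rfl
  have h2 : gen E.k' E.K' = gen X₀.k X₀.K := by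
    have h3 : gen E.k' E.K' = gen (X.ext E).k (X.ext E).K := rfl
    rw [h3, ← hE]
    exact gen_eq (k := X₀.k) (k' := G.k') (K := X₀.K) (K' := G.K') G.ce
  have h3 : Nat.card {Q : Pl E.k' E.K' // degP Q = 1} =
      Nat.card {Q : Pl G.k' G.K' // degP Q = 1} := by
    have h4 : Nat.card {Q : Pl E.k' E.K' // degP Q = 1} =
      Nat.card {Q : Pl (X.ext E).k (X.ext E).K // degP Q = 1} := rfl
    rw [h4, ← hE]
    rfl
  rw [h1, h2, h3]
  have h4 := card_rat_ge G.ce
  rw [hG] at h4
  refine lt_of_le_of_lt ?_ (lt_of_lt_of_le hm h4)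
  calc 2 * gen X₀.k X₀.K ^ 2 * PP (X₀.ext G) ≤ 2 * gen X₀.k X₀.K ^ 2 * (PP X₀ * m ^ w) :=
        Nat.mul_le_mul_left _ hPY
    _ = _ := by ring

/-- the form used in `CntG_398.exists_psi` -/
theorem exists_rat_places (p : ℕ) [hp : Fact p.Prime] [Finite k] [CharP k p]
    (hc : algebraicClosure k K = ⊥) :
    ∃ (E : CExt.{u, v, u} k K) (R : Finset (Pl E.k' E.K')), (∀ P ∈ R, degP P = 1) ∧
      2 * gen E.k' E.K' ^ 2 * Nat.card (Ptor p (Pic0 E.k' E.K')) < R.card := by
  classical
  obtain ⟨E, hE⟩ := exists_many p hc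
  have hf : {Q : Pl E.k' E.K' | degP Q = 1}.Finite :=
    (finite_degP_le 1).subset fun P hP => le_of_eq hP
  refine ⟨E, hf.toFinset, fun P hP => hf.mem_toFinset.mp hP, ?_⟩
  have e2 : Nat.card {Q : Pl E.k' E.K' // degP Q = 1} = hf.toFinset.card := by
    rw [← Nat.card_eq_card_finite_toFinset hf]; rfl
  rw [← e2]
  refine lt_of_le_of_lt (Nat.mul_le_mul_left _ ?_) hE
  haveI := finite_pp (k := E.k') (K := E.K') p hp.out.ne_zero
  refine Nat.card_le_card_of_injective (fun z : Ptor p (Pic0 E.k' E.K') =>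
    (⟨((z : Pic0 E.k' E.K') : Pic E.k' E.K'), by
      obtain ⟨n, hn⟩ := z.2
      exact ⟨n, congrArg Subtype.val hn⟩⟩ : pp p (Pic E.k' E.K'))) ?_
  intro x y h
  have h2 := congrArg Subtype.val h
  exact Subtype.ext (Subtype.ext h2)

end Crest.Agent.R013.CntP_127
end

-- ▼ part R013/WR5_777
section

/-!
# R013 / WR5: `nrm P f` is the norm of the residue of `f` in the residue field `Kap P` (helper777)

For finite `k` with `q` elements: `nrm P f = f(P) ^ ((q^d - 1)/(q - 1))`, `d = degP P`, and for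
`N * m = q - 1`: `nrm P f ^ m = 1` iff `f(P)` is an `N`-th power in `Kap P`.
-/

set_option autoImplicit false
set_option linter.all false

namespace Crest.Agent.R013.WR5_777

open WithZero Module
open Crest.Agent.R013.RR1_948 Crest.Agent.R013.RR2_948
open Crest.Agent.R013.RR7_948 Crest.Agent.R013.RR8_948 Crest.Agent.R013.RR9_948
open Crest.Agent.R013.RR11_948 Crest.Agent.R013.RR12_948
open Crest.Agent.R013.WR1_777 Crest.Agent.R013.WR2_777 Crest.Agent.R013.WR3_777
open Crest.Agent.R013.WR4_777 Crest.Agent.R013.PicD_398 Crest.Agent.R013.CntA1_560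

section local_

variable {k : Type*} [Field k] {K : Type*} [Field K] [Algebra k K]

/-- the residue field of a place -/
abbrev Kap (P : Pl k K) : Type _ := P.v.integer ⧸ mI P

noncomputable instance (P : Pl k K) : Field (Kap P) := Ideal.Quotient.field (mI P)

/-- the residue map -/
noncomputable def rs (P : Pl k K) : P.v.integer →+* Kap P := Ideal.Quotient.mk (mI P)

theorem rs_surjective (P : Pl k K) : Function.Surjective (rs P) := Ideal.Quotient.mk_surjective

theorem rs_eq_zero {P : Pl k K} {x : P.v.integer} : rs P x = 0 ↔ P.v (x : K) < 1 := by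
  unfold rs
  exact Ideal.Quotient.eq_zero_iff_mem.trans mem_mI

theorem rs_eq {P : Pl k K} {x y : P.v.integer} : rs P x = rs P y ↔ P.v ((x : K) - y) < 1 := by
  rw [← sub_eq_zero, ← map_sub, rs_eq_zero]
  rfl

/-- the constants in the valuation ring -/
noncomputable def cInt (P : Pl k K) : k →+* P.v.integer :=
  (algebraMap k K).codRestrict P.v.integer (fun c => v_const_le P c)


noncomputable instance (P : Pl k K) : Algebra k (Kap P) := ((rs P).comp (cInt P)).toAlgebra

theorem algebraMap_Kap (P : Pl k K) (c : k) : algebraMap k (Kap P) c = rs P (cInt P c) := rfl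

/-- the value of a function regular at `P` -/
noncomputable def val (P : Pl k K) (f : K) (hf : P.v f ≤ 1) : Kap P := rs P ⟨f, hf⟩

theorem mem_int_of_ball {P : Pl k K} (x : ball P 0) : (x : K) ∈ P.v.integer := by
  have := mem_ball.mp x.2
  rwa [exp_zero] at this

/-- the reduction `ball P 0 → Kap P`, linear over `k` -/
noncomputable def redL (P : Pl k K) : ball P 0 →ₗ[k] Kap P where
  toFun x := rs P ⟨x, mem_int_of_ball x⟩
  map_add' x y := by rw [← map_add]; rfl
  map_smul' c x := by
    rw [RingHom.id_apply, Algebra.smul_def, algebraMap_Kap, ← map_mul]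
    congr 1
    refine Subtype.ext ?_
    show ((c • x : ball P 0) : K) = algebraMap k K c * x
    rw [Submodule.coe_smul, Algebra.smul_def]

theorem redL_apply (P : Pl k K) (x : ball P 0) : redL P x = rs P ⟨x, mem_int_of_ball x⟩ := rfl

theorem redL_eq_zero {P : Pl k K} (x : ball P 0) : redL P x = 0 ↔ (x : K) ∈ ball P (-1) := by
  rw [redL_apply, rs_eq_zero, mem_ball, lt_one_iff]

/-- `gr P 0 ≃ Kap P` -/
noncomputable def grK (P : Pl k K) : gr P 0 →ₗ[k] Kap P :=
  Submodule.liftQ _ (redL P) fun x hx => by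
    rw [LinearMap.mem_ker, redL_eq_zero]
    exact hx

theorem grK_mk (P : Pl k K) (x : ball P 0) : grK P (Submodule.Quotient.mk x) = redL P x := rfl

theorem grK_bijective (P : Pl k K) : Function.Bijective (grK P) := by
  constructor
  · rw [injective_iff_map_eq_zero]
    intro x hx
    obtain ⟨x, rfl⟩ := Submodule.Quotient.mk_surjective _ x
    rw [grK_mk, redL_eq_zero] at hx
    rw [← Submodule.Quotient.mk_zero, gr_eq, Submodule.coe_zero, sub_zero]
    exact hx
  · intro y
    obtain ⟨x, rfl⟩ := rs_surjective P y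
    have hx : (x : K) ∈ ball P 0 := by rw [mem_ball, exp_zero]; exact x.2
    exact ⟨Submodule.Quotient.mk ⟨x, hx⟩, rfl⟩

/-- **`nrm` is the norm of the residue** -/
theorem nrm_eq_norm {P : Pl k K} {f : K} (hf : P.v f = 1) :
    (nrm P f : k) = Algebra.norm k (val P f hf.le) := by
  rw [coe_nrm hf, Algebra.norm_apply, eq_comm]
  refine det_conj' (grK P) (grK_bijective P) _ _ ?_
  intro x
  obtain ⟨x, rfl⟩ := Submodule.Quotient.mk_surjective _ x
  rw [mulGr_mk, grK_mk, grK_mk, redL_apply, redL_apply]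
  show val P f hf.le * _ = _
  unfold val
  rw [← map_mul]
  rfl

/-- degree one: `f ≡ nrm P f` -/
theorem val_mul {P : Pl k K} {f g : K} (hf : P.v f ≤ 1) (hg : P.v g ≤ 1)
    (hfg : P.v (f * g) ≤ 1) : val P (f * g) hfg = val P f hf * val P g hg := by
  unfold val
  rw [← map_mul]
  rfl

theorem val_pow {P : Pl k K} {f : K} (hf : P.v f ≤ 1) (n : ℕ) (hfn : P.v (f ^ n) ≤ 1) :
    val P (f ^ n) hfn = val P f hf ^ n := by
  unfold val
  rw [← map_pow]
  rfl

theorem val_eq {P : Pl k K} {f g : K} (hf : P.v f ≤ 1) (hg : P.v g ≤ 1) :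
    val P f hf = val P g hg ↔ P.v (f - g) < 1 := rs_eq

theorem val_ne_zero {P : Pl k K} {f : K} (hf : P.v f = 1) : val P f hf.le ≠ 0 := by
  unfold val
  rw [Ne, rs_eq_zero, not_lt]
  exact hf.ge

theorem val_algebraMap (P : Pl k K) (c : k) :
    val P (algebraMap k K c) (v_const_le P c) = algebraMap k (Kap P) c := rfl

end local_

section global

variable {k : Type*} [Field k] {K : Type*} [Field K] [Algebra k K] [Algebra (RatFunc k) K]
  [IsScalarTower k (RatFunc k) K] [FiniteDimensional (RatFunc k) K]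
  [Algebra.IsSeparable (RatFunc k) K]

instance finite_Kap_module (P : Pl k K) : Module.Finite k (Kap P) := by
  have := finite_gr P 0
  exact Module.Finite.of_surjective (grK P) (grK_bijective P).2

theorem finrank_Kap (P : Pl k K) : finrank k (Kap P) = degP P := by
  rw [← finrank_gr P 0]
  exact (LinearEquiv.ofBijective (grK P) (grK_bijective P)).finrank_eq.symm

instance finite_Kap [Finite k] (P : Pl k K) : Finite (Kap P) := Module.finite_of_finite k

theorem card_Kap [Finite k] (P : Pl k K) : Nat.card (Kap P) = Nat.card k ^ degP P := by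
  rw [← finrank_Kap, Module.natCard_eq_pow_finrank (K := k)]



/-- finite constant field: `nrm P f = f(P) ^ ((q^d - 1)/(q - 1))` -/
theorem algebraMap_nrm [Finite k] {P : Pl k K} {f : K} (hf : P.v f = 1) :
    algebraMap k (Kap P) (nrm P f) =
      val P f hf.le ^ ((Nat.card k ^ degP P - 1) / (Nat.card k - 1)) := by
  rw [nrm_eq_norm hf, FiniteField.algebraMap_norm_eq_pow, card_Kap]

theorem v_pow_sub_nrm_lt [Finite k] {P : Pl k K} {f : K} (hf : P.v f = 1) :
    P.v (f ^ ((Nat.card k ^ degP P - 1) / (Nat.card k - 1)) - algebraMap k K (nrm P f : k)) < 1 := by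
  have h := algebraMap_nrm hf
  rw [← val_algebraMap, ← val_pow hf.le _ (by rw [map_pow, hf, one_pow]), val_eq] at h
  rw [← Valuation.map_neg, neg_sub]
  exact h

/-- in a finite cyclic group of order `N * m`: `x ^ m = 1` iff `x` is an `N`-th power -/
theorem pow_eq_one_iff_exists {G : Type*} [Group G] [Finite G] [IsCyclic G] {N m : ℕ}
    (h : N * m = Nat.card G) (x : G) : x ^ m = 1 ↔ ∃ y : G, y ^ N = x := by
  constructor
  · intro hx
    obtain ⟨g, hg⟩ := IsCyclic.exists_generator (α := G)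
    obtain ⟨a, rfl⟩ := Subgroup.mem_zpowers_iff.mp (hg x)
    have ho : orderOf g = N * m := by
      rw [h]; exact orderOf_eq_card_of_forall_mem_zpowers hg
    rw [← zpow_natCast, ← zpow_mul, ← orderOf_dvd_iff_zpow_eq_one, ho] at hx
    have hm : (m : ℤ) ≠ 0 := by
      rintro h0
      have : m = 0 := by exact_mod_cast h0
      rw [this, mul_zero] at h
      exact (Nat.card_pos (α := G)).ne h
    push_cast at hx
    have h2 : (N : ℤ) ∣ a := Int.dvd_of_mul_dvd_mul_right hm hx
    obtain ⟨b, rfl⟩ := h2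
    exact ⟨g ^ b, by rw [← zpow_natCast, ← zpow_mul, mul_comm]⟩
  · rintro ⟨y, rfl⟩
    rw [← pow_mul, h, pow_card_eq_one']

/-- **power residue criterion**: for `N m = q - 1`, `nrm P f ^ m = 1` iff `f(P)` is an `N`-th
power in the residue field -/
theorem nrm_pow_eq_one_iff [Finite k] {N m : ℕ} (hNm : N * m = Nat.card k - 1) {P : Pl k K}
    {f : K} (hf : P.v f = 1) :
    nrm P f ^ m = 1 ↔ ∃ y : Kap P, y ^ N = val P f hf.le := by
  have hq : 1 < Nat.card k := Finite.one_lt_card
  obtain ⟨s, hs⟩ : Nat.card k - 1 ∣ Nat.card k ^ degP P - 1 := by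
    have := Nat.sub_dvd_pow_sub_pow (Nat.card k) 1 (degP P)
    rwa [one_pow] at this
  have hs' : (Nat.card k ^ degP P - 1) / (Nat.card k - 1) = s := by
    rw [hs, Nat.mul_div_cancel_left _ (by omega)]
  have h1 : nrm P f ^ m = 1 ↔ val P f hf.le ^ (s * m) = 1 := by
    rw [pow_mul, ← hs', ← algebraMap_nrm hf, ← map_pow, ← map_one (algebraMap k (Kap P)),
      (algebraMap k (Kap P)).injective.eq_iff, ← Units.val_inj, Units.val_pow_eq_pow_val,
      Units.val_one]
  let u : (Kap P)ˣ := Units.mk0 _ (val_ne_zero hf)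
  have hu : (u : Kap P) = val P f hf.le := rfl
  have hcard : N * (s * m) = Nat.card (Kap P)ˣ := by
    rw [Nat.card_units, card_Kap, hs, ← hNm]; ring
  have h2 := pow_eq_one_iff_exists hcard u
  rw [h1, ← hu, ← Units.val_pow_eq_pow_val, ← Units.val_one, Units.val_inj, h2]
  constructor
  · rintro ⟨y, hy⟩
    exact ⟨y, by rw [← hy, Units.val_pow_eq_pow_val]⟩
  · rintro ⟨y, hy⟩
    by_cases hN : N = 0
    · subst hN
      rw [zero_mul] at hNm
      omega
    have hy0 : y ≠ 0 := by
      rintro rfl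
      rw [zero_pow hN] at hy
      exact u.ne_zero hy.symm
    exact ⟨Units.mk0 y hy0, Units.ext (by rw [Units.val_pow_eq_pow_val]; exact hy)⟩

/-- the character of `h` (`div h = N E`, `N m = q - 1`, `f = h ^ m`) is trivial at `P` iff
`h e ^ N` is an `N`-th power at `P` -/
theorem chiP_eq_one_iff [Finite k] {N m : ℕ} (hNm : N * m = Nat.card k - 1) {h : K} (hh : h ≠ 0)
    {E : Pl k K →₀ ℤ} (hE : divf (k := k) h = N • E) {P : Pl k K} :
    chiP (N * m) (h ^ m) E P = 1 ↔ ∃ y : K, P.v y = 1 ∧ P.v (h * pe P (E P) ^ N - y ^ N) < 1 := by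
  have hv := v_mul_pow hh hE (v_pe P (E P))
  have hN : N ≠ 0 := by
    rintro rfl
    rw [zero_mul] at hNm
    have hq : 1 < Nat.card k := Finite.one_lt_card
    omega
  rw [chiP_pow hh hE, nrm_pow_eq_one_iff hNm hv]
  constructor
  · rintro ⟨y, hy⟩
    obtain ⟨y, rfl⟩ := rs_surjective P y
    have h1 : val P ((y : K) ^ N) (by rw [map_pow]; exact pow_le_one' y.2 N) =
        val P (h * pe P (E P) ^ N) hv.le := by
      rw [val_pow (f := (y : K)) y.2]
      exact hy
    rw [eq_comm, val_eq] at h1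
    refine ⟨y, ?_, h1⟩
    refine le_antisymm y.2 ?_
    by_contra hlt
    rw [not_le] at hlt
    have h2 : rs P y = 0 := rs_eq_zero.mpr hlt
    rw [h2, zero_pow hN] at hy
    exact val_ne_zero hv hy.symm
  · rintro ⟨y, hy, hy'⟩
    refine ⟨val P y hy.le, ?_⟩
    rw [← val_pow hy.le N (by rw [map_pow, hy, one_pow]), eq_comm, val_eq]
    exact hy'

end global

end Crest.Agent.R013.WR5_777
end

-- ▼ part R013/CntA4_560
section

/-!
# R013 / CntA4: a function field over a finite field has a divisor of degree one (F. K. Schmidt)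
(helper560)
-/

set_option autoImplicit false
set_option linter.all false

namespace Crest.Agent.R013.CntA4_560

open Polynomial WithZero Module IsDedekindDomain nonZeroDivisors
open Crest.Agent.R013.RR1_948 Crest.Agent.R013.RR2_948 Crest.Agent.R013.RR3_948
open Crest.Agent.R013.RR4_948 Crest.Agent.R013.RR5_948 Crest.Agent.R013.RR6_948
open Crest.Agent.R013.RR7_948 Crest.Agent.R013.RR8_948 Crest.Agent.R013.RR9_948
open Crest.Agent.R013.RR11_948 Crest.Agent.R013.RR12_948 Crest.Agent.R013.RR13_948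
open Crest.Agent.R013.PicD_398 Crest.Agent.R013.CntA1_560 Crest.Agent.R013.CntA2_560
open Crest.Agent.R013.CntA3_560

variable {k : Type*} [Field k] {K : Type*} [Field K] [Algebra k K] [Algebra (RatFunc k) K]
  [IsScalarTower k (RatFunc k) K] [FiniteDimensional (RatFunc k) K]
  [Algebra.IsSeparable (RatFunc k) K]

section Below

variable {L : Type*} [Field L] [Algebra k L] [Algebra K L] [IsScalarTower k K L]
  [Algebra.IsIntegral K L]

/-- the place below a place -/
theorem exists_below (Q : Pl k L) : ∃ P : Pl k K, P.v.IsEquiv (Q.v.comap (algebraMap K L)) := by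
  obtain ⟨y, hy⟩ : ∃ y : K, 1 < Q.v (algebraMap K L y) := by
    by_contra hcon
    push Not at hcon
    obtain ⟨x, hx⟩ := Q.surj (exp 1)
    have h1 : Q.v x ≤ 1 := le_one_of_integral (S := K) Q.v hcon (Algebra.IsIntegral.isIntegral x)
    rw [hx, ← exp_zero, exp_le_exp] at h1
    norm_num at h1
  exact exists_place (k := k) (Q.v.comap (algebraMap K L)) (fun c hc => by
    rw [Valuation.comap_apply, ← IsScalarTower.algebraMap_apply]
    exact Q.const c hc) ⟨y, by
      rw [Valuation.comap_apply]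
      exact (zero_lt_one.trans hy).ne', by
      rw [Valuation.comap_apply]
      exact hy.ne'⟩

/-- the map of valuation rings -/
noncomputable def intMap {P : Pl k K} {Q : Pl k L}
    (h : P.v.IsEquiv (Q.v.comap (algebraMap K L))) : P.v.integer →+* Q.v.integer :=
  ((algebraMap K L).comp P.v.integer.subtype).codRestrict Q.v.integer (fun a => by
    show Q.v (algebraMap K L a) ≤ 1
    have := a.2
    exact h.le_one_iff_le_one.mp this)

/-- the map of residue fields -/
noncomputable def resMap {P : Pl k K} {Q : Pl k L}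
    (h : P.v.IsEquiv (Q.v.comap (algebraMap K L))) :
    (P.v.integer ⧸ mI P) →+* (Q.v.integer ⧸ mI Q) :=
  Ideal.quotientMap (mI Q) (intMap h) (by
    intro a ha
    rw [Ideal.mem_comap, mem_mI]
    rw [mem_mI] at ha
    exact h.lt_one_iff_lt_one.mp ha)

variable [Finite k]

/-- roots of `X ^ (q ^ r) - X` are congruent to elements of `K` if `r ∣ deg P` -/
theorem exists_congr {P : Pl k K} {Q : Pl k L} (h : P.v.IsEquiv (Q.v.comap (algebraMap K L)))
    {r : ℕ} (hr : r ≠ 0) (hrP : r ∣ degP P) {c : L} (hc : c ^ (Nat.card k ^ r) = c) :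
    ∃ y : K, Q.v (c - algebraMap K L y) < 1 := by
  have hq : 1 < Nat.card k := Finite.one_lt_card
  have hcard := card_quot_eq_pow P (degE_eq P)
  letI : Field (P.v.integer ⧸ mI P) := Ideal.Quotient.field _
  letI : Field (Q.v.integer ⧸ mI Q) := Ideal.Quotient.field _
  have hN : 1 < Nat.card k ^ r := Nat.one_lt_pow hr hq
  have hc1 : Q.v c ≤ 1 := by
    by_contra hcon
    rw [not_le] at hcon
    have h1 : Q.v c < Q.v c ^ (Nat.card k ^ r) := by
      calc Q.v c = Q.v c ^ 1 := (pow_one _).symm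
        _ < _ := pow_lt_pow_right₀ hcon hN
    rw [← map_pow, hc] at h1
    exact lt_irrefl _ h1
  let c' : Q.v.integer := ⟨c, hc1⟩
  let g : (P.v.integer ⧸ mI P)[X] := Polynomial.X ^ (Nat.card k ^ r) - Polynomial.X
  have hg0 : g ≠ 0 := FiniteField.X_pow_card_sub_X_ne_zero _ hN
  have hgs : g.Splits := by
    have h1 := Polynomial.splits_X_pow_nat_card_sub_X (K := P.v.integer ⧸ mI P)
    rw [hcard] at h1
    refine h1.of_dvd ?_ (dvd_pow_pow_sub_self_of_dvd hrP)
    exact FiniteField.X_pow_card_sub_X_ne_zero _ (Nat.one_lt_pow (degP_pos P).ne' hq)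
  have hroot : (g.map (resMap h)).IsRoot (Ideal.Quotient.mk (mI Q) c') := by
    rw [Polynomial.IsRoot.def]
    simp only [g, Polynomial.map_sub, Polynomial.map_pow, Polynomial.map_X, Polynomial.eval_sub,
      Polynomial.eval_pow, Polynomial.eval_X]
    rw [← map_pow, ← map_sub]
    have : c' ^ (Nat.card k ^ r) - c' = 0 := by
      apply Subtype.ext
      show c ^ (Nat.card k ^ r) - c = 0
      rw [hc, sub_self]
    rw [this, map_zero]
  obtain ⟨y, hy⟩ := hgs.mem_range_of_isRoot hg0 hroot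
  obtain ⟨a, rfl⟩ := Ideal.Quotient.mk_surjective y
  refine ⟨a, ?_⟩
  have h1 : Ideal.Quotient.mk (mI Q) (intMap h a) = Ideal.Quotient.mk (mI Q) c' := hy
  rw [eq_comm, ← sub_eq_zero, ← map_sub, Ideal.Quotient.eq_zero_iff_mem, mem_mI] at h1
  exact h1

theorem add_pow_card {r : ℕ} (x y : L) :
    (x - y) ^ (Nat.card k ^ r) = x ^ (Nat.card k ^ r) - y ^ (Nat.card k ^ r) := by
  haveI := Fintype.ofFinite k
  obtain ⟨p, hp⟩ := CharP.exists k
  haveI := charP_of_injective_algebraMap (algebraMap k L).injective p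
  haveI : Fact p.Prime := ⟨CharP.char_is_prime k p⟩
  obtain ⟨n, _, hn⟩ := FiniteField.card k p
  rw [Nat.card_eq_fintype_card, hn, ← pow_mul]
  exact sub_pow_char_pow x y _

theorem freeAt_of_dvd {r : ℕ} (hr : r ≠ 0) (hrP : ∀ P : Pl k K, r ∣ degP P)
    (htop : Algebra.adjoin K {c : L | c ^ (Nat.card k ^ r) = c} = ⊤) (Q : Pl k L) :
    FreeAt K Q := by
  intro σ hσ
  have hq : 1 < Nat.card k := Finite.one_lt_card
  have hN : 1 < Nat.card k ^ r := Nat.one_lt_pow hr hq
  obtain ⟨P, hP⟩ := exists_below (K := K) Q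
  have key : ∀ c : L, c ^ (Nat.card k ^ r) = c → σ c = c := by
    intro c hc
    obtain ⟨y, hy⟩ := exists_congr hP hr (hrP P) hc
    have h1 : Q.v (σ c - algebraMap K L y) < 1 := by
      have := hσ (c - algebraMap K L y)
      rw [map_sub, σ.commutes] at this
      rw [this]
      exact hy
    have h2 : Q.v (σ c - c) < 1 := by
      have e : σ c - c = (σ c - algebraMap K L y) - (c - algebraMap K L y) := by ring
      rw [e]
      exact (Valuation.map_sub _ _ _).trans_lt (max_lt h1 hy)
    by_contra hne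
    have hu : (σ c - c) ^ (Nat.card k ^ r) = σ c - c := by
      rw [add_pow_card, ← map_pow, hc]
    have hu0 : σ c - c ≠ 0 := sub_ne_zero.mpr hne
    have hv0 : Q.v (σ c - c) ≠ 0 := (Valuation.ne_zero_iff _).mpr hu0
    have h3 : Q.v (σ c - c) ^ (Nat.card k ^ r) < Q.v (σ c - c) := by
      calc _ < Q.v (σ c - c) ^ 1 := pow_lt_pow_right_of_lt_one₀ (zero_lt_iff.mpr hv0) h2 hN
        _ = _ := pow_one _
    rw [← map_pow, hu] at h3
    exact lt_irrefl _ h3
  have h1 : ∀ x ∈ Algebra.adjoin K {c : L | c ^ (Nat.card k ^ r) = c}, σ x = x := by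
    intro x hx
    induction hx using Algebra.adjoin_induction with
    | mem x hx => exact key x hx
    | algebraMap r => exact σ.commutes r
    | add x y _ _ hx hy => rw [map_add, hx, hy]
    | mul x y _ _ hx hy => rw [map_mul, hx, hy]
  ext x
  exact h1 x (by rw [htop]; trivial)

end Below

variable [Finite k]

theorem eq_one_of_dvd_degP (hc : algebraicClosure k K = ⊥) {r : ℕ} (hr : r ≠ 0)
    (hrP : ∀ P : Pl k K, r ∣ degP P) : r = 1 := by
  classical
  have hq : 1 < Nat.card k := Finite.one_lt_card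
  have hN : 1 < Nat.card k ^ r := Nat.one_lt_pow hr hq
  let f : K[X] := Polynomial.X ^ (Nat.card k ^ r) - Polynomial.X
  have hf0 : f ≠ 0 := FiniteField.X_pow_card_sub_X_ne_zero _ hN
  obtain ⟨p, hp⟩ := CharP.exists k
  haveI := charP_of_injective_algebraMap (algebraMap k K).injective p
  haveI : Fact p.Prime := ⟨CharP.char_is_prime k p⟩
  have hsep : f.Separable := by
    haveI := Fintype.ofFinite k
    apply galois_poly_separable p
    obtain ⟨n, _, hn⟩ := FiniteField.card k p
    rw [Nat.card_eq_fintype_card, hn, ← pow_mul]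
    exact dvd_pow_self _ (mul_ne_zero n.ne_zero hr)
  let L := f.SplittingField
  haveI : IsScalarTower k (RatFunc k) L := by
    refine IsScalarTower.of_algebraMap_eq fun x => ?_
    rw [IsScalarTower.algebraMap_apply k K L, IsScalarTower.algebraMap_apply (RatFunc k) K L,
      ← IsScalarTower.algebraMap_apply k (RatFunc k) K]
  haveI : FiniteDimensional (RatFunc k) L := FiniteDimensional.trans (RatFunc k) K L
  haveI : IsGalois K L := IsGalois.of_separable_splitting_field hsep
  haveI : Algebra.IsSeparable (RatFunc k) L := Algebra.IsSeparable.trans (RatFunc k) K L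
  have htop : Algebra.adjoin K {c : L | c ^ (Nat.card k ^ r) = c} = ⊤ := by
    rw [← SplittingField.adjoin_rootSet f]
    congr 1
    ext c
    rw [mem_rootSet_of_ne hf0]
    simp only [f, Set.mem_ofPred_eq, map_sub, map_pow, aeval_X]
    rw [sub_eq_zero]
  have h1 : finrank K L = 1 := finrank_eq_one_of_free (K := K) (L := L) (k := k) ∅
    (fun Q _ => freeAt_of_dvd hr hrP htop Q)
  have h2 : f.Splits := by
    rw [IsSplittingField.splits_iff L f]
    exact (Subalgebra.bot_eq_top_of_finrank_eq_one h1).symm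
  have h3 : Fintype.card (f.rootSet K) = Nat.card k ^ r := by
    rw [card_rootSet_eq_natDegree hsep (by rw [Algebra.algebraMap_self, Polynomial.map_id]; exact h2)]
    exact FiniteField.X_pow_card_sub_X_natDegree_eq _ hN
  -- the roots are constants
  have h4 : ∀ c : f.rootSet K, ∃ a : k, algebraMap k K a = c := by
    rintro ⟨c, hcr⟩
    rw [mem_rootSet_of_ne hf0] at hcr
    have h5 : IsAlgebraic k c := by
      refine ⟨Polynomial.X ^ (Nat.card k ^ r) - Polynomial.X,
        FiniteField.X_pow_card_sub_X_ne_zero _ hN, ?_⟩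
      simpa [f] using hcr
    have h6 : c ∈ algebraicClosure k K := mem_algebraicClosure_iff.mpr h5
    rw [hc] at h6
    exact h6
  choose a ha using h4
  have h5 : Function.Injective a := by
    intro x y h
    apply Subtype.ext
    rw [← ha, ← ha, h]
  haveI := Fintype.ofFinite k
  have h6 := Fintype.card_le_of_injective a h5
  rw [h3, ← Nat.card_eq_fintype_card] at h6
  have h7 : Nat.card k ^ r ≤ Nat.card k ^ 1 := by rwa [pow_one]
  have h8 := (Nat.pow_le_pow_iff_right hq).mp h7
  omega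

/-- **F. K. Schmidt**: there is a divisor of degree one -/
theorem exists_degD_one (hc : algebraicClosure k K = ⊥) : ∃ D : Pl k K →₀ ℤ, degD D = 1 := by
  -- the image of the degree is generated by some `r`
  obtain ⟨a, ha⟩ := Int.subgroup_cyclic ((degHom (k := k) (K := K)).range)
  have hmem : ∀ D : Pl k K →₀ ℤ, degD D ∈ AddSubgroup.closure {a} := by
    intro D
    rw [← ha]
    exact ⟨D, rfl⟩
  have hdvd : ∀ D : Pl k K →₀ ℤ, a ∣ degD D := by
    intro D
    obtain ⟨n, hn⟩ := AddSubgroup.mem_closure_singleton.mp (hmem D)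
    exact ⟨n, by rw [← hn, smul_eq_mul, mul_comm]⟩
  obtain ⟨P0, -⟩ := exists_notMem (k := k) (K := K) ∅
  have ha0 : a.natAbs ≠ 0 := by
    intro h
    have h1 := hdvd (Finsupp.single P0 1)
    rw [Int.natAbs_eq_zero.mp h, zero_dvd_iff, degD_single, one_mul] at h1
    have := degP_pos P0
    omega
  have h1 := eq_one_of_dvd_degP hc ha0 (fun P => by
    have h1 := hdvd (Finsupp.single P 1)
    rw [degD_single, one_mul] at h1
    have h2 := Int.natAbs_dvd_natAbs.mpr h1
    rwa [Int.natAbs_natCast] at h2)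
  have h2 : (1 : ℤ) ∈ (degHom (k := k) (K := K)).range := by
    rw [ha, AddSubgroup.mem_closure_singleton]
    rcases Int.natAbs_eq_iff.mp h1 with h | h
    · exact ⟨1, by rw [h]; norm_num⟩
    · exact ⟨-1, by rw [h]; norm_num⟩
  obtain ⟨D, hD⟩ := h2
  exact ⟨D, hD⟩





end Crest.Agent.R013.CntA4_560
end

-- ▼ part R013/Z1_777
section

/-!
# R013 / Z1: locally `N`-th power implies `N`-th power, over a finite field containing `μ_N`
(helper777), part (Z1) of BP-R6
-/

set_option autoImplicit false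
set_option linter.all false

namespace Crest.Agent.R013.Z1_777

open WithZero Module Polynomial
open Crest.Agent.R013.RR1_948 Crest.Agent.R013.RR2_948
open Crest.Agent.R013.RR7_948 Crest.Agent.R013.RR8_948 Crest.Agent.R013.RR9_948
open Crest.Agent.R013.RR11_948 Crest.Agent.R013.RR12_948
open Crest.Agent.R013.WR2_777 Crest.Agent.R013.WR4_777 Crest.Agent.R013.WR5_777
open Crest.Agent.R013.PicD_398 Crest.Agent.R013.CntA1_560 Crest.Agent.R013.CntA3_560
open Crest.Agent.R013.CntA4_560

section roots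

variable {k : Type*} [Field k] [Finite k] {N m : ℕ}

theorem exists_prim (hNm : N * m = Nat.card k - 1) : ∃ ζ : k, IsPrimitiveRoot ζ N := by
  have hq : 1 < Nat.card k := Finite.one_lt_card
  obtain ⟨g, hg⟩ := IsCyclic.exists_ofOrder_eq_natCard (α := kˣ)
  rw [Nat.card_units, ← hNm] at hg
  have hm : m ≠ 0 := by rintro rfl; omega
  have h1 : orderOf (g ^ m) = N := by
    rw [orderOf_pow_of_dvd hm (by rw [hg]; exact dvd_mul_left m N), hg,
      Nat.mul_div_cancel _ (Nat.pos_of_ne_zero hm)]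
  have h2 : IsPrimitiveRoot (g ^ m) N := h1 ▸ IsPrimitiveRoot.orderOf (g ^ m)
  exact ⟨_, IsPrimitiveRoot.coe_units_iff.mpr h2⟩

theorem N_ne_zero (hNm : N * m = Nat.card k - 1) : N ≠ 0 := by
  rintro rfl
  have hq : 1 < Nat.card k := Finite.one_lt_card
  omega

theorem cast_ne_zero (hNm : N * m = Nat.card k - 1) : (N : k) ≠ 0 := by
  obtain ⟨ζ, hζ⟩ := exists_prim hNm
  have : NeZero N := ⟨N_ne_zero hNm⟩
  exact (hζ.neZero').out

theorem pow_sub_one_eq_prod {ζ : k} (hζ : IsPrimitiveRoot ζ N) (hN : 0 < N)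
    {R : Type*} [Field R] [Algebra k R] (x : R) :
    x ^ N - 1 = ∏ η ∈ nthRootsFinset N (1 : k), (x - algebraMap k R η) := by
  have h := congrArg (fun p => aeval x p) (X_pow_sub_one_eq_prod hN hζ)
  simp only [map_sub, map_pow, aeval_X, map_one, map_prod, aeval_C] at h
  exact h

end roots

variable {k : Type*} [Field k] {K : Type*} [Field K] [Algebra k K] [Algebra (RatFunc k) K]
  [IsScalarTower k (RatFunc k) K] [FiniteDimensional (RatFunc k) K]
  [Algebra.IsSeparable (RatFunc k) K]

section free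

variable [Finite k] {N m : ℕ} {L : Type*} [Field L] [Algebra k L] [Algebra K L]
  [IsScalarTower k K L] [Algebra.IsIntegral K L]

/-- if `h t ^ N` is congruent to `1` at the place below `Q` then an automorphism preserving `Q`
fixes the `N`-th roots of `h` -/
theorem fix_of_congr (hNm : N * m = Nat.card k - 1) {h t : K} (ht : t ≠ 0) {P : Pl k K}
    {Q : Pl k L} (hPQ : P.v.IsEquiv (Q.v.comap (algebraMap K L)))
    (hc : P.v (h * t ^ N - 1) < 1) {σ : L ≃ₐ[K] L} (hσ : ∀ x, Q.v (σ x) = Q.v x)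
    {α : L} (hα : α ^ N = algebraMap K L h) : σ α = α := by
  classical
  obtain ⟨ζ, hζ⟩ := exists_prim hNm
  have hN0 := N_ne_zero hNm
  have hN : 0 < N := Nat.pos_of_ne_zero hN0
  set β := α * algebraMap K L t with hβ
  have hβN : β ^ N = algebraMap K L (h * t ^ N) := by
    rw [hβ, mul_pow, hα, map_mul, map_pow]
  have h1 : Q.v (β ^ N - 1) < 1 := by
    have h2 := (hPQ.lt_one_iff_lt_one (x := h * t ^ N - 1)).mp hc
    rw [Valuation.comap_apply] at h2
    rw [hβN, ← map_one (algebraMap K L), ← map_sub]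
    exact h2
  -- `β` is congruent to a constant
  obtain ⟨η, hη⟩ : ∃ η : k, Q.v (β - algebraMap k L η) < 1 := by
    by_contra hcon
    push Not at hcon
    rw [pow_sub_one_eq_prod hζ hN, map_prod] at h1
    exact absurd h1 (not_lt.mpr (Finset.one_le_prod'' hcon))
  have hσβ : Q.v (σ β - algebraMap k L η) < 1 := by
    have h2 := hσ (β - algebraMap k L η)
    have h3 : σ (algebraMap k L η) = algebraMap k L η := by
      rw [IsScalarTower.algebraMap_apply k K L]
      exact σ.commutes _
    rw [map_sub, h3] at h2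
    rw [h2]
    exact hη
  have hdiff : Q.v (σ β - β) < 1 := by
    have e : σ β - β = (σ β - algebraMap k L η) - (β - algebraMap k L η) := by ring
    rw [e]
    exact (Valuation.map_sub _ _ _).trans_lt (max_lt hσβ hη)
  have hvβ : Q.v β = 1 := by
    have h2 : Q.v (β ^ N) = 1 := by
      have e : β ^ N = (β ^ N - 1) + 1 := by ring
      rw [e, Valuation.map_add_eq_of_lt_right _ (by rw [map_one]; exact h1), map_one]
    rw [map_pow] at h2
    exact (pow_eq_one_iff_of_nonneg zero_le hN0).mp h2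
  have hβ0 : β ≠ 0 := by
    rintro h0
    rw [h0, map_zero] at hvβ
    exact zero_ne_one hvβ
  -- `σ β = ρ β` with `ρ` an `N`-th root of unity
  have hρN : (σ β / β) ^ N = 1 := by
    rw [div_pow, ← map_pow, hβN, σ.commutes, ← hβN, div_self (pow_ne_zero _ hβ0)]
  have hρ : ∃ ρ : k, σ β / β = algebraMap k L ρ := by
    have h2 := pow_sub_one_eq_prod hζ hN (σ β / β)
    rw [hρN, sub_self, eq_comm, Finset.prod_eq_zero_iff] at h2
    obtain ⟨ρ, _, hρ⟩ := h2
    exact ⟨ρ, sub_eq_zero.mp hρ⟩
  obtain ⟨ρ, hρ⟩ := hρ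
  have h4 : σ β = algebraMap k L ρ * β := by
    rw [← hρ, div_mul_cancel₀ _ hβ0]
  have h5 : Q.v (algebraMap k L (ρ - 1)) < 1 := by
    have e : σ β - β = algebraMap k L (ρ - 1) * β := by
      rw [h4, map_sub, map_one]; ring
    rw [e, map_mul, hvβ, mul_one] at hdiff
    exact hdiff
  have h6 : ρ = 1 := by
    by_contra hne
    rw [Q.const _ (sub_ne_zero.mpr hne)] at h5
    exact lt_irrefl _ h5
  rw [h6, map_one, one_mul, hβ, map_mul, σ.commutes] at h4
  exact mul_right_cancel₀ ((_root_.map_ne_zero _).mpr ht) h4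

end free

/-- **(Z1)**: a function `h` with `div h = N E` whose character `χ_h` is trivial is an `N`-th
power -/
theorem exists_root [Finite k] {N m : ℕ} (hNm : N * m = Nat.card k - 1) {h : K} (hh : h ≠ 0)
    {E : Pl k K →₀ ℤ} (hE : divf (k := k) h = N • E)
    (htriv : ∀ P : Pl k K, chiP (N * m) (h ^ m) E P = 1) : ∃ u : K, u ^ N = h := by
  classical
  have hN0 := N_ne_zero hNm
  have hN : 0 < N := Nat.pos_of_ne_zero hN0
  have hNk : (N : K) ≠ 0 := by
    have := cast_ne_zero hNm
    rw [← map_natCast (algebraMap k K)]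
    exact (_root_.map_ne_zero _).mpr this
  let f : K[X] := X ^ N - C h
  have hf0 : f ≠ 0 := X_pow_sub_C_ne_zero hN h
  have hsep : f.Separable := separable_X_pow_sub_C h hNk hh
  let L := f.SplittingField
  haveI : IsScalarTower k (RatFunc k) L := by
    refine IsScalarTower.of_algebraMap_eq fun x => ?_
    rw [IsScalarTower.algebraMap_apply k K L, IsScalarTower.algebraMap_apply (RatFunc k) K L,
      ← IsScalarTower.algebraMap_apply k (RatFunc k) K]
  haveI : FiniteDimensional (RatFunc k) L := FiniteDimensional.trans (RatFunc k) K L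
  haveI : IsGalois K L := IsGalois.of_separable_splitting_field hsep
  haveI : Algebra.IsSeparable (RatFunc k) L := Algebra.IsSeparable.trans (RatFunc k) K L
  have h1 : finrank K L = 1 := by
    refine finrank_eq_one_of_free (K := K) (L := L) (k := k) ∅ (fun Q _ σ hσ => ?_)
    obtain ⟨P, hP⟩ := exists_below (K := K) Q
    obtain ⟨y, hy, hy'⟩ := (chiP_eq_one_iff hNm hh hE).mp (htriv P)
    have hy0 : y ≠ 0 := by
      rintro rfl
      rw [map_zero] at hy
      exact zero_ne_one hy
    have ht : pe P (E P) / y ≠ 0 := div_ne_zero (pe_ne_zero P _) hy0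
    have hc : P.v (h * (pe P (E P) / y) ^ N - 1) < 1 := by
      have e : h * (pe P (E P) / y) ^ N - 1 = (h * pe P (E P) ^ N - y ^ N) / y ^ N := by
        rw [div_pow]
        field_simp
      rw [e, map_div₀, map_pow, hy, one_pow, div_one]
      exact hy'
    have h2 : ∀ x ∈ Algebra.adjoin K (f.rootSet L), σ x = x := by
      intro x hx
      induction hx using Algebra.adjoin_induction with
      | mem x hx =>
        rw [mem_rootSet_of_ne hf0] at hx
        simp only [f, map_sub, map_pow, aeval_X, aeval_C] at hx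
        exact fix_of_congr hNm ht hP hc hσ (sub_eq_zero.mp hx)
      | algebraMap r => exact σ.commutes r
      | add x y _ _ hx hy => rw [map_add, hx, hy]
      | mul x y _ _ hx hy => rw [map_mul, hx, hy]
    ext x
    exact h2 x (by rw [SplittingField.adjoin_rootSet f]; trivial)
  have h2 : f.Splits := by
    rw [IsSplittingField.splits_iff L f]
    exact (Subalgebra.bot_eq_top_of_finrank_eq_one h1).symm
  obtain ⟨u, hu⟩ := h2.exists_eval_eq_zero (by
    rw [degree_X_pow_sub_C hN]
    exact_mod_cast hN0)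
  refine ⟨u, ?_⟩
  simp only [f, eval_sub, eval_pow, eval_X, eval_C] at hu
  exact sub_eq_zero.mp hu

end Crest.Agent.R013.Z1_777
end

-- ▼ part R013/Z2_777
section

/-!
# R013 / Z2: every character of `Pic k K` killed by `N` is `χ_h` for some `h` with `div h = N E`
(`k` finite, `N ∣ #k - 1`) (helper777), part (Z2) of BP-R6
-/

set_option autoImplicit false
set_option linter.all false

namespace Crest.Agent.R013.Z2_777

open WithZero Module Polynomial
open Crest.Agent.R013.RR1_948 Crest.Agent.R013.RR2_948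
open Crest.Agent.R013.RR7_948 Crest.Agent.R013.RR8_948 Crest.Agent.R013.RR9_948
open Crest.Agent.R013.RR11_948 Crest.Agent.R013.RR12_948
open Crest.Agent.R013.WR2_777 Crest.Agent.R013.WR4_777 Crest.Agent.R013.WR5_777
open Crest.Agent.R013.PicD_398 Crest.Agent.R013.CntA1_560 Crest.Agent.R013.CntA3_560
open Crest.Agent.R013.CntA4_560 Crest.Agent.R013.Z1_777

section groups

theorem card_quot_range {G : Type*} [AddCommGroup G] [Finite G] (f : G →+ G) :
    Nat.card (G ⧸ f.range) = Nat.card f.ker := by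
  have h1 := AddSubgroup.card_mul_index f.range
  have h2 := AddSubgroup.card_mul_index f.ker
  rw [AddSubgroup.index_ker] at h2
  have h3 : 0 < Nat.card f.range := Nat.card_pos
  have h4 : f.range.index = Nat.card (G ⧸ f.range) := rfl
  rw [← h4]
  exact Nat.eq_of_mul_eq_mul_left h3 (by rw [h1, ← h2, mul_comm])

theorem card_quot_range' {G : Type*} [CommGroup G] [Finite G] (f : G →* G) :
    Nat.card (G ⧸ f.range) = Nat.card f.ker := by
  have h1 := Subgroup.card_mul_index f.range
  have h2 := Subgroup.card_mul_index f.ker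
  rw [Subgroup.index_ker] at h2
  have h3 : 0 < Nat.card f.range := Nat.card_pos
  have h4 : f.range.index = Nat.card (G ⧸ f.range) := rfl
  rw [← h4]
  exact Nat.eq_of_mul_eq_mul_left h3 (by rw [h1, ← h2, mul_comm])

/-- `G / N G` -/
abbrev QN (G : Type*) [AddCommGroup G] (N : ℕ) := G ⧸ (nsmulAddMonoidHom N : G →+ G).range

theorem QN_nsmul {G : Type*} [AddCommGroup G] (N : ℕ) (b : QN G N) : N • b = 0 := by
  obtain ⟨z, rfl⟩ := QuotientAddGroup.mk_surjective b
  rw [← QuotientAddGroup.mk_nsmul, QuotientAddGroup.eq_zero_iff]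
  exact ⟨z, rfl⟩

/-- a homomorphism killed by `N` as a homomorphism on `G / N G` -/
noncomputable def toHom {G : Type*} [AddCommGroup G] {M : Type*} [CommGroup M] (N : ℕ)
    (ψ : G →+ Additive M) (hψ : ∀ z, N • ψ z = 0) : Multiplicative (QN G N) →* M where
  toFun b := ((QuotientAddGroup.lift _ ψ (by
    rintro _ ⟨z, rfl⟩
    show ψ (N • z) = 0
    rw [map_nsmul, hψ]) : QN G N →+ Additive M) b.toAdd).toMul
  map_one' := by
    rw [toAdd_one, map_zero]
    rfl
  map_mul' a b := by
    rw [toAdd_mul, map_add]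
    rfl

theorem toHom_mk {G : Type*} [AddCommGroup G] {M : Type*} [CommGroup M] (N : ℕ)
    (ψ : G →+ Additive M) (hψ : ∀ z, N • ψ z = 0) (z : G) :
    toHom N ψ hψ (Multiplicative.ofAdd (QuotientAddGroup.mk z)) = (ψ z).toMul := rfl

theorem toHom_inj {G : Type*} [AddCommGroup G] {M : Type*} [CommGroup M] {N : ℕ}
    {ψ ψ' : G →+ Additive M} {hψ : ∀ z, N • ψ z = 0} {hψ' : ∀ z, N • ψ' z = 0}
    (h : toHom N ψ hψ = toHom N ψ' hψ') : ψ = ψ' := by
  ext z
  have h1 := DFunLike.congr_fun h (Multiplicative.ofAdd (QuotientAddGroup.mk z))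
  rw [toHom_mk, toHom_mk] at h1
  exact h1

end groups

variable {k : Type*} [Field k] {K : Type*} [Field K] [Algebra k K] [Algebra (RatFunc k) K]
  [IsScalarTower k (RatFunc k) K] [FiniteDimensional (RatFunc k) K]
  [Algebra.IsSeparable (RatFunc k) K]

/-- homomorphisms on `Pic` are determined by their values on places -/
theorem pic_hom_ext {G : Type*} [AddCommGroup G] {ψ ψ' : Pic k K →+ G}
    (h : ∀ P : Pl k K, ψ (cls (Finsupp.single P 1)) = ψ' (cls (Finsupp.single P 1))) :
    ψ = ψ' := by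
  have h1 : ψ.comp cls = ψ'.comp cls := by
    refine Finsupp.addHom_ext' fun P => ?_
    refine AddMonoidHom.ext_int ?_
    exact h P
  refine DFunLike.ext _ _ fun z => ?_
  obtain ⟨D, rfl⟩ := cls_surjective z
  exact DFunLike.congr_fun h1 D

theorem card_QN_le (hc : ∃ c₀ : Pic k K, degPic c₀ = 1) {N : ℕ} (hN : N ≠ 0)
    [Finite (Pic0 k K)] :
    Finite (QN (Pic k K) N) ∧ Nat.card (QN (Pic k K) N) ≤ N * Nat.card (QN (Pic0 k K) N) := by
  obtain ⟨c₀, hc₀⟩ := hc
  let g : QN (Pic0 k K) N →+ QN (Pic k K) N :=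
    QuotientAddGroup.map _ _ (Pic0 k K).subtype (by
      rintro _ ⟨z, rfl⟩
      exact ⟨(z : Pic k K), rfl⟩)
  have hg : ∀ z : Pic0 k K, g (QuotientAddGroup.mk z) = QuotientAddGroup.mk (z : Pic k K) :=
    fun z => rfl
  let F : Fin N × QN (Pic0 k K) N → QN (Pic k K) N := fun x =>
    (x.1 : ℕ) • (QuotientAddGroup.mk c₀) + g x.2
  have hF : Function.Surjective F := by
    intro b
    obtain ⟨z, rfl⟩ := QuotientAddGroup.mk_surjective b
    set d := degPic z with hd
    have hw : z - d • c₀ ∈ Pic0 k K := by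
      rw [mem_Pic0, map_sub, map_zsmul, hc₀, ← hd]
      simp
    have hN' : (0 : ℤ) < N := by exact_mod_cast Nat.pos_of_ne_zero hN
    have hmod := Int.emod_nonneg d hN'.ne'
    have hlt := Int.emod_lt_of_pos d hN'
    refine ⟨(⟨(d % N).toNat, by omega⟩, QuotientAddGroup.mk ⟨z - d • c₀, hw⟩), ?_⟩
    show ((d % N).toNat) • (QuotientAddGroup.mk c₀ : QN (Pic k K) N)
      + g (QuotientAddGroup.mk ⟨z - d • c₀, hw⟩) = _
    rw [hg]
    have h1 : ((d % N).toNat) • (QuotientAddGroup.mk c₀ : QN (Pic k K) N)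
        = d • (QuotientAddGroup.mk c₀ : QN (Pic k K) N) := by
      have h2 : ((d % N).toNat : ℤ) = d - (d / N) * N := by
        rw [Int.toNat_of_nonneg hmod, Int.emod_def, mul_comm]
      rw [← natCast_zsmul, h2, sub_zsmul, mul_zsmul, natCast_zsmul, QN_nsmul, zsmul_zero,
        neg_zero, add_zero]
    rw [h1, ← QuotientAddGroup.mk_zsmul, ← QuotientAddGroup.mk_add]
    congr 1
    rw [add_sub_cancel]
  have hfin : Finite (QN (Pic0 k K) N) := inferInstance
  refine ⟨Finite.of_surjective F hF, ?_⟩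
  have h1 := Nat.card_le_card_of_surjective F hF
  have h2 : Nat.card (Fin N) = N := by simp
  rwa [Nat.card_prod, h2] at h1

section chiOf

variable [Finite k] {N m : ℕ}

theorem hn_of (hNm : N * m = Nat.card k - 1) (c : kˣ) : c ^ (N * m) = 1 := by
  rw [hNm]; exact pow_card_sub_one c

/-- the character `χ_h^{(N)}` of `Pic`, `div h = N E`, `N m = #k - 1` -/
noncomputable def chiOf (hNm : N * m = Nat.card k - 1) {h : K} (hh : h ≠ 0) (E : Pl k K →₀ ℤ)
    (hE : divf (k := k) h = N • E) : Pic k K →+ Additive kˣ :=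
  chiPic (N * m) (hn_of hNm) (pow_ne_zero m hh) E (by rw [divf_pow hh, hE, smul_smul, mul_comm])

theorem chiOf_single (hNm : N * m = Nat.card k - 1) {h : K} (hh : h ≠ 0) (E : Pl k K →₀ ℤ)
    (hE : divf (k := k) h = N • E) (P : Pl k K) :
    (chiOf hNm hh E hE (cls (Finsupp.single P 1))).toMul = chiP (N * m) (h ^ m) E P := by
  unfold chiOf
  rw [chiPic_cls, pw_single, zpow_one]

theorem chiOf_killed (hNm : N * m = Nat.card k - 1) {h : K} (hh : h ≠ 0) (E : Pl k K →₀ ℤ)
    (hE : divf (k := k) h = N • E) (z : Pic k K) : N • chiOf hNm hh E hE z = 0 := by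
  have h1 : N • chiOf hNm hh E hE = 0 := by
    refine pic_hom_ext fun P => ?_
    rw [AddMonoidHom.nsmul_apply, AddMonoidHom.zero_apply]
    apply Additive.toMul.injective
    rw [toMul_nsmul, chiOf_single, chiP_pow hh hE, ← pow_mul, mul_comm m N, hn_of hNm]
    rfl
  exact DFunLike.congr_fun h1 z

/-- two pairs with the same character differ by an `N`-th power -/
theorem eq_of_chiOf_eq (hNm : N * m = Nat.card k - 1) {h h' : K} (hh : h ≠ 0) (hh' : h' ≠ 0)
    {E E' : Pl k K →₀ ℤ} (hE : divf (k := k) h = N • E) (hE' : divf (k := k) h' = N • E')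
    (heq : chiOf hNm hh E hE = chiOf hNm hh' E' hE') :
    ∃ u : K, u ≠ 0 ∧ h = u ^ N * h' ∧ E = divf (k := k) u + E' := by
  have hN0 := N_ne_zero hNm
  have hinv : divf (k := k) h'⁻¹ = N • (-E') := by rw [divf_inv hh', hE', smul_neg]
  have hdiv : divf (k := k) (h * h'⁻¹) = N • (E + -E') := by
    rw [divf_mul hh (inv_ne_zero hh'), hE, hinv, smul_add]
  have hne : h * h'⁻¹ ≠ 0 := mul_ne_zero hh (inv_ne_zero hh')
  have hpw : ∀ {a : K} (ha : a ≠ 0) {A : Pl k K →₀ ℤ} (hA : divf (k := k) a = N • A),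
      divf (k := k) (a ^ m) = (N * m) • A := by
    intro a ha A hA
    rw [divf_pow ha, hA, smul_smul, mul_comm]
  have htriv : ∀ P : Pl k K, chiP (N * m) ((h * h'⁻¹) ^ m) (E + -E') P = 1 := by
    intro P
    have h1 := congrArg (fun ψ : Pic k K →+ Additive kˣ =>
      (ψ (cls (Finsupp.single P 1))).toMul) heq
    simp only [chiOf_single] at h1
    rw [mul_pow, chiP_mul (hn_of hNm) (pow_ne_zero _ hh) (pow_ne_zero _ (inv_ne_zero hh'))
      (hpw hh hE) (hpw (inv_ne_zero hh') hinv), h1,
      ← chiP_mul (hn_of hNm) (pow_ne_zero _ hh') (pow_ne_zero _ (inv_ne_zero hh'))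
      (hpw hh' hE') (hpw (inv_ne_zero hh') hinv), ← mul_pow, mul_inv_cancel₀ hh', one_pow,
      add_neg_cancel]
    have h2 := chiP_nth_power (K := K) (n := N * m) (hn_of hNm) one_ne_zero P
    rw [one_pow, divf_one] at h2
    exact h2
  obtain ⟨u, hu⟩ := exists_root hNm hne hdiv htriv
  have hu0 : u ≠ 0 := by
    rintro rfl
    rw [zero_pow hN0] at hu
    exact hne hu.symm
  refine ⟨u, hu0, ?_, ?_⟩
  · rw [hu, mul_assoc, inv_mul_cancel₀ hh', mul_one]
  · rw [← hu, divf_pow hu0] at hdiv
    ext P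
    have h3 := DFunLike.congr_fun hdiv P
    rw [Finsupp.smul_apply, Finsupp.smul_apply, Finsupp.add_apply, Finsupp.neg_apply] at h3
    rw [Finsupp.add_apply]
    have h4 := smul_right_injective ℤ hN0 h3
    linarith

end chiOf

/-- **(Z2)**: every homomorphism `Pic → k^*` killed by `N` is a `χ_h` -/
theorem exists_chiOf [Finite k] (hc : algebraicClosure k K = ⊥) {N m : ℕ}
    (hNm : N * m = Nat.card k - 1) (ψ : Pic k K →+ Additive kˣ) (hψ : ∀ z, N • ψ z = 0) :
    ∃ (h : K) (hh : h ≠ 0) (E : Pl k K →₀ ℤ) (hE : divf (k := k) h = N • E),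
      ψ = chiOf hNm hh E hE := by
  classical
  have hN0 := N_ne_zero hNm
  obtain ⟨ζ, hζ⟩ := exists_prim hNm
  have hNe : NeZero N := ⟨hN0⟩
  -- a class of degree one
  obtain ⟨D1, hD1⟩ := exists_degD_one (k := k) (K := K) hc
  have hdeg : ∃ c₀ : Pic k K, degPic c₀ = 1 := ⟨cls D1, by rw [degPic_cls, hD1]⟩
  obtain ⟨hfinB, hcardB⟩ := card_QN_le hdeg hN0
  -- the target
  let B := Multiplicative (QN (Pic k K) N)
  have hexp : Monoid.exponent B ∣ N := Monoid.exponent_dvd_of_forall_pow_eq_one fun b =>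
    QN_nsmul N b.toAdd
  have hroots : HasEnoughRootsOfUnity k N := ⟨⟨ζ, hζ⟩, rootsOfUnity.isCyclic k N⟩
  have hroots' : HasEnoughRootsOfUnity k (Monoid.exponent B) :=
    HasEnoughRootsOfUnity.of_dvd k hexp
  have hcardH : Nat.card (B →* kˣ) = Nat.card B :=
    CommGroup.card_monoidHom_of_hasEnoughRootsOfUnity B k
  have hfinH : Finite (B →* kˣ) := Nat.finite_of_card_ne_zero (by
    rw [hcardH]; exact Nat.card_pos.ne')
  -- the source
  let C := kˣ ⧸ (powMonoidHom N : kˣ →* kˣ).range
  let T := (nsmulAddMonoidHom N : Pic0 k K →+ Pic0 k K).ker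
  have hcardC : Nat.card C = N := by
    show Nat.card (kˣ ⧸ (powMonoidHom N : kˣ →* kˣ).range) = N
    rw [card_quot_range']
    refine Eq.trans ?_ hζ.card_rootsOfUnity
    refine Nat.card_congr (Equiv.subtypeEquivRight fun x => ?_)
    rw [MonoidHom.mem_ker, mem_rootsOfUnity]
    rfl
  have hex : ∀ x : T, ∃ (h : K) (E : Pl k K →₀ ℤ), h ≠ 0 ∧ divf (k := k) h = N • E ∧
      cls E = ((x : Pic0 k K) : Pic k K) := by
    intro x
    obtain ⟨E, hE⟩ := cls_surjective ((x : Pic0 k K) : Pic k K)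
    have h1 : N • (x : Pic0 k K) = 0 := x.2
    have h2 : cls (N • E) = 0 := by
      rw [map_nsmul, hE]
      exact congrArg Subtype.val h1
    obtain ⟨h, hh, hdiv⟩ := cls_eq_zero_iff.mp h2
    exact ⟨h, E, hh, hdiv, hE⟩
  choose hx Ex hx0 hxE hxcls using hex
  have hconst : ∀ c : kˣ, (algebraMap k K c) ≠ 0 := fun c =>
    (_root_.map_ne_zero _).mpr c.ne_zero
  have hconstdiv : ∀ c : kˣ, divf (k := k) (algebraMap k K c) = 0 := by
    intro c
    ext P
    rw [Finsupp.zero_apply, ← v_eq_one_iff (hconst c)]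
    exact P.const _ c.ne_zero
  have hp0 : ∀ p : C × T, algebraMap k K (p.1.out : kˣ) * hx p.2 ≠ 0 := fun p =>
    mul_ne_zero (hconst _) (hx0 _)
  have hpE : ∀ p : C × T, divf (k := k) (algebraMap k K (p.1.out : kˣ) * hx p.2)
      = N • Ex p.2 := fun p => by
    rw [divf_mul (hconst _) (hx0 _), hconstdiv, zero_add, hxE]
  let Θ : C × T → (B →* kˣ) := fun p =>
    toHom N (chiOf hNm (hp0 p) (Ex p.2) (hpE p)) (chiOf_killed hNm (hp0 p) (Ex p.2) (hpE p))
  have hΘ : Function.Injective Θ := by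
    intro p p' hpp
    have h1 := toHom_inj hpp
    obtain ⟨u, hu0, hu, huE⟩ := eq_of_chiOf_eq hNm (hp0 p) (hp0 p') (hpE p) (hpE p') h1
    have h2 : p.2 = p'.2 := by
      apply Subtype.ext
      apply Subtype.ext
      rw [← hxcls, ← hxcls, huE, map_add, cls_divf hu0, zero_add]
    have h3 : p.1 = p'.1 := by
      obtain ⟨c, x⟩ := p
      obtain ⟨c', x'⟩ := p'
      simp only at h2 hu huE ⊢
      subst h2
      have h4 : divf (k := k) u = 0 := by
        have := huE
        rwa [eq_comm, add_eq_right] at this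
      have h5 : u ∈ LD (0 : Pl k K →₀ ℤ) := by
        rw [mem_LD_iff hu0, h4, add_zero]
      rw [LD_zero hc, Submodule.mem_one] at h5
      obtain ⟨a, ha⟩ := h5
      have ha0 : a ≠ 0 := by
        rintro rfl
        rw [map_zero] at ha
        exact hu0 ha.symm
      have h6 : algebraMap k K ((c.out : kˣ) : k) = algebraMap k K (a ^ N * ((c'.out : kˣ) : k)) := by
        rw [← mul_assoc] at hu
        rw [mul_right_cancel₀ (hx0 x) hu, map_mul, map_pow, ha]
      have h7 : (c.out : kˣ) = (Units.mk0 a ha0) ^ N * (c'.out : kˣ) := by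
        refine Units.ext ?_
        rw [Units.val_mul, Units.val_pow_eq_pow_val, Units.val_mk0]
        exact (algebraMap k K).injective h6
      rw [← QuotientGroup.out_eq' c, ← QuotientGroup.out_eq' c', h7, QuotientGroup.mk_mul]
      have h8 : (QuotientGroup.mk ((Units.mk0 a ha0) ^ N) : C) = 1 := by
        rw [QuotientGroup.eq_one_iff]
        exact ⟨Units.mk0 a ha0, rfl⟩
      rw [h8, one_mul]
    exact Prod.ext h3 h2
  have hbij : Function.Bijective Θ := by
    refine hΘ.bijective_of_nat_card_le ?_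
    rw [hcardH, Nat.card_prod, hcardC]
    show Nat.card (QN (Pic k K) N) ≤ _
    refine hcardB.trans (Nat.mul_le_mul_left _ ?_)
    exact (card_quot_range (nsmulAddMonoidHom N : Pic0 k K →+ Pic0 k K)).le
  obtain ⟨p, hp⟩ := hbij.2 (toHom N ψ hψ)
  exact ⟨_, hp0 p, Ex p.2, hpE p, (toHom_inj hp).symm⟩

/-- **(Z2)**, values on places -/
theorem exists_of_char [Finite k] (hc : algebraicClosure k K = ⊥) {N m : ℕ}
    (hNm : N * m = Nat.card k - 1) (ψ : Pic k K →+ Additive kˣ) (hψ : ∀ z, N • ψ z = 0) :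
    ∃ (h : K) (E : Pl k K →₀ ℤ), h ≠ 0 ∧ divf (k := k) h = N • E ∧
      (∀ P : Pl k K, (ψ (cls (Finsupp.single P 1))).toMul = chiP (N * m) (h ^ m) E P) ∧
      (cls E = 0 → ∀ z ∈ Pic0 k K, ψ z = 0) := by
  obtain ⟨h, hh, E, hE, rfl⟩ := exists_chiOf hc hNm ψ hψ
  refine ⟨h, E, hh, hE, fun P => chiOf_single hNm hh E hE P, fun hcls z hz => ?_⟩
  -- if `E = div u` then `h = c u ^ N` and the character is `c ^ (m deg)`
  obtain ⟨u, hu0, hu⟩ := cls_eq_zero_iff.mp hcls
  have hN0 := N_ne_zero hNm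
  have h1 : h * (u ^ N)⁻¹ ∈ LD (0 : Pl k K →₀ ℤ) := by
    rw [mem_LD_iff (mul_ne_zero hh (inv_ne_zero (pow_ne_zero _ hu0))),
      divf_mul hh (inv_ne_zero (pow_ne_zero _ hu0)), divf_inv (pow_ne_zero _ hu0),
      divf_pow hu0, hu, hE, add_neg_cancel, add_zero]
  rw [LD_zero hc, Submodule.mem_one] at h1
  obtain ⟨a, ha⟩ := h1
  have ha0 : a ≠ 0 := by
    rintro rfl
    rw [map_zero] at ha
    exact mul_ne_zero hh (inv_ne_zero (pow_ne_zero N hu0)) ha.symm
  have hdec : h = algebraMap k K a * u ^ N := by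
    rw [ha, mul_assoc, inv_mul_cancel₀ (pow_ne_zero _ hu0), mul_one]
  -- values
  have hval : ∀ P : Pl k K, chiOf hNm hh E hE (cls (Finsupp.single P 1))
      = (degD (Finsupp.single P 1)) • Additive.ofMul ((Units.mk0 a ha0) ^ m) := by
    intro P
    apply Additive.toMul.injective
    rw [chiOf_single, degD_single, one_mul, natCast_zsmul, toMul_nsmul, toMul_ofMul]
    have hdivm : divf (k := k) (h ^ m) = (N * m) • E := by
      rw [divf_pow hh, hE, smul_smul, mul_comm]
    have he : P.v u⁻¹ = exp (E P) := by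
      rw [map_inv₀, v_eq hu0, ← exp_neg, neg_neg, hu]
    rw [chiP_eq (hn_of hNm) (pow_ne_zero _ hh) hdivm he]
    have h2 : h ^ m * u⁻¹ ^ (N * m) = algebraMap k K (((Units.mk0 a ha0) ^ m : kˣ) : k) := by
      rw [hdec, mul_pow, ← pow_mul, mul_assoc, ← mul_pow, mul_inv_cancel₀ hu0, one_pow, mul_one,
        Units.val_pow_eq_pow_val, Units.val_mk0, map_pow]
    rw [h2, nrm_const]
  have hall : chiOf hNm hh E hE
      = ((zmultiplesHom (Additive kˣ)) (Additive.ofMul ((Units.mk0 a ha0) ^ m))).comp degPic := by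
    refine pic_hom_ext fun P => ?_
    rw [hval P, AddMonoidHom.comp_apply, degPic_cls]
    rfl
  rw [hall, AddMonoidHom.comp_apply, mem_Pic0.mp hz, map_zero]

end Crest.Agent.R013.Z2_777
end

-- ▼ part R013/WR6_777
section

/-!
# R013 / WR6: the character `χ_f` of WR4 satisfies `IsChi` of CntLoc_262 (helper777)
-/

set_option autoImplicit false
set_option linter.all false

namespace Crest.Agent.R013.WR6_777

open WithZero Module
open Crest.Agent.R013.RR7_948 Crest.Agent.R013.RR8_948 Crest.Agent.R013.RR9_948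
open Crest.Agent.R013.RR11_948 Crest.Agent.R013.RR12_948
open Crest.Agent.R013.WR2_777 Crest.Agent.R013.WR4_777 Crest.Agent.R013.WR5_777
open Crest.Agent.R013.PicD_398 Crest.Agent.R013.CntLoc_262

variable {k : Type*} [Field k] [Fintype k] {K : Type*} [Field K] [Algebra k K]
  [Algebra (RatFunc k) K]
  [IsScalarTower k (RatFunc k) K] [FiniteDimensional (RatFunc k) K]
  [Algebra.IsSeparable (RatFunc k) K]

theorem gs_eq (n : ℕ) : gs (Fintype.card k) n
    = (Nat.card k ^ n - 1) / (Nat.card k - 1) := by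
  unfold gs
  rw [Nat.card_eq_fintype_card, Nat.geomSum_eq Fintype.one_lt_card]


/-- `IsChi` for any `e` with `v_P(e) = exp (E_P)` -/
theorem isChi_nrm {P : Pl k K} {f : K} {E : Pl k K →₀ ℤ}
    (hf : P.v f = exp (-((Fintype.card k - 1 : ℤ) * E P))) {e : K} (he : P.v e = exp (E P)) :
    IsChi f E P (nrm P (f * e ^ (Fintype.card k - 1)) : k) := by
  refine ⟨e, he, ?_⟩
  have hv := v_fe P he hf
  rw [gs_eq]
  exact v_pow_sub_nrm_lt hv

theorem isChi_chiP {f : K} (hf : f ≠ 0) {E : Pl k K →₀ ℤ}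
    (hE : divf (k := k) f = (Fintype.card k - 1) • E) (P : Pl k K) :
    IsChi f E P (chiP (Fintype.card k - 1) f E P : k) := by
  refine isChi_nrm ?_ (v_pe P (E P))
  rw [v_eq hf, hE, Finsupp.smul_apply, nsmul_eq_mul, Nat.cast_sub Fintype.card_pos]
  push_cast
  rfl


end Crest.Agent.R013.WR6_777
end

-- ▼ part R013/Z3_777

/-!
# R013 / Z3: characters of `Pic` with values in a field containing `k` (helper777)
-/

set_option autoImplicit false
set_option linter.all false

namespace Crest.Agent.R013.Z3_777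

open WithZero Module Polynomial
open Crest.Agent.R013.RR7_948 Crest.Agent.R013.RR8_948 Crest.Agent.R013.RR9_948
open Crest.Agent.R013.RR11_948 Crest.Agent.R013.RR12_948
open Crest.Agent.R013.WR2_777 Crest.Agent.R013.WR4_777 Crest.Agent.R013.WR5_777
open Crest.Agent.R013.WR6_777 Crest.Agent.R013.PicD_398
open Crest.Agent.R013.Z1_777 Crest.Agent.R013.Z2_777 Crest.Agent.R013.CntLoc_262

variable {k : Type*} [Field k] {K : Type*} [Field K] [Algebra k K] [Algebra (RatFunc k) K]
  [IsScalarTower k (RatFunc k) K] [FiniteDimensional (RatFunc k) K]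
  [Algebra.IsSeparable (RatFunc k) K]

/-- `N`-th roots of unity of any extension lie in `k` -/
theorem exists_eq_of_pow_eq_one [Finite k] {N m : ℕ} (hNm : N * m = Nat.card k - 1)
    {F : Type*} [Field F] (ι : k →+* F) {x : F} (hx : x ^ N = 1) : ∃ η : k, ι η = x := by
  letI := ι.toAlgebra
  obtain ⟨ζ, hζ⟩ := exists_prim hNm
  have h := pow_sub_one_eq_prod hζ (Nat.pos_of_ne_zero (N_ne_zero hNm)) x
  rw [hx, sub_self, eq_comm, Finset.prod_eq_zero_iff] at h
  obtain ⟨η, _, hη⟩ := h
  exact ⟨η, (sub_eq_zero.mp hη).symm⟩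

/-- **(Z2)** for characters with values in an extension `F` of `k` -/
theorem exists_of_addChar [Finite k] (hc : algebraicClosure k K = ⊥) {N m : ℕ}
    (hNm : N * m = Nat.card k - 1) {F : Type*} [Field F] (ι : k →+* F)
    (ψ : AddChar (Pic k K) F) (hψ : ∀ z, ψ z ^ N = 1) :
    ∃ (h : K) (E : Pl k K →₀ ℤ), h ≠ 0 ∧ divf (k := k) h = N • E ∧
      (∀ P : Pl k K, ψ (cls (Finsupp.single P 1)) = ι (chiP (N * m) (h ^ m) E P)) ∧
      (cls E = 0 → ∀ z ∈ Pic0 k K, ψ z = 1) := by
  have hN0 := N_ne_zero hNm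
  choose η hη using fun z => exists_eq_of_pow_eq_one hNm ι (hψ z)
  have hη0 : ∀ z, η z ≠ 0 := by
    intro z h0
    have h1 := hψ z
    rw [← hη, h0, map_zero, zero_pow hN0] at h1
    exact zero_ne_one h1
  let ψ' : Pic k K →+ Additive kˣ :=
    { toFun := fun z => Additive.ofMul (Units.mk0 (η z) (hη0 z))
      map_zero' := by
        apply Additive.toMul.injective
        refine Units.ext ?_
        apply ι.injective
        show ι (η 0) = ι ((1 : kˣ) : k)
        rw [hη, AddChar.map_zero_eq_one, Units.val_one, map_one]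
      map_add' := fun a b => by
        apply Additive.toMul.injective
        refine Units.ext ?_
        apply ι.injective
        show ι (η (a + b)) = ι (η a * η b)
        rw [map_mul, hη, hη, hη, AddChar.map_add_eq_mul] }
  have hval : ∀ z, ι ((ψ' z).toMul : kˣ) = ψ z := fun z => hη z
  have hkill : ∀ z, N • ψ' z = 0 := by
    intro z
    apply Additive.toMul.injective
    rw [toMul_nsmul]
    refine Units.ext ?_
    apply ι.injective
    rw [Units.val_pow_eq_pow_val, map_pow, hval, hψ]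
    show (1 : F) = ι ((1 : kˣ) : k)
    rw [Units.val_one, map_one]
  obtain ⟨h, E, hh, hE, h1, h2⟩ := exists_of_char hc hNm ψ' hkill
  refine ⟨h, E, hh, hE, fun P => ?_, fun hcls z hz => ?_⟩
  · rw [← h1, hval]
  · rw [← hval, h2 hcls z hz]
    show ι ((1 : kˣ) : k) = 1
    rw [Units.val_one, map_one]

/-- the output for the trace formula: `f = h ^ m`, `div f = (q - 1) E`, `N E` principal, and the
character is `χ_f` in the sense of `IsChi` -/
theorem exists_isChi_of_addChar [Fintype k] (hc : algebraicClosure k K = ⊥) {N : ℕ}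
    (hN : N ∣ Fintype.card k - 1) {F : Type*} [Field F] (ι : k →+* F)
    (ψ : AddChar (Pic k K) F) (hψ : ∀ z, ψ z ^ N = 1) (hψ1 : ∃ z ∈ Pic0 k K, ψ z ≠ 1) :
    ∃ (f h : K) (E : Pl k K →₀ ℤ), f ≠ 0 ∧ h ≠ 0 ∧
      divf (k := k) f = (Fintype.card k - 1) • E ∧ divf (k := k) h = N • E ∧
      (∀ (P : Pl k K), ∃ c : k, IsChi f E P c ∧ ι c = ψ (cls (Finsupp.single P 1))) ∧
      cls E ≠ 0 ∧ degD E = 0 := by
  obtain ⟨m, hm⟩ := hN
  have hNm : N * m = Nat.card k - 1 := by rw [Nat.card_eq_fintype_card, hm]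
  obtain ⟨h, E, hh, hE, h1, h2⟩ := exists_of_addChar hc hNm ι ψ hψ
  have hf : divf (k := k) (h ^ m) = (Fintype.card k - 1) • E := by
    rw [divf_pow hh, hE, smul_smul, mul_comm m N, hm]
  refine ⟨h ^ m, h, E, pow_ne_zero _ hh, hh, hf, hE, fun P => ?_, fun h0 => ?_, ?_⟩
  · refine ⟨chiP (N * m) (h ^ m) E P, ?_, (h1 P).symm⟩
    have h3 := isChi_chiP (pow_ne_zero m hh) hf P
    rw [hm] at h3
    exact h3
  · obtain ⟨z, hz, hz1⟩ := hψ1
    exact hz1 (h2 h0 z hz)
  · have h4 := degD_divf (k := k) hh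
    rw [hE] at h4
    have h5 : degD (N • E) = N * degD E := by
      show degHom (N • E) = _
      rw [map_nsmul, nsmul_eq_mul]
      rfl
    rw [h5] at h4
    rcases mul_eq_zero.mp h4 with h6 | h6
    · exact absurd (by exact_mod_cast h6) (N_ne_zero hNm)
    · exact h6

end Crest.Agent.R013.Z3_777
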