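import Mathlib
import Crest.Agent.R013.CntLoc_262
import Crest.Agent.R013.CntT1_262
import Crest.Agent.R013.CntF1_398
import Crest.Agent.R013.RR23_948
import Crest.Agent.R013.CntA1_560
import Crest.Agent.R013.CntB4_491
import Crest.Agent.R013.CntF6_398
import Crest.Agent.R013.Z3_777_Mg

-- ▼ part R013/CntT2a_262
section

/-!
# R013 / CNT: `det(1-TΦ | H⁰(E)) det(1-TΦ | H¹(E')) = det(1-TΦ | H⁰(E')) det(1-TΦ | H¹(E)) ∏ F_P`
(helper262)
-/

set_option autoImplicit false
set_option linter.unusedSectionVars false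

namespace Crest.Agent.R013.CntT2a_262

open Polynomial WithZero Module IsDedekindDomain nonZeroDivisors
open Crest.Agent.R013.RR1_948 Crest.Agent.R013.RR2_948 Crest.Agent.R013.RR3_948
open Crest.Agent.R013.RR4_948 Crest.Agent.R013.RR5_948 Crest.Agent.R013.RR6_948
open Crest.Agent.R013.RR7_948 Crest.Agent.R013.RR8_948 Crest.Agent.R013.RR9_948
open Crest.Agent.R013.CntChr_262 Crest.Agent.R013.CntLoc_262

attribute [local instance] algO

section Chart

variable {k : Type*} [Field k] [Fintype k] {K : Type*} [Field K] [Algebra k K]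

/-- `(q-1) D ≤ div f` -/
def Good (f : K) (D : Pl k K →₀ ℤ) : Prop :=
  ∀ P : Pl k K, P.v f ≤ exp (-((Fintype.card k - 1 : ℤ) * D P))

theorem Good.mono {f : K} {D D' : Pl k K →₀ ℤ} (h : Good f D) (hD : ∀ P, D' P ≤ D P) :
    Good f D' := by
  intro P
  refine (h P).trans ?_
  rw [exp_le_exp]
  have hq : (1 : ℤ) ≤ Fintype.card k := by exact_mod_cast (Fintype.card_pos : 0 < Fintype.card k)
  have := hD P
  nlinarith

variable {A : Type*} [CommRing A] [IsDedekindDomain A] [Algebra k A] [Algebra A K]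
  [IsScalarTower k A K] [IsFractionRing A K]

variable (A) in
theorem st_NA {f : K} {D : Pl k K →₀ ℤ} (h : Good f D) : St (phi (k := k) f) (NA A D) := by
  intro s hs
  rw [mem_NA] at hs ⊢
  intro w
  have := st_ball (ofH w : Pl k K) f (D (ofH w)) (D (ofH w)) (h _) le_rfl s
    (mem_ball.mpr (hs w))
  exact mem_ball.mp this

/-- the chart step -/
theorem dq_NA_step {f : K} {D : Pl k K →₀ ℤ} (w : HeightOneSpectrum A)
    (hdeg : degE (ofH w : Pl k K) = degP (ofH w : Pl k K))
    (hN : St (phi (k := k) f) (NA A D))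
    (hN₁ : St (phi (k := k) f) (NA A (D + Finsupp.single (ofH w) 1)))
    (hb : St (phi (k := k) f) (ball (ofH w : Pl k K) (D (ofH w))))
    (hb₁ : St (phi (k := k) f) (ball (ofH w : Pl k K) (D (ofH w) + 1))) :
    NA A D ≤ NA A (D + Finsupp.single (ofH w) 1) ∧
    dq (phi (k := k) f) hN hN₁ = dq (phi (k := k) f) hb hb₁ := by
  classical
  set P : Pl k K := ofH w with hP
  have hval : ∀ w' : HeightOneSpectrum A, (D + Finsupp.single P 1 : Pl k K →₀ ℤ) (ofH w')
      = D (ofH w') + if w' = w then 1 else 0 := by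
    intro w'
    rw [Finsupp.add_apply, Finsupp.single_apply]
    congr 1
    by_cases h : w' = w
    · rw [if_pos h, h, if_pos rfl]
    · rw [if_neg h, if_neg]
      intro h'
      exact h (ofH_injective h').symm
  have hle : NA A D ≤ NA A (D + Finsupp.single P 1) := by
    intro s hs
    rw [mem_NA] at hs ⊢
    intro w'
    refine (hs w').trans ?_
    rw [hval, exp_le_exp]
    split_ifs <;> omega
  refine ⟨hle, ?_⟩
  -- `N = ball ⊓ N₁`
  have e1 : NA A D = ball P (D P) ⊓ NA A (D + Finsupp.single P 1) := by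
    ext s
    rw [Submodule.mem_inf, mem_ball, mem_NA, mem_NA]
    constructor
    · intro h
      exact ⟨h w, (mem_NA.mp (hle (mem_NA.mpr h)))⟩
    · rintro ⟨h1, h2⟩ w'
      by_cases h : w' = w
      · rw [h]; exact h1
      · have := h2 w'
        rwa [hval, if_neg h, add_zero] at this
  have e2 : NA A (D + Finsupp.single P 1) ≤ ball P (D P + 1) := by
    intro s hs
    rw [mem_NA] at hs
    have := hs w
    rw [hval, if_pos rfl] at this
    exact mem_ball.mpr this
  have e0 : ball P (D P) ≤ ball P (D P + 1) := by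
    intro s hs
    rw [mem_ball] at hs ⊢
    exact hs.trans (by rw [exp_le_exp]; omega)
  have e3 : ri (NA A D) (NA A (D + Finsupp.single P 1)) = degP P := by
    rw [← hdeg, degE_ofH]
    unfold NA
    rw [cut_add_single_ofH, ri_fidS]
  obtain ⟨e, he⟩ := P.surj (exp (D P + 1))
  have e4 : ri (ball P (D P)) (ball P (D P + 1)) = degP P := by
    have h1 := (LinearEquiv.length_eq (grEquiv P e _ he))
    rw [add_sub_cancel_right] at h1
    unfold ri
    rw [h1, ← hdeg]
    have h2 : P.v (1 : K) = exp (0 : ℤ) := by rw [map_one, exp_zero]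
    exact (LinearEquiv.length_eq (grEquiv P 1 0 h2)).symm
  have e5 : NA A (D + Finsupp.single P 1) ⊔ ball P (D P) = ball P (D P + 1) := by
    have h1 : ri (ball P (D P)) (NA A (D + Finsupp.single P 1) ⊔ ball P (D P)) = degP P := by
      rw [ri_sup, ← ri_inf, ← e1, e3]
    have h2 : NA A (D + Finsupp.single P 1) ⊔ ball P (D P) ≤ ball P (D P + 1) := sup_le e2 e0
    have h3 := ri_add (le_sup_right : ball P (D P) ≤ NA A (D + Finsupp.single P 1) ⊔ ball P (D P)) h2
    rw [e4, h1] at h3
    have h4 : ri (NA A (D + Finsupp.single P 1) ⊔ ball P (D P)) (ball P (D P + 1)) = 0 := by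
      generalize ri (NA A (D + Finsupp.single P 1) ⊔ ball P (D P)) (ball P (D P + 1)) = x at h3
      have hx : x ≠ ⊤ := by
        rintro rfl
        rw [add_top] at h3
        exact ENat.natCast_ne_top _ h3
      obtain ⟨n, rfl⟩ := ENat.ne_top_iff_exists.mp hx
      have h5 : degP P = degP P + n := by exact_mod_cast h3
      have h6 : n = 0 := by omega
      rw [h6]; rfl
    refine le_antisymm h2 ?_
    unfold ri at h4
    rw [Module.length_eq_zero_iff, Submodule.Quotient.subsingleton_iff] at h4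
    intro s hs
    have : (⟨s, hs⟩ : ball P (D P + 1)) ∈ (NA A (D + Finsupp.single P 1) ⊔ ball P (D P)).submoduleOf
        (ball P (D P + 1)) := by rw [h4]; trivial
    exact this
  rw [dq_congr _ hN hN₁ (hb.inf hN₁) hN₁ e1 rfl, dq_inf _ hb hN₁, ← dq_sup _ hb hN₁]
  exact dq_congr _ _ _ _ _ rfl e5

end Chart

section Global

variable {k : Type*} [Field k] [Fintype k] {K : Type*} [Field K] [Algebra k K]
  [Algebra (RatFunc k) K]
  [IsScalarTower k (RatFunc k) K] [FiniteDimensional (RatFunc k) K]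
  [Algebra.IsSeparable (RatFunc k) K]
  [Algebra k[X] K] [IsScalarTower k[X] (RatFunc k) K]
  (A₀ : Type*) [CommRing A₀] [IsDedekindDomain A₀] [Algebra k A₀] [Algebra A₀ K]
  [IsScalarTower k A₀ K] [IsFractionRing A₀ K] [Algebra k[X] A₀]
  [IsScalarTower k[X] A₀ K] [IsIntegralClosure A₀ k[X] K]
  (A₁ : Type*) [CommRing A₁] [IsDedekindDomain A₁] [Algebra k A₁] [Algebra A₁ K]
  [IsScalarTower k A₁ K] [IsFractionRing A₁ K] [Algebra (Rinf k) A₁]
  [IsScalarTower (Rinf k) A₁ K] [IsIntegralClosure A₁ (Rinf k) K]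

/-- `det (1 - T Φ | H⁰(D))` -/
noncomputable def D0 {f : K} {D : Pl k K →₀ ℤ} (h : Good f D) : k[X] :=
  d0 (phi (k := k) f) (st_NA A₀ h) (st_NA A₁ h)

/-- `det (1 - T Φ | H¹(D))` -/
noncomputable def D1 {f : K} {D : Pl k K →₀ ℤ} (h : Good f D) : k[X] :=
  d1 (phi (k := k) f) (st_NA A₀ h) (st_NA A₁ h)

theorem D_step {f : K} {D : Pl k K →₀ ℤ} (P : Pl k K) (h : Good f D)
    (h' : Good f (D + Finsupp.single P 1))
    (hb : St (phi (k := k) f) (ball P (D P)))
    (hb₁ : St (phi (k := k) f) (ball P (D P + 1))) :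
    D0 A₀ A₁ h' * D1 A₀ A₁ h = D0 A₀ A₁ h * D1 A₀ A₁ h' * dq (phi (k := k) f) hb hb₁ := by
  rcases chart_cases A₀ A₁ P with ⟨w, rfl⟩ | ⟨w, rfl⟩
  · have hdeg := RR10_948.degE_eq A₀ A₁ (ofH w : Pl k K)
    have e1 : NA A₁ (D + Finsupp.single (ofH w) 1) = NA A₁ D := by
      unfold NA
      rw [cut_add_single_of_ne]
      intro w'
      exact (ofH₀_ne_ofH₁ A₀ A₁ w w').symm
    obtain ⟨hle, e2⟩ := dq_NA_step w hdeg (st_NA A₀ h) (st_NA A₀ h') hb hb₁
    have key := d_index (phi (k := k) f) (st_NA A₁ h) (st_NA A₀ h) (st_NA A₀ h') hle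
    rw [e2] at key
    unfold D0 D1
    rw [d0_comm _ (st_NA A₀ h') (st_NA A₁ h'),
      d0_congr _ (st_NA A₁ h') (st_NA A₀ h') (st_NA A₁ h) (st_NA A₀ h') e1 rfl,
      d1_comm _ (st_NA A₀ h) (st_NA A₁ h), d0_comm _ (st_NA A₀ h) (st_NA A₁ h),
      d1_comm _ (st_NA A₀ h') (st_NA A₁ h'),
      d1_congr _ (st_NA A₁ h') (st_NA A₀ h') (st_NA A₁ h) (st_NA A₀ h') e1 rfl]
    exact key
  · have hdeg := RR10_948.degE_eq A₀ A₁ (ofH w : Pl k K)
    have e1 : NA A₀ (D + Finsupp.single (ofH w) 1) = NA A₀ D := by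
      unfold NA
      rw [cut_add_single_of_ne]
      intro w'
      exact (ofH₀_ne_ofH₁ A₀ A₁ w' w)
    obtain ⟨hle, e2⟩ := dq_NA_step w hdeg (st_NA A₁ h) (st_NA A₁ h') hb hb₁
    have key := d_index (phi (k := k) f) (st_NA A₀ h) (st_NA A₁ h) (st_NA A₁ h') hle
    rw [e2] at key
    unfold D0 D1
    rw [d0_congr _ (st_NA A₀ h') (st_NA A₁ h') (st_NA A₀ h) (st_NA A₁ h') e1 rfl,
      d1_congr _ (st_NA A₀ h') (st_NA A₁ h') (st_NA A₀ h) (st_NA A₁ h') e1 rfl]
    exact key

theorem D0_ne_zero {f : K} {D : Pl k K →₀ ℤ} (h : Good f D) : D0 A₀ A₁ h ≠ 0 := by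
  unfold D0
  rw [d0_eq_chr]
  have : Module.Finite k (NA A₀ D ⊓ NA A₁ D : Submodule k K) := by
    rw [← LD_eq A₀ A₁]
    exact RR10_948.LD_finite A₀ A₁ D
  exact chr_ne_zero _


/-- lower `E` along a list of places -/
noncomputable def low (E : Pl k K →₀ ℤ) : List (Pl k K) → (Pl k K →₀ ℤ)
  | [] => E
  | P :: l => low E l - Finsupp.single P 1

theorem low_apply [DecidableEq (Pl k K)] (E : Pl k K →₀ ℤ) (l : List (Pl k K)) (P : Pl k K) :
    low E l P = E P - l.count P := by
  induction l with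
  | nil => simp [low]
  | cons Q l ih =>
    rw [low, Finsupp.sub_apply, ih, List.count_cons, Finsupp.single_apply]
    by_cases h : Q = P
    · rw [if_pos h, if_pos (by simpa using h)]; push_cast; ring
    · rw [if_neg h, if_neg (by simpa using h)]; push_cast; ring

theorem D_low [DecidableEq (Pl k K)] {f : K} {E : Pl k K →₀ ℤ}
    (hE : ∀ P : Pl k K, P.v f = exp (-((Fintype.card k - 1 : ℤ) * E P)))
    (c : Pl k K → k) (hc : ∀ P, IsChi f E P (c P)) (hG : Good f E)
    (l : List (Pl k K)) (hl : Good f (low E l)) :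
    D0 A₀ A₁ hG * D1 A₀ A₁ hl = D0 A₀ A₁ hl * D1 A₀ A₁ hG *
      ∏ P ∈ l.toFinset, (1 - C (c P) * X ^ degP P) := by
  have hGl : ∀ l : List (Pl k K), Good f (low E l) := fun l =>
    hG.mono fun P => by rw [low_apply]; omega
  induction l with
  | nil =>
    have : low E [] = E := rfl
    rw [List.toFinset_nil, Finset.prod_empty, mul_one]
    rfl
  | cons P l ih =>
    have ih' := ih (hGl l)
    have hb : St (phi (k := k) f) (ball P (low E (P :: l) P)) :=
      st_ball P f _ _ (hE P).le (by rw [low_apply]; omega)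
    have hb₁ : St (phi (k := k) f) (ball P (low E (P :: l) P + 1)) :=
      st_ball P f (E P) _ (hE P).le (by rw [low_apply, List.count_cons_self]; push_cast; omega)
    have e0 : low E (P :: l) + Finsupp.single P 1 = low E l := by
      show low E l - Finsupp.single P 1 + Finsupp.single P 1 = low E l
      rw [sub_add_cancel]
    have h' : Good f (low E (P :: l) + Finsupp.single P 1) := by rw [e0]; exact hGl l
    have hstep := D_step A₀ A₁ P hl h' hb hb₁
    have e1 : D0 A₀ A₁ h' = D0 A₀ A₁ (hGl l) := by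
      unfold D0
      exact d0_congr _ _ _ _ _ (by rw [e0]) (by rw [e0])
    have e2 : D1 A₀ A₁ h' = D1 A₀ A₁ (hGl l) := by
      unfold D1
      exact d1_congr _ _ _ _ _ (by rw [e0]) (by rw [e0])
    rw [e1, e2] at hstep
    have hdeg := RR10_948.degE_eq A₀ A₁ P
    have hval : low E (P :: l) P = E P - l.count P - 1 := by
      rw [low_apply, List.count_cons_self]; push_cast; ring
    have hfac : dq (phi (k := k) f) hb hb₁ * ∏ Q ∈ l.toFinset, (1 - C (c Q) * X ^ degP Q)
        = ∏ Q ∈ (P :: l).toFinset, (1 - C (c Q) * X ^ degP Q) := by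
      rw [List.toFinset_cons]
      by_cases hP : P ∈ l
      · rw [Finset.insert_eq_of_mem (List.mem_toFinset.mpr hP)]
        have hcount : 1 ≤ l.count P := List.count_pos_iff.mpr hP
        have hb' : St (phi (k := k) f) (ball P (low E (P :: l) P + 1 - 1)) := by
          rw [add_sub_cancel_right]; exact hb
        have h1 := dq_ball_one P hdeg f (E P) (low E (P :: l) P + 1) (hE P).le
          (by rw [hval]; omega) hb' hb₁
        have h2 : dq (phi (k := k) f) hb hb₁ = dq (phi (k := k) f) hb' hb₁ :=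
          dq_congr _ _ _ _ _ (by rw [add_sub_cancel_right]) rfl
        rw [h2, h1, one_mul]
      · rw [Finset.prod_insert (fun h => hP (List.mem_toFinset.mp h))]
        congr 1
        have hcount : l.count P = 0 := List.count_eq_zero.mpr hP
        have hval' : low E (P :: l) P + 1 = E P := by rw [hval, hcount]; push_cast; ring
        have hval'' : low E (P :: l) P = E P - 1 := by rw [hval, hcount]; push_cast; ring
        have hb' : St (phi (k := k) f) (ball P (E P - 1)) := by rw [← hval'']; exact hb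
        have hb₁' : St (phi (k := k) f) (ball P (E P)) := by rw [← hval']; exact hb₁
        have h2 : dq (phi (k := k) f) hb hb₁ = dq (phi (k := k) f) hb' hb₁' :=
          dq_congr _ _ _ _ _ (by rw [hval'']) (by rw [hval'])
        rw [h2]
        exact dq_ball P hdeg f E (hE P) (c P) (hc P) hb' hb₁'
    have hne := D0_ne_zero A₀ A₁ (hGl l)
    apply mul_left_cancel₀ hne
    rw [← hfac]
    calc D0 A₀ A₁ (hGl l) * (D0 A₀ A₁ hG * D1 A₀ A₁ hl)
        = D0 A₀ A₁ hG * (D0 A₀ A₁ (hGl l) * D1 A₀ A₁ hl) := by ring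
      _ = D0 A₀ A₁ hl * dq (phi (k := k) f) hb hb₁ * (D0 A₀ A₁ hG * D1 A₀ A₁ (hGl l)) := by
          rw [hstep]; ring
      _ = _ := by rw [ih']; ring

end Global

end Crest.Agent.R013.CntT2a_262
private theorem rz_bfdef55061 : type_of% @_root_.Crest.Agent.R013.CntT2a_262.low.eq_def := @_root_.Crest.Agent.R013.CntT2a_262.low.eq_def -- L217
private theorem rz_724432cb50 : type_of% @_root_.Crest.Agent.R013.CntT2a_262.low.eq_1 := @_root_.Crest.Agent.R013.CntT2a_262.low.eq_1 -- L217
end

-- ▼ part R013/CntT2b_262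
section

/-!
# R013 / CNT: `det(1 - TΦ)` on `K / (⊕ k[x] b_a + ⊕ x^(-B-1) R b_a)` is `det (1 - T Θ)` (helper262)
-/

set_option autoImplicit false
set_option linter.unusedSectionVars false

namespace Crest.Agent.R013.CntT2b_262

open Polynomial WithZero Module
open Crest.Agent.R013.RR1_948 Crest.Agent.R013.RR2_948 Crest.Agent.R013.RR3_948
open Crest.Agent.R013.RR6_948
open Crest.Agent.R013.CntChr_262 Crest.Agent.R013.CntLoc_262 Crest.Agent.R013.CntT1_262

section OneVar

variable {k : Type*} [Field k]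

theorem smul_eq (c : k) (f : RatFunc k) : c • f = RatFunc.C c * f := by
  rw [Algebra.smul_def, algebraMap_eq_C]

theorem X_pow_mem_polyS (n : ℕ) : (RatFunc.X ^ n : RatFunc k) ∈ polyS k := by
  rw [mem_polyS]
  exact ⟨X ^ n, by rw [map_pow, RatFunc.algebraMap_X]⟩

theorem exists_coeffs (B : ℕ) (r : RatFunc k) :
    ∃ c : ℕ → k, r - ∑ i ∈ Finset.range B, c i • (RatFunc.X ^ (-((i : ℤ) + 1)) : RatFunc k)
      ∈ polyS k ⊔ infS k (-((B : ℤ) + 1)) := by
  induction B with
  | zero =>
    obtain ⟨p, hp⟩ := exists_poly_sub k r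
    refine ⟨0, ?_⟩
    rw [Finset.range_zero, Finset.sum_empty, sub_zero]
    have : r = algebraMap k[X] (RatFunc k) p + (r - algebraMap k[X] (RatFunc k) p) := by ring
    rw [this]
    refine Submodule.add_mem_sup ((mem_polyS k).mpr ⟨p, rfl⟩) ((mem_infS k).mpr ?_)
    rw [lt_one_iff] at hp
    simpa using hp
  | succ B ih =>
    obtain ⟨c, hc⟩ := ih
    obtain ⟨y, hy, z, hz, hyz⟩ := Submodule.mem_sup.mp hc
    rw [mem_infS] at hz
    -- `z X^(B+1)` is integral
    have h1 : vinf k (z * RatFunc.X ^ ((B : ℤ) + 1)) ≤ 1 := by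
      rw [map_mul, vinf_X_zpow]
      calc _ ≤ exp (-((B : ℤ) + 1)) * exp ((B : ℤ) + 1) := mul_le_mul_left hz _
        _ = 1 := by rw [← exp_add]; simp
    obtain ⟨a, ha⟩ := exists_C_sub k h1
    refine ⟨Function.update c B a, ?_⟩
    rw [Finset.sum_range_succ, Function.update_self]
    have h2 : ∑ i ∈ Finset.range B, Function.update c B a i •
        (RatFunc.X ^ (-((i : ℤ) + 1)) : RatFunc k)
        = ∑ i ∈ Finset.range B, c i • (RatFunc.X ^ (-((i : ℤ) + 1)) : RatFunc k) := by
      refine Finset.sum_congr rfl fun i hi => ?_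
      rw [Function.update_of_ne (Finset.mem_range.mp hi).ne]
    rw [h2, ← sub_sub, ← hyz, add_sub_assoc]
    refine Submodule.add_mem_sup hy ((mem_infS k).mpr ?_)
    have h3 : z - a • (RatFunc.X ^ (-((B : ℤ) + 1)) : RatFunc k)
        = (z * RatFunc.X ^ ((B : ℤ) + 1) - RatFunc.C a) * RatFunc.X ^ (-((B : ℤ) + 1)) := by
      rw [sub_mul, mul_assoc, ← zpow_add₀ RatFunc.X_ne_zero, smul_eq]
      simp
    rw [h3, map_mul, vinf_X_zpow]
    rw [lt_one_iff] at ha
    calc _ ≤ exp (-1) * exp (-((B : ℤ) + 1)) := mul_le_mul_left ha _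
      _ = exp (-(((B + 1 : ℕ) : ℤ) + 1)) := by rw [← exp_add]; congr 1; push_cast; ring

theorem coeffs_unique (B : ℕ) (c : ℕ → k)
    (h : ∑ i ∈ Finset.range B, c i • (RatFunc.X ^ (-((i : ℤ) + 1)) : RatFunc k)
      ∈ polyS k ⊔ infS k (-((B : ℤ) + 1))) : ∀ i < B, c i = 0 := by
  obtain ⟨y, hy, z, hz, hyz⟩ := Submodule.mem_sup.mp h
  obtain ⟨p, rfl⟩ := (mem_polyS k).mp hy
  rw [mem_infS] at hz
  -- multiply by `X^B`
  let g : k[X] := ∑ i ∈ Finset.range B, C (c i) * X ^ (B - (i + 1))
  have hg : algebraMap k[X] (RatFunc k) g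
      = (∑ i ∈ Finset.range B, c i • (RatFunc.X ^ (-((i : ℤ) + 1)) : RatFunc k))
        * RatFunc.X ^ (B : ℤ) := by
    rw [map_sum, Finset.sum_mul]
    refine Finset.sum_congr rfl fun i hi => ?_
    have hi' := Finset.mem_range.mp hi
    rw [map_mul, map_pow, RatFunc.algebraMap_C, RatFunc.algebraMap_X, smul_eq, mul_assoc,
      ← zpow_add₀ RatFunc.X_ne_zero, ← zpow_natCast]
    congr 2
    push_cast [Nat.cast_sub (show i + 1 ≤ B by omega)]
    ring
  have h1 : algebraMap k[X] (RatFunc k) (g - X ^ B * p) = z * RatFunc.X ^ (B : ℤ) := by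
    rw [map_sub, hg, ← hyz, map_mul, map_pow, RatFunc.algebraMap_X, zpow_natCast]
    ring
  have h2 : g - X ^ B * p = 0 := by
    by_contra h0
    have h3 := vinf_poly_one_le k h0
    rw [h1, map_mul, vinf_X_zpow] at h3
    have h4 : vinf k z * exp (B : ℤ) ≤ exp (-((B : ℤ) + 1)) * exp (B : ℤ) := mul_le_mul_left hz _
    rw [← exp_add] at h4
    have h5 : (exp (0 : ℤ) : ℤᵐ⁰) ≤ exp (-((B : ℤ) + 1) + B) := by
      rw [exp_zero]; exact h3.trans h4
    rw [exp_le_exp] at h5
    omega
  have h3 : g = X ^ B * p := sub_eq_zero.mp h2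
  have h4 : ∀ i < B, g.coeff (B - (i + 1)) = c i := by
    intro i hi
    simp only [g, finsetSum_coeff, coeff_C_mul, coeff_X_pow]
    rw [Finset.sum_eq_single i]
    · simp
    · intro j hj hji
      rw [if_neg, mul_zero]
      have := Finset.mem_range.mp hj
      omega
    · intro h; exact absurd (Finset.mem_range.mpr hi) h
  intro i hi
  rw [← h4 i hi, h3, coeff_X_pow_mul', if_neg (by omega)]

theorem mul_poly_mem (B N : ℕ) (p : k[X]) :
    RatFunc.X ^ (-(N : ℤ)) * algebraMap k[X] (RatFunc k) p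
      - ∑ j ∈ Finset.range B, (if j + 1 ≤ N then p.coeff (N - (j + 1)) else 0) •
        (RatFunc.X ^ (-((j : ℤ) + 1)) : RatFunc k) ∈ polyS k ⊔ infS k (-((B : ℤ) + 1)) := by
  induction p using Polynomial.induction_on' with
  | add p₁ p₂ h₁ h₂ =>
    have h3 := Submodule.add_mem _ h₁ h₂
    have h4 : ∀ j, (if j + 1 ≤ N then (p₁ + p₂).coeff (N - (j + 1)) else 0)
        = (if j + 1 ≤ N then p₁.coeff (N - (j + 1)) else 0)
          + (if j + 1 ≤ N then p₂.coeff (N - (j + 1)) else 0) := by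
      intro j; split_ifs
      · rw [coeff_add]
      · rw [add_zero]
    simp only [h4, add_smul, Finset.sum_add_distrib, map_add, mul_add]
    convert h3 using 1
    ring
  | monomial u a =>
    rw [← C_mul_X_pow_eq_monomial]
    have hc : ∀ m, (C a * X ^ u : k[X]).coeff m = if m = u then a else 0 := by
      intro m; rw [coeff_C_mul, coeff_X_pow]; split_ifs <;> simp
    simp only [hc]
    rw [map_mul, map_pow, RatFunc.algebraMap_C, RatFunc.algebraMap_X]
    by_cases hu : N ≤ u
    · have h0 : ∀ j ∈ Finset.range B, (if j + 1 ≤ N then (if N - (j + 1) = u then a else 0)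
          else 0) • (RatFunc.X ^ (-((j : ℤ) + 1)) : RatFunc k) = 0 := by
        intro j _
        have : (if j + 1 ≤ N then (if N - (j + 1) = u then a else 0) else 0) = 0 := by
          split_ifs
          · omega
          · rfl
          · rfl
        rw [this, zero_smul]
      rw [Finset.sum_eq_zero h0, sub_zero]
      apply Submodule.mem_sup_left
      have e : RatFunc.X ^ (-(N : ℤ)) * (RatFunc.C a * RatFunc.X ^ u)
          = a • (RatFunc.X ^ (u - N) : RatFunc k) := by
        rw [smul_eq, mul_left_comm, ← zpow_natCast, ← zpow_add₀ RatFunc.X_ne_zero,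
          ← zpow_natCast (RatFunc.X : RatFunc k) (u - N)]
        congr 2
        push_cast [Nat.cast_sub hu]
        ring
      rw [e]
      exact Submodule.smul_mem _ _ (X_pow_mem_polyS _)
    · have e : RatFunc.X ^ (-(N : ℤ)) * (RatFunc.C a * RatFunc.X ^ u)
          = a • (RatFunc.X ^ (-(((N - u - 1 : ℕ) : ℤ) + 1)) : RatFunc k) := by
        rw [smul_eq, mul_left_comm, ← zpow_natCast, ← zpow_add₀ RatFunc.X_ne_zero]
        congr 2
        omega
      rw [e]
      by_cases hB : N - u - 1 < B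
      · rw [Finset.sum_eq_single (N - u - 1)]
        · rw [if_pos (by omega), if_pos (by omega), sub_self]
          exact Submodule.zero_mem _
        · intro j _ hj
          have : (if j + 1 ≤ N then (if N - (j + 1) = u then a else 0) else 0) = 0 := by
            split_ifs
            · omega
            · rfl
            · rfl
          rw [this, zero_smul]
        · intro h; exact absurd (Finset.mem_range.mpr hB) h
      · have h0 : ∀ j ∈ Finset.range B, (if j + 1 ≤ N then (if N - (j + 1) = u then a else 0)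
            else 0) • (RatFunc.X ^ (-((j : ℤ) + 1)) : RatFunc k) = 0 := by
          intro j hj
          have hj' := Finset.mem_range.mp hj
          have : (if j + 1 ≤ N then (if N - (j + 1) = u then a else 0) else 0) = 0 := by
            split_ifs
            · omega
            · rfl
            · rfl
          rw [this, zero_smul]
        rw [Finset.sum_eq_zero h0, sub_zero]
        apply Submodule.mem_sup_right
        apply Submodule.smul_mem
        rw [mem_infS, vinf_X_zpow, exp_le_exp]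
        omega

end OneVar

section Lattice

variable {k : Type*} [Field k] [Fintype k] {ι : Type*} [Fintype ι] [DecidableEq ι]
  {K : Type*} [Field K] [Algebra k K] [Algebra (RatFunc k) K] [IsScalarTower k (RatFunc k) K]

theorem mem_sup_iff (bs : Basis ι (RatFunc k) K) (d : ι → ℤ) (x : K) :
    x ∈ polyL bs ⊔ infL bs d ↔ ∀ a, bs.repr x a ∈ polyS k ⊔ infS k (d a) := by
  constructor
  · intro hx a
    obtain ⟨y, hy, z, hz, rfl⟩ := Submodule.mem_sup.mp hx
    rw [map_add, Finsupp.add_apply]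
    exact Submodule.add_mem_sup (mem_polyL.mp hy a) ((mem_infS k).mpr (mem_infL.mp hz a))
  · intro h
    choose y hy z hz hyz using fun a => Submodule.mem_sup.mp (h a)
    have e : x = (∑ a, y a • bs a) + ∑ a, z a • bs a := by
      rw [← Finset.sum_add_distrib]
      conv_lhs => rw [← bs.sum_repr x]
      refine Finset.sum_congr rfl fun a _ => ?_
      rw [← add_smul, hyz]
    rw [e]
    refine Submodule.add_mem_sup ?_ ?_
    · rw [mem_polyL]
      intro a
      rw [bs.repr_sum_self]
      exact hy a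
    · rw [mem_infL]
      intro a
      rw [bs.repr_sum_self]
      exact (mem_infS k).mp (hz a)

theorem phi_smul (f : K) (r : RatFunc k) (x : K) :
    phi (k := k) f (r • x) = (r ^ Fintype.card k) • phi (k := k) f x := by
  rw [phi_apply, phi_apply, Algebra.smul_def, Algebra.smul_def, map_pow, mul_pow]
  ring

theorem repr_phi (bs : Basis ι (RatFunc k) K) (f : K) (F : Matrix ι ι k[X])
    (hF : ∀ a b, bs.repr (phi (k := k) f (bs a)) b = algebraMap k[X] (RatFunc k) (F b a)) (x : K)
    (b : ι) :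
    bs.repr (phi (k := k) f x) b
      = ∑ a, bs.repr x a ^ Fintype.card k * algebraMap k[X] (RatFunc k) (F b a) := by
  have h1 : phi (k := k) f x = ∑ a, (bs.repr x a ^ Fintype.card k) • phi (k := k) f (bs a) := by
    conv_lhs => rw [← bs.sum_repr x]
    rw [map_sum]
    exact Finset.sum_congr rfl fun a _ => phi_smul f _ _
  rw [h1, map_sum, Finsupp.finsetSum_apply]
  refine Finset.sum_congr rfl fun a _ => ?_
  rw [map_smul, Finsupp.smul_apply, hF, smul_eq_mul]


theorem vinf_poly_le (p : k[X]) : vinf k (algebraMap k[X] (RatFunc k) p) ≤ exp (p.natDegree : ℤ) := by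
  by_cases hp : p = 0
  · simp [hp]
  · rw [vinf_poly k hp]

theorem st_infL (bs : Basis ι (RatFunc k) K) (f : K) (F : Matrix ι ι k[X])
    (hF : ∀ a b, bs.repr (phi (k := k) f (bs a)) b = algebraMap k[X] (RatFunc k) (F b a)) (B : ℕ)
    (hB : ∀ b a, (F b a).natDegree < (Fintype.card k - 1) * (B + 1)) :
    St (phi (k := k) f) (infL bs (fun _ => -((B : ℤ) + 1))) := by
  intro x hx
  rw [mem_infL] at hx ⊢
  intro b
  have hq : 1 ≤ Fintype.card k := Fintype.card_pos
  rw [repr_phi bs f F hF]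
  refine Valuation.map_sum_le _ fun a _ => ?_
  rw [map_mul, map_pow]
  calc vinf k (bs.repr x a) ^ Fintype.card k * vinf k (algebraMap k[X] (RatFunc k) (F b a))
      ≤ exp (-((B : ℤ) + 1)) ^ Fintype.card k * exp ((F b a).natDegree : ℤ) :=
        mul_le_mul' (pow_le_pow_left₀ zero_le (hx a) _) (vinf_poly_le _)
    _ = exp (Fintype.card k * (-((B : ℤ) + 1)) + (F b a).natDegree) := by
        rw [← exp_nsmul, ← exp_add, nsmul_eq_mul]
    _ ≤ exp (-((B : ℤ) + 1)) := by
        rw [exp_le_exp]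
        have h1 := hB b a
        zify [hq] at h1
        nlinarith

theorem inf_eq_bot (bs : Basis ι (RatFunc k) K) (B : ℕ) :
    polyL bs ⊓ infL bs (fun _ => -((B : ℤ) + 1)) = ⊥ := by
  rw [eq_bot_iff]
  intro x hx
  obtain ⟨h1, h2⟩ := Submodule.mem_inf.mp hx
  rw [mem_polyL] at h1
  rw [mem_infL] at h2
  rw [Submodule.mem_bot]
  apply bs.repr.injective
  ext a
  rw [map_zero, Finsupp.zero_apply]
  obtain ⟨p, hp⟩ := (mem_polyS k).mp (h1 a)
  rw [← hp]
  by_cases h0 : p = 0
  · rw [h0, map_zero]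
  · exfalso
    have h3 := vinf_poly_one_le k h0
    rw [hp] at h3
    have h4 := h3.trans (h2 a)
    rw [← exp_zero, exp_le_exp] at h4
    omega

/-- the basis `x^-(i+1) b_a` of the quotient -/
theorem exists_basis (bs : Basis ι (RatFunc k) K) (B : ℕ) :
    ∃ v : Basis (Fin B × ι) k (K ⧸ (polyL bs ⊔ infL bs (fun _ => -((B : ℤ) + 1)))),
      ∀ ia : Fin B × ι, v ia = Submodule.Quotient.mk
        ((RatFunc.X ^ (-(((ia.1 : ℕ) : ℤ) + 1)) : RatFunc k) • bs ia.2) := by
  set Q := polyL bs ⊔ infL bs (fun _ => -((B : ℤ) + 1)) with hQ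
  let u : Fin B × ι → K := fun ia => (RatFunc.X ^ (-(((ia.1 : ℕ) : ℤ) + 1)) : RatFunc k) • bs ia.2
  have hrepr : ∀ (g : Fin B × ι → k) (a : ι), bs.repr (∑ ia, g ia • u ia) a
      = ∑ i : Fin B, g (i, a) • (RatFunc.X ^ (-(((i : ℕ) : ℤ) + 1)) : RatFunc k) := by
    intro g a
    rw [map_sum, Finsupp.finsetSum_apply, Fintype.sum_prod_type]
    refine Finset.sum_congr rfl fun i _ => ?_
    rw [Finset.sum_eq_single a]
    · have : g (i, a) • u (i, a) = (g (i, a) • (RatFunc.X ^ (-(((i : ℕ) : ℤ) + 1)) : RatFunc k))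
          • bs a := by
        simp only [u]
        rw [smul_assoc]
      rw [this, map_smul, Finsupp.smul_apply, bs.repr_self, Finsupp.single_eq_same, smul_eq_mul,
        mul_one]
    · intro b _ hb
      have : g (i, b) • u (i, b) = (g (i, b) • (RatFunc.X ^ (-(((i : ℕ) : ℤ) + 1)) : RatFunc k))
          • bs b := by
        simp only [u]
        rw [smul_assoc]
      rw [this, map_smul, Finsupp.smul_apply, bs.repr_self, Finsupp.single_eq_of_ne hb.symm,
        smul_zero]
    · intro h; exact absurd (Finset.mem_univ _) h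
  have hmk : ∀ g : Fin B × ι → k, ∑ ia, g ia • (Submodule.Quotient.mk (u ia) : K ⧸ Q)
      = Submodule.Quotient.mk (∑ ia, g ia • u ia) := by
    intro g
    rw [← Submodule.mkQ_apply, map_sum]
    rfl
  have hli : LinearIndependent k (fun ia => (Submodule.Quotient.mk (u ia) : K ⧸ Q)) := by
    rw [Fintype.linearIndependent_iff]
    intro g hg
    rw [hmk, Submodule.Quotient.mk_eq_zero, hQ, mem_sup_iff] at hg
    rintro ⟨i, a⟩
    have h1 := hg a
    rw [hrepr] at h1
    let c : ℕ → k := fun n => if h : n < B then g (⟨n, h⟩, a) else 0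
    have h2 : ∑ i : Fin B, g (i, a) • (RatFunc.X ^ (-(((i : ℕ) : ℤ) + 1)) : RatFunc k)
        = ∑ n ∈ Finset.range B, c n • (RatFunc.X ^ (-((n : ℤ) + 1)) : RatFunc k) := by
      rw [← Fin.sum_univ_eq_sum_range
        (fun n => c n • (RatFunc.X ^ (-((n : ℤ) + 1)) : RatFunc k)) B]
      refine Finset.sum_congr rfl fun i _ => ?_
      simp only [c]
      rw [dif_pos i.2]
    rw [h2] at h1
    have h3 := coeffs_unique B c h1 i i.2
    simp only [c] at h3
    rwa [dif_pos i.2] at h3
  have hsp : ⊤ ≤ Submodule.span k (Set.range (fun ia => (Submodule.Quotient.mk (u ia) : K ⧸ Q))) := by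
    intro x _
    obtain ⟨x, rfl⟩ := Submodule.Quotient.mk_surjective _ x
    choose c hc using fun a => exists_coeffs B (bs.repr x a)
    have h1 : (Submodule.Quotient.mk x : K ⧸ Q)
        = ∑ ia : Fin B × ι, c ia.2 ia.1 • (Submodule.Quotient.mk (u ia) : K ⧸ Q) := by
      rw [hmk, Submodule.Quotient.eq, hQ, mem_sup_iff]
      intro a
      rw [map_sub, Finsupp.sub_apply, hrepr (fun ia => c ia.2 ia.1) a]
      have h2 := hc a
      rwa [← Fin.sum_univ_eq_sum_range
        (fun n => c a n • (RatFunc.X ^ (-((n : ℤ) + 1)) : RatFunc k)) B] at h2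
    rw [h1]
    exact Submodule.sum_mem _ fun ia _ => Submodule.smul_mem _ _
      (Submodule.subset_span ⟨ia, rfl⟩)
  exact ⟨Basis.mk hli hsp, fun ia => by rw [Basis.mk_apply]⟩

theorem d1_deep (bs : Basis ι (RatFunc k) K) (f : K) (F : Matrix ι ι k[X])
    (hF : ∀ a b, bs.repr (phi (k := k) f (bs a)) b = algebraMap k[X] (RatFunc k) (F b a)) (B : ℕ)
    (hM : St (phi (k := k) f) (polyL bs))
    (hJ : St (phi (k := k) f) (infL bs (fun _ => -((B : ℤ) + 1)))) :
    d1 (phi (k := k) f) hM hJ = (Th B (Fintype.card k) F).charpolyRev := by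
  obtain ⟨v, hv⟩ := exists_basis bs B
  rw [d1_eq_chr, chr_toMatrix v]
  congr 1
  ext1 jb ia
  rw [LinearMap.toMatrix_apply]
  have key : Submodule.mapQ (polyL bs ⊔ infL bs (fun _ => -((B : ℤ) + 1)))
      (polyL bs ⊔ infL bs (fun _ => -((B : ℤ) + 1))) (phi (k := k) f) (hM.sup hJ) (v ia)
      = ∑ jb, Th B (Fintype.card k) F jb ia • v jb := by
    have h0 : Submodule.mapQ (polyL bs ⊔ infL bs (fun _ => -((B : ℤ) + 1)))
      (polyL bs ⊔ infL bs (fun _ => -((B : ℤ) + 1))) (phi (k := k) f) (hM.sup hJ) (v ia)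
      = Submodule.Quotient.mk (phi (k := k) f
        ((RatFunc.X ^ (-(((ia.1 : ℕ) : ℤ) + 1)) : RatFunc k) • bs ia.2)) := by
      rw [hv]
      rfl
    rw [h0]
    have h1 : ∑ jb, Th B (Fintype.card k) F jb ia • v jb
        = Submodule.Quotient.mk (∑ jb : Fin B × ι, Th B (Fintype.card k) F jb ia •
          ((RatFunc.X ^ (-(((jb.1 : ℕ) : ℤ) + 1)) : RatFunc k) • bs jb.2)) := by
      rw [← Submodule.mkQ_apply, map_sum]
      refine Finset.sum_congr rfl fun jb _ => ?_
      rw [hv, map_smul, Submodule.mkQ_apply]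
    rw [h1, Submodule.Quotient.eq, mem_sup_iff]
    intro b
    rw [map_sub, Finsupp.sub_apply, phi_smul, map_smul, Finsupp.smul_apply, hF, smul_eq_mul]
    have h2 : bs.repr (∑ jb : Fin B × ι, Th B (Fintype.card k) F jb ia •
          ((RatFunc.X ^ (-(((jb.1 : ℕ) : ℤ) + 1)) : RatFunc k) • bs jb.2)) b
        = ∑ j ∈ Finset.range B, (if j + 1 ≤ Fintype.card k * ((ia.1 : ℕ) + 1) then
            (F b ia.2).coeff (Fintype.card k * ((ia.1 : ℕ) + 1) - (j + 1)) else 0) •
            (RatFunc.X ^ (-((j : ℤ) + 1)) : RatFunc k) := by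
      rw [← Fin.sum_univ_eq_sum_range (fun j => (if j + 1 ≤ Fintype.card k * ((ia.1 : ℕ) + 1) then
            (F b ia.2).coeff (Fintype.card k * ((ia.1 : ℕ) + 1) - (j + 1)) else 0) •
            (RatFunc.X ^ (-((j : ℤ) + 1)) : RatFunc k)) B]
      rw [map_sum, Finsupp.finsetSum_apply, Fintype.sum_prod_type]
      refine Finset.sum_congr rfl fun j _ => ?_
      have h3 : ∀ b' : ι, bs.repr (Th B (Fintype.card k) F (j, b') ia •
          ((RatFunc.X ^ (-(((j : ℕ) : ℤ) + 1)) : RatFunc k) • bs b')) b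
          = if b' = b then Th B (Fintype.card k) F (j, b') ia •
            (RatFunc.X ^ (-(((j : ℕ) : ℤ) + 1)) : RatFunc k) else 0 := by
        intro b'
        rw [← smul_assoc, map_smul, Finsupp.smul_apply, bs.repr_self, Finsupp.single_apply]
        split_ifs <;> simp
      simp only [h3]
      rw [Finset.sum_ite_eq' Finset.univ b, if_pos (Finset.mem_univ _)]
      rfl
    rw [h2]
    have h4 : (RatFunc.X ^ (-(((ia.1 : ℕ) : ℤ) + 1)) : RatFunc k) ^ Fintype.card k
        = RatFunc.X ^ (-((Fintype.card k * ((ia.1 : ℕ) + 1) : ℕ) : ℤ)) := by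
      rw [← zpow_natCast, ← zpow_mul]
      congr 1
      push_cast
      ring
    rw [h4]
    exact mul_poly_mem B _ (F b ia.2)
  rw [key, v.repr_sum_self]

end Lattice

end Crest.Agent.R013.CntT2b_262
end

-- ▼ part R013/CntT2c_262
section

/-!
# R013 / CNT T2: the congruence `∏_{deg P ≤ m} (1 - χ_f(P) T^deg P) det(1-TΦ|H¹(E)) = det(1-TΦ|H⁰(E))`
modulo `T^(m+1)` (helper262)
-/

set_option autoImplicit false
set_option linter.unusedSectionVars false

namespace Crest.Agent.R013.CntT2c_262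

open Polynomial WithZero Module IsDedekindDomain nonZeroDivisors
open Crest.Agent.R013.RR1_948 Crest.Agent.R013.RR2_948 Crest.Agent.R013.RR3_948
open Crest.Agent.R013.RR4_948 Crest.Agent.R013.RR5_948 Crest.Agent.R013.RR6_948
open Crest.Agent.R013.RR7_948 Crest.Agent.R013.RR8_948 Crest.Agent.R013.RR9_948
open Crest.Agent.R013.RR11_948
open Crest.Agent.R013.CntChr_262 Crest.Agent.R013.CntLoc_262 Crest.Agent.R013.CntT2a_262
open Crest.Agent.R013.CntT1_262 Crest.Agent.R013.CntT2b_262

attribute [local instance] algO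

section Bases

variable {k : Type*} [Field k] {ι : Type*} [Fintype ι] [DecidableEq ι]
  {K : Type*} [Field K] [Algebra k K] [Algebra (RatFunc k) K] [IsScalarTower k (RatFunc k) K]

theorem exists_bound (b c : Basis ι (RatFunc k) K) :
    ∃ M : ℕ, ∀ i j, vinf k (c.repr (b j) i) ≤ exp (M : ℤ) := by
  have h : ∀ ij : ι × ι, ∃ n : ℕ, vinf k (c.repr (b ij.2) ij.1) ≤ exp (n : ℤ) := by
    intro ij
    by_cases h0 : c.repr (b ij.2) ij.1 = 0
    · exact ⟨0, by rw [h0, map_zero]; exact zero_le⟩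
    · obtain ⟨n, hn⟩ := vinf_exp k h0
      exact ⟨n.toNat, by rw [hn, exp_le_exp]; exact Int.self_le_toNat n⟩
  choose n hn using h
  refine ⟨∑ ij, n ij, fun i j => (hn (i, j)).trans ?_⟩
  rw [exp_le_exp]
  exact_mod_cast Finset.single_le_sum (fun _ _ => Nat.zero_le _) (Finset.mem_univ (i, j))

theorem change_bound (b c : Basis ι (RatFunc k) K) (M : ℕ)
    (h : ∀ i j, vinf k (c.repr (b j) i) ≤ exp (M : ℤ)) (x : K) (d : ℤ)
    (hx : ∀ j, vinf k (b.repr x j) ≤ exp d) (i : ι) : vinf k (c.repr x i) ≤ exp (d + M) := by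
  have h1 : c.repr x i = ∑ j, b.repr x j * c.repr (b j) i := by
    conv_lhs => rw [← b.sum_repr x]
    rw [map_sum, Finsupp.finsetSum_apply]
    refine Finset.sum_congr rfl fun j _ => ?_
    rw [map_smul, Finsupp.smul_apply, smul_eq_mul]
  rw [h1]
  refine Valuation.map_sum_le _ fun j _ => ?_
  rw [map_mul, exp_add]
  exact mul_le_mul' (hx j) (h i j)

end Bases

section Global

variable {k : Type*} [Field k] [Fintype k] {K : Type*} [Field K] [Algebra k K]
  [Algebra (RatFunc k) K]
  [IsScalarTower k (RatFunc k) K] [FiniteDimensional (RatFunc k) K]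
  [Algebra.IsSeparable (RatFunc k) K]
  [Algebra k[X] K] [IsScalarTower k[X] (RatFunc k) K]
  (A₀ : Type*) [CommRing A₀] [IsDedekindDomain A₀] [Algebra k A₀] [Algebra A₀ K]
  [IsScalarTower k A₀ K] [IsFractionRing A₀ K] [Algebra k[X] A₀]
  [IsScalarTower k[X] A₀ K] [IsIntegralClosure A₀ k[X] K]
  (A₁ : Type*) [CommRing A₁] [IsDedekindDomain A₁] [Algebra k A₁] [Algebra A₁ K]
  [IsScalarTower k A₁ K] [IsFractionRing A₁ K] [Algebra (Rinf k) A₁]
  [IsScalarTower (Rinf k) A₁ K] [IsIntegralClosure A₁ (Rinf k) K]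

variable (k K) in
/-- `x^(q^n) - x` in `K` -/
noncomputable def hx (n : ℕ) : K := xK k K ^ (Fintype.card k ^ n) - xK k K

theorem hx_eq (n : ℕ) :
    hx k K n = algebraMap (RatFunc k) K (algebraMap k[X] (RatFunc k) (X ^ (Fintype.card k ^ n) - X)) := by
  unfold hx xK
  rw [map_sub, map_sub, map_pow, map_pow, RatFunc.algebraMap_X]

theorem hx_ne_zero {n : ℕ} (hn : 1 ≤ n) : hx k K n ≠ 0 := by
  rw [hx_eq]
  have h1 : (X ^ (Fintype.card k ^ n) - X : k[X]) ≠ 0 := by
    have hq : 2 ≤ Fintype.card k := Fintype.one_lt_card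
    have h2 : 2 ≤ Fintype.card k ^ n := by
      calc 2 ≤ Fintype.card k := hq
        _ ≤ Fintype.card k ^ n := Nat.le_self_pow (by omega) _
    intro h
    have h3 := congrArg (fun p => p.coeff 1) h
    simp only [coeff_sub, coeff_X_pow, coeff_X_one, coeff_zero] at h3
    rw [if_neg (by omega)] at h3
    simp at h3
  rw [ne_eq, FaithfulSMul.algebraMap_eq_zero_iff, FaithfulSMul.algebraMap_eq_zero_iff]
  exact h1

/-- places of degree `n` at finite distance are zeros of `x^(q^n) - x` -/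
theorem v_hx_lt (P : Pl k K) (hdeg : degE P = degP P) (hP : P.v (xK k K) ≤ 1) :
    P.v (hx k K (degP P)) < 1 := by
  obtain ⟨hfin, hrank⟩ := finrank_Kap P hdeg
  have hκ : Finite (Kap P) := Module.finite_of_finite k
  have := Fintype.ofFinite (Kap P)
  have hcard : Fintype.card (Kap P) = Fintype.card k ^ degP P := by
    rw [← hrank]; exact Module.card_eq_pow_finrank
  let x : P.v.valuationSubring := ⟨xK k K, hP⟩
  have h1 : IsLocalRing.residue P.v.valuationSubring (x ^ (Fintype.card k ^ degP P) - x) = 0 := by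
    rw [map_sub, map_pow, ← hcard, FiniteField.pow_card, sub_self]
  rw [CntLoc_262.residue_eq_zero_iff] at h1
  exact h1

variable (k K) in
/-- the depth function -/
noncomputable def bb (m : ℕ) : Pl k K →₀ ℕ :=
  (divf (k := k) (xK k K)).mapRange Int.natAbs rfl
    + ∑ n ∈ Finset.Icc 1 m, (divf (k := k) (hx k K n)).mapRange Int.natAbs rfl

theorem bb_apply (m : ℕ) (P : Pl k K) : bb k K m P = (divf (k := k) (xK k K) P).natAbs
    + ∑ n ∈ Finset.Icc 1 m, (divf (k := k) (hx k K n) P).natAbs := by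
  unfold bb
  rw [Finsupp.add_apply, Finsupp.mapRange_apply, Finsupp.finsetSum_apply]
  congr 1

theorem le_bb_x (m : ℕ) (P : Pl k K) : |divf (k := k) (xK k K) P| ≤ bb k K m P := by
  rw [bb_apply, Int.abs_eq_natAbs]
  exact_mod_cast Nat.le_add_right _ _

theorem le_bb_h (m n : ℕ) (hn : 1 ≤ n) (hnm : n ≤ m) (P : Pl k K) :
    |divf (k := k) (hx k K n) P| ≤ bb k K m P := by
  rw [bb_apply, Int.abs_eq_natAbs]
  have h1 : (divf (k := k) (hx k K n) P).natAbs
      ≤ ∑ n ∈ Finset.Icc 1 m, (divf (k := k) (hx k K n) P).natAbs :=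
    Finset.single_le_sum (f := fun n => (divf (k := k) (hx k K n) P).natAbs)
      (fun _ _ => Nat.zero_le _) (Finset.mem_Icc.mpr ⟨hn, hnm⟩)
  exact_mod_cast h1.trans (Nat.le_add_left _ _)

theorem bb_pos (m : ℕ) (P : Pl k K) (hP : degP P ≤ m) : 1 ≤ bb k K m P := by
  have hdeg := degE_eq P
  have hpos := degP_pos P
  rcases le_or_gt (P.v (xK k K)) 1 with h | h
  · have h1 := v_hx_lt P hdeg h
    rw [v_eq (hx_ne_zero hpos), ← exp_zero, exp_lt_exp] at h1
    have h2 := le_bb_h m (degP P) hpos hP P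
    have h3 : 1 ≤ |divf (k := k) (hx k K (degP P)) P| := by
      rw [Int.abs_eq_natAbs]; omega
    exact_mod_cast h3.trans h2
  · rw [v_eq xK_ne_zero, ← exp_zero, exp_lt_exp] at h
    have h2 := le_bb_x m P
    have h3 : 1 ≤ |divf (k := k) (xK k K) P| := by
      rw [Int.abs_eq_natAbs]; omega
    exact_mod_cast h3.trans h2

/-- deep lattices: `D1 ≡ D0` modulo `T^(m+1)` -/
theorem deep {f : K} {E D : Pl k K →₀ ℤ} (m : ℕ)
    (hE : ∀ P : Pl k K, P.v f ≤ exp (-((Fintype.card k - 1 : ℤ) * E P)))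
    (hD : ∀ P, D P = E P - bb k K m P) (hG : Good f D) :
    ∃ R : k[X], D1 A₀ A₁ hG = D0 A₀ A₁ hG * R ∧ X ^ (m + 1) ∣ R - 1 := by
  classical
  have hq : 2 ≤ Fintype.card k := Fintype.one_lt_card
  have hqz : (2 : ℤ) ≤ Fintype.card k := by exact_mod_cast hq
  obtain ⟨bs, hbs⟩ := exists_basis_fid k[X] (RatFunc k) K (cut A₀ D)
  obtain ⟨cs, hcs⟩ := exists_basis_fid (Rinf k) (RatFunc k) K (cut A₁ D)
  have hM : NA A₀ D = polyL bs := by
    ext x
    have h1 : x ∈ NA A₀ D ↔ x ∈ Submodule.span k[X] (Set.range bs) := by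
      rw [hbs]; rfl
    rw [h1, bs.mem_span_iff_repr_mem k[X], mem_polyL]
    refine forall_congr' fun j => ?_
    rw [mem_polyS]
  have hN : ∀ x, x ∈ NA A₁ D ↔ ∀ i, vinf k (cs.repr x i) ≤ 1 := by
    intro x
    have h1 : x ∈ NA A₁ D ↔ x ∈ Submodule.span (Rinf k) (Set.range cs) := by
      rw [hcs]; rfl
    rw [h1, cs.mem_span_iff_repr_mem (Rinf k)]
    refine forall_congr' fun j => ?_
    constructor
    · rintro ⟨s, hs⟩; rw [← hs]; exact s.2
    · intro h; exact ⟨⟨_, h⟩, rfl⟩
  -- the matrix of `Φ`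
  have hmemb : ∀ a, bs a ∈ NA A₀ D := by
    intro a
    rw [hM, mem_polyL]
    intro j
    rw [bs.repr_self, Finsupp.single_apply]
    split_ifs
    · exact one_mem_polyS
    · exact Submodule.zero_mem _
  have hF0 : ∀ a b, ∃ p : k[X], algebraMap k[X] (RatFunc k) p = bs.repr (phi (k := k) f (bs a)) b := by
    intro a b
    have h1 := st_NA A₀ hG _ (hmemb a)
    rw [hM, mem_polyL] at h1
    exact (mem_polyS k).mp (h1 b)
  choose F' hF' using hF0
  let F : Matrix (Fin (finrank (RatFunc k) K)) (Fin (finrank (RatFunc k) K)) k[X] :=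
    Matrix.of fun b a => F' a b
  have hF : ∀ a b, bs.repr (phi (k := k) f (bs a)) b = algebraMap k[X] (RatFunc k) (F b a) :=
    fun a b => (hF' a b).symm
  -- divisibility
  have hdvd : ∀ n, 1 ≤ n → n ≤ m → ∀ b a, (X ^ (Fintype.card k ^ n) - X : k[X]) ∣ F b a := by
    intro n hn hnm b a
    have h0 := hx_ne_zero (k := k) (K := K) hn
    have h1 : phi (k := k) f (bs a) / hx k K n ∈ NA A₀ D := by
      rw [mem_NA]
      intro w
      have h2 := mem_NA.mp (hmemb a) w
      have h3 := hE (ofH w)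
      have h4 := le_bb_h m n hn hnm (ofH w : Pl k K)
      have h5 := hD (ofH w)
      rw [map_div₀, v_eq h0, phi_apply, map_mul, map_pow]
      rw [div_le_iff₀ (by simp), ← exp_add]
      calc (ofH w : Pl k K).v f * (ofH w : Pl k K).v (bs a) ^ Fintype.card k
          ≤ exp (-((Fintype.card k - 1 : ℤ) * E (ofH w))) * exp (D (ofH w)) ^ Fintype.card k :=
            mul_le_mul' h3 (pow_le_pow_left₀ zero_le h2 _)
        _ = exp (-((Fintype.card k - 1 : ℤ) * E (ofH w)) + Fintype.card k * D (ofH w)) := by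
            rw [← exp_nsmul, ← exp_add, nsmul_eq_mul]
        _ ≤ _ := by
            rw [exp_le_exp]
            have h6 := le_abs_self (divf (k := k) (hx k K n) (ofH w))
            have h7 := abs_nonneg (divf (k := k) (hx k K n) (ofH w))
            nlinarith
    rw [hM, mem_polyL] at h1
    obtain ⟨p, hp⟩ := (mem_polyS k).mp (h1 b)
    have h2 : bs.repr (phi (k := k) f (bs a) / hx k K n) b
        = (algebraMap k[X] (RatFunc k) (X ^ (Fintype.card k ^ n) - X))⁻¹
          * bs.repr (phi (k := k) f (bs a)) b := by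
      have h3 : phi (k := k) f (bs a) / hx k K n
          = ((algebraMap k[X] (RatFunc k) (X ^ (Fintype.card k ^ n) - X))⁻¹ : RatFunc k)
            • phi (k := k) f (bs a) := by
        rw [Algebra.smul_def, map_inv₀, ← hx_eq, div_eq_mul_inv, mul_comm]
      rw [h3, map_smul, Finsupp.smul_apply, smul_eq_mul]
    have h4 : algebraMap k[X] (RatFunc k) (X ^ (Fintype.card k ^ n) - X) ≠ 0 := by
      intro h
      apply h0
      rw [hx_eq, h, map_zero]
    rw [h2, hF] at hp
    refine ⟨p, ?_⟩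
    apply FaithfulSMul.algebraMap_injective k[X] (RatFunc k)
    rw [map_mul, hp, mul_inv_cancel_left₀ h4]
  -- bounds
  obtain ⟨M₁, hM₁⟩ := exists_bound bs cs
  obtain ⟨M₂, hM₂⟩ := exists_bound cs bs
  obtain ⟨B, hB, hBM⟩ : ∃ B : ℕ, (∀ b a, (F b a).natDegree < (Fintype.card k - 1) * (B + 1)) ∧
      M₁ ≤ B := by
    refine ⟨M₁ + ∑ ba : Fin (finrank (RatFunc k) K) × Fin (finrank (RatFunc k) K),
      (F ba.1 ba.2).natDegree, fun b a => ?_, Nat.le_add_right _ _⟩
    have h1 : (F b a).natDegree ≤ ∑ ba : Fin (finrank (RatFunc k) K) × Fin (finrank (RatFunc k) K),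
      (F ba.1 ba.2).natDegree :=
      Finset.single_le_sum (f := fun ba : Fin (finrank (RatFunc k) K) ×
        Fin (finrank (RatFunc k) K) => (F ba.1 ba.2).natDegree) (fun _ _ => Nat.zero_le _)
        (Finset.mem_univ (b, a))
    set S := ∑ ba : Fin (finrank (RatFunc k) K) × Fin (finrank (RatFunc k) K),
      (F ba.1 ba.2).natDegree
    calc (F b a).natDegree ≤ S := h1
      _ < M₁ + S + 1 := by omega
      _ ≤ (Fintype.card k - 1) * (M₁ + S + 1) := Nat.le_mul_of_pos_left _ (by omega)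
  have hstM : St (phi (k := k) f) (polyL bs) := by rw [← hM]; exact st_NA A₀ hG
  have hstJ : St (phi (k := k) f) (infL bs (fun _ => -((B : ℤ) + 1))) :=
    st_infL bs f F hF B hB
  have hstN := st_NA A₁ hG
  have hJN : infL bs (fun _ => -((B : ℤ) + 1)) ≤ NA A₁ D := by
    intro x hx
    rw [mem_infL] at hx
    rw [hN]
    intro i
    refine (change_bound bs cs M₁ hM₁ x _ hx i).trans ?_
    rw [← exp_zero, exp_le_exp]
    omega
  have hindex := d_index (phi (k := k) f) hstM hstJ hstN hJN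
  have hd1 := d1_deep bs f F hF B hstM hstJ
  have hd0 : d0 (phi (k := k) f) hstM hstJ = 1 := d0_of_inf_eq_bot _ _ _ (inf_eq_bot bs B)
  -- finiteness of `N / J`
  have hfin : Module.Finite k (NA A₁ D ⧸ (infL bs (fun _ => -((B : ℤ) + 1))).submoduleOf (NA A₁ D)) := by
    have hci := chi_index (polyL bs) hJN
    obtain ⟨⟨n₀, hn₀⟩, _, _⟩ := duality_NA A₀ A₁ D
    rw [hM] at hn₀
    obtain ⟨v, _⟩ := exists_basis bs B
    have h2 : Module.Finite k (K ⧸ (polyL bs ⊔ infL bs (fun _ => -((B : ℤ) + 1)))) :=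
      Module.Finite.of_basis v
    have h3 : RR1_948.h1 (polyL bs) (infL bs (fun _ => -((B : ℤ) + 1)))
        = (finrank k (K ⧸ (polyL bs ⊔ infL bs (fun _ => -((B : ℤ) + 1)))) : ℕ) := by
      unfold RR1_948.h1
      rw [Module.length_eq_finrank]
    rw [hn₀, h3] at hci
    have h4 : ri (infL bs (fun _ => -((B : ℤ) + 1))) (NA A₁ D) ≠ ⊤ := by
      intro h5
      rw [h5, add_top] at hci
      exact ENat.natCast_ne_top _ (by push_cast; exact hci)
    obtain ⟨n, hn⟩ := ENat.ne_top_iff_exists.mp h4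
    exact (RR10_948.finite_of_length (n := n) hn.symm).1
  have hnil : ∀ j : ℕ, ∀ s ∈ NA A₁ D, ∀ w : HeightOneSpectrum A₁,
      (ofH w : Pl k K).v ((phi (k := k) f ^ j) s)
        ≤ exp (D (ofH w) + j * divf (k := k) (xK k K) (ofH w)) := by
    intro j
    induction j with
    | zero =>
      intro s hs w
      simpa using mem_NA.mp hs w
    | succ j ih =>
      intro s hs w
      have h1 := ih s hs w
      have h2 := hE (ofH w)
      have h3 := le_bb_x m (ofH w : Pl k K)
      have h4 := hD (ofH w)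
      have h5 := ofH₁_lt (k := k) (K := K) w
      rw [v_eq xK_ne_zero, ← exp_zero, exp_lt_exp] at h5
      rw [pow_succ', Module.End.mul_apply, phi_apply, map_mul, map_pow]
      calc (ofH w : Pl k K).v f * (ofH w : Pl k K).v ((phi (k := k) f ^ j) s) ^ Fintype.card k
          ≤ exp (-((Fintype.card k - 1 : ℤ) * E (ofH w)))
            * exp (D (ofH w) + j * divf (k := k) (xK k K) (ofH w)) ^ Fintype.card k :=
            mul_le_mul' h2 (pow_le_pow_left₀ zero_le h1 _)
        _ = exp (-((Fintype.card k - 1 : ℤ) * E (ofH w)) + Fintype.card k *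
              (D (ofH w) + j * divf (k := k) (xK k K) (ofH w))) := by
            rw [← exp_nsmul, ← exp_add, nsmul_eq_mul]
        _ ≤ _ := by
            rw [exp_le_exp]
            have h6 := neg_abs_le (divf (k := k) (xK k K) (ofH w))
            set d := divf (k := k) (xK k K) (ofH w)
            set q : ℤ := (Fintype.card k : ℤ)
            have h7 : E (ofH w) = D (ofH w) + bb k K m (ofH w) := by omega
            rw [h7]
            have h8 : -d ≤ bb k K m (ofH w) := by omega
            have h9 : (0 : ℤ) ≤ j := by positivity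
            have h10 : (0 : ℤ) ≤ -d := by omega
            push_cast
            nlinarith [mul_nonneg h9 h10, mul_nonneg (mul_nonneg h9 h10) (by linarith : (0:ℤ) ≤ q - 1),
              mul_nonneg (by linarith : (0:ℤ) ≤ q - 2) (by omega : (0:ℤ) ≤ bb k K m (ofH w))]
  have hdq : dq (phi (k := k) f) hstJ hstN = 1 := by
    refine dq_nilpotent _ _ _ hfin (M₂ + B + 1) fun s hs => ?_
    set j := M₂ + B + 1
    have h1 := hnil j s hs
    -- `X^j Φ^j s ∈ N`
    have h2 : (RatFunc.X ^ j : RatFunc k) • (phi (k := k) f ^ j) s ∈ NA A₁ D := by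
      rw [mem_NA]
      intro w
      rw [Algebra.smul_def, map_mul, map_pow, map_pow]
      have h3 : (ofH w : Pl k K).v (algebraMap (RatFunc k) K RatFunc.X)
          = exp (-divf (k := k) (xK k K) (ofH w)) := v_eq (k := k) xK_ne_zero (ofH w : Pl k K)
      rw [h3, ← exp_nsmul]
      calc _ ≤ exp (j • -divf (k := k) (xK k K) (ofH w))
            * exp (D (ofH w) + j * divf (k := k) (xK k K) (ofH w)) := mul_le_mul_right (h1 w) _
        _ = exp (D (ofH w)) := by
            rw [← exp_add]; congr 1; rw [nsmul_eq_mul]; ring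
    rw [hN] at h2
    rw [mem_infL]
    intro l
    have h3 : ∀ i, vinf k (cs.repr ((phi (k := k) f ^ j) s) i) ≤ exp (-(j : ℤ)) := by
      intro i
      have h4 := h2 i
      rw [map_smul, Finsupp.smul_apply, smul_eq_mul, map_mul, map_pow, vinf_X, ← exp_nsmul] at h4
      have h5 : (1 : ℤᵐ⁰) = exp (j • (1 : ℤ)) * exp (-(j : ℤ)) := by
        rw [← exp_add]; simp
      rw [h5] at h4
      exact (mul_le_mul_iff_right₀ (by simp)).mp h4
    refine (change_bound cs bs M₂ hM₂ _ _ h3 l).trans ?_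
    rw [exp_le_exp]
    omega
  rw [hd0, hdq, hd1, one_mul, mul_one] at hindex
  refine ⟨(Th B (Fintype.card k) F).charpolyRev, ?_, ?_⟩
  · unfold D0 D1
    rw [d0_congr _ (st_NA A₀ hG) (st_NA A₁ hG) hstM hstN hM rfl,
      d1_congr _ (st_NA A₀ hG) (st_NA A₁ hG) hstM hstN hM rfl]
    exact hindex.symm
  · obtain ⟨p, r, hchar, hp, hcard⟩ := FiniteField.card' k
    have : Fact p.Prime := ⟨hp⟩
    rw [Polynomial.X_pow_dvd_iff]
    intro n hn
    rw [coeff_sub]
    by_cases h0 : n = 0
    · subst h0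
      rw [Polynomial.coeff_zero_eq_eval_zero, Matrix.eval_charpolyRev]
      simp
    · rw [T1 p (Fintype.card k) hq F m B hdvd hB n (by omega) (by omega), coeff_one, if_neg h0,
        sub_zero]

/-- **(T2)** -/
theorem T2_charts {f : K} {E : Pl k K →₀ ℤ}
    (hE : ∀ P : Pl k K, P.v f = exp (-((Fintype.card k - 1 : ℤ) * E P)))
    (c : Pl k K → k) (hc : ∀ P, IsChi f E P (c P)) (hG : Good f E) (m : ℕ) :
    ∃ S : Finset (Pl k K), (∀ P : Pl k K, degP P ≤ m → P ∈ S) ∧
      X ^ (m + 1) ∣ D1 A₀ A₁ hG * ∏ P ∈ S, (1 - C (c P) * X ^ degP P) - D0 A₀ A₁ hG := by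
  classical
  let l : List (Pl k K) := (Finsupp.toMultiset (bb k K m)).toList
  have hcount : ∀ P, l.count P = bb k K m P := by
    intro P
    rw [← Multiset.coe_count, Multiset.coe_toList, Finsupp.count_toMultiset]
  have hl : ∀ P, low E l P = E P - bb k K m P := by
    intro P
    rw [low_apply, hcount]
  have hG' : Good f (low E l) := hG.mono fun P => by rw [hl]; omega
  obtain ⟨R, hR, hR1⟩ := deep A₀ A₁ m (fun P => (hE P).le) hl hG'
  refine ⟨l.toFinset, fun P hP => ?_, ?_⟩
  · rw [List.mem_toFinset, ← List.count_pos_iff, hcount]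
    exact bb_pos m P hP
  · have h1 := D_low A₀ A₁ hE c hc hG l hG'
    rw [hR] at h1
    have hne := D0_ne_zero A₀ A₁ hG'
    have h2 : D0 A₀ A₁ hG * R = D1 A₀ A₁ hG * ∏ P ∈ l.toFinset, (1 - C (c P) * X ^ degP P) := by
      apply mul_left_cancel₀ hne
      linear_combination h1
    rw [← h2]
    have h3 : D0 A₀ A₁ hG * R - D0 A₀ A₁ hG = D0 A₀ A₁ hG * (R - 1) := by ring
    rw [h3]
    exact Dvd.dvd.mul_left hR1 _

end Global

end Crest.Agent.R013.CntT2c_262
end

-- ▼ part R013/CntT3_262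
section

/-!
# R013 / CNT T3: chart-free form of T2, `A_(g-1)(χ_f) = ± det Φ`, Frobenius injective on all
`H¹(p^j E)` (helper262)
-/

set_option autoImplicit false
set_option linter.unusedSectionVars false
set_option linter.all false

namespace Crest.Agent.R013.CntT3_262

open Polynomial WithZero Module
open Crest.Agent.R013.RR1_948 Crest.Agent.R013.RR2_948
open Crest.Agent.R013.RR7_948 Crest.Agent.R013.RR8_948 Crest.Agent.R013.RR9_948
open Crest.Agent.R013.RR11_948
open Crest.Agent.R013.CntChr_262 Crest.Agent.R013.CntLoc_262 Crest.Agent.R013.CntT2a_262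
open Crest.Agent.R013.CntT2c_262 Crest.Agent.R013.CntF1_398 Crest.Agent.R013.PicD_398
open Crest.Agent.R013.CntA1_560

section Congr

variable {R : Type*} [CommRing R]

theorem dvd_mul_sub_one {x a b : R} (ha : x ∣ a - 1) (hb : x ∣ b - 1) : x ∣ a * b - 1 := by
  have : a * b - 1 = a * (b - 1) + (a - 1) := by ring
  rw [this]
  exact dvd_add (Dvd.dvd.mul_left hb _) ha

theorem dvd_prod_sub_one {ι : Type*} {x : R} (s : Finset ι) (a : ι → R)
    (h : ∀ i ∈ s, x ∣ a i - 1) : x ∣ (∏ i ∈ s, a i) - 1 := by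
  classical
  induction s using Finset.induction_on with
  | empty => simp
  | insert i s hi ih =>
    rw [Finset.prod_insert hi]
    exact dvd_mul_sub_one (h i (Finset.mem_insert_self _ _))
      (ih fun j hj => h j (Finset.mem_insert_of_mem hj))

end Congr

section Main

variable {k : Type*} [Field k] [Fintype k] {K : Type*} [Field K] [Algebra k K]
  [Algebra (RatFunc k) K]
  [IsScalarTower k (RatFunc k) K] [FiniteDimensional (RatFunc k) K]
  [Algebra.IsSeparable (RatFunc k) K]

theorem st_U0 {f : K} {E : Pl k K →₀ ℤ} (h : Good f E) : St (phi (k := k) f) (U0 E) := by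
  intro s hs
  rw [mem_U0] at hs ⊢
  intro P hP
  exact mem_ball.mp (st_ball P f (E P) (E P) (h P) le_rfl s (mem_ball.mpr (hs P hP)))

theorem st_U1 {f : K} {E : Pl k K →₀ ℤ} (h : Good f E) : St (phi (k := k) f) (U1 E) := by
  intro s hs
  rw [mem_U1] at hs ⊢
  intro P hP
  exact mem_ball.mp (st_ball P f (E P) (E P) (h P) le_rfl s (mem_ball.mpr (hs P hP)))

/-- `Φ_f : s ↦ f s^q` on `H¹(E) = K / (U0 E + U1 E)` -/
noncomputable def PhiH {f : K} {E : Pl k K →₀ ℤ} (h : Good f E) :
    (K ⧸ (U0 E ⊔ U1 E)) →ₗ[k] (K ⧸ (U0 E ⊔ U1 E)) :=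
  Submodule.mapQ _ _ (phi (k := k) f) ((st_U0 h).sup (st_U1 h))

theorem PhiH_mk {f : K} {E : Pl k K →₀ ℤ} (h : Good f E) (x : K) :
    PhiH h (Submodule.Quotient.mk x) = Submodule.Quotient.mk (phi (k := k) f x) := rfl

/-- the places of degree `≤ m` -/
noncomputable def pls (k K : Type*) [Field k] [Fintype k] [Field K] [Algebra k K]
    [Algebra (RatFunc k) K] [IsScalarTower k (RatFunc k) K] [FiniteDimensional (RatFunc k) K]
    [Algebra.IsSeparable (RatFunc k) K] (m : ℕ) : Finset (Pl k K) :=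
  (finite_degP_le (k := k) (K := K) m).toFinset

theorem mem_pls {m : ℕ} {P : Pl k K} : P ∈ pls k K m ↔ degP P ≤ m := by
  unfold pls
  rw [Set.Finite.mem_toFinset]
  rfl

theorem good_of_divf {f : K} (hf : f ≠ 0) {E : Pl k K →₀ ℤ}
    (hE : divf (k := k) f = (Fintype.card k - 1) • E) (P : Pl k K) :
    P.v f = exp (-((Fintype.card k - 1 : ℤ) * E P)) := by
  rw [v_eq hf, hE, Finsupp.smul_apply, nsmul_eq_mul, Nat.cast_sub Fintype.card_pos]
  push_cast
  rfl

theorem good {f : K} (hf : f ≠ 0) {E : Pl k K →₀ ℤ}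
    (hE : divf (k := k) f = (Fintype.card k - 1) • E) : Good f E :=
  fun P => (good_of_divf hf hE P).le

theorem LD_eq_bot {D : Pl k K →₀ ℤ} (h : ell D = 0) : LD D = ⊥ := by
  have := LD_finite D
  unfold ell at h
  exact Submodule.finrank_eq_zero.mp h

/-- **(T2)**, chart-free form, for `ℓ(E) = 0` -/
theorem T2 {f : K} (hf : f ≠ 0) {E : Pl k K →₀ ℤ}
    (hE : divf (k := k) f = (Fintype.card k - 1) • E) (hell : ell E = 0)
    (c : Pl k K → k) (hc : ∀ P, IsChi f E P (c P)) (hG : Good f E) (m : ℕ) :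
    X ^ (m + 1) ∣ chr (PhiH hG) * ∏ P ∈ pls k K m, (1 - C (c P) * X ^ degP P) - 1 := by
  classical
  use_charts k, K
  obtain ⟨S, hS, h⟩ := T2_charts (integralClosure (Polynomial k) K) (integralClosure (Rinf k) K)
    (good_of_divf hf hE) c hc hG m
  have e0 := U0_eq_NA (integralClosure (Polynomial k) K) E
  have e1 := U1_eq_NA (integralClosure (Rinf k) K) E
  have h0 : D0 (integralClosure (Polynomial k) K) (integralClosure (Rinf k) K) hG = 1 := by
    unfold D0
    apply d0_of_inf_eq_bot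
    rw [← e0, ← e1, ← CntF1_398.LD_eq]
    exact LD_eq_bot hell
  have h1 : D1 (integralClosure (Polynomial k) K) (integralClosure (Rinf k) K) hG
      = chr (PhiH hG) := by
    unfold D1
    rw [d1_congr _ _ _ (st_U0 hG) (st_U1 hG) e0.symm e1.symm, d1_eq_chr]
    rfl
  rw [h0, h1] at h
  have hsub : pls k K m ⊆ S := fun P hP => hS P (mem_pls.mp hP)
  rw [← Finset.prod_sdiff hsub] at h
  set A := ∏ P ∈ pls k K m, (1 - C (c P) * X ^ degP P)
  set B := ∏ P ∈ S \ pls k K m, (1 - C (c P) * X ^ degP P)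
  have hB : X ^ (m + 1) ∣ B - 1 := by
    apply dvd_prod_sub_one
    intro P hP
    have h2 : ¬ degP P ≤ m := fun h3 => (Finset.mem_sdiff.mp hP).2 (mem_pls.mpr h3)
    have h3 : 1 - C (c P) * X ^ degP P - 1 = -C (c P) * X ^ degP P := by ring
    rw [h3]
    exact Dvd.dvd.mul_left (pow_dvd_pow _ (by omega)) _
  have h4 : chr (PhiH hG) * A - 1
      = (chr (PhiH hG) * (B * A) - 1) - chr (PhiH hG) * A * (B - 1) := by ring
  rw [h4]
  exact dvd_sub h (Dvd.dvd.mul_left hB _)

end Main

section Frob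

variable {k : Type*} [Field k] [Fintype k] {K : Type*} [Field K] [Algebra k K]
  [Algebra (RatFunc k) K]
  [IsScalarTower k (RatFunc k) K] [FiniteDimensional (RatFunc k) K]
  [Algebra.IsSeparable (RatFunc k) K]



instance finite_H (D : Pl k K →₀ ℤ) : Module.Finite k (K ⧸ (U0 D ⊔ U1 D)) :=
  RR23_948.finite_H1 D

theorem finrank_H (hc : algebraicClosure k K = ⊥) (hg : 1 ≤ gen k K) {D : Pl k K →₀ ℤ}
    (hdeg : degD D = 0) (hell : ell D = 0) : finrank k (K ⧸ (U0 D ⊔ U1 D)) = gen k K - 1 := by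
  have h1 : finrank k (K ⧸ (U0 D ⊔ U1 D)) = ell (canD k K - D) := RR23_948.finrank_H1 D
  have h2 := riemann_roch hc D
  rw [h1]
  rw [hell, hdeg] at h2
  push_cast at h2
  omega

theorem pow_mem_U {p : ℕ} [hp : Fact p.Prime] [CharP K p] {D : Pl k K →₀ ℤ} {x : K}
    (hx : x ∈ U0 D ⊔ U1 D) : x ^ p ∈ U0 (p • D) ⊔ U1 (p • D) := by
  obtain ⟨y, hy, z, hz, rfl⟩ := Submodule.mem_sup.mp hx
  rw [add_pow_char]
  exact Submodule.add_mem_sup (pow_mem_U0 hy p) (pow_mem_U1 hz p)

theorem pow_pow_mem_U {p : ℕ} [hp : Fact p.Prime] [CharP K p] {D : Pl k K →₀ ℤ} {x : K} (i : ℕ)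
    (hx : x ∈ U0 D ⊔ U1 D) : x ^ (p ^ i) ∈ U0 (p ^ i • D) ⊔ U1 (p ^ i • D) := by
  induction i with
  | zero => simpa using hx
  | succ i ih =>
    have h1 := pow_mem_U (p := p) ih
    rw [← pow_mul, smul_smul, ← pow_succ, ← pow_succ'] at h1
    exact h1

theorem mul_mem_U {D D' : Pl k K →₀ ℤ} {u x : K} (hu : ∀ P : Pl k K, P.v u ≤ exp (D' P - D P))
    (hx : x ∈ U0 D ⊔ U1 D) : u * x ∈ U0 D' ⊔ U1 D' := by
  obtain ⟨y, hy, z, hz, rfl⟩ := Submodule.mem_sup.mp hx
  rw [mul_add]
  refine Submodule.add_mem_sup ?_ ?_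
  · rw [mem_U0] at hy ⊢
    intro P hP
    rw [map_mul]
    calc _ ≤ exp (D' P - D P) * exp (D P) := mul_le_mul' (hu P) (hy P hP)
      _ = exp (D' P) := by rw [← exp_add]; congr 1; ring
  · rw [mem_U1] at hz ⊢
    intro P hP
    rw [map_mul]
    calc _ ≤ exp (D' P - D P) * exp (D P) := mul_le_mul' (hu P) (hz P hP)
      _ = exp (D' P) := by rw [← exp_add]; congr 1; ring

/-- injectivity of Frobenius gives surjectivity modulo the next lattice -/
theorem surj_of_inj {p : ℕ} [hp : Fact p.Prime] [CharP K p] (D : Pl k K →₀ ℤ)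
    (hrank : finrank k (K ⧸ (U0 D ⊔ U1 D)) = finrank k (K ⧸ (U0 (p • D) ⊔ U1 (p • D))))
    (hI : ∀ x : K, x ^ p ∈ U0 (p • D) ⊔ U1 (p • D) → x ∈ U0 D ⊔ U1 D) (y : K) :
    ∃ x : K, y - x ^ p ∈ U0 (p • D) ⊔ U1 (p • D) := by
  let F : (K ⧸ (U0 D ⊔ U1 D)) → (K ⧸ (U0 (p • D) ⊔ U1 (p • D))) := fun a =>
    Quotient.liftOn' a (fun x => (Submodule.Quotient.mk (x ^ p) : K ⧸ (U0 (p • D) ⊔ U1 (p • D))))
      (by
        intro x x' hxx
        have h1 : x - x' ∈ U0 D ⊔ U1 D := by
          have := (Submodule.quotientRel_def _).mp hxx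
          exact this
        have h2 := pow_mem_U (p := p) h1
        rw [sub_pow_char] at h2
        exact (Submodule.Quotient.eq _).mpr h2)
  have hF : ∀ x : K, F (Submodule.Quotient.mk x) = Submodule.Quotient.mk (x ^ p) := fun x => rfl
  have hfin1 : Finite (K ⧸ (U0 D ⊔ U1 D)) := Module.finite_of_finite k
  have hfin2 : Finite (K ⧸ (U0 (p • D) ⊔ U1 (p • D))) := Module.finite_of_finite k
  have hinj : Function.Injective F := by
    intro a b hab
    obtain ⟨a, rfl⟩ := Submodule.Quotient.mk_surjective _ a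
    obtain ⟨b, rfl⟩ := Submodule.Quotient.mk_surjective _ b
    rw [hF, hF, Submodule.Quotient.eq, ← sub_pow_char] at hab
    exact (Submodule.Quotient.eq _).mpr (hI _ hab)
  have hcard : Nat.card (K ⧸ (U0 D ⊔ U1 D)) = Nat.card (K ⧸ (U0 (p • D) ⊔ U1 (p • D))) := by
    have c1 := Module.natCard_eq_pow_finrank (K := k) (V := K ⧸ (U0 D ⊔ U1 D))
    have c2 := Module.natCard_eq_pow_finrank (K := k) (V := K ⧸ (U0 (p • D) ⊔ U1 (p • D)))
    rw [c1, c2, hrank]
  have hbij := (Nat.bijective_iff_injective_and_card F).mpr ⟨hinj, hcard⟩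
  obtain ⟨a, ha⟩ := hbij.2 (Submodule.Quotient.mk y)
  obtain ⟨x, rfl⟩ := Submodule.Quotient.mk_surjective _ a
  rw [hF] at ha
  exact ⟨x, (Submodule.Quotient.eq _).mp ha.symm⟩

/-- `Φ_f` injective on `H¹(E)` ⇒ Frobenius injective on all `H¹(p^j E)` -/
theorem FInj_all {p : ℕ} [hp : Fact p.Prime] [CharP K p] {r : ℕ} (hr : Fintype.card k = p ^ r)
    (hr1 : 1 ≤ r) {f : K} (hf : f ≠ 0)
    {E : Pl k K →₀ ℤ} (hE : divf (k := k) f = (Fintype.card k - 1) • E)
    (hrank : ∀ j : ℕ, finrank k (K ⧸ (U0 (p ^ j • E) ⊔ U1 (p ^ j • E)))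
      = finrank k (K ⧸ (U0 E ⊔ U1 E)))
    (hG : Good f E) (hinj : Function.Injective (PhiH hG)) (j : ℕ) :
    ∀ x : K, x ^ p ∈ U0 (p ^ (j + 1) • E) ⊔ U1 (p ^ (j + 1) • E) →
      x ∈ U0 (p ^ j • E) ⊔ U1 (p ^ j • E) := by
  have hq1 : 1 ≤ Fintype.card k := Fintype.card_pos
  -- `P j`
  have hv : ∀ (j : ℕ) (P : Pl k K), P.v (f ^ (p ^ j))
      ≤ exp ((p ^ j • E) P - (Fintype.card k • (p ^ j • E)) P) := by
    intro j P
    rw [map_pow, good_of_divf hf hE P, ← exp_nsmul]
    apply le_of_eq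
    congr 1
    simp only [Finsupp.smul_apply, nsmul_eq_mul]
    ring
  -- `P j → I j`
  have hPI : ∀ j : ℕ, (∀ x : K, f ^ (p ^ j) * x ^ Fintype.card k ∈ U0 (p ^ j • E) ⊔ U1 (p ^ j • E) →
      x ∈ U0 (p ^ j • E) ⊔ U1 (p ^ j • E)) →
      ∀ x : K, x ^ p ∈ U0 (p ^ (j + 1) • E) ⊔ U1 (p ^ (j + 1) • E) →
      x ∈ U0 (p ^ j • E) ⊔ U1 (p ^ j • E) := by
    intro j hP x hx
    apply hP
    apply mul_mem_U (hv j)
    have h1 := pow_pow_mem_U (p := p) (r - 1) hx
    rw [← pow_mul, ← pow_succ', smul_smul, Nat.sub_add_cancel hr1, ← hr] at h1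
    have h2 : p ^ (r - 1) * p ^ (j + 1) = Fintype.card k * p ^ j := by
      rw [hr, ← pow_add, ← pow_add]; congr 1; omega
    rw [h2, ← smul_smul] at h1
    exact h1
  have hall : ∀ j : ℕ, (∀ x : K, f ^ (p ^ j) * x ^ Fintype.card k ∈
      U0 (p ^ j • E) ⊔ U1 (p ^ j • E) → x ∈ U0 (p ^ j • E) ⊔ U1 (p ^ j • E)) := by
    intro j
    induction j with
    | zero =>
      intro x hx
      rw [pow_zero, pow_one, one_smul] at hx
      rw [pow_zero, one_smul]
      have h1 : PhiH hG (Submodule.Quotient.mk x) = 0 := by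
        rw [PhiH_mk, Submodule.Quotient.mk_eq_zero]
        exact hx
      have h2 := hinj (h1.trans (map_zero _).symm)
      exact (Submodule.Quotient.mk_eq_zero _).mp h2
    | succ j ih =>
      intro x hx
      have hI := hPI j ih
      have e : (p ^ (j + 1) • E : Pl k K →₀ ℤ) = p • (p ^ j • E) := by
        rw [smul_smul, pow_succ']
      rw [e] at hx hI ⊢
      obtain ⟨y, hy⟩ := surj_of_inj (p := p) (p ^ j • E)
        (by rw [hrank j, ← e, hrank (j + 1)]) hI x
      -- `f^(p^(j+1)) (x - y^p)^q` is in the lattice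
      have h1 : f ^ (p ^ (j + 1)) * (x - y ^ p) ^ Fintype.card k
          ∈ U0 (p • (p ^ j • E)) ⊔ U1 (p • (p ^ j • E)) := by
        rw [← e]
        apply mul_mem_U (hv (j + 1))
        rw [e]
        have h2 := pow_pow_mem_U (p := p) r hy
        rw [← hr] at h2
        exact h2
      have h2 : (x - y ^ p) ^ Fintype.card k = x ^ Fintype.card k - (y ^ p) ^ Fintype.card k := by
        rw [hr]
        exact sub_pow_char_pow x (y ^ p) r
      have h3 : (f ^ (p ^ j) * y ^ Fintype.card k) ^ p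
          ∈ U0 (p • (p ^ j • E)) ⊔ U1 (p • (p ^ j • E)) := by
        have h4 : (f ^ (p ^ j) * y ^ Fintype.card k) ^ p
            = f ^ (p ^ (j + 1)) * x ^ Fintype.card k
              - f ^ (p ^ (j + 1)) * (x - y ^ p) ^ Fintype.card k := by
          rw [h2, mul_pow, ← pow_mul, ← pow_succ, mul_sub]
          ring
        rw [h4]
        exact Submodule.sub_mem _ hx h1
      have h4 := ih y (hI _ h3)
      have h5 := pow_mem_U (p := p) h4
      have h6 : x = (x - y ^ p) + y ^ p := by ring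
      rw [h6]
      exact Submodule.add_mem _ hy h5
  exact hPI j (hall j)

end Frob

section Det

variable {k : Type*} [Field k]

theorem coeff_chr_finrank {M : Type*} [AddCommGroup M] [Module k M] [Module.Finite k M]
    (φ : M →ₗ[k] M) : (chr φ).coeff (finrank k M) = φ.charpoly.coeff 0 := by
  rw [chr_eq, Polynomial.coeff_reverse, LinearMap.charpoly_natDegree, revAt_le le_rfl, Nat.sub_self]

theorem injective_of_coeff {M : Type*} [AddCommGroup M] [Module k M] [Module.Finite k M]
    (φ : M →ₗ[k] M) (h : (chr φ).coeff (finrank k M) ≠ 0) : Function.Injective φ := by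
  rw [coeff_chr_finrank] at h
  rw [← LinearMap.ker_eq_bot]
  by_contra hcon
  apply h
  have h1 : LinearMap.det φ = 0 := by
    by_contra h2
    exact hcon (LinearMap.isUnit_iff_ker_eq_bot φ |>.mp
      ((LinearMap.isUnit_iff_isUnit_det φ).mpr (isUnit_iff_ne_zero.mpr h2)))
  have h2 := LinearMap.det_eq_sign_charpoly_coeff φ
  rw [h1] at h2
  rcases mul_eq_zero.mp h2.symm with h3 | h3
  · exact absurd h3 (pow_ne_zero _ (by norm_num))
  · exact h3

end Det

end Crest.Agent.R013.CntT3_262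
end

-- ▼ part R013/CntT4_262
section

/-!
# R013 / CNT T4: `A_(g-1)(χ_f) ≠ 0` ⇒ Frobenius is injective on all `H¹(p^j E)` (helper262)
-/

set_option autoImplicit false
set_option linter.unusedSectionVars false
set_option linter.all false

namespace Crest.Agent.R013.CntT4_262

open Polynomial WithZero Module
open Crest.Agent.R013.RR1_948 Crest.Agent.R013.RR2_948
open Crest.Agent.R013.RR7_948 Crest.Agent.R013.RR8_948 Crest.Agent.R013.RR9_948
open Crest.Agent.R013.RR11_948
open Crest.Agent.R013.CntChr_262 Crest.Agent.R013.CntLoc_262 Crest.Agent.R013.CntT2a_262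
open Crest.Agent.R013.CntT2c_262 Crest.Agent.R013.CntF1_398 Crest.Agent.R013.PicD_398
open Crest.Agent.R013.CntA1_560 Crest.Agent.R013.CntT3_262

variable {k : Type*} [Field k] [Fintype k] {K : Type*} [Field K] [Algebra k K]
  [Algebra (RatFunc k) K]
  [IsScalarTower k (RatFunc k) K] [FiniteDimensional (RatFunc k) K]
  [Algebra.IsSeparable (RatFunc k) K]

/-- the coefficients of the inverse `L` of the Euler product are those of `det (1 - TΦ | H¹(E))` -/
theorem coeff_chr_eq {f : K} (hf : f ≠ 0) {E : Pl k K →₀ ℤ}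
    (hE : divf (k := k) f = (Fintype.card k - 1) • E) (hell : ell E = 0)
    (c : Pl k K → k) (hc : ∀ P, IsChi f E P (c P)) (hG : Good f E) (m : ℕ) (L : k[X])
    (hL : X ^ (m + 1) ∣ (∏ P ∈ pls k K m, (1 - C (c P) * X ^ degP P)) * L - 1) (n : ℕ)
    (hn : n ≤ m) : (chr (PhiH hG)).coeff n = L.coeff n := by
  have h1 := T2 hf hE hell c hc hG m
  set A := ∏ P ∈ pls k K m, (1 - C (c P) * X ^ degP P)
  have h2 : X ^ (m + 1) ∣ chr (PhiH hG) - L := by
    have : chr (PhiH hG) - L = (chr (PhiH hG) * A - 1) * L - chr (PhiH hG) * (A * L - 1) := by ring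
    rw [this]
    exact dvd_sub (Dvd.dvd.mul_right h1 _) (Dvd.dvd.mul_left hL _)
  rw [Polynomial.X_pow_dvd_iff] at h2
  have h3 := h2 n (by omega)
  rw [coeff_sub] at h3
  exact sub_eq_zero.mp h3


theorem injective_PhiH (hcst : algebraicClosure k K = ⊥) (hg : 1 ≤ gen k K) {f : K} (hf : f ≠ 0)
    {E : Pl k K →₀ ℤ} (hE : divf (k := k) f = (Fintype.card k - 1) • E) (hdeg : degD E = 0)
    (hell : ell E = 0) (c : Pl k K → k) (hc : ∀ P, IsChi f E P (c P)) (L : k[X])
    (hL : X ^ (gen k K) ∣ (∏ P ∈ pls k K (gen k K - 1), (1 - C (c P) * X ^ degP P)) * L - 1)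
    (hcoef : L.coeff (gen k K - 1) ≠ 0) (hG : Good f E) : Function.Injective (PhiH hG) := by
  apply injective_of_coeff
  rw [finrank_H hcst hg hdeg hell, coeff_chr_eq hf hE hell c hc hG (gen k K - 1) L
    (by rwa [Nat.sub_add_cancel hg]) _ le_rfl]
  exact hcoef

/-- **(T4)** -/
theorem FInj_of_coeff (hcst : algebraicClosure k K = ⊥) (hg : 1 ≤ gen k K)
    {p : ℕ} [hp : Fact p.Prime] [CharP K p] {r : ℕ} (hr : Fintype.card k = p ^ r) (hr1 : 1 ≤ r)
    {f : K} (hf : f ≠ 0)
    {E : Pl k K →₀ ℤ} (hE : divf (k := k) f = (Fintype.card k - 1) • E) (hdeg : degD E = 0)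
    (hell : ∀ j : ℕ, ell (p ^ j • E) = 0) (c : Pl k K → k) (hc : ∀ P, IsChi f E P (c P)) (L : k[X])
    (hL : X ^ (gen k K) ∣ (∏ P ∈ pls k K (gen k K - 1), (1 - C (c P) * X ^ degP P)) * L - 1)
    (hcoef : L.coeff (gen k K - 1) ≠ 0) (j : ℕ) :
    ∀ x : K, x ^ p ∈ U0 (p ^ (j + 1) • E) ⊔ U1 (p ^ (j + 1) • E) →
      x ∈ U0 (p ^ j • E) ⊔ U1 (p ^ j • E) := by
  have hell0 : ell E = 0 := by have := hell 0; rwa [pow_zero, one_smul] at this
  have hinj := injective_PhiH hcst hg hf hE hdeg hell0 c hc L hL hcoef (good hf hE)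
  have hdegj : ∀ j : ℕ, degD (p ^ j • E) = 0 := by
    intro j
    have h1 : ∀ n : ℕ, degD (n • E) = n * degD E := by
      intro n
      induction n with
      | zero => simp [degD_zero]
      | succ n ih => rw [succ_nsmul, degD_add, ih]; push_cast; ring
    rw [h1, hdeg, mul_zero]
  refine FInj_all hr hr1 hf hE (fun j => ?_) (good hf hE) hinj j
  rw [finrank_H hcst hg (hdegj j) (hell j), finrank_H hcst hg hdeg hell0]

end Crest.Agent.R013.CntT4_262
end

-- ▼ part R013/Euler_127
section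

/-!
# R013 / Euler: the Euler product of `∑ A_n(ψ) X ^ n`, truncated (helper127)
-/

set_option autoImplicit false
set_option linter.all false

namespace Crest.Agent.R013.Euler_127

open Finset WithZero Module Polynomial
open Crest.Agent.R013.RR7_948 Crest.Agent.R013.RR8_948 Crest.Agent.R013.RR9_948
open Crest.Agent.R013.RR11_948 Crest.Agent.R013.RR12_948
open Crest.Agent.R013.PicD_398 Crest.Agent.R013.CntA1_560

variable {k K : Type*} [Field k] [Field K] [Algebra k K]
  [Algebra (RatFunc k) K] [IsScalarTower k (RatFunc k) K] [FiniteDimensional (RatFunc k) K]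
  [Algebra.IsSeparable (RatFunc k) K] [Finite k] {R : Type*} [CommRing R]

variable (k K) in
/-- effective divisors of degree at most `m` -/
noncomputable def effU (m : ℕ) : Finset (Pl k K →₀ ℤ) := by
  classical
  exact (range (m + 1)).biUnion fun n => eff (k := k) (K := K) (n : ℤ)

theorem mem_effU {m : ℕ} {D : Pl k K →₀ ℤ} : D ∈ effU k K m ↔ 0 ≤ D ∧ degD D ≤ m := by
  classical
  unfold effU
  rw [Finset.mem_biUnion]
  constructor
  · rintro ⟨n, hn, hD⟩
    rw [mem_eff] at hD
    rw [mem_range] at hn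
    exact ⟨hD.1, by rw [hD.2]; exact_mod_cast Nat.lt_succ_iff.mp hn⟩
  · rintro ⟨h0, h1⟩
    refine ⟨(degD D).toNat, ?_, ?_⟩
    · rw [mem_range]; omega
    · rw [mem_eff, Int.toNat_of_nonneg (degD_nonneg h0)]
      exact ⟨h0, rfl⟩

/-- the term of a divisor -/
noncomputable def term (ψ : AddChar (Pic k K) R) (D : Pl k K →₀ ℤ) : R[X] :=
  C (ψ (cls D)) * X ^ (degD D).toNat

/-- partial sum over divisors supported in `S` -/
noncomputable def ES (ψ : AddChar (Pic k K) R) (m : ℕ) (S : Finset (Pl k K)) : R[X] := by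
  classical
  exact ∑ D ∈ (effU k K m).filter (fun D => D.support ⊆ S), term ψ D

theorem term_add (ψ : AddChar (Pic k K) R) {D E : Pl k K →₀ ℤ} (hD : 0 ≤ D) (hE : 0 ≤ E) :
    term ψ (D + E) = term ψ D * term ψ E := by
  unfold term
  rw [map_add, AddChar.map_add_eq_mul, C_mul, degD_add,
    Int.toNat_add (degD_nonneg hD) (degD_nonneg hE), pow_add]
  ring

theorem single_nonneg (P : Pl k K) : (0 : Pl k K →₀ ℤ) ≤ Finsupp.single P 1 := by
  classical
  intro Q
  rw [Finsupp.single_apply, Finsupp.zero_apply]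
  split_ifs <;> norm_num

theorem term_single (ψ : AddChar (Pic k K) R) (P : Pl k K) :
    term ψ (Finsupp.single P 1) = C (ψ (cls (Finsupp.single P 1))) * X ^ degP P := by
  unfold term
  rw [degD_single, one_mul, Int.toNat_natCast]

theorem ES_empty (ψ : AddChar (Pic k K) R) (m : ℕ) : ES ψ m ∅ = 1 := by
  classical
  unfold ES
  have h1 : (effU k K m).filter (fun D => D.support ⊆ ∅) = {0} := by
    ext D
    rw [Finset.mem_filter, mem_effU, Finset.subset_empty, Finsupp.support_eq_empty,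
      Finset.mem_singleton]
    constructor
    · exact fun h => h.2
    · rintro rfl
      refine ⟨⟨le_rfl, ?_⟩, rfl⟩
      rw [degD_zero]; positivity
  rw [h1, Finset.sum_singleton]
  unfold term
  rw [map_zero, AddChar.map_zero_eq_one, degD_zero]
  simp

/-- one more place -/
theorem ES_insert (ψ : AddChar (Pic k K) R) (m : ℕ) {S S' : Finset (Pl k K)} {P : Pl k K}
    (hP : P ∉ S) (hS' : ∀ Q, Q ∈ S' ↔ Q = P ∨ Q ∈ S) :
    X ^ (m + 1) ∣ (1 - C (ψ (cls (Finsupp.single P 1))) * X ^ degP P) * ES ψ m S'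
      - ES ψ m S := by
  classical
  have hPS' : P ∈ S' := (hS' P).mpr (Or.inl rfl)
  have hSS' : S ⊆ S' := fun Q hQ => (hS' Q).mpr (Or.inr hQ)
  set A := (effU k K m).filter (fun D => D.support ⊆ S') with hA
  have hsplit : ES ψ m S' = ∑ D ∈ A.filter (fun D => D P = 0), term ψ D +
      ∑ D ∈ A.filter (fun D => ¬ D P = 0), term ψ D := by
    rw [Finset.sum_filter_add_sum_filter_not]
    unfold ES
    refine Finset.sum_congr ?_ fun _ _ => rfl
    ext D
    simp [hA]
  have h0 : ∑ D ∈ A.filter (fun D => D P = 0), term ψ D = ES ψ m S := by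
    unfold ES
    refine Finset.sum_congr ?_ fun _ _ => rfl
    ext D
    rw [Finset.mem_filter, Finset.mem_filter, Finset.mem_filter]
    constructor
    · rintro ⟨⟨h1, h2⟩, h3⟩
      refine ⟨h1, fun Q hQ => ?_⟩
      rcases (hS' Q).mp (h2 hQ) with rfl | h4
      · exact absurd h3 (Finsupp.mem_support_iff.mp hQ)
      · exact h4
    · rintro ⟨h1, h2⟩
      refine ⟨⟨h1, h2.trans hSS'⟩, ?_⟩
      by_contra h3
      exact hP (h2 (Finsupp.mem_support_iff.mpr h3))
  -- divisors containing `P`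
  set B := A.filter (fun D => degD D + degP P ≤ m) with hB
  have h1 : ∑ D ∈ A.filter (fun D => ¬ D P = 0), term ψ D =
      ∑ D ∈ B, term ψ D * term ψ (Finsupp.single P 1) := by
    symm
    refine Finset.sum_bij (fun D _ => D + Finsupp.single P 1) ?_ ?_ ?_ ?_
    · intro D hD
      rw [hB, Finset.mem_filter, hA, Finset.mem_filter, mem_effU] at hD
      obtain ⟨⟨⟨hD0, hD1⟩, hD2⟩, hD3⟩ := hD
      rw [Finset.mem_filter, hA, Finset.mem_filter, mem_effU]
      refine ⟨⟨⟨add_nonneg hD0 (single_nonneg P), ?_⟩, ?_⟩, ?_⟩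
      · rw [degD_add, degD_single, one_mul]; exact hD3
      · intro Q hQ
        rcases Finset.mem_union.mp (Finsupp.support_add hQ) with h | h
        · exact hD2 h
        · have := Finsupp.support_single_subset h
          rw [Finset.mem_singleton] at this
          rw [this]; exact hPS'
      · rw [Finsupp.add_apply, Finsupp.single_eq_same]
        have := hD0 P
        rw [Finsupp.zero_apply] at this
        omega
    · intro D _ E _ h
      exact add_right_cancel h
    · intro D hD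
      rw [Finset.mem_filter, hA, Finset.mem_filter, mem_effU] at hD
      obtain ⟨⟨⟨hD0, hD1⟩, hD2⟩, hD3⟩ := hD
      have hDP : 1 ≤ D P := by
        have := hD0 P
        rw [Finsupp.zero_apply] at this
        omega
      refine ⟨D - Finsupp.single P 1, ?_, sub_add_cancel _ _⟩
      rw [hB, Finset.mem_filter, hA, Finset.mem_filter, mem_effU]
      have hdeg : degD (D - Finsupp.single P 1) = degD D - degP P := by
        rw [degD_sub, degD_single, one_mul]
      have hpos : (0 : ℤ) ≤ degP P := by positivity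
      refine ⟨⟨⟨?_, ?_⟩, ?_⟩, ?_⟩
      · intro Q
        rw [Finsupp.zero_apply, Finsupp.sub_apply, Finsupp.single_apply]
        split_ifs with h
        · rw [← h]; omega
        · rw [sub_zero]; exact hD0 Q
      · rw [hdeg]; omega
      · intro Q hQ
        rw [Finsupp.mem_support_iff, Finsupp.sub_apply, Finsupp.single_apply] at hQ
        split_ifs at hQ with h
        · rw [← h]; exact hPS'
        · rw [sub_zero] at hQ
          exact hD2 (Finsupp.mem_support_iff.mpr hQ)
      · rw [hdeg]; omega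
    · intro D hD
      rw [hB, Finset.mem_filter, hA, Finset.mem_filter, mem_effU] at hD
      rw [term_add ψ hD.1.1.1 (single_nonneg P)]
  have h2 : ES ψ m S' = ∑ D ∈ B, term ψ D +
      ∑ D ∈ A.filter (fun D => ¬ (degD D + degP P ≤ m)), term ψ D := by
    rw [hB, Finset.sum_filter_add_sum_filter_not]
    unfold ES
    refine Finset.sum_congr ?_ fun _ _ => rfl
    ext D
    simp [hA]
  have h3 : (1 - C (ψ (cls (Finsupp.single P 1))) * X ^ degP P) * ES ψ m S' - ES ψ m S
      = - ∑ D ∈ A.filter (fun D => ¬ (degD D + degP P ≤ m)), term ψ D *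
        term ψ (Finsupp.single P 1) := by
    rw [sub_mul, one_mul, ← term_single]
    nth_rewrite 1 [hsplit]
    rw [h0, h1, h2, mul_add, Finset.mul_sum, Finset.mul_sum]
    have h4 : ∑ D ∈ B, term ψ D * term ψ (Finsupp.single P 1) =
        ∑ D ∈ B, term ψ (Finsupp.single P 1) * term ψ D :=
      Finset.sum_congr rfl fun D _ => mul_comm _ _
    have h5 : ∑ D ∈ A.filter (fun D => ¬ (degD D + degP P ≤ m)), term ψ D *
        term ψ (Finsupp.single P 1) = ∑ D ∈ A.filter (fun D => ¬ (degD D + degP P ≤ m)),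
        term ψ (Finsupp.single P 1) * term ψ D :=
      Finset.sum_congr rfl fun D _ => mul_comm _ _
    rw [h4, h5]
    ring
  rw [h3, dvd_neg]
  refine Finset.dvd_sum fun D hD => ?_
  rw [Finset.mem_filter, hA, Finset.mem_filter, mem_effU] at hD
  obtain ⟨⟨⟨hD0, hD1⟩, hD2⟩, hD3⟩ := hD
  rw [← term_add ψ hD0 (single_nonneg P)]
  unfold term
  refine Dvd.dvd.mul_left (pow_dvd_pow X ?_) _
  rw [degD_add, degD_single, one_mul]
  omega

theorem prod_ES (ψ : AddChar (Pic k K) R) (m : ℕ) (S : Finset (Pl k K)) :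
    X ^ (m + 1) ∣ (∏ P ∈ S, (1 - C (ψ (cls (Finsupp.single P 1))) * X ^ degP P)) * ES ψ m S
      - 1 := by
  classical
  induction S using Finset.induction_on with
  | empty => rw [Finset.prod_empty, one_mul, ES_empty, sub_self]; exact dvd_zero _
  | insert P S hP ih =>
    rw [Finset.prod_insert hP]
    have h1 := ES_insert ψ m hP (S' := insert P S) (fun Q => Finset.mem_insert)
    have h2 := (Dvd.dvd.mul_left h1
      (∏ P ∈ S, (1 - C (ψ (cls (Finsupp.single P 1))) * X ^ degP P))).add ih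
    refine (dvd_iff_dvd_of_dvd_sub ?_).mp h2
    have : (∏ P ∈ S, (1 - C (ψ (cls (Finsupp.single P 1))) * X ^ degP P)) *
        ((1 - C (ψ (cls (Finsupp.single P 1))) * X ^ degP P) * ES ψ m (insert P S) - ES ψ m S) +
        ((∏ P ∈ S, (1 - C (ψ (cls (Finsupp.single P 1))) * X ^ degP P)) * ES ψ m S - 1) -
        ((1 - C (ψ (cls (Finsupp.single P 1))) * X ^ degP P) *
          (∏ P ∈ S, (1 - C (ψ (cls (Finsupp.single P 1))) * X ^ degP P)) *
            ES ψ m (insert P S) - 1) = 0 := by ring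
    rw [this]
    exact dvd_zero _

/-- if `S` contains all places of degree at most `m`, the partial sum is complete -/
theorem ES_eq (ψ : AddChar (Pic k K) R) (m : ℕ) {S : Finset (Pl k K)}
    (hS : ∀ P : Pl k K, degP P ≤ m → P ∈ S) :
    ES ψ m S = ∑ n ∈ range (m + 1), C (An (fun z => ψ z) (n : ℤ)) * X ^ n := by
  classical
  have h1 : (effU k K m).filter (fun D => D.support ⊆ S) = effU k K m := by
    rw [Finset.filter_eq_self]
    intro D hD P hP
    rw [mem_effU] at hD
    apply hS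
    have h2 := mul_degP_le hD.1 P
    have h3 : 1 ≤ D P := by
      have := hD.1 P
      rw [Finsupp.zero_apply] at this
      have h4 := Finsupp.mem_support_iff.mp hP
      omega
    have h5 : (degP P : ℤ) ≤ D P * degP P := by
      have : (0 : ℤ) ≤ degP P := by positivity
      nlinarith
    have h6 := hD.2
    omega
  unfold ES
  rw [h1]
  unfold effU
  rw [Finset.sum_biUnion]
  · refine Finset.sum_congr rfl fun n _ => ?_
    unfold An
    rw [map_sum, Finset.sum_mul]
    refine Finset.sum_congr rfl fun D hD => ?_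
    rw [mem_eff] at hD
    unfold term
    rw [hD.2, Int.toNat_natCast]
  · intro i _ j _ hij
    rw [Function.onFun, Finset.disjoint_left]
    intro D hD hD'
    rw [mem_eff] at hD hD'
    have h2 := hD.2.symm.trans hD'.2
    exact hij (by exact_mod_cast h2)

/-- **truncated Euler product** -/
theorem euler (ψ : AddChar (Pic k K) R) (m : ℕ) {S : Finset (Pl k K)}
    (hS : ∀ P : Pl k K, degP P ≤ m → P ∈ S) :
    X ^ (m + 1) ∣ (∏ P ∈ S, (1 - C (ψ (cls (Finsupp.single P 1))) * X ^ degP P)) *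
      (∑ n ∈ range (m + 1), C (An (fun z => ψ z) (n : ℤ)) * X ^ n) - 1 := by
  rw [← ES_eq ψ m hS]
  exact prod_ES ψ m S

/-- truncated Euler product over the places of degree at most `m` -/
theorem euler' (ψ : AddChar (Pic k K) R) (m : ℕ) :
    X ^ (m + 1) ∣ (∏ P ∈ (finite_degP_le (k := k) (K := K) m).toFinset,
      (1 - C (ψ (cls (Finsupp.single P 1))) * X ^ degP P)) *
      (∑ n ∈ range (m + 1), C (An (fun z => ψ z) (n : ℤ)) * X ^ n) - 1 :=
  euler ψ m fun P hP => (finite_degP_le m).mem_toFinset.mpr hP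

end Crest.Agent.R013.Euler_127
end

-- ▼ part R013/CntB5_491
section

/-!
# R013 / CntB5: constant extensions of function fields over finite fields (helper491)

A place of degree `d` splits into `gcd(d,m)` places of degree `d / gcd(d,m)`.
-/

set_option autoImplicit false
set_option linter.all false

namespace Crest.Agent.R013.CntB5_491

open Polynomial WithZero Module
open Crest.Agent.R013.RR1_948 Crest.Agent.R013.RR7_948 Crest.Agent.R013.RR8_948
open Crest.Agent.R013.RR9_948 Crest.Agent.R013.RR11_948 Crest.Agent.R013.RR12_948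
open Crest.Agent.R013.RR13_948 Crest.Agent.R013.RR18_948 Crest.Agent.R013.PicD_398
open Crest.Agent.R013.CntB1_491 Crest.Agent.R013.CntB2_491 Crest.Agent.R013.CntB3_491
open Crest.Agent.R013.CntB4_491

/-- a finite dimensional division algebra situation: if all elements of the finite field `F ⊇ k`
satisfy `z ^ (q ^ r) = z` then `[F : k] ≤ r` -/
theorem finrank_le_of_pow {k F : Type*} [Field k] [Finite k] [Field F] [Algebra k F]
    [FiniteDimensional k F] {r : ℕ} (hr : 0 < r)
    (h : ∀ z : F, z ^ (Nat.card k ^ r) = z) : finrank k F ≤ r := by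
  classical
  haveI : Finite F := Module.finite_of_finite k
  haveI := Fintype.ofFinite F
  have h1 : Nat.card F = Nat.card k ^ finrank k F := Module.natCard_eq_pow_finrank
  have hq : 1 < Nat.card k := Finite.one_lt_card
  have h2 : 1 < Nat.card k ^ r := Nat.one_lt_pow hr.ne' hq
  have h3 : (X ^ (Nat.card k ^ r) - X : F[X]) ≠ 0 := FiniteField.X_pow_card_sub_X_ne_zero F h2
  have h4 : Fintype.card F ≤ Nat.card k ^ r := by
    calc Fintype.card F = (Finset.univ : Finset F).card := Finset.card_univ.symm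
      _ ≤ (X ^ (Nat.card k ^ r) - X : F[X]).roots.toFinset.card := by
        apply Finset.card_le_card
        intro z _
        rw [Multiset.mem_toFinset, mem_roots h3, IsRoot.def, eval_sub, eval_pow, eval_X, h z,
          sub_self]
      _ ≤ Multiset.card (X ^ (Nat.card k ^ r) - X : F[X]).roots := Multiset.toFinset_card_le _
      _ ≤ (X ^ (Nat.card k ^ r) - X : F[X]).natDegree := card_roots' _
      _ = Nat.card k ^ r := FiniteField.X_pow_card_sub_X_natDegree_eq F h2
  rw [← Nat.card_eq_fintype_card, h1] at h4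
  exact (Nat.pow_le_pow_iff_right hq).mp h4

theorem pow_card_of_dvd {k F : Type*} [Field k] [Finite k] [Field F] [Algebra k F]
    [FiniteDimensional k F] {r : ℕ} (h : finrank k F ∣ r) (z : F) : z ^ (Nat.card k ^ r) = z := by
  haveI : Finite F := Module.finite_of_finite k
  haveI := Fintype.ofFinite F
  obtain ⟨s, rfl⟩ := h
  rw [pow_mul, ← Module.natCard_eq_pow_finrank (K := k) (V := F), Nat.card_eq_fintype_card]
  exact FiniteField.pow_card_pow s z

variable {k k' K K' : Type*} [Field k] [Field k'] [Field K] [Field K'] [Algebra k k']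
  [Algebra k K] [Algebra k' K'] [Algebra K K'] [Algebra k K'] [IsScalarTower k k' K']
  [IsScalarTower k K K'] [FiniteDimensional k k'] [Algebra.IsSeparable k k']
  [FiniteDimensional K K'] [Algebra.IsSeparable K K']
  [Algebra (RatFunc k) K] [IsScalarTower k (RatFunc k) K] [FiniteDimensional (RatFunc k) K]
  [Algebra.IsSeparable (RatFunc k) K]
  [Algebra (RatFunc k') K'] [IsScalarTower k' (RatFunc k') K'] [FiniteDimensional (RatFunc k') K']
  [Algebra.IsSeparable (RatFunc k') K']

/-- the residue field of `Q` is generated by that of `P` and `k'` -/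
theorem degP_down_le [Finite k] (h : IsCE k k' K K') (Q : Pl k' K') :
    degP (down k Q) ≤ Nat.lcm (degP (res k K Q)) (finrank k k') := by
  classical
  haveI := Fintype.ofFinite k
  set P := res k K Q with hP
  set r := Nat.lcm (degP P) (finrank k k') with hr
  have hr0 : 0 < r := Nat.lcm_pos (degP_pos P) Module.finrank_pos
  obtain ⟨hF, hFd⟩ := finite_Kap (degE_eq_of_ext K (down k Q))
  obtain ⟨hF', hFd'⟩ := finite_Kap (degE_eq P)
  haveI := hF
  haveI := hF'
  rw [← hFd]
  apply finrank_le_of_pow hr0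
  have hle : ∀ f : K, P.v f ≤ 1 → (down k Q).v (algebraMap K K' f) ≤ 1 := fun f hf =>
    (res_le_one_iff Q f).mp hf
  have hlt : ∀ f : K, P.v f < 1 → (down k Q).v (algebraMap K K' f) < 1 := fun f hf =>
    (res_lt_one_iff Q f).mp hf
  let φ : Kap (down k Q) →ₐ[k] Kap (down k Q) :=
    (FiniteField.frobeniusAlgHom k (Kap (down k Q))) ^ r
  have hφ : ∀ z, φ z = z ^ (Nat.card k ^ r) := by
    intro z
    show ((FiniteField.frobeniusAlgHom k (Kap (down k Q))) ^ r) z = _
    rw [AlgHom.coe_pow, FiniteField.coe_frobeniusAlgHom, pow_iterate, Nat.card_eq_fintype_card]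
  let b := Module.finBasis k k'
  intro z
  obtain ⟨y, rfl⟩ := IsLocalRing.residue_surjective z
  obtain ⟨y', hy'⟩ := weak_approx (fib k' K' P) (fun Q' => if Q' = Q then (y : K') else 0) 1
  have h1 : Q.v (y' - y) ≤ exp (-1) := by
    have := hy' Q (mem_fib.mpr rfl)
    rwa [if_pos rfl] at this
  have hm1 : (exp (-1) : ℤᵐ⁰) ≤ 1 := by rw [← exp_zero, exp_le_exp]; norm_num
  have hyQ : Q.v (y : K') ≤ 1 := y.2
  have h2 : ∀ Q' : Pl k' K', res k K Q' = P → Q'.v y' ≤ 1 := by
    intro Q' hQ'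
    by_cases hQQ : Q' = Q
    · subst hQQ
      have h3 : y' = (y' - y) + y := by ring
      rw [h3]
      exact (Valuation.map_add _ _ _).trans (max_le (h1.trans hm1) hyQ)
    · have := hy' Q' (mem_fib.mpr hQ')
      rw [if_neg hQQ, sub_zero] at this
      exact this.trans hm1
  have h3 : ∀ i, P.v ((h.basis b).repr y' i) ≤ 1 := repr_le_one h b P y' h2
  have hb : ∀ i, algebraMap k' K' (b i) ∈ OO (down k Q) := fun i => by
    rw [mem_OO]
    exact (Q.const _ (b.ne_zero i)).le
  let a : Fin (finrank k k') → OO (down k Q) := fun i => ooMap P (down k Q) hle ⟨_, h3 i⟩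
  let c : Fin (finrank k k') → OO (down k Q) := fun i => ⟨_, hb i⟩
  have h4 : (⟨y', h2 Q rfl⟩ : OO (down k Q)) = ∑ i, a i * c i := by
    apply Subtype.ext
    have h5 : ((∑ i, a i * c i : OO (down k Q)) : K')
        = ∑ i, algebraMap K K' ((h.basis b).repr y' i) * algebraMap k' K' (b i) := by
      rw [AddSubmonoidClass.coe_finsetSum]
      rfl
    refine Eq.trans ?_ h5.symm
    show y' = _
    conv_lhs => rw [← (h.basis b).sum_repr y']
    exact Finset.sum_congr rfl fun i _ => by rw [Algebra.smul_def, IsCE.basis_apply]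
  have h5 : IsLocalRing.residue (OO (down k Q)) y
      = IsLocalRing.residue (OO (down k Q)) ⟨y', h2 Q rfl⟩ := by
    rw [← sub_eq_zero, ← map_sub, IsLocalRing.residue_eq_zero_iff, mem_maximalIdeal]
    show Q.v ((y : K') - y') < 1
    rw [Valuation.map_sub_swap]
    exact (RR2_948.lt_one_iff _).mpr h1
  rw [← hφ, h5, h4, map_sum, map_sum]
  refine Finset.sum_congr rfl fun i _ => ?_
  rw [map_mul, map_mul]
  congr 1
  · show φ (kapMap P (down k Q) hle hlt (IsLocalRing.residue (OO P) ⟨_, h3 i⟩))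
      = kapMap P (down k Q) hle hlt (IsLocalRing.residue (OO P) ⟨_, h3 i⟩)
    rw [hφ, ← map_pow, pow_card_of_dvd]
    rw [hFd']
    exact Nat.dvd_lcm_left _ _
  · rw [hφ, ← map_pow]
    congr 1
    apply Subtype.ext
    show (algebraMap k' K' (b i)) ^ (Nat.card k ^ r) = algebraMap k' K' (b i)
    rw [← map_pow, pow_card_of_dvd (k := k) (Nat.dvd_lcm_right _ _)]

/-- `[κ(Q) : k] = lcm(d, m)` -/
theorem degP_down_eq [Finite k] (h : IsCE k k' K K') (Q : Pl k' K') :
    finrank k k' * degP Q = Nat.lcm (degP (res k K Q)) (finrank k k') := by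
  have h1 := degP_down (k := k) Q
  rw [← h1]
  apply le_antisymm (degP_down_le h Q)
  apply Nat.le_of_dvd
  · rw [h1]
    exact Nat.mul_pos Module.finrank_pos (degP_pos Q)
  · apply Nat.lcm_dvd
    · exact degP_under_dvd (K := K) (down k Q)
    · rw [h1]; exact Dvd.intro _ rfl

/-- **the degree of the places above** -/
theorem degP_mul_gcd [Finite k] (h : IsCE k k' K K') (Q : Pl k' K') :
    degP Q * Nat.gcd (degP (res k K Q)) (finrank k k') = degP (res k K Q) := by
  have h1 := degP_down_eq h Q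
  have h2 := Nat.gcd_mul_lcm (degP (res k K Q)) (finrank k k')
  rw [← h1] at h2
  have h3 : 0 < finrank k k' := Module.finrank_pos
  apply Nat.eq_of_mul_eq_mul_left h3
  linarith

/-- **the number of places above** -/
theorem card_fib [Finite k] (h : IsCE k k' K K') (P : Pl k K) :
    (fib k' K' P).card = Nat.gcd (degP P) (finrank k k') := by
  haveI : Finite k' := Module.finite_of_finite k
  haveI : IsGalois k k' := inferInstance
  obtain ⟨Q, rfl⟩ := res_surjective (k' := k') (K' := K') P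
  have h1 := degP_mul_gcd h Q
  have h2 := card_fib_mul_degP h Q
  have h3 := degP_pos Q
  apply Nat.eq_of_mul_eq_mul_right h3
  rw [h2, mul_comm, h1]

theorem fdeg_mul_gcd [Finite k] (h : IsCE k k' K K') (Q : Pl k' K') :
    fdeg k K Q * Nat.gcd (degP (res k K Q)) (finrank k k') = finrank k k' := by
  haveI : Finite k' := Module.finite_of_finite k
  haveI : IsGalois k k' := inferInstance
  rw [← card_fib h, mul_comm]
  exact card_fib_mul_fdeg h Q



end Crest.Agent.R013.CntB5_491
end

-- ▼ part R013/CntB6_491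
section

/-!
# R013 / CntB6: products over the `m`-th roots of unity with multiplicity, any characteristic
(helper491)

`E` algebraically closed, `Z m` = roots of `X ^ m - 1` with multiplicity.  For all `d`, `m > 0`:
`∏_{ζ ∈ Z m} (1 - ζ ^ d y) = (1 - y ^ (m / gcd)) ^ gcd`.
-/

set_option autoImplicit false
set_option linter.all false

namespace Crest.Agent.R013.CntB6_491

open Polynomial

variable {E : Type*} [Field E] [IsAlgClosed E]

variable (E) in
/-- the roots of `X ^ m - 1` with multiplicity -/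
noncomputable def Zr (m : ℕ) : Multiset E := (X ^ m - 1 : E[X]).roots

omit [IsAlgClosed E] in
theorem ne_zero_aux {m : ℕ} (hm : 0 < m) : (X ^ m - 1 : E[X]) ≠ 0 := by
  have h := X_pow_sub_C_ne_zero hm (1 : E)
  rwa [C_1] at h

omit [IsAlgClosed E] in
theorem natDegree_aux (m : ℕ) : (X ^ m - 1 : E[X]).natDegree = m := by
  have h := natDegree_X_pow_sub_C (n := m) (r := (1 : E))
  rwa [C_1] at h

theorem card_Zr {m : ℕ} (hm : 0 < m) : Multiset.card (Zr E m) = m := by
  unfold Zr
  rw [IsAlgClosed.card_roots_eq_natDegree, natDegree_aux]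

omit [IsAlgClosed E] in
theorem pow_eq_one {m : ℕ} (hm : 0 < m) {ζ : E} (hζ : ζ ∈ Zr E m) : ζ ^ m = 1 := by
  unfold Zr at hζ
  rw [mem_roots (ne_zero_aux hm), IsRoot.def, eval_sub, eval_pow, eval_X, eval_one, sub_eq_zero]
    at hζ
  exact hζ

theorem prod_sub {m : ℕ} (hm : 0 < m) (w : E) :
    ((Zr E m).map fun ζ => w - ζ).prod = w ^ m - 1 := by
  have h1 : (X ^ m - 1 : E[X]).Monic := by
    have := monic_X_pow_sub_C (1 : E) hm.ne'
    rwa [C_1] at this
  have h2 := IsAlgClosed.splits (X ^ m - 1 : E[X])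
  have h3 := h2.eq_prod_roots_of_monic h1
  have h4 := congrArg (eval w) h3
  rw [eval_sub, eval_pow, eval_X, eval_one, eval_multiset_prod, Multiset.map_map] at h4
  rw [h4]
  unfold Zr
  congr 1
  apply Multiset.map_congr rfl
  intro ζ _
  simp

theorem prod_one_sub {m : ℕ} (hm : 0 < m) (x : E) :
    ((Zr E m).map fun ζ => 1 - ζ * x).prod = 1 - x ^ m := by
  by_cases hx : x = 0
  · rw [hx, zero_pow hm.ne', sub_zero]
    simp
  · have h1 : ((Zr E m).map fun ζ => 1 - ζ * x) = (Zr E m).map fun ζ => x * (x⁻¹ - ζ) := by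
      apply Multiset.map_congr rfl
      intro ζ _
      rw [mul_sub, mul_inv_cancel₀ hx, mul_comm]
    rw [h1, Multiset.prod_map_mul, prod_sub hm, Multiset.map_const', Multiset.prod_replicate,
      card_Zr hm, mul_sub, ← mul_pow, mul_inv_cancel₀ hx, one_pow, mul_one]

theorem key_value (d : ℕ) : ∀ (m : ℕ) (hm : 0 < m) (y : E),
    ((Zr E m).map fun ζ => 1 - ζ ^ d * y).prod = (1 - y ^ (m / m.gcd d)) ^ (m.gcd d) := by
  induction d using Nat.strong_induction_on with
  | _ d ih =>
    intro m hm y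
    rcases Nat.eq_zero_or_pos d with rfl | hd
    · simp [card_Zr hm, Nat.div_self hm]
    · obtain ⟨w, rfl⟩ := IsAlgClosed.exists_pow_nat_eq y hd
      have h1 : ((Zr E m).map fun ζ => 1 - ζ ^ d * w ^ d).prod
          = ((Zr E m).map fun ζ => ((Zr E d).map fun η => 1 - η * (ζ * w)).prod).prod := by
        congr 1
        apply Multiset.map_congr rfl
        intro ζ _
        rw [prod_one_sub hd, mul_pow]
      have h2 : ((Zr E m).map fun ζ => ((Zr E d).map fun η => 1 - η * (ζ * w)).prod).prod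
          = ((Zr E d).map fun η => ((Zr E m).map fun ζ => 1 - ζ * (η * w)).prod).prod := by
        rw [Multiset.prod_map_prod_map]
        congr 1
        apply Multiset.map_congr rfl
        intro η _
        congr 1
        apply Multiset.map_congr rfl
        intro ζ _
        ring
      have h3 : ((Zr E d).map fun η => ((Zr E m).map fun ζ => 1 - ζ * (η * w)).prod).prod
          = ((Zr E d).map fun η => 1 - η ^ (m % d) * w ^ m).prod := by
        congr 1
        apply Multiset.map_congr rfl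
        intro η hη
        rw [prod_one_sub hm, mul_pow]
        congr 2
        conv_lhs => rw [← Nat.div_add_mod m d, pow_add, pow_mul, pow_eq_one hd hη, one_pow, one_mul]
      rw [h1, h2, h3, ih (m % d) (Nat.mod_lt m hd) d hd]
      have h4 : d.gcd (m % d) = m.gcd d := by
        rw [Nat.gcd_comm d (m % d), ← Nat.gcd_rec, Nat.gcd_comm]
      rw [h4, ← pow_mul, ← pow_mul]
      congr 3
      rw [← Nat.mul_div_assoc _ (Nat.gcd_dvd_right m d), ← Nat.mul_div_assoc _ (Nat.gcd_dvd_left m d),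
        mul_comm]

theorem key_poly (d : ℕ) {m : ℕ} (hm : 0 < m) :
    ((Zr E m).map fun ζ => 1 - C (ζ ^ d) * X).prod
      = (1 - X ^ (m / m.gcd d) : E[X]) ^ (m.gcd d) := by
  apply Polynomial.funext
  intro y
  have h := key_value d m hm y
  rw [eval_multiset_prod, Multiset.map_map]
  simp only [eval_pow, eval_sub, eval_one, eval_X]
  rw [← h]
  congr 1
  apply Multiset.map_congr rfl
  intro ζ _
  simp

/-- **the key identity**, in any commutative `E`-algebra -/
theorem key_algebra {B : Type*} [CommRing B] [Algebra E B] (d : ℕ) {m : ℕ} (hm : 0 < m) (y : B) :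
    ((Zr E m).map fun ζ => 1 - algebraMap E B (ζ ^ d) * y).prod
      = (1 - y ^ (m / m.gcd d)) ^ (m.gcd d) := by
  have h := congrArg (aeval y) (key_poly (E := E) d hm)
  rw [map_multiset_prod, Multiset.map_map] at h
  simp only [map_pow, map_sub, map_one, aeval_X] at h
  rw [← h]
  congr 1
  apply Multiset.map_congr rfl
  intro ζ _
  simp

theorem prod_Zr {m : ℕ} (hm : 0 < m) : (Zr E m).prod = (-1) ^ (m + 1) := by
  have h := prod_sub (E := E) hm 0
  have h1 : ((Zr E m).map fun ζ => (0 : E) - ζ) = (Zr E m).map fun ζ => (-1) * ζ := by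
    apply Multiset.map_congr rfl
    intro ζ _
    ring
  rw [h1, Multiset.prod_map_mul, Multiset.map_const', Multiset.prod_replicate, card_Zr hm,
    zero_pow hm.ne', zero_sub, Multiset.map_id'] at h
  have h2 : ((-1 : E) ^ m) * ((-1) ^ m * (Zr E m).prod) = (-1) ^ m * (-1) := by rw [h]
  rw [← mul_assoc, ← mul_pow, neg_one_mul, neg_neg, one_pow, one_mul] at h2
  rw [h2, pow_succ]

section power

open PowerSeries (rescale expand)

variable (E) in
/-- `∏_{ζ} f (ζ T)` -/
noncomputable def NZ (m : ℕ) (f : PowerSeries E) : PowerSeries E :=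
  ((Zr E m).map fun ζ => rescale ζ f).prod

omit [IsAlgClosed E] in
theorem NZ_mul (m : ℕ) (f g : PowerSeries E) : NZ E m (f * g) = NZ E m f * NZ E m g := by
  unfold NZ
  rw [← Multiset.prod_map_mul]
  congr 1
  apply Multiset.map_congr rfl
  intro ζ _
  rw [map_mul]

omit [IsAlgClosed E] in
theorem NZ_one (m : ℕ) : NZ E m (1 : PowerSeries E) = 1 := by
  unfold NZ
  simp

omit [IsAlgClosed E] in
theorem NZ_prod (m : ℕ) {ι : Type*} (s : Finset ι) (f : ι → PowerSeries E) :
    NZ E m (∏ i ∈ s, f i) = ∏ i ∈ s, NZ E m (f i) := by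
  classical
  induction s using Finset.induction_on with
  | empty => rw [Finset.prod_empty, Finset.prod_empty, NZ_one]
  | insert a s ha ih => rw [Finset.prod_insert ha, Finset.prod_insert ha, NZ_mul, ih]

/-- the Euler factor -/
theorem NZ_factor {m : ℕ} (hm : 0 < m) (c : E) (d : ℕ) :
    NZ E m (1 - PowerSeries.C c * PowerSeries.X ^ d)
      = expand m hm.ne' ((1 - PowerSeries.C (c ^ (m / m.gcd d)) *
          PowerSeries.X ^ (d / m.gcd d)) ^ (m.gcd d)) := by
  have h1 : ∀ ζ : E, rescale ζ (1 - PowerSeries.C c * PowerSeries.X ^ d : PowerSeries E)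
      = 1 - algebraMap E (PowerSeries E) (ζ ^ d) * (PowerSeries.C c * PowerSeries.X ^ d) := by
    intro ζ
    ext n
    rw [PowerSeries.coeff_rescale, map_sub, map_sub, PowerSeries.coeff_C_mul,
      ← PowerSeries.C_eq_algebraMap, PowerSeries.coeff_C_mul, PowerSeries.coeff_C_mul,
      PowerSeries.coeff_X_pow, PowerSeries.coeff_one]
    split_ifs with h2 h3 h3
    · rw [← h3, h2]; ring
    · rw [h2]; ring
    · rw [h3]; ring
    · ring
  unfold NZ
  have h2 : expand m hm.ne' (PowerSeries.C (c ^ (m / m.gcd d)) * PowerSeries.X ^ (d / m.gcd d))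
      = (PowerSeries.C c * PowerSeries.X ^ d : PowerSeries E) ^ (m / m.gcd d) := by
    rw [map_mul, PowerSeries.expand_C, map_pow (expand m hm.ne'), PowerSeries.expand_X, mul_pow,
      map_pow, ← pow_mul, ← pow_mul]
    congr 2
    rw [← Nat.mul_div_assoc _ (Nat.gcd_dvd_left m d), ← Nat.mul_div_assoc _ (Nat.gcd_dvd_right m d),
      mul_comm]
  rw [Multiset.map_congr rfl fun ζ _ => h1 ζ, key_algebra d hm, map_pow, map_sub, map_one, h2]

omit [IsAlgClosed E] in
theorem coe_trunc_of_coeff {f : PowerSeries E} {G : ℕ} (hf : ∀ n, G < n → PowerSeries.coeff n f = 0) :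
    ((PowerSeries.trunc (G + 1) f : E[X]) : PowerSeries E) = f := by
  ext n
  rw [Polynomial.coeff_coe, PowerSeries.coeff_trunc]
  split_ifs with h
  · rfl
  · exact (hf n (by omega)).symm

omit [IsAlgClosed E] in
theorem NZ_eq_coe (m : ℕ) {f : PowerSeries E} {G : ℕ}
    (hf : ∀ n, G < n → PowerSeries.coeff n f = 0) :
    NZ E m f = ((((Zr E m).map fun ζ => PowerSeries.trunc (G + 1) (rescale ζ f)).prod : E[X]) :
      PowerSeries E) := by
  have h1 : ∀ g : E[X], (g : PowerSeries E) = Polynomial.coeToPowerSeries.ringHom g := fun _ => rfl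
  rw [h1, map_multiset_prod, Multiset.map_map]
  unfold NZ
  congr 1
  apply Multiset.map_congr rfl
  intro ζ _
  show rescale ζ f = ((PowerSeries.trunc (G + 1) (rescale ζ f) : E[X]) : PowerSeries E)
  rw [coe_trunc_of_coeff]
  intro n hn
  rw [PowerSeries.coeff_rescale, hf n hn, mul_zero]

/-- the top coefficient -/
theorem coeff_NZ {m : ℕ} (hm : 0 < m) {f : PowerSeries E} {G : ℕ}
    (hf : ∀ n, G < n → PowerSeries.coeff n f = 0) :
    PowerSeries.coeff (m * G) (NZ E m f) = PowerSeries.coeff G f ^ m * ((-1) ^ (m + 1)) ^ G := by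
  have h1 : ∀ p ∈ (Zr E m).map (fun ζ => PowerSeries.trunc (G + 1) (rescale ζ f)),
      natDegree p ≤ G := by
    intro p hp
    obtain ⟨ζ, _, rfl⟩ := Multiset.mem_map.mp hp
    have := PowerSeries.natDegree_trunc_lt (rescale ζ f) G
    omega
  have h2 := Polynomial.coeff_multiset_prod_of_natDegree_le _ G h1
  rw [Multiset.card_map, card_Zr hm] at h2
  rw [NZ_eq_coe m hf, Polynomial.coeff_coe, h2, Multiset.map_map]
  have h3 : ((Zr E m).map ((fun p : E[X] => p.coeff G) ∘
      fun ζ => PowerSeries.trunc (G + 1) (rescale ζ f))) =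
      (Zr E m).map fun ζ => ζ ^ G * PowerSeries.coeff G f := by
    apply Multiset.map_congr rfl
    intro ζ _
    show (PowerSeries.trunc (G + 1) (rescale ζ f)).coeff G = _
    rw [PowerSeries.coeff_trunc, if_pos (Nat.lt_succ_self G), PowerSeries.coeff_rescale]
  rw [h3, Multiset.prod_map_mul, Multiset.map_const', Multiset.prod_replicate, card_Zr hm,
    Multiset.prod_map_pow, Multiset.map_id', prod_Zr hm, mul_comm]


end power

end Crest.Agent.R013.CntB6_491
end

-- ▼ part R013/CntB8_491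
section

/-!
# R013 / CntB8: Euler product and the L-function in a constant extension (helper491)

`∑ A'_n(ψ ∘ nm) T^(m n) = ∏_{ζ ∈ Zr m} ∑ A_n(ψ) (ζ T)^n` in every characteristic.
-/

set_option autoImplicit false
set_option linter.all false

namespace Crest.Agent.R013.CntB8_491

open Polynomial WithZero Module
open Crest.Agent.R013.RR1_948 Crest.Agent.R013.RR7_948 Crest.Agent.R013.RR8_948
open Crest.Agent.R013.RR9_948 Crest.Agent.R013.RR11_948 Crest.Agent.R013.RR12_948
open Crest.Agent.R013.RR18_948 Crest.Agent.R013.PicD_398 Crest.Agent.R013.CntA1_560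
open Crest.Agent.R013.CntB1_491 Crest.Agent.R013.CntB2_491 Crest.Agent.R013.CntB3_491
open Crest.Agent.R013.CntB4_491 Crest.Agent.R013.CntB5_491 Crest.Agent.R013.CntB6_491

section euler

variable {k K : Type*} [Field k] [Finite k] [Field K] [Algebra k K] [Algebra (RatFunc k) K]
  [IsScalarTower k (RatFunc k) K] [FiniteDimensional (RatFunc k) K]
  [Algebra.IsSeparable (RatFunc k) K] {E : Type*} [CommRing E] [DecidableEq (Pl k K)]

/-- sum over the effective divisors supported in `S` -/
noncomputable def LS (ψ : AddChar (Pic k K) E) (S : Finset (Pl k K)) (n : ℤ) : E :=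
  ∑ D ∈ (eff n).filter (fun D => D.support ⊆ S), ψ (cls D)

theorem LS_neg (ψ : AddChar (Pic k K) E) (S : Finset (Pl k K)) {n : ℤ} (hn : n < 0) :
    LS ψ S n = 0 := by
  unfold LS
  apply Finset.sum_eq_zero
  intro D hD
  rw [Finset.mem_filter, mem_eff] at hD
  have := degD_nonneg hD.1.1
  omega

theorem LS_insert (ψ : AddChar (Pic k K) E) {S : Finset (Pl k K)} {P : Pl k K} (hP : P ∉ S)
    (n : ℤ) : LS ψ (insert P S) n
      = LS ψ S n + ψ (cls (Finsupp.single P 1)) * LS ψ (insert P S) (n - degP P) := by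
  have h0 : LS ψ (insert P S) n =
      ∑ D ∈ ((eff n).filter (fun D => D.support ⊆ insert P S)).filter (fun D => D P = 0),
        ψ (cls D) +
      ∑ D ∈ ((eff n).filter (fun D => D.support ⊆ insert P S)).filter (fun D => ¬ D P = 0),
        ψ (cls D) := by
    unfold LS
    rw [Finset.sum_filter_add_sum_filter_not]
  rw [h0]
  congr 1
  · unfold LS
    apply Finset.sum_congr _ fun _ _ => rfl
    ext D
    rw [Finset.mem_filter, Finset.mem_filter, Finset.mem_filter]
    constructor
    · rintro ⟨⟨h1, h2⟩, h3⟩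
      refine ⟨h1, fun Q hQ => ?_⟩
      rcases Finset.mem_insert.mp (h2 hQ) with h4 | h4
      · rw [h4, Finsupp.mem_support_iff] at hQ
        exact absurd h3 hQ
      · exact h4
    · rintro ⟨h1, h2⟩
      refine ⟨⟨h1, h2.trans (Finset.subset_insert _ _)⟩, ?_⟩
      by_contra h3
      exact hP (h2 (Finsupp.mem_support_iff.mpr h3))
  · unfold LS
    rw [Finset.mul_sum]
    symm
    refine Finset.sum_bij (fun D _ => D + Finsupp.single P 1) ?_ ?_ ?_ ?_
    · intro D hD
      rw [Finset.mem_filter, mem_eff] at hD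
      obtain ⟨⟨h1, h2⟩, h3⟩ := hD
      have hPn : 0 ≤ D P := h1 P
      rw [Finset.mem_filter, Finset.mem_filter, mem_eff]
      refine ⟨⟨⟨add_nonneg h1 (Finsupp.single_nonneg.mpr zero_le_one), ?_⟩, ?_⟩, ?_⟩
      · rw [degD_add, degD_single, h2]; ring
      · intro Q hQ
        rcases Finset.mem_union.mp (Finsupp.support_add hQ) with h4 | h4
        · exact h3 h4
        · rw [Finsupp.mem_support_single] at h4
          rw [h4.1]
          exact Finset.mem_insert_self _ _
      · rw [Finsupp.add_apply, Finsupp.single_eq_same]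
        omega
    · intro D _ D' _ h
      exact add_right_cancel h
    · intro D hD
      rw [Finset.mem_filter, Finset.mem_filter, mem_eff] at hD
      obtain ⟨⟨⟨h1, h2⟩, h3⟩, h4⟩ := hD
      have hPn : 0 ≤ D P := h1 P
      refine ⟨D - Finsupp.single P 1, ?_, by rw [sub_add_cancel]⟩
      rw [Finset.mem_filter, mem_eff]
      refine ⟨⟨?_, ?_⟩, ?_⟩
      · intro Q
        rw [Finsupp.sub_apply, Finsupp.single_apply, Finsupp.zero_apply]
        split_ifs with h5
        · subst h5; omega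
        · have : 0 ≤ D Q := h1 Q
          omega
      · rw [degD_sub, degD_single, h2]; ring
      · intro Q hQ
        by_cases h5 : Q = P
        · rw [h5]; exact Finset.mem_insert_self _ _
        · apply h3
          rw [Finsupp.mem_support_iff, Finsupp.sub_apply, Finsupp.single_apply,
            if_neg (Ne.symm h5), sub_zero] at hQ
          exact Finsupp.mem_support_iff.mpr hQ
    · intro D _
      rw [map_add, AddChar.map_add_eq_mul, mul_comm]

/-- the `L`-series of the places in `S` -/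
noncomputable def Lps (ψ : AddChar (Pic k K) E) (S : Finset (Pl k K)) : PowerSeries E :=
  PowerSeries.mk fun n => LS ψ S n

theorem Lps_empty (ψ : AddChar (Pic k K) E) : Lps ψ (∅ : Finset (Pl k K)) = 1 := by
  ext n
  unfold Lps LS
  rw [PowerSeries.coeff_mk, PowerSeries.coeff_one]
  split_ifs with h
  · subst h
    rw [Finset.sum_eq_single 0]
    · rw [map_zero, AddChar.map_zero_eq_one]
    · intro D hD h0
      rw [Finset.mem_filter, Finset.subset_empty, Finsupp.support_eq_empty] at hD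
      exact absurd hD.2 h0
    · intro h0
      exfalso
      apply h0
      rw [Finset.mem_filter, mem_eff]
      refine ⟨⟨le_rfl, ?_⟩, ?_⟩
      · rw [degD_zero]; rfl
      · simp
  · apply Finset.sum_eq_zero
    intro D hD
    exfalso
    rw [Finset.mem_filter, Finset.subset_empty, Finsupp.support_eq_empty, mem_eff] at hD
    obtain ⟨⟨_, h1⟩, rfl⟩ := hD
    rw [degD_zero] at h1
    omega

theorem Lps_insert (ψ : AddChar (Pic k K) E) {S : Finset (Pl k K)} {P : Pl k K} (hP : P ∉ S) :
    Lps ψ (insert P S) * (1 - PowerSeries.C (ψ (cls (Finsupp.single P 1))) *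
      PowerSeries.X ^ degP P) = Lps ψ S := by
  ext n
  rw [mul_sub, mul_one, map_sub, mul_left_comm, PowerSeries.coeff_C_mul, mul_comm (Lps ψ _),
    PowerSeries.coeff_X_pow_mul']
  unfold Lps
  rw [PowerSeries.coeff_mk, PowerSeries.coeff_mk, LS_insert ψ hP]
  split_ifs with h
  · rw [PowerSeries.coeff_mk, Nat.cast_sub h]
    ring
  · rw [LS_neg ψ (insert P S) (n := (n : ℤ) - degP P) (by omega), PowerSeries.coeff_mk]
    ring

/-- **Euler product** for a finite set of places -/
theorem Lps_mul_prod (ψ : AddChar (Pic k K) E) (S : Finset (Pl k K)) :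
    Lps ψ S * ∏ P ∈ S, (1 - PowerSeries.C (ψ (cls (Finsupp.single P 1))) *
      PowerSeries.X ^ degP P) = 1 := by
  induction S using Finset.induction_on with
  | empty => rw [Lps_empty, Finset.prod_empty, mul_one]
  | insert P S hP ih => rw [Finset.prod_insert hP, ← mul_assoc, Lps_insert ψ hP, ih]

theorem LS_eq_An (ψ : AddChar (Pic k K) E) (S : Finset (Pl k K)) (n : ℕ)
    (hS : ∀ P : Pl k K, degP P ≤ n → P ∈ S) : LS ψ S n = An (⇑ψ) n := by
  unfold LS An
  rw [Finset.filter_true_of_mem]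
  intro D hD P hP
  rw [mem_eff] at hD
  apply hS
  have h1 := mul_degP_le hD.1 P
  rw [hD.2] at h1
  have h2 : 0 ≤ D P := hD.1 P
  have h3 : 1 ≤ D P := by
    have := Finsupp.mem_support_iff.mp hP
    omega
  have h4 : (degP P : ℤ) ≤ D P * degP P := by
    have : (0 : ℤ) ≤ degP P := by positivity
    nlinarith
  exact_mod_cast h4.trans h1

end euler

section aux

theorem prod_dvd_sub {R : Type*} [CommRing R] (x : R) {ι : Type*} (Z : Multiset ι) (F G : ι → R)
    (h : ∀ i, x ∣ F i - G i) : x ∣ (Z.map F).prod - (Z.map G).prod := by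
  induction Z using Multiset.induction_on with
  | empty => simp
  | cons a Z ih =>
    rw [Multiset.map_cons, Multiset.map_cons, Multiset.prod_cons, Multiset.prod_cons]
    have h1 : F a * (Z.map F).prod - G a * (Z.map G).prod
        = F a * ((Z.map F).prod - (Z.map G).prod) + (F a - G a) * (Z.map G).prod := by ring
    rw [h1]
    exact dvd_add (Dvd.dvd.mul_left ih _) (Dvd.dvd.mul_right (h a) _)

theorem coeff_NZ_congr {E : Type*} [Field E] (m : ℕ) {f g : PowerSeries E} {n : ℕ}
    (h : ∀ j ≤ n, PowerSeries.coeff j f = PowerSeries.coeff j g) :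
    PowerSeries.coeff n (NZ E m f) = PowerSeries.coeff n (NZ E m g) := by
  have h1 : (PowerSeries.X : PowerSeries E) ^ (n + 1) ∣ NZ E m f - NZ E m g := by
    unfold NZ
    apply prod_dvd_sub
    intro ζ
    rw [PowerSeries.X_pow_dvd_iff]
    intro j hj
    rw [map_sub, PowerSeries.coeff_rescale, PowerSeries.coeff_rescale, h j (by omega), sub_self]
  rw [PowerSeries.X_pow_dvd_iff] at h1
  have h2 := h1 n (Nat.lt_succ_self n)
  rw [map_sub, sub_eq_zero] at h2
  exact h2

end aux

section main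

variable {k k' K K' : Type*} [Field k] [Field k'] [Field K] [Field K'] [Algebra k k']
  [Algebra k K] [Algebra k' K'] [Algebra K K'] [Algebra k K'] [IsScalarTower k k' K']
  [IsScalarTower k K K'] [FiniteDimensional k k'] [Algebra.IsSeparable k k']
  [FiniteDimensional K K'] [Algebra.IsSeparable K K']
  [Algebra (RatFunc k) K] [IsScalarTower k (RatFunc k) K] [FiniteDimensional (RatFunc k) K]
  [Algebra.IsSeparable (RatFunc k) K]
  [Algebra (RatFunc k') K'] [IsScalarTower k' (RatFunc k') K'] [FiniteDimensional (RatFunc k') K']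
  [Algebra.IsSeparable (RatFunc k') K'] [Finite k] [Finite k'] [IsGalois k k']
  {E : Type*}

theorem degP_eq_div (h : IsCE k k' K K') (Q : Pl k' K') :
    degP Q = degP (res k K Q) / (finrank k k').gcd (degP (res k K Q)) := by
  have h1 := degP_mul_gcd h Q
  rw [Nat.gcd_comm] at h1
  symm
  apply Nat.div_eq_of_eq_mul_left
  · exact Nat.gcd_pos_of_pos_left _ Module.finrank_pos
  · exact h1.symm

theorem fdeg_eq_div (h : IsCE k k' K K') (Q : Pl k' K') :
    fdeg k K Q = finrank k k' / (finrank k k').gcd (degP (res k K Q)) := by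
  have h1 := fdeg_mul_gcd h Q
  rw [Nat.gcd_comm] at h1
  symm
  apply Nat.div_eq_of_eq_mul_left
  · exact Nat.gcd_pos_of_pos_left _ Module.finrank_pos
  · exact h1.symm

theorem char_nm [CommRing E] (h : IsCE k k' K K') (ψ : AddChar (Pic k K) E) (Q : Pl k' K') :
    ψ.compAddMonoidHom (nmPic h) (cls (Finsupp.single Q 1))
      = ψ (cls (Finsupp.single (res k K Q) 1)) ^
        (finrank k k' / (finrank k k').gcd (degP (res k K Q))) := by
  rw [AddChar.compAddMonoidHom_apply, nmPic_cls, nm_single, ← fdeg_eq_div h, mul_one,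
    ← AddChar.map_nsmul_eq_pow, ← map_nsmul]
  congr 2
  rw [← Nat.smul_one_eq_cast, Finsupp.smul_single]

/-- the Euler factors above `P` -/
theorem factor [CommRing E] (h : IsCE k k' K K') (ψ : AddChar (Pic k K) E) (P : Pl k K) :
    ∏ Q ∈ fib k' K' P, (1 - PowerSeries.C (ψ.compAddMonoidHom (nmPic h)
        (cls (Finsupp.single Q 1))) * PowerSeries.X ^ degP Q)
      = (1 - PowerSeries.C (ψ (cls (Finsupp.single P 1)) ^
          (finrank k k' / (finrank k k').gcd (degP P))) *
          PowerSeries.X ^ (degP P / (finrank k k').gcd (degP P))) ^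
            ((finrank k k').gcd (degP P)) := by
  have h1 : ∀ Q ∈ fib k' K' P, (1 - PowerSeries.C (ψ.compAddMonoidHom (nmPic h)
        (cls (Finsupp.single Q 1))) * PowerSeries.X ^ degP Q)
      = (1 - PowerSeries.C (ψ (cls (Finsupp.single P 1)) ^
          (finrank k k' / (finrank k k').gcd (degP P))) *
          PowerSeries.X ^ (degP P / (finrank k k').gcd (degP P))) := by
    intro Q hQ
    rw [char_nm h, degP_eq_div h Q, mem_fib.mp hQ]
  rw [Finset.prod_congr rfl h1, Finset.prod_const, card_fib h, Nat.gcd_comm]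

theorem expand_Lps [Field E] [IsAlgClosed E] [DecidableEq (Pl k K)] [DecidableEq (Pl k' K')]
    (h : IsCE k k' K K') (ψ : AddChar (Pic k K) E) (S : Finset (Pl k K)) :
    PowerSeries.expand (finrank k k') (Module.finrank_pos (R := k) (M := k')).ne'
      (Lps (ψ.compAddMonoidHom (nmPic h)) (S.biUnion (fib k' K')))
      = NZ E (finrank k k') (Lps ψ S) := by
  set m := finrank k k' with hm
  have hm0 : 0 < m := Module.finrank_pos
  set A := PowerSeries.expand m hm0.ne' (Lps (ψ.compAddMonoidHom (nmPic h)) (S.biUnion (fib k' K')))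
    with hA
  set B := NZ E m (Lps ψ S) with hB
  set F : PowerSeries E := ∏ P ∈ S, PowerSeries.expand m hm0.ne'
    ((1 - PowerSeries.C (ψ (cls (Finsupp.single P 1)) ^ (m / m.gcd (degP P))) *
          PowerSeries.X ^ (degP P / m.gcd (degP P))) ^ (m.gcd (degP P))) with hF
  have h1 : A * F = 1 := by
    have h2 := Lps_mul_prod (ψ.compAddMonoidHom (nmPic h)) (S.biUnion (fib k' K'))
    rw [Finset.prod_biUnion] at h2
    · rw [Finset.prod_congr rfl fun P _ => factor h ψ P] at h2
      have h3 := congrArg (PowerSeries.expand m hm0.ne') h2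
      rw [map_mul, map_prod, map_one] at h3
      exact h3
    · intro P _ P' _ hPP
      rw [Function.onFun, Finset.disjoint_left]
      intro Q hQ hQ'
      exact hPP ((mem_fib.mp hQ).symm.trans (mem_fib.mp hQ'))
  have h2 : B * F = 1 := by
    have h3 := congrArg (NZ E m) (Lps_mul_prod ψ S)
    rw [NZ_mul, NZ_prod, NZ_one, Finset.prod_congr rfl fun P _ => NZ_factor hm0 _ _] at h3
    exact h3
  calc A = A * (B * F) := by rw [h2, mul_one]
    _ = (A * F) * B := by ring
    _ = B := by rw [h1, one_mul]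

/-- **the `L`-series in a constant extension** -/
theorem expand_L [Field E] [IsAlgClosed E] (h : IsCE k k' K K') (ψ : AddChar (Pic k K) E) :
    PowerSeries.expand (finrank k k') (Module.finrank_pos (R := k) (M := k')).ne'
      (PowerSeries.mk fun n => An (⇑(ψ.compAddMonoidHom (nmPic h))) (n : ℤ))
      = NZ E (finrank k k') (PowerSeries.mk fun n => An (⇑ψ) (n : ℤ)) := by
  classical
  set m := finrank k k' with hm
  have hm0 : 0 < m := Module.finrank_pos
  ext n
  let S : Finset (Pl k K) := (finite_degP_le (k := k) (K := K) n).toFinset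
  have hS : ∀ P : Pl k K, P ∈ S ↔ degP P ≤ n := fun P => by
    rw [Set.Finite.mem_toFinset]; rfl
  have h1 := congrArg (PowerSeries.coeff n) (expand_Lps h ψ S)
  have h2 : PowerSeries.coeff n (NZ E m (PowerSeries.mk fun n => An (⇑ψ) (n : ℤ)))
      = PowerSeries.coeff n (NZ E m (Lps ψ S)) := by
    apply coeff_NZ_congr
    intro j hj
    unfold Lps
    rw [PowerSeries.coeff_mk, PowerSeries.coeff_mk, LS_eq_An]
    intro P hP
    exact (hS P).mpr (hP.trans hj)
  rw [h2, ← h1, PowerSeries.coeff_expand, PowerSeries.coeff_expand]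
  split_ifs with h3
  · obtain ⟨j, rfl⟩ := h3
    rw [Nat.mul_div_cancel_left _ hm0, PowerSeries.coeff_mk]
    unfold Lps
    rw [PowerSeries.coeff_mk, LS_eq_An]
    intro Q hQ
    rw [Finset.mem_biUnion]
    refine ⟨res k K Q, (hS _).mpr ?_, mem_fib.mpr rfl⟩
    have h4 := degP_mul_gcd h Q
    have h5 : Nat.gcd (degP (res k K Q)) (finrank k k') ≤ m :=
      Nat.gcd_le_right _ hm0
    calc degP (res k K Q) = degP Q * Nat.gcd (degP (res k K Q)) (finrank k k') := h4.symm
      _ ≤ j * m := Nat.mul_le_mul hQ h5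
      _ = m * j := mul_comm _ _
  · rfl

/-- **(B6)**: top coefficient -/
theorem An_nm_top [Field E] [IsAlgClosed E] (h : IsCE k k' K K') (ψ : AddChar (Pic k K) E) {G : ℕ}
    (hG : ∀ n : ℕ, G < n → An (⇑ψ) (n : ℤ) = 0) :
    An (⇑(ψ.compAddMonoidHom (nmPic h))) (G : ℤ)
      = An (⇑ψ) (G : ℤ) ^ finrank k k' * ((-1) ^ (finrank k k' + 1)) ^ G := by
  have hm0 : 0 < finrank k k' := Module.finrank_pos
  have h1 := congrArg (PowerSeries.coeff (finrank k k' * G)) (expand_L h ψ)
  rw [PowerSeries.coeff_expand_mul, coeff_NZ hm0 (G := G) (fun n hn => by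
    rw [PowerSeries.coeff_mk]; exact hG n hn), PowerSeries.coeff_mk, PowerSeries.coeff_mk] at h1
  exact h1


/-- nonvanishing -/
theorem An_nm_ne_zero [Field E] [IsAlgClosed E] (h : IsCE k k' K K') (ψ : AddChar (Pic k K) E)
    {G : ℕ} (hG : ∀ n : ℕ, G < n → An (⇑ψ) (n : ℤ) = 0) (h0 : An (⇑ψ) (G : ℤ) ≠ 0) :
    An (⇑(ψ.compAddMonoidHom (nmPic h))) (G : ℤ) ≠ 0 := by
  rw [An_nm_top h ψ hG]
  exact mul_ne_zero (pow_ne_zero _ h0) (pow_ne_zero _ (pow_ne_zero _ (neg_ne_zero.mpr one_ne_zero)))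

end main

end Crest.Agent.R013.CntB8_491
end

-- ▼ part R013/CntF7_398

/-!
# R013 / CNT-F7: COUNT at a finite level (helper398)

Assembly of: many rational places (127), a character `ψ` with `A_{g-1}(ψ) ≠ 0` (398), base change
of `A_n` (491), duality `Pic/N × Pic⁰[N]` (777), trace formula (262).
-/

set_option autoImplicit false
set_option linter.all false

namespace Crest.Agent.R013.CntF7_398

open Polynomial WithZero Module
open Crest.Agent.R013.RR1_948 Crest.Agent.R013.RR7_948 Crest.Agent.R013.RR8_948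
open Crest.Agent.R013.RR9_948 Crest.Agent.R013.RR11_948 Crest.Agent.R013.RR12_948
open Crest.Agent.R013.RR13_948 Crest.Agent.R013.RR14_948 Crest.Agent.R013.RR18_948
open Crest.Agent.R013.PicD_398
open Crest.Agent.R013.CntF1_398 Crest.Agent.R013.CntF2_398 Crest.Agent.R013.CntF3_398
open Crest.Agent.R013.CntF4_398 Crest.Agent.R013.CntF5_398 Crest.Agent.R013.CntF6_398
open Crest.Agent.R013.CntB1_491 Crest.Agent.R013.CntB2_491 Crest.Agent.R013.CntB3_491
open Crest.Agent.R013.CntB4_491 Crest.Agent.R013.CntB7_491 Crest.Agent.R013.CntB8_491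
open Crest.Agent.R013.CntA1_560 Crest.Agent.R013.CntT3_262 Crest.Agent.R013.CntLoc_262

universe u v w

section level

variable {k : Type*} [Field k] [Finite k] {K : Type*} [Field K] [Algebra k K]
  [Algebra (RatFunc k) K] [IsScalarTower k (RatFunc k) K] [FiniteDimensional (RatFunc k) K]
  [Algebra.IsSeparable (RatFunc k) K]

/-- a character of order prime to `p`, with values in an extension, comes from `k` if `N ∣ q-1` -/
theorem exists_descend_char {F : Type*} [Field F] (ι : k →+* F) {N : ℕ}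
    (hN : N ∣ Nat.card k - 1) (ψ : AddChar (Pic k K) F) (hψ : ∀ z, ψ z ^ N = 1) :
    ∃ χ : AddChar (Pic k K) k, ∀ z, ι (χ z) = ψ z := by
  obtain ⟨m, hm⟩ := hN
  choose η hη using fun z => Z3_777.exists_eq_of_pow_eq_one hm.symm ι (hψ z)
  refine ⟨{ toFun := η, map_zero_eq_one' := ?_, map_add_eq_mul' := ?_ }, hη⟩
  · apply ι.injective
    rw [hη, AddChar.map_zero_eq_one, map_one]
  · intro a b
    apply ι.injective
    rw [map_mul, hη, hη, hη, AddChar.map_add_eq_mul]

theorem map_An {F : Type*} [Field F] (ι : k →+* F) (χ : Pic k K → k) (n : ℤ) :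
    ι (An χ n) = An (fun z => ι (χ z)) n := by
  unfold An
  rw [map_sum]

/-- the output at the level where `N ∣ q - 1` -/
theorem out_of_char (p : ℕ) [hp : Fact p.Prime] [CharP k p] (hc : algebraicClosure k K = ⊥)
    (hg : 1 ≤ gen k K) {N : ℕ} (hNp : N.Coprime p) (hN : N ∣ Nat.card k - 1)
    {F : Type*} [Field F] (ι : k →+* F) (ψ : AddChar (Pic k K) F) (hψ : ∀ z, ψ z ^ N = 1)
    (hψ1 : ∃ z ∈ Pic0 k K, ψ z ≠ 1) (hA : An (⇑ψ) (((gen k K - 1 : ℕ) : ℤ)) ≠ 0) :
    Out k K p := by
  classical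
  haveI := Fintype.ofFinite k
  haveI : CharP K p :=
    (RingHom.charP_iff (algebraMap k K) (algebraMap k K).injective p).mp inferInstance
  obtain ⟨χ, hχ⟩ := exists_descend_char ι hN ψ hψ
  have hχN : ∀ z, χ z ^ N = 1 := by
    intro z
    apply ι.injective
    rw [map_pow, hχ, hψ, map_one]
  have hχ1 : ∃ z ∈ Pic0 k K, χ z ≠ 1 := by
    obtain ⟨z, hz, hz1⟩ := hψ1
    refine ⟨z, hz, fun h => hz1 ?_⟩
    rw [← hχ, h, map_one]
  have hAχ : An (⇑χ) (((gen k K - 1 : ℕ) : ℤ)) ≠ 0 := by
    intro h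
    apply hA
    have h1 : (fun z => ι (χ z)) = ⇑ψ := funext hχ
    rw [← h1, ← map_An ι, h, map_zero]
  obtain ⟨f, h, E, hf, hh, hfE, hhE, hchi, hcls, hdeg⟩ :=
    Z3_777.exists_isChi_of_addChar hc (by rwa [← Nat.card_eq_fintype_card]) (RingHom.id k) χ hχN hχ1
  have hchi' : ∀ P : Pl k K, IsChi f E P (χ (cls (Finsupp.single P 1))) := by
    intro P
    obtain ⟨c, hc1, hc2⟩ := hchi P
    rw [← hc2]; exact hc1
  -- the order of `E`
  set N' := addOrderOf (cls E) with hN'
  have hNE : N • cls E = 0 := by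
    rw [← map_nsmul, ← hhE]; exact cls_divf hh
  have hN0 : 0 < N := by
    rcases Nat.eq_zero_or_pos N with h0 | h0
    · exfalso
      rw [h0, zero_dvd_iff] at hN
      have : 1 < Nat.card k := Finite.one_lt_card
      omega
    · exact h0
  have hdvd : N' ∣ N := addOrderOf_dvd_of_nsmul_eq_zero hNE
  have hN'0 : 0 < N' := Nat.pos_of_dvd_of_pos hdvd hN0
  have hN'1 : N' ≠ 1 := by
    intro h1
    exact hcls (AddMonoid.addOrderOf_eq_one_iff.mp h1)
  have hN'p : N'.Coprime p := Nat.Coprime.coprime_dvd_left hdvd hNp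
  obtain ⟨u, hu, huE⟩ : ∃ u : K, u ≠ 0 ∧ divf (k := k) u = N' • E := by
    apply cls_eq_zero_iff.mp
    rw [map_nsmul]
    exact addOrderOf_nsmul_eq_zero _
  have hcp : ∀ j : ℕ, cls (p ^ j • E) ≠ 0 := by
    intro j h0
    rw [map_nsmul] at h0
    have h1 : N' ∣ p ^ j := addOrderOf_dvd_of_nsmul_eq_zero h0
    exact hN'1 (Nat.Coprime.eq_one_of_dvd (Nat.Coprime.pow_right _ hN'p) h1)
  have hell : ∀ j : ℕ, ell (p ^ j • E) = 0 := by
    intro j
    unfold ell
    rw [LD_eq_bot_of (by rw [degD_nsmul, hdeg, mul_zero]) (hcp j)]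
    simp
  -- the trace formula
  obtain ⟨r, hr, hcard⟩ := FiniteField.card k p
  have hL := Euler_127.euler' χ (gen k K - 1)
  rw [Nat.sub_add_cancel hg] at hL
  have hcoef : (∑ n ∈ Finset.range (gen k K), C (An (fun z => χ z) (n : ℤ)) * X ^ n).coeff
      (gen k K - 1) ≠ 0 := by
    rw [finset_sum_coeff, Finset.sum_eq_single (gen k K - 1)]
    · rw [coeff_C_mul, coeff_X_pow, if_pos rfl, mul_one]
      exact hAχ
    · intro b _ hb
      rw [coeff_C_mul, coeff_X_pow, if_neg (Ne.symm hb), mul_zero]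
    · intro hb
      rw [Finset.mem_range, not_lt] at hb
      omega
  have hT := CntT4_262.FInj_of_coeff hc hg hcard r.pos hf hfE hdeg hell
    (fun P => χ (cls (Finsupp.single P 1))) hchi' _ hL hcoef
  refine ⟨N', -E, u⁻¹, by omega, hN'p, inv_ne_zero hu, ?_, ?_, ?_⟩
  · rw [divf_inv hu, huE, smul_neg]
  · intro m hm
    rw [smul_neg, map_neg, neg_eq_zero, map_nsmul] at hm
    exact addOrderOf_dvd_of_nsmul_eq_zero hm
  · intro j
    rw [smul_neg, neg_neg]
    intro x hx
    rw [V0_xK, V1_xK] at hx ⊢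
    rw [smul_smul, ← pow_succ'] at hx
    exact hT j x hx

end level

section order

/-- the multiplicative order of `q` modulo `N` is smaller than `N` -/
theorem exists_order {N q : ℕ} (hN : 2 ≤ N) (hq : q.Coprime N) :
    ∃ m : ℕ, 0 < m ∧ m < N ∧ N ∣ q ^ m - 1 := by
  haveI : NeZero N := ⟨by omega⟩
  haveI : Fact (1 < N) := ⟨by omega⟩
  set u := ZMod.unitOfCoprime q hq with hu
  refine ⟨orderOf u, orderOf_pos u, ?_, ?_⟩
  · have h1 : orderOf u ≤ Fintype.card (ZMod N)ˣ := orderOf_le_card_univ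
    rw [ZMod.card_units_eq_totient] at h1
    exact lt_of_le_of_lt h1 (Nat.totient_lt N (by omega))
  · have h1 : u ^ orderOf u = 1 := pow_orderOf_eq_one u
    have h2 : ((q ^ orderOf u : ℕ) : ZMod N) = ((1 : ℕ) : ZMod N) := by
      have h3 := congrArg (Units.val) h1
      rw [Units.val_pow_eq_pow_val, hu, ZMod.coe_unitOfCoprime] at h3
      push_cast
      exact h3
    have hq0 : 0 < q := by
      rcases Nat.eq_zero_or_pos q with h0 | h0
      · rw [h0, Nat.coprime_zero_left] at hq; omega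
      · exact h0
    have h4 : 1 ≤ q ^ orderOf u := Nat.one_le_pow _ _ hq0
    rw [ZMod.natCast_eq_natCast_iff] at h2
    exact (Nat.modEq_iff_dvd' h4).mp h2.symm

/-- exact order of a function killed by `N₀` -/
theorem exists_exact {Z M : Type*} [Monoid M] (ψ : Z → M) {N₀ : ℕ} (hN₀ : 0 < N₀)
    (h : ∀ z, ψ z ^ N₀ = 1) :
    ∃ N : ℕ, 0 < N ∧ N ∣ N₀ ∧ (∀ z, ψ z ^ N = 1) ∧ ∀ m, 0 < m → m < N → ∃ z, ψ z ^ m ≠ 1 := by
  classical
  have hex : ∃ N : ℕ, 0 < N ∧ ∀ z, ψ z ^ N = 1 := ⟨N₀, hN₀, h⟩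
  refine ⟨Nat.find hex, (Nat.find_spec hex).1, ?_, (Nat.find_spec hex).2, ?_⟩
  · set N := Nat.find hex with hN
    rw [Nat.dvd_iff_mod_eq_zero]
    by_contra hne
    have hlt : N₀ % N < N := Nat.mod_lt _ (Nat.find_spec hex).1
    apply Nat.find_min hex hlt
    refine ⟨Nat.pos_of_ne_zero hne, fun z => ?_⟩
    have h1 := h z
    rw [← Nat.div_add_mod N₀ N, pow_add, pow_mul, (Nat.find_spec hex).2, one_pow, one_mul] at h1
    exact h1
  · intro m hm hlt
    by_contra hcon
    push Not at hcon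
    exact Nat.find_min hex hlt ⟨hm, hcon⟩

end order

section final

variable {k : Type u} [Field k] [Finite k] {K : Type v} [Field K] [Algebra k K]
  [Algebra (RatFunc k) K] [IsScalarTower k (RatFunc k) K] [FiniteDimensional (RatFunc k) K]
  [Algebra.IsSeparable (RatFunc k) K]

/-- from a field with many rational places -/
theorem exists_level_of_many (p : ℕ) [hp : Fact p.Prime] [CharP k p]
    (hc : algebraicClosure k K = ⊥) (hg : 1 ≤ gen k K) (R : Finset (Pl k K))
    (hR : ∀ P ∈ R, degP P = 1)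
    (hN : 2 * gen k K ^ 2 * Nat.card (CntG3_398.Ptor p (Pic0 k K)) < R.card) :
    ∃ E : CExt.{u, v, u} k K, Out E.k' E.K' p := by
  classical
  haveI : CharP (AlgebraicClosure k) p :=
    (RingHom.charP_iff (algebraMap k (AlgebraicClosure k))
      (algebraMap k (AlgebraicClosure k)).injective p).mp inferInstance
  obtain ⟨P₀, hP₀R⟩ : R.Nonempty := by
    rw [← Finset.card_pos]; omega
  obtain ⟨ψ, hψ1, hψP, ⟨N₀, hN₀, hN₀p, hψN₀⟩, hsum⟩ :=
    CntG_398.exists_psi (E := AlgebraicClosure k) p hc hg R hR hN P₀ (hR P₀ hP₀R)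
  -- the exact order
  obtain ⟨N, hNpos, hNdvd, hψN, hmin⟩ := exists_exact (⇑ψ) hN₀ hψN₀
  have hNp : N.Coprime p := Nat.Coprime.coprime_dvd_left hNdvd hN₀p
  have hN2 : 2 ≤ N := by
    by_contra hlt
    have hN1 : N = 1 := by omega
    obtain ⟨z, _, hz⟩ := hψ1
    have h1 := hψN z
    rw [hN1, pow_one] at h1
    exact hz h1
  haveI := Fintype.ofFinite k
  obtain ⟨r, hr, hcard⟩ := FiniteField.card k p
  have hq : (Nat.card k).Coprime N := by
    rw [Nat.card_eq_fintype_card, hcard]
    exact Nat.Coprime.pow_left _ hNp.symm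
  obtain ⟨m, hm0, hmN, hmdvd⟩ := exists_order hN2 hq
  -- a degree zero class with `ψ(z)^m ≠ 1`
  obtain ⟨z, hz0, hzm⟩ : ∃ z ∈ Pic0 k K, ψ z ^ m ≠ 1 := by
    obtain ⟨z, hz⟩ := hmin m hm0 hmN
    refine ⟨z - degPic z • cls (Finsupp.single P₀ 1), ?_, ?_⟩
    · rw [mem_Pic0, map_sub, map_zsmul, degPic_cls, degD_single, hR P₀ hP₀R]
      simp
    · rw [AddChar.map_sub_eq_div, AddChar.map_zsmul_eq_zpow, hψP, one_zpow, div_one]
      exact hz
  -- the constant extension of degree `m`
  obtain ⟨E, hE⟩ := exists_CExt_of_finite.{u, v, u} hc m (by omega)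
  have hcardE : Nat.card E.k' = Nat.card k ^ m := by
    rw [← hE]; exact Module.natCard_eq_pow_finrank (K := k)
  haveI : CharP E.k' p :=
    (RingHom.charP_iff (algebraMap k E.k') (algebraMap k E.k').injective p).mp inferInstance
  let ι : E.k' →ₐ[k] AlgebraicClosure k := IsAlgClosed.lift
  have hgE : gen E.k' E.K' = gen k K := gen_eq E.ce
  haveI : IsGalois k E.k' := inferInstance
  have hq0 : (Nat.card k : AlgebraicClosure k) = 0 := natCard_cast_eq_zero p
  have hA0 : An (⇑ψ) (((gen k K - 1 : ℕ) : ℤ)) ≠ 0 := by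
    rw [An_eq_finsum hq0]
    have h1 : ((gen k K - 1 : ℕ) : ℤ) = (gen k K : ℤ) - 1 := by
      rw [Nat.cast_sub hg]; simp
    rw [h1]; exact hsum
  have hAz : ∀ n : ℕ, gen k K - 1 < n → An (⇑ψ) (n : ℤ) = 0 := by
    intro n hn
    obtain ⟨x, hx, hx1⟩ := hψ1
    apply An_eq_zero_of_le hq0 ψ hx hx1
    have h1 : gen k K ≤ n := by omega
    have h2 : gen k K = ell (canD k K) := rfl
    rw [← h2]
    exact_mod_cast h1
  refine ⟨E, out_of_char p E.ce.hc' (by rw [hgE]; exact hg) hNp (by rw [hcardE]; exact hmdvd)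
    (ι : E.k' →+* AlgebraicClosure k) (ψ.compAddMonoidHom (nmPic E.ce)) ?_ ?_ ?_⟩
  · intro z
    rw [AddChar.compAddMonoidHom_apply]
    exact hψN _
  · refine ⟨conPic E.ce z, ?_, ?_⟩
    · rw [mem_Pic0, degPic_conPic]
      exact mem_Pic0.mp hz0
    · rw [AddChar.compAddMonoidHom_apply, nmPic_conPic, hE, AddChar.map_nsmul_eq_pow]
      exact hzm
  · rw [hgE]
    exact An_nm_ne_zero E.ce ψ hAz hA0

/-- **COUNT at a finite level** -/
theorem exists_out (p : ℕ) [hp : Fact p.Prime] [CharP k p]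
    (hc : algebraicClosure k K = ⊥) (hg : 1 ≤ gen k K) :
    ∃ E : CExt.{u, v, u} k K, Out E.k' E.K' p := by
  obtain ⟨E₁, R, hR, hN⟩ := CntP_127.exists_rat_places p hc
  haveI : CharP E₁.k' p :=
    (RingHom.charP_iff (algebraMap k E₁.k') (algebraMap k E₁.k').injective p).mp inferInstance
  have hgE : gen E₁.k' E₁.K' = gen k K := gen_eq E₁.ce
  obtain ⟨E₂, hE₂⟩ := exists_level_of_many p (hc_CExt E₁) (by rw [hgE]; exact hg) R hR hN
  exact ⟨E₁.trans E₂, hE₂⟩

end final

/-- **COUNT** over an algebraic closure `FF` of `F_p` (frozen shape): every function field `C/FF` of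
genus `≥ 1` has a divisor class `E` of exact order `N ≥ 2` prime to `p`, `N E = div u`, such that
`div (df) ≥ p^(j+1) E` implies `df = 0`, for all `j` (the Cartier operator is injective on
`H⁰(Ω(-p^(j+1) E))`). -/
theorem count (p : ℕ) [hp : Fact p.Prime] {FF : Type u} {C : Type v} [Field FF] [Field C]
    [Algebra (ZMod p) FF] [Algebra.IsAlgebraic (ZMod p) FF] [IsAlgClosed FF] [Algebra FF C]
    [Algebra (RatFunc FF) C] [IsScalarTower FF (RatFunc FF) C]
    [FiniteDimensional (RatFunc FF) C] [Algebra.IsSeparable (RatFunc FF) C]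
    (hg : 1 ≤ gen FF C) : OutC p FF C := by
  apply outC_of p hg
  intro k K _ _ _ _ _ _ _ _ _ hc hg'
  exact exists_out p hc hg'

end Crest.Agent.R013.CntF7_398
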