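import Mathlib
import Crest.Agent.R013.Hens1_899
import Crest.Agent.R013.RR7_948

/-!
# Row 13, leaf C-INH (helper770), part 1: abstract ends

`REnd C E` : a field `E` (the field `EE k C` of helper809) with a rank one norm `gn` and the order
`od` of the reduction.  An *end* of a field `K ⊇ C` is a ring homomorphism `φ : K → E`.  It induces
the norm `gn ∘ φ` and a discrete valuation of its residue field.

Let `L/K` be finite Galois with group `G`, `φ : K → E` an end, `ψ : L → E` an end over `φ`.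

* `uniq` : if `L/K` is étale at the norm `gn ∘ φ`, two ends `ψ₁, ψ₂` of `L` over `φ` with the same
  `gn` and `od` are equal.
* `trans` : every pair (norm `w` of `L`, place `y` of its residue field) over the pair of `φ` is the
  pair of `ψ ∘ σ` for some `σ ∈ G`.
-/

set_option autoImplicit false
set_option linter.unusedSectionVars false
open Polynomial WithZero

namespace Crest.Agent.R013.Inh_770

section Compos

variable {L : Type*} [Field L]

/-- composite of a valuation ring and a valuation ring of its residue field -/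
def compos (A : ValuationSubring L) (B : ValuationSubring (IsLocalRing.ResidueField A)) :
    ValuationSubring L where
  carrier := {f | ∃ h : f ∈ A, IsLocalRing.residue A ⟨f, h⟩ ∈ B}
  mul_mem' := by
    rintro a b ⟨ha, ha'⟩ ⟨hb, hb'⟩
    refine ⟨mul_mem ha hb, ?_⟩
    have : (⟨a * b, mul_mem ha hb⟩ : A) = ⟨a, ha⟩ * ⟨b, hb⟩ := rfl
    rw [this, map_mul]
    exact mul_mem ha' hb'
  one_mem' := ⟨one_mem _, by
    have : (⟨1, one_mem _⟩ : A) = 1 := rfl
    rw [this, map_one]
    exact one_mem _⟩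
  add_mem' := by
    rintro a b ⟨ha, ha'⟩ ⟨hb, hb'⟩
    refine ⟨add_mem ha hb, ?_⟩
    have : (⟨a + b, add_mem ha hb⟩ : A) = ⟨a, ha⟩ + ⟨b, hb⟩ := rfl
    rw [this, map_add]
    exact add_mem ha' hb'
  zero_mem' := ⟨zero_mem _, by
    have : (⟨0, zero_mem _⟩ : A) = 0 := rfl
    rw [this, map_zero]
    exact zero_mem _⟩
  neg_mem' := by
    rintro a ⟨ha, ha'⟩
    refine ⟨neg_mem ha, ?_⟩
    have : (⟨-a, neg_mem ha⟩ : A) = -⟨a, ha⟩ := rfl
    rw [this, map_neg]
    exact neg_mem ha'
  mem_or_inv_mem' := by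
    intro f
    by_cases h0 : f = 0
    · left
      subst h0
      exact ⟨zero_mem _, by
        have : (⟨0, zero_mem _⟩ : A) = 0 := rfl
        rw [this, map_zero]
        exact zero_mem _⟩
    by_cases h1 : f ∈ A
    · by_cases h2 : f⁻¹ ∈ A
      · have h3 : IsLocalRing.residue A ⟨f, h1⟩ * IsLocalRing.residue A ⟨f⁻¹, h2⟩ = 1 := by
          rw [← map_mul]
          have : (⟨f, h1⟩ * ⟨f⁻¹, h2⟩ : A) = 1 := Subtype.ext (mul_inv_cancel₀ h0)
          rw [this, map_one]
        rcases B.mem_or_inv_mem (IsLocalRing.residue A ⟨f, h1⟩) with h4 | h4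
        · exact Or.inl ⟨h1, h4⟩
        · rw [inv_eq_of_mul_eq_one_right h3] at h4
          exact Or.inr ⟨h2, h4⟩
      · left
        refine ⟨h1, ?_⟩
        have h3 : IsLocalRing.residue A ⟨f, h1⟩ = 0 := by
          rw [IsLocalRing.residue_eq_zero_iff, IsLocalRing.mem_maximalIdeal, mem_nonunits_iff]
          intro h4
          apply h2
          obtain ⟨u, hu⟩ := h4
          have h5 : (⟨f, h1⟩ : A) * ↑u⁻¹ = 1 := by rw [← hu]; exact u.mul_inv
          have h6 : f * ((u⁻¹ : Aˣ) : A).1 = 1 := congrArg Subtype.val h5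
          rw [inv_eq_of_mul_eq_one_right h6]
          exact ((u⁻¹ : Aˣ) : A).2
        rw [h3]
        exact zero_mem _
    · right
      have h2 : f⁻¹ ∈ A := (A.mem_or_inv_mem f).resolve_left h1
      refine ⟨h2, ?_⟩
      have h3 : IsLocalRing.residue A ⟨f⁻¹, h2⟩ = 0 := by
        rw [IsLocalRing.residue_eq_zero_iff, IsLocalRing.mem_maximalIdeal, mem_nonunits_iff]
        intro h4
        apply h1
        obtain ⟨u, hu⟩ := h4
        have h5 : (⟨f⁻¹, h2⟩ : A) * ↑u⁻¹ = 1 := by rw [← hu]; exact u.mul_inv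
        have h6 : f⁻¹ * ((u⁻¹ : Aˣ) : A).1 = 1 := congrArg Subtype.val h5
        have h7 := inv_eq_of_mul_eq_one_right h6
        rw [inv_inv] at h7
        rw [h7]
        exact ((u⁻¹ : Aˣ) : A).2
      rw [h3]
      exact zero_mem _


end Compos

theorem isUnit_iff {F Γ : Type*} [Field F] [LinearOrderedCommGroupWithZero Γ] (v : Valuation F Γ)
    (x : v.valuationSubring) : IsUnit x ↔ v x = 1 :=
  (Valuation.valuationSubring.integers v).isUnit_iff_valuation_eq_one

theorem residue_eq_zero_iff {F Γ : Type*} [Field F] [LinearOrderedCommGroupWithZero Γ]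
    (v : Valuation F Γ) (x : v.valuationSubring) :
    IsLocalRing.residue v.valuationSubring x = 0 ↔ v x < 1 := by
  rw [IsLocalRing.residue_eq_zero_iff, IsLocalRing.mem_maximalIdeal, mem_nonunits_iff, isUnit_iff]
  exact ⟨fun h => lt_of_le_of_ne x.2 h, fun h => h.ne⟩


/-- A boundary field: norm `gn`, order of the reduction `od`. -/
structure REnd (C E : Type*) [Field C] [Field E] [Algebra C E] (nC : Valuation C NNReal) where
  /-- the norm -/
  gn : Valuation E NNReal
  /-- the order of the reduction -/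
  od : E → ℤ
  gn_C : ∀ c : C, gn (algebraMap C E c) = nC c
  gn_val : ∀ a : E, a ≠ 0 → ∃ c : C, gn a = nC c
  od_C : ∀ c : C, c ≠ 0 → od (algebraMap C E c) = 0
  od_mul : ∀ a b : E, a ≠ 0 → b ≠ 0 → od (a * b) = od a + od b
  od_add : ∀ a b : E, a ≠ 0 → gn (a + b) = gn a →
    (gn b < gn a ∨ gn b = gn a ∧ od a ≤ od b) → od a ≤ od (a + b)
  approx : ∀ a b : E, a ≠ 0 → b ≠ 0 → gn a = gn b → od a = od b →
    ∃ c : C, nC c = 1 ∧ (gn (a - algebraMap C E c * b) < gn a ∨
      (gn (a - algebraMap C E c * b) = gn a ∧ od a < od (a - algebraMap C E c * b)))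

namespace REnd

variable {C E : Type*} [Field C] [Field E] [Algebra C E] {nC : Valuation C NNReal}
  (D : REnd C E nC)

theorem od_one : D.od 1 = 0 := by
  have := D.od_mul 1 1 one_ne_zero one_ne_zero
  rw [one_mul] at this
  omega

theorem od_neg (a : E) (ha : a ≠ 0) : D.od (-a) = D.od a := by
  have h1 : D.od ((-1) * (-1)) = D.od (-1) + D.od (-1) :=
    D.od_mul (-1) (-1) (by simp) (by simp)
  rw [neg_mul_neg, one_mul, D.od_one] at h1
  have h2 := D.od_mul (-1) a (by simp) ha
  rw [neg_one_mul] at h2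
  omega

/-- adding something of smaller norm does not change the order -/
theorem od_add_lt (a b : E) (h : D.gn b < D.gn a) : D.od (a + b) = D.od a := by
  have ha : a ≠ 0 := by
    rintro rfl; rw [map_zero] at h; exact not_lt_zero h
  have h1 : D.gn (a + b) = D.gn a := Valuation.map_add_eq_of_lt_left D.gn h
  have hab : a + b ≠ 0 := by
    intro h2; rw [h2, map_zero] at h1; rw [← h1] at h; exact not_lt_zero h
  have h2 := D.od_add a b ha h1 (Or.inl h)
  have h3 := D.od_add (a + b) (-b) hab (by rw [add_neg_cancel_right]; exact h1.symm)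
    (Or.inl (by rw [Valuation.map_neg, h1]; exact h))
  rw [add_neg_cancel_right] at h3
  omega

/-- ultrametric inequality for the order -/
theorem od_add_ge (a b : E) (n : ℤ) (r : NNReal) (hr : D.gn (a + b) = r) (ha : D.gn a ≤ r)
    (hb : D.gn b ≤ r) (h0 : a + b ≠ 0)
    (ha' : D.gn a = r → n ≤ D.od a) (hb' : D.gn b = r → n ≤ D.od b) : n ≤ D.od (a + b) := by
  have hr0 : r ≠ 0 := by
    rw [← hr]; exact (Valuation.ne_zero_iff _).2 h0
  rcases ha.lt_or_eq with h1 | h1
  · rcases hb.lt_or_eq with h2 | h2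
    · exact absurd hr (Valuation.map_add_lt D.gn h1 h2).ne
    · rw [add_comm, D.od_add_lt b a (by rw [h2]; exact h1)]
      exact hb' h2
  · rcases hb.lt_or_eq with h2 | h2
    · rw [D.od_add_lt a b (by rw [h1]; exact h2)]
      exact ha' h1
    · have ha0 : a ≠ 0 := by
        rintro rfl; rw [map_zero] at h1; exact hr0 h1.symm
      have hb0 : b ≠ 0 := by
        rintro rfl; rw [map_zero] at h2; exact hr0 h2.symm
      rcases le_total (D.od a) (D.od b) with h3 | h3
      · exact (ha' h1).trans (D.od_add a b ha0 (by rw [hr, h1]) (Or.inr ⟨by rw [h1, h2], h3⟩))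
      · rw [add_comm]
        exact (hb' h2).trans (D.od_add b a hb0 (by rw [add_comm, hr, h2])
          (Or.inr ⟨by rw [h1, h2], h3⟩))

/-- truncated smallness: `gn < 1` or `od ≥ N` -/
def Sm (N : ℤ) (a : E) : Prop := D.gn a < 1 ∨ (D.gn a = 1 ∧ N ≤ D.od a)

theorem Sm.add {N : ℤ} {a b : E} (ha : D.Sm N a) (hb : D.Sm N b) : D.Sm N (a + b) := by
  have ha1 : D.gn a ≤ 1 := ha.elim le_of_lt fun h => h.1.le
  have hb1 : D.gn b ≤ 1 := hb.elim le_of_lt fun h => h.1.le
  have h1 : D.gn (a + b) ≤ 1 := (Valuation.map_add _ _ _).trans (max_le ha1 hb1)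
  rcases h1.lt_or_eq with h2 | h2
  · exact Or.inl h2
  · refine Or.inr ⟨h2, D.od_add_ge a b N 1 h2 ha1 hb1 ?_ ?_ ?_⟩
    · intro h3; rw [h3, map_zero] at h2; exact zero_ne_one h2
    · intro h3
      rcases ha with h4 | h4
      · rw [h3] at h4; exact absurd h4 (lt_irrefl _)
      · exact h4.2
    · intro h3
      rcases hb with h4 | h4
      · rw [h3] at h4; exact absurd h4 (lt_irrefl _)
      · exact h4.2

theorem Sm.neg {N : ℤ} {a : E} (ha : D.Sm N a) : D.Sm N (-a) := by
  rcases ha with h | h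
  · left; rw [Valuation.map_neg]; exact h
  · right
    rw [Valuation.map_neg]
    refine ⟨h.1, ?_⟩
    rw [D.od_neg]
    · exact h.2
    · rintro rfl; have := h.1; rw [map_zero] at this; exact zero_ne_one this

theorem Sm.sub {N : ℤ} {a b : E} (ha : D.Sm N a) (hb : D.Sm N b) : D.Sm N (a - b) := by
  rw [sub_eq_add_neg]
  exact Sm.add D ha (Sm.neg D hb)

/-- the rank two valuation ring of `E` -/
def R2 : ValuationSubring E where
  carrier := {a | D.Sm 0 a}
  mul_mem' := by
    intro a b ha hb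
    have ha : D.Sm 0 a := ha
    have hb : D.Sm 0 b := hb
    change D.Sm 0 (a * b)
    have ha1 : D.gn a ≤ 1 := ha.elim le_of_lt fun h => h.1.le
    have hb1 : D.gn b ≤ 1 := hb.elim le_of_lt fun h => h.1.le
    rcases ha with ha | ha
    · left
      rw [map_mul]
      exact lt_of_le_of_lt (mul_le_of_le_one_right' hb1) ha
    · rcases hb with hb | hb
      · left
        rw [map_mul]
        exact lt_of_le_of_lt (mul_le_of_le_one_left' ha1) hb
      · right
        have ha0 : a ≠ 0 := by
          rintro rfl; have := ha.1; rw [map_zero] at this; exact zero_ne_one this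
        have hb0 : b ≠ 0 := by
          rintro rfl; have := hb.1; rw [map_zero] at this; exact zero_ne_one this
        rw [map_mul, ha.1, hb.1, one_mul, D.od_mul a b ha0 hb0]
        exact ⟨rfl, add_nonneg ha.2 hb.2⟩
  one_mem' := Or.inr ⟨map_one _, by rw [D.od_one]⟩
  add_mem' := by
    intro a b ha hb
    exact Sm.add D ha hb
  zero_mem' := Or.inl (by rw [map_zero]; exact zero_lt_one)
  neg_mem' := by
    intro a ha
    exact Sm.neg D ha
  mem_or_inv_mem' := by
    intro a
    change D.Sm 0 a ∨ D.Sm 0 a⁻¹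
    by_cases h0 : a = 0
    · left; left; rw [h0, map_zero]; exact zero_lt_one
    rcases lt_trichotomy (D.gn a) 1 with h | h | h
    · exact Or.inl (Or.inl h)
    · have h1 : D.gn a⁻¹ = 1 := by rw [map_inv₀, h, inv_one]
      have h2 := D.od_mul a a⁻¹ h0 (inv_ne_zero h0)
      rw [mul_inv_cancel₀ h0, D.od_one] at h2
      rcases le_total 0 (D.od a) with h3 | h3
      · exact Or.inl (Or.inr ⟨h, h3⟩)
      · exact Or.inr (Or.inr ⟨h1, by omega⟩)
    · right; left
      rw [map_inv₀]
      exact inv_lt_one_of_one_lt₀ h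



section Uniq

variable {K L : Type*} [Field K] [Field L] [Algebra C K] [Algebra C L] [Algebra K L]
  [IsScalarTower C K L]

/-- approximation of an element of an extension with the same end by elements of `K` -/
theorem exists_approx (φ : K →+* E) (hφC : ∀ c : C, φ (algebraMap C K c) = algebraMap C E c)
    (t : K) (ht : D.gn (φ t) = 1) (ht' : D.od (φ t) = 1) (a : E) (ha : D.gn a ≤ 1) (N : ℕ) :
    ∃ h : K, D.gn (φ h) ≤ 1 ∧ D.Sm (D.od a + N) (a - φ h) := by
  have ht0 : φ t ≠ 0 := by
    intro h; rw [h, map_zero] at ht; exact zero_ne_one ht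
  have htn : ∀ m : ℤ, D.gn (φ (t ^ m)) = 1 ∧ D.od (φ (t ^ m)) = m := by
    have hz : ∀ m : ℕ, D.od (φ t ^ m) = m := by
      intro m
      induction m with
      | zero => rw [pow_zero, D.od_one]; rfl
      | succ m ih =>
        rw [pow_succ, D.od_mul _ _ (pow_ne_zero _ ht0) ht0, ih, ht']
        push_cast; rfl
    intro m
    rw [map_zpow₀, map_zpow₀, ht, one_zpow]
    refine ⟨rfl, ?_⟩
    obtain ⟨m, rfl | rfl⟩ := m.eq_nat_or_neg
    · rw [zpow_natCast, hz]
    · have h1 := D.od_mul (φ t ^ m) (φ t ^ (-(m : ℤ))) (pow_ne_zero _ ht0) (zpow_ne_zero _ ht0)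
      rw [zpow_neg, zpow_natCast, mul_inv_cancel₀ (pow_ne_zero _ ht0), D.od_one, hz] at h1
      rw [zpow_neg, zpow_natCast]
      omega
  induction N with
  | zero =>
    refine ⟨0, by rw [map_zero, map_zero]; exact zero_le_one, ?_⟩
    rw [map_zero, sub_zero, Nat.cast_zero, add_zero]
    rcases ha.lt_or_eq with h | h
    · exact Or.inl h
    · exact Or.inr ⟨h, le_rfl⟩
  | succ N ih =>
    obtain ⟨h, hh1, hh2⟩ := ih
    rcases hh2 with h2 | ⟨h2, h3⟩
    · exact ⟨h, hh1, Or.inl h2⟩
    rcases h3.lt_or_eq with h3 | h3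
    · refine ⟨h, hh1, Or.inr ⟨h2, ?_⟩⟩
      push_cast
      omega
    set r := a - φ h with hr
    have hr0 : r ≠ 0 := by
      intro h4; rw [h4, map_zero] at h2; exact zero_ne_one h2
    obtain ⟨ht1, ht2⟩ := htn (D.od a + N)
    obtain ⟨c, hc1, hc2⟩ := D.approx r (φ (t ^ (D.od a + N))) hr0
      (by intro h4; rw [h4, map_zero] at ht1; exact zero_ne_one ht1) (by rw [h2, ht1])
      (by rw [ht2, h3])
    refine ⟨h + algebraMap C K c * t ^ (D.od a + N), ?_, ?_⟩
    · rw [map_add, map_mul, hφC]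
      refine (Valuation.map_add _ _ _).trans (max_le hh1 ?_)
      rw [map_mul, D.gn_C, hc1, ht1, one_mul]
    · have h5 : a - φ (h + algebraMap C K c * t ^ (D.od a + N)) =
          r - algebraMap C E c * φ (t ^ (D.od a + N)) := by
        rw [map_add, map_mul, hφC, hr]; ring
      rw [h5]
      rcases hc2 with h6 | ⟨h6, h7⟩
      · left; rw [← h2]; exact h6
      · right
        rw [h6, h2]
        refine ⟨rfl, ?_⟩
        push_cast
        omega

/-- the étale condition at a norm `v` of `K`: `L = K(θ)`, `θ` a root of a monic `F` with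
`v`-integral coefficients and separable reduction -/
def EtaleAt (K L : Type*) [Field K] [Field L] [Algebra K L] (v : Valuation K NNReal) : Prop :=
  ∃ (F : v.valuationSubring[X]) (θ : L), F.Monic ∧
    (F.map (IsLocalRing.residue v.valuationSubring)).Separable ∧
    IntermediateField.adjoin K {θ} = ⊤ ∧ aeval θ (F.map v.valuationSubring.subtype) = 0



end Uniq


section ResV

variable {L : Type*} [Field L] (w : Valuation L NNReal) (ψ : L →+* E)
  (hw : ∀ f, w f = D.gn (ψ f))






end ResV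

section Trans

variable {K L : Type*} [Field K] [Field L] [Algebra K L] [Algebra C L]
  [FiniteDimensional K L] [IsGalois K L]

/-- **Transitivity.** Every pair (norm, place of the residue field) of `L` over the pair of the end
`φ` is the pair of `ψ ∘ σ`. -/
theorem trans (hnt : ∃ c : C, nC c ≠ 0 ∧ nC c < 1) (φ : K →+* E) (ψ : L →+* E)
    (hψ : ψ.comp (algebraMap K L) = φ) (hψC : ∀ c : C, ψ (algebraMap C L c) = algebraMap C E c)
    (w : Valuation L NNReal) (hwC : ∀ c : C, w (algebraMap C L c) = nC c)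
    (σC : ∀ (σ : L ≃ₐ[K] L) (c : C), σ (algebraMap C L c) = algebraMap C L c)
    (hw : ∀ f : K, w (algebraMap K L f) = D.gn (φ f))
    (y : Valuation (IsLocalRing.ResidueField w.valuationSubring) ℤᵐ⁰)
    (hy : ∀ (f : K) (h : w (algebraMap K L f) = 1),
      y (IsLocalRing.residue w.valuationSubring ⟨algebraMap K L f, h.le⟩) ≤ 1 ↔ 0 ≤ D.od (φ f)) :
    ∃ σ : L ≃ₐ[K] L, (∀ f, w f = D.gn (ψ (σ f))) ∧
      ∀ (f : L) (h : w f = 1),
        (y (IsLocalRing.residue w.valuationSubring ⟨f, h.le⟩) ≤ 1 ↔ 0 ≤ D.od (ψ (σ f))) := by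
  set A : ValuationSubring L := D.R2.comap ψ with hA
  set B : ValuationSubring L := compos w.valuationSubring y.valuationSubring with hB
  have hAmem : ∀ f : L, f ∈ A ↔ D.gn (ψ f) < 1 ∨ (D.gn (ψ f) = 1 ∧ 0 ≤ D.od (ψ f)) := fun f =>
    Iff.rfl
  have hBmem : ∀ f : L, f ∈ B ↔ w f < 1 ∨ ∃ h : w f = 1,
      y (IsLocalRing.residue w.valuationSubring ⟨f, h.le⟩) ≤ 1 := by
    intro f
    constructor
    · rintro ⟨h1, h2⟩
      have h1' : w f ≤ 1 := h1
      rcases h1'.lt_or_eq with h3 | h3
      · exact Or.inl h3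
      · exact Or.inr ⟨h3, h2⟩
    · rintro (h | ⟨h, h'⟩)
      · refine ⟨h.le, ?_⟩
        rw [(residue_eq_zero_iff w _).2 h]
        exact zero_mem _
      · exact ⟨h.le, h'⟩
  have hK : ∀ f : K, algebraMap K L f ∈ A ↔ algebraMap K L f ∈ B := by
    intro f
    have h1 : ψ (algebraMap K L f) = φ f := by rw [← hψ]; rfl
    rw [hAmem, hBmem, h1]
    constructor
    · rintro (h | ⟨h, h'⟩)
      · exact Or.inl (by rw [hw]; exact h)
      · exact Or.inr ⟨by rw [hw]; exact h, (hy f (by rw [hw]; exact h)).2 h'⟩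
    · rintro (h | ⟨h, h'⟩)
      · exact Or.inl (by rw [← hw]; exact h)
      · exact Or.inr ⟨by rw [← hw]; exact h, (hy f h).1 h'⟩
  obtain ⟨σ, hσ⟩ := Hens_899.conj_fin (K := K) A.valuation B.valuation (fun a => by
    rw [ValuationSubring.valuation_le_one_iff, ValuationSubring.valuation_le_one_iff]
    exact hK a)
  have hσ' : ∀ f, σ f ∈ A ↔ f ∈ B := by
    intro f
    have := hσ f
    rwa [ValuationSubring.valuation_le_one_iff, ValuationSubring.valuation_le_one_iff] at this
  obtain ⟨c, hc0, hc1⟩ := hnt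
  -- the two norms are equivalent
  have hle : ∀ f, w f ≤ 1 ↔ D.gn (ψ (σ f)) ≤ 1 := by
    intro f
    have hBf : ∀ m : ℕ, w f ≤ 1 → algebraMap C L c * f ^ m ∈ B := by
      intro m h
      rw [hBmem]
      left
      rw [map_mul, hwC, map_pow]
      exact lt_of_le_of_lt (mul_le_of_le_one_right' (pow_le_one₀ zero_le h)) hc1
    have hAf : ∀ m : ℕ, D.gn (ψ (σ f)) ≤ 1 → σ (algebraMap C L c * f ^ m) ∈ A := by
      intro m h
      rw [hAmem]
      left
      rw [map_mul, map_mul, σC, hψC, map_mul, D.gn_C, map_pow, map_pow, map_pow]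
      exact lt_of_le_of_lt (mul_le_of_le_one_right' (pow_le_one₀ zero_le h)) hc1
    constructor
    · intro h
      by_contra hcon
      rw [not_le] at hcon
      obtain ⟨m, hm⟩ := pow_unbounded_of_one_lt ((nC c)⁻¹) hcon
      have h1 := (hσ' _).2 (hBf m h)
      rw [hAmem, map_mul, map_mul, σC, hψC, map_mul, D.gn_C, map_pow, map_pow, map_pow] at h1
      have h2 : 1 < nC c * D.gn (ψ (σ f)) ^ m := by
        have := mul_lt_mul_of_pos_left hm (zero_lt_iff.2 hc0)
        rwa [mul_inv_cancel₀ hc0] at this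
      rcases h1 with h1 | ⟨h1, -⟩
      · exact lt_asymm h1 h2
      · exact h2.ne' h1
    · intro h
      by_contra hcon
      rw [not_le] at hcon
      obtain ⟨m, hm⟩ := pow_unbounded_of_one_lt ((nC c)⁻¹) hcon
      have h1 := (hBmem _).1 ((hσ' _).1 (hAf m h))
      have h2 : 1 < nC c * w f ^ m := by
        have := mul_lt_mul_of_pos_left hm (zero_lt_iff.2 hc0)
        rwa [mul_inv_cancel₀ hc0] at this
      have h3 : w (algebraMap C L c * f ^ m) = nC c * w f ^ m := by
        rw [map_mul, hwC, map_pow]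
      rcases h1 with h1 | ⟨h1, -⟩
      · rw [h3] at h1; exact lt_asymm h1 h2
      · rw [h3] at h1; exact h2.ne' h1
  have heq1 : ∀ f, D.gn (ψ (σ f)) = 1 → w f = 1 := by
    intro f h
    have hf0 : f ≠ 0 := by
      rintro rfl; rw [map_zero, map_zero, map_zero] at h; exact zero_ne_one h
    refine le_antisymm ((hle f).2 h.le) ?_
    have h1 := (hle f⁻¹).2 (by rw [map_inv₀, map_inv₀, map_inv₀, h, inv_one])
    rw [map_inv₀] at h1
    have h2 : 0 < w f := zero_lt_iff.2 ((Valuation.ne_zero_iff w).2 hf0)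
    exact (inv_le_one₀ h2).1 h1
  have heq : ∀ f, w f = D.gn (ψ (σ f)) := by
    intro f
    by_cases hf : f = 0
    · rw [hf, map_zero, map_zero, map_zero, map_zero]
    obtain ⟨b, hb⟩ := D.gn_val (ψ (σ f)) (by simpa using hf)
    have hb0 : nC b ≠ 0 := by
      rw [← hb]; exact (Valuation.ne_zero_iff _).2 (by simpa using hf)
    have h1 := heq1 (algebraMap C L b⁻¹ * f) (by
      rw [map_mul, map_mul, σC, hψC, map_mul, D.gn_C, hb, map_inv₀, inv_mul_cancel₀ hb0])
    rw [map_mul, hwC, map_inv₀] at h1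
    rw [hb]
    rw [inv_mul_eq_iff_eq_mul₀ hb0, mul_one] at h1
    exact h1
  refine ⟨σ, heq, fun f h => ?_⟩
  have h1 : D.gn (ψ (σ f)) = 1 := by rw [← heq, h]
  have h2 := hσ' f
  rw [hAmem, hBmem] at h2
  constructor
  · intro h3
    rcases h2.2 (Or.inr ⟨h, h3⟩) with h4 | ⟨-, h4⟩
    · exact absurd h1 h4.ne
    · exact h4
  · intro h3
    rcases h2.1 (Or.inr ⟨h1, h3⟩) with h4 | ⟨_, h4⟩
    · exact absurd h h4.ne
    · exact h4

end Trans

end REnd

end Crest.Agent.R013.Inh_770
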