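import Mathlib
import Crest.Agent.R013.Inh1_770
import Crest.Agent.R013.RR18_948
import Crest.Agent.R013.SSDefs_332
import Crest.Agent.R013.EE4_809
import Crest.Agent.R013.Red3_332
import Crest.Agent.R013.RR20_948

-- ▼ part R013/Inh2_770
section

/-!
# Row 13, leaf C-INH (helper770), part 2: Galois extensions and ends

* `ends_conj` : two homs `ψ₁, ψ₂ : L → E` over the same `K → E`, `L/K` normal, differ by an element
  of the Galois group.
* `NoInertia w` : trivial inertia group.  `fix_of_noInertia`, `fix_of_dense`: an element of the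
  Galois group which preserves (`gn`, `od`) of an end is trivial.
* `pair_unique`, `pair_exists` : `Gal(L/K)` acts simply transitively on the pairs over a pair.
* `place_exists`, `place_unique` : the same for places which come from one embedding.
-/

set_option autoImplicit false
set_option linter.unusedSectionVars false
open Polynomial WithZero

namespace Crest.Agent.R013.Inh_770

section Conj

variable {K L E : Type*} [Field K] [Field L] [Field E] [Algebra K L]


/-- an automorphism preserving a valuation for which `K` is dense is trivial -/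
theorem eq_one_of_dense {Γ : Type*} [LinearOrderedCommGroupWithZero Γ] (q : Valuation L Γ)
    (hd : ∀ (f : L) (a : L), a ≠ 0 → ∃ g : K, q (f - algebraMap K L g) < q a)
    (σ : L ≃ₐ[K] L) (hσ : ∀ f, q (σ f) = q f) : σ = 1 := by
  ext f
  by_contra hne
  have hne' : σ f - f ≠ 0 := sub_ne_zero.2 hne
  obtain ⟨g, hg⟩ := hd f (σ f - f) hne'
  have h1 : q (σ f - algebraMap K L g) < q (σ f - f) := by
    have := hσ (f - algebraMap K L g)
    rw [map_sub, AlgEquiv.commutes] at this
    rw [this]; exact hg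
  have h2 : q (σ f - f) < q (σ f - f) := by
    have h3 : σ f - f = (σ f - algebraMap K L g) - (f - algebraMap K L g) := by ring
    calc q (σ f - f) = q ((σ f - algebraMap K L g) - (f - algebraMap K L g)) := by rw [← h3]
      _ < q (σ f - f) := Valuation.map_sub_lt q h1 hg
  exact lt_irrefl _ h2

end Conj

/-- trivial inertia group -/
def NoInertia (K : Type*) {L : Type*} [Field K] [Field L] [Algebra K L] (w : Valuation L NNReal) :
    Prop :=
  ∀ σ : L ≃ₐ[K] L, σ ≠ 1 → (∀ f, w (σ f) = w f) → ∃ θ : L, w θ ≤ 1 ∧ w (σ θ - θ) = 1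

namespace REnd

variable {C E : Type*} [Field C] [Field E] [Algebra C E] {nC : Valuation C NNReal}
  (D : REnd C E nC)
variable {K L : Type*} [Field K] [Field L] [Algebra K L] [Algebra C K] [Algebra C L]
  [IsScalarTower C K L]

/-- **Freeness.** -/
theorem fix_of_noInertia (φ : K →+* E)
    (hφC : ∀ c : C, φ (algebraMap C K c) = algebraMap C E c)
    (t : K) (ht : D.gn (φ t) = 1) (ht' : D.od (φ t) = 1) (ψ : L →+* E)
    (h1 : ψ.comp (algebraMap K L) = φ) (hN : NoInertia K (D.gn.comap ψ)) (σ : L ≃ₐ[K] L)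
    (hgn : ∀ f : L, D.gn (ψ (σ f)) = D.gn (ψ f))
    (hod : ∀ f : L, D.gn (ψ f) = 1 → D.od (ψ (σ f)) = D.od (ψ f)) : σ = 1 := by
  by_contra hσ
  obtain ⟨θ, hθ1, hθ2⟩ := hN σ hσ (fun f => hgn f)
  have hθ1 : D.gn (ψ θ) ≤ 1 := hθ1
  have hθ2 : D.gn (ψ (σ θ - θ)) = 1 := hθ2
  set N : ℕ := (D.od (ψ (σ θ - θ)) - D.od (ψ θ) + 1).toNat with hNN
  obtain ⟨h, hh1, hh2⟩ := D.exists_approx φ hφC t ht ht' (ψ θ) hθ1 N
  set M : ℤ := D.od (ψ θ) + N with hM
  have e1 : ψ θ - φ h = ψ (θ - algebraMap K L h) := by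
    rw [map_sub, ← h1]; rfl
  have hh3 : D.Sm M (ψ (σ θ) - φ h) := by
    have e2 : ψ (σ θ) - φ h = ψ (σ (θ - algebraMap K L h)) := by
      rw [map_sub, map_sub, AlgEquiv.commutes, ← h1]; rfl
    rw [e2]
    rw [e1] at hh2
    rcases hh2 with h5 | ⟨h5, h6⟩
    · left; rw [hgn]; exact h5
    · right; rw [hgn, hod _ h5]; exact ⟨h5, h6⟩
  have h7 : D.Sm M (ψ (σ θ - θ)) := by
    have h8 := REnd.Sm.sub D hh3 hh2
    rwa [sub_sub_sub_cancel_right, ← map_sub] at h8
  rcases h7 with h8 | ⟨h8, h9⟩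
  · exact h8.ne hθ2
  · omega

/-- if `K` is dense in `L` for the norm of the end, the inertia group is trivial -/
theorem noInertia_of_dense (w : Valuation L NNReal)
    (hd : ∀ (f : L) (a : L), a ≠ 0 → ∃ g : K, w (f - algebraMap K L g) < w a) :
    NoInertia K w := fun σ hσ h => absurd (eq_one_of_dense w hd σ h) hσ

end REnd

end Crest.Agent.R013.Inh_770
end

-- ▼ part R013/Inh3_770
section

/-!
# Row 13, leaf C-INH (helper770), part 3: the valuation of a point of a cell

`PtRing C E` : a ring `R ⊆ E` of functions on a cell together with the evaluation `ev` at a point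
`τ` and the function `l = T - τ`.  A homomorphism `ι : L → E` with values in quotients of elements
of `R` gives a discrete valuation `PtRing.val ι` of `L`, `f ↦ exp (- ord_τ (ι f))`.
-/

set_option autoImplicit false
set_option linter.unusedSectionVars false
open WithZero

namespace Crest.Agent.R013.Inh_770

/-- functions on a cell with the evaluation at a point -/
structure PtRing (C E : Type*) [Field C] [CommRing E] [IsDomain E] [Algebra C E] where
  /-- the ring of functions -/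
  R : Subring E
  /-- the evaluation -/
  ev : R →+* C
  /-- the function `T - τ` -/
  l : R
  C_mem : ∀ c : C, algebraMap C E c ∈ R
  ev_C : ∀ c : C, ev ⟨algebraMap C E c, C_mem c⟩ = c
  ev_l : ev l = 0
  fac : ∀ g : R, g ≠ 0 → ∃ (a : ℕ) (g' : R), g = l ^ a * g' ∧ ev g' ≠ 0

namespace PtRing

variable {C E : Type*} [Field C] [CommRing E] [IsDomain E] [Algebra C E] (D : PtRing C E)


/-- `f = l ^ n * g / h`, `g`, `h` non-zero at the point -/
def Rep (f : E) (n : ℤ) : Prop :=
  ∃ (a b : ℕ) (g h : D.R), D.ev g ≠ 0 ∧ D.ev h ≠ 0 ∧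
    f * ((D.l : E) ^ b * h) = (D.l : E) ^ a * g ∧ n = a - b

theorem ne_zero_of_ev {g : D.R} (h : D.ev g ≠ 0) : (g : E) ≠ 0 := by
  intro h0
  apply h
  rw [show g = 0 from Subtype.ext h0, map_zero]

variable (hl : D.l ≠ 0)
include hl

theorem l_ne' : (D.l : E) ≠ 0 := fun h => hl (Subtype.ext h)

omit hl in
theorem ev_mul_ne {g h : D.R} (hg : D.ev g ≠ 0) (hh : D.ev h ≠ 0) : D.ev (g * h) ≠ 0 := by
  rw [map_mul]; exact mul_ne_zero hg hh

/-- cancellation of powers of `l` -/
theorem pow_cancel {a a' : ℕ} {g g' : D.R} (hg : D.ev g ≠ 0) (hg' : D.ev g' ≠ 0)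
    (h : (D.l : E) ^ a * g = (D.l : E) ^ a' * g') : a = a' := by
  have key : ∀ (a a' : ℕ) (g g' : D.R), D.ev g ≠ 0 → D.ev g' ≠ 0 →
      (D.l : E) ^ a * g = (D.l : E) ^ a' * g' → ¬ a < a' := by
    intro a a' g g' hg hg' h hlt
    obtain ⟨d, rfl⟩ : ∃ d, a' = a + (d + 1) := ⟨a' - a - 1, by omega⟩
    rw [pow_add, mul_assoc] at h
    have h1 := mul_left_cancel₀ (pow_ne_zero a (D.l_ne' hl)) h
    apply hg
    have h2 : g = D.l ^ (d + 1) * g' := Subtype.ext (by
      rw [h1]; simp)
    rw [h2, map_mul, map_pow, D.ev_l, zero_pow (by omega), zero_mul]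
  rcases lt_trichotomy a a' with h1 | h1 | h1
  · exact absurd h1 (key a a' g g' hg hg' h)
  · exact h1
  · exact absurd h1 (key a' a g' g hg' hg h.symm)

theorem Rep.unique {f : E} {n n' : ℤ} (h : D.Rep f n) (h' : D.Rep f n') : n = n' := by
  obtain ⟨a, b, g, h, hg, hh, e, rfl⟩ := h
  obtain ⟨a', b', g', h', hg', hh', e', rfl⟩ := h'
  have h1 : (D.l : E) ^ (a + b') * (g * h' : D.R) = (D.l : E) ^ (a' + b) * (g' * h : D.R) := by
    rw [pow_add, pow_add, Subring.coe_mul, Subring.coe_mul]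
    calc (D.l : E) ^ a * (D.l : E) ^ b' * (g * h') = ((D.l : E) ^ a * g) * ((D.l : E) ^ b' * h') := by
          ring
      _ = (f * ((D.l : E) ^ b * h)) * ((D.l : E) ^ b' * h') := by rw [e]
      _ = (f * ((D.l : E) ^ b' * h')) * ((D.l : E) ^ b * h) := by ring
      _ = ((D.l : E) ^ a' * g') * ((D.l : E) ^ b * h) := by rw [e']
      _ = (D.l : E) ^ a' * (D.l : E) ^ b * (g' * h) := by ring
  have h2 := D.pow_cancel hl (D.ev_mul_ne hg hh') (D.ev_mul_ne hg' hh) h1
  omega

theorem Rep.ne_zero {f : E} {n : ℤ} (h : D.Rep f n) : f ≠ 0 := by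
  obtain ⟨a, b, g, h, hg, hh, e, rfl⟩ := h
  rintro rfl
  rw [zero_mul] at e
  exact mul_ne_zero (pow_ne_zero _ (D.l_ne' hl)) (D.ne_zero_of_ev hg) e.symm

omit hl in
theorem Rep.mul {f f' : E} {n n' : ℤ} (h : D.Rep f n) (h' : D.Rep f' n') :
    D.Rep (f * f') (n + n') := by
  obtain ⟨a, b, g, h, hg, hh, e, rfl⟩ := h
  obtain ⟨a', b', g', h', hg', hh', e', rfl⟩ := h'
  refine ⟨a + a', b + b', g * g', h * h', D.ev_mul_ne hg hg', D.ev_mul_ne hh hh', ?_, ?_⟩
  · rw [pow_add, pow_add, Subring.coe_mul, Subring.coe_mul]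
    calc f * f' * ((D.l : E) ^ b * (D.l : E) ^ b' * (h * h')) =
          (f * ((D.l : E) ^ b * h)) * (f' * ((D.l : E) ^ b' * h')) := by ring
      _ = _ := by rw [e, e']; ring
  · push_cast; ring

omit hl in
theorem Rep.of_C {c : C} (hc : c ≠ 0) : D.Rep (algebraMap C E c) 0 := by
  refine ⟨0, 0, ⟨algebraMap C E c, D.C_mem c⟩, 1, ?_, ?_, ?_, ?_⟩
  · rw [D.ev_C]; exact hc
  · rw [map_one]; exact one_ne_zero
  · simp
  · simp

omit hl in
theorem Rep.exists_of {f g h : E} (hf : f ≠ 0) (hg : g ∈ D.R) (hh : h ∈ D.R) (hh0 : h ≠ 0)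
    (e : f * h = g) : ∃ n, D.Rep f n := by
  have hg0 : g ≠ 0 := by rw [← e]; exact mul_ne_zero hf hh0
  obtain ⟨a, g', h1, h2⟩ := D.fac ⟨g, hg⟩ (fun h0 => hg0 (congrArg Subtype.val h0))
  obtain ⟨b, h', h3, h4⟩ := D.fac ⟨h, hh⟩ (fun h0 => hh0 (congrArg Subtype.val h0))
  refine ⟨a - b, a, b, g', h', h2, h4, ?_, rfl⟩
  have e1 : g = (D.l : E) ^ a * g' := congrArg Subtype.val h1
  have e2 : h = (D.l : E) ^ b * h' := congrArg Subtype.val h3
  rw [← e1, ← e2, e]

/-- ultrametric inequality -/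
theorem Rep.add {f f' : E} {n n' m : ℤ} (h : D.Rep f n) (h' : D.Rep f' n')
    (hm : D.Rep (f + f') m) : min n n' ≤ m := by
  obtain ⟨a, b, g, h, hg, hh, e, rfl⟩ := h
  obtain ⟨a', b', g', h', hg', hh', e', rfl⟩ := h'
  obtain ⟨a'', b'', g'', h'', hg'', hh'', e'', rfl⟩ := hm
  -- multiply out
  set A := a + b' with hA
  set A' := a' + b with hA'
  by_contra hcon
  rw [not_le, lt_min_iff] at hcon
  obtain ⟨hc1, hc2⟩ := hcon
  have hc1 : a'' + b < a + b'' := by omega
  have hc2 : a'' + b' < a' + b'' := by omega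
  -- (f + f') l^(b+b'+b'') h h' h''
  have key : (D.l : E) ^ (a'' + b + b') * (g'' * h * h' : D.R) =
      (D.l : E) ^ (a + b' + b'') * (g * h' * h'' : D.R) +
      (D.l : E) ^ (a' + b + b'') * (g' * h * h'' : D.R) := by
    have e1 : (f + f') * ((D.l : E) ^ b'' * h'') * ((D.l : E) ^ b * h) * ((D.l : E) ^ b' * h') =
        (f * ((D.l : E) ^ b * h)) * ((D.l : E) ^ b'' * h'') * ((D.l : E) ^ b' * h') +
        (f' * ((D.l : E) ^ b' * h')) * ((D.l : E) ^ b'' * h'') * ((D.l : E) ^ b * h) := by ring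
    rw [e'', e, e'] at e1
    simp only [Subring.coe_mul, pow_add]
    linear_combination e1
  obtain ⟨u, hu⟩ : ∃ u, a + b' + b'' = (a'' + b + b') + (u + 1) := ⟨a + b'' - a'' - b - 1, by omega⟩
  obtain ⟨u', hu'⟩ : ∃ u', a' + b + b'' = (a'' + b + b') + (u' + 1) :=
    ⟨a' + b'' - a'' - b' - 1, by omega⟩
  rw [hu, hu', pow_add _ _ (u + 1), pow_add _ _ (u' + 1)] at key
  have key' : (D.l : E) ^ (a'' + b + b') * (g'' * h * h' : D.R) =
      (D.l : E) ^ (a'' + b + b') * ((D.l : E) ^ (u + 1) * (g * h' * h'' : D.R) +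
        (D.l : E) ^ (u' + 1) * (g' * h * h'' : D.R)) := by
    rw [key]; ring
  have h1 := mul_left_cancel₀ (pow_ne_zero _ (D.l_ne' hl)) key'
  have h2 : g'' * h * h' = D.l ^ (u + 1) * (g * h' * h'') + D.l ^ (u' + 1) * (g' * h * h'') :=
    Subtype.ext (by rw [h1]; simp)
  have h3 := congrArg D.ev h2
  rw [map_add, map_mul D.ev (D.l ^ (u + 1)), map_mul D.ev (D.l ^ (u' + 1)), map_pow, map_pow,
    D.ev_l, zero_pow (by omega), zero_pow (by omega), zero_mul, zero_mul, add_zero] at h3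
  exact D.ev_mul_ne (D.ev_mul_ne hg'' hh) hh' h3

section Val

variable {L : Type*} [Field L] (ι : L →+* E)
  (hq : ∀ f : L, ∃ g h : E, h ≠ 0 ∧ g ∈ D.R ∧ h ∈ D.R ∧ ι f * h = g)

omit hl in
include hq in
theorem exists_rep (f : L) (hf : f ≠ 0) : ∃ n, D.Rep (ι f) n := by
  obtain ⟨g, h, h0, hg, hh, e⟩ := hq f
  exact Rep.exists_of D (by rwa [Ne, map_eq_zero]) hg hh h0 e

open Classical in
/-- the valuation of the point -/
noncomputable def val : Valuation L ℤᵐ⁰ where
  toFun f := if h : f = 0 then 0 else exp (-(D.exists_rep ι hq f h).choose)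
  map_zero' := by simp
  map_one' := by
    rw [dif_neg one_ne_zero]
    have h1 := (D.exists_rep ι hq 1 one_ne_zero).choose_spec
    have h2 : D.Rep (ι (1 : L)) 0 := by
      have := Rep.of_C D (c := (1 : C)) one_ne_zero
      rwa [map_one, ← map_one ι] at this
    rw [Rep.unique D hl h1 h2]
    simp
  map_mul' := by
    intro f g
    by_cases hf : f = 0
    · rw [hf, zero_mul, dif_pos rfl, zero_mul]
    by_cases hg : g = 0
    · rw [hg, mul_zero, dif_pos rfl, mul_zero]
    rw [dif_neg (mul_ne_zero hf hg), dif_neg hf, dif_neg hg, ← exp_add]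
    congr 1
    have h1 := (D.exists_rep ι hq f hf).choose_spec
    have h2 := (D.exists_rep ι hq g hg).choose_spec
    have h3 := (D.exists_rep ι hq (f * g) (mul_ne_zero hf hg)).choose_spec
    have h4 := Rep.mul D h1 h2
    rw [← map_mul] at h4
    rw [Rep.unique D hl h3 h4]
    ring
  map_add_le_max' := by
    intro f g
    by_cases hf : f = 0
    · rw [hf, zero_add]; exact le_max_right _ _
    by_cases hg : g = 0
    · rw [hg, add_zero]; exact le_max_left _ _
    by_cases hfg : f + g = 0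
    · rw [hfg, dif_pos rfl]; exact zero_le
    rw [dif_neg hfg, dif_neg hf, dif_neg hg, le_max_iff, exp_le_exp, exp_le_exp]
    have h1 := (D.exists_rep ι hq f hf).choose_spec
    have h2 := (D.exists_rep ι hq g hg).choose_spec
    have h3 := (D.exists_rep ι hq (f + g) hfg).choose_spec
    have h4 := Rep.add D hl h1 h2 (m := (D.exists_rep ι hq (f + g) hfg).choose)
      ((map_add ι f g) ▸ h3)
    rcases min_le_iff.1 h4 with h5 | h5
    · left; omega
    · right; omega

theorem val_eq_of_rep {f : L} {n : ℤ} (h : D.Rep (ι f) n) : D.val hl ι hq f = exp (-n) := by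
  classical
  have hf : f ≠ 0 := by
    rintro rfl
    exact Rep.ne_zero D hl h (map_zero ι)
  change (if h : f = 0 then 0 else exp (-(D.exists_rep ι hq f h).choose)) = _
  rw [dif_neg hf, Rep.unique D hl (D.exists_rep ι hq f hf).choose_spec h]

theorem val_const [Algebra C L] (hC : ∀ c : C, ι (algebraMap C L c) = algebraMap C E c) (c : C)
    (hc : c ≠ 0) : D.val hl ι hq (algebraMap C L c) = 1 := by
  rw [D.val_eq_of_rep hl ι hq (n := 0) (by rw [hC]; exact Rep.of_C D hc)]
  simp

/-- a function which is a unit at the point is congruent to a constant -/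
theorem exists_const [Algebra C L] (hC : ∀ c : C, ι (algebraMap C L c) = algebraMap C E c) (f : L)
    (hf : D.val hl ι hq f = 1) : ∃ c : C, c ≠ 0 ∧ D.val hl ι hq (f - algebraMap C L c) < 1 := by
  have hf0 : f ≠ 0 := by
    rintro rfl; rw [map_zero] at hf; exact zero_ne_one hf
  obtain ⟨n, hn⟩ := D.exists_rep ι hq f hf0
  have h0 : n = 0 := by
    have := D.val_eq_of_rep hl ι hq hn
    rw [hf, ← exp_zero, exp_inj] at this
    omega
  subst h0
  obtain ⟨a, b, g, h, hg, hh, e, hab⟩ := hn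
  obtain rfl : a = b := by omega
  have e' : ι f * h = g := by
    have h1 : (D.l : E) ^ a * (ι f * h) = (D.l : E) ^ a * g := by rw [← e]; ring
    exact mul_left_cancel₀ (pow_ne_zero _ (D.l_ne' hl)) h1
  refine ⟨D.ev g / D.ev h, div_ne_zero hg hh, ?_⟩
  set c := D.ev g / D.ev h with hc
  by_cases hfc : f - algebraMap C L c = 0
  · rw [hfc, map_zero]; exact zero_lt_one
  set G : D.R := g - ⟨algebraMap C E c, D.C_mem c⟩ * h with hG
  have hG1 : ι (f - algebraMap C L c) * h = G := by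
    rw [map_sub, hC, sub_mul, e', hG]; simp
  have hG0 : G ≠ 0 := by
    intro h0
    have : ι (f - algebraMap C L c) * h = 0 := by rw [hG1, h0]; rfl
    rcases mul_eq_zero.1 this with h2 | h2
    · exact hfc ((map_eq_zero ι).1 h2)
    · exact D.ne_zero_of_ev hh h2
  have hGev : D.ev G = 0 := by
    rw [hG, map_sub, map_mul, D.ev_C, hc, div_mul_cancel₀ _ hh, sub_self]
  obtain ⟨m, G', hm1, hm2⟩ := D.fac G hG0
  have hm0 : 0 < m := by
    rcases Nat.eq_zero_or_pos m with h3 | h3
    · exfalso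
      rw [hm1, h3, pow_zero, one_mul] at hGev
      exact hm2 hGev
    · exact h3
  have hrep : D.Rep (ι (f - algebraMap C L c)) m := by
    refine ⟨m, 0, G', h, hm2, hh, ?_, by simp⟩
    rw [pow_zero, one_mul, hG1, hm1]
    simp
  rw [D.val_eq_of_rep hl ι hq hrep, ← exp_zero, exp_lt_exp]
  omega

end Val

section Dense

variable {K L : Type*} [Field K] [Field L] [Algebra K L] [Algebra C K] [Algebra C L]
  [IsScalarTower C K L] (ι : L →+* E)
  (hq : ∀ f : L, ∃ g h : E, h ≠ 0 ∧ g ∈ D.R ∧ h ∈ D.R ∧ ι f * h = g)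

/-- `K` is dense in `L` at the point, if `K` contains a uniformiser -/
theorem dense (hC : ∀ c : C, ι (algebraMap C L c) = algebraMap C E c)
    (t : K) (ht : D.val hl ι hq (algebraMap K L t) = exp (-1)) (f a : L) (ha : a ≠ 0) :
    ∃ g : K, D.val hl ι hq (f - algebraMap K L g) < D.val hl ι hq a := by
  set q := D.val hl ι hq with hqq
  obtain ⟨m, hm⟩ : ∃ m : ℤ, q a = exp m :=
    ⟨log (q a), (exp_log ((Valuation.ne_zero_iff q).mpr ha)).symm⟩
  have htn : ∀ n : ℤ, q (algebraMap K L (t ^ n)) = exp (-n) := by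
    intro n
    rw [map_zpow₀, map_zpow₀, ht, ← exp_zsmul]
    simp
  -- start
  obtain ⟨n0, hn0⟩ : ∃ n0 : ℤ, q f ≤ exp (-n0) := by
    by_cases hf : f = 0
    · exact ⟨0, by rw [hf, map_zero]; exact zero_le⟩
    · exact ⟨-log (q f), by rw [neg_neg, exp_log ((Valuation.ne_zero_iff q).mpr hf)]⟩
  have key : ∀ N : ℕ, ∃ g : K, q (f - algebraMap K L g) ≤ exp (-(n0 + N)) := by
    intro N
    induction N with
    | zero => exact ⟨0, by simpa using hn0⟩
    | succ N ih =>
      obtain ⟨g, hg⟩ := ih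
      rcases hg.lt_or_eq with h1 | h1
      · refine ⟨g, ?_⟩
        by_cases h0 : q (f - algebraMap K L g) = 0
        · rw [h0]; exact zero_le
        · have h2 := exp_log h0
          rw [← h2, exp_lt_exp] at h1
          rw [← h2, exp_le_exp]
          push_cast
          omega
      · set r := f - algebraMap K L g with hr
        have h3 : q (r * algebraMap K L (t ^ (-(n0 + N : ℤ)))) = 1 := by
          rw [map_mul, h1, htn, ← exp_add]
          simp
        obtain ⟨c, hc0, hc⟩ := D.exists_const hl ι hq hC _ h3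
        refine ⟨g + algebraMap C K c * t ^ (n0 + N : ℤ), ?_⟩
        have h4 : f - algebraMap K L (g + algebraMap C K c * t ^ (n0 + N : ℤ)) =
            (r * algebraMap K L (t ^ (-(n0 + N : ℤ))) - algebraMap C L c) *
              algebraMap K L (t ^ (n0 + N : ℤ)) := by
          have h5 : algebraMap K L (t ^ (-(n0 + N : ℤ))) * algebraMap K L (t ^ (n0 + N : ℤ)) = 1 := by
            have ht0 : t ≠ 0 := by
              rintro rfl; rw [map_zero, map_zero] at ht; exact exp_ne_zero ht.symm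
            rw [← map_mul, ← zpow_add₀ ht0]
            simp
          rw [sub_mul, mul_assoc, h5, mul_one, hr, map_add, map_mul,
            ← IsScalarTower.algebraMap_apply C K L]
          ring
        rw [h4, map_mul, htn]
        have h6 : D.val hl ι hq (r * algebraMap K L (t ^ (-(n0 + N : ℤ))) - algebraMap C L c) ≤
            exp (-1) := by
          by_cases h0 : D.val hl ι hq (r * algebraMap K L (t ^ (-(n0 + N : ℤ))) -
              algebraMap C L c) = 0
          · rw [h0]; exact zero_le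
          · have h2 := exp_log h0
            rw [← h2, ← exp_zero, exp_lt_exp] at hc
            rw [← h2, exp_le_exp]
            omega
        calc q (r * algebraMap K L (t ^ (-(n0 + N : ℤ))) - algebraMap C L c) * exp (-(n0 + N : ℤ)) ≤
              exp (-1) * exp (-(n0 + N : ℤ)) := mul_le_mul_left h6 _
          _ = exp (-(n0 + (N + 1 : ℕ) : ℤ)) := by rw [← exp_add]; congr 1; push_cast; ring
  obtain ⟨g, hg⟩ := key (-m - n0 + 1).toNat
  refine ⟨g, lt_of_le_of_lt hg ?_⟩
  rw [hm, exp_lt_exp]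
  omega

end Dense

end PtRing

end Crest.Agent.R013.Inh_770
end

-- ▼ part R013/Inh4_770
section

/-!
# Row 13, leaf C-INH (helper770), part 4: the field `EE k C` as boundary field, equality of ends
-/

set_option autoImplicit false
set_option linter.all false
open WithZero
open scoped NNReal
open Crest.Agent.R013.RR7_948 Crest.Agent.R013.Red332 Crest.Agent.R013.EE809
open Crest.Agent.R013.Cell_408 (FinDef DiscNorm)

namespace Crest.Agent.R013.Inh_770

theorem norm_sub_le_max' {C : Type*} [NormedField C] [IsUltrametricDist C] (a b : C) :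
    ‖a - b‖ ≤ max ‖a‖ ‖b‖ := by
  rw [sub_eq_add_neg, ← norm_neg b]
  exact IsUltrametricDist.norm_add_le_max _ _

section EEinst

variable {k : Type*} [NontriviallyNormedField k] [CompleteSpace k] [IsUltrametricDist k]
variable {C : Type*} [NormedField C] [IsUltrametricDist C] [NormedAlgebra k C]
variable [Algebra.IsAlgebraic k C] [IsAlgClosed C] [hk : Fact (DiscNorm k)]

/-- the Gauss norm in `ℝ≥0` -/
noncomputable def gnn (a : EE k C) : ℝ≥0 := Real.toNNReal (gn a)

omit [IsUltrametricDist k] [Algebra.IsAlgebraic k C] [IsAlgClosed C] hk in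
theorem coe_gnn (a : EE k C) : ((gnn a : ℝ≥0) : ℝ) = gn a := Real.coe_toNNReal _ (gn_nonneg a)

/-- the Gauss norm as a valuation -/
noncomputable def gnV : Valuation (EE k C) ℝ≥0 where
  toFun a := gnn a
  map_zero' := NNReal.eq (by rw [coe_gnn, gn_zero]; rfl)
  map_one' := NNReal.eq (by rw [coe_gnn, gn_one]; rfl)
  map_mul' := fun a b => NNReal.eq (by
    rw [NNReal.coe_mul, coe_gnn, coe_gnn, coe_gnn]; exact gn_mul hk.out a b)
  map_add_le_max' := fun a b => by
    rw [← NNReal.coe_le_coe, NNReal.coe_max, coe_gnn, coe_gnn, coe_gnn]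
    exact gn_add_le a b

theorem coe_gnV (a : EE k C) : ((gnV a : ℝ≥0) : ℝ) = gn a := coe_gnn a

theorem gnV_lt {a b : EE k C} : gnV a < gnV b ↔ gn a < gn b := by
  rw [← NNReal.coe_lt_coe, coe_gnV, coe_gnV]

theorem gnV_eq {a b : EE k C} : gnV a = gnV b ↔ gn a = gn b := by
  rw [← NNReal.coe_inj, coe_gnV, coe_gnV]

theorem gnV_C (c : C) : gnV (algebraMap C (EE k C) c) = ‖c‖₊ := by
  ext; rw [coe_gnV]; exact gn_algebraMap c


/-- `EE k C` is a boundary field -/
noncomputable def DE : REnd C (EE k C) (NormedField.valuation (K := C)) where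
  gn := gnV
  od := EE809.od
  gn_C := gnV_C
  gn_val := fun a ha => ⟨a.co (EE809.od a), by
    ext
    rw [coe_gnV]
    exact (norm_co_od hk.out ha).symm⟩
  od_C := fun c hc => by
    rw [algebraMap_eq]
    exact od_mono 0 _ hc
  od_mul := fun a b ha hb => EE809.od_mul hk.out ha hb
  od_add := fun a b ha h h' => by
    rw [gnV_eq] at h
    have hab : a + b ≠ 0 := by
      intro h0
      rw [h0, gn_zero] at h
      exact ha (gn_eq_zero.1 h.symm)
    by_contra hcon
    rw [not_le] at hcon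
    have h1 := norm_co_od hk.out hab
    rw [h, co_add] at h1
    have h2 : ‖a.co (EE809.od (a + b))‖ < gn a := norm_lt_of_lt_od ha hcon
    have h3 : ‖b.co (EE809.od (a + b))‖ < gn a := by
      rcases h' with h' | ⟨h', h''⟩
      · exact lt_of_le_of_lt (le_gn b _) (gnV_lt.1 h')
      · rw [gnV_eq] at h'
        have hb : b ≠ 0 := by
          rintro rfl
          rw [gn_zero] at h'
          exact ha (gn_eq_zero.1 h'.symm)
        rw [← h']
        exact norm_lt_of_lt_od hb (lt_of_lt_of_le hcon h'')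
    have h4 := lt_of_le_of_lt (IsUltrametricDist.norm_add_le_max _ _) (max_lt h2 h3)
    exact h4.ne h1
  approx := fun a b ha hb h h' => by
    rw [gnV_eq] at h
    have ha1 := norm_co_od hk.out ha
    have hb1 := norm_co_od hk.out hb
    rw [← h'] at hb1
    have hbn : b.co (EE809.od a) ≠ 0 := by
      intro h0
      rw [h0, norm_zero] at hb1
      exact hb (gn_eq_zero.1 hb1.symm)
    have hgn := gn_pos ha
    refine ⟨a.co (EE809.od a) / b.co (EE809.od a), ?_, ?_⟩
    · ext
      change ‖_‖ = (1 : ℝ)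
      rw [norm_div, ha1, hb1, ← h, div_self hgn.ne']
    set c := a.co (EE809.od a) / b.co (EE809.od a) with hc
    have hc1 : ‖c‖ = 1 := by rw [hc, norm_div, ha1, hb1, ← h, div_self hgn.ne']
    have hco : ∀ m, (a - algebraMap C (EE k C) c * b).co m = a.co m - c * b.co m := by
      intro m
      rw [co_sub, ← Algebra.smul_def, co_smul]
    have hle : gn (a - algebraMap C (EE k C) c * b) ≤ gn a := by
      refine gn_le fun m => ?_
      rw [hco]
      refine (norm_sub_le_max' _ _).trans (max_le (le_gn a m) ?_)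
      rw [norm_mul, hc1, one_mul, h]
      exact le_gn b m
    rcases hle.lt_or_eq with h1 | h1
    · exact Or.inl (gnV_lt.2 h1)
    · right
      refine ⟨gnV_eq.2 h1, ?_⟩
      have hne : a - algebraMap C (EE k C) c * b ≠ 0 := by
        intro h0
        rw [h0, gn_zero] at h1
        exact hgn.ne h1
      have h2 := norm_co_od hk.out hne
      rw [h1] at h2
      by_contra hcon
      rw [not_lt] at hcon
      rcases hcon.lt_or_eq with h3 | h3
      · have h4 : ‖a.co (EE809.od (a - algebraMap C (EE k C) c * b))‖ < gn a :=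
          norm_lt_of_lt_od ha h3
        have h5 : ‖c * b.co (EE809.od (a - algebraMap C (EE k C) c * b))‖ < gn a := by
          rw [norm_mul, hc1, one_mul, h]
          exact norm_lt_of_lt_od hb (by rw [← h']; exact h3)
        rw [hco] at h2
        have h6 := lt_of_le_of_lt (norm_sub_le_max' _ _) (max_lt h4 h5)
        exact h6.ne h2
      · rw [h3, hco, hc, div_mul_cancel₀ _ hbn, sub_self, norm_zero] at h2
        exact hgn.ne h2

/-- `EE k C` as an `End2` -/
noncomputable def E2 : End2 C (EE k C) where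
  nm := gnV
  od := EE809.od
  hC := gnV_C
  val := fun a ha => (DE (k := k) (C := C)).gn_val a ha
  od_C := (DE (k := k) (C := C)).od_C
  od_mul := (DE (k := k) (C := C)).od_mul
  od_lt := fun a b h => (DE (k := k) (C := C)).od_add_lt a b h
  od_add := fun a b ha hb h h' =>
    (DE (k := k) (C := C)).od_add_ge a b _ (gnV a) h' le_rfl h.symm.le
      (by
        intro h0
        rw [h0, map_zero] at h'
        exact ha ((Valuation.zero_iff _).1 h'.symm))
      (fun _ => min_le_left _ _) (fun _ => min_le_right _ _)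

end EEinst

section End2eq

variable {C : Type*} [NormedField C] [IsUltrametricDist C] {L : Type*} [Field L] [Algebra C L]

/-- two ends with the same valuation ring have the same norm -/
theorem nm_eq_of_ring (hnt : ∃ c : C, c ≠ 0 ∧ ‖c‖ < 1) (E E' : End2 C L)
    (h : ∀ f, (E.nm f < 1 ∨ (E.nm f = 1 ∧ 0 ≤ E.od f)) ↔ (E'.nm f < 1 ∨ (E'.nm f = 1 ∧ 0 ≤ E'.od f)))
    (f : L) : E.nm f = E'.nm f := by
  obtain ⟨c, hc0, hc1⟩ := hnt
  have hc1' : ‖c‖₊ < 1 := hc1
  have hc0' : ‖c‖₊ ≠ 0 := by simpa using hc0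
  have key : ∀ (E E' : End2 C L), (∀ f, (E.nm f < 1 ∨ (E.nm f = 1 ∧ 0 ≤ E.od f)) →
      (E'.nm f < 1 ∨ (E'.nm f = 1 ∧ 0 ≤ E'.od f))) → ∀ f, E.nm f ≤ 1 → E'.nm f ≤ 1 := by
    intro E E' h f hf
    by_contra hcon
    rw [not_le] at hcon
    obtain ⟨m, hm⟩ := pow_unbounded_of_one_lt ((‖c‖₊)⁻¹) hcon
    have h1 := h (algebraMap C L c * f ^ m) (Or.inl (by
      rw [map_mul, E.hC, map_pow]
      exact lt_of_le_of_lt (mul_le_of_le_one_right' (pow_le_one₀ zero_le hf)) hc1'))
    rw [map_mul, E'.hC, map_pow] at h1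
    have h2 : 1 < ‖c‖₊ * E'.nm f ^ m := by
      have := mul_lt_mul_of_pos_left hm (zero_lt_iff.2 hc0')
      rwa [mul_inv_cancel₀ hc0'] at this
    rcases h1 with h1 | ⟨h1, -⟩
    · exact lt_asymm h1 h2
    · exact h2.ne' h1
  have hle : ∀ f, E.nm f ≤ 1 ↔ E'.nm f ≤ 1 := fun f =>
    ⟨key E E' (fun f => (h f).1) f, key E' E (fun f => (h f).2) f⟩
  have hone : ∀ f, E'.nm f = 1 → E.nm f = 1 := by
    intro f hf
    have hf0 : f ≠ 0 := by
      rintro rfl; rw [map_zero] at hf; exact zero_ne_one hf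
    refine le_antisymm ((hle f).2 hf.le) ?_
    have h1 := (hle f⁻¹).2 (by rw [map_inv₀, hf, inv_one])
    rw [map_inv₀] at h1
    have h2 : 0 < E.nm f := zero_lt_iff.2 ((Valuation.ne_zero_iff _).2 hf0)
    exact (inv_le_one₀ h2).1 h1
  by_cases hf : f = 0
  · rw [hf, map_zero, map_zero]
  obtain ⟨b, hb⟩ := E'.val f hf
  have hb0 : ‖b‖₊ ≠ 0 := by
    rw [← hb]; exact (Valuation.ne_zero_iff _).2 hf
  have h1 := hone (algebraMap C L b⁻¹ * f) (by
    rw [map_mul, E'.hC, hb, nnnorm_inv, inv_mul_cancel₀ hb0])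
  rw [map_mul, E.hC, nnnorm_inv, inv_mul_eq_iff_eq_mul₀ hb0, mul_one] at h1
  rw [hb]; exact h1

/-- two ends with the same valuation ring and normalised orders are equal -/
theorem od_eq_of_ring (hnt : ∃ c : C, c ≠ 0 ∧ ‖c‖ < 1) (E E' : End2 C L)
    (h : ∀ f, (E.nm f < 1 ∨ (E.nm f = 1 ∧ 0 ≤ E.od f)) ↔ (E'.nm f < 1 ∨ (E'.nm f = 1 ∧ 0 ≤ E'.od f)))
    (t : L) (ht : E.nm t = 1) (ht1 : E.od t = 1) (t' : L) (ht' : E'.nm t' = 1)
    (ht1' : E'.od t' = 1) (f : L) (hf : f ≠ 0) : E.od f = E'.od f := by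
  have hnm := nm_eq_of_ring hnt E E' h
  have hsgn : ∀ f, E.nm f = 1 → (0 ≤ E.od f ↔ 0 ≤ E'.od f) := by
    intro f hf
    have hf' : E'.nm f = 1 := by rw [← hnm, hf]
    have h1 := h f
    rw [hf, hf'] at h1
    simpa using h1
  have hz : ∀ f, E.nm f = 1 → E.od f = 0 → E'.od f = 0 := by
    intro f hf h0
    have hf0 : f ≠ 0 := by
      rintro rfl; rw [map_zero] at hf; exact zero_ne_one hf
    have h1 := (hsgn f hf).1 h0.ge
    have h2 := (hsgn f⁻¹ (by rw [map_inv₀, hf, inv_one])).1 (by rw [E.od_inv hf0]; omega)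
    rw [E'.od_inv hf0] at h2
    omega
  have ht0 : t ≠ 0 := by
    rintro rfl; rw [map_zero] at ht; exact zero_ne_one ht
  set m := E'.od t with hm
  have hlin : ∀ f, E.nm f = 1 → E'.od f = m * E.od f := by
    intro f hf
    have hf0 : f ≠ 0 := by
      rintro rfl; rw [map_zero] at hf; exact zero_ne_one hf
    have h1 : E.nm (f * t ^ (-E.od f)) = 1 := by
      rw [map_mul, map_zpow₀, ht, one_zpow, mul_one, hf]
    have h2 := hz _ h1 (by
      rw [E.od_mul _ _ hf0 (zpow_ne_zero _ ht0), E.od_zpow ht0, ht1]; ring)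
    rw [E'.od_mul _ _ hf0 (zpow_ne_zero _ ht0), E'.od_zpow ht0, ← hm] at h2
    linarith
  have hm1 : m = 1 := by
    have h1 := hlin t' (by rw [hnm, ht'])
    rw [ht1'] at h1
    have h2 : 0 ≤ m := by
      have := (hsgn t ht).1 (by rw [ht1]; norm_num)
      exact this
    have h3 : m ∣ 1 := ⟨_, h1⟩
    have h4 := Int.isUnit_iff.1 (isUnit_of_dvd_one h3)
    omega
  obtain ⟨c, hc0, hc1, hc2⟩ := E.exists_one hf
  obtain ⟨h5, h6⟩ : algebraMap C L c ≠ 0 ∧ E'.od (f * (algebraMap C L c)⁻¹) = E'.od f := by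
    have h7 : algebraMap C L c ≠ 0 := by rwa [Ne, map_eq_zero]
    refine ⟨h7, ?_⟩
    rw [← map_inv₀, E'.od_mul _ _ hf (by rw [Ne, map_eq_zero]; exact inv_ne_zero hc0),
      E'.od_C _ (inv_ne_zero hc0), add_zero]
  rw [← hc2, ← h6, hlin _ hc1, hm1, one_mul]

end End2eq

end Crest.Agent.R013.Inh_770
end

-- ▼ part R013/Inh5_770

/-!
# Row 13, leaf C-INH (helper770), part 5: directions of a Galois extension

`Spl S L` : the Galois extension `L/K` is split over all cells of the semistable structure `S` of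
`K` and has no inertia at the vertices.  The directions of `L` are the pairs (direction of `K`,
element of the Galois group).
-/

set_option autoImplicit false
set_option linter.all false
open WithZero
open scoped NNReal
open Crest.Agent.R013.RR7_948 Crest.Agent.R013.Red332 Crest.Agent.R013.EE809
open Crest.Agent.R013.Cell_408 (FinDef DiscNorm)
open Crest.Agent.R013.SSK_332

namespace Crest.Agent.R013.Inh_770

variable {k : Type*} [NontriviallyNormedField k] [CompleteSpace k] [IsUltrametricDist k]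
variable {C : Type*} [NormedField C] [IsUltrametricDist C] [NormedAlgebra k C]
variable [Algebra.IsAlgebraic k C] [IsAlgClosed C] [hk : Fact (DiscNorm k)]
variable {K : Type*} [Field K] [Algebra C K]
variable {L : Type*} [Field L] [Algebra C L] [Algebra K L] [IsScalarTower C K L]

/-- the Galois extension `L / K` splits over the cells of `S` -/
structure Spl (S : SSK k C K) (L : Type*) [Field L] [Algebra C L] [Algebra K L]
    [IsScalarTower C K L] where
  /-- an embedding of `L` over every direction -/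
  ps : S.Dir → L →+* EE k C
  ps_K : ∀ d f, ps d (algebraMap K L f) = S.em d f
  ps_ann : ∀ e f, ∃ g h g' h' : EE k C, h ≠ 0 ∧ InA (S.cc e) g ∧ InA (S.cc e) h ∧
    Flip (S.cc e) g g' ∧ Flip (S.cc e) h h' ∧ ps (S.e0 e) f * h = g ∧ ps (S.e1 e) f * h' = g'
  ps_disc : ∀ d, S.IsDisc d → ∀ f, ∃ g h : EE k C, h ≠ 0 ∧ InD g ∧ InD h ∧ ps d f * h = g
  ni : ∀ d, NoInertia K (gnV.comap (ps d))

namespace Spl

variable {S : SSK k C K} (P : Spl S L)

include k in
theorem exists_small : ∃ c : C, c ≠ 0 ∧ ‖c‖ < 1 := by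
  obtain ⟨c, hc0, hc1⟩ := NormedField.exists_norm_lt_one k
  refine ⟨algebraMap k C c, ?_, ?_⟩
  · rw [Ne, map_eq_zero]; exact norm_pos_iff.1 hc0
  · rw [norm_algebraMap']; exact hc1

theorem em_C' (d : S.Dir) (c : C) : S.em d (algebraMap C K c) = algebraMap C (EE k C) c := by
  ext n
  rw [S.em_C, co_algebraMap]

theorem ps_C (d : S.Dir) (c : C) : P.ps d (algebraMap C L c) = algebraMap C (EE k C) c := by
  rw [IsScalarTower.algebraMap_apply C K L, P.ps_K, em_C']

theorem em_gnV (d : S.Dir) (f : K) : gnV (S.em d f) = (S.nm d.1).v f :=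
  NNReal.eq (by rw [coe_gnV]; exact S.em_gn d f)

/-- a uniformiser of `K` at a direction -/
theorem exists_t (d : S.Dir) : ∃ t : K, (S.nm d.1).v t = 1 ∧ gnV (S.em d t) = 1 ∧
    EE809.od (S.em d t) = 1 := by
  obtain ⟨t, ht, ht'⟩ := od_surj d.2 1
  have ht0 : t ≠ 0 := by
    rintro rfl; rw [map_zero] at ht; exact zero_ne_one ht
  exact ⟨t, ht, by rw [em_gnV, ht], by rw [S.em_od d t ht0, ht']⟩

/-- the embedding as an algebra homomorphism, twisted by `σ` -/
noncomputable def psA (d : S.Dir) (σ : L ≃ₐ[K] L) : L →ₐ[C] EE k C :=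
  { (P.ps d).comp (σ : L →+* L) with
    commutes' := fun c => by
      change P.ps d (σ (algebraMap C L c)) = _
      rw [IsScalarTower.algebraMap_apply C K L, AlgEquiv.commutes,
        ← IsScalarTower.algebraMap_apply, P.ps_C] }


/-- the end of `L` -/
noncomputable def EndL (d : S.Dir) (σ : L ≃ₐ[K] L) : End2 C L := E2.comap (P.psA d σ)

theorem EndL_nm (d : S.Dir) (σ : L ≃ₐ[K] L) (f : L) : (P.EndL d σ).nm f = gnV (P.ps d (σ f)) := rfl

theorem EndL_od (d : S.Dir) (σ : L ≃ₐ[K] L) (f : L) :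
    (P.EndL d σ).od f = EE809.od (P.ps d (σ f)) := rfl

theorem EndL_nm_K (d : S.Dir) (σ : L ≃ₐ[K] L) (f : K) :
    (P.EndL d σ).nm (algebraMap K L f) = (S.nm d.1).v f := by
  rw [EndL_nm, AlgEquiv.commutes, P.ps_K, em_gnV]

theorem EndL_od_K (d : S.Dir) (σ : L ≃ₐ[K] L) (f : K) (hf : f ≠ 0) :
    (P.EndL d σ).od (algebraMap K L f) = Red332.od (S.nm d.1) d.2 f := by
  rw [EndL_od, AlgEquiv.commutes, P.ps_K, S.em_od d f hf]

theorem EndL_surj (d : S.Dir) (σ : L ≃ₐ[K] L) : Function.Surjective (P.EndL d σ).od := by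
  obtain ⟨t, ht, -, ht'⟩ := exists_t d
  have ht0 : t ≠ 0 := by
    rintro rfl; rw [map_zero] at ht; exact zero_ne_one ht
  have ht0' : algebraMap K L t ≠ 0 := by rwa [Ne, map_eq_zero]
  intro n
  refine ⟨algebraMap K L t ^ n, ?_⟩
  rw [(P.EndL d σ).od_zpow ht0', P.EndL_od_K d σ t ht0, ← S.em_od d t ht0, ht', mul_one]

/-- the relation between directions of `L` and pairs (direction of `K`, `σ`) -/
structure Rel (w : Nm C L) (y : Pl (Ct C) (kap w)) (d : S.Dir) (σ : L ≃ₐ[K] L) : Prop where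
  nm : ∀ f, w.v f = gnV (P.ps d (σ f))
  od : ∀ f, f ≠ 0 → Red332.od w y f = EE809.od (P.ps d (σ f))

theorem Rel.nm_K {w : Nm C L} {y : Pl (Ct C) (kap w)} {d : S.Dir} {σ : L ≃ₐ[K] L}
    (h : P.Rel w y d σ) (f : K) : w.v (algebraMap K L f) = (S.nm d.1).v f := by
  rw [h.nm, AlgEquiv.commutes, P.ps_K, em_gnV]

theorem Rel.od_K {w : Nm C L} {y : Pl (Ct C) (kap w)} {d : S.Dir} {σ : L ≃ₐ[K] L}
    (h : P.Rel w y d σ) (f : K) (hf : f ≠ 0) :
    Red332.od w y (algebraMap K L f) = Red332.od (S.nm d.1) d.2 f := by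
  rw [h.od _ (by rwa [Ne, map_eq_zero]), AlgEquiv.commutes, P.ps_K, S.em_od d f hf]

/-- every pair is realised by a direction of `L` -/
theorem exists_rel_of_pair (d : S.Dir) (σ : L ≃ₐ[K] L) :
    ∃ (w : Nm C L) (y : Pl (Ct C) (kap w)), P.Rel w y d σ :=
  ⟨(P.EndL d σ).toNm, (P.EndL d σ).pl (P.EndL_surj d σ), fun f => rfl, fun f hf => by
    rw [(P.EndL d σ).od_pl _ hf]; rfl⟩

section Galois

variable [FiniteDimensional K L] [IsGalois K L]

/-- a direction of `L` is non-trivial on `K` -/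
theorem od_K_ne (w : Nm C L) (y : Pl (Ct C) (kap w)) :
    ∃ f : K, f ≠ 0 ∧ Red332.od w y (algebraMap K L f) ≠ 0 := by
  by_contra hcon
  push Not at hcon
  set R : ValuationSubring L := (ofPl w y).ring with hR
  have hRm : ∀ f : L, f ∈ R ↔ w.v f < 1 ∨ (w.v f = 1 ∧ 0 ≤ Red332.od w y f) := fun f => Iff.rfl
  obtain ⟨σ, hσ⟩ := Hens_899.conj_fin (K := K) w.v R.valuation (fun a => by
    rw [ValuationSubring.valuation_le_one_iff, hRm]
    constructor
    · intro h
      rcases h.lt_or_eq with h1 | h1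
      · exact Or.inl h1
      · refine Or.inr ⟨h1, ?_⟩
        have ha : a ≠ 0 := by
          rintro rfl; rw [map_zero, map_zero] at h1; exact zero_ne_one h1
        exact (hcon a ha).ge
    · rintro (h | ⟨h, -⟩)
      · exact h.le
      · exact h.le)
  have hσ' : ∀ x, w.v (σ x) ≤ 1 ↔ x ∈ R := fun x => by
    rw [hσ x, ValuationSubring.valuation_le_one_iff]
  have h1 : ∀ x, w.v (σ.symm x) = w.v x := by
    refine Hens_899.eq_of_le_one_imp w.v σ.symm fun x hx => ?_
    have h2 : σ.symm x ∈ R := by rw [← hσ', AlgEquiv.apply_symm_apply]; exact hx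
    rcases (hRm _).1 h2 with h3 | ⟨h3, -⟩
    · exact h3.le
    · exact h3.le
  obtain ⟨g, hg1, hg2⟩ := od_surj y (-1)
  have h3 : g ∈ R := by
    rw [← hσ']
    have := h1 (σ g)
    rw [AlgEquiv.symm_apply_apply] at this
    rw [← this, hg1]
  rcases (hRm g).1 h3 with h4 | ⟨-, h4⟩
  · exact h4.ne hg1
  · omega

/-- every direction of `L` over a vertex of `S` comes from a pair -/
theorem exists_rel (w : Nm C L) (y : Pl (Ct C) (kap w))
    (hw : ∃ v, ∀ f : K, w.v (algebraMap K L f) = (S.nm v).v f) :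
    ∃ (d : S.Dir) (σ : L ≃ₐ[K] L), P.Rel w y d σ := by
  obtain ⟨v, hv⟩ := hw
  let iK : K →ₐ[C] L := IsScalarTower.toAlgHom C K L
  have hiK : ∀ f, iK f = algebraMap K L f := fun f => rfl
  obtain ⟨f0, hf0, hf0'⟩ := od_K_ne (K := K) w y
  obtain ⟨v', x', m, hm, h1, h2⟩ := End2.dict ((ofPl w y).comap iK) ⟨f0, hf0, hf0'⟩
  have hv' : v' = S.nm v := Nm.ext' (fun f => by rw [h1, ← hv]; rfl)
  subst hv'
  have h2' : ∀ f : K, f ≠ 0 → Red332.od w y (algebraMap K L f) = m * Red332.od (S.nm v) x' f := h2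
  let d : S.Dir := ⟨v, x'⟩
  have hm' : (0 : ℤ) < m := by exact_mod_cast hm
  obtain ⟨σ, hσ⟩ := Hens_899.conj_fin (K := K) (P.EndL d 1).ring.valuation
    (ofPl w y).ring.valuation (fun a => by
      rw [ValuationSubring.valuation_le_one_iff, ValuationSubring.valuation_le_one_iff]
      change ((P.EndL d 1).nm (algebraMap K L a) < 1 ∨ ((P.EndL d 1).nm (algebraMap K L a) = 1 ∧
        0 ≤ (P.EndL d 1).od (algebraMap K L a))) ↔ (w.v (algebraMap K L a) < 1 ∨
        (w.v (algebraMap K L a) = 1 ∧ 0 ≤ Red332.od w y (algebraMap K L a)))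
      rw [P.EndL_nm_K, hv]
      by_cases ha : a = 0
      · rw [ha, map_zero]; simp
      · rw [P.EndL_od_K d 1 a ha, h2' a ha]
        constructor
        · rintro (h | ⟨h, h'⟩)
          · exact Or.inl h
          · exact Or.inr ⟨h, mul_nonneg hm'.le h'⟩
        · rintro (h | ⟨h, h'⟩)
          · exact Or.inl h
          · exact Or.inr ⟨h, nonneg_of_mul_nonneg_right h' hm'⟩)
  have hσ' : ∀ f, ((P.EndL d σ).nm f < 1 ∨ ((P.EndL d σ).nm f = 1 ∧ 0 ≤ (P.EndL d σ).od f)) ↔
      ((ofPl w y).nm f < 1 ∨ ((ofPl w y).nm f = 1 ∧ 0 ≤ (ofPl w y).od f)) := by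
    intro f
    have h3 := hσ f
    rw [ValuationSubring.valuation_le_one_iff, ValuationSubring.valuation_le_one_iff] at h3
    exact h3
  obtain ⟨t, ht, -, ht'⟩ := exists_t d
  have ht0 : t ≠ 0 := by
    rintro rfl; rw [map_zero] at ht; exact zero_ne_one ht
  obtain ⟨s, hs1, hs2⟩ := od_surj y 1
  refine ⟨d, σ, fun f => ?_, fun f hf => ?_⟩
  · exact (nm_eq_of_ring (exists_small (k := k)) _ _ hσ' f).symm
  · exact (od_eq_of_ring (exists_small (k := k)) _ _ hσ' (algebraMap K L t)
      (by rw [P.EndL_nm_K]; exact ht)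
      (by rw [P.EndL_od_K d σ t ht0, ← S.em_od d t ht0, ht']) s hs1 hs2 f hf).symm

/-- uniqueness of the pair -/
theorem Rel.pair_unique {w : Nm C L} {y : Pl (Ct C) (kap w)} {d d' : S.Dir} {σ σ' : L ≃ₐ[K] L}
    (h : P.Rel w y d σ) (h' : P.Rel w y d' σ') : d = d' ∧ σ = σ' := by
  have hd : d = d' := by
    obtain ⟨v, x⟩ := d
    obtain ⟨v', x'⟩ := d'
    have hv : v = v' := S.nm_inj (Nm.ext' fun f => by
      have h1 := h.nm_K P f
      have h2 := h'.nm_K P f
      rw [← h1, ← h2])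
    subst hv
    have hx : x = x' := pl_eq_of_od fun f hf => by
      have hf0 : f ≠ 0 := by
        rintro rfl; rw [map_zero] at hf; exact zero_ne_one hf
      have h1 := h.od_K P f hf0
      have h2 := h'.od_K P f hf0
      exact h1.symm.trans h2
    rw [hx]
  subst hd
  refine ⟨rfl, ?_⟩
  obtain ⟨t, -, ht, ht'⟩ := exists_t d
  -- `σ' σ⁻¹` preserves the end `ps d`
  have key : σ' * σ⁻¹ = 1 := by
    refine (DE (k := k) (C := C)).fix_of_noInertia (K := K) (S.em d) (em_C' d) t ht ht' (P.ps d)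
      (RingHom.ext fun f => P.ps_K d f) (P.ni d) (σ' * σ⁻¹) (fun f => ?_) (fun f hf => ?_)
    · change gnV (P.ps d (σ' (σ.symm f))) = gnV (P.ps d f)
      rw [← h'.nm, h.nm, AlgEquiv.apply_symm_apply]
    · change EE809.od (P.ps d (σ' (σ.symm f))) = EE809.od (P.ps d f)
      have hf0 : σ.symm f ≠ 0 := by
        rw [Ne, EmbeddingLike.map_eq_zero_iff]
        rintro rfl
        have hf : gnV (P.ps d (0 : L)) = 1 := hf
        rw [map_zero, map_zero] at hf
        exact zero_ne_one hf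
      rw [← h'.od _ hf0, h.od _ hf0, AlgEquiv.apply_symm_apply]
  exact (mul_inv_eq_one.1 key).symm

/-- uniqueness of the direction -/
theorem Rel.dir_unique {w w' : Nm C L} {y : Pl (Ct C) (kap w)} {y' : Pl (Ct C) (kap w')}
    {d : S.Dir} {σ : L ≃ₐ[K] L} (h : P.Rel w y d σ) (h' : P.Rel w' y' d σ) :
    (⟨w, y⟩ : Σ w : Nm C L, Pl (Ct C) (kap w)) = ⟨w', y'⟩ := by
  have hw : w = w' := Nm.ext' fun f => by rw [h.nm, h'.nm]
  subst hw
  have hy : y = y' := pl_eq_of_od fun f hf => by
    have hf0 : f ≠ 0 := by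
      rintro rfl; rw [map_zero] at hf; exact zero_ne_one hf
    rw [h.od _ hf0, h'.od _ hf0]
  rw [hy]

end Galois

end Spl

end Crest.Agent.R013.Inh_770
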