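import Mathlib
import Crest.Agent.R013.Inh5_770
import Crest.Agent.R013.Pow3_931

-- ▼ part R013/Inh6_770
section

/-!
# Row 13, leaf C-INH (helper770), part 6: points of discs and annuli as `PtRing`
-/

set_option autoImplicit false
set_option linter.all false
open WithZero
open scoped NNReal
open Crest.Agent.R013.RR7_948 Crest.Agent.R013.Red332 Crest.Agent.R013.EE809
open Crest.Agent.R013.Cell_408 (FinDef DiscNorm)
open Crest.Agent.R013.SSK_332 Crest.Agent.R013.Pow1_931 Crest.Agent.R013.Pow2_931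
  Crest.Agent.R013.Pow3_931

namespace Crest.Agent.R013.Inh_770

section

variable {k : Type*} [NontriviallyNormedField k] [CompleteSpace k] [IsUltrametricDist k]
variable {C : Type*} [NormedField C] [IsUltrametricDist C] [NormedAlgebra k C]
variable [Algebra.IsAlgebraic k C] [IsAlgClosed C] [hk : Fact (DiscNorm k)]

theorem InA.add' {c : C} {a b : EE k C} (ha : InA c a) (hb : InA c b) : InA c (a + b) := by
  obtain ⟨M, hM⟩ := ha
  obtain ⟨N, hN⟩ := hb
  refine ⟨max M N, fun n => ?_⟩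
  have h0 : 0 ≤ ‖c‖ ^ n := zpow_nonneg (norm_nonneg _) _
  have h1 : ‖(a + b).co n‖ ≤ max ‖a.co n‖ ‖b.co n‖ := IsUltrametricDist.norm_add_le_max _ _
  rcases le_max_iff.1 h1 with h | h
  · exact (mul_le_mul_of_nonneg_right h h0).trans ((hM n).trans (le_max_left _ _))
  · exact (mul_le_mul_of_nonneg_right h h0).trans ((hN n).trans (le_max_right _ _))

theorem InA.neg' {c : C} {a : EE k C} (ha : InA c a) : InA c (-a) := by
  obtain ⟨M, hM⟩ := ha
  refine ⟨M, fun n => ?_⟩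
  have : ‖(-a).co n‖ = ‖a.co n‖ := norm_neg _
  rw [this]; exact hM n

/-- bounded functions on the disc -/
noncomputable def discR : Subring (EE k C) where
  carrier := {a | InD a}
  mul_mem' := fun {a b} ha hb => Pos.mul ha hb
  one_mem' := Pos.one
  add_mem' := fun {a b} ha hb => Pos.add ha hb
  zero_mem' := fun n _ => rfl
  neg_mem' := fun {a} ha => Pos.neg ha

/-- bounded functions on the annulus -/
noncomputable def annR (c : C) (hc : c ≠ 0) : Subring (EE k C) where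
  carrier := {a | InA c a}
  mul_mem' := fun {a b} ha hb => Pow3_931.InA.mul hc ha hb
  one_mem' := Pow3_931.InA.one
  add_mem' := fun {a b} ha hb => InA.add' ha hb
  zero_mem' := ⟨0, fun n => by
    have : (0 : EE k C).co n = 0 := rfl
    rw [this, norm_zero, zero_mul]⟩
  neg_mem' := fun {a} ha => InA.neg' ha

theorem evE_zero (t : C) : evE t (0 : EE k C) = 0 := by
  unfold evE
  have : ∀ n : ℤ, (0 : EE k C).co n * t ^ n = 0 := fun n => by
    have h : (0 : EE k C).co n = 0 := rfl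
    rw [h, zero_mul]
  rw [tsum_congr this, tsum_zero]

/-- the point `τ` of the open disc -/
noncomputable def ptDisc (τ : C) (hτ : ‖τ‖ < 1) : PtRing C (EE k C) where
  R := discR
  ev :=
    { toFun := fun a => evE τ a.1
      map_one' := evE_one τ
      map_mul' := fun a b => evE_mul a.2 b.2 hτ
      map_zero' := evE_zero τ
      map_add' := fun a b => evE_add a.2 b.2 hτ }
  l := ⟨lin τ, pos_lin τ⟩
  C_mem := fun c => pos_algebraMap c
  ev_C := fun c => evE_algebraMap τ c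
  ev_l := by
    change evE τ (lin τ) = 0
    rw [evE_lin, sub_self]
  fac := fun g hg => by
    classical
    have hg0 : (g : EE k C) ≠ 0 := fun h => hg (Subtype.ext h)
    obtain ⟨c, S, u, hc, hS, hu, he⟩ := exists_fact hk.out g.2 hg0
    obtain ⟨S', hS', hf⟩ := fact_at (k := k) S τ
    have hp : Pos (algebraMap C (EE k C) c * rp S' * u) :=
      ((pos_algebraMap c).mul (pos_rp S')).mul hu.pos
    refine ⟨S.count τ, ⟨algebraMap C (EE k C) c * rp S' * u, hp⟩, ?_, ?_⟩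
    · apply Subtype.ext
      change (g : EE k C) = _
      rw [he]
      have hf' : (rp S : EE k C) = lin τ ^ (S.count τ) * rp S' := by convert hf
      rw [hf']
      change _ = lin τ ^ (S.count τ) * (algebraMap C (EE k C) c * rp S' * u)
      ring
    · change evE τ (algebraMap C (EE k C) c * rp S' * u) ≠ 0
      rw [evE_mul ((pos_algebraMap c).mul (pos_rp S')) hu.pos hτ,
        evE_mul (pos_algebraMap c) (pos_rp S') hτ, evE_algebraMap]
      refine mul_ne_zero (mul_ne_zero hc (evE_rp_ne_zero hS')) ?_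
      rw [← norm_ne_zero_iff, norm_evE_upos hu hτ]
      exact one_ne_zero

/-- the point `τ` of the open annulus -/
noncomputable def ptAnn (c : C) (hc : c ≠ 0) (hc1 : ‖c‖ < 1) (τ : C) (h0 : ‖c‖ < ‖τ‖)
    (h1 : ‖τ‖ < 1) : PtRing C (EE k C) where
  R := annR c hc
  ev :=
    { toFun := fun a => evE τ a.1
      map_one' := evE_one τ
      map_mul' := fun a b => evE_mulA hc a.2 b.2 h0 h1
      map_zero' := evE_zero τ
      map_add' := fun a b => by
        have ha := summable_evA hc a.2 h0 h1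
        have hb := summable_evA hc b.2 h0 h1
        change evE τ (a.1 + b.1) = _
        unfold evE
        rw [← ha.tsum_add hb]
        refine tsum_congr fun n => ?_
        have : (a.1 + b.1).co n = a.1.co n + b.1.co n := rfl
        rw [this, add_mul] }
  l := ⟨lin τ, InA.of_pos hc1 (pos_lin τ)⟩
  C_mem := fun x => InA.of_pos hc1 (pos_algebraMap x)
  ev_C := fun x => evE_algebraMap τ x
  ev_l := by
    change evE τ (lin τ) = 0
    rw [evE_lin, sub_self]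
  fac := fun g hg => by
    classical
    have hg0 : (g : EE k C) ≠ 0 := fun h => hg (Subtype.ext h)
    have hτ0 : τ ≠ 0 := norm_pos_iff.1 ((norm_nonneg c).trans_lt h0)
    obtain ⟨A, N, S, a, b, b', hA, hS, ha, hb, hbb, hb', he⟩ := exists_factA hk.out hc hc1 g.2 hg0
    obtain ⟨S', hS', hf⟩ := fact_at (k := k) S τ
    have hbA : InA c b := InA.flip hc (Flip.symm hc hbb)
    have hAT : InA c (algebraMap C (EE k C) A * T N) :=
      Pow3_931.InA.mul hc (InA.of_pos hc1 (pos_algebraMap A)) (inA_T N)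
    have hATS : InA c (algebraMap C (EE k C) A * T N * rp S') :=
      Pow3_931.InA.mul hc hAT (InA.of_pos hc1 (pos_rp S'))
    have hab : InA c (a * b) := Pow3_931.InA.mul hc (InA.of_pos hc1 ha.pos) hbA
    have hp : InA c (algebraMap C (EE k C) A * T N * rp S' * (a * b)) :=
      Pow3_931.InA.mul hc hATS hab
    refine ⟨S.count τ, ⟨algebraMap C (EE k C) A * T N * rp S' * (a * b), hp⟩, ?_, ?_⟩
    · apply Subtype.ext
      change (g : EE k C) = _
      rw [he]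
      have hf' : (rp S : EE k C) = lin τ ^ (S.count τ) * rp S' := by convert hf
      rw [hf']
      change _ = lin τ ^ (S.count τ) * (algebraMap C (EE k C) A * T N * rp S' * (a * b))
      ring
    · change evE τ (algebraMap C (EE k C) A * T N * rp S' * (a * b)) ≠ 0
      rw [evE_mulA hc hATS hab h0 h1, evE_mulA hc hAT (InA.of_pos hc1 (pos_rp S')) h0 h1,
        evE_mulA hc (InA.of_pos hc1 (pos_algebraMap A)) (inA_T N) h0 h1,
        evE_mulA hc (InA.of_pos hc1 ha.pos) hbA h0 h1, evE_algebraMap, evE_T]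
      refine mul_ne_zero (mul_ne_zero (mul_ne_zero hA (zpow_ne_zero _ hτ0))
        (evE_rp_ne_zero hS')) (mul_ne_zero ?_ ?_)
      · rw [← norm_ne_zero_iff, norm_evE_upos ha h1]
        exact one_ne_zero
      · rw [← norm_ne_zero_iff, ← evE_flip hc hτ0 hbb, norm_evE_upos hb' ?_]
        · exact one_ne_zero
        · rw [norm_div, div_lt_one (norm_pos_iff.2 hτ0)]; exact h0

theorem ptDisc_l (τ : C) (hτ : ‖τ‖ < 1) : (ptDisc (k := k) τ hτ).l ≠ 0 := fun h =>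
  lin_ne_zero (k := k) τ (congrArg Subtype.val h)

theorem ptAnn_l (c : C) (hc : c ≠ 0) (hc1 : ‖c‖ < 1) (τ : C) (h0 : ‖c‖ < ‖τ‖) (h1 : ‖τ‖ < 1) :
    (ptAnn (k := k) c hc hc1 τ h0 h1).l ≠ 0 := fun h =>
  lin_ne_zero (k := k) τ (congrArg Subtype.val h)

end

end Crest.Agent.R013.Inh_770
end

-- ▼ part R013/Inh7_770
section

/-!
# Row 13, leaf C-INH (helper770), part 7: the places of `L` over a point of a cell of `K`
-/

set_option autoImplicit false
set_option linter.all false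
open WithZero
open scoped NNReal
open Crest.Agent.R013.RR7_948

namespace Crest.Agent.R013.Inh_770

namespace PtRing

variable {C E : Type*} [Field C] [CommRing E] [IsDomain E] [Algebra C E] (D : PtRing C E)
variable (hl : D.l ≠ 0)
variable {K L : Type*} [Field K] [Field L] [Algebra K L] [Algebra C K] [Algebra C L]
  [IsScalarTower C K L]
variable (ψ : L →+* E) (hψ : ∀ c : C, ψ (algebraMap C L c) = algebraMap C E c)
variable (hq : ∀ f : L, ∃ g h : E, h ≠ 0 ∧ g ∈ D.R ∧ h ∈ D.R ∧ ψ f * h = g)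
variable (P₀ : Pl C K)
variable (hP : ∀ f : K, f ≠ 0 → ∃ n : ℤ, D.Rep (ψ (algebraMap K L f)) n ∧ P₀.v f = exp (-n))

include hP in
theorem val_K (f : K) : D.val hl ψ hq (algebraMap K L f) = P₀.v f := by
  by_cases hf : f = 0
  · rw [hf, map_zero, map_zero, map_zero]
  · obtain ⟨n, hn, h⟩ := hP f hf
    rw [D.val_eq_of_rep hl ψ hq hn, h]

include hP in
theorem exists_unif : ∃ t : K, D.val hl ψ hq (algebraMap K L t) = exp (-1) := by
  obtain ⟨t, ht⟩ := P₀.surj (exp (-1))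
  exact ⟨t, by rw [D.val_K hl ψ hq P₀ hP, ht]⟩

/-- the place of `L` over the point, twisted by `σ` -/
noncomputable def plL (σ : L ≃ₐ[K] L) : Pl C L where
  v := (D.val hl ψ hq).comap (σ : L →+* L)
  const := fun c hc => by
    change D.val hl ψ hq (σ (algebraMap C L c)) = 1
    rw [IsScalarTower.algebraMap_apply C K L, AlgEquiv.commutes, ← IsScalarTower.algebraMap_apply,
      D.val_const hl ψ hq hψ c hc]
  surj := fun x => by
    by_cases hx : x = 0
    · exact ⟨0, by rw [hx, map_zero]⟩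
    · obtain ⟨t, ht⟩ := D.exists_unif hl ψ hq P₀ hP
      refine ⟨algebraMap K L (t ^ (-log x)), ?_⟩
      change D.val hl ψ hq (σ (algebraMap K L (t ^ (-log x)))) = x
      rw [AlgEquiv.commutes, map_zpow₀, map_zpow₀, ht, ← exp_zsmul]
      conv_rhs => rw [← exp_log hx]
      congr 1
      simp

theorem plL_v (σ : L ≃ₐ[K] L) (f : L) :
    (D.plL hl ψ hψ hq P₀ hP σ).v f = D.val hl ψ hq (σ f) := rfl

theorem plL_K (σ : L ≃ₐ[K] L) (f : K) :
    (D.plL hl ψ hψ hq P₀ hP σ).v (algebraMap K L f) = P₀.v f := by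
  rw [plL_v, AlgEquiv.commutes, D.val_K hl ψ hq P₀ hP]

theorem plL_rep (σ : L ≃ₐ[K] L) (f : L) (hf : f ≠ 0) : ∃ (a b : ℕ) (g h : D.R),
    D.ev g ≠ 0 ∧ D.ev h ≠ 0 ∧ ψ (σ f) * ((D.l : E) ^ b * h) = (D.l : E) ^ a * g ∧
    (D.plL hl ψ hψ hq P₀ hP σ).v f = exp ((b : ℤ) - a) := by
  obtain ⟨n, hn⟩ := D.exists_rep ψ hq (σ f) (by rwa [Ne, EmbeddingLike.map_eq_zero_iff])
  have h1 := D.val_eq_of_rep hl ψ hq hn
  obtain ⟨a, b, g, h, hg, hh, e, rfl⟩ := hn
  refine ⟨a, b, g, h, hg, hh, e, ?_⟩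
  rw [plL_v, h1]
  congr 1
  ring

theorem plL_inj {σ σ' : L ≃ₐ[K] L}
    (h : D.plL hl ψ hψ hq P₀ hP σ = D.plL hl ψ hψ hq P₀ hP σ') : σ = σ' := by
  obtain ⟨t, ht⟩ := D.exists_unif hl ψ hq P₀ hP
  have h1 : ∀ f, D.val hl ψ hq (σ f) = D.val hl ψ hq (σ' f) := fun f =>
    congrArg (fun Q : Pl C L => Q.v f) h
  have key : σ' * σ⁻¹ = 1 := by
    refine eq_one_of_dense (D.val hl ψ hq) (fun f a ha => D.dense hl ψ hq hψ t ht f a ha)
      (σ' * σ⁻¹) fun f => ?_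
    change D.val hl ψ hq (σ' (σ.symm f)) = D.val hl ψ hq f
    rw [← h1, AlgEquiv.apply_symm_apply]
  exact (mul_inv_eq_one.1 key).symm

theorem exists_plL [FiniteDimensional K L] [IsGalois K L] (Q : Pl C L)
    (h : ∀ f : K, P₀.v f ≤ 1 ↔ Q.v (algebraMap K L f) ≤ 1) :
    ∃ σ, Q = D.plL hl ψ hψ hq P₀ hP σ := by
  obtain ⟨σ, hσ⟩ := Hens_899.conj_fin (K := K) (D.plL hl ψ hψ hq P₀ hP 1).v Q.v (fun a => by
    rw [D.plL_K hl ψ hψ hq P₀ hP, h])
  refine ⟨σ, ?_⟩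
  apply Pl.ext
  refine eq_of_isEquiv_surj ?_ Q.surj (D.plL hl ψ hψ hq P₀ hP σ).surj
  rw [Valuation.isEquiv_iff_val_le_one]
  intro x
  rw [← hσ x]
  rfl

end PtRing

end Crest.Agent.R013.Inh_770
end

-- ▼ part R013/Inh8_770
section

/-!
# Row 13, leaf C-INH (helper770), part 8: vertices and directions of `L`
-/

set_option autoImplicit false
set_option linter.all false
open WithZero
open scoped NNReal
open Crest.Agent.R013.RR7_948 Crest.Agent.R013.Red332 Crest.Agent.R013.EE809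
open Crest.Agent.R013.Cell_408 (FinDef DiscNorm)
open Crest.Agent.R013.SSK_332

namespace Crest.Agent.R013.Inh_770

variable {k : Type*} [NontriviallyNormedField k] [CompleteSpace k] [IsUltrametricDist k]
variable {C : Type*} [NormedField C] [IsUltrametricDist C] [NormedAlgebra k C]
variable [Algebra.IsAlgebraic k C] [IsAlgClosed C] [hk : Fact (DiscNorm k)]
variable {K : Type*} [Field K] [Algebra C K]
variable {L : Type*} [Field L] [Algebra C L] [Algebra K L] [IsScalarTower C K L]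

omit [IsUltrametricDist k] [IsAlgClosed C] hk in
theorem exists_dir (S : SSK k C K) (v : S.V) : ∃ d : S.Dir, d.1 = v := by
  obtain ⟨i, h1, h2, h3⟩ := S.ff v
  letI := i
  haveI := h1
  haveI := h2
  haveI := h3
  obtain ⟨Q, hQ⟩ := RR18_948.above_nonempty (L := kap (S.nm v)) (RR20_948.pinf (Ct C))
  exact ⟨⟨v, Q⟩, rfl⟩

/-- the norms of `L` over the vertices -/
def VL (S : SSK k C K) (L : Type*) [Field L] [Algebra C L] [Algebra K L] : Type _ :=
  {w : Nm C L // ∃ v, ∀ f : K, w.v (algebraMap K L f) = (S.nm v).v f}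

namespace Spl

variable {S : SSK k C K} (P : Spl S L)

/-- the norm of the pair `(d, σ)` -/
noncomputable def nmOf (d : S.Dir) (σ : L ≃ₐ[K] L) : Nm C L := (P.EndL d σ).toNm


theorem nmOf_K (d : S.Dir) (σ : L ≃ₐ[K] L) (f : K) :
    (P.nmOf d σ).v (algebraMap K L f) = (S.nm d.1).v f := P.EndL_nm_K d σ f

section Galois

variable [FiniteDimensional K L] [IsGalois K L]

/-- all norms over a vertex -/
theorem exists_sigma (w : Valuation L ℝ≥0) (d : S.Dir)
    (hw : ∀ f : K, w (algebraMap K L f) = (S.nm d.1).v f) :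
    ∃ σ : L ≃ₐ[K] L, ∀ f, w f = gnV (P.ps d (σ f)) := by
  obtain ⟨σ, hσ⟩ := Hens_899.conj_fin (K := K) (P.nmOf d 1).v w (fun a => by
    rw [P.nmOf_K, hw])
  refine ⟨σ, fun f => ?_⟩
  have hσ' : ∀ x, gnV (P.ps d (σ x)) ≤ 1 ↔ w x ≤ 1 := hσ
  have heq : ∀ x, gnV (P.ps d (σ x)) = 1 ↔ w x = 1 := by
    have hE : ((P.nmOf d σ).v).IsEquiv w := by
      rw [Valuation.isEquiv_iff_val_le_one]
      intro x
      exact hσ' x
    intro x
    exact hE.eq_one_iff_eq_one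
  by_cases hf : f = 0
  · rw [hf, map_zero, map_zero, map_zero, map_zero]
  obtain ⟨c, hc⟩ := (P.nmOf d σ).val f hf
  have hvf : (P.nmOf d σ).v f ≠ 0 := (Valuation.ne_zero_iff _).2 hf
  have hc0 : c ≠ 0 := by
    rintro rfl
    rw [nnnorm_zero] at hc
    exact hvf hc
  have hwc : w (algebraMap C L c) = ‖c‖₊ := by
    rw [IsScalarTower.algebraMap_apply C K L, hw, (S.nm d.1).hC]
  have h1 : (P.nmOf d σ).v (f / algebraMap C L c) = 1 := by
    rw [map_div₀, (P.nmOf d σ).hC, hc, div_self]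
    rwa [← hc]
  have h2 : w (f / algebraMap C L c) = 1 := (heq _).1 h1
  rw [map_div₀, hwc] at h2
  have hc1 : ‖c‖₊ ≠ 0 := nnnorm_ne_zero_iff.2 hc0
  have h3 : w f = ‖c‖₊ := by
    rw [div_eq_one_iff_eq hc1] at h2
    exact h2
  rw [h3, ← hc]
  rfl

include P in
theorem finite_VL : Finite (VL S L) := by
  haveI := S.fV
  choose dd hdd using exists_dir S
  refine Finite.of_surjective (α := S.V × (L ≃ₐ[K] L))
    (fun p => (⟨P.nmOf (dd p.1) p.2, (dd p.1).1, fun f => P.nmOf_K _ _ f⟩ : VL S L)) ?_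
  rintro ⟨w, v, hv⟩
  obtain ⟨σ, hσ⟩ := P.exists_sigma w.v (dd v) (fun f => by rw [hv, hdd])
  refine ⟨(v, σ), ?_⟩
  apply Subtype.ext
  apply Nm.ext'
  intro f
  rw [hσ f]
  rfl

include P in
/-- all norms of `L` over a vertex norm of `K` are vertices of `L` -/
theorem exists_VL (w : Valuation L ℝ≥0) (v : S.V)
    (hw : ∀ f : K, w (algebraMap K L f) = (S.nm v).v f) : ∃ x : VL S L, x.1.v = w := by
  obtain ⟨d, rfl⟩ := exists_dir S v
  obtain ⟨σ, hσ⟩ := P.exists_sigma w d hw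
  refine ⟨⟨P.nmOf d σ, d.1, fun f => P.nmOf_K _ _ f⟩, ?_⟩
  ext f
  rw [hσ f]
  rfl

/-- number of vertices of `L` -/
noncomputable def nV (S : SSK k C K) (L : Type*) [Field L] [Algebra C L] [Algebra K L] : ℕ :=
  Nat.card (VL S L)

/-- numbering of the vertices -/
noncomputable def eV : Fin (nV S L) ≃ VL S L :=
  haveI := P.finite_VL
  (Finite.equivFin (VL S L)).symm

/-- the norm of a vertex -/
noncomputable def nmL (i : Fin (nV S L)) : Nm C L := (P.eV i).1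

/-- the vertex of `K` under a vertex of `L` -/
noncomputable def fV (i : Fin (nV S L)) : S.V := (P.eV i).2.choose

theorem nmL_K (i : Fin (nV S L)) (f : K) : (P.nmL i).v (algebraMap K L f) = (S.nm (P.fV i)).v f :=
  (P.eV i).2.choose_spec f

theorem nmL_inj : Function.Injective P.nmL := fun i j h =>
  P.eV.injective (Subtype.ext h)

theorem exists_nmL (w : Valuation L ℝ≥0) (v : S.V)
    (hw : ∀ f : K, w (algebraMap K L f) = (S.nm v).v f) : ∃ i, (P.nmL i).v = w := by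
  obtain ⟨x, hx⟩ := P.exists_VL w v hw
  exact ⟨P.eV.symm x, by rw [nmL, Equiv.apply_symm_apply, hx]⟩

/-- directions of `L` -/
abbrev DirL : Type _ := Σ i : Fin (nV S L), Pl (Ct C) (kap (P.nmL i))

theorem exists_pair (y : P.DirL) : ∃ q : S.Dir × (L ≃ₐ[K] L), P.Rel (P.nmL y.1) y.2 q.1 q.2 := by
  obtain ⟨d, σ, h⟩ := P.exists_rel (P.nmL y.1) y.2 ⟨P.fV y.1, fun f => P.nmL_K y.1 f⟩
  exact ⟨(d, σ), h⟩

/-- the pair of a direction -/
noncomputable def toPair (y : P.DirL) : S.Dir × (L ≃ₐ[K] L) := (P.exists_pair y).choose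

theorem toPair_rel (y : P.DirL) : P.Rel (P.nmL y.1) y.2 (P.toPair y).1 (P.toPair y).2 :=
  (P.exists_pair y).choose_spec

theorem toPair_eq {y : P.DirL} {q : S.Dir × (L ≃ₐ[K] L)} (h : P.Rel (P.nmL y.1) y.2 q.1 q.2) :
    P.toPair y = q := by
  obtain ⟨h1, h2⟩ := Rel.pair_unique P (P.toPair_rel y) h
  exact Prod.ext h1 h2

theorem toPair_bij : Function.Bijective P.toPair := by
  constructor
  · rintro ⟨i, y⟩ ⟨j, z⟩ h
    have h1 := P.toPair_rel ⟨i, y⟩
    have h2 := P.toPair_rel ⟨j, z⟩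
    rw [h] at h1
    have h3 := Rel.dir_unique P h1 h2
    have h4 : P.nmL i = P.nmL j := congrArg Sigma.fst h3
    obtain rfl := P.nmL_inj h4
    have h5 : y = z := by
      have := (Sigma.mk.inj h3).2
      exact eq_of_heq this
    rw [h5]
  · rintro ⟨d, σ⟩
    obtain ⟨w, y, h⟩ := P.exists_rel_of_pair d σ
    obtain ⟨i, hi⟩ := P.exists_nmL w.v d.1 (fun f => h.nm_K P f)
    have hi' : P.nmL i = w := Nm.ext' fun f => by rw [hi]
    subst hi'
    exact ⟨⟨i, y⟩, P.toPair_eq h⟩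

/-- directions of `L` = (direction of `K`, element of the Galois group) -/
noncomputable def eD : P.DirL ≃ S.Dir × (L ≃ₐ[K] L) := Equiv.ofBijective P.toPair P.toPair_bij

theorem eD_rel (y : P.DirL) : P.Rel (P.nmL y.1) y.2 (P.eD y).1 (P.eD y).2 := P.toPair_rel y


theorem eD_fst (y : P.DirL) : (P.eD y).1.1 = P.fV y.1 := by
  apply S.nm_inj
  apply Nm.ext'
  intro f
  rw [← P.nmL_K, ← (P.eD_rel y).nm_K P]

end Galois

end Spl

end Crest.Agent.R013.Inh_770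
end

-- ▼ part R013/Inh9_770
section

/-!
# Row 13, leaf C-INH (helper770), part 9: the semistable structure of `L`
-/

set_option autoImplicit false
set_option linter.all false
open WithZero
open scoped NNReal
open Crest.Agent.R013.RR7_948 Crest.Agent.R013.Red332 Crest.Agent.R013.EE809
open Crest.Agent.R013.Cell_408 (FinDef DiscNorm)
open Crest.Agent.R013.SSK_332

namespace Crest.Agent.R013.Inh_770

variable {k : Type*} [NontriviallyNormedField k] [CompleteSpace k] [IsUltrametricDist k]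
variable {C : Type*} [NormedField C] [IsUltrametricDist C] [NormedAlgebra k C]
variable [Algebra.IsAlgebraic k C] [IsAlgClosed C] [hk : Fact (DiscNorm k)]
variable {K : Type*} [Field K] [Algebra C K]
variable {L : Type*} [Field L] [Algebra C L] [Algebra K L] [IsScalarTower C K L]

namespace Spl

variable {S : SSK k C K} (P : Spl S L)

/-! ### points of discs -/

theorem hqD (d : S.Dir) (hd : S.IsDisc d) (τ : C) (hτ : ‖τ‖ < 1) (f : L) :
    ∃ g h : EE k C, h ≠ 0 ∧ g ∈ (ptDisc τ hτ : PtRing C (EE k C)).R ∧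
      h ∈ (ptDisc τ hτ : PtRing C (EE k C)).R ∧ P.ps d f * h = g := by
  obtain ⟨g, h, h0, hg, hh, e⟩ := P.ps_disc d hd f
  exact ⟨g, h, h0, hg, hh, e⟩

theorem hPD (d : S.Dir) (hd : S.IsDisc d) (τ : C) (hτ : ‖τ‖ < 1) (f : K) (hf : f ≠ 0) :
    ∃ n : ℤ, (ptDisc τ hτ : PtRing C (EE k C)).Rep (P.ps d (algebraMap K L f)) n ∧
      (S.ptD d hd.1 hd.2 τ hτ).v f = exp (-n) := by
  obtain ⟨a, b, g, h, hg, hh, hg0, hh0, e, hv⟩ := S.ptD_ord d hd.1 hd.2 τ hτ f hf
  refine ⟨(a : ℤ) - b, ⟨a, b, ⟨g, hg⟩, ⟨h, hh⟩, hg0, hh0, ?_, rfl⟩, ?_⟩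
  · rw [P.ps_K]; exact e
  · rw [hv]; congr 1; ring

/-- the place at the point `τ` of the disc `(d, σ)` -/
noncomputable def plD (d : S.Dir) (hd : S.IsDisc d) (σ : L ≃ₐ[K] L) (τ : C) (hτ : ‖τ‖ < 1) :
    Pl C L :=
  (ptDisc τ hτ : PtRing C (EE k C)).plL (ptDisc_l τ hτ) (P.ps d) (P.ps_C d) (P.hqD d hd τ hτ)
    (S.ptD d hd.1 hd.2 τ hτ) (P.hPD d hd τ hτ) σ

theorem plD_K (d : S.Dir) (hd : S.IsDisc d) (σ : L ≃ₐ[K] L) (τ : C) (hτ : ‖τ‖ < 1) (f : K) :
    (P.plD d hd σ τ hτ).v (algebraMap K L f) = (S.ptD d hd.1 hd.2 τ hτ).v f :=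
  PtRing.plL_K _ _ _ _ _ _ _ σ f

theorem plD_ord (d : S.Dir) (hd : S.IsDisc d) (σ : L ≃ₐ[K] L) (τ : C) (hτ : ‖τ‖ < 1) (f : L)
    (hf : f ≠ 0) : ∃ (a b : ℕ) (g h : EE k C), InD g ∧ InD h ∧
    evE τ g ≠ 0 ∧ evE τ h ≠ 0 ∧ P.ps d (σ f) * (lin τ ^ b * h) = lin τ ^ a * g ∧
    (P.plD d hd σ τ hτ).v f = exp ((b : ℤ) - a) := by
  obtain ⟨a, b, g, h, hg, hh, e, hv⟩ := (ptDisc τ hτ : PtRing C (EE k C)).plL_rep
    (ptDisc_l τ hτ) (P.ps d) (P.ps_C d) (P.hqD d hd τ hτ)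
    (S.ptD d hd.1 hd.2 τ hτ) (P.hPD d hd τ hτ) σ f hf
  exact ⟨a, b, g, h, g.2, h.2, hg, hh, e, hv⟩

/-! ### points of annuli -/

theorem hqA (e : S.Ed) (τ : C) (h0 : ‖S.cc e‖ < ‖τ‖) (h1 : ‖τ‖ < 1) (f : L) :
    ∃ g h : EE k C, h ≠ 0 ∧
      g ∈ (ptAnn (S.cc e) (S.cc_ne e) (S.cc_lt e) τ h0 h1 : PtRing C (EE k C)).R ∧
      h ∈ (ptAnn (S.cc e) (S.cc_ne e) (S.cc_lt e) τ h0 h1 : PtRing C (EE k C)).R ∧
      P.ps (S.e0 e) f * h = g := by
  obtain ⟨g, h, g', h', hne, hg, hh, -, -, e0, -⟩ := P.ps_ann e f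
  exact ⟨g, h, hne, hg, hh, e0⟩

theorem hPA (e : S.Ed) (τ : C) (h0 : ‖S.cc e‖ < ‖τ‖) (h1 : ‖τ‖ < 1) (f : K) (hf : f ≠ 0) :
    ∃ n : ℤ, (ptAnn (S.cc e) (S.cc_ne e) (S.cc_lt e) τ h0 h1 : PtRing C (EE k C)).Rep
      (P.ps (S.e0 e) (algebraMap K L f)) n ∧ (S.ptA e τ h0 h1).v f = exp (-n) := by
  obtain ⟨a, b, g, h, hg, hh, hg0, hh0, e', hv⟩ := S.ptA_ord e τ h0 h1 f hf
  refine ⟨(a : ℤ) - b, ⟨a, b, ⟨g, hg⟩, ⟨h, hh⟩, hg0, hh0, ?_, rfl⟩, ?_⟩
  · rw [P.ps_K]; exact e'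
  · rw [hv]; congr 1; ring

/-- the place at the point `τ` of the annulus `(e, σ)` -/
noncomputable def plA (e : S.Ed) (σ : L ≃ₐ[K] L) (τ : C) (h0 : ‖S.cc e‖ < ‖τ‖) (h1 : ‖τ‖ < 1) :
    Pl C L :=
  (ptAnn (S.cc e) (S.cc_ne e) (S.cc_lt e) τ h0 h1 : PtRing C (EE k C)).plL
    (ptAnn_l _ _ _ τ h0 h1) (P.ps (S.e0 e)) (P.ps_C (S.e0 e)) (P.hqA e τ h0 h1)
    (S.ptA e τ h0 h1) (P.hPA e τ h0 h1) σ

theorem plA_K (e : S.Ed) (σ : L ≃ₐ[K] L) (τ : C) (h0 : ‖S.cc e‖ < ‖τ‖) (h1 : ‖τ‖ < 1) (f : K) :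
    (P.plA e σ τ h0 h1).v (algebraMap K L f) = (S.ptA e τ h0 h1).v f :=
  PtRing.plL_K _ _ _ _ _ _ _ σ f

theorem plA_ord (e : S.Ed) (σ : L ≃ₐ[K] L) (τ : C) (h0 : ‖S.cc e‖ < ‖τ‖) (h1 : ‖τ‖ < 1) (f : L)
    (hf : f ≠ 0) : ∃ (a b : ℕ) (g h : EE k C), InA (S.cc e) g ∧ InA (S.cc e) h ∧
    evE τ g ≠ 0 ∧ evE τ h ≠ 0 ∧ P.ps (S.e0 e) (σ f) * (lin τ ^ b * h) = lin τ ^ a * g ∧
    (P.plA e σ τ h0 h1).v f = exp ((b : ℤ) - a) := by
  obtain ⟨a, b, g, h, hg, hh, e', hv⟩ :=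
    (ptAnn (S.cc e) (S.cc_ne e) (S.cc_lt e) τ h0 h1 : PtRing C (EE k C)).plL_rep
    (ptAnn_l _ _ _ τ h0 h1) (P.ps (S.e0 e)) (P.ps_C (S.e0 e)) (P.hqA e τ h0 h1)
    (S.ptA e τ h0 h1) (P.hPA e τ h0 h1) σ f hf
  exact ⟨a, b, g, h, g.2, h.2, hg, hh, e', hv⟩

/-! ### uniqueness -/

theorem plD_inj (d : S.Dir) (hd : S.IsDisc d) (σ : L ≃ₐ[K] L) (τ : C) (hτ : ‖τ‖ < 1)
    (d' : S.Dir) (hd' : S.IsDisc d') (σ' : L ≃ₐ[K] L) (τ' : C) (hτ' : ‖τ'‖ < 1)
    (h : P.plD d hd σ τ hτ = P.plD d' hd' σ' τ' hτ') : d = d' ∧ σ = σ' ∧ τ = τ' := by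
  have h1 : S.ptD d hd.1 hd.2 τ hτ = S.ptD d' hd'.1 hd'.2 τ' hτ' := by
    apply Pl.ext
    ext f
    rw [← P.plD_K d hd σ τ hτ, ← P.plD_K d' hd' σ' τ' hτ', h]
  obtain ⟨h2, h3⟩ := S.ptD_inj _ _ _ _ _ _ _ _ _ _ h1
  subst h2
  subst h3
  exact ⟨rfl, PtRing.plL_inj _ _ _ _ _ _ _ h, rfl⟩

theorem plA_inj (e : S.Ed) (σ : L ≃ₐ[K] L) (τ : C) (h0 : ‖S.cc e‖ < ‖τ‖) (h1 : ‖τ‖ < 1)
    (e' : S.Ed) (σ' : L ≃ₐ[K] L) (τ' : C) (h0' : ‖S.cc e'‖ < ‖τ'‖) (h1' : ‖τ'‖ < 1)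
    (h : P.plA e σ τ h0 h1 = P.plA e' σ' τ' h0' h1') : e = e' ∧ σ = σ' ∧ τ = τ' := by
  have h2 : S.ptA e τ h0 h1 = S.ptA e' τ' h0' h1' := by
    apply Pl.ext
    ext f
    rw [← P.plA_K e σ τ h0 h1, ← P.plA_K e' σ' τ' h0' h1', h]
  obtain ⟨h3, h4⟩ := S.ptA_inj _ _ _ _ _ _ _ _ h2
  subst h3
  subst h4
  exact ⟨rfl, PtRing.plL_inj _ _ _ _ _ _ _ h, rfl⟩

theorem plDA (d : S.Dir) (hd : S.IsDisc d) (σ : L ≃ₐ[K] L) (τ : C) (hτ : ‖τ‖ < 1)
    (e' : S.Ed) (σ' : L ≃ₐ[K] L) (τ' : C) (h0' : ‖S.cc e'‖ < ‖τ'‖) (h1' : ‖τ'‖ < 1) :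
    P.plD d hd σ τ hτ ≠ P.plA e' σ' τ' h0' h1' := by
  intro h
  refine S.ptDA d hd.1 hd.2 τ hτ e' τ' h0' h1' ?_
  apply Pl.ext
  ext f
  rw [← P.plD_K d hd σ τ hτ, ← P.plA_K e' σ' τ' h0' h1', h]

/-! ### every place is a point -/

section Surj

variable [FiniteDimensional K L] [IsGalois K L]
variable [Algebra (RatFunc C) K] [IsScalarTower C (RatFunc C) K]
  [FiniteDimensional (RatFunc C) K] [Algebra.IsSeparable (RatFunc C) K]

theorem pl_surj (Q : Pl C L) : (∃ d hd σ τ hτ, Q = P.plD d hd σ τ hτ) ∨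
    ∃ e σ τ h0 h1, Q = P.plA e σ τ h0 h1 := by
  have hP := fun f : K => (RR18_948.under_le_one_iff (K := K) Q f)
  rcases S.pt_surj (RR18_948.under K Q) with ⟨d, h0, h1, τ, hτ, h⟩ | ⟨e, τ, h0, h1, h⟩
  · left
    have hd : S.IsDisc d := ⟨h0, h1⟩
    obtain ⟨σ, hσ⟩ := (ptDisc τ hτ : PtRing C (EE k C)).exists_plL (ptDisc_l τ hτ) (P.ps d)
      (P.ps_C d) (P.hqD d hd τ hτ) (S.ptD d hd.1 hd.2 τ hτ) (P.hPD d hd τ hτ) Q
      (fun f => by rw [← hP, h])
    exact ⟨d, hd, σ, τ, hτ, hσ⟩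
  · right
    obtain ⟨σ, hσ⟩ := (ptAnn (S.cc e) (S.cc_ne e) (S.cc_lt e) τ h0 h1 :
      PtRing C (EE k C)).exists_plL (ptAnn_l _ _ _ τ h0 h1) (P.ps (S.e0 e)) (P.ps_C (S.e0 e))
      (P.hqA e τ h0 h1) (S.ptA e τ h0 h1) (P.hPA e τ h0 h1) Q
      (fun f => by rw [← hP, h])
    exact ⟨e, σ, τ, h0, h1, hσ⟩

end Surj

end Spl

end Crest.Agent.R013.Inh_770
end

-- ▼ part R013/Inh10_770
section

/-!
# Row 13, leaf C-INH (helper770), part 10: **the semistable structure of a split extension**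
-/

set_option autoImplicit false
set_option linter.all false
open WithZero
open scoped NNReal
open Crest.Agent.R013.RR7_948 Crest.Agent.R013.Red332 Crest.Agent.R013.EE809
open Crest.Agent.R013.Cell_408 (FinDef DiscNorm)
open Crest.Agent.R013.SSK_332

namespace Crest.Agent.R013.Inh_770

variable {k : Type*} [NontriviallyNormedField k] [CompleteSpace k] [IsUltrametricDist k]
variable {C : Type*} [NormedField C] [IsUltrametricDist C] [NormedAlgebra k C]
variable [Algebra.IsAlgebraic k C] [IsAlgClosed C] [hk : Fact (DiscNorm k)]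
variable {K : Type*} [Field K] [Algebra C K]
variable {L : Type*} [Field L] [Algebra C L] [Algebra K L] [IsScalarTower C K L]

/-- the field `ff` of `SSK` at one norm -/
def FFat (w : Nm C L) : Prop := ∃ i : Algebra (RatFunc (Ct C)) (kap w),
    IsScalarTower (Ct C) (RatFunc (Ct C)) (kap w) ∧
    FiniteDimensional (RatFunc (Ct C)) (kap w) ∧
    Algebra.IsSeparable (RatFunc (Ct C)) (kap w)

namespace Spl

variable {S : SSK k C K} (P : Spl S L)

section Galois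

variable [FiniteDimensional K L] [IsGalois K L]

/-- number of edges of `L` -/
noncomputable def nE (S : SSK k C K) (L : Type*) [Field L] [Algebra K L] : ℕ :=
  Nat.card (S.Ed × (L ≃ₐ[K] L))

/-- edges of `L` -/
noncomputable def eE (S : SSK k C K) (L : Type*) [Field L] [Algebra K L] [FiniteDimensional K L] :
    Fin (nE S L) ≃ S.Ed × (L ≃ₐ[K] L) :=
  haveI := S.fEd
  (Finite.equivFin (S.Ed × (L ≃ₐ[K] L))).symm

/-- the embedding at a direction of `L` -/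
noncomputable def emL (y : P.DirL) : L →+* EE k C :=
  (P.ps (P.eD y).1).comp ((P.eD y).2 : L →+* L)

theorem emL_apply (y : P.DirL) (f : L) : P.emL y f = P.ps (P.eD y).1 ((P.eD y).2 f) := rfl

theorem emL_symm (q : S.Dir × (L ≃ₐ[K] L)) (f : L) :
    P.emL (P.eD.symm q) f = P.ps q.1 (q.2 f) := by
  rw [emL_apply, Equiv.apply_symm_apply]

/-- outer end of an edge -/
noncomputable def e0L (e : Fin (nE S L)) : P.DirL := P.eD.symm (S.e0 (eE S L e).1, (eE S L e).2)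

/-- inner end of an edge -/
noncomputable def e1L (e : Fin (nE S L)) : P.DirL := P.eD.symm (S.e1 (eE S L e).1, (eE S L e).2)

theorem eD_e0L (e : Fin (nE S L)) : P.eD (P.e0L e) = (S.e0 (eE S L e).1, (eE S L e).2) :=
  Equiv.apply_symm_apply _ _

theorem eD_e1L (e : Fin (nE S L)) : P.eD (P.e1L e) = (S.e1 (eE S L e).1, (eE S L e).2) :=
  Equiv.apply_symm_apply _ _

theorem ends_injL : Function.Injective (Sum.elim P.e0L P.e1L) := by
  have hS := S.ends_inj
  have h0 : ∀ e e' : S.Ed, S.e0 e = S.e0 e' → e = e' := fun e e' h =>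
    Sum.inl_injective (hS (a₁ := Sum.inl e) (a₂ := Sum.inl e') h)
  have h1 : ∀ e e' : S.Ed, S.e1 e = S.e1 e' → e = e' := fun e e' h =>
    Sum.inr_injective (hS (a₁ := Sum.inr e) (a₂ := Sum.inr e') h)
  have h01 : ∀ e e' : S.Ed, S.e0 e ≠ S.e1 e' := fun e e' h =>
    absurd (hS (a₁ := Sum.inl e) (a₂ := Sum.inr e') h) Sum.inl_ne_inr
  rintro (e | e) (e' | e') h
  · have h2 := P.eD.symm.injective h
    have h3 := congrArg Prod.fst h2
    have h4 := congrArg Prod.snd h2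
    congr 1
    exact (eE S L).injective (Prod.ext (h0 _ _ h3) h4)
  · have h2 := P.eD.symm.injective h
    exact absurd (congrArg Prod.fst h2) (h01 _ _)
  · have h2 := P.eD.symm.injective h
    exact absurd (congrArg Prod.fst h2).symm (h01 _ _)
  · have h2 := P.eD.symm.injective h
    have h3 := congrArg Prod.fst h2
    have h4 := congrArg Prod.snd h2
    congr 1
    exact (eE S L).injective (Prod.ext (h1 _ _ h3) h4)

theorem isDisc_of {y : P.DirL} (h0 : ∀ e, y ≠ P.e0L e) (h1 : ∀ e, y ≠ P.e1L e) :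
    S.IsDisc (P.eD y).1 := by
  constructor
  · intro e h
    refine h0 ((eE S L).symm (e, (P.eD y).2)) ?_
    rw [e0L, Equiv.apply_symm_apply, Equiv.eq_symm_apply]
    exact Prod.ext h rfl
  · intro e h
    refine h1 ((eE S L).symm (e, (P.eD y).2)) ?_
    rw [e1L, Equiv.apply_symm_apply, Equiv.eq_symm_apply]
    exact Prod.ext h rfl

theorem not_end_of {y : P.DirL} (h : S.IsDisc (P.eD y).1) :
    (∀ e, y ≠ P.e0L e) ∧ ∀ e, y ≠ P.e1L e := by
  constructor
  · rintro e rfl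
    rw [P.eD_e0L] at h
    exact h.1 _ rfl
  · rintro e rfl
    rw [P.eD_e1L] at h
    exact h.2 _ rfl

variable [Algebra (RatFunc C) K] [IsScalarTower C (RatFunc C) K]
  [FiniteDimensional (RatFunc C) K] [Algebra.IsSeparable (RatFunc C) K]

theorem plD_congr {q q' : S.Dir × (L ≃ₐ[K] L)} (h : q = q') (hd : S.IsDisc q.1)
    (hd' : S.IsDisc q'.1) (τ : C) (hτ : ‖τ‖ < 1) :
    P.plD q.1 hd q.2 τ hτ = P.plD q'.1 hd' q'.2 τ hτ := by
  subst h; rfl

theorem plA_congr {q q' : S.Ed × (L ≃ₐ[K] L)} (h : q = q') (τ : C) (h0 : ‖S.cc q.1‖ < ‖τ‖)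
    (h0' : ‖S.cc q'.1‖ < ‖τ‖) (h1 : ‖τ‖ < 1) :
    P.plA q.1 q.2 τ h0 h1 = P.plA q'.1 q'.2 τ h0' h1 := by
  subst h; rfl

/-- **The semistable structure of `L`.** -/
noncomputable def SL (hff : ∀ i, FFat (P.nmL i)) : SSK k C L where
  V := Fin (nV S L)
  fV := inferInstance
  nm := P.nmL
  nm_inj := P.nmL_inj
  ff := hff
  em := P.emL
  em_C := fun y c n => by
    rw [emL_apply, IsScalarTower.algebraMap_apply C K L, AlgEquiv.commutes,
      ← IsScalarTower.algebraMap_apply, P.ps_C, co_algebraMap]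
  em_gn := fun y f => by
    rw [emL_apply, (P.eD_rel y).nm f, coe_gnV]
  em_od := fun y f hf => by
    rw [emL_apply, (P.eD_rel y).od f hf]
  Ed := Fin (nE S L)
  fEd := inferInstance
  e0 := P.e0L
  e1 := P.e1L
  ends_inj := P.ends_injL
  cc := fun e => S.cc (eE S L e).1
  cc_ne := fun e => S.cc_ne _
  cc_lt := fun e => S.cc_lt _
  ann := fun e f => by
    obtain ⟨g, h, g', h', hne, hg, hh, hf1, hf2, e0, e1⟩ :=
      P.ps_ann (eE S L e).1 ((eE S L e).2 f)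
    refine ⟨g, h, g', h', hne, hg, hh, hf1, hf2, ?_, ?_⟩
    · rw [e0L, P.emL_symm]; exact e0
    · rw [e1L, P.emL_symm]; exact e1
  disc := fun y h0 h1 f => P.ps_disc _ (P.isDisc_of h0 h1) _
  ptD := fun y h0 h1 τ hτ => P.plD (P.eD y).1 (P.isDisc_of h0 h1) (P.eD y).2 τ hτ
  ptA := fun e τ h0 h1 => P.plA (eE S L e).1 (eE S L e).2 τ h0 h1
  ptD_ord := fun y h0 h1 τ hτ f hf => P.plD_ord _ _ _ τ hτ f hf
  ptA_ord := fun e τ h0 h1 f hf => by
    obtain ⟨a, b, g, h, hg, hh, hg0, hh0, he, hv⟩ := P.plA_ord (eE S L e).1 (eE S L e).2 τ h0 h1 f hf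
    refine ⟨a, b, g, h, hg, hh, hg0, hh0, ?_, hv⟩
    rw [e0L, P.emL_symm]; exact he
  pt_surj := fun Q => by
    rcases P.pl_surj Q with ⟨d, hd, σ, τ, hτ, h⟩ | ⟨e, σ, τ, h0, h1, h⟩
    · left
      have h2 : S.IsDisc (P.eD (P.eD.symm (d, σ))).1 := by
        rw [Equiv.apply_symm_apply]; exact hd
      obtain ⟨h3, h4⟩ := P.not_end_of h2
      refine ⟨P.eD.symm (d, σ), h3, h4, τ, hτ, ?_⟩
      rw [h]
      exact P.plD_congr (q := (d, σ)) (Equiv.apply_symm_apply _ _).symm hd _ τ hτ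
    · right
      have h2 : eE S L ((eE S L).symm (e, σ)) = (e, σ) := Equiv.apply_symm_apply _ _
      refine ⟨(eE S L).symm (e, σ), τ, ?_, h1, ?_⟩
      · rw [h2]; exact h0
      · rw [h]
        exact P.plA_congr (q := (e, σ)) h2.symm τ h0 _ h1
  ptD_inj := fun y h0 h1 τ hτ y' h0' h1' τ' hτ' h => by
    obtain ⟨h2, h3, h4⟩ := P.plD_inj _ _ _ _ _ _ _ _ _ _ h
    exact ⟨P.eD.injective (Prod.ext h2 h3), h4⟩
  ptA_inj := fun e τ h0 h1 e' τ' h0' h1' h => by
    obtain ⟨h2, h3, h4⟩ := P.plA_inj _ _ _ _ _ _ _ _ _ _ h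
    exact ⟨(eE S L).injective (Prod.ext h2 h3), h4⟩
  ptDA := fun y h0 h1 τ hτ e τ' h0' h1' => P.plDA _ _ _ _ _ _ _ _ _ _

end Galois

end Spl

end Crest.Agent.R013.Inh_770
end

-- ▼ part R013/Inh11_770

/-!
# Row 13, leaf C-INH (helper770), part 11: API of the inherited structure `Spl.SL`

`V_L` = norms over the vertices, `Dir_L = Dir × G`, `Ed_L = Ed × G`, the action of the Galois
group, `Base`.
-/

set_option autoImplicit false
set_option linter.all false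
open WithZero
open scoped NNReal
open Crest.Agent.R013.RR7_948 Crest.Agent.R013.Red332 Crest.Agent.R013.EE809
open Crest.Agent.R013.Cell_408 (FinDef DiscNorm)
open Crest.Agent.R013.SSK_332

namespace Crest.Agent.R013.Inh_770

variable {k : Type*} [NontriviallyNormedField k] [CompleteSpace k] [IsUltrametricDist k]
variable {C : Type*} [NormedField C] [IsUltrametricDist C] [NormedAlgebra k C]
variable [Algebra.IsAlgebraic k C] [IsAlgClosed C] [hk : Fact (DiscNorm k)]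
variable {K : Type*} [Field K] [Algebra C K]
variable {L : Type*} [Field L] [Algebra C L] [Algebra K L] [IsScalarTower C K L]

namespace Spl

variable {S : SSK k C K} (P : Spl S L)
variable [FiniteDimensional K L] [IsGalois K L]
variable [Algebra (RatFunc C) K] [IsScalarTower C (RatFunc C) K]
  [FiniteDimensional (RatFunc C) K] [Algebra.IsSeparable (RatFunc C) K]
variable (hff : ∀ i, FFat (P.nmL i))

/-- the vertex of `K` under a vertex of `L` -/
noncomputable def vK (w : (P.SL hff).V) : S.V := P.fV w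

theorem vK_nm (w : (P.SL hff).V) (f : K) :
    ((P.SL hff).nm w).v (algebraMap K L f) = (S.nm (P.vK hff w)).v f := P.nmL_K w f

theorem vK_comap (w : (P.SL hff).V) :
    ((P.SL hff).nm w).v.comap (algebraMap K L) = (S.nm (P.vK hff w)).v := by
  ext f
  exact congrArg _ (P.vK_nm hff w f)

/-- every extension of the norm of a vertex is a vertex -/
theorem exists_V (w : Valuation L ℝ≥0) (v : S.V)
    (hw : ∀ f : K, w (algebraMap K L f) = (S.nm v).v f) :
    ∃ i : (P.SL hff).V, ((P.SL hff).nm i).v = w ∧ P.vK hff i = v := by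
  obtain ⟨i, hi⟩ := P.exists_nmL w v hw
  refine ⟨i, hi, ?_⟩
  apply S.nm_inj
  apply Nm.ext'
  intro f
  rw [← P.vK_nm hff i f, ← hw f, ← hi]
  rfl

theorem vK_surj : Function.Surjective (P.vK hff) := by
  intro v
  obtain ⟨d, rfl⟩ := exists_dir S v
  obtain ⟨i, -, hi⟩ := P.exists_V hff (P.nmOf d 1).v d.1 (fun f => P.nmOf_K d 1 f)
  exact ⟨i, hi⟩

/-- edges of `L` = (edge of `K`, element of the Galois group) -/
noncomputable def edE : (P.SL hff).Ed ≃ S.Ed × (L ≃ₐ[K] L) := eE S L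

/-- directions of `L` = (direction of `K`, element of the Galois group) -/
noncomputable def dirE : (P.SL hff).Dir ≃ S.Dir × (L ≃ₐ[K] L) := P.eD

theorem em_eq (y : (P.SL hff).Dir) (f : L) :
    (P.SL hff).em y f = P.ps (P.dirE hff y).1 ((P.dirE hff y).2 f) := rfl

theorem em_K (y : (P.SL hff).Dir) (f : K) :
    (P.SL hff).em y (algebraMap K L f) = S.em (P.dirE hff y).1 f := by
  rw [em_eq, AlgEquiv.commutes, P.ps_K]

theorem dirE_fst (y : (P.SL hff).Dir) : (P.dirE hff y).1.1 = P.vK hff y.1 := P.eD_fst y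

theorem e0_eq (e : (P.SL hff).Ed) :
    P.dirE hff ((P.SL hff).e0 e) = (S.e0 (P.edE hff e).1, (P.edE hff e).2) := P.eD_e0L e

theorem e1_eq (e : (P.SL hff).Ed) :
    P.dirE hff ((P.SL hff).e1 e) = (S.e1 (P.edE hff e).1, (P.edE hff e).2) := P.eD_e1L e

theorem vK_e0 (e : (P.SL hff).Ed) :
    P.vK hff ((P.SL hff).e0 e).1 = (S.e0 (P.edE hff e).1).1 := by
  rw [← P.dirE_fst, P.e0_eq]

theorem vK_e1 (e : (P.SL hff).Ed) :
    P.vK hff ((P.SL hff).e1 e).1 = (S.e1 (P.edE hff e).1).1 := by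
  rw [← P.dirE_fst, P.e1_eq]


theorem em_e0 (e : (P.SL hff).Ed) (f : L) :
    (P.SL hff).em ((P.SL hff).e0 e) f = P.ps (S.e0 (P.edE hff e).1) ((P.edE hff e).2 f) := by
  rw [em_eq, P.e0_eq]

theorem em_e1 (e : (P.SL hff).Ed) (f : L) :
    (P.SL hff).em ((P.SL hff).e1 e) f = P.ps (S.e1 (P.edE hff e).1) ((P.edE hff e).2 f) := by
  rw [em_eq, P.e1_eq]

theorem isDisc_iff (y : (P.SL hff).Dir) : (P.SL hff).IsDisc y ↔ S.IsDisc (P.dirE hff y).1 :=
  ⟨fun h => P.isDisc_of h.1 h.2, fun h => P.not_end_of h⟩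

theorem card_Ed : Nat.card (P.SL hff).Ed = Module.finrank K L * Nat.card S.Ed := by
  rw [Nat.card_congr (P.edE hff), Nat.card_prod, IsGalois.card_aut_eq_finrank, mul_comm]

/-- every edge and every element of the Galois group gives an edge -/
theorem exists_edge (e : S.Ed) (σ : L ≃ₐ[K] L) : ∃ e' : (P.SL hff).Ed, P.edE hff e' = (e, σ) :=
  ⟨(P.edE hff).symm (e, σ), Equiv.apply_symm_apply _ _⟩

/-! ### the places -/

theorem ptD_K (y : (P.SL hff).Dir) (h0 h1) (τ : C) (hτ : ‖τ‖ < 1) (f : K) :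
    ((P.SL hff).ptD y h0 h1 τ hτ).v (algebraMap K L f) =
      (S.ptD (P.dirE hff y).1 (P.isDisc_of h0 h1).1 (P.isDisc_of h0 h1).2 τ hτ).v f :=
  P.plD_K (P.dirE hff y).1 (P.isDisc_of h0 h1) (P.dirE hff y).2 τ hτ f

theorem ptA_K (e : (P.SL hff).Ed) (τ : C) (h0 h1) (f : K) :
    ((P.SL hff).ptA e τ h0 h1).v (algebraMap K L f) = (S.ptA (P.edE hff e).1 τ h0 h1).v f :=
  P.plA_K (P.edE hff e).1 (P.edE hff e).2 τ h0 h1 f

/-! ### the action of the Galois group -/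

/-- `a • (e, σ) = (e, σ a⁻¹)` -/
@[reducible] noncomputable def actE : MulAction (L ≃ₐ[K] L) (P.SL hff).Ed where
  smul a e := (P.edE hff).symm ((P.edE hff e).1, (P.edE hff e).2 * a⁻¹)
  one_smul e := by
    change (P.edE hff).symm ((P.edE hff e).1, (P.edE hff e).2 * 1⁻¹) = e
    rw [inv_one, mul_one]
    exact Equiv.symm_apply_apply _ _
  mul_smul a b e := by
    change (P.edE hff).symm ((P.edE hff e).1, (P.edE hff e).2 * (a * b)⁻¹) =
      (P.edE hff).symm ((P.edE hff ((P.edE hff).symm ((P.edE hff e).1, (P.edE hff e).2 * b⁻¹))).1,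
        (P.edE hff ((P.edE hff).symm ((P.edE hff e).1, (P.edE hff e).2 * b⁻¹))).2 * a⁻¹)
    rw [Equiv.apply_symm_apply, mul_inv_rev, mul_assoc]

theorem edE_act (a : L ≃ₐ[K] L) (e : (P.SL hff).Ed) :
    P.edE hff ((P.actE hff).toSMul.smul a e) = ((P.edE hff e).1, (P.edE hff e).2 * a⁻¹) :=
  Equiv.apply_symm_apply _ _

theorem em_e0_act (a : L ≃ₐ[K] L) (e : (P.SL hff).Ed) (f : L) :
    (P.SL hff).em ((P.SL hff).e0 ((P.actE hff).toSMul.smul a e)) (a f) =
      (P.SL hff).em ((P.SL hff).e0 e) f := by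
  rw [em_e0, em_e0, edE_act]
  congr 1
  change (P.edE hff e).2 (a.symm (a f)) = _
  rw [AlgEquiv.symm_apply_apply]

theorem em_e1_act (a : L ≃ₐ[K] L) (e : (P.SL hff).Ed) (f : L) :
    (P.SL hff).em ((P.SL hff).e1 ((P.actE hff).toSMul.smul a e)) (a f) =
      (P.SL hff).em ((P.SL hff).e1 e) f := by
  rw [em_e1, em_e1, edE_act]
  congr 1
  change (P.edE hff e).2 (a.symm (a f)) = _
  rw [AlgEquiv.symm_apply_apply]

theorem od_e0_act (a : L ≃ₐ[K] L) (e : (P.SL hff).Ed) (f : L) (hf : f ≠ 0) :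
    Red332.od ((P.SL hff).nm ((P.SL hff).e0 ((P.actE hff).toSMul.smul a e)).1)
        ((P.SL hff).e0 ((P.actE hff).toSMul.smul a e)).2 (a f) =
      Red332.od ((P.SL hff).nm ((P.SL hff).e0 e).1) ((P.SL hff).e0 e).2 f := by
  rw [← (P.SL hff).em_od _ f hf,
    ← (P.SL hff).em_od _ (a f) (by rwa [Ne, EmbeddingLike.map_eq_zero_iff]), em_e0_act]


/-- the action on the edges is free -/
theorem act_free (a : L ≃ₐ[K] L) (e : (P.SL hff).Ed)
    (h : (P.actE hff).toSMul.smul a e = e) : a = 1 := by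
  have h1 := P.edE_act hff a e
  rw [h] at h1
  have h2 := congrArg Prod.snd h1
  have h3 : (P.edE hff e).2 = (P.edE hff e).2 * a⁻¹ := h2
  have h4 := left_eq_mul.1 h3
  rwa [inv_eq_one] at h4

/-- the orbits of the edges are the edges of `K` -/
theorem act_orbit (e e' : (P.SL hff).Ed) (h : (P.edE hff e).1 = (P.edE hff e').1) :
    ∃ a : L ≃ₐ[K] L, (P.actE hff).toSMul.smul a e = e' := by
  refine ⟨(P.edE hff e').2⁻¹ * (P.edE hff e).2, (P.edE hff).injective ?_⟩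
  rw [edE_act]
  refine Prod.ext h ?_
  change (P.edE hff e).2 * ((P.edE hff e').2⁻¹ * (P.edE hff e).2)⁻¹ = _
  rw [mul_inv_rev, inv_inv, mul_inv_cancel_left]

/-- the Galois group permutes the vertices -/
theorem exists_act_V (a : L ≃ₐ[K] L) (w : (P.SL hff).V) :
    ∃ w' : (P.SL hff).V, P.vK hff w' = P.vK hff w ∧
      ∀ f, ((P.SL hff).nm w').v (a f) = ((P.SL hff).nm w).v f := by
  obtain ⟨i, hi, hi'⟩ := P.exists_V hff (((P.SL hff).nm w).v.comap ((a⁻¹ : L ≃ₐ[K] L) : L →+* L))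
    (P.vK hff w) (fun f => by
      change ((P.SL hff).nm w).v ((a⁻¹ : L ≃ₐ[K] L) (algebraMap K L f)) = _
      rw [AlgEquiv.commutes, P.vK_nm])
  refine ⟨i, hi', fun f => ?_⟩
  rw [hi]
  change ((P.SL hff).nm w).v (a.symm (a f)) = _
  rw [AlgEquiv.symm_apply_apply]

/-- the vertices over a vertex are conjugate -/
theorem exists_conj_V (w w' : (P.SL hff).V) (h : P.vK hff w = P.vK hff w') :
    ∃ a : L ≃ₐ[K] L, ∀ f, ((P.SL hff).nm w').v (a f) = ((P.SL hff).nm w).v f := by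
  obtain ⟨d, hd⟩ := exists_dir S (P.vK hff w)
  obtain ⟨σ, hσ⟩ := P.exists_sigma ((P.SL hff).nm w).v d (fun f => by rw [P.vK_nm, hd])
  obtain ⟨σ', hσ'⟩ := P.exists_sigma ((P.SL hff).nm w').v d (fun f => by rw [P.vK_nm, ← h, hd])
  refine ⟨σ'⁻¹ * σ, fun f => ?_⟩
  rw [hσ, hσ']
  congr 2
  change σ' (σ'.symm (σ f)) = _
  rw [AlgEquiv.apply_symm_apply]


end Spl

end Crest.Agent.R013.Inh_770
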