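import Mathlib
import Crest.Agent.R013.Inh11_770
import Crest.Agent.R013.Kapx_275

/-!
# Row 13, leaf C-INH (helper770), part 12: **C-INH without hypotheses**

`Spl.inh : SSK k C L` for every `P : Spl S L`.
-/

set_option autoImplicit false
set_option linter.all false
open WithZero
open scoped NNReal
open Crest.Agent.R013.RR7_948 Crest.Agent.R013.Red332 Crest.Agent.R013.EE809
open Crest.Agent.R013.Cell_408 (FinDef DiscNorm)
open Crest.Agent.R013.SSK_332

namespace Crest.Agent.R013.Inh_770

variable {k : Type*} [NontriviallyNormedField k] [CompleteSpace k] [IsUltrametricDist k]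
variable {C : Type*} [NormedField C] [IsUltrametricDist C] [NormedAlgebra k C]
variable [Algebra.IsAlgebraic k C] [IsAlgClosed C] [hk : Fact (DiscNorm k)]
variable {K : Type*} [Field K] [Algebra C K]
variable {L : Type*} [Field L] [Algebra C L] [Algebra K L] [IsScalarTower C K L]

namespace Spl

variable {S : SSK k C K} (P : Spl S L)
variable [FiniteDimensional K L] [IsGalois K L]

theorem ffL (i : Fin (nV S L)) : FFat (P.nmL i) :=
  Crest.Agent.R013.Kapx_275.ff_of_ff (S.nm (P.fV i)) (P.nmL i)
    (by ext f; exact congrArg _ (P.nmL_K i f)) (S.ff _)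

variable [Algebra (RatFunc C) K] [IsScalarTower C (RatFunc C) K]
  [FiniteDimensional (RatFunc C) K] [Algebra.IsSeparable (RatFunc C) K]

/-- **C-INH**: the inherited semistable structure of a split Galois extension -/
noncomputable def inh : SSK k C L := P.SL P.ffL


end Spl

end Crest.Agent.R013.Inh_770
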