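import Crest.Agent.R013.Kumv_275
import Crest.Agent.R013.Red1_332

/-!
# Row 13, KUMV for 332's norms `Nm C K`

`C` algebraically closed with `‖l‖ = 1`; `L = K(y)`, `y ^ l = h ∈ K`, `h` no `l`-th power.
* split: `W : Fin l → Nm C L`, all extensions of `w`, `kapMap` bijective;
* inert: exactly one extension `W`, `kap W = (kap w)(ȳ)`, degree `l`.
-/

set_option autoImplicit false
set_option linter.all false

noncomputable section

namespace Crest.Agent.R013.Kumv2_275

open scoped NNReal IntermediateField
open Polynomial
open Crest.Agent.R013.A2d_275 Crest.Agent.R013.Unr9_957 Crest.Agent.R013.Kumv_275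
open Crest.Agent.R013.Red332

variable {C : Type*} [NormedField C] [IsUltrametricDist C]
variable {K L : Type*} [Field K] [Field L] [Algebra C K] [Algebra K L] [Algebra C L]
  [IsScalarTower C K L]

/-- the map of residue fields `kap w → kap W` for `W` over `w` -/
def kapMap (w : Nm C K) (W : Nm C L) (hW : W.v.comap (algebraMap K L) = w.v) :
    kap w →+* kap W := kMap w.v W.v hW

theorem kapMap_red (w : Nm C K) (W : Nm C L) (hW : W.v.comap (algebraMap K L) = w.v) (f : K) :
    kapMap w W hW (red w f) = red W (algebraMap K L f) := by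
  have h1 : W.v (algebraMap K L f) = w.v f := DFunLike.congr_fun hW f
  by_cases hf : w.v f ≤ 1
  · rw [red_def w hf, red_def W (by rwa [h1])]
    rfl
  · rw [red_of_not w hf, red_of_not W (by rwa [h1]), map_zero]

theorem kapMap_algebraMap (w : Nm C K) (W : Nm C L) (hW : W.v.comap (algebraMap K L) = w.v)
    (c : Ct C) : kapMap w W hW (algebraMap (Ct C) (kap w) c) = algebraMap (Ct C) (kap W) c := by
  obtain ⟨a, ha, rfl⟩ := rc_surj c
  rw [← red_C w a ha, ← red_C W a ha, kapMap_red, ← IsScalarTower.algebraMap_apply]


variable {l : ℕ} {h : K} {y : L} {ζ : K}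




end Crest.Agent.R013.Kumv2_275
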