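import Mathlib
import Crest.Agent.R013.RR23_948

/-!
# R013 / RR24: the Cartier operator by Serre duality (helper948)

`k` perfect of characteristic `p`; `car g` is the unique function with
`pair (f ^ p) g = (pair f (car g)) ^ p` for all `f`.
-/

set_option autoImplicit false
set_option linter.all false

namespace Crest.Agent.R013.RR24_948

open Polynomial WithZero Module IsDedekindDomain nonZeroDivisors
open Crest.Agent.R013.RR1_948 Crest.Agent.R013.RR2_948 Crest.Agent.R013.RR3_948
open Crest.Agent.R013.RR4_948 Crest.Agent.R013.RR5_948 Crest.Agent.R013.RR6_948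
open Crest.Agent.R013.RR7_948 Crest.Agent.R013.RR8_948 Crest.Agent.R013.RR9_948
open Crest.Agent.R013.RR11_948 Crest.Agent.R013.RR12_948 Crest.Agent.R013.RR13_948
open Crest.Agent.R013.RR18_948 Crest.Agent.R013.RR19_948 Crest.Agent.R013.RR20_948
open Crest.Agent.R013.RR21_948 Crest.Agent.R013.RR23_948

section

variable {k : Type*} [Field k] (p : ℕ) [hp : Fact p.Prime] [CharP k p]

instance : CharP (RatFunc k) p := charP_of_injective_algebraMap (algebraMap k (RatFunc k)).injective p


end

section trace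

variable {F : Type*} [Field F] {K : Type*} [Field K] [Algebra F K] [FiniteDimensional F K]
  [Algebra.IsSeparable F K]


end trace

section car

variable {k : Type*} [Field k] (p : ℕ) [hp : Fact p.Prime] [CharP k p] [PerfectRing k p]
  {K : Type*} [Field K] [Algebra k K] [Algebra (RatFunc k) K]
  [IsScalarTower k (RatFunc k) K] [FiniteDimensional (RatFunc k) K]
  [Algebra.IsSeparable (RatFunc k) K]

variable (k) in
/-- `p`-th root -/
noncomputable def rt (c : k) : k := (frobeniusEquiv k p).symm c

theorem rt_pow (c : k) : rt k p c ^ p = c := by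
  unfold rt
  exact frobeniusEquiv_symm_pow_p k p c

theorem rt_eq {a c : k} (h : a ^ p = c) : rt k p c = a := by
  apply frobenius_inj k p
  rw [frobenius_def, frobenius_def, rt_pow, h]

theorem rt_add (a b : k) : rt k p (a + b) = rt k p a + rt k p b := map_add _ _ _

theorem rt_mul (a b : k) : rt k p (a * b) = rt k p a * rt k p b := map_mul _ _ _

/-- the functional `f ↦ (pair (f ^ p) g) ^ (1/p)` -/
noncomputable def lin (g : K) : K →ₗ[k] k where
  toFun f := rt k p (pair k K (f ^ p) g)
  map_add' f f' := by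
    haveI : CharP K p := charP_of_injective_algebraMap (algebraMap k K).injective p
    rw [add_pow_char, map_add, LinearMap.add_apply, rt_add]
  map_smul' a f := by
    rw [_root_.smul_pow, map_smul, LinearMap.smul_apply, smul_eq_mul, rt_mul, rt_eq p rfl]
    rfl

theorem lin_apply (g f : K) : lin p g f = rt k p (pair k K (f ^ p) g) := rfl

theorem v_pow_le {P : Pl k K} {f : K} {n : ℤ} (h : P.v f ≤ exp n) : P.v (f ^ p) ≤ exp (p * n) := by
  rw [map_pow]
  calc _ ≤ exp n ^ p := pow_le_pow_left₀ zero_le h p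
    _ = _ := by rw [← exp_nsmul]; simp

theorem pow_mem_N0 {D : Pl k K →₀ ℤ} {f : K} (h : f ∈ N0 D) : f ^ p ∈ N0 ((p : ℤ) • D) := by
  rw [mem_N0] at *
  intro P hP
  rw [Finsupp.smul_apply, smul_eq_mul]
  exact v_pow_le p (h P hP)

theorem pow_mem_N1 {D : Pl k K →₀ ℤ} {f : K} (h : f ∈ N1 D) : f ^ p ∈ N1 ((p : ℤ) • D) := by
  rw [mem_N1] at *
  intro P hP
  rw [Finsupp.smul_apply, smul_eq_mul]
  exact v_pow_le p (h P hP)

theorem pow_mem_sup {D : Pl k K →₀ ℤ} {f : K} (h : f ∈ N0 D ⊔ N1 D) :
    f ^ p ∈ N0 ((p : ℤ) • D) ⊔ N1 ((p : ℤ) • D) := by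
  haveI : CharP K p := charP_of_injective_algebraMap (algebraMap k K).injective p
  obtain ⟨a, ha, b, hb, rfl⟩ := Submodule.mem_sup.mp h
  rw [add_pow_char]
  exact Submodule.add_mem_sup (pow_mem_N0 p ha) (pow_mem_N1 p hb)

theorem exists_car_of_mem {D : Pl k K →₀ ℤ} {g : K} (hg : g ∈ LD (canD k K - (p : ℤ) • D)) :
    ∃ h ∈ LD (canD k K - D), ∀ f : K, pair k K (f ^ p) g = pair k K f h ^ p := by
  obtain ⟨h, hh, hl⟩ := exists_pair (D := D) (lin p g) (by
    intro f hf
    rw [lin_apply, mem_LD_iff_pair.mp hg _ (pow_mem_sup p hf)]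
    exact rt_eq p (zero_pow hp.out.ne_zero))
  refine ⟨h, hh, fun f => ?_⟩
  rw [← hl f, lin_apply, rt_pow]

theorem exists_mem_LD (g : K) : ∃ D : Pl k K →₀ ℤ, g ∈ LD (canD k K - (p : ℤ) • D) := by
  by_cases hg : g = 0
  · exact ⟨0, by rw [hg]; exact zero_mem _⟩
  · refine ⟨-((canD k K).mapRange (fun n => |n|) (by simp) +
      (divf g).mapRange (fun n => |n|) (by simp)), ?_⟩
    rw [mem_LD]
    intro P
    rw [v_eq hg, exp_le_exp]
    simp only [Finsupp.sub_apply, Finsupp.smul_apply, Finsupp.neg_apply, Finsupp.add_apply,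
      Finsupp.mapRange_apply, smul_eq_mul]
    have h1 : (1 : ℤ) ≤ p := by exact_mod_cast hp.out.one_lt.le
    have h2 := abs_nonneg (canD k K P)
    have h3 := abs_nonneg (divf (k := k) g P)
    have h4 := neg_abs_le (canD k K P)
    have h5 := neg_abs_le (divf (k := k) g P)
    nlinarith

theorem exists_car (g : K) : ∃ h : K, ∀ f : K, pair k K (f ^ p) g = pair k K f h ^ p := by
  obtain ⟨D, hD⟩ := exists_mem_LD (k := k) p g
  obtain ⟨h, _, hh⟩ := exists_car_of_mem p hD
  exact ⟨h, hh⟩


variable (k) in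
/-- the Cartier operator with respect to `dX`: `C (g dX) = car g dX` -/
noncomputable def car (g : K) : K := (exists_car (k := k) p g).choose
















end car

end Crest.Agent.R013.RR24_948
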