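import Mathlib
import Crest.Agent.R013.RedD1_310
import Crest.Agent.R013.Car5_700
import Crest.Agent.R013.GR2_921
import Crest.Agent.R013.RR19_948

-- ▼ part R013/RedD2_310
section

/-!
# R013 / RedD2: norm, reduction and order of a differential at ONE direction (helper310)

`w : Nm C K` a norm with residue field `kap w` in 948's context over `Ct C`, `x` a place of `kap w`,
`em : K →+* EE k C` an embedding compatible with `w` and `x`.
-/

set_option autoImplicit false
set_option linter.all false

namespace Crest.Agent.R013.RedD_310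

open WithZero
open scoped NNReal
open Crest.Agent.R013.Cell_408 (FinDef DiscNorm)
open Crest.Agent.R013.EE809 Crest.Agent.R013.SSK_332
open Crest.Agent.R013.RR7_948 Crest.Agent.R013.RR8_948 Crest.Agent.R013.RR11_948
open Crest.Agent.R013.RR14_948 Crest.Agent.R013.RR15_948
open Crest.Agent.R013.Red332 hiding od

/-! ### uniqueness of derivations -/

section Der

variable {k : Type*} [Field k] {K : Type*} [Field K] [Algebra k K]
  [Algebra (RatFunc k) K] [IsScalarTower k (RatFunc k) K] [Algebra.IsSeparable (RatFunc k) K]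

theorem der_eq {M : Type*} [AddCommGroup M] [Module k M] [Module K M] [IsScalarTower k K M]
    (d : Derivation k K M) (f : K) : d f = del k K f • d (RR8_948.xK k K) := by
  rw [← d.liftKaehlerDifferential_comp_D f, D_eq, map_smul, d.liftKaehlerDifferential_comp_D]

end Der

/-! ### the reduction of a bounded derivation -/

section RedDer

variable {C : Type*} [NormedField C] [IsUltrametricDist C] {K : Type*} [Field K] [Algebra C K]
  (w : Nm C K)

/-- the reduction of a derivation `D` with `|D f| ≤ |f|` -/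
theorem exists_redDer (D : Derivation C K K) (hD : ∀ f, w.v (D f) ≤ w.v f) :
    ∃ δ : Derivation (Ct C) (kap w) (kap w), ∀ f, w.v f ≤ 1 → δ (red w f) = red w (D f) := by
  classical
  have hD1 : ∀ f, w.v f ≤ 1 → w.v (D f) ≤ 1 := fun f hf => (hD f).trans hf
  let L : kap w → K := fun g => (red_surj w g).choose
  have hL : ∀ g, w.v (L g) ≤ 1 := fun g => (red_surj w g).choose_spec.1
  have hL' : ∀ g, red w (L g) = g := fun g => (red_surj w g).choose_spec.2
  let δ0 : kap w → kap w := fun g => red w (D (L g))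
  have key : ∀ f, w.v f ≤ 1 → δ0 (red w f) = red w (D f) := by
    intro f hf
    show red w (D (L (red w f))) = red w (D f)
    rw [red_eq_iff w (hD1 _ (hL _)) (hD1 _ hf), ← map_sub]
    refine (hD _).trans_lt ?_
    rw [← red_eq_iff w (hL _) hf, hL']
  have hadd : ∀ g h, δ0 (g + h) = δ0 g + δ0 h := by
    intro g h
    have h1 : g + h = red w (L g + L h) := by rw [red_add w (hL g) (hL h), hL', hL']
    have h2 : w.v (L g + L h) ≤ 1 := (w.v.map_add _ _).trans (max_le (hL g) (hL h))
    rw [h1, key _ h2, map_add, red_add w (hD1 _ (hL g)) (hD1 _ (hL h))]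
  have hmul : ∀ g h, δ0 (g * h) = g * δ0 h + h * δ0 g := by
    intro g h
    have h1 : g * h = red w (L g * L h) := by rw [red_mul w (hL g) (hL h), hL', hL']
    have h2 : w.v (L g * L h) ≤ 1 := by rw [map_mul]; exact mul_le_one' (hL g) (hL h)
    have h3 : w.v (L g * D (L h)) ≤ 1 := by rw [map_mul]; exact mul_le_one' (hL g) (hD1 _ (hL h))
    have h4 : w.v (L h * D (L g)) ≤ 1 := by rw [map_mul]; exact mul_le_one' (hL h) (hD1 _ (hL g))
    rw [h1, key _ h2, Derivation.leibniz, smul_eq_mul, smul_eq_mul, red_add w h3 h4,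
      red_mul w (hL g) (hD1 _ (hL h)), red_mul w (hL h) (hD1 _ (hL g)), hL', hL']
  have hC : ∀ c : Ct C, δ0 (algebraMap (Ct C) (kap w) c) = 0 := by
    intro c
    obtain ⟨c', hc', rfl⟩ := rc_surj c
    rw [← red_C w c' hc', key _ (by rw [w.hC]; exact hc'), Derivation.map_algebraMap, red_zero]
  refine ⟨Derivation.mk' { toFun := δ0, map_add' := hadd, map_smul' := ?_ } ?_, ?_⟩
  · intro c g
    show δ0 (c • g) = c • δ0 g
    rw [Algebra.smul_def, hmul, hC, mul_zero, add_zero, Algebra.smul_def]
  · intro g h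
    show δ0 (g * h) = g • δ0 h + h • δ0 g
    rw [hmul]; rfl
  · intro f hf
    exact key f hf

end RedDer

/-! ### one direction -/

section Dir

variable {k : Type*} [NontriviallyNormedField k] [CompleteSpace k] [IsUltrametricDist k]
variable {C : Type*} [NormedField C] [IsUltrametricDist C] [NormedAlgebra k C]
  [Algebra.IsAlgebraic k C] [IsAlgClosed C] [hk : Fact (DiscNorm k)]
variable {K : Type*} [Field K] [Algebra C K] [Algebra (RatFunc C) K]
  [IsScalarTower C (RatFunc C) K] [Algebra.IsSeparable (RatFunc C) K]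

/-- the expansion of `g dX` along an embedding: `g dX = (ex em g) dT` -/
noncomputable def ex (em : K →+* EE k C) (g : K) : EE k C := em g * dT k C (em (RR8_948.xK C K))

theorem ex_mul (em : K →+* EE k C) (f g : K) : ex em (f * g) = em f * ex em g := by
  rw [ex, ex, map_mul, mul_assoc]


theorem ex_zero (em : K →+* EE k C) : ex em (0 : K) = 0 := by rw [ex, map_zero, zero_mul]



/-- `d f` expands to the derivative of the expansion of `f` -/
theorem ex_del (em : K →+* EE k C)
    (hC : ∀ (c : C) (n : ℤ), (em (algebraMap C K c)).co n = if n = 0 then c else 0) (f : K) :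
    ex em (del C K f) = dT k C (em f) := by
  letI : Module K (EE k C) := Module.compHom _ em
  have hsm : ∀ (f : K) (a : EE k C), f • a = em f * a := fun _ _ => rfl
  have hC' : ∀ c : C, em (algebraMap C K c) = algebraMap C (EE k C) c := by
    intro c
    ext n
    rw [hC, co_algebraMap]
  haveI : IsScalarTower C K (EE k C) := ⟨fun c f a => by
    rw [hsm, hsm, Algebra.smul_def, map_mul, hC', Algebra.smul_def, mul_assoc]⟩
  let d : Derivation C K (EE k C) := Derivation.mk'
    { toFun := fun f => dT k C (em f)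
      map_add' := fun f g => by rw [map_add, map_add]
      map_smul' := fun c f => by
        rw [RingHom.id_apply, Algebra.smul_def, map_mul, hC', ← Algebra.smul_def]
        exact (dT k C).map_smul c (em f) }
    (fun f g => by
      show dT k C (em (f * g)) = f • dT k C (em g) + g • dT k C (em f)
      rw [map_mul, dT_mul, hsm, hsm])
  have h := der_eq d f
  rw [hsm] at h
  exact h.symm

variable (w : Nm C K) {em : K →+* EE k C}
  (hC : ∀ (c : C) (n : ℤ), (em (algebraMap C K c)).co n = if n = 0 then c else 0)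
  (hgn : ∀ f, gn (em f) = w.v f)

include hC hgn

theorem gn_ex_mul (f g : K) : gn (ex em (f * g)) = w.v f * gn (ex em g) := by
  rw [ex_mul, gn_mul hk.out, hgn]

theorem gn_ex_div (f : K) {t : K} (ht : t ≠ 0) :
    gn (ex em f) = w.v (f / t) * gn (ex em t) := by
  rw [← gn_ex_mul w hC hgn, div_mul_cancel₀ _ ht]

theorem del_ne_zero_of {t : K} (ht : gn (dT k C (em t)) = 1) : del C K t ≠ 0 := by
  intro h0
  rw [← ex_del em hC, h0, ex_zero, gn_zero] at ht
  exact zero_ne_one ht

/-- norm of `df/dt` -/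
theorem v_del_div {t : K} (ht : gn (dT k C (em t)) = 1) (f : K) :
    ((w.v (f / del C K t) : ℝ≥0) : ℝ) = gn (ex em f) := by
  rw [gn_ex_div w hC hgn f (del_ne_zero_of w hC hgn ht), ex_del em hC, ht, mul_one]

theorem v_del_div_le {t : K} (ht : gn (dT k C (em t)) = 1) (f : K) :
    w.v (del C K f / del C K t) ≤ w.v f := by
  have h1 := v_del_div w hC hgn ht (del C K f)
  rw [ex_del em hC] at h1
  have h2 := gn_dT_le (em f)
  rw [← h1, hgn] at h2
  exact_mod_cast h2

/-- reduction of the derivation `d/dt` -/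
theorem exists_redDer_of {t : K} (ht : gn (dT k C (em t)) = 1) :
    ∃ δ : Derivation (Ct C) (kap w) (kap w), ∀ f, w.v f ≤ 1 →
      δ (red w f) = red w (del C K f / del C K t) := by
  obtain ⟨δ, hδ⟩ := exists_redDer w ((del C K t)⁻¹ • del C K) (fun f => by
    rw [Derivation.smul_apply, smul_eq_mul, mul_comm, ← div_eq_mul_inv]
    exact v_del_div_le w hC hgn ht f)
  refine ⟨δ, fun f hf => ?_⟩
  rw [hδ f hf, Derivation.smul_apply, smul_eq_mul, mul_comm, ← div_eq_mul_inv]

end Dir

section DirX

variable {k : Type*} [NontriviallyNormedField k] [CompleteSpace k] [IsUltrametricDist k]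
variable {C : Type*} [NormedField C] [IsUltrametricDist C] [NormedAlgebra k C]
  [Algebra.IsAlgebraic k C] [IsAlgClosed C] [hk : Fact (DiscNorm k)]
variable {K : Type*} [Field K] [Algebra C K] [Algebra (RatFunc C) K]
  [IsScalarTower C (RatFunc C) K] [Algebra.IsSeparable (RatFunc C) K]
variable {w : Nm C K} (x : Pl (Ct C) (kap w)) {em : K →+* EE k C}
  (hC : ∀ (c : C) (n : ℤ), (em (algebraMap C K c)).co n = if n = 0 then c else 0)
  (hgn : ∀ f, gn (em f) = w.v f)
  (hod : ∀ f, f ≠ 0 → EE809.od (em f) = Red332.od w x f)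

include hC hgn hod

/-- a function `t` with reduction a uniformizer at `x` has `|dt| = 1`, order `0` -/
theorem gn_dT_uniformizer {t : K} (ht : w.v t = 1) (ht' : x.v (red w t) = exp (-1)) :
    gn (dT k C (em t)) = 1 ∧ EE809.od (dT k C (em t)) = 0 := by
  have ht0 : t ≠ 0 := by
    rintro rfl
    rw [map_zero] at ht
    exact zero_ne_one ht
  have h1 : gn (em t) = 1 := by rw [hgn, ht]; rfl
  have h2 : EE809.od (em t) = 1 := by
    rw [hod t ht0, od_of_one x ht, ht', log_exp, neg_neg]
  have he0 : em t ≠ 0 := (map_ne_zero em).2 ht0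
  have h3 : ‖(em t).co 1‖ = 1 := by
    have := norm_co_od hk.out he0
    rw [h2, h1] at this
    exact this
  have h4 : ‖(dT k C (em t)).co 0‖ = 1 := by
    rw [co_dT]; simpa using h3
  have h5 : gn (dT k C (em t)) = 1 := by
    refine le_antisymm ((gn_dT_le _).trans h1.le) ?_
    rw [← h4]
    exact le_gn _ _
  refine ⟨h5, EE809.od_eq_of (by rw [h4, h5]) fun m hm => ?_⟩
  rw [h5, co_dT, norm_mul]
  have h6 : ‖(em t).co (m + 1)‖ < 1 := by
    have := norm_lt_of_lt_od (k := k) (a := em t) he0 (n := m + 1) (by rw [h2]; omega)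
    rwa [h1] at this
  calc ‖((m + 1 : ℤ) : C)‖ * ‖(em t).co (m + 1)‖ ≤ 1 * ‖(em t).co (m + 1)‖ :=
        mul_le_mul_of_nonneg_right (norm_int_le _) (norm_nonneg _)
    _ < 1 := by rwa [one_mul]

variable [Algebra (RatFunc (Ct C)) (kap w)] [IsScalarTower (Ct C) (RatFunc (Ct C)) (kap w)]
  [FiniteDimensional (RatFunc (Ct C)) (kap w)] [Algebra.IsSeparable (RatFunc (Ct C)) (kap w)]

/-- a lift of the separating element of the residue field has `|dT0| = 1` -/
theorem gn_dT_lift {T0 : K} (hT : w.v T0 ≤ 1) (hT' : red w T0 = RR8_948.xK (Ct C) (kap w)) :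
    gn (dT k C (em T0)) = 1 := by
  obtain ⟨s, hs⟩ := x.surj (exp (-1))
  obtain ⟨t, ht, rfl⟩ := red_surj w s
  have ht1 : w.v t = 1 := by
    rw [← red_ne_zero_iff w ht]
    intro h0
    rw [h0, map_zero] at hs
    exact exp_ne_zero hs.symm
  obtain ⟨h1, h2⟩ := gn_dT_uniformizer x hC hgn hod ht1 hs
  obtain ⟨δ, hδ⟩ := exists_redDer_of w hC hgn h1
  have hdt : del C K t ≠ 0 := del_ne_zero_of w hC hgn h1
  have h3 : δ (red w t) = 1 := by rw [hδ t ht, div_self hdt, red_one]
  rw [der_eq δ, smul_eq_mul] at h3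
  have h4 : δ (RR8_948.xK (Ct C) (kap w)) ≠ 0 := by
    intro h0
    rw [h0, mul_zero] at h3
    exact zero_ne_one h3
  rw [← hT', hδ T0 hT, red_ne_zero_iff w ((v_del_div_le w hC hgn h1 T0).trans hT)] at h4
  have h5 := v_del_div w hC hgn h1 (del C K T0)
  rw [h4, ex_del em hC] at h5
  exact h5.symm

end DirX

/-! ### all directions at a vertex -/

section Vertex

variable {k : Type*} [NontriviallyNormedField k] [CompleteSpace k] [IsUltrametricDist k]
variable {C : Type*} [NormedField C] [IsUltrametricDist C] [NormedAlgebra k C]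
  [Algebra.IsAlgebraic k C] [IsAlgClosed C] [hk : Fact (DiscNorm k)]
variable {K : Type*} [Field K] [Algebra C K] [Algebra (RatFunc C) K]
  [IsScalarTower C (RatFunc C) K] [Algebra.IsSeparable (RatFunc C) K]
variable {w : Nm C K}
variable [Algebra (RatFunc (Ct C)) (kap w)] [IsScalarTower (Ct C) (RatFunc (Ct C)) (kap w)]
  [FiniteDimensional (RatFunc (Ct C)) (kap w)] [Algebra.IsSeparable (RatFunc (Ct C)) (kap w)]
variable {T0 : K} (hT : w.v T0 ≤ 1) (hT' : red w T0 = RR8_948.xK (Ct C) (kap w))

variable (x : Pl (Ct C) (kap w)) {em : K →+* EE k C}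
  (hC : ∀ (c : C) (n : ℤ), (em (algebraMap C K c)).co n = if n = 0 then c else 0)
  (hgn : ∀ f, gn (em f) = w.v f)
  (hod : ∀ f, f ≠ 0 → EE809.od (em f) = Red332.od w x f)

include hT hT' hC hgn hod

theorem del_lift_ne_zero : del C K T0 ≠ 0 :=
  del_ne_zero_of w hC hgn (gn_dT_lift x hC hgn hod hT hT')

/-- **norm of a differential**: `|g dX|_w = |g / (dT0/dX)|_w` is the norm of the expansion at every
direction -/
theorem nd_eq (g : K) : ((w.v (g / del C K T0) : ℝ≥0) : ℝ) = gn (ex em g) :=
  v_del_div w hC hgn (gn_dT_lift x hC hgn hod hT hT') g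

theorem v_del_lift_le (f : K) : w.v (del C K f / del C K T0) ≤ w.v f :=
  v_del_div_le w hC hgn (gn_dT_lift x hC hgn hod hT hT') f

/-- **reduction of `df` is `d` of the reduction** -/
theorem red_del {f : K} (hf : w.v f ≤ 1) :
    red w (del C K f / del C K T0) = del (Ct C) (kap w) (red w f) := by
  obtain ⟨δ, hδ⟩ := exists_redDer_of w hC hgn (gn_dT_lift x hC hgn hod hT hT')
  have h1 : δ (RR8_948.xK (Ct C) (kap w)) = 1 := by
    rw [← hT', hδ T0 hT, div_self (del_lift_ne_zero hT hT' x hC hgn hod), red_one]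
  rw [← hδ f hf, der_eq δ, h1, smul_eq_mul, mul_one]

variable [PerfectField (Ct C)]

/-- order of `dT0` at a direction -/
theorem od_dT_lift : EE809.od (dT k C (em T0)) = canD (Ct C) (kap w) x := by
  obtain ⟨s, hs⟩ := x.surj (exp (-1))
  obtain ⟨t, ht, rfl⟩ := red_surj w s
  have ht1 : w.v t = 1 := by
    rw [← red_ne_zero_iff w ht]
    intro h0
    rw [h0, map_zero] at hs
    exact exp_ne_zero hs.symm
  obtain ⟨h1, h2⟩ := gn_dT_uniformizer x hC hgn hod ht1 hs
  have hdt : del C K t ≠ 0 := del_ne_zero_of w hC hgn h1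
  have hdT : del C K T0 ≠ 0 := del_lift_ne_zero hT hT' x hC hgn hod
  have h3 : x.v (red w (del C K t / del C K T0)) = exp (canD (Ct C) (kap w) x) := by
    rw [red_del hT hT' x hC hgn hod ht]
    exact Car5_700.v_del_eq x hs
  have h4 : w.v (del C K t / del C K T0) = 1 := by
    rw [← red_ne_zero_iff w ((v_del_lift_le hT hT' x hC hgn hod t).trans ht)]
    intro h0
    rw [h0, map_zero] at h3
    exact exp_ne_zero h3.symm
  have h5 : ex em (del C K t) = em (del C K t / del C K T0) * ex em (del C K T0) := by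
    rw [← ex_mul, div_mul_cancel₀ _ hdT]
  have h6 : em (del C K t / del C K T0) ≠ 0 := (map_ne_zero em).2 (div_ne_zero hdt hdT)
  have h7 : ex em (del C K T0) ≠ 0 := by
    intro h0
    rw [h0, mul_zero, ex_del em hC] at h5
    rw [h5, gn_zero] at h1
    exact zero_ne_one h1
  have h8 := congrArg EE809.od h5
  rw [EE809.od_mul hk.out h6 h7, ex_del em hC, ex_del em hC, h2, hod _ (div_ne_zero hdt hdT),
    od_of_one x h4, h3, log_exp] at h8
  omega

/-- **order of a differential at a direction** -/
theorem od_ex {g : K} (hg : g ≠ 0) :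
    EE809.od (ex em g) = Red332.od w x (g / del C K T0) + canD (Ct C) (kap w) x := by
  have hdT : del C K T0 ≠ 0 := del_lift_ne_zero hT hT' x hC hgn hod
  have h5 : ex em g = em (g / del C K T0) * ex em (del C K T0) := by
    rw [← ex_mul, div_mul_cancel₀ _ hdT]
  have h7 : ex em (del C K T0) ≠ 0 := by
    intro h0
    have h1 := gn_dT_lift x hC hgn hod hT hT'
    rw [← ex_del em hC, h0, gn_zero] at h1
    exact zero_ne_one h1
  rw [h5, EE809.od_mul hk.out ((map_ne_zero em).2 (div_ne_zero hg hdT)) h7, ex_del em hC,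
    hod _ (div_ne_zero hg hdT), od_dT_lift hT hT' x hC hgn hod]

end Vertex

end Crest.Agent.R013.RedD_310
end

-- ▼ part R013/RedD3_310

/-!
# R013 / RedD3: the degree of a reduced differential; sums over the directions at a vertex
(helper310)
-/

set_option autoImplicit false
set_option linter.all false

namespace Crest.Agent.R013.RedD_310

open WithZero IsLocalRing
open scoped NNReal
open Crest.Agent.R013.Cell_408 (FinDef DiscNorm)
open Crest.Agent.R013.EE809 Crest.Agent.R013.SSK_332
open Crest.Agent.R013.RR7_948 Crest.Agent.R013.RR8_948 Crest.Agent.R013.RR9_948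
open Crest.Agent.R013.RR11_948
open Crest.Agent.R013.RR14_948 Crest.Agent.R013.RR15_948
open Crest.Agent.R013.Red332 hiding od

/-! ### the residue field of `C` is algebraically closed -/

section AlgClosed

variable {C : Type*} [NormedField C] [IsUltrametricDist C] [IsAlgClosed C]

theorem isAlgClosed_Ct : IsAlgClosed (Ct C) := by
  let O := (NormedField.valuation (K := C)).valuationSubring
  have hO : IsIntegrallyClosed O := inferInstance
  show IsAlgClosed (ResidueField O)
  refine IsAlgClosed.of_exists_root _ fun p hp hirr => ?_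
  obtain ⟨q, hq, hqdeg, hqm⟩ := Polynomial.lifts_and_degree_eq_and_monic
    (f := residue O) ((Polynomial.mem_lifts _).2
      (Polynomial.map_surjective _ residue_surjective p)) hp
  have hdeg : (q.map (algebraMap O C)).degree ≠ 0 := by
    rw [hqm.degree_map, hqdeg]
    exact hirr.degree_pos.ne'
  obtain ⟨z, hz⟩ := IsAlgClosed.exists_root (q.map (algebraMap O C)) hdeg
  have hzint : IsIntegral O z := ⟨q, hqm, by
    rw [← Polynomial.eval_map]; exact hz⟩
  obtain ⟨y, rfl⟩ := (IsIntegrallyClosed.isIntegral_iff (R := O) (K := C)).1 hzint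
  refine ⟨residue O y, ?_⟩
  have h1 : q.eval y = 0 := by
    apply IsFractionRing.injective O C
    rw [Polynomial.IsRoot.def, Polynomial.eval_map_algebraMap, Polynomial.aeval_algebraMap_apply] at hz
    rw [map_zero, ← hz, Polynomial.coe_aeval_eq_eval]
  rw [← hq, Polynomial.eval_map, Polynomial.eval₂_hom, h1, map_zero]

end AlgClosed

/-! ### one vertex -/

section Vertex

variable {k : Type*} [NontriviallyNormedField k] [CompleteSpace k] [IsUltrametricDist k]
variable {C : Type*} [NormedField C] [IsUltrametricDist C] [NormedAlgebra k C]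
  [Algebra.IsAlgebraic k C] [IsAlgClosed C] [hk : Fact (DiscNorm k)]
variable {K : Type*} [Field K] [Algebra C K] [Algebra (RatFunc C) K]
  [IsScalarTower C (RatFunc C) K] [Algebra.IsSeparable (RatFunc C) K]
variable {w : Nm C K}
variable [Algebra (RatFunc (Ct C)) (kap w)] [IsScalarTower (Ct C) (RatFunc (Ct C)) (kap w)]
  [FiniteDimensional (RatFunc (Ct C)) (kap w)] [Algebra.IsSeparable (RatFunc (Ct C)) (kap w)]

omit [Algebra (RatFunc C) K] [IsScalarTower C (RatFunc C) K] [Algebra.IsSeparable (RatFunc C) K]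
  [IsAlgClosed C] in
theorem od_eq_divf (x : Pl (Ct C) (kap w)) {f : K} {c : C}
    (h : w.v (f * (algebraMap C K c)⁻¹) = 1) :
    Red332.od w x f = divf (k := Ct C) (red w (f * (algebraMap C K c)⁻¹)) x := by
  rw [od_eq_of x h, v_eq (red_ne_zero w h), log_exp, neg_neg]

omit [Algebra (RatFunc C) K] [IsScalarTower C (RatFunc C) K] [Algebra.IsSeparable (RatFunc C) K] in
/-- **Kirchhoff's law** at a vertex -/
theorem sum_od {f : K} (hf : f ≠ 0) : ∃ D : Pl (Ct C) (kap w) →₀ ℤ,
    (∀ x, D x = Red332.od w x f) ∧ (D.sum fun _ n => n) = 0 := by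
  haveI := isAlgClosed_Ct (C := C)
  obtain ⟨c, hc0, hc⟩ := exists_C w f hf
  refine ⟨divf (red w (f * (algebraMap C K c)⁻¹)), fun x => (od_eq_divf x hc).symm, ?_⟩
  rw [← GR2_921.degD_eq_sum]
  exact degD_divf (red_ne_zero w hc)

/-- a lift of the separating element -/
noncomputable def lT (w : Nm C K) [Algebra (RatFunc (Ct C)) (kap w)] : K :=
  (red_surj w (xK (Ct C) (kap w))).choose

omit [Algebra (RatFunc C) K] [IsScalarTower C (RatFunc C) K] [Algebra.IsSeparable (RatFunc C) K]
  [IsScalarTower (Ct C) (RatFunc (Ct C)) (kap w)] [IsAlgClosed C]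
  [FiniteDimensional (RatFunc (Ct C)) (kap w)] [Algebra.IsSeparable (RatFunc (Ct C)) (kap w)] in
theorem lT_le : w.v (lT w) ≤ 1 := (red_surj w (xK (Ct C) (kap w))).choose_spec.1

omit [Algebra (RatFunc C) K] [IsScalarTower C (RatFunc C) K] [Algebra.IsSeparable (RatFunc C) K]
  [IsScalarTower (Ct C) (RatFunc (Ct C)) (kap w)] [IsAlgClosed C]
  [FiniteDimensional (RatFunc (Ct C)) (kap w)] [Algebra.IsSeparable (RatFunc (Ct C)) (kap w)] in
theorem red_lT : red w (lT w) = xK (Ct C) (kap w) :=
  (red_surj w (xK (Ct C) (kap w))).choose_spec.2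

/-- **degree of the reduced differential**: the orders of a differential at the directions of a
vertex sum to `2 g - 2` -/
theorem sum_od_ex (em : Pl (Ct C) (kap w) → K →+* EE k C)
    (hC : ∀ x (c : C) (n : ℤ), (em x (algebraMap C K c)).co n = if n = 0 then c else 0)
    (hgn : ∀ x f, gn (em x f) = w.v f)
    (hod : ∀ x f, f ≠ 0 → EE809.od (em x f) = Red332.od w x f) {g : K} (hg : g ≠ 0) :
    ∃ D : Pl (Ct C) (kap w) →₀ ℤ, (∀ x, D x = EE809.od (ex (em x) g)) ∧
      (D.sum fun _ n => n) = 2 * (gen (Ct C) (kap w) : ℤ) - 2 := by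
  haveI := isAlgClosed_Ct (C := C)
  by_cases hne : Nonempty (Pl (Ct C) (kap w))
  · obtain ⟨x0⟩ := hne
    have hd0 : del C K (lT w) ≠ 0 :=
      del_lift_ne_zero lT_le red_lT x0 (hC x0) (hgn x0) (hod x0)
    obtain ⟨c, hc0, hc⟩ := exists_C w (g / del C K (lT w)) (div_ne_zero hg hd0)
    refine ⟨divf (red w (g / del C K (lT w) * (algebraMap C K c)⁻¹)) + canD (Ct C) (kap w),
      fun x => ?_, ?_⟩
    · rw [od_ex lT_le red_lT x (hC x) (hgn x) (hod x) hg, Finsupp.add_apply, od_eq_divf x hc]
    · rw [← GR2_921.degD_eq_sum, degD_add, degD_divf (red_ne_zero w hc), zero_add,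
        degD_canD GR2_921.hc_of_isAlgClosed]
  · exfalso
    obtain ⟨P, _⟩ := RR12_948.exists_notMem (k := Ct C) (K := kap w) ∅
    exact hne ⟨P⟩

end Vertex

/-! ### all vertices -/

section SSK

variable {k : Type*} [NontriviallyNormedField k] [CompleteSpace k] [IsUltrametricDist k]
variable {C : Type*} [NormedField C] [IsUltrametricDist C] [NormedAlgebra k C]
  [Algebra.IsAlgebraic k C] [IsAlgClosed C]
variable {K : Type*} [Field K] [Algebra C K] (S : SSK k C K)

/-- a `Ct(X)`-structure on the residue field of a vertex -/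
@[reducible] noncomputable def ffA (v : S.V) : Algebra (RatFunc (Ct C)) (kap (S.nm v)) :=
  (S.ff v).choose

theorem ffA_tower (v : S.V) : letI := ffA S v
    IsScalarTower (Ct C) (RatFunc (Ct C)) (kap (S.nm v)) := (S.ff v).choose_spec.1

theorem ffA_fin (v : S.V) : letI := ffA S v
    FiniteDimensional (RatFunc (Ct C)) (kap (S.nm v)) := (S.ff v).choose_spec.2.1

theorem ffA_sep (v : S.V) : letI := ffA S v
    Algebra.IsSeparable (RatFunc (Ct C)) (kap (S.nm v)) := (S.ff v).choose_spec.2.2

/-- genus of a vertex -/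
noncomputable def gv (v : S.V) : ℕ :=
  letI := ffA S v
  haveI := ffA_tower S v
  haveI := ffA_fin S v
  haveI := ffA_sep S v
  gen (Ct C) (kap (S.nm v))


variable [hk : Fact (DiscNorm k)] [Algebra (RatFunc C) K] [IsScalarTower C (RatFunc C) K]
  [Algebra.IsSeparable (RatFunc C) K]

theorem sum_vertex (v : S.V) {g : K} (hg : g ≠ 0) :
    ∃ D : Pl (Ct C) (kap (S.nm v)) →₀ ℤ, (∀ x, D x = EE809.od (ex (S.em ⟨v, x⟩) g)) ∧
      (D.sum fun _ n => n) = 2 * (gv S v : ℤ) - 2 := by
  letI := ffA S v
  haveI := ffA_tower S v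
  haveI := ffA_fin S v
  haveI := ffA_sep S v
  exact sum_od_ex (w := S.nm v) (fun x => S.em ⟨v, x⟩) (fun x => S.em_C _) (fun x => S.em_gn _)
    (fun x => S.em_od _) hg

/-- **sum over all directions** -/
theorem sum_all {g : K} (hg : g ≠ 0) :
    letI := S.fV
    ∃ D : S.Dir →₀ ℤ, (∀ d, D d = EE809.od (ex (S.em d) g)) ∧
      (D.sum fun _ n => n) = ∑ v, (2 * (gv S v : ℤ) - 2) := by
  classical
  letI := S.fV
  choose D hD hD' using fun v => sum_vertex S v hg
  have hfin : Set.Finite (Function.support fun d : S.Dir => D d.1 d.2) := by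
    refine (Set.Finite.subset ((Finset.univ.sigma fun v => (D v).support).finite_toSet) ?_)
    intro d hd
    rw [Function.mem_support] at hd
    rw [Finset.mem_coe, Finset.mem_sigma]
    exact ⟨Finset.mem_univ _, Finsupp.mem_support_iff.2 hd⟩
  refine ⟨Finsupp.ofSupportFinite (fun d : S.Dir => D d.1 d.2) hfin, fun d => ?_, ?_⟩
  · rw [Finsupp.ofSupportFinite_coe]
    exact hD d.1 d.2
  · rw [← Finset.sum_congr rfl fun v _ => hD' v]
    unfold Finsupp.sum
    refine (Finset.sum_subset_zero_on_sdiff (g := fun d : S.Dir => D d.1 d.2)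
      (s₂ := Finset.univ.sigma fun v => (D v).support) ?_ ?_ ?_).trans
      (Finset.sum_sigma' Finset.univ (fun v => (D v).support) fun v x => D v x).symm
    · intro d hd
      rw [Finsupp.mem_support_iff, Finsupp.ofSupportFinite_coe] at hd
      rw [Finset.mem_sigma]
      exact ⟨Finset.mem_univ _, Finsupp.mem_support_iff.2 hd⟩
    · intro d hd
      rw [Finset.mem_sdiff, Finsupp.mem_support_iff, Finsupp.ofSupportFinite_coe, not_not] at hd
      exact hd.2
    · intro d _
      rw [Finsupp.ofSupportFinite_coe]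

end SSK

end Crest.Agent.R013.RedD_310
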