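import Mathlib
import Crest.Agent.R013.CntF7_398
import Crest.Agent.R013.Car6_700
import Crest.Agent.R013.RR22_948
import Crest.Agent.R013.Kumv2_275
import Crest.Agent.R013.LiftA_168
import Crest.Agent.R013.M3Defs_359
import Crest.Agent.R013.GR3_921
import Crest.Agent.R013.CLiftN2_903
import Crest.Agent.R013.InLift_365
import Crest.Agent.R013.TP14_928
import Crest.Agent.R013.ExKum_903
import Crest.Agent.R013.Inh12_770

-- ▼ part R013/CI1_398
section

/-!
# R013 / CARTINJ 1: the Cartier operator is injective on the `χ^(p^j)`-parts of the regular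
differentials of `L = C(u^(1/N))`, `(N, E, u)` from COUNT (helper398)
-/

set_option autoImplicit false
set_option linter.all false

namespace Crest.Agent.R013.CI1_398

open Polynomial WithZero Module
open Crest.Agent.R013.RR1_948 Crest.Agent.R013.RR7_948 Crest.Agent.R013.RR8_948
open Crest.Agent.R013.RR9_948 Crest.Agent.R013.RR11_948 Crest.Agent.R013.RR12_948
open Crest.Agent.R013.RR13_948 Crest.Agent.R013.RR14_948 Crest.Agent.R013.RR18_948
open Crest.Agent.R013.RR19_948 Crest.Agent.R013.RR22_948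
open Crest.Agent.R013.Car1_700 Crest.Agent.R013.Car2_700 Crest.Agent.R013.Car5_700
open Crest.Agent.R013.Car6_700
open Crest.Agent.R013.PicD_398 Crest.Agent.R013.CntF6_398

section CK

variable (p : ℕ) [hp : Fact p.Prime] {k : Type*} [Field k] [CharP k p] [PerfectField k]
  {K : Type*} [Field K] [Algebra k K] [Algebra (RatFunc k) K]
  [IsScalarTower k (RatFunc k) K] [FiniteDimensional (RatFunc k) K]
  [Algebra.IsSeparable (RatFunc k) K]
  {L : Type*} [Field L] [Algebra k L] [Algebra K L] [IsScalarTower k K L]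
  [FiniteDimensional K L] [Algebra.IsSeparable K L]
  [Algebra (RatFunc k) L] [IsScalarTower k (RatFunc k) L] [FiniteDimensional (RatFunc k) L]
  [Algebra.IsSeparable (RatFunc k) L] [IsScalarTower (RatFunc k) K L]

theorem algebraMap_xK' : algebraMap K L (xK k K) = xK k L := by
  unfold xK
  rw [← IsScalarTower.algebraMap_apply]

/-- Cartier and inclusion -/
theorem CK_algebraMap (b : K) : CK p k L (algebraMap K L b) = algebraMap K L (CK p k K b) := by
  have h := (pb p k K).co_spec b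
  have h1 : algebraMap K L b = ∑ i ∈ Finset.range p,
      (fun i => algebraMap K L ((pb p k K).co b i)) i ^ p * (pb p k L).x ^ i := by
    conv_lhs => rw [h]
    rw [map_sum]
    refine Finset.sum_congr rfl fun i _ => ?_
    rw [map_mul, map_pow, map_pow]
    rw [show (pb p k K).x = xK k K from rfl, show (pb p k L).x = xK k L from rfl, algebraMap_xK']
  exact (pb p k L).C_eq h1

/-- Cartier commutes with automorphisms fixing `x` -/
theorem CK_algEquiv (σ : L ≃ₐ[K] L) (g : L) : CK p k L (σ g) = σ (CK p k L g) := by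
  have h := (pb p k L).co_spec g
  have hx : σ (pb p k L).x = (pb p k L).x := by
    rw [show (pb p k L).x = xK k L from rfl, ← algebraMap_xK' (K := K), σ.commutes]
  have h1 : σ g = ∑ i ∈ Finset.range p,
      (fun i => σ ((pb p k L).co g i)) i ^ p * (pb p k L).x ^ i := by
    conv_lhs => rw [h]
    rw [map_sum]
    refine Finset.sum_congr rfl fun i _ => ?_
    rw [map_mul, map_pow, map_pow, hx]
  exact (pb p k L).C_eq h1

theorem CK_pow_mul (y z : K) : CK p k K (y ^ p * z) = y * CK p k K z := (pb p k K).C_pow y z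

theorem CK_zero : CK p k K 0 = 0 := (pb p k K).C_zero

end CK

section single

variable {p : ℕ} [hp : Fact p.Prime] {k : Type*} [Field k] [CharP k p] [IsAlgClosed k]
  {K : Type*} [Field K] [Algebra k K] [Algebra (RatFunc k) K]
  [IsScalarTower k (RatFunc k) K] [FiniteDimensional (RatFunc k) K]
  [Algebra.IsSeparable (RatFunc k) K]
  {L : Type*} [Field L] [Algebra k L] [Algebra K L] [IsScalarTower k K L]
  [FiniteDimensional K L] [IsGalois K L]
  [Algebra (RatFunc k) L] [IsScalarTower k (RatFunc k) L] [FiniteDimensional (RatFunc k) L]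
  [Algebra.IsSeparable (RatFunc k) L] [IsScalarTower (RatFunc k) K L]

theorem degP_eq_one_of_isAlgClosed (P : Pl k K) : degP P = 1 := by
  have h1 := CntB2_491.finite_Kap (degE_eq P)
  haveI := h1.1
  have h2 : finrank k (CntB2_491.Kap P) = 1 := by
    have hb := (IsAlgClosed.algebraMap_bijective_of_isIntegral (k := k)
      (K := CntB2_491.Kap P)).2
    rw [finrank_eq_one_iff']
    refine ⟨1, one_ne_zero, fun w => ?_⟩
    obtain ⟨c, hc⟩ := hb w
    exact ⟨c, by rw [Algebra.smul_def, mul_one, hc]⟩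
  rw [← h1.2, h2]

/-- ramification indices are prime to `p` -/
theorem eR_ne_zero (hpn : ¬ p ∣ finrank K L) (Q : Pl k L) : ((eR K Q : ℕ) : k) ≠ 0 := by
  have h1 := card_above_mul (K := K) Q
  rw [degP_eq_one_of_isAlgClosed, degP_eq_one_of_isAlgClosed, mul_one, mul_one] at h1
  rw [ne_eq, CharP.cast_eq_zero_iff k p]
  intro h2
  apply hpn
  rw [← h1]
  exact h2.trans (dvd_mul_left _ _)

variable {N : ℕ} {E : Pl k K →₀ ℤ} {u : K}

theorem v_y (hN : N ≠ 0) (hu : u ≠ 0) (hdiv : divf (k := k) u = N • E) {y : L}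
    (hy : y ^ N = algebraMap K L u) (Q : Pl k L) :
    Q.v y = exp (-(eR K Q * E (under K Q))) := by
  have hy0 : y ≠ 0 := by
    rintro rfl
    rw [zero_pow hN] at hy
    exact hu ((FaithfulSMul.algebraMap_eq_zero_iff K L).mp hy.symm)
  have h1 := v_eq (k := k) hu (under K Q)
  have h2 := v_algebraMap_exp Q h1
  rw [← hy, map_pow, hdiv, Finsupp.smul_apply] at h2
  have hv0 : Q.v y ≠ 0 := (Valuation.ne_zero_iff _).mpr hy0
  rw [← exp_log hv0, ← exp_nsmul, exp_inj, nsmul_eq_mul, nsmul_eq_mul] at h2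
  rw [← exp_log hv0, exp_inj]
  have hN' : (N : ℤ) ≠ 0 := by exact_mod_cast hN
  apply mul_left_cancel₀ hN'
  rw [h2]; ring

/-- **one component**: `b dx` exact, `y^(-p^(j+1)) b dx` regular on `L` implies `b = 0` -/
theorem eq_zero_of_exact (hpn : ¬ p ∣ finrank K L) (hN : N ≠ 0) (hu : u ≠ 0)
    (hdiv : divf (k := k) u = N • E)
    (hord : ∀ (j : ℕ) (f : K), (∀ (P : Pl k K) (t : K), P.v t = exp (-1) →
      P.v (del k K f) ≤ P.v (del k K t) * exp (-(p ^ (j + 1) * E P))) → del k K f = 0)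
    {y : L} (hy : y ^ N = algebraMap K L u) (j : ℕ) {b : K}
    (hreg : algebraMap K L b * (y ^ (p ^ (j + 1)))⁻¹ ∈ LD (canD k L)) (hC : CK p k K b = 0) :
    b = 0 := by
  obtain ⟨h, rfl⟩ := ((pb p k K).C_eq_zero_iff b).mp hC
  rw [pb_D] at hreg ⊢
  apply hord j
  intro P t ht
  by_cases hb0 : del k K h = 0
  · rw [hb0, map_zero]; exact zero_le
  obtain ⟨Q, hQ⟩ := above_nonempty (L := L) P
  rw [mem_above] at hQ
  have h1 := mem_LD.mp hreg Q
  have hvb : (under K Q).v (del k K h) = exp (log ((under K Q).v (del k K h))) :=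
    (exp_log ((Valuation.ne_zero_iff _).mpr hb0)).symm
  set β := log ((under K Q).v (del k K h)) with hβ
  rw [map_mul, map_inv₀, map_pow, v_algebraMap_exp Q hvb, v_y hN hu hdiv hy Q,
    canD_eq_of_tame (K := K) Q (eR_ne_zero hpn Q), ← exp_nsmul, ← exp_neg, ← exp_add,
    exp_le_exp, nsmul_eq_mul] at h1
  have he : 1 ≤ eR K Q := eR_pos (K := K) Q
  rw [← hQ, hvb, v_del_eq (under K Q) (by rw [hQ]; exact ht), ← exp_add, exp_le_exp]
  set e : ℤ := ((eR K Q : ℕ) : ℤ) with heq
  have he' : 1 ≤ e := by rw [heq]; exact_mod_cast he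
  set c := canD k K (under K Q) with hc
  set E' := E (under K Q) with hE'
  push_cast at h1
  have h2 : e * (β + p ^ (j + 1) * E' - c) ≤ e - 1 := by linarith
  have h3 : β + p ^ (j + 1) * E' - c < 1 := by
    by_contra hcon
    push Not at hcon
    nlinarith
  linarith

/-- **(CI-1)**, eigenvectors: `g dX` regular on `L`, `σ g = χ(σ)^(p^j) g`, Cartier nilpotent: `g = 0` -/
theorem eq_zero_of_eigen (hpn : ¬ p ∣ finrank K L) (hN : N ≠ 0) (hNp : N.Coprime p) (hu : u ≠ 0)
    (hdiv : divf (k := k) u = N • E)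
    (hord : ∀ (j : ℕ) (f : K), (∀ (P : Pl k K) (t : K), P.v t = exp (-1) →
      P.v (del k K f) ≤ P.v (del k K t) * exp (-(p ^ (j + 1) * E P))) → del k K f = 0)
    {y : L} (hy : y ^ N = algebraMap K L u) (χ : (L ≃ₐ[K] L) → k)
    (hχ : ∀ σ, algebraMap k L (χ σ) * σ y = y) (m : ℕ) :
    ∀ (j : ℕ) (g : L), (∀ σ : L ≃ₐ[K] L, σ g = algebraMap k L (χ σ ^ p ^ j) * g) →
      g ∈ LD (canD k L) → (CK p k L)^[m] g = 0 → g = 0 := by
  have hy0 : y ≠ 0 := by
    rintro rfl
    rw [zero_pow hN] at hy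
    exact hu ((FaithfulSMul.algebraMap_eq_zero_iff K L).mp hy.symm)
  -- `χ^N = 1`
  have hχN : ∀ σ, χ σ ^ N = 1 := by
    intro σ
    apply (algebraMap k L).injective
    have h1 : algebraMap k L (χ σ) ^ N * σ y ^ N = y ^ N := by rw [← mul_pow, hχ]
    rw [← map_pow σ y N, hy, σ.commutes] at h1
    have hu' : algebraMap K L u ≠ 0 := by simpa using hu
    rw [map_pow, map_one]
    exact mul_right_cancel₀ hu' (by rw [h1, one_mul])
  -- periodicity of the exponents
  obtain ⟨f, hf0, hf⟩ : ∃ f : ℕ, 0 < f ∧ N ∣ p ^ f - 1 := by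
    refine ⟨N.totient, Nat.totient_pos.mpr (Nat.pos_of_ne_zero hN), ?_⟩
    have h1 := Nat.ModEq.pow_totient hNp.symm
    exact (Nat.modEq_iff_dvd' (Nat.one_le_pow _ _ hp.out.pos)).mp h1.symm
  have hper : ∀ σ j, χ σ ^ p ^ (j + f) = χ σ ^ p ^ j := by
    intro σ j
    obtain ⟨c, hc⟩ := hf
    have h1 : p ^ f = N * c + 1 := by
      have := Nat.one_le_pow f p hp.out.pos
      omega
    rw [pow_add p j f, h1, mul_add, mul_one, pow_add, ← mul_assoc, mul_comm (p ^ j) N, mul_assoc,
      pow_mul, hχN, one_pow, one_mul]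
  induction m with
  | zero => intro j g _ _ h; exact h
  | succ m ih =>
    -- it suffices to treat `j ≥ 1`
    have key : ∀ (j : ℕ) (g : L), (∀ σ : L ≃ₐ[K] L, σ g = algebraMap k L (χ σ ^ p ^ (j + 1)) * g) →
        g ∈ LD (canD k L) → (CK p k L)^[m + 1] g = 0 → g = 0 := by
      intro j g hg hreg hC
      rw [Function.iterate_succ_apply] at hC
      -- `C g` is an eigenvector
      have h1 : CK p k L g = 0 := by
        apply ih j (CK p k L g) _ (CK_mem_LD_canD p hreg) hC
        intro σ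
        rw [← CK_algEquiv, hg σ, pow_succ, pow_mul, map_pow, CK_pow_mul]
      -- `g = b y^(-p^(j+1))`
      have h2 : ∀ σ : L ≃ₐ[K] L, σ (g * y ^ p ^ (j + 1)) = g * y ^ p ^ (j + 1) := by
        intro σ
        rw [map_mul, map_pow σ, hg σ, map_pow (algebraMap k L), mul_right_comm, ← mul_pow, hχ,
          mul_comm]
      obtain ⟨b, hb⟩ := (IsGalois.mem_range_algebraMap_iff_fixed (F := K) (E := L) _).mpr h2
      have hyp : y ^ p ^ (j + 1) ≠ 0 := pow_ne_zero _ hy0
      have h3 : g = algebraMap K L b * (y ^ p ^ (j + 1))⁻¹ := by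
        rw [hb, mul_inv_cancel_right₀ hyp]
      have h4 : CK p k K b = 0 := by
        apply (algebraMap K L).injective
        rw [map_zero, ← CK_algebraMap, hb, mul_comm, pow_succ, pow_mul, CK_pow_mul, h1, mul_zero]
      rw [h3] at hreg ⊢
      rw [eq_zero_of_exact hpn hN hu hdiv hord hy j hreg h4, map_zero, zero_mul]
    intro j g hg hreg hC
    obtain ⟨f', rfl⟩ : ∃ f', f = f' + 1 := ⟨f - 1, by omega⟩
    apply key (j + f') g _ hreg hC
    intro σ
    rw [hg σ, ← hper σ j, add_assoc]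

end single

end Crest.Agent.R013.CI1_398
end

-- ▼ part R013/CI2_398
section

/-!
# R013 / CARTINJ 2: the Cartier operator is injective on the `e`-part (helper398)

`A` finite group of order prime to `p`, `B ≤ A` acts on `L` with invariants `K`,
`e : A → k` a linear combination of the characters `χ ^ (-p ^ j)`, `F : A → L` a `B`-equivariant
family of regular, Cartier nilpotent differentials with `e F = F`.  Then `F = 0`.
-/

set_option autoImplicit false
set_option linter.all false

namespace Crest.Agent.R013.CI2_398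

open Polynomial WithZero Module
open Crest.Agent.R013.RR1_948 Crest.Agent.R013.RR7_948 Crest.Agent.R013.RR8_948
open Crest.Agent.R013.RR9_948 Crest.Agent.R013.RR11_948 Crest.Agent.R013.RR12_948
open Crest.Agent.R013.RR13_948 Crest.Agent.R013.RR14_948 Crest.Agent.R013.RR18_948
open Crest.Agent.R013.RR19_948 Crest.Agent.R013.RR22_948
open Crest.Agent.R013.Car1_700 Crest.Agent.R013.Car2_700 Crest.Agent.R013.Car5_700
open Crest.Agent.R013.Car6_700
open Crest.Agent.R013.PicD_398 Crest.Agent.R013.CntF6_398 Crest.Agent.R013.CI1_398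

/-! ### finite groups acting on fields -/

section galois

variable {K L : Type*} [Field K] [Field L] [Algebra K L] [FiniteDimensional K L]
  {B : Type*} [Group B] (θ : B →* (L ≃ₐ[K] L))
  (hinv : ∀ g : L, (∀ b, θ b g = g) → g ∈ Set.range (algebraMap K L))

include hinv

theorem fixedField_range : IntermediateField.fixedField θ.range = (⊥ : IntermediateField K L) := by
  rw [eq_bot_iff]
  intro g hg
  rw [IntermediateField.mem_bot]
  apply hinv
  intro b
  exact hg ⟨θ b, b, rfl⟩

theorem isGalois : IsGalois K L := by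
  apply IsGalois.of_fixedField_eq_bot
  rw [eq_bot_iff, ← fixedField_range θ hinv]
  intro g hg σ
  exact hg ⟨σ.1, trivial⟩

theorem surjective : Function.Surjective θ := by
  rw [← MonoidHom.range_eq_top]
  have h1 := IntermediateField.fixingSubgroup_fixedField θ.range
  rw [fixedField_range θ hinv] at h1
  rw [← h1, IntermediateField.fixingSubgroup_bot]

theorem finrank_dvd [Finite B] : finrank K L ∣ Nat.card B := by
  haveI := isGalois θ hinv
  rw [← IsGalois.card_aut_eq_finrank]
  have h1 := Subgroup.card_range_dvd θ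
  rwa [MonoidHom.range_eq_top.mpr (surjective θ hinv), Subgroup.card_top] at h1

end galois

/-! ### genus zero -/

section genus

variable {k : Type*} [Field k] {K : Type*} [Field K] [Algebra k K] [Algebra (RatFunc k) K]
  [IsScalarTower k (RatFunc k) K] [FiniteDimensional (RatFunc k) K]
  [Algebra.IsSeparable (RatFunc k) K]

theorem eq_zero_of_gen (h : gen k K = 0) {g : K} (hg : g ∈ LD (canD k K)) : g = 0 := by
  have h1 : finrank k (LD (canD k K)) = 0 := h
  haveI := RR11_948.LD_finite (canD k K)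
  have h2 : LD (canD k K) = ⊥ := Submodule.finrank_eq_zero.mp h1
  rw [h2] at hg
  exact (Submodule.mem_bot k).mp hg

end genus

/-! ### the `e`-part -/

section main

variable (p : ℕ) [hp : Fact p.Prime] {k : Type*} [Field k] [IsAlgClosed k] [CharP k p]
  {K : Type*} [Field K] [Algebra k K] [Algebra (RatFunc k) K]
  [IsScalarTower k (RatFunc k) K] [FiniteDimensional (RatFunc k) K]
  [Algebra.IsSeparable (RatFunc k) K]
  {L : Type*} [Field L] [Algebra k L] [Algebra K L] [IsScalarTower k K L]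
  [FiniteDimensional K L] [Algebra.IsSeparable K L]
  [Algebra (RatFunc k) L] [IsScalarTower k (RatFunc k) L] [FiniteDimensional (RatFunc k) L]
  [Algebra.IsSeparable (RatFunc k) L] [IsScalarTower (RatFunc k) K L]

theorem CK_add (a b : L) : CK p k L (a + b) = CK p k L a + CK p k L b := (pb p k L).C_add a b

theorem CK_iter_add (m : ℕ) (a b : L) :
    (CK p k L)^[m] (a + b) = (CK p k L)^[m] a + (CK p k L)^[m] b := by
  induction m generalizing a b with
  | zero => rfl
  | succ m ih => rw [Function.iterate_succ_apply, Function.iterate_succ_apply,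
      Function.iterate_succ_apply, CK_add, ih]

theorem CK_iter_zero (m : ℕ) : (CK p k L)^[m] (0 : L) = 0 := by
  induction m with
  | zero => rfl
  | succ m ih => rw [Function.iterate_succ_apply, CK_zero, ih]

theorem CK_iter_sum {ι : Type*} (s : Finset ι) (g : ι → L) (m : ℕ) :
    (CK p k L)^[m] (∑ i ∈ s, g i) = ∑ i ∈ s, (CK p k L)^[m] (g i) := by
  classical
  induction s using Finset.induction_on with
  | empty => simp [CK_iter_zero]
  | insert i s hi ih => rw [Finset.sum_insert hi, Finset.sum_insert hi, CK_iter_add, ih]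

/-- killed elements are stable under multiplication by constants (`k` perfect) -/
theorem CK_iter_const (m : ℕ) (c : k) {g : L} (h : (CK p k L)^[m] g = 0) :
    (CK p k L)^[m] (algebraMap k L c * g) = 0 := by
  induction m generalizing c g with
  | zero => rw [Function.iterate_zero, id] at h ⊢; rw [h, mul_zero]
  | succ m ih =>
    rw [Function.iterate_succ_apply] at h ⊢
    obtain ⟨d, hd⟩ := IsAlgClosed.exists_pow_nat_eq c hp.out.pos
    rw [← hd, map_pow, CK_pow_mul]
    exact ih d h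

variable {u : K} {E : Pl k K →₀ ℤ} {N : ℕ}

/-- **CARTINJ**: regular Cartier nilpotent families in the `e`-part vanish -/
theorem eq_zero_of_idem {A : Type*} [Group A] [Fintype A] (hA : ¬ p ∣ Fintype.card A)
    (B : Subgroup A) (θ : B →* (L ≃ₐ[K] L))
    (hinv : ∀ g : L, (∀ b, θ b g = g) → g ∈ Set.range (algebraMap K L))
    (hN : N ≠ 0) (hNp : N.Coprime p) (hu : u ≠ 0) (hdiv : divf (k := k) u = N • E)
    (hord : ∀ (j : ℕ) (f : K), (∀ (P : Pl k K) (t : K), P.v t = exp (-1) →
      P.v (del k K f) ≤ P.v (del k K t) * exp (-(p ^ (j + 1) * E P))) → del k K f = 0)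
    {y : L} (hy : y ^ N = algebraMap K L u) (χ : A →* kˣ)
    (hχ : ∀ b : B, algebraMap k L (χ b) * θ b y = y)
    (e : A → k) (s : Finset ℕ) (c : ℕ → k)
    (he : ∀ a, e a = ∑ j ∈ s, c j * (((χ a)⁻¹ : kˣ) : k) ^ p ^ j)
    (F : A → L) (hF : ∀ (b : B) (a : A), F (b * a) = θ b (F a))
    (hR : ∀ a, F a ∈ LD (canD k L)) (m : ℕ) (hC : ∀ a, (CK p k L)^[m] (F a) = 0)
    (heF : ∀ a, ∑ b, algebraMap k L (e b) * F (b * a) = F a) (a : A) : F a = 0 := by
  haveI := isGalois θ hinv
  have hsurj := surjective θ hinv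
  have hpn : ¬ p ∣ finrank K L := by
    intro h
    apply hA
    have h1 := finrank_dvd θ hinv
    have h2 : Nat.card B ∣ Nat.card A := Subgroup.card_subgroup_dvd_card B
    rw [Nat.card_eq_fintype_card (α := A)] at h2
    exact h.trans (h1.trans h2)
  choose τ hτ using hsurj
  have hχ' : ∀ σ : L ≃ₐ[K] L, algebraMap k L ((χ (τ σ) : kˣ) : k) * σ y = y := by
    intro σ
    have h1 := hχ (τ σ)
    rwa [hτ] at h1
  have key : ∀ j, ∑ b, algebraMap k L ((((χ b)⁻¹ : kˣ) : k) ^ p ^ j) * F (b * a) = 0 := by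
    intro j
    refine eq_zero_of_eigen hpn hN hNp hu hdiv hord hy (fun σ => ((χ (τ σ) : kˣ) : k)) hχ' m j
      _ ?_ ?_ ?_
    · intro σ
      obtain ⟨t, rfl⟩ : ∃ t : B, θ t = σ := ⟨τ σ, hτ σ⟩
      set t' : B := τ (θ t) with ht'
      have ht : θ t' = θ t := hτ _
      rw [← ht, map_sum, Finset.mul_sum]
      refine Fintype.sum_equiv (Equiv.mulLeft (t' : A)) _ _ fun b => ?_
      rw [map_mul, Equiv.coe_mulLeft, mul_assoc (t' : A) b a, hF]
      have h1 : (θ t') (algebraMap k L ((((χ b)⁻¹ : kˣ) : k) ^ p ^ j)) =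
          algebraMap k L ((((χ b)⁻¹ : kˣ) : k) ^ p ^ j) := by
        rw [IsScalarTower.algebraMap_apply k K L, (θ t').commutes]
      rw [h1, ← mul_assoc, ← map_mul, ← mul_pow]
      congr 3
      rw [map_mul, mul_inv, ← Units.val_mul, mul_inv_cancel_left]
    · refine Submodule.sum_mem _ fun b _ => ?_
      rw [← Algebra.smul_def]
      exact Submodule.smul_mem _ _ (hR _)
    · rw [CK_iter_sum]
      exact Finset.sum_eq_zero fun b _ => CK_iter_const p m _ (hC _)
  rw [← heF a]
  have h1 : ∀ b, algebraMap k L (e b) * F (b * a) = ∑ j ∈ s, algebraMap k L (c j) *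
      (algebraMap k L ((((χ b)⁻¹ : kˣ) : k) ^ p ^ j) * F (b * a)) := by
    intro b
    rw [he, map_sum, Finset.sum_mul]
    exact Finset.sum_congr rfl fun j _ => by rw [map_mul, mul_assoc]
  simp_rw [h1]
  rw [Finset.sum_comm]
  refine Finset.sum_eq_zero fun j _ => ?_
  rw [← Finset.mul_sum, key j, mul_zero]

end main

end Crest.Agent.R013.CI2_398
end

-- ▼ part R013/CI3_398
section

/-!
# R013 / CARTINJ 3: the stabiliser of a norm and the Galois group of the residue fields
(helper398)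

`A` finite group acting on `L` with invariants `K`, `w` a norm of `L` over the norm `v` of `K`:
`th : stab → Aut (kap w / kap v)`, with invariants `kap v` if `|A|` is invertible in `Ct C`.
-/

set_option autoImplicit false
set_option linter.all false

namespace Crest.Agent.R013.CI3_398

open scoped NNReal
open Module IsLocalRing
open Crest.Agent.R013.Red332 Crest.Agent.R013.Kumv2_275

/-! ### Artin -/

section artin

variable {K L : Type*} [Field K] [Field L] [Algebra K L]
  {B : Type*} [Group B] [Finite B] (θ : B →* (L ≃ₐ[K] L))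
  (hinv : ∀ g : L, (∀ b, θ b g = g) → g ∈ Set.range (algebraMap K L))

include hinv

theorem isGaloisGroup : IsGaloisGroup θ.range K L where
  faithful := inferInstance
  commutes := inferInstance
  isInvariant := ⟨fun x hx => hinv x fun b => hx ⟨θ b, b, rfl⟩⟩

theorem finiteDimensional : FiniteDimensional K L :=
  haveI := isGaloisGroup θ hinv
  haveI : Finite θ.range := Finite.of_surjective θ.rangeRestrict θ.rangeRestrict_surjective
  IsGaloisGroup.finiteDimensional θ.range K L

theorem isGalois : IsGalois K L :=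
  haveI := isGaloisGroup θ hinv
  haveI : Finite θ.range := Finite.of_surjective θ.rangeRestrict θ.rangeRestrict_surjective
  IsGaloisGroup.isGalois θ.range K L

end artin

section val

variable {C : Type*} [NormedField C] [IsUltrametricDist C]
  {K L : Type*} [Field K] [Field L] [Algebra C K] [Algebra K L] [Algebra C L]
  [IsScalarTower C K L] {A : Type*} [Group A] (cov : A →* (L ≃ₐ[C] L))

/-- the stabiliser of a norm -/
def stab (w : Nm C L) : Subgroup A where
  carrier := {a | ∀ f, w.v (cov a f) = w.v f}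
  mul_mem' := by
    intro a b ha hb f
    rw [map_mul]
    exact (ha _).trans (hb f)
  one_mem' := by
    intro f
    rw [map_one]
    rfl
  inv_mem' := by
    intro a ha f
    have h1 := ha (cov a⁻¹ f)
    rw [← h1, ← AlgEquiv.mul_apply, ← map_mul, mul_inv_cancel, map_one]
    rfl


/-- the action of the stabiliser on the residue field (ring automorphism) -/
noncomputable def thO (w : Nm C L) (a : stab cov w) : w.v.valuationSubring ≃+*
    w.v.valuationSubring where
  toFun f := ⟨cov a.1 f.1, by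
    have h := a.2 f.1
    rw [Valuation.mem_valuationSubring_iff, h]
    exact f.2⟩
  invFun f := ⟨cov a.1⁻¹ f.1, by
    have h := (inv_mem a.2 : a.1⁻¹ ∈ stab cov w) f.1
    rw [Valuation.mem_valuationSubring_iff, h]
    exact f.2⟩
  left_inv f := by
    apply Subtype.ext
    simp only
    rw [← AlgEquiv.mul_apply, ← map_mul, inv_mul_cancel, map_one]
    rfl
  right_inv f := by
    apply Subtype.ext
    simp only
    rw [← AlgEquiv.mul_apply, ← map_mul, mul_inv_cancel, map_one]
    rfl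
  map_mul' f g := Subtype.ext (map_mul (cov a.1) f.1 g.1)
  map_add' f g := Subtype.ext (map_add (cov a.1) f.1 g.1)

/-- the action of the stabiliser on the residue field -/
noncomputable def thR (w : Nm C L) (a : stab cov w) : kap w ≃+* kap w :=
  ResidueField.mapEquiv (thO cov w a)

theorem thR_red (w : Nm C L) (a : stab cov w) (f : L) :
    thR cov w a (red w f) = red w (cov a.1 f) := by
  have h := a.2 f
  by_cases hf : w.v f ≤ 1
  · rw [red_def w hf, red_def w (by rwa [h])]
    rfl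
  · rw [red_of_not w hf, red_of_not w (by rwa [h]), map_zero]

variable (v : Nm C K) (w : Nm C L) (hw : w.v.comap (algebraMap K L) = v.v)

/-- `kap v → kap w` as an algebra -/
@[reducible] noncomputable def kalg : Algebra (kap v) (kap w) := (kapMap v w hw).toAlgebra

theorem kalg_tower : @IsScalarTower (Ct C) (kap v) (kap w) _ (kalg v w hw).toSMul _ :=
  letI := kalg v w hw
  IsScalarTower.of_algebraMap_eq fun c => (kapMap_algebraMap v w hw c).symm

variable (hK : ∀ (a : A) (f : K), cov a (algebraMap K L f) = algebraMap K L f)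

include hK in
theorem thR_kapMap (a : stab cov w) (g : kap v) :
    thR cov w a (kapMap v w hw g) = kapMap v w hw g := by
  obtain ⟨f, -, rfl⟩ := red_surj v g
  rw [kapMap_red, thR_red, hK]

/-- the action of the stabiliser on the residue field, over `kap v` -/
noncomputable def th : letI := kalg v w hw
    stab cov w →* (kap w ≃ₐ[kap v] kap w) :=
  letI := kalg v w hw
  { toFun := fun a => AlgEquiv.ofRingEquiv (f := thR cov w a) (fun g => thR_kapMap cov v w hw hK a g)
    map_one' := by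
      apply AlgEquiv.ext
      intro g
      obtain ⟨f, -, rfl⟩ := red_surj w g
      change thR cov w 1 (red w f) = red w f
      rw [thR_red, Subgroup.coe_one, map_one]
      rfl
    map_mul' := by
      intro a b
      apply AlgEquiv.ext
      intro g
      obtain ⟨f, -, rfl⟩ := red_surj w g
      change thR cov w (a * b) (red w f) = thR cov w a (thR cov w b (red w f))
      rw [thR_red, thR_red, thR_red, Subgroup.coe_mul, map_mul]
      rfl }

theorem th_red (a : stab cov w) (f : L) :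
    letI := kalg v w hw
    th cov v w hw hK a (red w f) = red w (cov a.1 f) := thR_red cov w a f

variable [Fintype A]
  (hinv : ∀ f : L, (∀ a, cov a f = f) → f ∈ Set.range (algebraMap K L))


theorem red_sum {ι : Type*} (s : Finset ι) (g : ι → L) (h : ∀ i ∈ s, w.v (g i) ≤ 1) :
    w.v (∑ i ∈ s, g i) ≤ 1 ∧ red w (∑ i ∈ s, g i) = ∑ i ∈ s, red w (g i) := by
  classical
  induction s using Finset.induction_on with
  | empty => simp [red_zero]
  | insert i s hi ih =>
    have h1 := h i (Finset.mem_insert_self _ _)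
    obtain ⟨h2, h3⟩ := ih fun j hj => h j (Finset.mem_insert_of_mem hj)
    rw [Finset.sum_insert hi, Finset.sum_insert hi]
    exact ⟨(w.v.map_add _ _).trans (max_le h1 h2), by rw [red_add w h1 h2, h3]⟩

include hinv in
/-- **the invariants of the stabiliser in the residue field** -/
theorem th_inv (hnt : ∃ c : C, c ≠ 0 ∧ ‖c‖ ≠ 1) (hA : (Fintype.card A : Ct C) ≠ 0)
    (g : kap w) (hg : ∀ b : stab cov w, thR cov w b g = g) : g ∈ Set.range (kapMap v w hw) := by
  classical
  obtain ⟨f, hf, rfl⟩ := red_surj w g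
  -- approximation
  let W : Set (Valuation L ℝ≥0) := Set.range fun a : A => w.v.comap (cov a : L →+* L)
  haveI : Finite W := Set.finite_range _
  obtain ⟨f', hf'⟩ := LiftA_168.weak_approx (k := C) (K := L) (v0 := NormedField.valuation (K := C))
    (by
      obtain ⟨c, hc0, hc1⟩ := hnt
      refine ⟨c, (Valuation.ne_zero_iff _).mpr hc0, fun h => hc1 ?_⟩
      have h2 : ‖c‖₊ = 1 := h
      rw [← coe_nnnorm, h2, NNReal.coe_one])
    (fun W' : W => W'.1) Subtype.val_injective
    (by
      rintro ⟨_, a, rfl⟩ c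
      change w.v (cov a (algebraMap C L c)) = _
      rw [(cov a).commutes, w.hC]
      rfl)
    (fun W' => if W'.1 = w.v then f else 0) 1 zero_lt_one
  have h1 : ∀ a ∈ stab cov w, w.v (cov a f') ≤ 1 ∧ red w (cov a f') = red w f := by
    intro a ha
    have h2 := hf' ⟨w.v.comap (cov a : L →+* L), a, rfl⟩
    have h3 : w.v.comap (cov a : L →+* L) = w.v := by
      ext z
      exact congrArg _ (ha z)
    simp only [h3, if_true] at h2
    have h4 : w.v f' ≤ 1 := by
      have h5 : f' = (f' - f) + f := by ring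
      rw [h5]
      exact (w.v.map_add _ _).trans (max_le h2.le hf)
    refine ⟨by rwa [ha], ?_⟩
    rw [← thR_red cov w ⟨a, ha⟩, (red_eq_iff w h4 hf).mpr h2, hg]
  have h2 : ∀ a, a ∉ stab cov w → w.v (cov a f') < 1 := by
    intro a ha
    have h2 := hf' ⟨w.v.comap (cov a : L →+* L), a, rfl⟩
    have h3 : ¬ w.v.comap (cov a : L →+* L) = w.v := by
      intro h
      apply ha
      intro z
      exact DFunLike.congr_fun h z
    simp only [h3, if_false, sub_zero] at h2
    exact h2
  -- the trace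
  have htr : ∀ b, cov b (∑ a, cov a f') = ∑ a, cov a f' := by
    intro b
    rw [map_sum]
    refine Fintype.sum_equiv (Equiv.mulLeft b) _ _ fun a => ?_
    rw [Equiv.coe_mulLeft, map_mul]
    rfl
  obtain ⟨s, hs⟩ := hinv _ htr
  have h3 : ∀ a ∈ (Finset.univ : Finset A), w.v (cov a f') ≤ 1 := by
    intro a _
    by_cases ha : a ∈ stab cov w
    · exact (h1 a ha).1
    · exact (h2 a ha).le
  obtain ⟨h4, h5⟩ := red_sum w Finset.univ (fun a => cov a f') h3
  have h6 : ∑ a : A, red w (cov a f') = (Nat.card (stab cov w) : kap w) * red w f := by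
    rw [← Finset.sum_filter_add_sum_filter_not Finset.univ (fun a => a ∈ stab cov w)]
    rw [Finset.sum_congr rfl (g := fun _ => red w f) (fun a ha =>
      (h1 a (Finset.mem_filter.mp ha).2).2)]
    rw [Finset.sum_eq_zero (s := Finset.univ.filter fun a => ¬ a ∈ stab cov w) (fun a ha =>
      (red_eq_zero_iff w (h3 a (Finset.mem_univ _))).mpr (h2 a (Finset.mem_filter.mp ha).2))]
    rw [Finset.sum_const, nsmul_eq_mul, add_zero]
    congr 2
    rw [Nat.card_eq_fintype_card, Fintype.card_subtype]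
  have hn : (Nat.card (stab cov w) : kap w) ≠ 0 := by
    intro h
    apply hA
    obtain ⟨m, hm⟩ := Subgroup.card_subgroup_dvd_card (stab cov w)
    rw [Nat.card_eq_fintype_card (α := A)] at hm
    apply (algebraMap (Ct C) (kap w)).injective
    rw [map_natCast, map_zero, hm, Nat.cast_mul, h, zero_mul]
  refine ⟨((Nat.card (stab cov w) : ℕ) : kap v)⁻¹ * red v s, ?_⟩
  rw [map_mul, map_inv₀, map_natCast, kapMap_red, hs, h5, h6, inv_mul_cancel_left₀ hn]

end val

end Crest.Agent.R013.CI3_398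
end

-- ▼ part R013/CI4_398
section

/-!
# R013 / CARTINJ 4: Cartier injectivity on the `e`-part at a norm of a Kummer cover (helper398)

`L / K` with group `A`, `Y ∈ L`, `cov a Y = ζ a * Y`, `Y ^ N = h ∈ K`; `w` a norm of `L` over `v`;
the reduction of `h / g ^ N` at `v` comes from COUNT (or `kap v` has genus zero).
-/

set_option autoImplicit false
set_option linter.all false

namespace Crest.Agent.R013.CI4_398

open scoped NNReal
open Module IsLocalRing WithZero
open Crest.Agent.R013.Red332 Crest.Agent.R013.Kumv2_275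
open Crest.Agent.R013.RR1_948 Crest.Agent.R013.RR7_948 Crest.Agent.R013.RR8_948
open Crest.Agent.R013.RR9_948 Crest.Agent.R013.RR11_948 Crest.Agent.R013.RR12_948
open Crest.Agent.R013.RR13_948 Crest.Agent.R013.RR14_948 Crest.Agent.R013.RR18_948
open Crest.Agent.R013.RR19_948 Crest.Agent.R013.RR21_948 Crest.Agent.R013.RR22_948
open Crest.Agent.R013.Car1_700 Crest.Agent.R013.Car2_700 Crest.Agent.R013.Car5_700
open Crest.Agent.R013.Car6_700
open Crest.Agent.R013.PicD_398 Crest.Agent.R013.CntF6_398 Crest.Agent.R013.CI1_398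
open Crest.Agent.R013.CI2_398 Crest.Agent.R013.CI3_398

/-- algebraically closed constants: roots of constants are constants -/
theorem root_const {k F : Type*} [Field k] [Field F] [Algebra k F] [IsAlgClosed k] {n : ℕ}
    (hn : 0 < n) {y : F} {c : k} (h : y ^ n = algebraMap k F c) : ∃ d : k, y = algebraMap k F d := by
  have hint : IsIntegral k y := ⟨Polynomial.X ^ n - Polynomial.C c,
    Polynomial.monic_X_pow_sub_C c hn.ne', by simp [h]⟩
  obtain ⟨d, hd⟩ := minpoly.mem_range_of_degree_eq_one k y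
    (IsAlgClosed.degree_eq_one_of_irreducible k (minpoly.irreducible hint))
  exact ⟨d, hd.symm⟩

section main

variable (p : ℕ) [hp : Fact p.Prime] {C : Type*} [NormedField C] [IsUltrametricDist C]
  [IsAlgClosed (Ct C)] [CharP (Ct C) p]
  {K L : Type*} [Field K] [Field L] [Algebra C K] [Algebra K L] [Algebra C L]
  [IsScalarTower C K L] {A : Type*} [Group A] [Fintype A] (cov : A →* (L ≃ₐ[C] L))
  (v : Nm C K) (w : Nm C L) (hw : w.v.comap (algebraMap K L) = v.v)
  (hK : ∀ (a : A) (f : K), cov a (algebraMap K L f) = algebraMap K L f)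
  (hinv : ∀ f : L, (∀ a, cov a f = f) → f ∈ Set.range (algebraMap K L))
  (hnt : ∃ c : C, c ≠ 0 ∧ ‖c‖ ≠ 1) (hA : ¬ p ∣ Fintype.card A)

include hA in
theorem hA' : (Fintype.card A : Ct C) ≠ 0 := by
  rw [Ne, CharP.cast_eq_zero_iff (Ct C) p]
  exact hA

variable {Y : L} (hY0 : Y ≠ 0) {ζ : A → C} (hY : ∀ a, cov a Y = algebraMap C L (ζ a) * Y)

include hY0 hY in
theorem zeta_one : ζ 1 = 1 := by
  have h1 := hY 1
  rw [map_one] at h1
  have h2 : algebraMap C L (ζ 1) * Y = 1 * Y := by rw [one_mul, ← h1]; rfl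
  apply (algebraMap C L).injective
  rw [mul_right_cancel₀ hY0 h2, map_one]

include hY0 hY in
theorem zeta_mul (a b : A) : ζ (a * b) = ζ a * ζ b := by
  have h1 := hY (a * b)
  rw [map_mul] at h1
  have h2 : algebraMap C L (ζ (a * b)) * Y = algebraMap C L (ζ a * ζ b) * Y := by
    rw [← h1, AlgEquiv.mul_apply, hY b, map_mul, (cov a).commutes, hY a, map_mul]
    ring
  exact (algebraMap C L).injective (mul_right_cancel₀ hY0 h2)

include hY0 hY in
theorem zeta_pow (a : A) : ζ a ^ Fintype.card A = 1 := by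
  have h1 : ∀ n : ℕ, ζ (a ^ n) = ζ a ^ n := by
    intro n
    induction n with
    | zero => rw [pow_zero, pow_zero, zeta_one cov hY0 hY]
    | succ n ih => rw [pow_succ, pow_succ, zeta_mul cov hY0 hY, ih]
  rw [← h1, pow_card_eq_one, zeta_one cov hY0 hY]

include hY0 hY in
theorem norm_zeta (a : A) : ‖ζ a‖₊ = 1 := by
  have h1 := congrArg nnnorm (zeta_pow cov hY0 hY a)
  rw [nnnorm_pow, nnnorm_one] at h1
  exact (pow_eq_one_iff_of_nonneg zero_le Fintype.card_ne_zero).mp h1

variable {χ : A →* (Ct C)ˣ} (hχ : ∀ a, ((χ a : (Ct C)ˣ) : Ct C) * rc (ζ a) = 1)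

variable {g : K} (hg : g ≠ 0) {N : ℕ} (hN : N ≠ 0) {h : K} (hYN : Y ^ N = algebraMap K L h)
  (hgv : v.v (h / g ^ N) = 1)

include hw hg hN hYN hgv in
theorem w_Y : w.v (Y / algebraMap K L g) = 1 := by
  have h1 : w.v (Y / algebraMap K L g) ^ N = 1 := by
    rw [← map_pow, div_pow, hYN, ← map_pow, ← map_div₀]
    have h2 : w.v (algebraMap K L (h / g ^ N)) = v.v (h / g ^ N) := DFunLike.congr_fun hw _
    rw [h2, hgv]
  exact (pow_eq_one_iff_of_nonneg zero_le hN).mp h1

include hw hg hN hYN hgv in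
theorem red_Y_pow : red w (Y / algebraMap K L g) ^ N = kapMap v w hw (red v (h / g ^ N)) := by
  rw [← red_pow w (w_Y v w hw hg hN hYN hgv).le, kapMap_red, div_pow, hYN, ← map_pow, ← map_div₀]

include hY0 hY hK hχ hw hg hN hYN hgv in
theorem th_Y (b : stab cov w) : algebraMap (Ct C) (kap w) (χ b.1) *
    thR cov w b (red w (Y / algebraMap K L g)) = red w (Y / algebraMap K L g) := by
  have h1 := norm_zeta cov hY0 hY b.1
  rw [thR_red, map_div₀, hK, hY, mul_div_assoc,
    red_mul w (by rw [w.hC, h1]) (w_Y v w hw hg hN hYN hgv).le, red_C w _ h1.le, ← mul_assoc,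
    ← map_mul, hχ, map_one, one_mul]

section field

variable [Algebra (RatFunc (Ct C)) (kap v)] [IsScalarTower (Ct C) (RatFunc (Ct C)) (kap v)]
  [FiniteDimensional (RatFunc (Ct C)) (kap v)] [Algebra.IsSeparable (RatFunc (Ct C)) (kap v)]
  [Algebra (RatFunc (Ct C)) (kap w)] [IsScalarTower (Ct C) (RatFunc (Ct C)) (kap w)]
  [FiniteDimensional (RatFunc (Ct C)) (kap w)] [Algebra.IsSeparable (RatFunc (Ct C)) (kap w)]
  (hT : ∀ r, algebraMap (RatFunc (Ct C)) (kap w) r =
    kapMap v w hw (algebraMap (RatFunc (Ct C)) (kap v) r))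
  (e : A → Ct C) (s : Finset ℕ) (c : ℕ → Ct C)
  (he : ∀ a, e a = ∑ j ∈ s, c j * (((χ a)⁻¹ : (Ct C)ˣ) : Ct C) ^ p ^ j)




end field

/-- the character -/
theorem exists_chi (hA : ¬ p ∣ Fintype.card A) (hY0 : Y ≠ 0)
    (hY : ∀ a, cov a Y = algebraMap C L (ζ a) * Y) :
    ∃ χ : A →* (Ct C)ˣ, (∀ a, ((χ a : (Ct C)ˣ) : Ct C) * rc (ζ a) = 1) ∧
      ∀ a, χ a = 1 → ζ a = 1 := by
  have h1 : ∀ a, ‖ζ a‖₊ ≤ 1 := fun a => (norm_zeta cov hY0 hY a).le
  have h0 : ∀ a, rc (ζ a) ≠ 0 := by
    intro a h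
    rw [rc_eq_zero_iff (h1 a), norm_zeta cov hY0 hY a] at h
    exact lt_irrefl _ h
  refine ⟨{ toFun := fun a => (Units.mk0 (rc (ζ a)) (h0 a))⁻¹
            map_one' := ?_
            map_mul' := ?_ }, ?_, ?_⟩
  · rw [inv_eq_one]
    apply Units.ext
    rw [Units.val_mk0, zeta_one cov hY0 hY, rc_one, Units.val_one]
  · intro a b
    rw [← mul_inv]
    congr 1
    apply Units.ext
    rw [Units.val_mul, Units.val_mk0, Units.val_mk0, Units.val_mk0, zeta_mul cov hY0 hY,
      rc_mul (h1 a) (h1 b)]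
  · intro a
    change (((Units.mk0 (rc (ζ a)) (h0 a))⁻¹ : (Ct C)ˣ) : Ct C) * rc (ζ a) = 1
    exact (Units.mk0 (rc (ζ a)) (h0 a)).inv_mul
  · intro a h
    have h2 : (Units.mk0 (rc (ζ a)) (h0 a))⁻¹ = 1 := h
    rw [inv_eq_one] at h2
    have h3 : rc (ζ a) = 1 := congrArg Units.val h2
    -- `ζ ^ n = 1` and `rc ζ = 1`
    set n := Fintype.card A with hn
    have h4 : (∑ i ∈ Finset.range n, ζ a ^ i) * (ζ a - 1) = 0 := by
      rw [geom_sum_mul, zeta_pow cov hY0 hY, sub_self]
    rcases mul_eq_zero.mp h4 with h5 | h5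
    · exfalso
      have h6 : ∀ m : ℕ, ‖∑ i ∈ Finset.range m, ζ a ^ i‖₊ ≤ 1 ∧
          rc (∑ i ∈ Finset.range m, ζ a ^ i) = (m : Ct C) := by
        intro m
        induction m with
        | zero => simp [rc_zero]
        | succ m ih =>
          have h7 : ‖ζ a ^ m‖₊ ≤ 1 := by
            rw [nnnorm_pow]
            exact pow_le_one' (h1 a) m
          have h8 : rc (ζ a ^ m) = 1 := by
            clear ih h7
            induction m with
            | zero => rw [pow_zero, rc_one]
            | succ m ih =>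
              rw [pow_succ, rc_mul (by rw [nnnorm_pow]; exact pow_le_one' (h1 a) m) (h1 a), ih, h3,
                one_mul]
          rw [Finset.sum_range_succ]
          refine ⟨(IsUltrametricDist.nnnorm_add_le_max _ _).trans (max_le ih.1 h7), ?_⟩
          rw [rc_add ih.1 h7, ih.2, h8, Nat.cast_succ]
      have h7 := (h6 n).2
      rw [h5, rc_zero] at h7
      apply hA
      exact (CharP.cast_eq_zero_iff (Ct C) p n).mp h7.symm
    · exact sub_eq_zero.mp h5

end main

end Crest.Agent.R013.CI4_398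
end

-- ▼ part R013/A2a_398
section

/-!
# R013 / C-A2, part a (helper398): COUNT data without coordinates, vertex data, Cartier injectivity
`CInj` (359) at every norm of a field over the Kummer cover.
-/

set_option autoImplicit false
set_option linter.all false

namespace Crest.Agent.R013.A2_398

open scoped NNReal
open Module IsLocalRing WithZero
open Crest.Agent.R013.Red332 Crest.Agent.R013.Kumv2_275
open Crest.Agent.R013.RR1_948 Crest.Agent.R013.RR7_948 Crest.Agent.R013.RR8_948
open Crest.Agent.R013.RR9_948 Crest.Agent.R013.RR11_948 Crest.Agent.R013.RR12_948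
open Crest.Agent.R013.RR13_948 Crest.Agent.R013.RR14_948 Crest.Agent.R013.RR18_948
open Crest.Agent.R013.RR19_948 Crest.Agent.R013.RR21_948 Crest.Agent.R013.RR22_948
open Crest.Agent.R013.Car1_700 Crest.Agent.R013.Car2_700 Crest.Agent.R013.Car5_700
open Crest.Agent.R013.Car6_700
open Crest.Agent.R013.PicD_398 Crest.Agent.R013.CntF6_398 Crest.Agent.R013.CI1_398
open Crest.Agent.R013.CI2_398 Crest.Agent.R013.CI3_398 Crest.Agent.R013.CI4_398
open Crest.Agent.R013.GR3_921

/-! ### coordinate free COUNT data -/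

/-- COUNT data on `κ / k`, without coordinate: `div u = n E`, `E` has exact order `n`,
no exact differential vanishes on `p ^ (j + 1) E`. -/
def Count (k κ : Type*) [Field k] [Field κ] [Algebra k κ] (p n : ℕ) (u : κ) : Prop :=
  u ≠ 0 ∧ ∃ E : Pl k κ →₀ ℤ, (∀ P : Pl k κ, P.v u = exp (-((n : ℤ) * E P))) ∧
    (∀ m : ℕ, (∃ f : κ, f ≠ 0 ∧ ∀ P : Pl k κ, P.v f = exp (-((m : ℤ) * E P))) → n ∣ m) ∧
    ∀ (D : Derivation k κ κ) (j : ℕ) (f : κ), (∀ (P : Pl k κ) (t : κ), P.v t = exp (-1) →
      P.v (D f) ≤ P.v (D t) * exp (-(p ^ (j + 1) * E P))) → D f = 0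

section count

variable {k κ : Type*} [Field k] [Field κ] [Algebra k κ] [Algebra (RatFunc k) κ]
  [IsScalarTower k (RatFunc k) κ] [FiniteDimensional (RatFunc k) κ]
  [Algebra.IsSeparable (RatFunc k) κ]

theorem der_eq (D : Derivation k κ κ) (f : κ) : D f = D (xK k κ) * del k κ f := by
  have h1 : ∀ g, D.liftKaehlerDifferential (KaehlerDifferential.D k κ g) = D g := fun g =>
    D.liftKaehlerDifferential_comp_D g
  rw [← h1 f, D_eq, map_smul, h1, smul_eq_mul, mul_comm]

theorem divf_eq_smul_iff {u : κ} (hu : u ≠ 0) (n : ℕ) (E : Pl k κ →₀ ℤ) :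
    divf (k := k) u = n • E ↔ ∀ P : Pl k κ, P.v u = exp (-((n : ℤ) * E P)) := by
  constructor
  · intro h P
    rw [RR11_948.v_eq hu P, h, Finsupp.smul_apply, nsmul_eq_mul]
  · intro h
    ext P
    have h1 := h P
    rw [RR11_948.v_eq hu P, exp_inj] at h1
    rw [Finsupp.smul_apply, nsmul_eq_mul]
    omega

theorem count_of_out (p : ℕ) [hp : Fact p.Prime] [IsAlgClosed k] (h : OutC p k κ) :
    ∃ (n : ℕ) (u : κ), 2 ≤ n ∧ n.Coprime p ∧ Count k κ p n u := by
  obtain ⟨N, E, u, hN, hNp, hu, hdiv, hord, hd⟩ := h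
  refine ⟨N, u, hN, hNp, hu, E, (divf_eq_smul_iff hu N E).mp hdiv, ?_, ?_⟩
  · rintro m ⟨f, hf, hfm⟩
    apply hord m
    rw [← (divf_eq_smul_iff hf m E).mpr hfm]
    exact cls_divf hf
  · intro D j f h
    by_cases hD : D (xK k κ) = 0
    · rw [der_eq, hD, zero_mul]
    · rw [der_eq, hd j f ?_, mul_zero]
      intro P t ht
      have h1 := h P t ht
      rw [der_eq D f, der_eq D t, map_mul, map_mul, mul_assoc] at h1
      have h2 : P.v (D (xK k κ)) ≠ 0 := (Valuation.ne_zero_iff _).mpr hD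
      exact (mul_le_mul_iff_right₀ (zero_lt_iff.mpr h2)).mp h1

end count

/-! ### vertex data -/

/-- **vertex data** of `h ∈ K` (exponent `N`) at the norm `v` -/
def VDat {C : Type*} [NormedField C] [IsUltrametricDist C] {K : Type*} [Field K] [Algebra C K]
    (p N : ℕ) (h : K) (v : Nm C K) : Prop :=
  ∃ g : K, g ≠ 0 ∧ v.v (h / g ^ N) = 1 ∧
    ((HasGen (Ct C) (kap v) 0 ∧ red v (h / g ^ N) = 1) ∨
    ∃ (n M : ℕ) (u : kap v), 2 ≤ n ∧ n.Coprime p ∧ M ≠ 0 ∧ N = n * M ∧
      red v (h / g ^ N) = u ^ M ∧ Count (Ct C) (kap v) p n u)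

section main

variable (p : ℕ) [hp : Fact p.Prime] {C : Type*} [NormedField C] [IsUltrametricDist C]
  [IsAlgClosed (Ct C)] [CharP (Ct C) p]
  {K L : Type*} [Field K] [Field L] [Algebra C K] [Algebra K L] [Algebra C L]
  [IsScalarTower C K L] {A : Type*} [Group A] [Fintype A] (cov : A →* (L ≃ₐ[C] L))
  (v : Nm C K) (w : Nm C L) (hw : w.v.comap (algebraMap K L) = v.v)
  (hK : ∀ (a : A) (f : K), cov a (algebraMap K L f) = algebraMap K L f)
  (hinvR : ∀ z : kap w, (∀ b : stab cov w, thR cov w b z = z) → z ∈ Set.range (kapMap v w hw))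
  (hA : ¬ p ∣ Fintype.card A)
  {Y : L} (hY0 : Y ≠ 0) {ζ : A → C} (hY : ∀ a, cov a Y = algebraMap C L (ζ a) * Y)
  {χ : A →* (Ct C)ˣ} (hχ : ∀ a, ((χ a : (Ct C)ˣ) : Ct C) * rc (ζ a) = 1)
  (hinj : Function.Injective χ)
  {N : ℕ} (hN : N ≠ 0) {h : K} (hYN : Y ^ N = algebraMap K L h)

include hw hK hY0 hY hχ hYN in
/-- at a vertex of genus zero the stabiliser is trivial -/
theorem stab_trivial (hN : N ≠ 0) (hinj : Function.Injective χ) {g : K} (hg : g ≠ 0)
    (hgv : v.v (h / g ^ N) = 1) (hred : red v (h / g ^ N) = 1) (b : stab cov w) : (b : A) = 1 := by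
  have h1 := red_Y_pow v w hw hg hN hYN hgv
  rw [hred, map_one, ← map_one (algebraMap (Ct C) (kap w))] at h1
  obtain ⟨d, hd⟩ := root_const (Nat.pos_of_ne_zero hN) h1
  have h2 := th_Y cov v w hw hK hY0 hY hχ hg hN hYN hgv b
  have hy : red w (Y / algebraMap K L g) ≠ 0 := red_ne_zero w (w_Y v w hw hg hN hYN hgv)
  have h3 : thR cov w b (red w (Y / algebraMap K L g)) = red w (Y / algebraMap K L g) := by
    rw [hd, ← kapMap_algebraMap v w hw, thR_kapMap cov v w hw hK]
  rw [h3] at h2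
  have h4 : algebraMap (Ct C) (kap w) (χ b.1) = 1 := mul_right_cancel₀ hy (by rw [h2, one_mul])
  have h5 : ((χ b.1 : (Ct C)ˣ) : Ct C) = 1 := by
    apply (algebraMap (Ct C) (kap w)).injective
    rw [h4, map_one]
  apply hinj
  rw [map_one]
  exact Units.ext h5

include hK hY0 hY hχ hYN in
/-- the root of `u`, normalised -/
theorem exists_y {g : K} (hg : g ≠ 0) (hgv : v.v (h / g ^ N) = 1) {n M : ℕ} (hM : M ≠ 0)
    (hn : n ≠ 0) (hNM : N = n * M) {u : kap v} (hu : u ≠ 0) (hred : red v (h / g ^ N) = u ^ M) :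
    ∃ y : kap w, y ^ n = kapMap v w hw u ∧
      ∀ b : stab cov w, algebraMap (Ct C) (kap w) (χ b.1) * thR cov w b y = y := by
  have hN : N ≠ 0 := by rw [hNM]; exact mul_ne_zero hn hM
  set y₀ := red w (Y / algebraMap K L g) with hy₀
  have h1 : y₀ ^ N = kapMap v w hw (u ^ M) := by
    rw [hy₀, red_Y_pow v w hw hg hN hYN hgv, hred]
  have hu' : kapMap v w hw u ≠ 0 := by rwa [Ne, map_eq_zero]
  have h2 : (y₀ ^ n / kapMap v w hw u) ^ M = algebraMap (Ct C) (kap w) 1 := by
    rw [div_pow, ← pow_mul, ← hNM, h1, map_pow, div_self (pow_ne_zero _ hu'), map_one]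
  obtain ⟨d, hd⟩ := root_const (Nat.pos_of_ne_zero hM) h2
  obtain ⟨d', hd'⟩ := IsAlgClosed.exists_pow_nat_eq d (Nat.pos_of_ne_zero hn)
  have h3 : y₀ ^ n ≠ 0 := by
    intro h4
    have h5 : (y₀ ^ n) ^ M = 0 := by rw [h4, zero_pow hM]
    rw [← pow_mul, ← hNM, h1, map_pow] at h5
    exact hu' (pow_eq_zero_iff hM |>.mp h5)
  refine ⟨y₀ / algebraMap (Ct C) (kap w) d', ?_, ?_⟩
  · rw [div_pow, ← map_pow, hd', ← hd, div_div_cancel₀ h3]
  · intro b
    have h3 := th_Y cov v w hw hK hY0 hY hχ hg hN hYN hgv b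
    rw [map_div₀, ← kapMap_algebraMap v w hw d', thR_kapMap cov v w hw hK, ← mul_div_assoc]
    congr 1

include hK hinvR hY0 hY hχ hYN in
/-- at a vertex with COUNT data the character is nontrivial on the stabiliser -/
theorem exists_chi_ne_one {g : K} (hg : g ≠ 0) (hgv : v.v (h / g ^ N) = 1) {n M : ℕ} (hM : M ≠ 0)
    (hn : 2 ≤ n) (hNM : N = n * M) {u : kap v} (hred : red v (h / g ^ N) = u ^ M)
    (hc : Count (Ct C) (kap v) p n u) : ∃ b ∈ stab cov w, χ b ≠ 1 := by
  obtain ⟨hu, E, hE, hord, -⟩ := hc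
  obtain ⟨y, hy, hyb⟩ := exists_y cov v w hw hK hY0 hY hχ hYN hg hgv hM (by omega) hNM hu hred
  by_contra hcon
  push Not at hcon
  have h1 : y ∈ Set.range (kapMap v w hw) := by
    apply hinvR
    intro b
    have h2 := hyb b
    rwa [hcon b.1 b.2, Units.val_one, map_one, one_mul] at h2
  obtain ⟨x, rfl⟩ := h1
  have h2 : x ^ n = u := (kapMap v w hw).injective (by rw [map_pow, hy])
  have hx : x ≠ 0 := by
    rintro rfl
    rw [zero_pow (by omega)] at h2
    exact hu h2.symm
  have h3 : n ∣ 1 := by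
    apply hord 1
    refine ⟨x, hx, fun P => ?_⟩
    have h4 := hE P
    rw [← h2, map_pow] at h4
    have hPx : P.v x ≠ 0 := (Valuation.ne_zero_iff _).mpr hx
    have h5 : P.v x = exp (log (P.v x)) := (exp_log hPx).symm
    rw [h5, ← exp_nsmul, exp_inj, nsmul_eq_mul] at h4
    rw [h5, exp_inj]
    have hn0 : (n : ℤ) ≠ 0 := by omega
    apply mul_left_cancel₀ hn0
    rw [h4]
    push_cast
    ring
  have := Nat.le_of_dvd one_pos h3
  omega

include hK hinvR hY0 hY hχ hYN in
/-- the dichotomy at a vertex -/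
theorem stab_dichotomy (hN : N ≠ 0) (hinj : Function.Injective χ) (hV : VDat p N h v) :
    (HasGen (Ct C) (kap v) 0 ∧ ∀ b ∈ stab cov w, b = 1) ∨ ∃ b ∈ stab cov w, χ b ≠ 1 := by
  obtain ⟨g, hg, hgv, ⟨h1, h2⟩ | ⟨n, M, u, hn, hnp, hM, hNM, hred, hc⟩⟩ := hV
  · exact Or.inl ⟨h1, fun b hb => stab_trivial cov v w hw hK hY0 hY hχ hYN hN hinj hg hgv h2 ⟨b, hb⟩⟩
  · exact Or.inr (exists_chi_ne_one p cov v w hw hK hinvR hY0 hY hχ hYN hg hgv hM hn hNM hred hc)

/-! ### Cartier injectivity at a norm over the vertex -/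

include hK hinvR hA hY0 hY hχ hYN in
/-- **`CInj` at a norm `w` of `L` over a vertex `v` of `K`**, for the coordinate of `kap v` -/
theorem cinj (hN : N ≠ 0) (hinj : Function.Injective χ) (hV : VDat p N h v)
    (e : A → Ct C) (s : Finset ℕ) (c : ℕ → Ct C)
    (he : ∀ a, e a = ∑ j ∈ s, c j * (((χ a)⁻¹ : (Ct C)ˣ) : Ct C) ^ p ^ j)
    [iv : Algebra (RatFunc (Ct C)) (kap v)] [IsScalarTower (Ct C) (RatFunc (Ct C)) (kap v)]
    [FiniteDimensional (RatFunc (Ct C)) (kap v)] [Algebra.IsSeparable (RatFunc (Ct C)) (kap v)]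
    [Algebra (RatFunc (Ct C)) (kap w)] [IsScalarTower (Ct C) (RatFunc (Ct C)) (kap w)]
    [FiniteDimensional (RatFunc (Ct C)) (kap w)] [Algebra.IsSeparable (RatFunc (Ct C)) (kap w)]
    (hT : ∀ r, algebraMap (RatFunc (Ct C)) (kap w) r =
      kapMap v w hw (algebraMap (RatFunc (Ct C)) (kap v) r)) :
    M3_359.CInj p w cov e := by
  classical
  letI := kalg v w hw
  haveI := kalg_tower v w hw
  haveI : IsScalarTower (RatFunc (Ct C)) (kap v) (kap w) := IsScalarTower.of_algebraMap_eq hT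
  have hinvb : ∀ z : kap w, (∀ b, th cov v w hw hK b z = z) →
      z ∈ Set.range (algebraMap (kap v) (kap w)) := fun z hz => hinvR z hz
  intro F hR hC heF hθ
  -- a common exponent
  obtain ⟨m, hm⟩ : ∃ m, ∀ a, (CK p (Ct C) (kap w))^[m] (F a) = 0 := by
    choose m hm using hC
    refine ⟨∑ a, m a, fun a => ?_⟩
    have h1 : m a ≤ ∑ a, m a := Finset.single_le_sum (fun _ _ => Nat.zero_le _) (Finset.mem_univ a)
    obtain ⟨r, hr⟩ := Nat.exists_eq_add_of_le' h1
    rw [hr, Function.iterate_add_apply, hm, CK_iter_zero]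
  -- equivariance
  have hF : ∀ (b : stab cov w) (a : A), F (b * a) = th cov v w hw hK b (F a) := by
    intro b a
    have h1 := hθ b.1 b.2 ((th cov v w hw hK b).restrictScalars (Ct C))
      (fun f _ => th_red cov v w hw hK b f) a
    rw [h1]
    have h2 : ((th cov v w hw hK b).restrictScalars (Ct C)) (xK (Ct C) (kap w)) =
        xK (Ct C) (kap w) := by
      change th cov v w hw hK b (xK (Ct C) (kap w)) = xK (Ct C) (kap w)
      have h3 : xK (Ct C) (kap w) = algebraMap (kap v) (kap w) (xK (Ct C) (kap v)) := hT _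
      rw [h3, AlgEquiv.commutes]
    rw [h2, del_xK, mul_one]
    rfl
  -- left and right sums
  have he' : ∀ a b, e (a * b * a⁻¹) = e b := by
    intro a b
    rw [he, he]
    refine Finset.sum_congr rfl fun j _ => ?_
    rw [map_mul, map_mul, map_inv, mul_comm (χ a), mul_assoc, mul_inv_cancel, mul_one]
  have heF' : ∀ a, ∑ b, algebraMap (Ct C) (kap w) (e b) * F (b * a) = F a := by
    intro a
    conv_rhs => rw [← heF a]
    symm
    refine Fintype.sum_equiv (MulAut.conj a).toEquiv _ _ fun b => ?_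
    have h1 : (MulAut.conj a).toEquiv b = a * b * a⁻¹ := MulAut.conj_apply a b
    rw [h1, he', inv_mul_cancel_right, Algebra.smul_def]
  obtain ⟨g, hg, hgv, ⟨h1, h2⟩ | ⟨n, M, u, hn, hnp, hM, hNM, hred, hc⟩⟩ := hV
  · -- genus zero
    intro a
    have h3 := stab_trivial cov v w hw hK hY0 hY hχ hYN hN hinj hg hgv h2
    have hsurj : Function.Surjective (algebraMap (kap v) (kap w)) := by
      intro y
      apply hinvR y
      intro b
      have hb : b = 1 := Subtype.ext (h3 b)
      obtain ⟨f, -, rfl⟩ := red_surj w y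
      rw [hb, thR_red, Subgroup.coe_one, map_one]
      rfl
    let σ : kap v ≃ₐ[Ct C] kap w := AlgEquiv.ofBijective
      (IsScalarTower.toAlgHom (Ct C) (kap v) (kap w))
      ⟨(algebraMap (kap v) (kap w)).injective, hsurj⟩
    have h4 := gen_map σ algClosed_const
    exact eq_zero_of_gen (by rw [← h4, h1.eq_gen]) (hR a)
  · -- COUNT
    haveI := CI3_398.finiteDimensional (th cov v w hw hK) hinvb
    haveI := CI3_398.isGalois (th cov v w hw hK) hinvb
    obtain ⟨hu, E, hE, -, hord⟩ := hc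
    obtain ⟨y, hy, hyb⟩ := exists_y cov v w hw hK hY0 hY hχ hYN hg hgv hM (by omega) hNM hu hred
    intro a
    exact eq_zero_of_idem p hA (stab cov w) (th cov v w hw hK) hinvb (by omega) hnp hu
      ((divf_eq_smul_iff hu n E).mpr hE) (hord (del (Ct C) (kap v))) hy χ hyb e s c he F hF hR m hm
      heF' a

end main

end Crest.Agent.R013.A2_398
end

-- ▼ part R013/A2b_398
section

/-!
# R013 / C-A2, part b (helper398): existence of `(N, h)` with vertex data at every vertex of a
semistable structure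
-/

set_option autoImplicit false
set_option linter.all false

namespace Crest.Agent.R013.A2_398

open scoped NNReal
open Module IsLocalRing WithZero
open Crest.Agent.R013.Red332 Crest.Agent.R013.SSK_332
open Crest.Agent.R013.RR7_948 Crest.Agent.R013.RR8_948 Crest.Agent.R013.RR9_948
open Crest.Agent.R013.RR11_948 Crest.Agent.R013.CLiftN_903
open Crest.Agent.R013.PicD_398 Crest.Agent.R013.CntF6_398 Crest.Agent.R013.CntF7_398
open Crest.Agent.R013.GR3_921 Crest.Agent.R013.Cell_408

universe u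

section exists_data

variable (p : ℕ) [hp : Fact p.Prime] {k : Type*} [NontriviallyNormedField k] [CompleteSpace k]
  {C : Type*} [NormedField C] [IsUltrametricDist C] [NormedAlgebra k C]
  [Algebra.IsAlgebraic k C] [IsAlgClosed C] [IsAlgClosed (Ct C)] [CharP (Ct C) p]
  [Algebra (ZMod p) (Ct C)] [Algebra.IsAlgebraic (ZMod p) (Ct C)]
  {K : Type*} [Field K] [Algebra C K] [Algebra (RatFunc C) K] [IsScalarTower C (RatFunc C) K]
  [FiniteDimensional (RatFunc C) K] [Algebra.IsSeparable (RatFunc C) K]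

/-- COUNT at one vertex, genus zero included -/
theorem exists_vertex (S : SSK k C K) (v : S.V) :
    ∃ (n : ℕ) (u : kap (S.nm v)), n ≠ 0 ∧ n.Coprime p ∧ u ≠ 0 ∧
      (∀ P : Pl (Ct C) (kap (S.nm v)), ∃ m : ℤ, P.v u = exp (n * m)) ∧
      ((HasGen (Ct C) (kap (S.nm v)) 0 ∧ n = 1 ∧ u = 1) ∨
        (2 ≤ n ∧ Count (Ct C) (kap (S.nm v)) p n u)) := by
  obtain ⟨i, j, f, s⟩ := S.ff v
  by_cases hg : gen (Ct C) (kap (S.nm v)) = 0
  · refine ⟨1, 1, one_ne_zero, Nat.coprime_one_left p, one_ne_zero, fun P => ⟨0, ?_⟩, Or.inl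
      ⟨?_, rfl, rfl⟩⟩
    · rw [map_one, mul_zero, exp_zero]
    · rw [← hg]
      exact hasGen_gen _ _
  · obtain ⟨n, u, hn, hnp, hc⟩ := count_of_out p (count p (Nat.one_le_iff_ne_zero.mpr hg) :
      OutC p (Ct C) (kap (S.nm v)))
    refine ⟨n, u, by omega, hnp, hc.1, ?_, Or.inr ⟨hn, hc⟩⟩
    obtain ⟨-, E, hE, -⟩ := hc
    intro P
    exact ⟨-E P, by rw [hE P, mul_neg]⟩

/-- **C-A2 (1)**: `N` and `h` with vertex data at every vertex -/
theorem exists_data (S : SSK k C K) (hL : ∀ N : ℕ, N.Coprime p → LiftC C K N) :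
    ∃ (N : ℕ) (h : K), N ≠ 0 ∧ N.Coprime p ∧ h ≠ 0 ∧
      (∀ P : Pl C K, ∃ m : ℤ, P.v h = exp (N * m)) ∧
      (∀ d : S.Dir, ∃ m : ℤ, Red332.od (S.nm d.1) d.2 h = N * m) ∧
      ∀ v : S.V, VDat p N h (S.nm v) := by
  classical
  letI := S.fV
  choose n u hn hnp hu hdiv hcase using fun v => exists_vertex p S v
  set N : ℕ := ∏ v, n v with hN
  set M : S.V → ℕ := fun v => ∏ w ∈ Finset.univ.erase v, n w with hM
  have hNM : ∀ v, N = n v * M v := fun v =>
    (Finset.mul_prod_erase Finset.univ n (Finset.mem_univ v)).symm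
  have hN0 : N ≠ 0 := Finset.prod_ne_zero_iff.mpr fun v _ => hn v
  have hM0 : ∀ v, M v ≠ 0 := fun v => Finset.prod_ne_zero_iff.mpr fun w _ => hn w
  have hNp : N.Coprime p := Nat.Coprime.prod_left fun v _ => hnp v
  -- orders of `u ^ M`
  have hdiv' : ∀ v, ∀ P : Pl (Ct C) (kap (S.nm v)), ∃ m : ℤ, P.v (u v ^ M v) = exp (N * m) := by
    intro v P
    obtain ⟨m, hm⟩ := hdiv v P
    refine ⟨m, ?_⟩
    rw [map_pow, hm, ← exp_nsmul, hNM v, nsmul_eq_mul]
    congr 1
    push_cast
    ring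
  -- coordinates of the residue fields
  have hT : ∀ v : S.V, ∃ T : K, (S.nm v).v T ≤ 1 ∧ Transcendental (Ct C) (red (S.nm v) T) := by
    intro v
    obtain ⟨i, j, f, s⟩ := S.ff v
    obtain ⟨T, hT, hTx⟩ := red_surj (S.nm v) (xK (Ct C) (kap (S.nm v)))
    exact ⟨T, hT, by rw [hTx]; exact RR20_948.transcendental_xK⟩
  choose T hT1 hT2 using hT
  have hnt : ∃ π : C, π ≠ 0 ∧ ‖π‖ < 1 := by
    obtain ⟨x, hx0, hx1⟩ := NormedField.exists_norm_lt_one k
    refine ⟨algebraMap k C x, ?_, ?_⟩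
    · rw [Ne, map_eq_zero, ← norm_eq_zero]
      exact hx0.ne'
    · rw [norm_algebraMap']
      exact hx1
  obtain ⟨h, hh, hhP, hhv⟩ := cliftn (fun v => S.nm v) S.nm_inj hnt T hT1 hT2 N (hL N hNp)
    (fun v => u v ^ M v) (fun v => pow_ne_zero _ (hu v)) (by
      intro v Q hQ
      obtain ⟨i, j, f, s⟩ := S.ff v
      exact hdiv_of_pl N (u v ^ M v) (pow_ne_zero _ (hu v)) (hdiv' v) Q hQ)
  refine ⟨N, h, hN0, hNp, hh, hhP, ?_, ?_⟩
  · rintro ⟨v, x⟩
    obtain ⟨g, hg, hgv, hred⟩ := hhv v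
    obtain ⟨m, hm⟩ := hdiv' v x
    have h1 : h = (h / g ^ N) * g ^ N := (div_mul_cancel₀ _ (pow_ne_zero _ hg)).symm
    have h2 : h / g ^ N ≠ 0 := div_ne_zero hh (pow_ne_zero _ hg)
    have h3 : Red332.od (S.nm v) x h = Red332.od (S.nm v) x (h / g ^ N) +
        N * Red332.od (S.nm v) x g := by
      conv_lhs => rw [h1]
      rw [od_mul x h2 (pow_ne_zero _ hg), od_pow x hg]
    refine ⟨-m + Red332.od (S.nm v) x g, ?_⟩
    rw [h3, od_of_one x hgv, hred, hm, log_exp]
    ring
  · intro v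
    obtain ⟨g, hg, hgv, hred⟩ := hhv v
    refine ⟨g, hg, hgv, ?_⟩
    rcases hcase v with ⟨h1, h2, h3⟩ | ⟨h1, h2⟩
    · refine Or.inl ⟨h1, ?_⟩
      rw [hred, h3, one_pow]
    · exact Or.inr ⟨n v, M v, u v, h1, hnp v, hM0 v, hNM v, hred, h2⟩

end exists_data

end Crest.Agent.R013.A2_398
end

-- ▼ part R013/Idem_398
section

/-!
# R013 / IDEM (helper398): the idempotent of `ℤ_p[A]` of the Frobenius orbit of a character

`k` field of characteristic `p`, `A` finite group of order prime to `p`, `χ : A →* kˣ`.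
There is a convolution idempotent `c : A → ℤ_[p]`, `c ≠ 0`, killing every coset sum of a
subgroup on which `χ` is nontrivial, whose reduction mod `p` is
`|A|⁻¹ ∑_{j < f} χ(a)^(-p^j)`.
-/

set_option autoImplicit false
set_option linter.all false

namespace Crest.Agent.R013.Idem_398

open WittVector

variable (p : ℕ) [hp : Fact p.Prime] (k : Type*) [Field k] [CharP k p]

/-- `ℤ_p → W(k)` -/
noncomputable def zw : ℤ_[p] →+* WittVector p k :=
  (WittVector.map (ZMod.castHom (dvd_refl p) k)).comp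
    (WittVector.equiv p).symm.toRingHom

theorem zw_injective : Function.Injective (zw p k) := by
  unfold zw
  intro x y h
  apply (WittVector.equiv p).symm.injective
  exact WittVector.map_injective (p := p) _ (ZMod.castHom (dvd_refl p) k).injective h

/-- Frobenius fixed Witt vectors -/
theorem exists_zw {x : WittVector p k} (hx : WittVector.frobenius x = x) : ∃ z, zw p k z = x := by
  have h1 : ∀ n, ∃ a : ZMod p, ZMod.castHom (dvd_refl p) k a = x.coeff n := by
    intro n
    have h2 : x.coeff n ^ p = x.coeff n := by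
      rw [← WittVector.coeff_frobenius_charP, hx]
    have h3 : x.coeff n ∈ (⊥ : Subfield k) := (Subfield.mem_bot_iff_pow_eq_self k p).mpr h2
    rw [← ZMod.fieldRange_castHom_eq_bot p] at h3
    exact h3
  choose a ha using h1
  refine ⟨WittVector.equiv p (WittVector.mk p a), ?_⟩
  unfold zw
  rw [RingHom.comp_apply]
  have h2 : (WittVector.equiv p).symm.toRingHom (WittVector.equiv p (WittVector.mk p a)) =
      WittVector.mk p a := (WittVector.equiv p).symm_apply_apply _
  rw [h2]
  ext n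
  rw [WittVector.map_coeff, WittVector.coeff_mk, ha]

/-- ring homomorphisms from `ℤ_p` to a ring of characteristic `p` -/
theorem hom_eq (f : ℤ_[p] →+* k) (z : ℤ_[p]) :
    f z = ZMod.castHom (dvd_refl p) k (PadicInt.toZMod z) := by
  have h1 : z - (z.zmodRepr : ℤ_[p]) ∈ IsLocalRing.maximalIdeal ℤ_[p] := z.sub_zmodRepr_mem
  rw [PadicInt.maximalIdeal_eq_span_p, Ideal.mem_span_singleton] at h1
  obtain ⟨t, ht⟩ := h1
  have h2 : z = (z.zmodRepr : ℤ_[p]) + p * t := by rw [← ht]; ring
  have h3 : f z = (z.zmodRepr : k) := by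
    conv_lhs => rw [h2]
    rw [map_add, map_mul, map_natCast, map_natCast, CharP.cast_eq_zero k p, zero_mul, add_zero]
  rw [h3]
  have h4 : PadicInt.toZMod z = (z.zmodRepr : ZMod p) := rfl
  rw [h4, map_natCast]

variable {p k}

section char

variable {A : Type*} [Group A] [Fintype A]

/-- the period of the Frobenius orbit -/
theorem exists_period (hA : ¬ p ∣ Fintype.card A) (χ : A →* kˣ) :
    ∃ f : ℕ, 0 < f ∧ (∀ a, χ a ^ p ^ f = χ a) ∧
      ∀ i < f, ∀ j < f, (∀ a, χ a ^ p ^ i = χ a ^ p ^ j) → i = j := by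
  classical
  have hex : ∃ f : ℕ, 0 < f ∧ ∀ a, χ a ^ p ^ f = χ a := by
    refine ⟨(Fintype.card A).totient, Nat.totient_pos.mpr Fintype.card_pos, ?_⟩
    intro a
    have h1 : p ^ (Fintype.card A).totient ≡ 1 [MOD Fintype.card A] :=
      Nat.ModEq.pow_totient ((Nat.Prime.coprime_iff_not_dvd hp.out).mpr hA)
    have h2 : χ a ^ Fintype.card A = 1 := by rw [← map_pow, pow_card_eq_one, map_one]
    have h3 : Fintype.card A ∣ p ^ (Fintype.card A).totient - 1 :=
      (Nat.modEq_iff_dvd' (Nat.one_le_pow _ _ hp.out.pos)).mp h1.symm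
    obtain ⟨t, ht⟩ := h3
    have h4 : p ^ (Fintype.card A).totient = Fintype.card A * t + 1 := by
      have := Nat.one_le_pow (Fintype.card A).totient p hp.out.pos
      omega
    rw [h4, pow_add, pow_mul, h2, one_pow, one_mul, pow_one]
  refine ⟨Nat.find hex, (Nat.find_spec hex).1, (Nat.find_spec hex).2, ?_⟩
  -- injectivity of Frobenius
  have hinj : ∀ (i : ℕ) (x y : kˣ), x ^ p ^ i = y ^ p ^ i → x = y := by
    intro i x y h
    apply Units.ext
    have h1 : ((x : k) - y) ^ p ^ i = 0 := by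
      rw [sub_pow_char_pow]
      have h2 := congrArg (fun z : kˣ => (z : k)) h
      simp only [Units.val_pow_eq_pow_val] at h2
      rw [h2, sub_self]
    exact sub_eq_zero.mp ((pow_eq_zero_iff (pow_ne_zero _ hp.out.ne_zero)).mp h1)
  have key : ∀ i j, i < j → j < Nat.find hex → ¬ ∀ a, χ a ^ p ^ i = χ a ^ p ^ j := by
    intro i j hij hj h
    apply Nat.find_min hex (m := j - i) (by omega)
    refine ⟨by omega, fun a => ?_⟩
    apply hinj i
    rw [← pow_mul, ← pow_add, Nat.sub_add_cancel hij.le]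
    exact (h a).symm
  intro i hi j hj h
  rcases lt_trichotomy i j with h1 | h1 | h1
  · exact absurd h (key i j h1 hj)
  · exact h1
  · exact absurd (fun a => (h a).symm) (key j i h1 hi)

/-- the Teichmüller character -/
noncomputable def tch (p : ℕ) [Fact p.Prime] {k : Type*} [Field k] [CharP k p]
    {A : Type*} [Group A] (χ : A →* kˣ) : A →* WittVector p k :=
  (WittVector.teichmuller p).comp ((Units.coeHom k).comp χ)

theorem tch_apply (χ : A →* kˣ) (a : A) :
    tch p χ a = WittVector.teichmuller p ((χ a : kˣ) : k) := rfl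

theorem tch_pow (χ : A →* kˣ) (a : A) (n : ℕ) :
    tch p χ a ^ n = WittVector.teichmuller p (((χ a) ^ n : kˣ) : k) := by
  rw [tch_apply, ← map_pow, Units.val_pow_eq_pow_val]

theorem teich_inj {x y : k} (h : WittVector.teichmuller p x = WittVector.teichmuller p y) :
    x = y := by
  rw [← WittVector.teichmuller_coeff_zero p x, h, WittVector.teichmuller_coeff_zero]

theorem frob_tch (χ : A →* kˣ) (a : A) (j : ℕ) :
    WittVector.frobenius (tch p χ a ^ p ^ j) = tch p χ a ^ p ^ (j + 1) := by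
  rw [tch_pow, tch_pow, WittVector.frobenius_eq_map_frobenius, WittVector.map_teichmuller,
    frobenius_def, pow_succ, pow_mul (χ a), Units.val_pow_eq_pow_val _ p]

/-- orthogonality on a subgroup -/
theorem sum_eq_zero {B : Type*} [Group B] [Fintype B] (φ : B →* WittVector p k)
    (h : ∃ b, φ b ≠ 1) : ∑ b, φ b = 0 := by
  apply sum_hom_units_eq_zero
  rintro rfl
  obtain ⟨b, hb⟩ := h
  exact hb rfl

/-- the convolution computation, in any commutative ring -/
theorem conv_idem {R : Type*} [CommRing R] {A : Type*} [Group A] [Fintype A] (ψ : A →* R) (r : R)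
    (q : ℕ → ℕ) (f : ℕ) (hr : (Fintype.card A : R) * r = 1)
    (hd : ∀ i < f, ∀ j < f, i ≠ j → ∑ b, ψ b⁻¹ ^ q i * ψ b ^ q j = 0)
    (hs : ∀ i, ∑ b : A, ψ b⁻¹ ^ q i * ψ b ^ q i = (Fintype.card A : R)) (a : A) :
    ∑ b, (r * ∑ j ∈ Finset.range f, ψ b⁻¹ ^ q j) *
      (r * ∑ j ∈ Finset.range f, ψ (b⁻¹ * a)⁻¹ ^ q j) =
      r * ∑ j ∈ Finset.range f, ψ a⁻¹ ^ q j := by
  classical
  have h1 : ∀ b, (r * ∑ j ∈ Finset.range f, ψ b⁻¹ ^ q j) *
      (r * ∑ j ∈ Finset.range f, ψ (b⁻¹ * a)⁻¹ ^ q j) = r * r *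
      ∑ j ∈ Finset.range f, ∑ i ∈ Finset.range f,
        ψ a⁻¹ ^ q j * (ψ b⁻¹ ^ q i * ψ b ^ q j) := by
    intro b
    rw [mul_mul_mul_comm, Finset.sum_mul_sum, Finset.sum_comm]
    congr 1
    refine Finset.sum_congr rfl fun j _ => Finset.sum_congr rfl fun i _ => ?_
    rw [mul_inv_rev, inv_inv, map_mul, mul_pow]
    ring
  rw [Finset.sum_congr rfl fun b _ => h1 b, ← Finset.mul_sum, Finset.sum_comm]
  have h2 : ∀ j ∈ Finset.range f, ∑ b, ∑ i ∈ Finset.range f,
        ψ a⁻¹ ^ q j * (ψ b⁻¹ ^ q i * ψ b ^ q j) =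
      ψ a⁻¹ ^ q j * (Fintype.card A : R) := by
    intro j hj
    rw [Finset.sum_comm]
    rw [Finset.sum_eq_single j]
    · rw [← Finset.mul_sum, hs]
    · intro i hi hij
      rw [← Finset.mul_sum, hd i (Finset.mem_range.mp hi) j (Finset.mem_range.mp hj) hij,
        mul_zero]
    · intro h
      exact absurd hj h
  rw [Finset.sum_congr rfl h2, ← Finset.sum_mul]
  have h3 : r * r * ((∑ j ∈ Finset.range f, ψ a⁻¹ ^ q j) * (Fintype.card A : R)) =
      ((Fintype.card A : R) * r) * (r * ∑ j ∈ Finset.range f, ψ a⁻¹ ^ q j) := by ring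
  rw [h3, hr, one_mul]

/-- coset sums, in any commutative ring -/
theorem coset_sum {R : Type*} [CommRing R] {A : Type*} [Group A] (ψ : A →* R) (r : R)
    (q : ℕ → ℕ) (f : ℕ) (B : Subgroup A) [Fintype B] (h : ∀ j, ∑ b : B, ψ b ^ q j = 0) (a : A) :
    ∑ b : B, (r * ∑ j ∈ Finset.range f, ψ (a * b)⁻¹ ^ q j) = 0 := by
  rw [← Finset.mul_sum, Finset.sum_comm]
  rw [Finset.sum_eq_zero, mul_zero]
  intro j _
  have h1 : ∀ b : B, ψ (a * b)⁻¹ ^ q j = ψ a⁻¹ ^ q j * ψ (b⁻¹ : B) ^ q j := by
    intro b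
    rw [mul_inv_rev, map_mul, mul_pow, mul_comm]
    rfl
  rw [Finset.sum_congr rfl fun b _ => h1 b, ← Finset.mul_sum]
  have h2 : ∑ b : B, ψ (b⁻¹ : B) ^ q j = ∑ b : B, ψ b ^ q j :=
    Fintype.sum_equiv (Equiv.inv B) _ _ fun b => rfl
  rw [h2, h, mul_zero]

/-- **IDEM** -/
theorem exists_idem (hA : ¬ p ∣ Fintype.card A) (χ : A →* kˣ) :
    ∃ (c : A → ℤ_[p]) (f : ℕ), 0 < f ∧ (Fintype.card A : ℤ_[p]) * c 1 = f ∧
      (∀ a, ∑ b, c b * c (b⁻¹ * a) = c a) ∧ (∀ a b, c (a * b) = c (b * a)) ∧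
      (∀ (B : Subgroup A) [Fintype B], (∃ b ∈ B, χ b ≠ 1) →
        ∀ a, ∑ b : B, c (a * b) = 0) ∧
      (∀ a, ZMod.castHom (dvd_refl p) k (PadicInt.toZMod (c a)) =
        (Fintype.card A : k)⁻¹ * ∑ j ∈ Finset.range f, (((χ a)⁻¹ : kˣ) : k) ^ p ^ j) := by
  classical
  obtain ⟨f, hf0, hf1, hf2⟩ := exists_period hA χ
  have hunit : IsUnit ((Fintype.card A : ℕ) : ℤ_[p]) := by
    rw [PadicInt.isUnit_iff, PadicInt.norm_natCast_eq_one_iff]
    exact ((Nat.Prime.coprime_iff_not_dvd hp.out).mpr hA)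
  obtain ⟨r, hr⟩ := hunit.exists_right_inv
  have hrW : (Fintype.card A : WittVector p k) * zw p k r = 1 := by
    rw [← map_natCast (zw p k), ← map_mul, hr, map_one]
  -- the idempotent in `W(k)`
  set e : A → WittVector p k := fun a =>
    zw p k r * ∑ j ∈ Finset.range f, tch p χ a⁻¹ ^ p ^ j with he
  have hper : ∀ a, tch p χ a ^ p ^ f = tch p χ a := by
    intro a
    rw [tch_pow, hf1, tch_apply]
  have hfrob : ∀ a, WittVector.frobenius (e a) = e a := by
    intro a
    rw [he]
    simp only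
    rw [map_mul, map_sum]
    have h1 : WittVector.frobenius (zw p k r) = zw p k r := by
      unfold zw
      rw [RingHom.comp_apply, WittVector.frobenius_eq_map_frobenius]
      ext n
      rw [WittVector.map_coeff, WittVector.map_coeff, frobenius_def, ← map_pow, ZMod.pow_card]
    rw [h1]
    congr 1
    rw [Finset.sum_congr rfl fun j _ => frob_tch χ a⁻¹ j]
    have h2 := Finset.sum_range_succ (fun j => tch p χ a⁻¹ ^ p ^ j) f
    have h3 := Finset.sum_range_succ' (fun j => tch p χ a⁻¹ ^ p ^ j) f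
    rw [h3, hper a⁻¹, pow_zero, pow_one] at h2
    exact add_right_cancel h2
  have hexc : ∀ a, ∃ z, zw p k z = e a := fun a => exists_zw p k (hfrob a)
  choose c hc using hexc
  -- distinct powers are distinct characters
  have hdist : ∀ i < f, ∀ j < f, i ≠ j → ∑ b, tch p χ b⁻¹ ^ p ^ i * tch p χ b ^ p ^ j = 0 := by
    intro i hi j hj hij
    have hex : ∃ a, χ a ^ p ^ i ≠ χ a ^ p ^ j := by
      by_contra h
      push Not at h
      exact hij (hf2 i hi j hj h)
    let φ : A →* kˣ :=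
      { toFun := fun b => (χ b)⁻¹ ^ p ^ i * χ b ^ p ^ j
        map_one' := by simp
        map_mul' := fun x y => by
          rw [map_mul, mul_inv, mul_pow, mul_pow]
          exact mul_mul_mul_comm _ _ _ _ }
    have h1 : ∀ b, tch p χ b⁻¹ ^ p ^ i * tch p χ b ^ p ^ j = tch p φ b := by
      intro b
      rw [tch_pow, tch_pow, tch_apply, ← map_mul, ← Units.val_mul, map_inv]
      rfl
    rw [Finset.sum_congr rfl fun b _ => h1 b]
    apply sum_eq_zero
    obtain ⟨a, ha⟩ := hex
    refine ⟨a, fun h => ha ?_⟩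
    rw [tch_apply, ← (WittVector.teichmuller p).map_one] at h
    have h2 : φ a = 1 := Units.ext (teich_inj h)
    have h3 : (χ a)⁻¹ ^ p ^ i * χ a ^ p ^ j = 1 := h2
    rw [inv_pow, inv_mul_eq_one] at h3
    exact h3
  have hsame : ∀ i, ∑ b : A, tch p χ b⁻¹ ^ p ^ i * tch p χ b ^ p ^ i =
      (Fintype.card A : WittVector p k) := by
    intro i
    have h1 : ∀ b : A, tch p χ b⁻¹ ^ p ^ i * tch p χ b ^ p ^ i = 1 := by
      intro b
      rw [← mul_pow, ← map_mul, inv_mul_cancel, map_one, one_pow]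
    rw [Finset.sum_congr rfl fun b _ => h1 b]
    simp
  refine ⟨c, f, hf0, ?_, ?_, ?_, ?_, ?_⟩
  · -- value at 1
    apply zw_injective p k
    rw [map_mul, hc, map_natCast, map_natCast, he]
    simp only
    rw [← mul_assoc, hrW, one_mul, inv_one, map_one]
    simp
  · -- idempotent
    intro a
    apply zw_injective p k
    rw [map_sum, hc, Finset.sum_congr rfl fun b _ => (by rw [map_mul, hc, hc] :
      zw p k (c b * c (b⁻¹ * a)) = e b * e (b⁻¹ * a))]
    exact conv_idem (tch p χ) (zw p k r) (fun j => p ^ j) f hrW hdist hsame a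
  · -- class function
    intro a b
    apply zw_injective p k
    rw [hc, hc, he]
    simp only
    rw [mul_inv_rev, mul_inv_rev, map_mul, map_mul, mul_comm (tch p χ b⁻¹)]
  · -- subgroups
    intro B _ hB a
    obtain ⟨b₀, hb₀, hb₁⟩ := hB
    apply zw_injective p k
    rw [map_zero, map_sum, Finset.sum_congr rfl fun (b : B) _ => hc (a * b)]
    refine coset_sum (tch p χ) (zw p k r) (fun j => p ^ j) f B (fun j => ?_) a
    refine sum_eq_zero ((powMonoidHom (p ^ j)).comp ((tch p χ).comp B.subtype)) ?_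
    refine ⟨⟨b₀, hb₀⟩, fun h => hb₁ ?_⟩
    have h3 : tch p χ b₀ ^ p ^ j = 1 := h
    rw [tch_pow, ← (WittVector.teichmuller p).map_one] at h3
    have h4 := teich_inj h3
    apply Units.ext
    have h5 : ((χ b₀ : kˣ) : k) ^ p ^ j = 1 := by
      rw [← Units.val_pow_eq_pow_val, h4]
    have h6 : (((χ b₀ : kˣ) : k) - 1) ^ p ^ j = 0 := by
      rw [sub_pow_char_pow, h5, one_pow, sub_self]
    rw [Units.val_one]
    exact sub_eq_zero.mp ((pow_eq_zero_iff (pow_ne_zero _ hp.out.ne_zero)).mp h6)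
  · -- reduction
    intro a
    have h1 := hom_eq p k ((WittVector.constantCoeff).comp (zw p k)) (c a)
    rw [← h1, RingHom.comp_apply, hc, he]
    simp only
    rw [map_mul, map_sum]
    congr 1
    · have h2 : (Fintype.card A : k) * WittVector.constantCoeff (zw p k r) = 1 := by
        have := congrArg WittVector.constantCoeff hrW
        rwa [map_mul, map_natCast, map_one] at this
      exact eq_inv_of_mul_eq_one_right h2
    · refine Finset.sum_congr rfl fun j _ => ?_
      rw [tch_pow, map_inv, Units.val_pow_eq_pow_val]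
      exact WittVector.teichmuller_coeff_zero p _

end char

end Crest.Agent.R013.Idem_398
end

-- ▼ part R013/A2c_398

/-!
# R013 / C-A2, part c (helper398): **(A2)**: the Kummer cover `L = K(h^(1/N))`, its group, the
idempotent, the vertices, Cartier injectivity at every norm over a vertex
-/

set_option autoImplicit false
set_option linter.all false

namespace Crest.Agent.R013.A2_398

open scoped NNReal
open Module IsLocalRing WithZero
open Crest.Agent.R013.Red332 Crest.Agent.R013.Kumv2_275 Crest.Agent.R013.SSK_332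
open Crest.Agent.R013.RR7_948 Crest.Agent.R013.RR8_948 Crest.Agent.R013.RR9_948
open Crest.Agent.R013.RR11_948 Crest.Agent.R013.CLiftN_903
open Crest.Agent.R013.CI3_398 Crest.Agent.R013.CI4_398
open Crest.Agent.R013.GR3_921 Crest.Agent.R013.Cell_408 Crest.Agent.R013.CB1_903
open Crest.Agent.R013.Inh_770 (Spl)

universe u

/-! ### transfer of the residual invariants to a larger field -/

section transfer

variable {C : Type*} [NormedField C] [IsUltrametricDist C]
  {K L Y : Type*} [Field K] [Field L] [Field Y] [Algebra C K] [Algebra K L] [Algebra C L]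
  [IsScalarTower C K L] [Algebra C Y] [Algebra K Y] [Algebra L Y] [IsScalarTower C K Y]
  [IsScalarTower C L Y] [IsScalarTower K L Y] {A : Type*} [Group A]
  (cov₀ : A →* (L ≃ₐ[C] L)) (cov : A →* (Y ≃ₐ[C] Y))
  (hcov : ∀ a f, cov a (algebraMap L Y f) = algebraMap L Y (cov₀ a f))
  (v : Nm C K) (w : Nm C L) (W : Nm C Y) (hw : w.v.comap (algebraMap K L) = v.v)
  (hW : W.v.comap (algebraMap L Y) = w.v) (hWv : W.v.comap (algebraMap K Y) = v.v)
  (hstab : stab cov₀ w ≤ stab cov W)

include hcov in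
theorem thR_kapMap' (b : A) (hb : b ∈ stab cov₀ w) (hb' : b ∈ stab cov W) (z : kap w) :
    thR cov W ⟨b, hb'⟩ (kapMap w W hW z) = kapMap w W hW (thR cov₀ w ⟨b, hb⟩ z) := by
  obtain ⟨f, -, rfl⟩ := red_surj w z
  rw [kapMap_red, thR_red, thR_red, kapMap_red, hcov]

theorem kapMap_comp (z : kap v) : kapMap w W hW (kapMap v w hw z) = kapMap v W hWv z := by
  obtain ⟨f, -, rfl⟩ := red_surj v z
  rw [kapMap_red, kapMap_red, kapMap_red, ← IsScalarTower.algebraMap_apply]

include hcov hstab in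
theorem hinvR_lift (hsurj : Function.Surjective (kapMap w W hW))
    (h : ∀ z : kap w, (∀ b : stab cov₀ w, thR cov₀ w b z = z) → z ∈ Set.range (kapMap v w hw))
    (z : kap W) (hz : ∀ b : stab cov W, thR cov W b z = z) : z ∈ Set.range (kapMap v W hWv) := by
  obtain ⟨z, rfl⟩ := hsurj z
  obtain ⟨x, rfl⟩ := h z (fun b => by
    apply (kapMap w W hW).injective
    rw [← thR_kapMap' cov₀ cov hcov w W hW b.1 b.2 (hstab b.2)]
    exact hz ⟨b.1, hstab b.2⟩)
  exact ⟨x, (kapMap_comp v w W hw hW hWv x).symm⟩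

end transfer

/-! ### `CInj` with the coordinate of `kap v` -/

section coord

variable (p : ℕ) [hp : Fact p.Prime] {C : Type*} [NormedField C] [IsUltrametricDist C]
  [IsAlgClosed (Ct C)] [CharP (Ct C) p]
  {K L : Type*} [Field K] [Field L] [Algebra C K] [Algebra K L] [Algebra C L]
  [IsScalarTower C K L] {A : Type*} [Group A] [Fintype A] (cov : A →* (L ≃ₐ[C] L))
  (v : Nm C K) (w : Nm C L) (hw : w.v.comap (algebraMap K L) = v.v)
  (hK : ∀ (a : A) (f : K), cov a (algebraMap K L f) = algebraMap K L f)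
  (hinvR : ∀ z : kap w, (∀ b : stab cov w, thR cov w b z = z) → z ∈ Set.range (kapMap v w hw))
  (hA : ¬ p ∣ Fintype.card A)
  {Y : L} (hY0 : Y ≠ 0) {ζ : A → C} (hY : ∀ a, cov a Y = algebraMap C L (ζ a) * Y)
  {χ : A →* (Ct C)ˣ} (hχ : ∀ a, ((χ a : (Ct C)ˣ) : Ct C) * rc (ζ a) = 1)
  (hinj : Function.Injective χ)
  {N : ℕ} (hN : N ≠ 0) {h : K} (hYN : Y ^ N = algebraMap K L h)

include hw hK hinvR hA hY0 hY hχ hYN in
/-- `CInj` for some coordinate of `kap w` -/
theorem exists_cinj (hN : N ≠ 0) (hinj : Function.Injective χ) (hV : VDat p N h v)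
    (e : A → Ct C) (s : Finset ℕ) (c : ℕ → Ct C)
    (he : ∀ a, e a = ∑ j ∈ s, c j * (((χ a)⁻¹ : (Ct C)ˣ) : Ct C) ^ p ^ j)
    [iv : Algebra (RatFunc (Ct C)) (kap v)] [IsScalarTower (Ct C) (RatFunc (Ct C)) (kap v)]
    [FiniteDimensional (RatFunc (Ct C)) (kap v)] [Algebra.IsSeparable (RatFunc (Ct C)) (kap v)] :
    ∃ (_ : Algebra (RatFunc (Ct C)) (kap w)) (_ : IsScalarTower (Ct C) (RatFunc (Ct C)) (kap w))
      (_ : FiniteDimensional (RatFunc (Ct C)) (kap w))
      (_ : Algebra.IsSeparable (RatFunc (Ct C)) (kap w)), M3_359.CInj p w cov e := by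
  letI := kalg v w hw
  haveI := kalg_tower v w hw
  have hinvb : ∀ z : kap w, (∀ b, th cov v w hw hK b z = z) →
      z ∈ Set.range (algebraMap (kap v) (kap w)) := fun z hz => hinvR z hz
  haveI := CI3_398.finiteDimensional (th cov v w hw hK) hinvb
  haveI := CI3_398.isGalois (th cov v w hw hK) hinvb
  letI iw : Algebra (RatFunc (Ct C)) (kap w) :=
    ((kapMap v w hw).comp (algebraMap (RatFunc (Ct C)) (kap v))).toAlgebra
  haveI : IsScalarTower (RatFunc (Ct C)) (kap v) (kap w) :=
    IsScalarTower.of_algebraMap_eq fun _ => rfl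
  haveI : IsScalarTower (Ct C) (RatFunc (Ct C)) (kap w) :=
    IsScalarTower.of_algebraMap_eq fun x => by
      rw [← kapMap_algebraMap v w hw x, IsScalarTower.algebraMap_apply (Ct C) (RatFunc (Ct C)) (kap v)]
      rfl
  haveI : FiniteDimensional (RatFunc (Ct C)) (kap w) :=
    FiniteDimensional.trans (RatFunc (Ct C)) (kap v) (kap w)
  haveI : Algebra.IsSeparable (RatFunc (Ct C)) (kap w) :=
    Algebra.IsSeparable.trans (RatFunc (Ct C)) (kap v) (kap w)
  exact ⟨iw, inferInstance, inferInstance, inferInstance,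
    cinj p cov v w hw hK hinvR hA hY0 hY hχ hYN hN hinj hV e s c he (fun _ => rfl)⟩

end coord

/-! ### (A2) -/

/-- the group of `L / K` acting over `C` -/
def resC (C K L : Type*) [Field C] [Field K] [Field L] [Algebra C K] [Algebra K L]
    [Algebra C L] [IsScalarTower C K L] : (L ≃ₐ[K] L) →* (L ≃ₐ[C] L) where
  toFun σ := σ.restrictScalars C
  map_one' := rfl
  map_mul' _ _ := rfl

section data

variable (p : ℕ) [hp : Fact p.Prime] {k : Type*} [NontriviallyNormedField k] [CompleteSpace k]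
  [IsUltrametricDist k] {C : Type*} [NormedField C] [IsUltrametricDist C] [NormedAlgebra k C]
  [Algebra.IsAlgebraic k C] [IsAlgClosed C] [hk : Fact (DiscNorm k)]

/-- **(A2)**, the data -/
structure A2Data {K : Type*} [Field K] [Algebra C K] (S : SSK k C K) (L : Type*) [Field L]
    [Algebra C L] [Algebra K L] [IsScalarTower C K L] [FiniteDimensional K L] [IsGalois K L] where
  /-- exponent -/
  N : ℕ
  N_ne : N ≠ 0
  N_cop : N.Coprime p
  /-- the function -/
  h : K
  h_ne : h ≠ 0
  h_div : ∀ P : Pl C K, ∃ m : ℤ, P.v h = exp (N * m)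
  h_od : ∀ d : S.Dir, ∃ m : ℤ, Red332.od (S.nm d.1) d.2 h = N * m
  /-- its root -/
  y : L
  y_pow : y ^ N = algebraMap K L h
  y_top : IntermediateField.adjoin K {y} = ⊤
  /-- Kummer character -/
  ζ : (L ≃ₐ[K] L) →* Cˣ
  ζ_y : ∀ σ, σ y = algebraMap C L (ζ σ) * y
  ζ_inj : Function.Injective ζ
  vdat : ∀ v : S.V, VDat p N h (S.nm v)
  card : ¬ p ∣ Fintype.card (L ≃ₐ[K] L)
  finrank : ¬ p ∣ Module.finrank K L
  cyc : IsCyclic (L ≃ₐ[K] L)
  unr : UnrPl C K L
  unrEv : Unr10_957.UnrEv C K L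
  /-- split over the cells -/
  spl : Spl S L
  /-- residual Kummer character, inverted -/
  χ : (L ≃ₐ[K] L) →* (Ct C)ˣ
  χ_ζ : ∀ σ, ((χ σ : (Ct C)ˣ) : Ct C) * rc ((ζ σ : Cˣ) : C) = 1
  χ_inj : Function.Injective χ
  /-- the idempotent -/
  c : (L ≃ₐ[K] L) → ℤ_[p]
  /-- length of the Frobenius orbit -/
  f : ℕ
  f_pos : 0 < f
  c_one : (Fintype.card (L ≃ₐ[K] L) : ℤ_[p]) * c 1 = f
  c_idem : ∀ a, ∑ b, c b * c (b⁻¹ * a) = c a
  c_comm : ∀ a b, c (a * b) = c (b * a)
  c_sum : ∀ (B : Subgroup (L ≃ₐ[K] L)) [Fintype B], (∃ b ∈ B, χ b ≠ 1) →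
    ∀ a, ∑ b : B, c (a * b) = 0
  c_red : ∀ (φ : ZMod p →+* Ct C) (a), φ (PadicInt.toZMod (c a)) =
    (Fintype.card (L ≃ₐ[K] L) : Ct C)⁻¹ *
      ∑ j ∈ Finset.range f, (((χ a)⁻¹ : (Ct C)ˣ) : Ct C) ^ p ^ j

end data

section thms

variable {p : ℕ} [hp : Fact p.Prime] {k : Type*} [NontriviallyNormedField k] [CompleteSpace k]
  [IsUltrametricDist k] {C : Type*} [NormedField C] [IsUltrametricDist C] [NormedAlgebra k C]
  [Algebra.IsAlgebraic k C] [IsAlgClosed C] [hk : Fact (DiscNorm k)] [CharP (Ct C) p]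
  {K : Type*} [Field K] [Algebra C K] {S : SSK k C K} {L : Type*} [Field L]
  [Algebra C L] [Algebra K L] [IsScalarTower C K L] [FiniteDimensional K L] [IsGalois K L]
  (D : A2Data p S L)

include S in
theorem exists_norm_ne : ∃ c : C, c ≠ 0 ∧ ‖c‖ ≠ 1 := by
  obtain ⟨x, hx0, hx1⟩ := NormedField.exists_norm_lt_one k
  refine ⟨algebraMap k C x, ?_, ?_⟩
  · rw [Ne, map_eq_zero, ← norm_eq_zero]
    exact hx0.ne'
  · rw [norm_algebraMap']
    exact hx1.ne

namespace A2Data

include D in
theorem y_ne : D.y ≠ 0 := by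
  intro h
  have h1 := D.y_pow
  rw [h, zero_pow D.N_ne] at h1
  exact D.h_ne ((map_eq_zero _).mp h1.symm)

include D in
theorem c_ne : D.c ≠ 0 := by
  intro h
  have h1 := D.c_one
  rw [h, Pi.zero_apply, mul_zero] at h1
  exact D.f_pos.ne' (by exact_mod_cast h1.symm)

include D in
/-- the residual invariants of the stabiliser -/
theorem hinvR (v : S.V) (w : Nm C L) (hw : w.v.comap (algebraMap K L) = (S.nm v).v) (z : kap w)
    (hz : ∀ b : stab (resC C K L) w, thR (resC C K L) w b z = z) :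
    z ∈ Set.range (kapMap (S.nm v) w hw) := by
  refine th_inv (resC C K L) (S.nm v) w hw ?_ (exists_norm_ne (S := S)) (hA' p D.card) z hz
  intro f hf
  exact (IsGalois.mem_range_algebraMap_iff_fixed (F := K) (E := L) f).mpr hf

include D in
/-- **the dichotomy at a norm over a vertex** -/
theorem dichotomy (v : S.V) (w : Nm C L) (hw : w.v.comap (algebraMap K L) = (S.nm v).v) :
    (HasGen (Ct C) (kap (S.nm v)) 0 ∧
      ∀ σ : L ≃ₐ[K] L, (∀ f, w.v (σ f) = w.v f) → σ = 1) ∨
    ∀ (B : Subgroup (L ≃ₐ[K] L)) [Fintype B], (∀ σ, σ ∈ B ↔ ∀ f, w.v (σ f) = w.v f) →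
      ∀ a, ∑ b : B, D.c (a * b) = 0 := by
  rcases stab_dichotomy p (resC C K L) (S.nm v) w hw (fun a f => a.commutes f)
    (D.hinvR v w hw) D.y_ne (ζ := fun a => ((D.ζ a : Cˣ) : C)) D.ζ_y D.χ_ζ D.y_pow D.N_ne
    D.χ_inj (D.vdat v) with h | h
  · exact Or.inl ⟨h.1, fun σ hσ => h.2 σ hσ⟩
  · refine Or.inr ?_
    intro B _ hB a
    apply D.c_sum
    obtain ⟨b, hb, hb1⟩ := h
    exact ⟨b, (hB b).mpr hb, hb1⟩

include D in
/-- **Cartier injectivity at every norm over a vertex**, of every `Y ⊇ L` -/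
theorem cinj {Y : Type*} [Field Y] [Algebra C Y] [Algebra K Y] [Algebra L Y]
    [IsScalarTower C K Y] [IsScalarTower C L Y] [IsScalarTower K L Y]
    (cov : (L ≃ₐ[K] L) →* (Y ≃ₐ[C] Y))
    (hcov : ∀ a f, cov a (algebraMap L Y f) = algebraMap L Y (a f))
    (v : S.V) (w : Nm C L) (hw : w.v.comap (algebraMap K L) = (S.nm v).v) (W : Nm C Y)
    (hW : W.v.comap (algebraMap L Y) = w.v) (hsurj : Function.Surjective (kapMap w W hW))
    (hstab : ∀ a : L ≃ₐ[K] L, (∀ f, w.v (a f) = w.v f) → ∀ f, W.v (cov a f) = W.v f)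
    (φ : ZMod p →+* Ct C) :
    ∃ (_ : Algebra (RatFunc (Ct C)) (kap W)) (_ : IsScalarTower (Ct C) (RatFunc (Ct C)) (kap W))
      (_ : FiniteDimensional (RatFunc (Ct C)) (kap W))
      (_ : Algebra.IsSeparable (RatFunc (Ct C)) (kap W)),
      M3_359.CInj p W cov (fun a => φ (PadicInt.toZMod (D.c a))) := by
  obtain ⟨i, j, f, s⟩ := S.ff v
  have hWv : W.v.comap (algebraMap K Y) = (S.nm v).v := by
    rw [← hw, ← hW, IsScalarTower.algebraMap_eq K L Y, Valuation.comap_comp]
  have hK : ∀ (a : L ≃ₐ[K] L) (f : K), cov a (algebraMap K Y f) = algebraMap K Y f := by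
    intro a f
    rw [IsScalarTower.algebraMap_apply K L Y, hcov, AlgEquiv.commutes]
  have hY0 : algebraMap L Y D.y ≠ 0 := by
    rw [Ne, map_eq_zero]
    exact D.y_ne
  have hY : ∀ a, cov a (algebraMap L Y D.y) =
      algebraMap C Y ((D.ζ a : Cˣ) : C) * algebraMap L Y D.y := by
    intro a
    rw [hcov, D.ζ_y, map_mul, ← IsScalarTower.algebraMap_apply]
  have hYN : (algebraMap L Y D.y) ^ D.N = algebraMap K Y D.h := by
    rw [← map_pow, D.y_pow, ← IsScalarTower.algebraMap_apply]
  have hinvR := hinvR_lift (resC C K L) cov hcov (S.nm v) w W hw hW hWv hstab hsurj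
    (D.hinvR v w hw)
  refine exists_cinj p cov (S.nm v) W hWv hK hinvR D.card hY0
    (ζ := fun a => ((D.ζ a : Cˣ) : C)) hY D.χ_ζ hYN D.N_ne D.χ_inj (D.vdat v) _
    (Finset.range D.f) (fun _ => (Fintype.card (L ≃ₐ[K] L) : Ct C)⁻¹) ?_
  intro a
  rw [D.c_red, Finset.mul_sum]

end A2Data

end thms

section final

variable (p : ℕ) [hp : Fact p.Prime] {k : Type*} [NontriviallyNormedField k] [CompleteSpace k]
  [IsUltrametricDist k] {C : Type*} [NormedField C] [IsUltrametricDist C] [NormedAlgebra k C]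
  [Algebra.IsAlgebraic k C] [IsAlgClosed C] [hk : Fact (DiscNorm k)] [CharZero C]
  [NormedAlgebra ℚ_[p] C] [Algebra.IsAlgebraic ℚ_[p] C]

/-- **(A2)** -/
theorem a2 {K : Type u} [Field K] [Algebra C K] [Algebra (RatFunc C) K]
    [IsScalarTower C (RatFunc C) K] [FiniteDimensional (RatFunc C) K]
    [Algebra.IsSeparable (RatFunc C) K] (S : SSK k C K) :
    ∃ (L : Type u) (_ : Field L) (_ : Algebra C L) (_ : Algebra K L) (_ : IsScalarTower C K L)
      (_ : FiniteDimensional K L) (_ : IsGalois K L), Nonempty (A2Data p S L) := by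
  classical
  haveI := TP14_928.charP_Ct (C := C) p
  letI := TP14_928.algCt (C := C) p
  haveI := TP14_928.isAlgebraic_Ct (C := C) p
  have hnorm := norm_natCast_of_coprime (C := C) p
  obtain ⟨N, h, hN0, hNp, hh, hdiv, hod, hv⟩ := exists_data p S (fun N hN =>
    RZ_365.inLift (C := C) hk.out hnorm K _ (hasGen_gen C K) N hN)
  obtain ⟨L, i1, i2, i3, i4, i5, i6, y, ζ, hy, htop, hinj, hζ, hζy, hfin, hcyc, hunr, hev, ⟨P⟩⟩ :=
    ExKum_903.exists_kum S N (hnorm N hNp) h hh hdiv hod
  have hfr : ¬ p ∣ Module.finrank K L := by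
    intro h1
    have h2 := (Nat.Prime.coprime_iff_not_dvd hp.out).mp hNp.symm
    exact h2 (h1.trans hfin)
  have hcard : ¬ p ∣ Fintype.card (L ≃ₐ[K] L) := by
    rwa [← Nat.card_eq_fintype_card, IsGalois.card_aut_eq_finrank]
  have hy0 : y ≠ 0 := by
    rintro rfl
    rw [zero_pow hN0] at hy
    exact hh ((map_eq_zero _).mp hy.symm)
  obtain ⟨χ, hχ, hχ1⟩ := exists_chi p (resC C K L) (ζ := fun a => ((ζ a : Cˣ) : C)) hcard hy0 hζy
  have hχinj : Function.Injective χ := by
    rw [injective_iff_map_eq_one]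
    intro a ha
    apply hinj
    rw [map_one]
    exact Units.ext (hχ1 a ha)
  obtain ⟨c, f, hf, c1, c2, c3, c4, c5⟩ := Idem_398.exists_idem (p := p) hcard χ
  exact ⟨L, i1, i2, i3, i4, i5, i6, ⟨{
    N := N
    N_ne := hN0
    N_cop := hNp
    h := h
    h_ne := hh
    h_div := hdiv
    h_od := hod
    y := y
    y_pow := hy
    y_top := htop
    ζ := ζ
    ζ_y := hζy
    ζ_inj := hinj
    vdat := hv
    card := hcard
    finrank := hfr
    cyc := hcyc
    unr := hunr
    unrEv := hev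
    spl := P
    χ := χ
    χ_ζ := hχ
    χ_inj := hχinj
    c := c
    f := f
    f_pos := hf
    c_one := c1
    c_idem := c2
    c_comm := c3
    c_sum := fun B _ hB a => c4 B hB a
    c_red := fun φ a => by
      rw [← c5 a]
      congr 1
      exact Subsingleton.elim _ _ }⟩⟩

end final

end Crest.Agent.R013.A2_398
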