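import Mathlib
import Crest.Agent.R013.LemC3_251_Mg
import Crest.Prelude.Def_SectConj
import Crest.Agent.R013.A2a_275
import Crest.Agent.R013.Clause1Main_97
import Crest.Agent.R013.Ax2_280
import Crest.Agent.R013.A2b_275

-- ▼ part R013/LemC1_251
section

/-!
# R013, leaf LEMC (helper758's LEMMA C): algebra part   (helper251)

`Q` a field of characteristic zero, `Ω` an algebraically closed field over `Q`,
`B := algebraicClosure Q Ω`, `F` an intermediate field with `Ω/F` algebraic and `F ⊔ B = ⊤`.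

* `fixed_mem` : elements of `Ω` fixed by `Gal(Ω/F)` lie in `F`.
* `exists_basis` : `Ω` has a `B`-basis of elements of `F` containing `1`.
* `kummer` : every `a ∈ F*` is `c * f ^ p` with `c ∈ (F ⊓ B)*`, `f ∈ F*` (no roots of unity
  in `F` needed).
* `exists_proj` : `B`-linear projection `Ω → B` mapping `F` into `F ⊓ B`.
-/

set_option autoImplicit false
set_option linter.unusedSectionVars false
set_option linter.style.haveILetI false

open IntermediateField Polynomial

namespace Crest.Agent.R013.LemC1_251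

variable {Q Ω : Type*} [Field Q] [Field Ω] [Algebra Q Ω] [IsAlgClosed Ω] [CharZero Ω]

theorem isGalois (F : IntermediateField Q Ω) [Algebra.IsAlgebraic F Ω] : IsGalois F Ω := by
  have : CharZero F := by
    refine ⟨fun a b h => ?_⟩
    have : ((a : F) : Ω) = ((b : F) : Ω) := congrArg _ h
    exact_mod_cast this
  have : Normal F Ω := by
    refine ⟨fun x => ?_⟩
    exact IsAlgClosed.splits _
  exact {}

theorem fixed_mem (F : IntermediateField Q Ω) [Algebra.IsAlgebraic F Ω] (x : Ω)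
    (h : ∀ σ : Ω ≃ₐ[F] Ω, σ x = x) : x ∈ F := by
  haveI := isGalois F
  have := (InfiniteGalois.mem_range_algebraMap_iff_fixed (k := F) x).2 h
  obtain ⟨y, rfl⟩ := this
  exact y.2

theorem apply_mem (F : IntermediateField Q Ω) (σ : Ω ≃ₐ[F] Ω) (x : Ω) (h : x ∈ F) : σ x = x :=
  σ.commutes ⟨x, h⟩

theorem map_mem_B (F : IntermediateField Q Ω) (σ : Ω ≃ₐ[F] Ω) (x : Ω)
    (h : x ∈ algebraicClosure Q Ω) : σ x ∈ algebraicClosure Q Ω := by
  rw [mem_algebraicClosure_iff] at h ⊢
  exact IsAlgebraic.algHom (σ.restrictScalars Q : Ω ≃ₐ[Q] Ω).toAlgHom h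

theorem exists_basis (F : IntermediateField Q Ω) (hsup : F ⊔ algebraicClosure Q Ω = ⊤) :
    ∃ (s : Set Ω) (b : Module.Basis s (algebraicClosure Q Ω) Ω) (i₀ : s),
      (∀ i, b i ∈ F) ∧ b i₀ = 1 := by
  have hspan : (⊤ : Submodule (algebraicClosure Q Ω) Ω) ≤
      Submodule.span (algebraicClosure Q Ω) (F : Set Ω) := by
    intro x _
    have hx : x ∈ F ⊔ algebraicClosure Q Ω := by rw [hsup]; trivial
    have h2 : x ∈ (F ⊔ algebraicClosure Q Ω).toSubalgebra := hx
    rw [sup_toSubalgebra_of_isAlgebraic_right] at h2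
    -- the span is a subalgebra
    have hmul : ∀ a ∈ Submodule.span (algebraicClosure Q Ω) (F : Set Ω),
        ∀ b ∈ Submodule.span (algebraicClosure Q Ω) (F : Set Ω),
        a * b ∈ Submodule.span (algebraicClosure Q Ω) (F : Set Ω) := by
      intro a ha b hb
      have : a * b ∈ Submodule.span (algebraicClosure Q Ω) (F : Set Ω) *
          Submodule.span (algebraicClosure Q Ω) (F : Set Ω) := Submodule.mul_mem_mul ha hb
      rw [Submodule.span_mul_span] at this
      refine Submodule.span_mono ?_ this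
      rintro _ ⟨u, hu, v, hv, rfl⟩
      exact mul_mem hu hv
    let S : Subalgebra Q Ω :=
      { carrier := {x | x ∈ Submodule.span (algebraicClosure Q Ω) (F : Set Ω)}
        mul_mem' := fun {a b} ha hb => hmul a ha b hb
        add_mem' := fun {a b} ha hb => by
          simp only [Set.mem_ofPred_eq] at ha hb ⊢
          exact Submodule.add_mem _ ha hb
        algebraMap_mem' := fun r => Submodule.subset_span (F.algebraMap_mem r) }
    have hle : F.toSubalgebra ⊔ (algebraicClosure Q Ω).toSubalgebra ≤ S := by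
      refine sup_le ?_ ?_
      · intro y hy
        exact Submodule.subset_span hy
      · intro y hy
        have : (⟨y, hy⟩ : algebraicClosure Q Ω) • (1 : Ω) ∈
            Submodule.span (algebraicClosure Q Ω) (F : Set Ω) :=
          Submodule.smul_mem _ _ (Submodule.subset_span (one_mem F))
        have h3 : (⟨y, hy⟩ : algebraicClosure Q Ω) • (1 : Ω) = y := by
          rw [Algebra.smul_def]; simp
        rw [h3] at this
        exact this
    exact hle h2
  have hli : LinearIndepOn (algebraicClosure Q Ω) id ({1} : Set Ω) := by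
    rw [linearIndepOn_singleton_iff]
    exact one_ne_zero
  have hst : ({1} : Set Ω) ⊆ (F : Set Ω) := by
    intro x hx
    rw [Set.mem_singleton_iff] at hx
    rw [hx]
    exact one_mem F
  refine ⟨hli.extend hst, Module.Basis.extendLe hli hst hspan,
    ⟨1, hli.subset_extend hst rfl⟩, ?_, ?_⟩
  · intro i
    have := Module.Basis.extendLe_subset hli hst hspan
    exact this ⟨i, rfl⟩
  · rw [Module.Basis.extendLe_apply_self]

/-- The coordinates of `σ y` are the `σ`'s of the coordinates. -/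
theorem repr_map (F : IntermediateField Q Ω) {ι : Type*}
    (b : Module.Basis ι (algebraicClosure Q Ω) Ω) (hb : ∀ i, b i ∈ F) (σ : Ω ≃ₐ[F] Ω) (y : Ω)
    (i : ι) : (b.repr (σ y) i).1 = σ (b.repr y i).1 := by
  classical
  -- define the candidate coordinates
  let g : ι →₀ algebraicClosure Q Ω :=
    (b.repr y).mapRange (fun c => ⟨σ c.1, map_mem_B F σ c.1 c.2⟩) (by ext; simp)
  have hg : σ y = b.repr.symm g := by
    have h1 : y = (b.repr y).sum (fun i c => (c : Ω) * b i) := by
      conv_lhs => rw [← b.linearCombination_repr y]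
      rw [Finsupp.linearCombination_apply]
      rfl
    conv_lhs => rw [h1]
    rw [Finsupp.sum, map_sum, b.repr_symm_apply, Finsupp.linearCombination_apply,
      Finsupp.sum_mapRange_index (by simp)]
    rw [Finsupp.sum]
    refine Finset.sum_congr rfl fun j _ => ?_
    rw [map_mul, apply_mem F σ _ (hb j)]
    rfl
  rw [hg]
  simp [g]

/-- Kummer theory in `Ω = F·B`. -/
theorem kummer (F : IntermediateField Q Ω) [Algebra.IsAlgebraic F Ω]
    (hsup : F ⊔ algebraicClosure Q Ω = ⊤) {p : ℕ} (hp : 0 < p) {ζ : Ω} (hζ : IsPrimitiveRoot ζ p)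
    (hζB : ζ ∈ algebraicClosure Q Ω) (a : Ω) (ha : a ∈ F) (ha0 : a ≠ 0) :
    ∃ c ∈ F ⊓ algebraicClosure Q Ω, ∃ f ∈ F, c ≠ 0 ∧ f ≠ 0 ∧ a = c * f ^ p := by
  haveI : NeZero p := ⟨hp.ne'⟩
  obtain ⟨y, hy⟩ := IsAlgClosed.exists_pow_nat_eq a hp
  obtain ⟨s, b, i₀, hb, -⟩ := exists_basis F hsup
  have hy0 : y ≠ 0 := by
    rintro rfl
    rw [zero_pow hp.ne'] at hy
    exact ha0 hy.symm
  have hex : ∃ i, b.repr y i ≠ 0 := by
    by_contra hcon
    push Not at hcon
    apply hy0
    have : b.repr y = 0 := by ext i; simp [hcon i]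
    simpa using this
  obtain ⟨i, hi⟩ := hex
  set c : Ω := (b.repr y i).1 with hc
  have hc0 : c ≠ 0 := by
    intro h
    apply hi
    exact Subtype.ext h
  have hcB : c ∈ algebraicClosure Q Ω := (b.repr y i).2
  -- the character
  have hchar : ∀ σ : Ω ≃ₐ[F] Ω, ∃ χ : Ω, χ ^ p = 1 ∧ σ y = χ * y ∧ σ c = χ * c := by
    intro σ
    have h1 : (σ y / y) ^ p = 1 := by
      rw [div_pow, ← map_pow, hy, apply_mem F σ a ha, div_self ha0]
    obtain ⟨m, -, hm⟩ := hζ.eq_pow_of_pow_eq_one h1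
    have h2 : σ y = ζ ^ m * y := by rw [hm, div_mul_cancel₀ _ hy0]
    refine ⟨ζ ^ m, by rw [hm]; exact h1, h2, ?_⟩
    rw [hc, ← repr_map F b hb σ y i, h2]
    have : ζ ^ m * y = (⟨ζ ^ m, pow_mem hζB m⟩ : algebraicClosure Q Ω) • y := rfl
    rw [this, map_smul]
    rfl
  refine ⟨c ^ p, ⟨?_, pow_mem hcB p⟩, y / c, ?_, pow_ne_zero _ hc0, div_ne_zero hy0 hc0, ?_⟩
  · apply fixed_mem F
    intro σ
    obtain ⟨χ, h1, -, h3⟩ := hchar σ
    rw [map_pow, h3, mul_pow, h1, one_mul]
  · apply fixed_mem F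
    intro σ
    obtain ⟨χ, h1, h2, h3⟩ := hchar σ
    have hχ : χ ≠ 0 := by
      rintro rfl
      rw [zero_pow hp.ne'] at h1
      exact zero_ne_one h1
    rw [map_div₀, h2, h3, mul_div_mul_left _ _ hχ]
  · rw [div_pow, hy, mul_div_cancel₀]
    exact pow_ne_zero _ hc0

/-- A `B`-linear projection `Ω → B` which maps `F` into `F ⊓ B`. -/
theorem exists_proj (F : IntermediateField Q Ω) [Algebra.IsAlgebraic F Ω]
    (hsup : F ⊔ algebraicClosure Q Ω = ⊤) :
    ∃ Φ : Ω → Ω, (∀ x y, Φ (x + y) = Φ x + Φ y) ∧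
      (∀ c ∈ algebraicClosure Q Ω, ∀ x, Φ (c * x) = c * Φ x) ∧
      (∀ x ∈ algebraicClosure Q Ω, Φ x = x) ∧ (∀ x ∈ F, Φ x ∈ F ⊓ algebraicClosure Q Ω) := by
  obtain ⟨s, b, i₀, hb, h1⟩ := exists_basis F hsup
  have hlin : ∀ c ∈ algebraicClosure Q Ω, ∀ x : Ω,
      (b.repr (c * x) i₀).1 = c * (b.repr x i₀).1 := by
    intro c hc x
    have : c * x = (⟨c, hc⟩ : algebraicClosure Q Ω) • x := rfl
    rw [this, map_smul]
    rfl
  refine ⟨fun x => (b.repr x i₀).1, ?_, hlin, ?_, ?_⟩
  · intro x y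
    simp
  · intro x hx
    have := hlin x hx 1
    rw [mul_one] at this
    simp only [this]
    rw [← h1, b.repr_self]
    simp
  · intro x hx
    refine ⟨?_, (b.repr x i₀).2⟩
    apply fixed_mem F
    intro σ
    simp only
    rw [← repr_map F b hb σ x i₀, apply_mem F σ x hx]

/-- For `t ∈ B` elements of `F(t)` in `B` are polynomials in `t` over `F ⊓ B`. -/
theorem inf_adjoin (F : IntermediateField Q Ω) [Algebra.IsAlgebraic F Ω]
    (hsup : F ⊔ algebraicClosure Q Ω = ⊤) {ι : Type*} (s : Finset ι) (f e : ι → Ω)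
    (hf : ∀ i ∈ s, f i ∈ F) (he : ∀ i ∈ s, e i ∈ algebraicClosure Q Ω)
    (hx : ∑ i ∈ s, f i * e i ∈ algebraicClosure Q Ω) :
    ∃ g : ι → Ω, (∀ i ∈ s, g i ∈ F ⊓ algebraicClosure Q Ω) ∧
      ∑ i ∈ s, f i * e i = ∑ i ∈ s, g i * e i := by
  obtain ⟨Φ, hadd, hmul, hB, hF⟩ := exists_proj F hsup
  refine ⟨fun i => Φ (f i), fun i hi => hF _ (hf i hi), ?_⟩
  have h0 : Φ 0 = 0 := hB 0 (zero_mem _)
  have hsum : ∀ (t : Finset ι) (u : ι → Ω), Φ (∑ i ∈ t, u i) = ∑ i ∈ t, Φ (u i) := by
    classical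
    intro t u
    induction t using Finset.induction_on with
    | empty => simp [h0]
    | insert a t ha ih => rw [Finset.sum_insert ha, Finset.sum_insert ha, hadd, ih]
  conv_lhs => rw [← hB _ hx, hsum]
  refine Finset.sum_congr rfl fun i hi => ?_
  rw [mul_comm, hmul _ (he i hi), mul_comm]

end Crest.Agent.R013.LemC1_251
end

-- ▼ part R013/LemC4_251
section

/-!
# R013, leaf LEMC (helper758's LEMMA C): `p`-th power classes   (helper251)

`F ⊆ Ω` "henselian" (`w` is `Gal(Ω/F)`-invariant), `Ω = F·B`, `B` the algebraic closure of `ℚ_p`,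
`F ∩ B` finite over `ℚ_p`.

* `near_one` : elements of `F` near `1` are `p`-th powers in `F`;
* `finite_classes` : `F*/F*^p` is finite;
* `divisible`, `perfect` : if the value group of `F` is not discrete it is `p`-divisible and the
  residue field of `F` is perfect;
* `discrete` : if the value group of `F` is discrete then `F ⊆ B`.
-/

set_option autoImplicit false
set_option linter.unusedSectionVars false
set_option linter.style.haveILetI false
set_option linter.unusedVariables false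

open scoped NNReal
open IntermediateField Crest.Agent.R013

namespace Crest.Agent.R013.LemC4_251

variable {p : ℕ} [hpF : Fact p.Prime] {Ω : Type*} [Field Ω] [Algebra ℚ_[p] Ω] [IsAlgClosed Ω]
  (w : Valuation Ω ℝ≥0)

/-- the standing hypotheses of LEMMA C -/
structure Hyp (w : Valuation Ω ℝ≥0) (F : IntermediateField ℚ_[p] Ω) : Prop where
  ext : ∀ q : ℚ_[p], w (algebraMap ℚ_[p] Ω q) = ‖q‖₊
  alg : Algebra.IsAlgebraic F Ω
  inv : ∀ (σ : Ω ≃ₐ[F] Ω) (a : Ω), w (σ a) = w a
  sup : F ⊔ algebraicClosure ℚ_[p] Ω = ⊤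
  fin : FiniteDimensional ℚ_[p] (F ⊓ algebraicClosure ℚ_[p] Ω : IntermediateField ℚ_[p] Ω)

variable {w} {F : IntermediateField ℚ_[p] Ω}

theorem near_one (H : Hyp w F) (x : Ω) (hx : x ∈ F) (h : w (1 - x) ^ (p - 1) < w (p : Ω) ^ p) :
    ∃ y ∈ F, y ^ p = x := by
  have hpp : p.Prime := hpF.out
  haveI := LemC3_251.charZero (p := p) (Ω := Ω) inferInstance
  obtain ⟨hp1, hp0⟩ := LemC3_251.w_p w H.ext
  haveI := H.alg
  have hq : 0 < p - 1 := by have := hpp.two_le; omega
  have hx1 : w (1 - x) < 1 := by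
    by_contra hcon
    push Not at hcon
    have h1 : (1 : ℝ≥0) ≤ w (1 - x) ^ (p - 1) := one_le_pow_of_one_le' hcon _
    have h2 : w (p : Ω) ^ p ≤ 1 := pow_le_one' hp1.le _
    exact absurd (h1.trans_lt h) (not_lt.2 h2)
  have hwx : w x = 1 := by
    have : x = 1 - (1 - x) := by ring
    rw [this, Valuation.map_sub_eq_of_lt_left, map_one]
    rw [map_one]; exact hx1
  obtain ⟨y, hy, hy1⟩ := LemC2_251.exists_root_near w hpp x h
  refine ⟨y, ?_, hy⟩
  have hwy : w y = 1 := by
    have : w y ^ p = 1 := by rw [← map_pow, hy, hwx]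
    exact (pow_eq_one_iff_of_nonneg zero_le hpp.pos.ne').1 this
  have hy0 : y ≠ 0 := by
    rintro rfl
    rw [map_zero] at hwy
    exact zero_ne_one hwy
  apply LemC1_251.fixed_mem F
  intro σ
  by_contra hne
  have h1 : (σ y / y) ^ p = 1 := by
    rw [div_pow, ← map_pow, hy, LemC1_251.apply_mem F σ x hx, div_self]
    rintro rfl
    rw [map_zero] at hwx
    exact zero_ne_one hwx
  have h2 : σ y / y ≠ 1 := fun h3 => hne ((div_eq_one_iff_eq hy0).1 h3)
  have h3 := LemC2_251.root_of_unity w hpp hp1 _ h1 h2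
  have h4 : σ y / y - 1 = (σ y - y) / y := by field_simp
  have h5 : w (σ y - y) ≤ w (1 - y) := by
    have h6 : σ y - y = (1 - y) - σ (1 - y) := by rw [map_sub, map_one]; ring
    rw [h6]
    refine (w.map_sub _ _).trans ?_
    rw [H.inv, max_self]
  rw [h4, map_div₀, hwy, div_one] at h3
  exact absurd hy1 (not_lt.2 (h3 ▸ pow_le_pow_left' h5 _))

/-- quantitative form used below -/
theorem near_one' (H : Hyp w F) (x : Ω) (hx : x ∈ F) (h : w (1 - x) < w (p : Ω) ^ p) :
    ∃ y ∈ F, y ^ p = x := by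
  have hpp : p.Prime := hpF.out
  obtain ⟨hp1, hp0⟩ := LemC3_251.w_p w H.ext
  apply near_one H x hx
  have hq : 0 < p - 1 := by have := hpp.two_le; omega
  have h1 : w (1 - x) ≤ 1 := h.le.trans (pow_le_one' hp1.le _)
  calc w (1 - x) ^ (p - 1) ≤ w (1 - x) ^ 1 := pow_le_pow_right_of_le_one' h1 hq
    _ = w (1 - x) := pow_one _
    _ < _ := h

theorem kummer (H : Hyp w F) (a : Ω) (ha : a ∈ F) (ha0 : a ≠ 0) :
    ∃ c ∈ F ⊓ algebraicClosure ℚ_[p] Ω, ∃ f ∈ F, c ≠ 0 ∧ f ≠ 0 ∧ a = c * f ^ p := by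
  have hpp : p.Prime := hpF.out
  haveI := LemC3_251.charZero (p := p) (Ω := Ω) inferInstance
  haveI := H.alg
  haveI : NeZero p := ⟨hpp.pos.ne'⟩
  haveI : NeZero (p : Ω) := ⟨by exact_mod_cast hpp.pos.ne'⟩
  obtain ⟨ζ, hζ⟩ : ∃ ζ : Ω, IsPrimitiveRoot ζ p := HasEnoughRootsOfUnity.exists_primitiveRoot Ω p
  have hζB : ζ ∈ algebraicClosure ℚ_[p] Ω := by
    rw [mem_algebraicClosure_iff]
    exact (hζ.isIntegral hpp.pos).tower_top.isAlgebraic
  exact LemC1_251.kummer F H.sup hpp.pos hζ hζB a ha ha0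

theorem net (H : Hyp w F) (ε : ℝ≥0) (hε : 0 < ε) :
    ∃ T : Finset Ω, (∀ t ∈ T, t ∈ F ⊓ algebraicClosure ℚ_[p] Ω) ∧
      ∀ x ∈ F ⊓ algebraicClosure ℚ_[p] Ω, w x ≤ 1 → ∃ t ∈ T, w (x - t) < ε := by
  haveI : FiniteDimensional ℚ_[p] (Subalgebra.toSubmodule
    (F ⊓ algebraicClosure ℚ_[p] Ω : IntermediateField ℚ_[p] Ω).toSubalgebra) := H.fin
  exact LemC3_251.net w H.ext (Subalgebra.toSubmodule
    (F ⊓ algebraicClosure ℚ_[p] Ω : IntermediateField ℚ_[p] Ω).toSubalgebra) ε hε

theorem finite_classes (H : Hyp w F) : ∃ S : Finset Ω, ∀ a ∈ F, a ≠ 0 →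
    ∃ s ∈ S, s ∈ F ∧ s ≠ 0 ∧ ∃ f ∈ F, f ≠ 0 ∧ a = s * f ^ p := by
  classical
  have hpp : p.Prime := hpF.out
  haveI := LemC3_251.charZero (p := p) (Ω := Ω) inferInstance
  obtain ⟨hp1, hp0⟩ := LemC3_251.w_p w H.ext
  have hpΩ : (p : Ω) ≠ 0 := by
    intro h; rw [h, map_zero] at hp0; exact hp0 rfl
  haveI := H.alg
  have hwpos : 0 < w (p : Ω) := pos_iff_ne_zero.2 hp0
  obtain ⟨T, hT, hcov⟩ := net H (w (p : Ω) ^ (2 * p)) (by positivity)
  have hpK : (p : Ω) ∈ F ⊓ algebraicClosure ℚ_[p] Ω := _root_.natCast_mem _ p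
  refine ⟨T, fun a ha ha0 => ?_⟩
  obtain ⟨c, hc, f, hf, hc0, hf0, hac⟩ := kummer H a ha ha0
  -- normalise `c`
  have hy : (1 : ℝ≥0) < (w (p : Ω) ^ p)⁻¹ :=
    (one_lt_inv₀ (by positivity)).2 (pow_lt_one' hp1 hpp.pos.ne')
  have hwc0 : w c ≠ 0 := by rwa [Ne, map_eq_zero]
  obtain ⟨n, hn1, hn2⟩ := NNReal.exists_mem_Ico_zpow hwc0 hy
  set g : Ω := (p : Ω) ^ (n + 1) with hg
  have hgK : g ∈ F ⊓ algebraicClosure ℚ_[p] Ω := zpow_mem hpK _
  have hg0 : g ≠ 0 := zpow_ne_zero _ hpΩ
  have hwg : w (g ^ p) = (((w (p : Ω) ^ p)⁻¹) ^ (n + 1))⁻¹ := by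
    rw [map_pow, hg, map_zpow₀, ← inv_zpow, inv_inv, ← zpow_natCast, ← zpow_natCast,
      ← zpow_mul, ← zpow_mul, mul_comm]
  have hc1 : w (c * g ^ p) ≤ 1 := by
    rw [map_mul, hwg]
    exact (mul_inv_le_one_of_le₀ hn2.le zero_le)
  have hc2 : w (p : Ω) ^ p ≤ w (c * g ^ p) := by
    rw [map_mul, hwg]
    rw [le_mul_inv_iff₀ (zpow_pos (zero_lt_one.trans hy) _)]
    rw [zpow_add₀ (zero_lt_one.trans hy).ne', zpow_one]
    have h1 : w (p : Ω) ^ p * (((w (p : Ω) ^ p)⁻¹) ^ n * (w (p : Ω) ^ p)⁻¹) =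
        ((w (p : Ω) ^ p)⁻¹) ^ n := by
      rw [mul_comm (((w (p : Ω) ^ p)⁻¹) ^ n), ← mul_assoc, mul_inv_cancel₀ (by positivity), one_mul]
    rw [h1]
    exact hn1
  obtain ⟨t, ht, htc⟩ := hcov (c * g ^ p) (mul_mem hc (pow_mem hgK p)) hc1
  have hcg0 : c * g ^ p ≠ 0 := mul_ne_zero hc0 (pow_ne_zero _ hg0)
  have hlt : w (p : Ω) ^ (2 * p) < w (p : Ω) ^ p :=
    pow_lt_pow_right_of_lt_one₀ hwpos hp1 (by have := hpp.pos; omega)
  have hwt : w t = w (c * g ^ p) := by
    have h1 : t = c * g ^ p - (c * g ^ p - t) := by ring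
    rw [h1]
    exact Valuation.map_sub_eq_of_lt_left w ((htc.trans hlt).trans_le hc2)
  have ht0 : t ≠ 0 := by
    rintro rfl
    rw [map_zero] at hwt
    exact hcg0 ((map_eq_zero w).1 hwt.symm)
  have htF : t ∈ F := (hT t ht).1
  have hgF : g ∈ F := hgK.1
  obtain ⟨y, hyF, hy⟩ := near_one' H (c * g ^ p / t)
    (div_mem (mul_mem hc.1 (pow_mem hgF p)) htF) (by
      have h1 : 1 - c * g ^ p / t = - ((c * g ^ p - t) / t) := by field_simp; ring
      rw [h1, Valuation.map_neg, map_div₀, hwt, div_lt_iff₀ (lt_of_lt_of_le (by positivity) hc2)]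
      calc w (c * g ^ p - t) < w (p : Ω) ^ (2 * p) := htc
        _ = w (p : Ω) ^ p * w (p : Ω) ^ p := by rw [← pow_add]; congr 1; omega
        _ ≤ _ := mul_le_mul_right hc2 _)
  have hy0 : y ≠ 0 := by
    rintro rfl
    rw [zero_pow hpp.pos.ne'] at hy
    exact div_ne_zero hcg0 ht0 hy.symm
  refine ⟨t, ht, htF, ht0, y * g⁻¹ * f, mul_mem (mul_mem hyF (inv_mem hgF)) hf,
    mul_ne_zero (mul_ne_zero hy0 (inv_ne_zero hg0)) hf0, ?_⟩
  have h2 : c * g ^ p = t * y ^ p := by rw [hy]; field_simp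
  rw [hac, mul_pow, mul_pow, inv_pow]
  have h3 : g ^ p ≠ 0 := pow_ne_zero _ hg0
  field_simp
  linear_combination h2

/-- Two elements of an infinite family have the same class. -/
theorem pigeon (H : Hyp w F) {ι : Type*} [Infinite ι] (u : ι → Ω) (hu : ∀ i, u i ∈ F)
    (hu0 : ∀ i, u i ≠ 0) : ∃ i j, i ≠ j ∧ ∃ f ∈ F, u i / u j = f ^ p := by
  classical
  obtain ⟨S, hS⟩ := finite_classes H
  choose s hs hsF hs0 f hf hf0 he using fun i => hS (u i) (hu i) (hu0 i)
  obtain ⟨i, j, hij, h⟩ := Finite.exists_ne_map_eq_of_infinite (fun i => (⟨s i, hs i⟩ : S))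
  refine ⟨i, j, hij, f i / f j, div_mem (hf i) (hf j), ?_⟩
  have h1 : s i = s j := congrArg Subtype.val h
  rw [he i, he j, h1, div_pow]
  have := hs0 j
  have := hf0 j
  field_simp

/-- `F ∩ B` has a uniformizer. -/
theorem unif (H : Hyp w F) : ∃ π ∈ F ⊓ algebraicClosure ℚ_[p] Ω, π ≠ 0 ∧ w π < 1 ∧
    ∀ x ∈ F ⊓ algebraicClosure ℚ_[p] Ω, w x < 1 → w x ≤ w π := by
  classical
  have hpp : p.Prime := hpF.out
  obtain ⟨hp1, hp0⟩ := LemC3_251.w_p w H.ext
  have hpΩ : (p : Ω) ≠ 0 := by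
    intro h; rw [h, map_zero] at hp0; exact hp0 rfl
  have hwpos : 0 < w (p : Ω) := pos_iff_ne_zero.2 hp0
  obtain ⟨T, hT, hcov⟩ := net H (w (p : Ω)) hwpos
  have hpK : (p : Ω) ∈ F ⊓ algebraicClosure ℚ_[p] Ω := _root_.natCast_mem _ p
  let T' : Finset Ω := insert (p : Ω) (T.filter (fun t => w (p : Ω) ≤ w t ∧ w t < 1))
  obtain ⟨π, hπ, hmax⟩ := T'.exists_max_image w ⟨_, Finset.mem_insert_self _ _⟩
  have hpm : w (p : Ω) ≤ w π := hmax _ (Finset.mem_insert_self _ _)
  refine ⟨π, ?_, ?_, ?_, ?_⟩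
  · rw [Finset.mem_insert] at hπ
    rcases hπ with rfl | h
    · exact hpK
    · exact hT _ (Finset.mem_filter.1 h).1
  · rintro rfl
    rw [map_zero] at hpm
    exact absurd hwpos (not_lt.2 hpm)
  · rw [Finset.mem_insert] at hπ
    rcases hπ with rfl | h
    · exact hp1
    · exact (Finset.mem_filter.1 h).2.2
  · intro x hx hx1
    by_cases hxp : w x < w (p : Ω)
    · exact hxp.le.trans hpm
    · push Not at hxp
      obtain ⟨t, ht, htx⟩ := hcov x hx hx1.le
      have hwt : w t = w x := by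
        have h1 : t = x - (x - t) := by ring
        rw [h1]
        exact Valuation.map_sub_eq_of_lt_left w (htx.trans_le hxp)
      rw [← hwt]
      apply hmax
      rw [Finset.mem_insert, Finset.mem_filter]
      right
      exact ⟨ht, by rw [hwt]; exact hxp, by rw [hwt]; exact hx1⟩

/-- the value group of `F` is discrete -/
def Disc (w : Valuation Ω ℝ≥0) (F : IntermediateField ℚ_[p] Ω) : Prop :=
  ∃ ϖ ∈ F, ϖ ≠ 0 ∧ w ϖ < 1 ∧ ∀ x ∈ F, w x < 1 → w x ≤ w ϖ

theorem dense_one (H : Hyp w F) (hnd : ¬ Disc w F) (δ : ℝ≥0) (hδ : δ < 1) :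
    ∃ y ∈ F, δ < w y ∧ w y < 1 := by
  obtain ⟨hp1, hp0⟩ := LemC3_251.w_p w H.ext
  have hwpos : 0 < w (p : Ω) := pos_iff_ne_zero.2 hp0
  have hpΩ : (p : Ω) ≠ 0 := by
    intro h; rw [h, map_zero] at hp0; exact hp0 rfl
  by_contra hcon
  push Not at hcon
  have key : ∀ n : ℕ, ∃ y ∈ F, w (p : Ω) ≤ δ ^ n * w y ∧ w y < 1 := by
    intro n
    induction n with
    | zero => exact ⟨p, _root_.natCast_mem _ p, by simp, hp1⟩
    | succ n ih =>
      obtain ⟨y, hy, h1, h2⟩ := ih
      have hy0 : y ≠ 0 := by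
        rintro rfl
        rw [map_zero, mul_zero] at h1
        exact absurd hwpos (not_lt.2 h1)
      have h3 : ∃ x ∈ F, w x < 1 ∧ w y < w x := by
        by_contra hc
        push Not at hc
        exact hnd ⟨y, hy, hy0, h2, hc⟩
      obtain ⟨x, hx, hx1, hx2⟩ := h3
      have hwx : 0 < w x := lt_of_le_of_lt zero_le hx2
      have h4 : w (y / x) ≤ δ := by
        by_contra hc
        push Not at hc
        have h5 := hcon (y / x) (div_mem hy hx) hc
        rw [map_div₀] at h5
        exact absurd ((div_lt_one hwx).2 hx2) (not_lt.2 h5)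
      rw [map_div₀, div_le_iff₀ hwx] at h4
      refine ⟨x, hx, ?_, hx1⟩
      calc w (p : Ω) ≤ δ ^ n * w y := h1
        _ ≤ δ ^ n * (δ * w x) := mul_le_mul_right h4 _
        _ = δ ^ (n + 1) * w x := by ring
  obtain ⟨n, hn⟩ := NNReal.exists_pow_lt_of_lt_one hwpos hδ
  obtain ⟨y, -, h1, h2⟩ := key n
  have h3 : δ ^ n * w y ≤ δ ^ n := mul_le_of_le_one_right' h2.le
  exact absurd (h1.trans (h3.trans hn.le)) (not_le.2 (lt_of_le_of_ne (h1.trans h3) (by
    intro h4
    rw [← h4] at hn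
    exact lt_irrefl _ hn) |>.trans hn |>.trans_le (le_refl _) |> fun h => absurd h (lt_irrefl _)))

theorem dense (H : Hyp w F) (hnd : ¬ Disc w F) (r s : ℝ≥0) (hrs : r < s) :
    ∃ x ∈ F, r < w x ∧ w x < s := by
  have hs : 0 < s := lt_of_le_of_lt zero_le hrs
  obtain ⟨y, hy, h1, h2⟩ := dense_one H hnd (r / s) ((div_lt_one hs).2 hrs)
  have hwy : 0 < w y := lt_of_le_of_lt zero_le h1
  obtain ⟨n, hn1, hn2⟩ := NNReal.exists_mem_Ioc_zpow hs.ne' ((one_lt_inv₀ hwy).2 h2)
  refine ⟨y⁻¹ ^ n, zpow_mem (inv_mem hy) _, ?_, ?_⟩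
  · rw [map_zpow₀, map_inv₀]
    rw [zpow_add₀ (inv_ne_zero hwy.ne'), zpow_one] at hn2
    rw [div_lt_iff₀ hs] at h1
    calc r < w y * s := h1
      _ ≤ w y * ((w y)⁻¹ ^ n * (w y)⁻¹) := mul_le_mul_right hn2 _
      _ = (w y)⁻¹ ^ n := by
        rw [mul_comm ((w y)⁻¹ ^ n), ← mul_assoc, mul_inv_cancel₀ hwy.ne', one_mul]
  · rw [map_zpow₀, map_inv₀]
    exact hn1

/-- If the value group is not discrete, the value group is `p`-divisible and the residue field is
perfect. -/
theorem approx_pow (H : Hyp w F) (hnd : ¬ Disc w F) (a : Ω) (ha : a ∈ F) (ha0 : a ≠ 0) :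
    ∃ d ∈ F, w (a - d ^ p) < w a := by
  classical
  have hpp : p.Prime := hpF.out
  obtain ⟨hp1, hp0⟩ := LemC3_251.w_p w H.ext
  have hwpos : 0 < w (p : Ω) := pos_iff_ne_zero.2 hp0
  have hwa : 0 < w a := pos_iff_ne_zero.2 (by rwa [Ne, map_eq_zero])
  have hq : 0 < p - 1 := by have := hpp.two_le; omega
  -- the interval of values of `h`
  set r : ℝ≥0 := (w (p : Ω) / w a) ^ ((p : ℝ)⁻¹) with hr
  set s : ℝ≥0 := (1 / w a) ^ ((p : ℝ)⁻¹) with hs
  have hrp : r ^ p = w (p : Ω) / w a := NNReal.rpow_inv_natCast_pow _ hpp.pos.ne'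
  have hsp : s ^ p = 1 / w a := NNReal.rpow_inv_natCast_pow _ hpp.pos.ne'
  have hrs : r < s := by
    refine lt_of_pow_lt_pow_left₀ p zero_le ?_
    rw [hrp, hsp]
    exact div_lt_div_of_pos_right hp1 hwa
  let V : Type := {v : ℝ≥0 // r < v ∧ v < s ∧ ∃ x ∈ F, w x = v}
  haveI : Nonempty V := by
    obtain ⟨x, hx, h1, h2⟩ := dense H hnd r s hrs
    exact ⟨⟨w x, h1, h2, x, hx, rfl⟩⟩
  haveI : NoMaxOrder V := by
    refine ⟨fun v => ?_⟩
    obtain ⟨x, hx, h1, h2⟩ := dense H hnd v.1 s v.2.2.1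
    exact ⟨⟨w x, v.2.1.trans h1, h2, x, hx, rfl⟩, h1⟩
  haveI : Infinite V := NoMaxOrder.infinite
  have hV : ∀ v : V, ∃ x ∈ F, w x = v.1 := fun v => v.2.2.2
  choose h hhF hwh using hV
  have hlt1 : ∀ v : V, w (a * h v ^ p) < 1 := by
    intro v
    rw [map_mul, map_pow, hwh]
    have h1 : v.1 ^ p < s ^ p := pow_lt_pow_left₀ v.2.2.1 zero_le hpp.pos.ne'
    rw [hsp, lt_div_iff₀ hwa] at h1
    rwa [mul_comm]
  have hgtp : ∀ v : V, w (p : Ω) < w (a * h v ^ p) := by
    intro v
    rw [map_mul, map_pow, hwh]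
    have h1 : r ^ p < v.1 ^ p := pow_lt_pow_left₀ v.2.1 zero_le hpp.pos.ne'
    rw [hrp, div_lt_iff₀ hwa] at h1
    rwa [mul_comm]
  have hw1 : ∀ v : V, w (1 + a * h v ^ p) = 1 := by
    intro v
    rw [Valuation.map_add_eq_of_lt_left, map_one]
    rw [map_one]; exact hlt1 v
  have hu0 : ∀ v : V, 1 + a * h v ^ p ≠ 0 := by
    intro v h0
    have := hw1 v
    rw [h0, map_zero] at this
    exact zero_ne_one this
  obtain ⟨i, j, hij, f, hf, hfe⟩ := pigeon H (fun v : V => 1 + a * h v ^ p)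
    (fun v => add_mem (one_mem F) (mul_mem ha (pow_mem (hhF v) p))) hu0
  -- normal form: `w (h j) < w (h i)`
  have key : ∀ i j : V, ∀ f ∈ F, i.1 > j.1 → (1 + a * h i ^ p) / (1 + a * h j ^ p) = f ^ p →
      ∃ d ∈ F, w (a - d ^ p) < w a := by
    intro i j f hf hlt hfe
    have hwi : w (a * h j ^ p) < w (a * h i ^ p) := by
      rw [map_mul, map_pow, hwh, map_mul, map_pow, hwh]
      exact mul_lt_mul_of_pos_left (pow_lt_pow_left₀ hlt zero_le hpp.pos.ne') hwa
    have hwf : w f = 1 := by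
      have h1 : w f ^ p = 1 := by rw [← map_pow, ← hfe, map_div₀, hw1, hw1, div_one]
      exact (pow_eq_one_iff_of_nonneg zero_le hpp.pos.ne').1 h1
    set y := f - 1 with hy
    have hy1 : w y ≤ 1 := (w.map_sub _ _).trans (by simp [hwf])
    have hyf : 1 + y = f := by rw [hy]; ring
    have hval : (1 + y) ^ p - 1 = a * (h i ^ p - h j ^ p) / (1 + a * h j ^ p) := by
      rw [hyf, ← hfe]
      have := hu0 j
      field_simp
      ring
    have hwval : w ((1 + y) ^ p - 1) = w (a * h i ^ p) := by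
      rw [hval, map_div₀, hw1, div_one]
      have : a * (h i ^ p - h j ^ p) = a * h i ^ p - a * h j ^ p := by ring
      rw [this]
      exact Valuation.map_sub_eq_of_lt_left w hwi
    have hbig : w (p : Ω) ^ p < w ((1 + y) ^ p - 1) ^ (p - 1) := by
      rw [hwval]
      calc w (p : Ω) ^ p ≤ w (p : Ω) ^ (p - 1) :=
            pow_le_pow_right_of_le_one' hp1.le (Nat.sub_le _ _)
        _ < w (a * h i ^ p) ^ (p - 1) := pow_lt_pow_left₀ (hgtp i) zero_le hq.ne'
    obtain ⟨h3, h4⟩ := LemC2_251.large w hpp hp0 y hy1 hbig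
    have hhi0 : h i ≠ 0 := by
      intro h0
      have := hgtp i
      rw [h0, zero_pow hpp.pos.ne', mul_zero, map_zero] at this
      exact absurd this (not_lt.2 zero_le)
    refine ⟨y / h i, div_mem (sub_mem hf (one_mem F)) (hhF i), ?_⟩
    have h5 : w (a * h i ^ p - y ^ p) < w (a * h i ^ p) := by
      have h6 : a * h i ^ p - y ^ p = (a * h i ^ p - ((1 + y) ^ p - 1)) +
          ((1 + y) ^ p - 1 - y ^ p) := by ring
      rw [h6]
      refine w.map_add_lt ?_ ?_
      · have h7 : a * h i ^ p - ((1 + y) ^ p - 1) =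
            (a * h i ^ p * (a * h j ^ p) + a * h j ^ p) / (1 + a * h j ^ p) := by
          rw [hval]
          have := hu0 j
          field_simp
          ring
        rw [h7, map_div₀, hw1, div_one]
        refine w.map_add_lt ?_ hwi
        rw [map_mul]
        calc w (a * h i ^ p) * w (a * h j ^ p) ≤ 1 * w (a * h j ^ p) :=
              mul_le_mul_left (hlt1 i).le _
          _ < _ := by rw [one_mul]; exact hwi
      · rw [← hwval, h3]; exact h4
    have h8 : a - (y / h i) ^ p = (a * h i ^ p - y ^ p) / h i ^ p := by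
      rw [div_pow]
      have : h i ^ p ≠ 0 := pow_ne_zero _ hhi0
      field_simp
    rw [h8, map_div₀]
    have h9 : 0 < w (h i ^ p) := pos_iff_ne_zero.2 (by
      rw [Ne, map_eq_zero]; exact pow_ne_zero _ hhi0)
    rw [div_lt_iff₀ h9]
    rw [map_mul] at h5
    exact h5
  rcases lt_or_gt_of_ne (fun h => hij (Subtype.ext h) : i.1 ≠ j.1) with h1 | h1
  · refine key j i f⁻¹ (inv_mem hf) h1 ?_
    rw [inv_pow, ← hfe, inv_div]
  · exact key i j f hf h1 hfe

end Crest.Agent.R013.LemC4_251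
end

-- ▼ part R013/LemC5_251
section

/-!
# R013, leaf LEMC (helper758's LEMMA C): the discrete case   (helper251)

If the value group of `F` is discrete then `F` is finite over `ℚ_p`.
-/

set_option autoImplicit false
set_option linter.unusedSectionVars false
set_option linter.style.haveILetI false
set_option linter.unusedVariables false

open scoped NNReal
open IntermediateField Crest.Agent.R013 Crest.Agent.R013.LemC4_251

namespace Crest.Agent.R013.LemC5_251

variable {p : ℕ} [hpF : Fact p.Prime] {Ω : Type*} [Field Ω] [Algebra ℚ_[p] Ω] [IsAlgClosed Ω]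
  {w : Valuation Ω ℝ≥0} {F : IntermediateField ℚ_[p] Ω}

/-- The value group is generated by `w ϖ`. -/
theorem value_zpow {K : IntermediateField ℚ_[p] Ω} {ϖ : Ω} (hϖ : ϖ ∈ K) (hϖ0 : ϖ ≠ 0)
    (hϖ1 : w ϖ < 1) (hmax : ∀ x ∈ K, w x < 1 → w x ≤ w ϖ) (x : Ω) (hx : x ∈ K) (hx0 : x ≠ 0) :
    ∃ n : ℤ, w x = w ϖ ^ n := by
  have hwϖ : 0 < w ϖ := pos_iff_ne_zero.2 (by rwa [Ne, map_eq_zero])
  have hwx : w x ≠ 0 := by rwa [Ne, map_eq_zero]
  obtain ⟨n, hn1, hn2⟩ := NNReal.exists_mem_Ico_zpow hwx ((one_lt_inv₀ hwϖ).2 hϖ1)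
  have hz : w (x * ϖ ^ n) = w x * w ϖ ^ n := by rw [map_mul, map_zpow₀]
  have h1 : 1 ≤ w (x * ϖ ^ n) := by
    rw [hz]
    rw [inv_zpow] at hn1
    exact (inv_le_iff_one_le_mul₀ (zpow_pos hwϖ n)).1 hn1
  have h2 : w (x * ϖ ^ n) * w ϖ < 1 := by
    rw [hz, mul_assoc, ← zpow_add_one₀ hwϖ.ne']
    rw [inv_zpow] at hn2
    exact (lt_inv_mul_iff₀ (zpow_pos hwϖ _)).1 (by rwa [mul_one]) |> fun h => by rwa [mul_comm]
  have h3 : w (x * ϖ ^ n) = 1 := by
    refine le_antisymm ?_ h1
    by_contra hcon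
    push Not at hcon
    have h4 : w ((x * ϖ ^ n)⁻¹) < 1 := by
      rw [map_inv₀]
      exact inv_lt_one_of_one_lt₀ hcon
    have h5 := hmax _ (inv_mem (mul_mem hx (zpow_mem hϖ n))) h4
    rw [map_inv₀, inv_le_iff_one_le_mul₀ (zero_lt_one.trans hcon), mul_comm] at h5
    exact absurd h2 (not_lt.2 h5)
  refine ⟨-n, ?_⟩
  rw [hz] at h3
  rw [zpow_neg]
  exact eq_inv_of_mul_eq_one_left h3

theorem residue_finite (H : Hyp w F) {ϖ : Ω} (hϖ : ϖ ∈ F) (hϖ0 : ϖ ≠ 0)
    (hϖ1 : w ϖ < 1) (hmax : ∀ x ∈ F, w x < 1 → w x ≤ w ϖ) :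
    ∃ R : Finset Ω, (∀ r ∈ R, r ∈ F) ∧ ∀ x ∈ F, w x ≤ 1 → ∃ r ∈ R, w (x - r) < 1 := by
  classical
  have hpp : p.Prime := hpF.out
  obtain ⟨hp1, hp0⟩ := LemC3_251.w_p w H.ext
  have hwpos : 0 < w (p : Ω) := pos_iff_ne_zero.2 hp0
  have hwϖ : 0 < w ϖ := pos_iff_ne_zero.2 (by rwa [Ne, map_eq_zero])
  have hq : 0 < p - 1 := by have := hpp.two_le; omega
  let K0 : Type _ := {x : IsLocalRing.ResidueField w.valuationSubring //
    ∃ c ∈ F, w c ≤ 1 ∧ LemC2_251.res w c = x}
  have hK0 : ∀ v : K0, ∃ c ∈ F, w c ≤ 1 ∧ LemC2_251.res w c = v.1 := fun v => v.2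
  choose c hcF hc1 hcv using hK0
  have hw1 : ∀ v : K0, w (1 + c v * ϖ) = 1 := by
    intro v
    rw [Valuation.map_add_eq_of_lt_left, map_one]
    rw [map_one, map_mul, mul_comm]
    exact mul_lt_one_of_lt_of_le hϖ1 (hc1 v)
  have hu0 : ∀ v : K0, 1 + c v * ϖ ≠ 0 := by
    intro v h0
    have := hw1 v
    rw [h0, map_zero] at this
    exact zero_ne_one this
  have hfin : Finite K0 := by
    by_contra hinf
    rw [not_finite_iff_infinite] at hinf
    obtain ⟨i, j, hij, f, hf, hfe⟩ := pigeon H (fun v : K0 => 1 + c v * ϖ)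
      (fun v => add_mem (one_mem F) (mul_mem (hcF v) hϖ)) hu0
    have hwf : w f = 1 := by
      have h1 : w f ^ p = 1 := by rw [← map_pow, ← hfe, map_div₀, hw1, hw1, div_one]
      exact (pow_eq_one_iff_of_nonneg zero_le hpp.pos.ne').1 h1
    have hcij : w (c i - c j) = 1 := by
      apply LemC2_251.w_sub_eq_one w (hc1 i) (hc1 j)
      rw [hcv, hcv]
      exact fun h => hij (Subtype.ext h)
    set y := f - 1 with hy
    have hy1 : w y ≤ 1 := (w.map_sub _ _).trans (by simp [hwf])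
    have hyf : 1 + y = f := by rw [hy]; ring
    have hval : w ((1 + y) ^ p - 1) = w ϖ := by
      rw [hyf, ← hfe]
      have h1 : (1 + c i * ϖ) / (1 + c j * ϖ) - 1 = (c i - c j) * ϖ / (1 + c j * ϖ) := by
        rw [div_sub_one (hu0 j)]
        congr 1
        ring
      rw [h1, map_div₀, map_mul, hcij, hw1, one_mul, div_one]
    have hpϖ : w (p : Ω) ≤ w ϖ := hmax _ (_root_.natCast_mem _ p) hp1
    have hbig : w (p : Ω) ^ p < w ((1 + y) ^ p - 1) ^ (p - 1) := by
      rw [hval]
      calc w (p : Ω) ^ p < w (p : Ω) ^ (p - 1) :=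
            pow_lt_pow_right_of_lt_one₀ hwpos hp1 (Nat.sub_lt hpp.pos one_pos)
        _ ≤ w ϖ ^ (p - 1) := pow_le_pow_left' hpϖ _
    obtain ⟨h3, -⟩ := LemC2_251.large w hpp hp0 y hy1 hbig
    rw [hval] at h3
    have hylt : w y < 1 := by
      by_contra hcon
      push Not at hcon
      have : (1 : ℝ≥0) ≤ w y ^ p := one_le_pow_of_one_le' hcon _
      rw [← h3] at this
      exact absurd hϖ1 (not_lt.2 this)
    have h4 := hmax y (sub_mem hf (one_mem F)) hylt
    have h5 : w y ^ p ≤ w ϖ ^ p := pow_le_pow_left' h4 _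
    have h6 : w ϖ ^ p < w ϖ := by
      calc w ϖ ^ p < w ϖ ^ 1 := pow_lt_pow_right_of_lt_one₀ hwϖ hϖ1 hpp.one_lt
        _ = w ϖ := pow_one _
    rw [← h3] at h5
    exact absurd h6 (not_lt.2 h5)
  haveI := Fintype.ofFinite K0
  refine ⟨Finset.univ.image c, ?_, ?_⟩
  · intro r hr
    rw [Finset.mem_image] at hr
    obtain ⟨v, -, rfl⟩ := hr
    exact hcF v
  · intro x hx hx1
    let v : K0 := ⟨LemC2_251.res w x, x, hx, hx1, rfl⟩
    refine ⟨c v, Finset.mem_image_of_mem _ (Finset.mem_univ _), ?_⟩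
    rw [← LemC2_251.res_eq w hx1 (hc1 v), hcv v]

theorem discrete (H : Hyp w F) (hd : Disc w F) : F ≤ algebraicClosure ℚ_[p] Ω := by
  classical
  have hpp : p.Prime := hpF.out
  obtain ⟨hp1, hp0⟩ := LemC3_251.w_p w H.ext
  have hpΩ : (p : Ω) ≠ 0 := by
    intro h; rw [h, map_zero] at hp0; exact hp0 rfl
  have hwpos : 0 < w (p : Ω) := pos_iff_ne_zero.2 hp0
  obtain ⟨ϖ, hϖ, hϖ0, hϖ1, hmax⟩ := hd
  have hwϖ : 0 < w ϖ := pos_iff_ne_zero.2 (by rwa [Ne, map_eq_zero])
  obtain ⟨R, hRF, hR⟩ := residue_finite H hϖ hϖ0 hϖ1 hmax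
  obtain ⟨e', he'⟩ := value_zpow hϖ hϖ0 hϖ1 hmax (p : Ω) (_root_.natCast_mem _ p) hpΩ
  have he'0 : 0 < e' := by
    by_contra hcon
    push Not at hcon
    have : 1 ≤ w ϖ ^ e' := one_le_zpow_of_nonpos₀ hwϖ hϖ1.le hcon
    rw [← he'] at this
    exact absurd hp1 (not_lt.2 this)
  obtain ⟨e, rfl⟩ := Int.eq_ofNat_of_zero_le he'0.le
  have he0 : 0 < e := by exact_mod_cast he'0
  rw [zpow_natCast] at he'
  -- the finite dimensional space
  let G : Finset Ω := (Finset.range e ×ˢ R).image (fun q => ϖ ^ q.1 * q.2)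
  let V : Submodule ℚ_[p] Ω := Submodule.span ℚ_[p] (G : Set Ω)
  haveI : FiniteDimensional ℚ_[p] V := FiniteDimensional.span_finset ℚ_[p] G
  have hGV : ∀ i < e, ∀ r ∈ R, ϖ ^ i * r ∈ V := by
    intro i hi r hr
    apply Submodule.subset_span
    exact Finset.mem_coe.2 (Finset.mem_image.2 ⟨(i, r), Finset.mem_product.2
      ⟨Finset.mem_range.2 hi, hr⟩, rfl⟩)
  have hVF : ∀ v ∈ V, v ∈ F := by
    intro v hv
    have : V ≤ Subalgebra.toSubmodule F.toSubalgebra := by
      rw [Submodule.span_le]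
      intro x hx
      have hx' := Finset.mem_coe.1 hx
      rw [Finset.mem_image] at hx'
      obtain ⟨q, hq, rfl⟩ := hx'
      have h : ϖ ^ q.1 * q.2 ∈ F := mul_mem (pow_mem hϖ _) (hRF _ (Finset.mem_product.1 hq).2)
      exact h
    exact this hv
  have hpV : ∀ (m : ℕ) (v : Ω), v ∈ V → (p : Ω) ^ m * v ∈ V := by
    intro m v hv
    have : (p : Ω) ^ m * v = ((p : ℚ_[p]) ^ m) • v := by
      rw [Algebra.smul_def]; simp
    rw [this]
    exact V.smul_mem _ hv
  have key : ∀ n : ℕ, ∀ x ∈ F, w x ≤ 1 → ∃ v ∈ V, w (x - v) ≤ w ϖ ^ n := by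
    intro n x hx hx1
    induction n with
    | zero => exact ⟨0, V.zero_mem, by simpa using hx1⟩
    | succ n ih =>
      obtain ⟨v, hv, hvn⟩ := ih
      set d : Ω := (p : Ω) ^ (n / e) * ϖ ^ (n % e) with hd
      have hwd : w d = w ϖ ^ n := by
        rw [hd, map_mul, map_pow, map_pow, he', ← pow_mul, ← pow_add, Nat.div_add_mod]
      have hd0 : d ≠ 0 := mul_ne_zero (pow_ne_zero _ hpΩ) (pow_ne_zero _ hϖ0)
      have hdF : d ∈ F := mul_mem (pow_mem (_root_.natCast_mem _ p) _) (pow_mem hϖ _)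
      have hwd0 : 0 < w d := pos_iff_ne_zero.2 (by rwa [Ne, map_eq_zero])
      have hzF : (x - v) / d ∈ F := div_mem (sub_mem hx (hVF v hv)) hdF
      obtain ⟨r, hr, hzr⟩ := hR ((x - v) / d) hzF (by
        rw [map_div₀, div_le_one hwd0, hwd]; exact hvn)
      have h1 := hmax _ (sub_mem hzF (hRF r hr)) hzr
      refine ⟨v + (p : Ω) ^ (n / e) * (ϖ ^ (n % e) * r),
        V.add_mem hv (hpV _ _ (hGV _ (Nat.mod_lt _ he0) r hr)), ?_⟩
      have h2 : x - (v + (p : Ω) ^ (n / e) * (ϖ ^ (n % e) * r)) = d * ((x - v) / d - r) := by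
        rw [mul_sub, mul_div_cancel₀ _ hd0, hd]
        ring
      rw [h2, map_mul, hwd, pow_succ]
      exact mul_le_mul_right h1 _
  have hint : ∀ x ∈ F, w x ≤ 1 → x ∈ V := by
    intro x hx hx1
    apply LemC3_251.closed w H.ext V
    intro ε hε
    obtain ⟨n, hn⟩ := NNReal.exists_pow_lt_of_lt_one hε hϖ1
    obtain ⟨v, hv, h⟩ := key n x hx hx1
    exact ⟨v, hv, h.trans_lt hn⟩
  have hall : ∀ x ∈ F, x ∈ V := by
    intro x hx
    by_cases hx0 : x = 0
    · rw [hx0]; exact V.zero_mem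
    have hwx : 0 < w x := pos_iff_ne_zero.2 (by rwa [Ne, map_eq_zero])
    obtain ⟨n, hn⟩ := NNReal.exists_pow_lt_of_lt_one (inv_pos.2 hwx) hp1
    have h1 : (p : Ω) ^ n * x ∈ V := by
      apply hint _ (mul_mem (pow_mem (_root_.natCast_mem _ p) _) hx)
      rw [map_mul, map_pow]
      have := mul_le_mul_left hn.le (w x)
      rwa [inv_mul_cancel₀ hwx.ne'] at this
    have h2 : x = ((p : ℚ_[p]) ^ n)⁻¹ • ((p : Ω) ^ n * x) := by
      rw [Algebra.smul_def, map_inv₀, map_pow, map_natCast, ← mul_assoc,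
        inv_mul_cancel₀ (pow_ne_zero _ hpΩ), one_mul]
    rw [h2]
    exact V.smul_mem _ h1
  have hle : Subalgebra.toSubmodule F.toSubalgebra ≤ V := fun x hx => hall x hx
  haveI : FiniteDimensional ℚ_[p] (Subalgebra.toSubmodule F.toSubalgebra) :=
    Submodule.finiteDimensional_of_le hle
  haveI : FiniteDimensional ℚ_[p] F := this
  haveI := Algebra.IsAlgebraic.of_finite ℚ_[p] F
  intro x hx
  rw [mem_algebraicClosure_iff]
  have h1 : IsAlgebraic ℚ_[p] (⟨x, hx⟩ : F) := Algebra.IsAlgebraic.isAlgebraic _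
  exact h1.algebraMap

end Crest.Agent.R013.LemC5_251
end

-- ▼ part R013/LemC6_251
section

/-!
# R013, leaf LEMC (helper758's LEMMA C): the non-discrete case, norms from the unramified
extension of degree `p`   (helper251)
-/

set_option autoImplicit false
set_option linter.unusedSectionVars false
set_option linter.style.haveILetI false
set_option linter.unusedVariables false

open scoped NNReal
open IntermediateField Polynomial Crest.Agent.R013 Crest.Agent.R013.LemC4_251

namespace Crest.Agent.R013.LemC6_251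

variable {p : ℕ} [hpF : Fact p.Prime] {Ω : Type*} [Field Ω] [Algebra ℚ_[p] Ω] [IsAlgClosed Ω]
  {w : Valuation Ω ℝ≥0} {F : IntermediateField ℚ_[p] Ω}

/-- A constant `c` such that `X ^ p - X - c` has no root in the residue field of `F ∩ B`. -/
theorem exists_as (H : Hyp w F) : ∃ c ∈ F ⊓ algebraicClosure ℚ_[p] Ω, w c ≤ 1 ∧
    ∀ y ∈ F ⊓ algebraicClosure ℚ_[p] Ω, w y ≤ 1 → ¬ w (y ^ p - y - c) < 1 := by
  classical
  have hpp : p.Prime := hpF.out
  by_contra hcon
  push Not at hcon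
  let K1 : Type _ := {x : IsLocalRing.ResidueField w.valuationSubring //
    ∃ c ∈ F ⊓ algebraicClosure ℚ_[p] Ω, w c ≤ 1 ∧ LemC2_251.res w c = x}
  obtain ⟨T, hT, hcov⟩ := net H 1 one_pos
  haveI : Finite K1 := by
    have hinj : Function.Injective (fun v : K1 => (⟨v.1, by
      obtain ⟨c, hc, hc1, hcv⟩ := v.2
      obtain ⟨t, ht, htc⟩ := hcov c hc hc1
      refine Finset.mem_coe.2 (Finset.mem_image.2 ⟨t, ht, ?_⟩)
      rw [← hcv, eq_comm]
      have hwt : w t ≤ 1 := by
        have h1 : t = c - (c - t) := by ring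
        rw [h1]
        exact (w.map_sub _ _).trans (max_le hc1 htc.le)
      rw [LemC2_251.res_eq w hc1 hwt]
      exact htc⟩ : ((T.image (LemC2_251.res w) :
        Finset (IsLocalRing.ResidueField w.valuationSubring)) :
        Set (IsLocalRing.ResidueField w.valuationSubring)))) := by
      intro a b hab
      have h1 := congrArg Subtype.val hab
      exact Subtype.ext h1
    exact Finite.of_injective _ hinj
  let φ : K1 → K1 := fun v => ⟨v.1 ^ p - v.1, by
    obtain ⟨c, hc, hc1, hcv⟩ := v.2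
    refine ⟨c ^ p - c, sub_mem (pow_mem hc p) hc, ?_, ?_⟩
    · exact (w.map_sub _ _).trans (max_le (by rw [map_pow]; exact pow_le_one' hc1 _) hc1)
    · rw [LemC2_251.res_sub w (by rw [map_pow]; exact pow_le_one' hc1 _) hc1,
        LemC2_251.res_pow w hc1, hcv]⟩
  have hsurj : Function.Surjective φ := by
    intro v
    obtain ⟨c, hc, hc1, hcv⟩ := v.2
    obtain ⟨y, hy, hy1, hyc⟩ := hcon c hc hc1
    refine ⟨⟨LemC2_251.res w y, y, hy, hy1, rfl⟩, Subtype.ext ?_⟩
    change LemC2_251.res w y ^ p - LemC2_251.res w y = v.1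
    rw [← hcv, ← LemC2_251.res_pow w hy1, ← LemC2_251.res_sub w (by
      rw [map_pow]; exact pow_le_one' hy1 _) hy1, LemC2_251.res_eq w _ hc1]
    · exact hyc
    · exact (w.map_sub _ _).trans (max_le (by rw [map_pow]; exact pow_le_one' hy1 _) hy1)
  have hinj := Finite.injective_iff_surjective.2 hsurj
  let z0 : K1 := ⟨0, 0, zero_mem _, by simp, LemC2_251.res_zero w⟩
  let z1 : K1 := ⟨1, 1, one_mem _, by simp, LemC2_251.res_one w⟩
  have h01 : φ z0 = φ z1 := by
    apply Subtype.ext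
    change (0 : IsLocalRing.ResidueField w.valuationSubring) ^ p - 0 = 1 ^ p - 1
    rw [zero_pow hpp.pos.ne', one_pow, sub_self, sub_self]
  have := congrArg Subtype.val (hinj h01)
  exact zero_ne_one this

/-- The Artin-Schreier root and the Galois orbit. -/
theorem exists_gen (H : Hyp w F) : ∃ (y : Ω) (τ : Ω ≃ₐ[F] Ω), y ∈ algebraicClosure ℚ_[p] Ω ∧
    w y ≤ 1 ∧ (∃ c ∈ F, y ^ p - y = c) ∧
    (∀ i j : Fin p, i ≠ j → ¬ w ((τ ^ (i : ℕ)) y - (τ ^ (j : ℕ)) y) < 1) ∧
    (∀ σ : Ω ≃ₐ[F] Ω, ∃ i : Fin p, σ y = (τ ^ (i : ℕ)) y) := by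
  classical
  have hpp : p.Prime := hpF.out
  haveI := LemC3_251.charZero (p := p) (Ω := Ω) inferInstance
  haveI := H.alg
  obtain ⟨hp1, hp0⟩ := LemC3_251.w_p w H.ext
  obtain ⟨c, hc, hc1, hcno⟩ := exists_as H
  -- the root
  obtain ⟨y, hy⟩ : ∃ y : Ω, y ^ p - y = c := by
    have hdeg : (X ^ p - X - C c : Polynomial Ω).degree ≠ 0 := by
      have h1 : (X ^ p - X - C c : Polynomial Ω) = X ^ p - (X + C c) := by ring
      rw [h1, degree_sub_eq_left_of_degree_lt]
      · rw [degree_X_pow]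
        exact_mod_cast hpp.pos.ne'
      · rw [degree_X_pow]
        refine lt_of_le_of_lt (degree_add_le _ _) ?_
        rw [degree_X]
        refine max_lt ?_ ?_
        · exact_mod_cast hpp.one_lt
        · exact lt_of_le_of_lt degree_C_le (by exact_mod_cast hpp.pos)
    obtain ⟨y, hy⟩ := IsAlgClosed.exists_root _ hdeg
    refine ⟨y, ?_⟩
    simp only [IsRoot.def, eval_sub, eval_pow, eval_X, eval_C] at hy
    linear_combination hy
  have hy1 : w y ≤ 1 := LemC2_251.as_int w hpp hc1 hy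
  have hyB : y ∈ algebraicClosure ℚ_[p] Ω := by
    rw [mem_algebraicClosure_iff]
    have hcB : c ∈ algebraicClosure ℚ_[p] Ω := hc.2
    have h1 : IsAlgebraic (algebraicClosure ℚ_[p] Ω) y := by
      refine ⟨X ^ p - X - C ⟨c, hcB⟩, ?_, ?_⟩
      · intro h0
        have h2 := congrArg (fun q => Polynomial.coeff q p) h0
        simp only [coeff_sub, coeff_X_pow, coeff_X, coeff_C, coeff_zero] at h2
        simp [hpp.one_lt.ne, hpp.pos.ne'] at h2
      · simp only [map_sub, map_pow, aeval_X, aeval_C]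
        change y ^ p - y - c = 0
        rw [hy, sub_self]
    exact h1.restrictScalars _
  have hyF : y ∉ F := by
    intro h
    apply hcno y ⟨h, hyB⟩ hy1
    rw [hy, sub_self, map_zero]
    exact one_pos
  have hconj : ∀ σ : Ω ≃ₐ[F] Ω, σ y ^ p - σ y = c := by
    intro σ
    rw [← map_pow, ← map_sub, hy, LemC1_251.apply_mem F σ c hc.1]
  have hσ1 : ∀ σ : Ω ≃ₐ[F] Ω, w (σ y) ≤ 1 := fun σ => by rw [H.inv]; exact hy1
  have hsep : ∀ σ σ' : Ω ≃ₐ[F] Ω, w (σ y - σ' y) < 1 → σ y = σ' y := by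
    intro σ σ' h
    exact LemC2_251.as_sep w hpp hp1 (hσ1 σ') (hσ1 σ) ((hconj σ').trans (hconj σ).symm) h
  obtain ⟨τ, hτ⟩ : ∃ τ : Ω ≃ₐ[F] Ω, τ y ≠ y := by
    by_contra hcon
    push Not at hcon
    exact hyF (LemC1_251.fixed_mem F y hcon)
  obtain ⟨m, hm⟩ := LemC2_251.as_diff w hpp hp1 hy1 (hσ1 τ) (hy.trans (hconj τ).symm)
  have hmp : ¬ p ∣ m := by
    rintro ⟨q, rfl⟩
    apply hτ
    have h1 : w (((p * q : ℕ) : Ω)) < 1 := by
      push_cast
      rw [map_mul]
      exact mul_lt_one_of_lt_of_le hp1 (Ax_280.w_nat_le_one w q)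
    have h2 : w (τ y - (1 : Ω ≃ₐ[F] Ω) y) < 1 := by
      have h3 : τ y - (1 : Ω ≃ₐ[F] Ω) y = (τ y - (y + ((p * q : ℕ) : Ω))) + ((p * q : ℕ) : Ω) := by
        rw [AlgEquiv.one_apply]; ring
      rw [h3]
      exact w.map_add_lt hm h1
    simpa using hsep τ 1 h2
  have hiter : ∀ i : ℕ, w ((τ ^ i) y - (y + (i : Ω) * m)) < 1 := by
    intro i
    induction i with
    | zero => simp
    | succ i ih =>
      have h1 : (τ ^ (i + 1)) y - (y + ((i + 1 : ℕ) : Ω) * m) =
          (τ ^ i) (τ y - (y + m)) + ((τ ^ i) y - (y + (i : Ω) * m)) := by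
        rw [pow_succ, AlgEquiv.mul_apply, map_sub, map_add, map_natCast]
        push_cast
        ring
      rw [h1]
      refine w.map_add_lt ?_ ih
      rw [H.inv]
      exact hm
  refine ⟨y, τ, hyB, hy1, ⟨c, hc.1, hy⟩, ?_, ?_⟩
  · -- distinctness
    have hmain : ∀ i j : ℕ, i < j → j < p → ¬ w ((τ ^ i) y - (τ ^ j) y) < 1 := by
      intro i j hij hjp hlt
      have h1 : ((j - i : ℕ) : Ω) * m = (y + (j : Ω) * m - (τ ^ j) y) -
          (y + (i : Ω) * m - (τ ^ i) y) - ((τ ^ i) y - (τ ^ j) y) := by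
        rw [Nat.cast_sub hij.le]; ring
      have h2 : w (((j - i : ℕ) : Ω) * m) < 1 := by
        rw [h1]
        refine w.map_sub_lt (w.map_sub_lt ?_ ?_) hlt
        · rw [w.map_sub_swap]; exact hiter j
        · rw [w.map_sub_swap]; exact hiter i
      have h3 : w (((j - i : ℕ) : Ω) * m) = 1 := by
        rw [map_mul, Ax_280.w_of_not_dvd w hpp hp1 hmp, mul_one,
          Ax_280.w_of_not_dvd w hpp hp1]
        intro hd
        have := Nat.le_of_dvd (by omega) hd
        omega
      exact absurd h3 h2.ne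
    intro i j hij
    rcases lt_or_gt_of_ne (fun h => hij (Fin.ext h) : (i : ℕ) ≠ j) with h | h
    · exact hmain i j h j.2
    · rw [w.map_sub_swap]
      exact hmain j i h i.2
  · intro σ
    obtain ⟨a, ha⟩ := LemC2_251.as_diff w hpp hp1 hy1 (hσ1 σ) (hy.trans (hconj σ).symm)
    -- find i with i m ≡ a mod p
    haveI : NeZero p := ⟨hpp.pos.ne'⟩
    have hm0 : (m : ZMod p) ≠ 0 := by
      rw [Ne, ZMod.natCast_eq_zero_iff]; exact hmp
    set i : ZMod p := (a : ZMod p) / m with hi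
    have him : ((i.val * m : ℕ) : ZMod p) = a := by
      push_cast
      rw [ZMod.natCast_zmod_val, hi, div_mul_cancel₀ _ hm0]
    have hw : w (((a : ℤ) - (i.val * m : ℕ) : ℤ) : Ω) < 1 := by
      have h1 : (p : ℤ) ∣ (a : ℤ) - (i.val * m : ℕ) := by
        rw [← ZMod.intCast_eq_intCast_iff_dvd_sub]
        simp only [Int.cast_natCast]
        exact him
      obtain ⟨q, hq⟩ := h1
      rw [hq]
      push_cast
      rw [map_mul]
      exact mul_lt_one_of_lt_of_le hp1 (Ax_280.w_int_le_one w q)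
    refine ⟨⟨i.val, ZMod.val_lt i⟩, ?_⟩
    apply hsep σ (τ ^ i.val)
    have h2 : σ y - (τ ^ i.val) y = (σ y - (y + a)) - ((τ ^ i.val) y - (y + (i.val : Ω) * m)) +
        (((a : ℤ) - (i.val * m : ℕ) : ℤ) : Ω) := by
      push_cast
      ring
    rw [h2]
    exact w.map_add_lt (w.map_sub_lt ha (hiter _)) hw

end Crest.Agent.R013.LemC6_251
end

-- ▼ part R013/LemC7_251
section

/-!
# R013, leaf LEMC (helper758's LEMMA C): the theorem   (helper251)

`lemmaC` : `k/ℚ_p` finite, `Ω` algebraically closed over `ℚ_p` with a rank one valuation `w`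
extending the `p`-adic norm, `F` an intermediate field, `Ω/F` algebraic, `w` invariant under
`Gal(Ω/F)` (i.e. `F` henselian), `F ⊓ B` finite over `ℚ_p`, `F ⊔ B = ⊤` (`B` the algebraic closure
of `ℚ_p` in `Ω`).  Then `F ≤ B`, so `F` is finite over `ℚ_p`.
-/

set_option autoImplicit false
set_option linter.unusedSectionVars false
set_option linter.style.haveILetI false
set_option linter.unusedVariables false

open scoped NNReal
open IntermediateField Crest.Agent.R013 Crest.Agent.R013.LemC4_251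

namespace Crest.Agent.R013.LemC7_251

variable {p : ℕ} [hpF : Fact p.Prime] {Ω : Type*} [Field Ω] [Algebra ℚ_[p] Ω] [IsAlgClosed Ω]
  {w : Valuation Ω ℝ≥0} {F : IntermediateField ℚ_[p] Ω}

theorem prod_one_add {ι : Type*} (s : Finset ι) (θ : ι → Ω) (hθ : ∀ i ∈ s, w (θ i) ≤ 1) (a : Ω)
    (ha : w a ≤ 1) : w (∏ i ∈ s, (1 + a * θ i) - 1 - a * ∑ i ∈ s, θ i) ≤ w a ^ 2 := by
  classical
  induction s using Finset.induction_on with
  | empty => simp
  | insert b s hb ih =>
    have hs : ∀ i ∈ s, w (θ i) ≤ 1 := fun i hi => hθ i (Finset.mem_insert_of_mem hi)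
    have hb1 : w (θ b) ≤ 1 := hθ b (Finset.mem_insert_self _ _)
    rw [Finset.prod_insert hb, Finset.sum_insert hb]
    set P := ∏ i ∈ s, (1 + a * θ i) with hP
    set S := ∑ i ∈ s, θ i with hS
    have hS1 : w S ≤ 1 := LemC2_251.w_sum_le w _ _ _ hs
    have h1 : (1 + a * θ b) * P - 1 - a * (θ b + S) =
        (P - 1 - a * S) * (1 + a * θ b) + a ^ 2 * (θ b * S) := by ring
    rw [h1]
    refine (w.map_add _ _).trans (max_le ?_ ?_)
    · rw [map_mul]
      refine (mul_le_of_le_one_right' ?_).trans (ih hs)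
      refine (w.map_add _ _).trans (max_le (by simp) ?_)
      rw [map_mul]
      exact mul_le_one' ha hb1
    · rw [map_mul, map_pow, map_mul]
      exact mul_le_of_le_one_right' (mul_le_one' hb1 hS1)

section gen

variable (H : Hyp w F) {y : Ω} {τ : Ω ≃ₐ[F] Ω} (hyB : y ∈ algebraicClosure ℚ_[p] Ω)
  (hy1 : w y ≤ 1)
  (hdist : ∀ i j : Fin p, i ≠ j → ¬ w ((τ ^ (i : ℕ)) y - (τ ^ (j : ℕ)) y) < 1)
  (horb : ∀ σ : Ω ≃ₐ[F] Ω, ∃ i : Fin p, σ y = (τ ^ (i : ℕ)) y)

include hdist horb in
theorem exists_perm (σ : Ω ≃ₐ[F] Ω) :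
    ∃ e : Fin p ≃ Fin p, ∀ i : Fin p, σ ((τ ^ (i : ℕ)) y) = (τ ^ (e i : ℕ)) y := by
  choose g hg using fun i : Fin p => horb (σ * τ ^ (i : ℕ))
  have hinj : Function.Injective g := by
    intro i j hij
    by_contra hne
    have h1 : σ ((τ ^ (i : ℕ)) y) = σ ((τ ^ (j : ℕ)) y) := by
      have h2 := hg i
      have h3 := hg j
      rw [AlgEquiv.mul_apply] at h2 h3
      rw [h2, h3, hij]
    have h4 := σ.injective h1
    apply hdist i j hne
    rw [h4, sub_self, map_zero]
    exact one_pos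
  exact ⟨Equiv.ofBijective g (Finite.injective_iff_bijective.1 hinj), fun i => hg i⟩

/-- the norm of `aeval y r` -/
noncomputable def Nm (τ : Ω ≃ₐ[F] Ω) (y : Ω) (r : Polynomial F) : Ω :=
  ∏ i : Fin p, Polynomial.aeval ((τ ^ (i : ℕ)) y) r

theorem map_aeval (σ : Ω ≃ₐ[F] Ω) (z : Ω) (r : Polynomial F) :
    σ (Polynomial.aeval z r) = Polynomial.aeval (σ z) r := by
  have := Polynomial.aeval_algHom_apply (σ : Ω →ₐ[F] Ω) z r
  exact this.symm

include H hdist horb in
theorem Nm_mem (r : Polynomial F) : Nm (p := p) τ y r ∈ F := by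
  haveI := H.alg
  haveI := LemC3_251.charZero (p := p) (Ω := Ω) inferInstance
  apply LemC1_251.fixed_mem F
  intro σ
  obtain ⟨e, he⟩ := exists_perm hdist horb σ
  rw [Nm, map_prod]
  simp_rw [map_aeval, he]
  exact Equiv.prod_comp e (fun i : Fin p => Polynomial.aeval ((τ ^ (i : ℕ)) y) r)

include H in
theorem w_Nm (r : Polynomial F) : w (Nm (p := p) τ y r) = w (Polynomial.aeval y r) ^ p := by
  rw [Nm, map_prod]
  simp_rw [← map_aeval, H.inv]
  simp

theorem Nm_mul (r s : Polynomial F) :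
    Nm (p := p) τ y (r * s) = Nm (p := p) τ y r * Nm (p := p) τ y s := by
  rw [Nm, Nm, Nm, ← Finset.prod_mul_distrib]
  simp

include H hdist horb hy1 in
/-- A trace one element. -/
theorem exists_trace : ∃ (m : ℕ) (t : Ω), t ∈ F ∧ w t = 1 ∧
    ∑ i : Fin p, ((τ ^ (i : ℕ)) y) ^ m = t := by
  haveI := H.alg
  haveI := LemC3_251.charZero (p := p) (Ω := Ω) inferInstance
  obtain ⟨m, hm⟩ := LemC2_251.vdm_cols w hpF.out.pos (fun i : Fin p => (τ ^ (i : ℕ)) y)
    (fun i => by rw [H.inv]; exact hy1) hdist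
  refine ⟨m, _, ?_, hm, rfl⟩
  apply LemC1_251.fixed_mem F
  intro σ
  obtain ⟨e, he⟩ := exists_perm hdist horb σ
  rw [map_sum]
  simp_rw [map_pow, he]
  exact Equiv.sum_comp e (fun i : Fin p => ((τ ^ (i : ℕ)) y) ^ (m : ℕ))

include H hdist horb hy1 in
/-- Units near `1` are norms. -/
theorem unit_norm (u : Ω) (hu : u ∈ F) (hu1 : w (1 - u) < 1) :
    ∃ r : Polynomial F, Polynomial.aeval y r ≠ 0 ∧ ∃ h ∈ F, h ≠ 0 ∧
      u = Nm (p := p) τ y r * h ^ p := by
  have hpp : p.Prime := hpF.out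
  haveI := LemC3_251.charZero (p := p) (Ω := Ω) inferInstance
  obtain ⟨hp1, hp0⟩ := LemC3_251.w_p w H.ext
  have hwpos : 0 < w (p : Ω) := pos_iff_ne_zero.2 hp0
  obtain ⟨m, t, ht, hwt, hsum⟩ := exists_trace H hy1 hdist horb
  have ht0 : t ≠ 0 := by
    rintro rfl
    rw [map_zero] at hwt
    exact zero_ne_one hwt
  have hτ1 : ∀ i : ℕ, w ((τ ^ i) y) ≤ 1 := fun i => by rw [H.inv]; exact hy1
  -- the elements `1 + a θ`
  have hstep : ∀ a ∈ F, w a < 1 → ∃ r : Polynomial F, w (Polynomial.aeval y r) = 1 ∧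
      w (Nm (p := p) τ y r - 1 - a) ≤ w a ^ 2 := by
    intro a ha ha1
    let a' : F := ⟨a / t, div_mem ha ht⟩
    refine ⟨1 + Polynomial.C a' * Polynomial.X ^ m, ?_, ?_⟩
    · have h1 : Polynomial.aeval y (1 + Polynomial.C a' * Polynomial.X ^ m : Polynomial F) =
          1 + a / t * y ^ m := by
        simp [a']
      rw [h1, Valuation.map_add_eq_of_lt_left, map_one]
      rw [map_one, map_mul, map_div₀, hwt, div_one, map_pow]
      exact mul_lt_one_of_lt_of_le ha1 (pow_le_one' hy1 _)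
    · have h2 : Nm (p := p) τ y (1 + Polynomial.C a' * Polynomial.X ^ m : Polynomial F) =
          ∏ i : Fin p, (1 + a * (((τ ^ (i : ℕ)) y) ^ m / t)) := by
        rw [Nm]
        refine Finset.prod_congr rfl fun i _ => ?_
        have h3 : Polynomial.aeval ((τ ^ (i : ℕ)) y)
            (1 + Polynomial.C a' * Polynomial.X ^ m : Polynomial F) =
            1 + a / t * ((τ ^ (i : ℕ)) y) ^ m := by
          simp [a']
        rw [h3]
        ring
      have h4 : ∑ i : Fin p, ((τ ^ (i : ℕ)) y) ^ m / t = 1 := by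
        rw [← Finset.sum_div, hsum, div_self ht0]
      have h5 := prod_one_add (w := w) Finset.univ (fun i : Fin p => ((τ ^ (i : ℕ)) y) ^ m / t)
        (fun i _ => by
          rw [map_div₀, hwt, div_one, map_pow]
          exact pow_le_one' (hτ1 _) _) a ha1.le
      rw [h4, mul_one] at h5
      rw [h2]
      exact h5
  have hiter : ∀ n : ℕ, ∃ r : Polynomial F, w (Polynomial.aeval y r) = 1 ∧
      w (1 - u / Nm (p := p) τ y r) ≤ w (1 - u) ^ (n + 1) := by
    intro n
    induction n with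
    | zero =>
      refine ⟨1, by simp, ?_⟩
      have : Nm (p := p) τ y (1 : Polynomial F) = 1 := by simp [Nm]
      rw [this, div_one, zero_add, pow_one]
    | succ n ih =>
      obtain ⟨r, hr1, hr⟩ := ih
      set u' := u / Nm (p := p) τ y r with hu'
      have hNF := Nm_mem H hdist horb r
      have hwN : w (Nm (p := p) τ y r) = 1 := by rw [w_Nm H, hr1, one_pow]
      have hN0 : Nm (p := p) τ y r ≠ 0 := by
        intro h0
        rw [h0, map_zero] at hwN
        exact zero_ne_one hwN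
      have ha' : w (u' - 1) ≤ w (1 - u) ^ (n + 1) := by rw [w.map_sub_swap]; exact hr
      have ha1 : w (u' - 1) < 1 := ha'.trans_lt (pow_lt_one' hu1 (Nat.succ_ne_zero n))
      obtain ⟨r', hr'1, hr'⟩ := hstep (u' - 1) (sub_mem (div_mem hu hNF) (one_mem F)) ha1
      have hwN' : w (Nm (p := p) τ y r') = 1 := by rw [w_Nm H, hr'1, one_pow]
      have hN'0 : Nm (p := p) τ y r' ≠ 0 := by
        intro h0
        rw [h0, map_zero] at hwN'
        exact zero_ne_one hwN'
      refine ⟨r * r', by rw [map_mul, map_mul, hr1, hr'1, one_mul], ?_⟩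
      have h1 : 1 - u / Nm (p := p) τ y (r * r') =
          (Nm (p := p) τ y r' - 1 - (u' - 1)) / Nm (p := p) τ y r' := by
        rw [Nm_mul, hu']
        field_simp
        ring
      rw [h1, map_div₀, hwN', div_one]
      refine hr'.trans ?_
      calc w (u' - 1) ^ 2 = w (u' - 1) * w (u' - 1) := pow_two _
        _ ≤ w (1 - u) ^ (n + 1) * w (1 - u) ^ (n + 1) := mul_le_mul' ha' ha'
        _ ≤ w (1 - u) ^ (n + 1) * w (1 - u) ^ 1 :=
            mul_le_mul_right (pow_le_pow_right_of_le_one' hu1.le (by omega)) _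
        _ = w (1 - u) ^ (n + 1 + 1) := by rw [pow_one, pow_succ (w (1 - u)) (n + 1)]
  obtain ⟨n, hn⟩ := NNReal.exists_pow_lt_of_lt_one (a := w (p : Ω) ^ p) (by positivity) hu1
  obtain ⟨r, hr1, hr⟩ := hiter n
  have hNF := Nm_mem H hdist horb r
  have hwN : w (Nm (p := p) τ y r) = 1 := by rw [w_Nm H, hr1, one_pow]
  have hN0 : Nm (p := p) τ y r ≠ 0 := by
    intro h0
    rw [h0, map_zero] at hwN
    exact zero_ne_one hwN
  have hlt : w (1 - u / Nm (p := p) τ y r) < w (p : Ω) ^ p := by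
    refine (hr.trans ?_).trans_lt hn
    exact pow_le_pow_right_of_le_one' hu1.le (Nat.le_succ n)
  obtain ⟨h, hh, hhe⟩ := near_one' H _ (div_mem hu hNF) hlt
  have hu0 : u ≠ 0 := by
    rintro rfl
    rw [sub_zero, map_one] at hu1
    exact lt_irrefl _ hu1
  refine ⟨r, ?_, h, hh, ?_, ?_⟩
  · intro h0
    rw [h0, map_zero] at hr1
    exact zero_ne_one hr1
  · rintro rfl
    rw [zero_pow hpp.pos.ne'] at hhe
    exact div_ne_zero hu0 hN0 hhe.symm
  · rw [hhe, mul_div_cancel₀ _ hN0]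

include H hyB hdist hy1 in
/-- `F(y) ∩ B` is unramified over `F ∩ B`. -/
theorem value_unram (hc : ∃ c ∈ F, y ^ p - y = c) (s : Polynomial F)
    (hsB : Polynomial.aeval y s ∈ algebraicClosure ℚ_[p] Ω) (hs0 : Polynomial.aeval y s ≠ 0) :
    ∃ e ∈ F ⊓ algebraicClosure ℚ_[p] Ω, e ≠ 0 ∧ w (Polynomial.aeval y s) = w e := by
  classical
  have hpp : p.Prime := hpF.out
  haveI := H.alg
  haveI := LemC3_251.charZero (p := p) (Ω := Ω) inferInstance
  obtain ⟨c, hcF, hyc⟩ := hc
  let q : Polynomial F := Polynomial.X ^ p - (Polynomial.X + Polynomial.C ⟨c, hcF⟩)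
  have hqdeg : (Polynomial.X + Polynomial.C (⟨c, hcF⟩ : F) : Polynomial F).degree < p := by
    refine lt_of_le_of_lt (Polynomial.degree_add_le _ _) ?_
    rw [Polynomial.degree_X]
    refine max_lt ?_ ?_
    · exact_mod_cast hpp.one_lt
    · exact lt_of_le_of_lt Polynomial.degree_C_le (by exact_mod_cast hpp.pos)
  have hqm : q.Monic := Polynomial.monic_X_pow_sub (by
    have h1 : ((p : ℕ) : WithBot ℕ) = ((p - 1 : ℕ) : WithBot ℕ) + 1 := by
      have : p = (p - 1) + 1 := by have := hpp.two_le; omega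
      exact_mod_cast this
    exact hqdeg)
  have hqd : q.degree = p := by
    rw [Polynomial.degree_sub_eq_left_of_degree_lt] <;> rw [Polynomial.degree_X_pow]
    exact hqdeg
  have hq0 : Polynomial.aeval y q = 0 := by
    simp only [q, map_sub, map_add, map_pow, Polynomial.aeval_X, Polynomial.aeval_C]
    change y ^ p - (y + c) = 0
    rw [← hyc]; ring
  set s' := s %ₘ q with hs'
  have hs'e : Polynomial.aeval y s' = Polynomial.aeval y s :=
    Polynomial.aeval_modByMonic_eq_self_of_root hq0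
  have hs'd : s'.natDegree < p := by
    have h1 : s'.degree < p := by
      rw [← hqd]
      exact Polynomial.degree_modByMonic_lt _ hqm
    by_cases h0 : s' = 0
    · rw [h0, Polynomial.natDegree_zero]; exact hpp.pos
    · exact (Polynomial.natDegree_lt_iff_degree_lt h0).2 h1
  rw [← hs'e] at hsB hs0 ⊢
  have hsum : Polynomial.aeval y s' = ∑ i ∈ Finset.range p, (s'.coeff i : Ω) * y ^ i := by
    rw [Polynomial.aeval_eq_sum_range' hs'd]
    rfl
  rw [hsum] at hsB
  obtain ⟨g, hg, hgs⟩ := LemC1_251.inf_adjoin F H.sup (Finset.range p)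
    (fun i => (s'.coeff i : Ω)) (fun i => y ^ i) (fun i _ => (s'.coeff i).2)
    (fun i _ => pow_mem hyB i) hsB
  have hx : Polynomial.aeval y s' = ∑ i ∈ Finset.range p, g i * y ^ i := hsum.trans hgs
  set x := Polynomial.aeval y s' with hxdef
  obtain ⟨j0, hj0, hmax⟩ := (Finset.range p).exists_max_image (fun i => w (g i))
    ⟨0, Finset.mem_range.2 hpp.pos⟩
  have hgj0 : g j0 ≠ 0 := by
    intro h0
    apply hs0
    rw [hx]
    refine Finset.sum_eq_zero fun i hi => ?_
    have h1 := hmax i hi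
    rw [h0, map_zero] at h1
    have h2 : g i = 0 := (map_eq_zero w).1 (le_antisymm h1 zero_le)
    rw [h2, zero_mul]
  have hwg : 0 < w (g j0) := pos_iff_ne_zero.2 (by rwa [Ne, map_eq_zero])
  refine ⟨g j0, hg j0 hj0, hgj0, ?_⟩
  by_contra hne
  have hle : w x ≤ w (g j0) := by
    rw [hx]
    apply LemC2_251.w_sum_le
    intro i hi
    rw [map_mul, map_pow]
    exact (mul_le_of_le_one_right' (pow_le_one' hy1 _)).trans (hmax i hi)
  have hlt : w x < w (g j0) := lt_of_le_of_ne hle hne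
  have key := LemC2_251.vdm_rows w (fun i : Fin p => (τ ^ (i : ℕ)) y)
    (fun i : Fin p => g i / g j0) (fun i => by rw [H.inv]; exact hy1)
    (fun i => by
      rw [map_div₀, div_le_one hwg]
      exact hmax i (Finset.mem_range.2 i.2)) hdist
    (fun j => by
      have h1 : ∑ i : Fin p, g i / g j0 * ((τ ^ (j : ℕ)) y) ^ (i : ℕ) =
          (τ ^ (j : ℕ)) (x / g j0) := by
        rw [hx, Finset.sum_div, map_sum, Finset.sum_range (fun i => (τ ^ (j : ℕ)) (g i * y ^ i / g j0))]
        refine Finset.sum_congr rfl fun i _ => ?_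
        rw [map_div₀, map_mul, map_pow, LemC1_251.apply_mem F _ _ (hg i (Finset.mem_range.2 i.2)).1,
          LemC1_251.apply_mem F _ _ (hg j0 hj0).1]
        ring
      rw [h1, H.inv, map_div₀, div_lt_one hwg]
      exact hlt) ⟨j0, Finset.mem_range.1 hj0⟩
  simp only at key
  rw [div_self hgj0, map_one] at key
  exact lt_irrefl _ key

end gen

/-- **LEMMA C** (helper758). -/
theorem lemmaC (H : Hyp w F) : F ≤ algebraicClosure ℚ_[p] Ω := by
  classical
  by_cases hd : Disc w F
  · exact LemC5_251.discrete H hd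
  exfalso
  have hpp : p.Prime := hpF.out
  haveI := LemC3_251.charZero (p := p) (Ω := Ω) inferInstance
  haveI := H.alg
  obtain ⟨π, hπ, hπ0, hπ1, hmax⟩ := unif H
  obtain ⟨y, τ, hyB, hy1, hyc, hdist, horb⟩ := LemC6_251.exists_gen H
  have hwπ : 0 < w π := pos_iff_ne_zero.2 (by rwa [Ne, map_eq_zero])
  -- `π = d ^ p * u`
  obtain ⟨d, hd, hdπ⟩ := approx_pow H hd π hπ.1 hπ0
  have hwd : w (d ^ p) = w π := by
    have h1 : d ^ p = π - (π - d ^ p) := by ring
    rw [h1]
    exact Valuation.map_sub_eq_of_lt_left w hdπ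
  have hdp0 : d ^ p ≠ 0 := by
    intro h0
    rw [h0, map_zero] at hwd
    exact absurd hwd.symm hwπ.ne'
  obtain ⟨r, hr0, h, hh, hh0, hu⟩ := unit_norm H hy1 hdist horb (π / d ^ p)
    (div_mem hπ.1 (pow_mem hd p)) (by
      have h1 : 1 - π / d ^ p = -((π - d ^ p) / d ^ p) := by field_simp; ring
      rw [h1, Valuation.map_neg, map_div₀, hwd, div_lt_one hwπ]
      exact hdπ)
  -- Kummer theory over `F(y)`
  let F1 : IntermediateField ℚ_[p] Ω := (IntermediateField.adjoin F {y}).restrictScalars ℚ_[p]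
  have hFF1 : F ≤ F1 := by
    intro x hx
    exact (IntermediateField.adjoin F {y}).algebraMap_mem ⟨x, hx⟩
  haveI : Algebra.IsAlgebraic F1 Ω := by
    have : Algebra.IsAlgebraic (IntermediateField.adjoin F {y}) Ω :=
      Algebra.IsAlgebraic.tower_top (K := F) _
    exact this
  have hsup1 : F1 ⊔ algebraicClosure ℚ_[p] Ω = ⊤ := by
    rw [eq_top_iff, ← H.sup]
    exact sup_le_sup_right hFF1 _
  have hF1 : ∀ x ∈ F1, ∃ s : Polynomial F, x = Polynomial.aeval y s := by
    intro x hx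
    have h1 : x ∈ (IntermediateField.adjoin F {y}).toSubalgebra := hx
    rw [IntermediateField.adjoin_simple_toSubalgebra_of_isAlgebraic
      (Algebra.IsAlgebraic.isAlgebraic y), Algebra.adjoin_singleton_eq_range_aeval] at h1
    obtain ⟨s, hs⟩ := h1
    exact ⟨s, hs.symm⟩
  have hF1' : ∀ s : Polynomial F, Polynomial.aeval y s ∈ F1 := by
    intro s
    have h1 : Polynomial.aeval y s ∈ (IntermediateField.adjoin F {y}).toSubalgebra := by
      rw [IntermediateField.adjoin_simple_toSubalgebra_of_isAlgebraic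
        (Algebra.IsAlgebraic.isAlgebraic y), Algebra.adjoin_singleton_eq_range_aeval]
      exact ⟨s, rfl⟩
    exact h1
  haveI : NeZero p := ⟨hpp.pos.ne'⟩
  haveI : NeZero (p : Ω) := ⟨by exact_mod_cast hpp.pos.ne'⟩
  obtain ⟨ζ, hζ⟩ : ∃ ζ : Ω, IsPrimitiveRoot ζ p := HasEnoughRootsOfUnity.exists_primitiveRoot Ω p
  have hζB : ζ ∈ algebraicClosure ℚ_[p] Ω := by
    rw [mem_algebraicClosure_iff]
    exact (hζ.isIntegral hpp.pos).tower_top.isAlgebraic
  obtain ⟨c, hc, g, hg, hc0, hg0, hcg⟩ :=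
    LemC1_251.kummer F1 hsup1 hpp.pos hζ hζB _ (hF1' r) hr0
  obtain ⟨sc, hsc⟩ := hF1 c hc.1
  obtain ⟨sg, hsg⟩ := hF1 g hg
  -- norms
  have hN : Nm (p := p) τ y r = Nm (p := p) τ y sc * Nm (p := p) τ y sg ^ p := by
    rw [Nm, Nm, Nm, ← Finset.prod_pow, ← Finset.prod_mul_distrib]
    refine Finset.prod_congr rfl fun i _ => ?_
    rw [← map_aeval, ← map_aeval, ← map_aeval, hcg, ← hsc, ← hsg, map_mul, map_pow]
  have hN1F := Nm_mem H hdist horb sc
  have hN2F := Nm_mem H hdist horb sg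
  have hN1B : Nm (p := p) τ y sc ∈ algebraicClosure ℚ_[p] Ω := by
    rw [Nm]
    refine prod_mem fun i _ => ?_
    rw [← map_aeval, ← hsc]
    exact LemC1_251.map_mem_B F _ c hc.2
  obtain ⟨e, he, he0, hwe⟩ := value_unram H hyB hy1 hdist hyc sc (by rw [← hsc]; exact hc.2)
    (by rw [← hsc]; exact hc0)
  have hwN1 : w (Nm (p := p) τ y sc) = w e ^ p := by rw [w_Nm H, hwe]
  have hN10 : Nm (p := p) τ y sc ≠ 0 := by
    intro h0
    rw [h0, map_zero] at hwN1
    exact he0 ((map_eq_zero w).1 (pow_eq_zero_iff hpp.pos.ne' |>.1 hwN1.symm))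
  set D : Ω := d * h * Nm (p := p) τ y sg with hD
  have hDπ : π = D ^ p * Nm (p := p) τ y sc := by
    have h1 : π = (π / d ^ p) * d ^ p := by rw [div_mul_cancel₀ _ hdp0]
    rw [h1, hu, hN, hD]
    ring
  have hDF : D ∈ F := mul_mem (mul_mem hd hh) hN2F
  have hDB : D ∈ algebraicClosure ℚ_[p] Ω := by
    have h1 : D ^ p ∈ algebraicClosure ℚ_[p] Ω := by
      have h2 : D ^ p = π / Nm (p := p) τ y sc := by
        rw [hDπ, mul_div_cancel_right₀ _ hN10]
      rw [h2]
      exact div_mem hπ.2 hN1B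
    rw [mem_algebraicClosure_iff] at h1 ⊢
    exact IsAlgebraic.of_pow hpp.pos h1
  have hval : w π = w (D * e) ^ p := by
    calc w π = w (D ^ p * Nm (p := p) τ y sc) := congrArg w hDπ
      _ = w (D ^ p) * w (Nm (p := p) τ y sc) := w.map_mul _ _
      _ = w D ^ p * w e ^ p := by rw [hwN1, w.map_pow]
      _ = w (D * e) ^ p := by rw [← mul_pow, ← w.map_mul]
  have hDe1 : w (D * e) < 1 := by
    by_contra hcon
    push Not at hcon
    have h1 : (1 : ℝ≥0) ≤ w (D * e) ^ p := one_le_pow_of_one_le' hcon _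
    rw [← hval] at h1
    exact absurd hπ1 (not_lt.2 h1)
  have h1 := hmax (D * e) (mul_mem ⟨hDF, hDB⟩ he) hDe1
  have h2 : w (D * e) ^ p ≤ w π ^ p := pow_le_pow_left' h1 _
  have h3 : w π ^ p < w π := by
    calc w π ^ p < w π ^ 1 := pow_lt_pow_right_of_lt_one₀ hwπ hπ1 hpp.one_lt
      _ = w π := pow_one _
  rw [← hval] at h2
  exact absurd h3 (not_lt.2 h2)

end Crest.Agent.R013.LemC7_251
end

-- ▼ part R013/LemC8_251
section

/-!
# R013, leaf LEMC: LEMMA C in the shape of helper275 (#2506)   (helper251)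

`k/ℚ_p` finite, `F` a field over `k`, `Ω` algebraically closed and algebraic over `F`,
`W : Valuation Ω ℝ≥0` extending the `p`-adic norm and invariant under `Gal(Ω/F)`,
`algebraicClosure k F = ⊥`, and every element of `Gal(Ω/F)` that fixes the elements of `Ω`
algebraic over `k` is trivial.  Then `k → F` is surjective.
-/

set_option autoImplicit false
set_option linter.unusedSectionVars false
set_option linter.style.haveILetI false
set_option linter.unusedVariables false

open scoped NNReal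
open IntermediateField Crest.Agent.R013

namespace Crest.Agent.R013.LemC8_251

theorem lemC {p : ℕ} [Fact p.Prime] {k F Ω : Type*} [Field k] [Algebra ℚ_[p] k]
    [FiniteDimensional ℚ_[p] k] [Field F] [Algebra k F] [Field Ω] [IsAlgClosed Ω] [Algebra F Ω]
    [Algebra.IsAlgebraic F Ω] [Algebra k Ω] [IsScalarTower k F Ω]
    (W : Valuation Ω ℝ≥0)
    (hW : ∀ q : ℚ_[p], W (algebraMap k Ω (algebraMap ℚ_[p] k q)) = ‖q‖₊)
    (hinv : ∀ (t : Ω ≃ₐ[F] Ω) (a : Ω), W (t a) = W a)
    (hcl : algebraicClosure k F = ⊥)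
    (hfaith : ∀ t : Ω ≃ₐ[F] Ω, (∀ a : Ω, IsAlgebraic k a → t a = a) → t = 1) :
    Function.Surjective (algebraMap k F) := by
  classical
  letI : Algebra ℚ_[p] Ω := ((algebraMap k Ω).comp (algebraMap ℚ_[p] k)).toAlgebra
  letI : Algebra ℚ_[p] F := ((algebraMap k F).comp (algebraMap ℚ_[p] k)).toAlgebra
  haveI : IsScalarTower ℚ_[p] k Ω := IsScalarTower.of_algebraMap_eq fun _ => rfl
  haveI : IsScalarTower ℚ_[p] k F := IsScalarTower.of_algebraMap_eq fun _ => rfl
  haveI : IsScalarTower ℚ_[p] F Ω := IsScalarTower.of_algebraMap_eq fun x => by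
    change algebraMap k Ω (algebraMap ℚ_[p] k x) = algebraMap F Ω (algebraMap k F _)
    rw [← IsScalarTower.algebraMap_apply k F Ω]
  haveI hcz : CharZero Ω := LemC3_251.charZero (p := p) (Ω := Ω) inferInstance
  haveI : Algebra.IsAlgebraic ℚ_[p] k := Algebra.IsAlgebraic.of_finite _ _
  -- the intermediate field
  let F' : IntermediateField ℚ_[p] Ω := (IsScalarTower.toAlgHom ℚ_[p] F Ω).fieldRange
  have hF' : ∀ x : Ω, x ∈ F' ↔ ∃ y : F, algebraMap F Ω y = x := by
    intro x
    rw [AlgHom.mem_fieldRange]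
    rfl
  -- elements of `F'` algebraic over `ℚ_p` come from `k`
  have hk : ∀ x : F, IsAlgebraic ℚ_[p] (algebraMap F Ω x) → ∃ y : k, algebraMap k F y = x := by
    intro x hx
    have h1 : IsAlgebraic ℚ_[p] x := by
      rwa [isAlgebraic_algebraMap_iff (algebraMap F Ω).injective] at hx
    have h2 : IsAlgebraic k x := h1.extendScalars (algebraMap ℚ_[p] k).injective
    have h3 : x ∈ algebraicClosure k F := mem_algebraicClosure_iff.2 h2
    rw [hcl, IntermediateField.mem_bot] at h3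
    exact h3
  haveI hF'alg : Algebra.IsAlgebraic F' Ω := by
    refine ⟨fun x => ?_⟩
    obtain ⟨q, hq0, hq⟩ := Algebra.IsAlgebraic.isAlgebraic (R := F) x
    let φ : F →+* F' :=
      { toFun := fun y => ⟨algebraMap F Ω y, (hF' _).2 ⟨y, rfl⟩⟩
        map_one' := by ext; simp
        map_mul' := fun a b => by ext; simp
        map_zero' := by ext; simp
        map_add' := fun a b => by ext; simp }
    refine ⟨q.map φ, ?_, ?_⟩
    · rwa [Ne, Polynomial.map_eq_zero]
    · rw [Polynomial.aeval_def, Polynomial.eval₂_map]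
      exact hq
  -- automorphisms over `F'` are automorphisms over `F`
  have hlift : ∀ σ : Ω ≃ₐ[F'] Ω, ∃ t : Ω ≃ₐ[F] Ω, ∀ a, t a = σ a := by
    intro σ
    refine ⟨AlgEquiv.ofRingEquiv (f := σ.toRingEquiv) (fun y => ?_), fun a => rfl⟩
    have h1 : algebraMap F Ω y = algebraMap F' Ω ⟨algebraMap F Ω y, (hF' _).2 ⟨y, rfl⟩⟩ := rfl
    rw [h1]
    exact σ.commutes _
  have hsup : F' ⊔ algebraicClosure ℚ_[p] Ω = ⊤ := by
    rw [eq_top_iff]
    intro x _
    haveI : Algebra.IsAlgebraic (F' ⊔ algebraicClosure ℚ_[p] Ω : IntermediateField ℚ_[p] Ω) Ω := by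
      refine ⟨fun z => ?_⟩
      obtain ⟨q, hq0, hq⟩ := Algebra.IsAlgebraic.isAlgebraic (R := F') z
      refine ⟨q.map (IntermediateField.inclusion le_sup_left).toRingHom, ?_, ?_⟩
      · rwa [Ne, Polynomial.map_eq_zero]
      · rw [Polynomial.aeval_def, Polynomial.eval₂_map]
        exact hq
    apply LemC1_251.fixed_mem (F' ⊔ algebraicClosure ℚ_[p] Ω)
    intro σ
    -- `σ` restricts to an automorphism over `F`
    have h0 : ∃ t : Ω ≃ₐ[F] Ω, ∀ a, t a = σ a := by
      refine ⟨AlgEquiv.ofRingEquiv (f := σ.toRingEquiv) (fun y => ?_), fun a => rfl⟩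
      have h2 : algebraMap F Ω y ∈ F' ⊔ algebraicClosure ℚ_[p] Ω :=
        (le_sup_left : F' ≤ _) ((hF' _).2 ⟨y, rfl⟩)
      exact LemC1_251.apply_mem _ σ _ h2
    obtain ⟨t, ht⟩ := h0
    have h3 : t = 1 := by
      apply hfaith
      intro a ha
      rw [ht]
      have h4 : IsAlgebraic ℚ_[p] a := ha.restrictScalars _
      exact LemC1_251.apply_mem _ σ _
        ((le_sup_right : algebraicClosure ℚ_[p] Ω ≤ _) (mem_algebraicClosure_iff.2 h4))
    rw [← ht, h3, AlgEquiv.one_apply]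
  have hfin : FiniteDimensional ℚ_[p]
      (F' ⊓ algebraicClosure ℚ_[p] Ω : IntermediateField ℚ_[p] Ω) := by
    -- contained in the image of `k`
    let kΩ : Submodule ℚ_[p] Ω := LinearMap.range (IsScalarTower.toAlgHom ℚ_[p] k Ω).toLinearMap
    haveI : FiniteDimensional ℚ_[p] kΩ := inferInstance
    have hle : Subalgebra.toSubmodule
        (F' ⊓ algebraicClosure ℚ_[p] Ω : IntermediateField ℚ_[p] Ω).toSubalgebra ≤ kΩ := by
      intro x hx
      have hx' : x ∈ F' ⊓ algebraicClosure ℚ_[p] Ω := hx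
      obtain ⟨y, rfl⟩ := (hF' x).1 hx'.1
      obtain ⟨z, rfl⟩ := hk y (mem_algebraicClosure_iff.1 hx'.2)
      refine ⟨z, ?_⟩
      change algebraMap k Ω z = _
      rw [IsScalarTower.algebraMap_apply k F Ω]
    exact Submodule.finiteDimensional_of_le hle
  have H : LemC4_251.Hyp W F' := by
    refine ⟨hW, hF'alg, ?_, hsup, hfin⟩
    intro σ a
    obtain ⟨t, ht⟩ := hlift σ
    rw [← ht]
    exact hinv t a
  have hmain := LemC7_251.lemmaC H
  intro x
  exact hk x (mem_algebraicClosure_iff.1 (hmain ((hF' _).2 ⟨x, rfl⟩)))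

end Crest.Agent.R013.LemC8_251
end

-- ▼ part R013/LemC9_251
section

/-!
# R013, A2-NORM: a section fixes no norm on `maxUnramified` (given S0016)   (helper251)

Step (b) of helper275's #2506: `s` a section, `w : Valuation (maxUnramified k K) ℝ≥0` extending
the `p`-adic norm, invariant under `s γ` for all `γ`; if `maxUnramified` is dense in
`AlgebraicClosure K` for every extension of `w` (conclusion of S0016), contradiction.
-/

set_option autoImplicit false
set_option linter.unusedSectionVars false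
set_option linter.style.haveILetI false
set_option linter.unusedVariables false

open scoped NNReal Topology
open Crest.NumberTheoryR.Sect Crest.Agent.R013 Crest.Agent.R013.MaxUnr_97
  Crest.Agent.R013.Clause1_97 Crest.Agent.R013.Clause1Main_97

namespace Crest.Agent.R013.LemC9_251

variable {k : Type*} [Field k] {K : Type*} [Field K] [Algebra k K]

section FF

variable [CharZero k] [Algebra (RatFunc k) K] [IsScalarTower k (RatFunc k) K]
  [FiniteDimensional (RatFunc k) K]

theorem isGalois_constField : IsGalois k (constField k K) := by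
  have halg : Algebra.IsAlgebraic k (constField k K) :=
    ⟨fun c => by
      have h := isIntegral_constField c
      exact ((isIntegral_algebraMap_iff (algebraMap (constField k K)
        (maxUnramified k K)).injective).mp h).isAlgebraic⟩
  have hn : Normal k (constField k K) := by
    refine ⟨fun c => ?_⟩
    have h1 : (((minpoly k c).map (algebraMap k (constField k K))).map
        (algebraMap (constField k K) (maxUnramified k K))).Splits := by
      rw [Polynomial.map_map, ← IsScalarTower.algebraMap_eq]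
      exact splits_maxUnramified _
    refine Polynomial.Splits.of_splits_map (algebraMap (constField k K) (maxUnramified k K)) h1 ?_
    intro a ha
    rw [Polynomial.map_map, ← IsScalarTower.algebraMap_eq] at ha
    have hint : IsIntegral k a := by
      rw [← isAlgebraic_iff_isIntegral]
      refine ⟨minpoly k c, ?_, ?_⟩
      · exact minpoly.ne_zero (halg.isAlgebraic c).isIntegral
      · have := (Polynomial.mem_roots'.mp ha).2
        rwa [Polynomial.IsRoot, Polynomial.eval_map, ← Polynomial.aeval_def] at this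
    exact ⟨⟨a, mem_constField hint⟩, rfl⟩
  exact {}

end FF

/-- The group of lifts of a section is closed. -/
theorem isClosed_lifts {K : Type*} [Field K] {Ω : Type*} [Field Ω] [Algebra K Ω]
    [Algebra.IsIntegral K Ω] {M : IntermediateField K Ω} (W : Valuation Ω ℝ≥0) {G : Type*}
    [TopologicalSpace G] [CompactSpace G] (s : G → (M ≃ₐ[K] M)) (hs : Continuous s) :
    IsClosed {t : Ω ≃ₐ[K] Ω | (∃ γ, ∀ x : M, t x = s γ x) ∧ ∀ a, W (t a) = W a} := by
  have hMint : Algebra.IsIntegral K M := inferInstance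
  have h1 : IsClosed {t : Ω ≃ₐ[K] Ω | ∀ a, W (t a) = W a} := by
    rw [← isOpen_compl_iff]
    have h1 : {t : Ω ≃ₐ[K] Ω | ∀ a, W (t a) = W a}ᶜ = ⋃ (a : Ω) (b : Ω)
        (_ : W b ≠ W a), {g : Ω ≃ₐ[K] Ω | g a = b} := by
      ext g
      simp only [Set.mem_compl_iff, Set.mem_ofPred_eq, not_forall, Set.mem_iUnion]
      constructor
      · rintro ⟨a, ha⟩
        exact ⟨a, g a, ha, rfl⟩
      · rintro ⟨a, b, hab, h⟩
        exact ⟨a, by rw [h]; exact hab⟩
    rw [h1]
    refine isOpen_iUnion fun a => isOpen_iUnion fun b => isOpen_iUnion fun _ => ?_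
    exact isOpen_apply_eq a b
  have h2 : IsClosed {t : Ω ≃ₐ[K] Ω | ∃ γ, ∀ x : M, t x = s γ x} := by
    rw [← isOpen_compl_iff, isOpen_iff_mem_nhds]
    intro t ht
    have ht' : ∀ γ, ∃ x : M, t x ≠ s γ x := by
      intro γ
      by_contra hcon
      push Not at hcon
      exact ht ⟨γ, hcon⟩
    -- open cover of `G`
    have hopen : ∀ x : M, IsOpen {γ : G | t x ≠ s γ x} := by
      intro x
      by_cases hx : ∃ y : M, (y : Ω) = t x
      · obtain ⟨y, hy⟩ := hx
        have h3 : {γ : G | t x ≠ s γ x} = (s ⁻¹' {g : M ≃ₐ[K] M | g x = y})ᶜ := by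
          ext γ
          simp only [Set.mem_compl_iff, Set.mem_preimage, Set.mem_ofPred_eq, ← hy]
          constructor
          · intro h h4
            exact h (by rw [h4])
          · intro h h4
            exact h (Subtype.ext h4.symm)
        rw [h3, isOpen_compl_iff]
        refine IsClosed.preimage hs ?_
        -- complement is a union of open sets
        rw [← isOpen_compl_iff]
        have h5 : {g : M ≃ₐ[K] M | g x = y}ᶜ = ⋃ (z : M) (_ : z ≠ y),
            {g : M ≃ₐ[K] M | g x = z} := by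
          ext g
          simp only [Set.mem_compl_iff, Set.mem_ofPred_eq, Set.mem_iUnion]
          constructor
          · intro h
            exact ⟨g x, h, rfl⟩
          · rintro ⟨z, hz, h⟩
            rw [h]; exact hz
        rw [h5]
        exact isOpen_iUnion fun z => isOpen_iUnion fun _ => isOpen_apply_eq x z
      · have h3 : {γ : G | t x ≠ s γ x} = Set.univ := by
          ext γ
          simp only [Set.mem_ofPred_eq, Set.mem_univ, iff_true]
          intro h
          exact hx ⟨s γ x, h.symm⟩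
        rw [h3]
        exact isOpen_univ
    obtain ⟨S, hS⟩ := isCompact_univ.elim_finite_subcover (fun x : M => {γ : G | t x ≠ s γ x})
      hopen (fun γ _ => Set.mem_iUnion.2 (ht' γ))
    have h6 : (⋂ x ∈ S, {g : Ω ≃ₐ[K] Ω | g (x : Ω) = t x}) ∈ 𝓝 t := by
      rw [Filter.biInter_finset_mem]
      intro x _
      exact (isOpen_apply_eq (F := K) (x : Ω) (t x)).mem_nhds rfl
    refine Filter.mem_of_superset h6 ?_
    intro g hg
    rintro ⟨γ, hγ⟩
    have h7 := hS (Set.mem_univ γ)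
    simp only [Set.mem_iUnion, Set.mem_ofPred_eq, exists_prop] at h7
    obtain ⟨x, hxS, hx⟩ := h7
    have h8 := Set.mem_iInter₂.mp hg x hxS
    exact hx (by rw [← hγ]; exact h8.symm)
  have h9 : {t : Ω ≃ₐ[K] Ω | (∃ γ, ∀ x : M, t x = s γ x) ∧ ∀ a, W (t a) = W a} =
      {t : Ω ≃ₐ[K] Ω | ∃ γ, ∀ x : M, t x = s γ x} ∩ {t : Ω ≃ₐ[K] Ω | ∀ a, W (t a) = W a} := rfl
  rw [h9]
  exact h2.inter h1

/-- **No section-invariant norm**, given density of `maxUnramified` (conclusion of S0016). -/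
theorem no_fixed_norm (p : ℕ) [Fact p.Prime] (k : Type*) [Field k] [Algebra ℚ_[p] k]
    [FiniteDimensional ℚ_[p] k] (K : Type*) [Field K] [Algebra k K] [Algebra (RatFunc k) K]
    [IsScalarTower k (RatFunc k) K] [FiniteDimensional (RatFunc k) K]
    (hS16 : ∀ v : Valuation K ℝ≥0, ExtendsPadicNorm k K p v →
      ∀ w : Valuation (AlgebraicClosure K) ℝ≥0,
        w.comap (algebraMap K (AlgebraicClosure K)) = v →
        ∀ a : AlgebraicClosure K, ∀ ε : ℝ≥0, 0 < ε →
          ∃ b : maxUnramified k K, w (a - (b : AlgebraicClosure K)) < ε)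
    (s : ConstGal k K →* PiGroup k K) (hs : IsSection k K s)
    (w : Valuation (maxUnramified k K) ℝ≥0)
    (hw : ∀ q : ℚ_[p], w (algebraMap k (maxUnramified k K) (algebraMap ℚ_[p] k q)) = ‖q‖₊)
    (hfix : ∀ γ a, w (s γ a) = w a) : False := by
  classical
  haveI : CharZero k := charZero_of_injective_algebraMap (algebraMap ℚ_[p] k).injective
  haveI : CharZero K := charZero_of_injective_algebraMap (algebraMap k K).injective
  haveI : IsGalois K (maxUnramified k K) := isGalois_maxUnramified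
  haveI : IsGalois k (constField k K) := isGalois_constField
  haveI : CompactSpace (ConstGal k K) := inferInstance
  haveI : IsGalois K (AlgebraicClosure K) := IsAlgClosure.isGalois K (AlgebraicClosure K)
  -- extend the norm
  have hnt : ∃ a : maxUnramified k K, 1 < w a := by
    refine ⟨algebraMap k (maxUnramified k K) (algebraMap ℚ_[p] k ((p : ℚ_[p])⁻¹)), ?_⟩
    rw [hw, nnnorm_inv]
    have h1 := Padic.norm_p_lt_one (p := p)
    have h2 : ‖(p : ℚ_[p])‖₊ < 1 := by exact_mod_cast h1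
    have h3 : 0 < ‖(p : ℚ_[p])‖₊ := by
      rw [pos_iff_ne_zero, Ne, nnnorm_eq_zero]
      exact_mod_cast (Fact.out : p.Prime).pos.ne'
    exact (one_lt_inv₀ h3).2 h2
  obtain ⟨W, hWM, hlift⟩ := A2a_275.exists_ext_lift (K := K) (Ω := AlgebraicClosure K) w hnt
  have hWM' : ∀ x : maxUnramified k K, W (x : AlgebraicClosure K) = w x := by
    intro x
    rw [← hWM]; rfl
  have hWq : ∀ q : ℚ_[p],
      W (algebraMap k (AlgebraicClosure K) (algebraMap ℚ_[p] k q)) = ‖q‖₊ := by
    intro q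
    rw [← hw q, ← hWM', IsScalarTower.algebraMap_apply k (maxUnramified k K) (AlgebraicClosure K)]
    rfl
  have hdense : ∀ a : AlgebraicClosure K, ∀ ε : ℝ≥0, 0 < ε →
      ∃ b : maxUnramified k K, W (a - algebraMap (maxUnramified k K) (AlgebraicClosure K) b) < ε := by
    refine hS16 (W.comap (algebraMap K (AlgebraicClosure K))) ?_ W rfl
    intro q
    rw [Valuation.comap_apply, ← IsScalarTower.algebraMap_apply k K (AlgebraicClosure K)]
    exact hWq q
  have hlift' := hlift hdense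
  -- the group of lifts
  let D : ClosedSubgroup (AlgebraicClosure K ≃ₐ[K] AlgebraicClosure K) :=
    { carrier := {t | (∃ γ, ∀ x : maxUnramified k K, t x = s γ x) ∧ ∀ a, W (t a) = W a}
      mul_mem' := by
        rintro a b ⟨⟨γ, hγ⟩, ha⟩ ⟨⟨δ, hδ⟩, hb⟩
        refine ⟨⟨γ * δ, fun x => ?_⟩, fun x => ?_⟩
        · rw [AlgEquiv.mul_apply, hδ, hγ, map_mul, AlgEquiv.mul_apply]
        · rw [AlgEquiv.mul_apply, ha, hb]
      one_mem' := ⟨⟨1, fun x => by rw [map_one]; rfl⟩, fun x => rfl⟩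
      inv_mem' := by
        rintro a ⟨⟨γ, hγ⟩, ha⟩
        refine ⟨⟨γ⁻¹, fun x => ?_⟩, fun x => ?_⟩
        · have h1 : a ((s γ⁻¹ x : maxUnramified k K) : AlgebraicClosure K) = x := by
            rw [hγ, map_inv]
            exact congrArg Subtype.val (AlgEquiv.apply_symm_apply (s γ) x)
          have h2 : a⁻¹ (a ((s γ⁻¹ x : maxUnramified k K) : AlgebraicClosure K)) =
              ((s γ⁻¹ x : maxUnramified k K) : AlgebraicClosure K) :=
            AlgEquiv.symm_apply_apply a _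
          rw [h1] at h2
          exact h2
        · have h1 := ha (a⁻¹ x)
          have h2 : a (a⁻¹ x) = x := AlgEquiv.apply_symm_apply a x
          rw [h2] at h1
          exact h1.symm
      isClosed' := isClosed_lifts W (fun γ => s γ) hs.1 }
  have hDmem : ∀ t : AlgebraicClosure K ≃ₐ[K] AlgebraicClosure K, t ∈ D.toSubgroup ↔
      (∃ γ, ∀ x : maxUnramified k K, t x = s γ x) ∧ ∀ a, W (t a) = W a := fun t => Iff.rfl
  have hDγ : ∀ γ : ConstGal k K, ∃ t ∈ D.toSubgroup, ∀ x : maxUnramified k K, t x = s γ x := by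
    intro γ
    obtain ⟨t, ht1, ht2⟩ := hlift' (s γ) (fun x => hfix γ x)
    exact ⟨t, ⟨⟨γ, fun x => ht1 x⟩, ht2⟩, fun x => ht1 x⟩
  let F : IntermediateField K (AlgebraicClosure K) := IntermediateField.fixedField D.toSubgroup
  have hFD : ∀ t : AlgebraicClosure K ≃ₐ[F] AlgebraicClosure K,
      t.restrictScalars K ∈ D.toSubgroup := by
    intro t
    have h1 : (IntermediateField.fixedField D.toSubgroup).fixingSubgroup = D.toSubgroup :=
      InfiniteGalois.fixingSubgroup_fixedField D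
    rw [← h1, IntermediateField.mem_fixingSubgroup_iff]
    intro x hx
    exact t.commutes ⟨x, hx⟩
  have hcl : algebraicClosure k F = ⊥ := by
    rw [eq_bot_iff]
    intro x hx
    rw [mem_algebraicClosure_iff] at hx
    have hx1 : IsIntegral k ((x : F) : AlgebraicClosure K) :=
      ((isIntegral_algebraMap_iff (algebraMap F (AlgebraicClosure K)).injective).mpr
        hx.isIntegral)
    let y : maxUnramified k K := ⟨x, mem_maxUnramified_of_isIntegral _ hx1⟩
    have hy1 : IsIntegral k y := by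
      rw [← isIntegral_algebraMap_iff (algebraMap (maxUnramified k K)
        (AlgebraicClosure K)).injective]
      exact hx1
    let c : constField k K := ⟨y, mem_constField hy1⟩
    have hfixc : ∀ γ : ConstGal k K, γ c = c := by
      intro γ
      obtain ⟨t, htD, ht⟩ := hDγ γ
      have h1 : t (x : AlgebraicClosure K) = x := x.2 ⟨t, htD⟩
      have h2 := ht y
      have h3 := hs.2 γ c
      refine Subtype.ext (Subtype.ext ?_)
      rw [← h3]
      change ((s γ y : maxUnramified k K) : AlgebraicClosure K) = x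
      rw [← h2]
      exact h1
    obtain ⟨z, hz⟩ := (InfiniteGalois.mem_range_algebraMap_iff_fixed (k := k) c).2 hfixc
    rw [IntermediateField.mem_bot]
    refine ⟨z, Subtype.ext ?_⟩
    have h4 := congrArg (fun c : constField k K =>
      ((c : maxUnramified k K) : AlgebraicClosure K)) hz
    exact h4
  have hsurj := LemC8_251.lemC (p := p) (k := k) (F := F) (Ω := AlgebraicClosure K) W hWq
    (fun t a => ((hDmem _).1 (hFD t)).2 a) hcl (by
      intro t ht
      obtain ⟨⟨γ, hγ⟩, hW⟩ := (hDmem _).1 (hFD t)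
      -- `γ = 1`
      have hγ1 : γ = 1 := by
        refine AlgEquiv.ext fun c => Subtype.ext (Subtype.ext ?_)
        have h1 := hs.2 γ c
        have h2 := hγ (c : maxUnramified k K)
        rw [h1] at h2
        rw [AlgEquiv.one_apply, ← h2]
        apply ht
        have h3 := isIntegral_constField c
        exact ((isIntegral_algebraMap_iff (algebraMap (maxUnramified k K)
          (AlgebraicClosure K)).injective).mpr h3).isAlgebraic
      have hM : ∀ x : maxUnramified k K, t (x : AlgebraicClosure K) = x := by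
        intro x
        have h1 := hγ x
        rw [hγ1, map_one, AlgEquiv.one_apply] at h1
        exact h1
      refine AlgEquiv.ext fun a => ?_
      rw [AlgEquiv.one_apply]
      by_contra hne
      have h0 : W (t a - a) ≠ 0 := by
        rw [Ne, map_eq_zero]
        exact sub_ne_zero.2 hne
      obtain ⟨b, hb⟩ := hdense a (W (t a - a)) (pos_iff_ne_zero.2 h0)
      have h1 : t a - a = t (a - b) - (a - b) := by rw [map_sub, hM]; ring
      have h2 : W (t a - a) ≤ W (a - b) := by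
        rw [h1]
        refine (W.map_sub _ _).trans (max_le ?_ le_rfl)
        exact (hW _).le
      exact absurd hb (not_lt.2 h2))
  -- contradiction: `X` is not a constant
  obtain ⟨c, hc⟩ := hsurj (algebraMap K F (algebraMap (RatFunc k) K RatFunc.X))
  have h1 : algebraMap k K c = algebraMap (RatFunc k) K RatFunc.X := by
    apply (algebraMap K F).injective
    rw [← IsScalarTower.algebraMap_apply k K F]
    exact hc
  rw [IsScalarTower.algebraMap_apply k (RatFunc k) K] at h1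
  have h2 := (algebraMap (RatFunc k) K).injective h1
  have h3 := congrArg RatFunc.num h2
  rw [RatFunc.algebraMap_eq_C, RatFunc.num_C, RatFunc.num_X] at h3
  have h4 := congrArg Polynomial.natDegree h3
  rw [Polynomial.natDegree_C, Polynomial.natDegree_X] at h4
  exact zero_ne_one h4

end Crest.Agent.R013.LemC9_251
end

-- ▼ part R013/APt_349

/-!
# Row 13, part A: the point of the space of seminorms defined by a place  (helper349)

`IsPt p k M φ` (helper275): `φ : M → [0,∞]` is a multiplicative ultrametric seminorm with poles extending the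
`p`-adic norm.  For a valuation `vt` of `maxUnramified k K` over a rational place the function
`ptOf W vt` (norm of the residue, `∞` at the poles) is such a point; it is invariant under the
decomposition group and determines the place.
-/

set_option autoImplicit false
set_option linter.style.haveILetI false

noncomputable section

namespace Crest.Agent.R013.APt_349

open Crest.NumberTheoryR.Sect
open Crest.Agent.R013.Places_97 Crest.Agent.R013.MaxUnr_97 Crest.Agent.R013.Clause1_97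
  Crest.Agent.R013.Clause1Main_97 Crest.Agent.R013.A2b_275
open scoped NNReal ENNReal Topology

/-- The embedding of `ℚ_p` into an algebra over `k`. -/
abbrev iQ (p : ℕ) [Fact p.Prime] (k : Type*) [Field k] [Algebra ℚ_[p] k] (M : Type*) [Field M]
    [Algebra k M] : ℚ_[p] →+* M := (algebraMap k M).comp (algebraMap ℚ_[p] k)

section spec

variable {p : ℕ} [Fact p.Prime]

/-- The spectral valuation. -/
def specVal (p : ℕ) [Fact p.Prime] (L : Type*) [Field L] [Algebra ℚ_[p] L]
    [Algebra.IsAlgebraic ℚ_[p] L] : Valuation L ℝ≥0 where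
  toFun x := ⟨spectralNorm ℚ_[p] L x, spectralNorm_nonneg x⟩
  map_zero' := NNReal.eq spectralNorm_zero
  map_one' := NNReal.eq spectralNorm_one
  map_mul' x y := NNReal.eq (by
    have h := map_mul (spectralMulAlgNorm ℚ_[p] L) x y
    exact h)
  map_add_le_max' x y := by
    have h := isNonarchimedean_spectralNorm (K := ℚ_[p]) (L := L) x y
    rcases le_max_iff.1 h with h1 | h1
    · exact le_max_of_le_left (NNReal.coe_le_coe.1 h1)
    · exact le_max_of_le_right (NNReal.coe_le_coe.1 h1)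

theorem specVal_apply (L : Type*) [Field L] [Algebra ℚ_[p] L]
    [Algebra.IsAlgebraic ℚ_[p] L] (q : ℚ_[p]) : specVal p L (algebraMap ℚ_[p] L q) = ‖q‖₊ :=
  NNReal.eq (spectralNorm_extends q)

end spec

section const

variable {p : ℕ} [Fact p.Prime] {k : Type*} [Field k] [Algebra ℚ_[p] k] [FiniteDimensional ℚ_[p] k]
  {L : Type*} [Field L] [Algebra k L] [Algebra.IsAlgebraic k L]

theorem exists_W : ∃ W : Valuation L ℝ≥0, ∀ q : ℚ_[p], W (iQ p k L q) = ‖q‖₊ := by
  letI : Algebra ℚ_[p] L := (iQ p k L).toAlgebra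
  haveI : IsScalarTower ℚ_[p] k L := IsScalarTower.of_algebraMap_eq fun _ => rfl
  haveI : Algebra.IsAlgebraic ℚ_[p] L := Algebra.IsAlgebraic.trans ℚ_[p] k L
  exact ⟨specVal p L, fun q => specVal_apply L q⟩

theorem W_inv {W : Valuation L ℝ≥0} (hW : ∀ q : ℚ_[p], W (iQ p k L q) = ‖q‖₊) (s : L ≃ₐ[k] L)
    (x : L) : W (s x) = W x := by
  letI : Algebra ℚ_[p] L := (iQ p k L).toAlgebra
  haveI : IsScalarTower ℚ_[p] k L := IsScalarTower.of_algebraMap_eq fun _ => rfl
  haveI : Algebra.IsAlgebraic ℚ_[p] L := Algebra.IsAlgebraic.trans ℚ_[p] k L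
  exact Crest.Agent.R013.Ax_280.w_inv W hW s x

theorem W_unique {W W' : Valuation L ℝ≥0} (hW : ∀ q : ℚ_[p], W (iQ p k L q) = ‖q‖₊)
    (hW' : ∀ q : ℚ_[p], W' (iQ p k L q) = ‖q‖₊) (x : L) : W x = W' x := by
  letI : Algebra ℚ_[p] L := (iQ p k L).toAlgebra
  haveI : IsScalarTower ℚ_[p] k L := IsScalarTower.of_algebraMap_eq fun _ => rfl
  haveI : Algebra.IsAlgebraic ℚ_[p] L := Algebra.IsAlgebraic.trans ℚ_[p] k L
  have h1 := Crest.Agent.R013.Ax_280.w_eq_spectralNorm W hW x
  have h2 := Crest.Agent.R013.Ax_280.w_eq_spectralNorm W' hW' x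
  exact NNReal.eq (h1.trans h2.symm)

end const

section pt

variable {p : ℕ} [Fact p.Prime] {k : Type*} [Field k] [Algebra ℚ_[p] k]
  {K : Type*} [Field K] [Algebra k K]

/-- The point of `[0,∞]^M` given by a place: norm of the residue. -/
def ptOf (W : Valuation (constField k K) ℝ≥0) (vt : Valuation (maxUnramified k K) ℝ≥0)
    (f : maxUnramified k K) : ℝ≥0∞ := by
  classical
  exact if h : ∃ c : constField k K, vt (f - c) < 1 then ((W h.choose : ℝ≥0) : ℝ≥0∞) else ⊤

variable (W : Valuation (constField k K) ℝ≥0) {vt : Valuation (maxUnramified k K) ℝ≥0}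

theorem vt_k (hvt : LiesOverRationalPlace k K vt) (c : k) (hc : c ≠ 0) :
    vt (algebraMap k (maxUnramified k K) c) = 1 := by
  rw [IsScalarTower.algebraMap_apply k K]
  exact hvt.1.1 c hc

theorem vt_const (hvt : LiesOverRationalPlace k K vt) (c : constField k K) (hc : c ≠ 0) :
    vt (c : maxUnramified k K) = 1 :=
  val_eq_one_of_isAlgebraic vt (vt_k hvt)
    (fun h => hc (Subtype.ext h)) (isIntegral_constField c)

theorem vt_const_le (hvt : LiesOverRationalPlace k K vt) (c : constField k K) :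
    vt (c : maxUnramified k K) ≤ 1 := by
  rcases eq_or_ne c 0 with rfl | h
  · simp
  · exact (vt_const hvt c h).le

theorem vt_const_lt (hvt : LiesOverRationalPlace k K vt) {c : constField k K}
    (h : vt (c : maxUnramified k K) < 1) : c = 0 := by
  by_contra hc
  rw [vt_const hvt c hc] at h
  exact lt_irrefl _ h

theorem ptOf_eq (hvt : LiesOverRationalPlace k K vt) {f : maxUnramified k K}
    {c : constField k K} (h : vt (f - c) < 1) : ptOf W vt f = (W c : ℝ≥0∞) := by
  classical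
  have hex : ∃ c : constField k K, vt (f - c) < 1 := ⟨c, h⟩
  have h1 := hex.choose_spec
  have h2 : hex.choose - c = 0 := by
    apply vt_const_lt hvt
    have h3 : ((hex.choose - c : constField k K) : maxUnramified k K) =
        (f - c) - (f - hex.choose) := by
      push_cast; ring
    rw [h3]
    exact vt.map_sub_lt h h1
  have h4 : hex.choose = c := sub_eq_zero.1 h2
  rw [ptOf, dif_pos hex, h4]

theorem ptOf_of_gt (hvt : LiesOverRationalPlace k K vt) {f : maxUnramified k K}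
    (h : 1 < vt f) : ptOf W vt f = ⊤ := by
  classical
  have hex : ¬ ∃ c : constField k K, vt (f - c) < 1 := by
    rintro ⟨c, hc⟩
    have h1 : vt f ≤ 1 := by
      have h2 : f = (f - c) + c := by ring
      rw [h2]
      exact (vt.map_add _ _).trans (max_le hc.le (vt_const_le hvt c))
    exact not_lt.2 h1 h
  rw [ptOf, dif_neg hex]

section FF

variable [CharZero k] [Algebra (RatFunc k) K] [IsScalarTower k (RatFunc k) K]
  [FiniteDimensional (RatFunc k) K]

theorem exists_res (hvt : LiesOverRationalPlace k K vt) {f : maxUnramified k K}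
    (h : vt f ≤ 1) : ∃ c : constField k K, vt (f - c) < 1 := by
  obtain ⟨c, hc, h1⟩ := exists_const_near vt hvt f h
  exact ⟨⟨c, mem_constField hc⟩, h1⟩

theorem ptOf_eq_top_iff (hvt : LiesOverRationalPlace k K vt) (f : maxUnramified k K) :
    ptOf W vt f = ⊤ ↔ 1 < vt f := by
  constructor
  · intro h
    by_contra hcon
    push Not at hcon
    obtain ⟨c, hc⟩ := exists_res hvt hcon
    rw [ptOf_eq W hvt hc] at h
    exact ENNReal.coe_ne_top h
  · exact ptOf_of_gt W hvt

theorem ptOf_eq_zero_iff (hvt : LiesOverRationalPlace k K vt) (f : maxUnramified k K) :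
    ptOf W vt f = 0 ↔ vt f < 1 := by
  constructor
  · intro h
    have h1 : vt f ≤ 1 := by
      by_contra hcon
      push Not at hcon
      rw [ptOf_of_gt W hvt hcon] at h
      exact ENNReal.top_ne_zero h
    obtain ⟨c, hc⟩ := exists_res hvt h1
    rw [ptOf_eq W hvt hc] at h
    have h2 : W c = 0 := by exact_mod_cast h
    have h3 : c = 0 := (Valuation.zero_iff W).1 h2
    rw [h3] at hc
    simpa using hc
  · intro h
    have h1 : vt (f - ((0 : constField k K) : maxUnramified k K)) < 1 := by simpa using h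
    rw [ptOf_eq W hvt h1]
    simp

theorem ptOf_isPt (hW : ∀ q : ℚ_[p], W (iQ p k (constField k K) q) = ‖q‖₊)
    (hvt : LiesOverRationalPlace k K vt) :
    IsPt p k (maxUnramified k K) (ptOf W vt) where
  add a b := by
    by_cases ha : 1 < vt a
    · rw [ptOf_of_gt W hvt ha, top_sup_eq]; exact le_top
    by_cases hb : 1 < vt b
    · rw [ptOf_of_gt W hvt hb, sup_top_eq]; exact le_top
    push Not at ha hb
    obtain ⟨c, hc⟩ := exists_res hvt ha
    obtain ⟨d, hd⟩ := exists_res hvt hb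
    have h1 : vt (a + b - ((c + d : constField k K) : maxUnramified k K)) < 1 := by
      have h2 : a + b - ((c + d : constField k K) : maxUnramified k K) = (a - c) + (b - d) := by
        push_cast; ring
      rw [h2]
      exact vt.map_add_lt hc hd
    rw [ptOf_eq W hvt h1, ptOf_eq W hvt hc, ptOf_eq W hvt hd]
    exact_mod_cast W.map_add c d
  mul a b h1' h2' := by
    have h1 : ¬ (ptOf W vt a = 0 ∧ ptOf W vt b = ⊤) := by
      rintro ⟨h, h'⟩
      rcases h1' with h3 | h3
      · exact h3 h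
      · exact h3 h'
    have h2 : ¬ (ptOf W vt a = ⊤ ∧ ptOf W vt b = 0) := by
      rintro ⟨h, h'⟩
      rcases h2' with h3 | h3
      · exact h3 h'
      · exact h3 h
    by_cases ha : 1 < vt a
    · have h3 : ¬ vt b < 1 := by
        intro h
        exact h2 ⟨ptOf_of_gt W hvt ha, (ptOf_eq_zero_iff W hvt b).2 h⟩
      have h4 : 1 < vt (a * b) := by
        rw [map_mul]
        push Not at h3
        calc 1 < vt a := ha
          _ = vt a * 1 := (mul_one _).symm
          _ ≤ vt a * vt b := by gcongr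
      rw [ptOf_of_gt W hvt ha, ptOf_of_gt W hvt h4, ENNReal.top_mul]
      intro h
      exact h3 ((ptOf_eq_zero_iff W hvt b).1 h)
    by_cases hb : 1 < vt b
    · have h3 : ¬ vt a < 1 := by
        intro h
        exact h1 ⟨(ptOf_eq_zero_iff W hvt a).2 h, ptOf_of_gt W hvt hb⟩
      have h4 : 1 < vt (a * b) := by
        rw [map_mul]
        push Not at h3
        calc 1 < vt b := hb
          _ = 1 * vt b := (one_mul _).symm
          _ ≤ vt a * vt b := by gcongr
      rw [ptOf_of_gt W hvt hb, ptOf_of_gt W hvt h4, ENNReal.mul_top]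
      intro h
      exact h3 ((ptOf_eq_zero_iff W hvt a).1 h)
    push Not at ha hb
    obtain ⟨c, hc⟩ := exists_res hvt ha
    obtain ⟨d, hd⟩ := exists_res hvt hb
    have h1 : vt (a * b - ((c * d : constField k K) : maxUnramified k K)) < 1 := by
      have h2 : a * b - ((c * d : constField k K) : maxUnramified k K) =
          (a - c) * b + c * (b - d) := by
        push_cast; ring
      rw [h2]
      refine vt.map_add_lt ?_ ?_
      · rw [map_mul]
        exact mul_lt_one_of_nonneg_of_lt_one_left zero_le hc hb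
      · rw [map_mul]
        exact mul_lt_one_of_nonneg_of_lt_one_right (vt_const_le hvt c) zero_le hd
    rw [ptOf_eq W hvt h1, ptOf_eq W hvt hc, ptOf_eq W hvt hd, map_mul]
    exact ENNReal.coe_mul _ _
  inv a ha := by
    have hva : vt a ≠ 0 := (Valuation.ne_zero_iff vt).2 ha
    rcases lt_trichotomy (vt a) 1 with h | h | h
    · rw [(ptOf_eq_zero_iff W hvt a).2 h, ENNReal.inv_zero, ptOf_eq_top_iff W hvt, map_inv₀]
      exact (one_lt_inv₀ (pos_iff_ne_zero.2 hva)).2 h
    · obtain ⟨c, hc⟩ := exists_res hvt h.le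
      have hc0 : c ≠ 0 := by
        rintro rfl
        rw [ZeroMemClass.coe_zero, sub_zero, h] at hc
        exact lt_irrefl _ hc
      have hc1 := vt_const hvt c hc0
      have hc0' : (c : maxUnramified k K) ≠ 0 := fun h => hc0 (Subtype.ext h)
      have h1 : vt (a⁻¹ - ((c⁻¹ : constField k K) : maxUnramified k K)) < 1 := by
        have h2 : a⁻¹ - ((c⁻¹ : constField k K) : maxUnramified k K) =
            -(a - c) * (a⁻¹ * (c : maxUnramified k K)⁻¹) := by
          push_cast
          field_simp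
          ring
        rw [h2, map_mul, map_mul, Valuation.map_neg, map_inv₀, map_inv₀, h, hc1]
        simpa using hc
      rw [ptOf_eq W hvt h1, ptOf_eq W hvt hc, map_inv₀, ENNReal.coe_inv]
      exact (Valuation.ne_zero_iff W).2 hc0
    · rw [ptOf_of_gt W hvt h, ENNReal.inv_top, ptOf_eq_zero_iff W hvt, map_inv₀]
      exact inv_lt_one_of_one_lt₀ h
  ext q := by
    change ptOf W vt (iQ p k (maxUnramified k K) q) = _
    have h1 : vt (iQ p k (maxUnramified k K) q -
        ((iQ p k (constField k K) q : constField k K) : maxUnramified k K)) < 1 := by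
      have h2 : ((iQ p k (constField k K) q : constField k K) : maxUnramified k K) =
        iQ p k (maxUnramified k K) q := rfl
      rw [h2, sub_self, map_zero]
      exact zero_lt_one
    rw [ptOf_eq W hvt h1, hW]

theorem ptOf_inv [FiniteDimensional ℚ_[p] k]
    (hW : ∀ q : ℚ_[p], W (iQ p k (constField k K) q) = ‖q‖₊)
    (hvt : LiesOverRationalPlace k K vt) (g : PiGroup k K) (hg : g ∈ decomp k K vt)
    (f : maxUnramified k K) : ptOf W vt (g f) = ptOf W vt f := by
  haveI : IsGalois k (constField k K) := LemC9_251.isGalois_constField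
  by_cases hf : 1 < vt f
  · rw [ptOf_of_gt W hvt hf, ptOf_of_gt W hvt (by rw [hg f]; exact hf)]
  push Not at hf
  obtain ⟨c, hc⟩ := exists_res hvt hf
  have h1 : vt (g f - ((res g c : constField k K) : maxUnramified k K)) < 1 := by
    rw [coe_res, ← map_sub, hg]
    exact hc
  rw [ptOf_eq W hvt h1, ptOf_eq W hvt hc, W_inv hW]

theorem isEquiv_of_ptOf_eq {vt' : Valuation (maxUnramified k K) ℝ≥0}
    (hvt : LiesOverRationalPlace k K vt) (hvt' : LiesOverRationalPlace k K vt')
    (h : ptOf W vt = ptOf W vt') :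
    (vt.comap (algebraMap K (maxUnramified k K))).IsEquiv
      (vt'.comap (algebraMap K (maxUnramified k K))) := by
  rw [Valuation.isEquiv_iff_val_lt_one]
  intro x
  change vt _ < 1 ↔ vt' _ < 1
  rw [← ptOf_eq_zero_iff W hvt, ← ptOf_eq_zero_iff W hvt', h]

end FF

end pt

end Crest.Agent.R013.APt_349
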