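import Crest.Agent.R013.EE4_809
import Crest.Agent.R013.Cell4_408

-- ▼ part R013/AnW1_201
section

/-!
# Row 13, leaf SS-ANW (helper201): Weierstrass theory on open annuli, part 1

The factorisation at the outer boundary: every `a ≠ 0` in 809's `EE k C` is
`a = A T^N V (1 + y)`, `V` a unit power series (408's `IsU`), `y` a series in `T⁻¹` without constant
term with coefficients `≤ θ < 1` (`exists_outer`).
-/

set_option autoImplicit false
set_option linter.unusedSectionVars false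
set_option linter.style.haveILetI false

noncomputable section

open Filter Topology
open Crest.Agent.R013.Cell_408 Crest.Agent.R013.EE809

namespace Crest.Agent.R013.AnW_201

variable {k C : Type*} [NontriviallyNormedField k] [NormedField C]
  [IsUltrametricDist C] [NormedAlgebra k C]

section neg

/-- the negative part -/
def mn (f : EE k C) : EE k C := mk' (fun n => if n < 0 then f.co n else 0)
  (by
    obtain ⟨L, hL, h⟩ := f.fd
    refine ⟨L, hL, fun n => ?_⟩
    dsimp only
    split_ifs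
    · exact h n
    · exact zero_mem _)
  (by
    obtain ⟨M, hM⟩ := f.bd
    refine ⟨M, fun n => ?_⟩
    split_ifs
    · exact hM n
    · rw [norm_zero]; exact (norm_nonneg _).trans (hM 0))
  (by
    refine f.lim.congr' ?_
    filter_upwards [eventually_lt_atBot 0] with n hn
    rw [if_pos hn])

theorem co_mn (f : EE k C) (n : ℤ) : (mn f).co n = if n < 0 then f.co n else 0 := rfl

theorem mn_sub (f g : EE k C) : mn (f - g) = mn f - mn g := by
  ext n
  rw [co_sub, co_mn, co_mn, co_mn]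
  split_ifs
  · rw [co_sub]
  · rw [sub_zero]

end neg

variable [CompleteSpace k]

theorem gn_mn_le (f : EE k C) : gn (mn f) ≤ gn f := by
  refine gn_le fun n => ?_
  rw [co_mn]
  split_ifs
  · exact le_gn f n
  · rw [norm_zero]; exact gn_nonneg f

theorem InL.mn {L : IntermediateField k C} {f : EE k C} (hf : InL L f) : InL L (mn f) := fun n => by
  rw [co_mn]
  split_ifs
  · exact hf n
  · exact zero_mem _

/-! ### the linear fixed point -/

section fix

variable (h : EE k C)

/-- iteration -/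
def W : ℕ → EE k C
  | 0 => 0
  | j + 1 => -mn (h + h * W j)

theorem W_zero : W h 0 = 0 := rfl
theorem W_succ (j : ℕ) : W h (j + 1) = -mn (h + h * W h j) := rfl

theorem W_diff (j : ℕ) : W h (j + 2) - W h (j + 1) = -mn (h * (W h (j + 1) - W h j)) := by
  rw [W_succ h (j + 1), W_succ h j, neg_sub_neg, ← mn_sub]
  have : h + h * W h j - (h + h * -mn (h + h * W h j)) = -(h * (W h (j + 1) - W h j)) := by
    rw [W_succ]; ring
  rw [this]
  ext n
  rw [co_mn, co_neg, co_neg, co_mn]
  split_ifs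
  · rfl
  · rw [neg_zero]

variable {h} {θ : ℝ}

theorem W_bd (hθ0 : 0 ≤ θ) (hh : gn h ≤ θ) : ∀ j, gn (W h (j + 1) - W h j) ≤ θ ^ (j + 1)
  | 0 => by
    rw [W_succ, W_zero, mul_zero, add_zero, sub_zero, gn_neg, zero_add, pow_one]
    exact (gn_mn_le h).trans hh
  | j + 1 => by
    rw [W_diff, pow_succ' θ (j + 1), gn_neg]
    refine (gn_mn_le _).trans ((gn_mul_le _ _).trans ?_)
    exact mul_le_mul hh (W_bd hθ0 hh j) (gn_nonneg _) hθ0

theorem W_L {L : IntermediateField k C} [FiniteDimensional k L] (hL : InL L h) : ∀ j, InL L (W h j)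
  | 0 => fun _ => zero_mem _
  | j + 1 => by
    rw [W_succ]
    exact (InL.mn (hL.add (hL.mul (W_L hL j)))).neg

theorem W_sub_le (hθ0 : 0 ≤ θ) (hθ1 : θ < 1) (hh : gn h ≤ θ) (J j : ℕ) (hj : J ≤ j) :
    gn (W h j - W h J) ≤ θ ^ (J + 1) := by
  induction j, hj using Nat.le_induction with
  | base => rw [sub_self, gn_zero]; positivity
  | succ j hj ih =>
    have e : W h (j + 1) - W h J = (W h (j + 1) - W h j) + (W h j - W h J) := by ring
    rw [e]
    refine (gn_add_le _ _).trans (max_le ?_ ih)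
    exact (W_bd hθ0 hh j).trans (pow_le_pow_of_le_one hθ0 hθ1.le (by omega))

theorem W_co_nonneg (j : ℕ) {n : ℤ} (hn : 0 ≤ n) : (W h j).co n = 0 := by
  cases j with
  | zero => rfl
  | succ j => rw [W_succ, co_neg, co_mn, if_neg (not_lt.2 hn), neg_zero]

/-- **the linear fixed point** -/
theorem exists_fix (hh : gn h < 1) :
    ∃ w : EE k C, (∀ n, 0 ≤ n → w.co n = 0) ∧ gn w ≤ gn h ∧ ∀ n < 0, ((1 + h) * (1 + w)).co n = 0 := by
  set θ := gn h with hθ
  have hθ0 : 0 ≤ θ := gn_nonneg h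
  obtain ⟨L, hL, hmem⟩ := h.exists_inL
  have hpow : Tendsto (fun j : ℕ => θ ^ (j + 1)) atTop (𝓝 0) :=
    (tendsto_pow_atTop_nhds_zero_of_lt_one hθ0 hh).comp (tendsto_add_atTop_nat 1)
  obtain ⟨w, -, hw⟩ := complete_of L (W h) (W_L hmem) (fun j => θ ^ (j + 1)) hpow
    (fun m n hmn => W_sub_le hθ0 hh le_rfl m n hmn)
  have hco : ∀ n, 0 ≤ n → w.co n = 0 := by
    intro n hn
    have h1 : ∀ j, ‖w.co n‖ ≤ θ ^ (j + 1) := by
      intro j
      have h2 := (le_gn (w - W h j) n).trans (hw j)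
      rwa [co_sub, W_co_nonneg j hn, sub_zero] at h2
    exact norm_le_zero_iff.1 (ge_of_tendsto' hpow h1)
  refine ⟨w, hco, ?_, fun n hn => ?_⟩
  · have := hw 0
    rwa [W_zero, sub_zero, zero_add, pow_one] at this
  · have key : ∀ J, ‖((1 + h) * (1 + w)).co n‖ ≤ θ ^ (J + 1) := by
      intro J
      have e1 : (1 + h) * (1 + w) = 1 + (h + h * W h J) + W h (J + 1) + (w - W h (J + 1)) +
          h * (w - W h J) := by ring
      rw [e1]
      have e2 : (1 + (h + h * W h J) + W h (J + 1) + (w - W h (J + 1)) +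
          h * (w - W h J)).co n = (w - W h (J + 1)).co n + (h * (w - W h J)).co n := by
        rw [co_add, co_add, co_add, co_add, co_one, if_neg hn.ne, W_succ, co_neg, co_mn, if_pos hn]
        ring
      rw [e2]
      refine (IsUltrametricDist.norm_add_le_max _ _).trans (max_le ?_ ?_)
      · exact (le_gn _ n).trans ((hw (J + 1)).trans (pow_le_pow_of_le_one hθ0 hh.le (by omega)))
      · refine (le_gn _ n).trans ((gn_mul_le _ _).trans ?_)
        calc gn h * gn (w - W h J) ≤ 1 * θ ^ (J + 1) :=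
              mul_le_mul hh.le (hw J) (gn_nonneg _) zero_le_one
          _ = _ := one_mul _
    have h0 : ‖((1 + h) * (1 + w)).co n‖ ≤ 0 := ge_of_tendsto' hpow key
    exact norm_le_zero_iff.1 h0

/-- elements of `1 + E⁻` near `1` are invertible in `1 + E⁻` -/
theorem exists_inv_neg {w : EE k C} (hw : gn w < 1) (hw0 : ∀ n, 0 ≤ n → w.co n = 0) :
    ∃ y : EE k C, (∀ n, 0 ≤ n → y.co n = 0) ∧ gn y ≤ gn w ∧ (1 + w) * (1 + y) = 1 := by
  obtain ⟨y, h1, h2, h3⟩ := exists_fix hw
  refine ⟨y, h1, h2, ?_⟩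
  ext n
  rcases lt_or_ge n 0 with hn | hn
  · rw [h3 n hn, co_one, if_neg hn.ne]
  · have e : (1 + w) * (1 + y) = 1 + w + y + w * y := by ring
    rw [e, co_add, co_add, co_add, hw0 n hn, h1 n hn, add_zero, add_zero]
    have : (w * y).co n = 0 := by
      rw [co_mul]
      refine (tsum_congr fun i => ?_).trans tsum_zero
      rcases lt_or_ge i 0 with hi | hi
      · rw [h1 (n - i) (by omega), mul_zero]
      · rw [hw0 i hi, zero_mul]
    rw [this, add_zero]

end fix

/-! ### the factorisation at the outer boundary -/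

section outer

variable [IsUltrametricDist k] [Algebra.IsAlgebraic k C] [IsAlgClosed C]

/-- a normalised unit as an element of `BD` -/
def bd {u : PowerSeries C} (hu : IsU k u) : BD k C := ⟨u, hu.mem⟩

theorem gn_bd_le {u : PowerSeries C} (hu : IsU k u) : gn (ofBD (bd hu)) ≤ 1 :=
  bdd_one_iff.1 (Bdd.ofBD one_pos le_rfl zero_le_one _ hu.le)

theorem bd_mul_inv {u v : PowerSeries C} (hu : IsU k u) (hv : IsU k v) (h : u * v = 1) :
    ofBD (bd hu) * ofBD (bd hv) = (1 : EE k C) := by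
  rw [← map_mul]
  have : bd hu * bd hv = (1 : BD k C) := Subtype.ext h
  rw [this, map_one]

theorem exists_outer (hk : DiscNorm k) {a : EE k C} (ha : a ≠ 0) :
    ∃ (V : PowerSeries C) (hV : IsU k V) (y : EE k C), (∀ n, 0 ≤ n → y.co n = 0) ∧ gn y < 1 ∧
      a = mo (od a) (a.co (od a)) * ofBD (bd hV) * (1 + y) := by
  set u := nrm a with hu
  -- the nonnegative part of `u`
  have hP : IsU k (EE809.posPart u).1 := by
    refine ⟨(EE809.posPart u).2.1, fun n => ?_, ?_⟩
    · rw [coeff_posPart]; exact nrm_le hk ha _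
    · rw [coeff_posPart, Nat.cast_zero, hu, nrm_zero_coeff hk ha, norm_one]
  obtain ⟨P', hP', hPP⟩ := hP.inv
  have hbP : (bd hP : BD k C) = EE809.posPart u := rfl
  set δ := u - ofBD (EE809.posPart u) with hδ
  have hδ1 : gn δ < 1 := gn_sub_posPart_lt one_pos fun n hn => nrm_lt hk ha hn
  set h := δ * ofBD (bd hP') with hh
  have hh1 : gn h < 1 := by
    refine lt_of_le_of_lt (gn_mul_le _ _) ?_
    calc gn δ * gn (ofBD (bd hP')) ≤ gn δ * 1 :=
          mul_le_mul_of_nonneg_left (gn_bd_le hP') (gn_nonneg _)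
      _ < 1 := by rw [mul_one]; exact hδ1
  have hPinv : ofBD (EE809.posPart u) * ofBD (bd hP') = (1 : EE k C) := bd_mul_inv hP hP' hPP
  have hu1 : u = ofBD (EE809.posPart u) * (1 + h) := by
    have e : u = ofBD (EE809.posPart u) + δ := by rw [hδ]; ring
    rw [mul_add, mul_one, hh]
    have e2 : ofBD (EE809.posPart u) * (δ * ofBD (bd hP')) = δ := by
      calc ofBD (EE809.posPart u) * (δ * ofBD (bd hP')) =
            δ * (ofBD (EE809.posPart u) * ofBD (bd hP')) := by ring
        _ = δ := by rw [hPinv, mul_one]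
    rw [e2]; exact e
  obtain ⟨w, hw0, hw1, hw2⟩ := exists_fix hh1
  have hw1' : gn w < 1 := hw1.trans_lt hh1
  obtain ⟨y, hy0, hy1, hwy⟩ := exists_inv_neg hw1' hw0
  -- `(1 + h) (1 + w)` is a power series
  set q := (1 + h) * (1 + w) with hq
  have hqP : ofBD (EE809.posPart q) = q := by
    ext n
    rw [co_ofBD_posPart]
    split_ifs with hn
    · rfl
    · exact (hw2 n (by omega)).symm
  have hq1 : gn (q - 1) < 1 := by
    have e : q - 1 = h + w + h * w := by rw [hq]; ring
    rw [e]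
    refine (gn_add_le _ _).trans_lt (max_lt ((gn_add_le _ _).trans_lt (max_lt hh1 hw1')) ?_)
    refine (gn_mul_le _ _).trans_lt ?_
    calc gn h * gn w ≤ 1 * gn w := mul_le_mul_of_nonneg_right hh1.le (gn_nonneg _)
      _ < 1 := by rw [one_mul]; exact hw1'
  have hQ : IsU k (EE809.posPart q).1 := by
    refine ⟨(EE809.posPart q).2.1, fun n => ?_, ?_⟩
    · rw [coeff_posPart]
      have e : q.co n = (q - 1).co n + (1 : EE k C).co n := by rw [co_sub]; ring
      rw [e]
      refine (IsUltrametricDist.norm_add_le_max _ _).trans (max_le ?_ ?_)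
      · exact (le_gn _ _).trans hq1.le
      · exact (le_gn _ _).trans (by rw [gn_one])
    · rw [coeff_posPart]
      have e : q.co 0 = 1 + (q - 1).co 0 := by rw [co_sub, co_one, if_pos rfl]; ring
      have h3 : ‖(q - 1).co 0‖ < ‖(1 : C)‖ := by
        rw [norm_one]; exact (le_gn _ _).trans_lt hq1
      show ‖q.co 0‖ = 1
      rw [e, IsUltrametricDist.norm_add_eq_max_of_norm_ne_norm h3.ne', max_eq_left h3.le, norm_one]
  -- conclusion
  have hmul : IsU k ((EE809.posPart u).1 * (EE809.posPart q).1) := by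
    have hm : (EE809.posPart u * EE809.posPart q : BD k C).1 = (EE809.posPart u).1 * (EE809.posPart q).1 := rfl
    refine ⟨(EE809.posPart u * EE809.posPart q : BD k C).2.1, fun n => ?_, ?_⟩
    · rw [PowerSeries.coeff_mul]
      refine IsUltrametricDist.norm_sum_le_of_forall_le_of_nonneg zero_le_one fun p _ => ?_
      rw [norm_mul]
      exact mul_le_one₀ (hP.le _) (norm_nonneg _) (hQ.le _)
    · rw [PowerSeries.coeff_zero_eq_constantCoeff_apply, map_mul, norm_mul,
        ← PowerSeries.coeff_zero_eq_constantCoeff_apply,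
        ← PowerSeries.coeff_zero_eq_constantCoeff_apply, hP.zero, hQ.zero, one_mul]
  refine ⟨_, hmul, y, hy0, hy1.trans_lt hw1', ?_⟩
  have e1 : ofBD (bd hmul) = ofBD (EE809.posPart u) * ofBD (EE809.posPart q) := by
    rw [← map_mul]; rfl
  rw [e1, hqP]
  have e2 : q * (1 + y) = 1 + h := by
    rw [hq, mul_assoc, hwy, mul_one]
  calc a = mo (od a) (a.co (od a)) * u := (mo_mul_nrm hk ha).symm
    _ = mo (od a) (a.co (od a)) * (ofBD (EE809.posPart u) * (1 + h)) := by rw [← hu1]
    _ = mo (od a) (a.co (od a)) * (ofBD (EE809.posPart u) * q) * (1 + y) := by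
        rw [← e2]; ring

end outer

end Crest.Agent.R013.AnW_201
end
end

-- ▼ part R013/AnW2_201

/-!
# Row 13, leaf SS-ANW (helper201): Weierstrass theory on open annuli, part 2

* `InA c a` : `a` is bounded on `|c| < |T| < 1` (same body as 332's `SSK_332.InA`);
  `AN k C c : Subalgebra C (EE k C)`;
* `flip` : `T ↦ c / T`, `flipA : AN k C c ≃ₐ[C] AN k C c`;
* `evE τ` : evaluation (same body as 332's), `evA : AN k C c →ₐ[C] C` for `|c| < |τ| < 1`.
-/

set_option autoImplicit false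
set_option linter.unusedSectionVars false
set_option linter.style.haveILetI false

noncomputable section

open Filter Topology
open Crest.Agent.R013.Cell_408 Crest.Agent.R013.EE809

namespace Crest.Agent.R013.AnW_201

variable {k C : Type*} [NontriviallyNormedField k] [NormedField C]
  [IsUltrametricDist C] [NormedAlgebra k C]

/-- `a` is a bounded series on the open annulus `|c| < |T| < 1` -/
def InA (c : C) (a : EE k C) : Prop := ∃ M : ℝ, ∀ n : ℤ, ‖a.co n‖ * ‖c‖ ^ n ≤ M

theorem inA_zero (a : EE k C) : InA (0 : C) a := by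
  refine ⟨‖a.co 0‖, fun n => ?_⟩
  rcases eq_or_ne n 0 with rfl | hn
  · simp
  · rw [norm_zero, zero_zpow n hn, mul_zero]; exact norm_nonneg _

variable [CompleteSpace k]

theorem InA.add {c : C} {a b : EE k C} (ha : InA c a) (hb : InA c b) : InA c (a + b) := by
  rcases eq_or_ne c 0 with rfl | hc
  · exact inA_zero _
  have hc' : 0 < ‖c‖ := norm_pos_iff.2 hc
  obtain ⟨M, hM⟩ := ha
  obtain ⟨N, hN⟩ := hb
  exact ⟨max M N, Bdd.add hc' (Bdd.le hM (le_max_left _ _)) (Bdd.le hN (le_max_right _ _))⟩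

theorem InA.neg {c : C} {a : EE k C} (ha : InA c a) : InA c (-a) := by
  obtain ⟨M, hM⟩ := ha
  exact ⟨M, Bdd.neg hM⟩

theorem InA.sub {c : C} {a b : EE k C} (ha : InA c a) (hb : InA c b) : InA c (a - b) := by
  rw [sub_eq_add_neg]
  exact ha.add hb.neg

theorem InA.mul {c : C} {a b : EE k C} (ha : InA c a) (hb : InA c b) : InA c (a * b) := by
  rcases eq_or_ne c 0 with rfl | hc
  · exact inA_zero _
  have hc' : 0 < ‖c‖ := norm_pos_iff.2 hc
  obtain ⟨M, hM⟩ := ha
  obtain ⟨N, hN⟩ := hb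
  exact ⟨M * N, Bdd.mul hc' hM hN⟩

theorem inA_one (c : C) : InA c (1 : EE k C) := by
  rcases eq_or_ne c 0 with rfl | hc
  · exact inA_zero _
  exact ⟨1, Bdd.one⟩

variable [Algebra.IsAlgebraic k C]

theorem inA_mo (c : C) (n : ℤ) (x : C) : InA c (mo n x : EE k C) := by
  rcases eq_or_ne c 0 with rfl | hc
  · exact inA_zero _
  exact ⟨_, Bdd.mo (norm_pos_iff.2 hc) n x⟩

theorem inA_ofBD {c : C} (hc : ‖c‖ ≤ 1) (f : BD k C) : InA c (ofBD f : EE k C) := by
  rcases eq_or_ne c 0 with rfl | hc0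
  · exact inA_zero _
  obtain ⟨M, hM⟩ := f.2.2
  exact ⟨M, Bdd.ofBD (norm_pos_iff.2 hc0) hc ((norm_nonneg _).trans (hM 0)) f hM⟩

variable (k C) in
/-- bounded series on the open annulus `|c| < |T| < 1` -/
def AN (c : C) : Subalgebra C (EE k C) where
  carrier := {a | InA c a}
  mul_mem' := InA.mul
  one_mem' := inA_one c
  add_mem' := InA.add
  zero_mem' := ⟨0, fun n => by simp⟩
  algebraMap_mem' x := by rw [algebraMap_eq]; exact inA_mo c 0 x

theorem mem_AN {c : C} {a : EE k C} : a ∈ AN k C c ↔ InA c a := Iff.rfl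

/-! ### flip -/

section flip

variable {c : C}

/-- `T ↦ c / T` -/
def flip (c : C) (hc0 : c ≠ 0) (hc1 : ‖c‖ < 1) (a : EE k C) (ha : InA c a) : EE k C :=
  mk' (fun n => a.co (-n) * c ^ (-n))
    (by
      obtain ⟨L, hL, h1⟩ := a.fd
      obtain ⟨L', hL', h2⟩ := EE809.finDef_const (k := k) c
      refine ⟨L ⊔ L', IntermediateField.finiteDimensional_sup L L', fun n => ?_⟩
      exact mul_mem ((le_sup_left : L ≤ L ⊔ L') (h1 _))
        (zpow_mem ((le_sup_right : L' ≤ L ⊔ L') (h2 ())) _))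
    (by
      obtain ⟨M, hM⟩ := ha
      refine ⟨M, fun n => ?_⟩
      rw [norm_mul, norm_zpow]
      exact hM (-n))
    (by
      obtain ⟨B, hB⟩ := a.bd
      have hB0 : 0 ≤ B := (norm_nonneg _).trans (hB 0)
      have hc' : 0 < ‖c‖ := norm_pos_iff.2 hc0
      have h1 : Tendsto (fun n : ℤ => B * ‖c‖ ^ (-n)) atBot (𝓝 (B * 0)) := by
        refine Tendsto.const_mul B ?_
        rw [Metric.tendsto_nhds]
        intro ε hε
        obtain ⟨N, hN⟩ := exists_pow_lt_of_lt_one hε hc1
        filter_upwards [eventually_le_atBot (-(N : ℤ))] with n hn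
        rw [dist_zero_right, norm_zpow, norm_norm]
        have h2 : ‖c‖ ^ (-n) ≤ ‖c‖ ^ (N : ℤ) := zpow_le_zpow_right_of_le_one₀ hc' hc1.le (by omega)
        rw [zpow_natCast] at h2
        exact h2.trans_lt hN
      rw [mul_zero] at h1
      refine squeeze_zero_norm (fun n => ?_) h1
      rw [norm_mul, norm_zpow]
      exact mul_le_mul_of_nonneg_right (hB _) (zpow_nonneg hc'.le _))

variable {hc0 : c ≠ 0} {hc1 : ‖c‖ < 1}

theorem co_flip {a : EE k C} (ha : InA c a) (n : ℤ) :
    (flip c hc0 hc1 a ha).co n = a.co (-n) * c ^ (-n) := rfl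

theorem inA_flip {a : EE k C} (ha : InA c a) : InA c (flip c hc0 hc1 a ha) := by
  obtain ⟨B, hB⟩ := a.bd
  refine ⟨B, fun n => ?_⟩
  have hc' : 0 < ‖c‖ := norm_pos_iff.2 hc0
  rw [co_flip, norm_mul, norm_zpow, mul_assoc, ← zpow_add₀ hc'.ne', neg_add_cancel, zpow_zero,
    mul_one]
  exact hB _

theorem flip_flip {a : EE k C} (ha : InA c a) :
    flip c hc0 hc1 (flip c hc0 hc1 a ha) (inA_flip ha) = a := by
  ext n
  rw [co_flip, co_flip, neg_neg, mul_assoc, ← zpow_add₀ hc0, add_neg_cancel, zpow_zero, mul_one]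

theorem flip_add {a b : EE k C} (ha : InA c a) (hb : InA c b) :
    flip c hc0 hc1 (a + b) (ha.add hb) = flip c hc0 hc1 a ha + flip c hc0 hc1 b hb := by
  ext n
  rw [co_add, co_flip, co_flip, co_flip, co_add, add_mul]

theorem flip_mul {a b : EE k C} (ha : InA c a) (hb : InA c b) :
    flip c hc0 hc1 (a * b) (ha.mul hb) = flip c hc0 hc1 a ha * flip c hc0 hc1 b hb := by
  ext n
  rw [co_mul, co_flip, co_mul, ← tsum_mul_right, ← (Equiv.neg ℤ).tsum_eq]
  refine tsum_congr fun i => ?_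
  rw [co_flip, co_flip, Equiv.neg_apply]
  have e1 : -n - -i = -(n - i) := by ring
  have e2 : c ^ (-n) = c ^ (-i) * c ^ (-(n - i)) := by
    rw [← zpow_add₀ hc0]; congr 1; ring
  rw [e1, e2]
  ring

theorem flip_mo (n : ℤ) (x : C) :
    flip c hc0 hc1 (mo n x : EE k C) (inA_mo c n x) = mo (-n) (x * c ^ n) := by
  ext m
  rw [co_flip, co_mo, co_mo]
  by_cases h : m = -n
  · rw [if_pos (by omega), if_pos h, h, neg_neg]
  · rw [if_neg (by omega), if_neg h, zero_mul]

variable (hc0 hc1) in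
/-- `T ↦ c / T` as an automorphism -/
def flipA : AN k C c ≃ₐ[C] AN k C c where
  toFun a := ⟨flip c hc0 hc1 a.1 a.2, inA_flip a.2⟩
  invFun a := ⟨flip c hc0 hc1 a.1 a.2, inA_flip a.2⟩
  left_inv a := Subtype.ext (flip_flip (hc0 := hc0) (hc1 := hc1) a.2)
  right_inv a := Subtype.ext (flip_flip (hc0 := hc0) (hc1 := hc1) a.2)
  map_mul' a b := Subtype.ext (flip_mul (hc0 := hc0) (hc1 := hc1) a.2 b.2)
  map_add' a b := Subtype.ext (flip_add (hc0 := hc0) (hc1 := hc1) a.2 b.2)
  commutes' x := by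
    apply Subtype.ext
    show flip c hc0 hc1 (algebraMap C (EE k C) x) (inA_mo c 0 x) = algebraMap C (EE k C) x
    have := flip_mo (hc0 := hc0) (hc1 := hc1) (k := k) 0 x
    rw [neg_zero, zpow_zero, mul_one] at this
    exact this

theorem co_flipA (a : AN k C c) (n : ℤ) : (flipA hc0 hc1 a).1.co n = a.1.co (-n) * c ^ (-n) := rfl

theorem flipA_flipA (a : AN k C c) : flipA hc0 hc1 (flipA hc0 hc1 a) = a :=
  Subtype.ext (flip_flip (hc0 := hc0) (hc1 := hc1) a.2)

end flip

/-! ### evaluation -/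

section ev

/-- the value of `a` at `t` -/
def evE (t : C) (a : EE k C) : C := ∑' n : ℤ, a.co n * t ^ n

theorem tendsto_evE {c t : C} (hct : ‖c‖ < ‖t‖) (ht : ‖t‖ < 1) {a : EE k C} (ha : InA c a)
    (hc0 : c ≠ 0) : Tendsto (fun n : ℤ => a.co n * t ^ n) cofinite (𝓝 0) := by
  obtain ⟨M, hM⟩ := ha
  obtain ⟨B, hB0, hB⟩ := a.bd'
  have hc' : 0 < ‖c‖ := norm_pos_iff.2 hc0
  have ht' : 0 < ‖t‖ := hc'.trans hct
  have hM0 : 0 ≤ M := (mul_nonneg (norm_nonneg _) (zpow_nonneg hc'.le 0)).trans (hM 0)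
  rw [Metric.tendsto_nhds]
  intro ε hε
  obtain ⟨N, hN⟩ := exists_pow_lt_of_lt_one (x := ε / (B + 1)) (by positivity) ht
  obtain ⟨N', hN'⟩ := exists_pow_lt_of_lt_one (x := ε / (M + 1)) (y := ‖c‖ / ‖t‖) (by positivity)
    ((div_lt_one ht').2 hct)
  rw [eventually_cofinite]
  refine (Set.finite_Icc (-(N' : ℤ)) N).subset fun n hn => ?_
  rw [Set.mem_ofPred_eq, dist_zero_right, norm_mul, norm_zpow, not_lt] at hn
  by_contra hc
  rw [Set.mem_Icc, not_and_or, not_le, not_le] at hc
  rcases hc with h | h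
  · -- `n < -N'`
    have h1 : ‖a.co n‖ * ‖t‖ ^ n = (‖a.co n‖ * ‖c‖ ^ n) * (‖c‖ / ‖t‖) ^ (-n) := by
      rw [div_zpow, zpow_neg, zpow_neg]
      have := (zpow_pos hc' n).ne'
      have := (zpow_pos ht' n).ne'
      field_simp
    have h2 : (‖c‖ / ‖t‖) ^ (-n) ≤ (‖c‖ / ‖t‖) ^ (N' : ℤ) :=
      zpow_le_zpow_right_of_le_one₀ (by positivity) ((div_le_one ht').2 hct.le) (by omega)
    rw [zpow_natCast] at h2
    have h3 : ‖a.co n‖ * ‖t‖ ^ n < ε := by
      rw [h1]
      calc _ ≤ M * (ε / (M + 1)) := by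
            refine mul_le_mul (hM n) (h2.trans hN'.le) (zpow_nonneg (by positivity) _) hM0
        _ = (M / (M + 1)) * ε := by ring
        _ < 1 * ε := by
            refine mul_lt_mul_of_pos_right ?_ hε
            rw [div_lt_one (by positivity)]; linarith
        _ = ε := one_mul _
    linarith
  · have h2 : ‖t‖ ^ n ≤ ‖t‖ ^ (N : ℤ) := zpow_le_zpow_right_of_le_one₀ ht' ht.le (by omega)
    rw [zpow_natCast] at h2
    have h3 : ‖a.co n‖ * ‖t‖ ^ n < ε := by
      calc _ ≤ B * (ε / (B + 1)) :=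
            mul_le_mul (hB n) (h2.trans hN.le) (zpow_nonneg ht'.le _) hB0.le
        _ = (B / (B + 1)) * ε := by ring
        _ < 1 * ε := by
            refine mul_lt_mul_of_pos_right ?_ hε
            rw [div_lt_one (by positivity)]; linarith
        _ = ε := one_mul _
    linarith

theorem summable_evE {c t : C} (hct : ‖c‖ < ‖t‖) (ht : ‖t‖ < 1) {a : EE k C} (ha : InA c a)
    (hc0 : c ≠ 0) : Summable fun n : ℤ => a.co n * t ^ n := by
  obtain ⟨L, hL, h1⟩ := a.fd
  obtain ⟨L', hL', h2⟩ := EE809.finDef_const (k := k) t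
  have : FiniteDimensional k (L ⊔ L' : IntermediateField k C) :=
    IntermediateField.finiteDimensional_sup L L'
  exact summable_of (L ⊔ L') (fun n => mul_mem ((le_sup_left : L ≤ L ⊔ L') (h1 _))
    (zpow_mem ((le_sup_right : L' ≤ L ⊔ L') (h2 ())) _)) (tendsto_evE hct ht ha hc0)

theorem evE_add {c t : C} (hct : ‖c‖ < ‖t‖) (ht : ‖t‖ < 1) (hc0 : c ≠ 0) {a b : EE k C}
    (ha : InA c a) (hb : InA c b) : evE t (a + b) = evE t a + evE t b := by
  unfold evE
  rw [← (summable_evE hct ht ha hc0).tsum_add (summable_evE hct ht hb hc0)]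
  refine tsum_congr fun n => ?_
  rw [co_add, add_mul]

theorem evE_mul {c t : C} (hct : ‖c‖ < ‖t‖) (ht : ‖t‖ < 1) (hc0 : c ≠ 0) {a b : EE k C}
    (ha : InA c a) (hb : InA c b) : evE t (a * b) = evE t a * evE t b := by
  have hna := nonarchRing C
  have ht0 : t ≠ 0 := by
    rintro rfl
    rw [norm_zero] at hct
    exact absurd (norm_nonneg c) (not_le.2 hct)
  have hs1 := summable_evE hct ht ha hc0
  have hs2 := summable_evE hct ht hb hc0
  have hs : Summable fun p : ℤ × ℤ => (a.co p.1 * t ^ p.1) * (b.co p.2 * t ^ p.2) :=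
    Summable.mul_of_nonarchimedean (f := fun n => a.co n * t ^ n)
      (g := fun n => b.co n * t ^ n) hs1 hs2
  -- reindexing
  let E : ℤ × ℤ ≃ ℤ × ℤ :=
    { toFun := fun p => (p.2, p.1 - p.2)
      invFun := fun q => (q.1 + q.2, q.1)
      left_inv := fun p => by simp
      right_inv := fun q => by simp }
  have hs' : Summable fun p : ℤ × ℤ => (a.co p.2 * t ^ p.2) * (b.co (p.1 - p.2) * t ^ (p.1 - p.2)) :=
    (E.summable_iff (f := fun p : ℤ × ℤ => (a.co p.1 * t ^ p.1) * (b.co p.2 * t ^ p.2))).2 hs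
  have hfib : ∀ n : ℤ, Summable fun i : ℤ =>
      (a.co i * t ^ i) * (b.co (n - i) * t ^ (n - i)) := by
    intro n
    refine ((summable_conv a b n).mul_right (t ^ n)).congr fun i => ?_
    have e : t ^ n = t ^ i * t ^ (n - i) := by rw [← zpow_add₀ ht0]; congr 1; ring
    rw [e]; ring
  have h1 : evE t a * evE t b = ∑' p : ℤ × ℤ, (a.co p.1 * t ^ p.1) * (b.co p.2 * t ^ p.2) :=
    hs1.tsum_mul_tsum hs2 hs
  rw [h1, ← E.tsum_eq]
  have h2 := Summable.tsum_prod' hs' hfib
  have h3 : (∑' p : ℤ × ℤ, (a.co (E p).1 * t ^ (E p).1) * (b.co (E p).2 * t ^ (E p).2)) =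
      ∑' p : ℤ × ℤ, (a.co p.2 * t ^ p.2) * (b.co (p.1 - p.2) * t ^ (p.1 - p.2)) := rfl
  rw [h3, h2]
  unfold evE
  refine tsum_congr fun n => ?_
  rw [co_mul, ← tsum_mul_right]
  refine tsum_congr fun i => ?_
  have e : t ^ n = t ^ i * t ^ (n - i) := by rw [← zpow_add₀ ht0]; congr 1; ring
  rw [e]; ring

theorem evE_mo (t : C) (n : ℤ) (x : C) : evE t (mo n x : EE k C) = x * t ^ n := by
  unfold evE
  rw [tsum_eq_single n]
  · rw [co_mo, if_pos rfl]
  · intro m hm
    rw [co_mo, if_neg hm, zero_mul]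

/-- evaluation at a point of the annulus -/
def evA {c : C} (hc0 : c ≠ 0) (t : C) (hct : ‖c‖ < ‖t‖) (ht : ‖t‖ < 1) : AN k C c →ₐ[C] C where
  toFun a := evE t a.1
  map_one' := by
    have := evE_mo (k := k) t 0 1
    rw [zpow_zero, mul_one] at this
    exact this
  map_mul' a b := evE_mul hct ht hc0 a.2 b.2
  map_zero' := by
    have := evE_mo (k := k) t 0 0
    rw [zero_mul, mo_zero] at this
    exact this
  map_add' a b := evE_add hct ht hc0 a.2 b.2
  commutes' x := by
    have := evE_mo (k := k) t 0 x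
    rw [zpow_zero, mul_one] at this
    exact this

/-- the norm of a value -/
theorem norm_evE_le {t : C} {a : EE k C} {M : ℝ} (h : Bdd ‖t‖ M a) : ‖evE t a‖ ≤ M := by
  unfold evE
  refine IsUltrametricDist.norm_tsum_le_of_forall_le (fun n => ?_)
  rw [norm_mul, norm_zpow]
  exact h n

end ev

end Crest.Agent.R013.AnW_201
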