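import Crest.Agent.R013.Gl3_946
import Crest.Agent.R013.LemW1_623

-- ▼ part R013/Annu1_930
section

/-!
# Functions on a closed annulus, part 1: boxes

`E` complete ultrametric over `k`, `y : E` with the Gauss norm on `k[y]` (`IsGauss k y`).
* `ev y p = ∑ p n • y ^ n` for `p : ℤ →₀ k` (Laurent polynomials);
* `Box k y b` : the closed additive subgroup of `E` generated by the `c • y ^ n`, `‖c‖ ≤ b n`;
* `w s α β n = min (α * s ^ (-n)) (β * s ^ n)`: the box `B k y s α β` consists of the functions on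
  `1/s < |y| < s` which are bounded by `α` near `|y| = s` and by `β` near `|y| = 1/s`.
-/

set_option autoImplicit false
set_option linter.unusedSectionVars false

namespace Crest.Agent.R013.Annu_930

open Filter Topology Polynomial Crest.Agent.R013.Gl946
open scoped NNReal

variable {k E : Type*} [NormedField k] [NormedField E] [NormedAlgebra k E]

/-- Laurent polynomials in `y`. -/
noncomputable def ev (k : Type*) {E : Type*} [NormedField k] [NormedField E] [NormedAlgebra k E]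
    (y : E) : (ℤ →₀ k) →ₗ[k] E :=
  Finsupp.linearCombination k (fun n : ℤ => y ^ n)

theorem ev_single (y : E) (n : ℤ) (c : k) : ev k y (Finsupp.single n c) = c • y ^ n := by
  simp [ev]

theorem ev_apply (y : E) (p : ℤ →₀ k) : ev k y p = p.sum fun n c => c • y ^ n := rfl


variable {y : E}

theorem nnadd_k (E : Type*) [NormedField E] [NormedAlgebra k E] [IsUltrametricDist E] (a b : k) :
    ‖a + b‖₊ ≤ max ‖a‖₊ ‖b‖₊ := by
  have h := IsUltrametricDist.norm_add_le_max (algebraMap k E a) (algebraMap k E b)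
  rw [← map_add, norm_algebraMap', norm_algebraMap', norm_algebraMap'] at h
  exact_mod_cast h


theorem nyz (hG : IsGauss k y) (n : ℤ) : ‖y ^ n‖ = 1 := by
  rw [norm_zpow, hG.norm_eq, one_zpow]

/-- Shift of a Laurent polynomial into a polynomial. -/
theorem exists_shift (hG : IsGauss k y) (p : ℤ →₀ k) (m : ℤ) :
    ∃ (N : ℕ) (f : k[X]), 0 ≤ m + N ∧ aeval y f = y ^ N * ev k y p ∧
      ∀ n : ℤ, 0 ≤ n + N → f.coeff (n + N).toNat = p n := by
  classical
  obtain ⟨N, hN⟩ : ∃ N : ℕ, ∀ i ∈ insert m p.support, 0 ≤ i + (N : ℤ) := by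
    refine ⟨∑ i ∈ insert m p.support, i.natAbs, fun i hi => ?_⟩
    have h1 : i.natAbs ≤ ∑ i ∈ insert m p.support, i.natAbs :=
      Finset.single_le_sum (f := fun i : ℤ => i.natAbs) (fun _ _ => Nat.zero_le _) hi
    omega
  refine ⟨N, ∑ i ∈ p.support, monomial (i + N).toNat (p i), hN m (Finset.mem_insert_self _ _),
    ?_, ?_⟩
  · rw [map_sum, ev_apply, Finsupp.sum, Finset.mul_sum]
    refine Finset.sum_congr rfl fun i hi => ?_
    have hi' := hN i (Finset.mem_insert_of_mem hi)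
    rw [aeval_monomial, Algebra.smul_def]
    have : y ^ (i + N).toNat = y ^ N * y ^ i := by
      rw [← zpow_natCast, Int.toNat_of_nonneg hi', zpow_add₀ hG.ne_zero, zpow_natCast, mul_comm]
    rw [this]; ring
  · intro n hn
    rw [finsetSum_coeff]
    by_cases hnp : n ∈ p.support
    · rw [Finset.sum_eq_single_of_mem n hnp]
      · rw [coeff_monomial, if_pos rfl]
      · intro i hi hin
        have hi' := hN i (Finset.mem_insert_of_mem hi)
        rw [coeff_monomial, if_neg]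
        omega
    · rw [Finsupp.notMem_support_iff.1 hnp]
      refine Finset.sum_eq_zero fun i hi => ?_
      have hi' := hN i (Finset.mem_insert_of_mem hi)
      rw [coeff_monomial, if_neg]
      intro h
      apply hnp
      have : i = n := by omega
      rwa [← this]

theorem coeff_le (hG : IsGauss k y) (p : ℤ →₀ k) (n : ℤ) : ‖p n‖ ≤ ‖ev k y p‖ := by
  obtain ⟨N, f, h1, h2, h3⟩ := exists_shift hG p n
  have h4 := hG.coeff_le f (n + N).toNat
  rw [h3 n h1, h2, norm_mul, norm_pow, hG.norm_eq, one_pow, one_mul] at h4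
  exact h4



theorem ev_mul_ev (hG : IsGauss k y) (p q : ℤ →₀ k) :
    ∃ r, ev k y r = ev k y p * ev k y q := by
  change ev k y p * ev k y q ∈ LinearMap.range (ev k y)
  induction p using Finsupp.induction_linear with
  | zero => rw [map_zero, zero_mul]; exact zero_mem _
  | add p p' h h' => rw [map_add, add_mul]; exact add_mem h h'
  | single i c =>
    induction q using Finsupp.induction_linear with
    | zero => rw [map_zero, mul_zero]; exact zero_mem _
    | add p p' h h' => rw [map_add, mul_add]; exact add_mem h h'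
    | single j d =>
      refine ⟨Finsupp.single (i + j) (c * d), ?_⟩
      rw [ev_single, ev_single, ev_single, zpow_add₀ hG.ne_zero, smul_mul_smul_comm]

theorem aeval_eq_ev (f : k[X]) : ∃ p : ℤ →₀ k, ev k y p = aeval y f ∧
    ∀ n : ℕ, p n = f.coeff n := by
  refine ⟨∑ i ∈ Finset.range (f.natDegree + 1), Finsupp.single (i : ℤ) (f.coeff i), ?_, ?_⟩
  · rw [map_sum, aeval_eq_sum_range]
    refine Finset.sum_congr rfl fun i _ => ?_
    rw [ev_single, zpow_natCast]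
  · intro n
    rw [Finsupp.finsetSum_apply]
    by_cases hn : n ∈ Finset.range (f.natDegree + 1)
    · rw [Finset.sum_eq_single_of_mem n hn]
      · simp
      · intro i _ hin
        rw [Finsupp.single_apply, if_neg]
        exact_mod_cast hin
    · rw [coeff_eq_zero_of_natDegree_lt (by rw [Finset.mem_range] at hn; omega)]
      refine Finset.sum_eq_zero fun i hi => ?_
      rw [Finsupp.single_apply, if_neg]
      rintro h
      apply hn
      have : i = n := by exact_mod_cast h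
      rwa [← this]

/-! ### Boxes -/

/-- Finite sums of monomials `c • y ^ n`, `‖c‖ ≤ b n`. -/
def Box0 (k : Type*) {E : Type*} [NormedField k] [NormedField E] [NormedAlgebra k E] (y : E)
    (b : ℤ → ℝ≥0) : AddSubgroup E :=
  AddSubgroup.closure {x | ∃ (n : ℤ) (c : k), ‖c‖₊ ≤ b n ∧ x = c • y ^ n}

/-- The closed subgroup generated by the monomials `c • y ^ n`, `‖c‖ ≤ b n`. -/
def Box (k : Type*) {E : Type*} [NormedField k] [NormedField E] [NormedAlgebra k E] (y : E)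
    (b : ℤ → ℝ≥0) : AddSubgroup E :=
  (Box0 k y b).topologicalClosure

theorem isClosed_Box (b : ℤ → ℝ≥0) : IsClosed (Box k y b : Set E) :=
  AddSubgroup.isClosed_topologicalClosure _

theorem Box0_le_Box (b : ℤ → ℝ≥0) : Box0 k y b ≤ Box k y b :=
  AddSubgroup.le_topologicalClosure _

theorem smul_mem_Box0 {b : ℤ → ℝ≥0} {c : k} {n : ℤ} (h : ‖c‖₊ ≤ b n) : c • y ^ n ∈ Box0 k y b :=
  AddSubgroup.subset_closure ⟨n, c, h, rfl⟩

theorem smul_mem_Box {b : ℤ → ℝ≥0} {c : k} {n : ℤ} (h : ‖c‖₊ ≤ b n) : c • y ^ n ∈ Box k y b :=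
  Box0_le_Box b (smul_mem_Box0 h)

theorem Box0_mono {b b' : ℤ → ℝ≥0} (h : ∀ n, b n ≤ b' n) : Box0 k y b ≤ Box0 k y b' := by
  refine AddSubgroup.closure_mono ?_
  rintro _ ⟨n, c, hc, rfl⟩
  exact ⟨n, c, hc.trans (h n), rfl⟩

theorem Box_mono {b b' : ℤ → ℝ≥0} (h : ∀ n, b n ≤ b' n) : Box k y b ≤ Box k y b' :=
  AddSubgroup.topologicalClosure_mono (Box0_mono h)

theorem ev_mem_Box0 {b : ℤ → ℝ≥0} {p : ℤ →₀ k} (h : ∀ n, ‖p n‖₊ ≤ b n) :
    ev k y p ∈ Box0 k y b := by
  rw [ev_apply]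
  exact AddSubgroup.sum_mem _ fun n _ => smul_mem_Box0 (h n)

theorem ev_mem_Box {b : ℤ → ℝ≥0} {p : ℤ →₀ k} (h : ∀ n, ‖p n‖₊ ≤ b n) : ev k y p ∈ Box k y b :=
  Box0_le_Box b (ev_mem_Box0 h)

section Ultra

variable [IsUltrametricDist E]

theorem exists_of_mem_Box0 {b : ℤ → ℝ≥0} {x : E} (hx : x ∈ Box0 k y b) :
    ∃ p : ℤ →₀ k, (∀ n, ‖p n‖₊ ≤ b n) ∧ x = ev k y p := by
  refine AddSubgroup.closure_induction ?_ ?_ ?_ ?_ hx
  · rintro _ ⟨n, c, hc, rfl⟩
    refine ⟨Finsupp.single n c, fun m => ?_, (ev_single _ _ _).symm⟩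
    rw [Finsupp.single_apply]
    split_ifs with h
    · rw [← h]; exact hc
    · simp
  · exact ⟨0, by simp, by simp⟩
  · rintro _ _ _ _ ⟨p, hp, rfl⟩ ⟨q, hq, rfl⟩
    exact ⟨p + q, fun n => (nnadd_k E _ _).trans (max_le (hp n) (hq n)), by rw [map_add]⟩
  · rintro _ _ ⟨p, hp, rfl⟩
    exact ⟨-p, fun n => by simpa using hp n, by rw [map_neg]⟩

theorem exists_near {b : ℤ → ℝ≥0} {x : E} (hx : x ∈ Box k y b) {ε : ℝ} (hε : 0 < ε) :
    ∃ p : ℤ →₀ k, (∀ n, ‖p n‖₊ ≤ b n) ∧ ‖x - ev k y p‖ < ε := by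
  obtain ⟨z, hz, hzx⟩ := Metric.mem_closure_iff.1
    (show x ∈ closure (Box0 k y b : Set E) from hx) ε hε
  obtain ⟨p, hp, rfl⟩ := exists_of_mem_Box0 hz
  exact ⟨p, hp, by rw [← dist_eq_norm]; exact hzx⟩

omit [IsUltrametricDist E] in
theorem nnsub_k' (E : Type*) [NormedField E] [NormedAlgebra k E] [IsUltrametricDist E] (a b : k) :
    ‖a‖₊ ≤ max ‖b‖₊ ‖a - b‖₊ := by
  have := nnadd_k E b (a - b)
  rwa [add_sub_cancel] at this

/-- A Laurent polynomial is in the box iff its coefficients are bounded. -/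
theorem ev_mem_Box_iff (hG : IsGauss k y) {b : ℤ → ℝ≥0} {p : ℤ →₀ k} :
    ev k y p ∈ Box k y b ↔ ∀ n, ‖p n‖₊ ≤ b n := by
  refine ⟨fun h n => ?_, ev_mem_Box⟩
  refine le_of_forall_pos_le_add fun ε hε => ?_
  obtain ⟨q, hq, hpq⟩ := exists_near h (ε := ε) (by exact_mod_cast hε)
  rw [← map_sub] at hpq
  have h1 := (coeff_le hG (p - q) n).trans hpq.le
  rw [Finsupp.sub_apply] at h1
  have h2 : ‖p n - q n‖₊ ≤ ε := by exact_mod_cast h1
  refine (nnsub_k' E (p n) (q n)).trans (max_le ((hq n).trans ?_) (h2.trans ?_))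
  · exact le_self_add
  · exact le_add_self

omit [IsUltrametricDist E] in
/-- Products of boxes. -/
theorem mul_mem_Box (hG : IsGauss k y) {b b' b'' : ℤ → ℝ≥0}
    (hb : ∀ i j, b i * b' j ≤ b'' (i + j)) {x x' : E} (hx : x ∈ Box k y b)
    (hx' : x' ∈ Box k y b') : x * x' ∈ Box k y b'' := by
  refine map_mem_closure₂ (f := fun a b : E => a * b) continuous_mul hx hx' ?_
  intro a ha a' ha'
  refine AddSubgroup.closure_induction ?_ ?_ ?_ ?_ ha
  · rintro _ ⟨i, c, hc, rfl⟩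
    refine AddSubgroup.closure_induction ?_ ?_ ?_ ?_ ha'
    · rintro _ ⟨j, d, hd, rfl⟩
      have : c • y ^ i * d • y ^ j = (c * d) • y ^ (i + j) := by
        rw [zpow_add₀ hG.ne_zero, smul_mul_smul_comm]
      rw [this]
      refine smul_mem_Box0 ((nnnorm_mul c d).le.trans ((mul_le_mul' hc hd).trans (hb i j)))
    · rw [mul_zero]; exact zero_mem _
    · intro u v _ _ hu hv; rw [mul_add]; exact add_mem hu hv
    · intro u _ hu; rw [mul_neg]; exact neg_mem hu
  · simp only [zero_mul]; exact zero_mem _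
  · intro u v _ _ hu hv; simp only [add_mul]; exact add_mem hu hv
  · intro u _ hu; simp only [neg_mul]; exact neg_mem hu

/-- Elements of a box are bounded. -/
theorem norm_le_of_mem_Box (hG : IsGauss k y) {b : ℤ → ℝ≥0} {r : ℝ≥0} (hb : ∀ n, b n ≤ r)
    {x : E} (hx : x ∈ Box k y b) : ‖x‖ ≤ r := by
  have hcl : IsClosed {x : E | ‖x‖ ≤ r} := isClosed_le continuous_norm continuous_const
  refine closure_minimal (s := (Box0 k y b : Set E)) ?_ hcl hx
  intro z hz
  refine AddSubgroup.closure_induction ?_ ?_ ?_ ?_ hz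
  · rintro _ ⟨n, c, hc, rfl⟩
    change ‖c • y ^ n‖ ≤ r
    rw [norm_smul, nyz hG, mul_one]
    exact_mod_cast hc.trans (hb n)
  · change ‖(0 : E)‖ ≤ r
    rw [norm_zero]; exact r.2
  · intro u v _ _ hu hv
    exact (nadd u v).trans (max_le hu hv)
  · intro u _ hu
    change ‖-u‖ ≤ r
    rw [norm_neg]; exact hu

/-- Multiplication by a monomial. -/
theorem smul_mul_mem_Box (hG : IsGauss k y) {b b' : ℤ → ℝ≥0} {c : k} {m : ℤ}
    (hb : ∀ n, ‖c‖₊ * b n ≤ b' (m + n)) {x : E} (hx : x ∈ Box k y b) :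
    c • y ^ m * x ∈ Box k y b' := by
  have h1 : c • y ^ m ∈ Box k y (fun n => if n = m then ‖c‖₊ else 0) :=
    smul_mem_Box (by simp)
  refine mul_mem_Box hG ?_ h1 hx
  intro i j
  split_ifs with h
  · rw [h]; exact hb j
  · simp


end Ultra

/-! ### The weights -/

/-- `w s α β n = min (α s^(-n)) (β s^n)`. -/
noncomputable def w (s α β : ℝ≥0) (n : ℤ) : ℝ≥0 := min (α * s ^ (-n)) (β * s ^ n)

theorem w_mono {s α β α' β' : ℝ≥0} (h : α ≤ α') (h' : β ≤ β') (n : ℤ) :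
    w s α β n ≤ w s α' β' n :=
  min_le_min (mul_le_mul_left h _) (mul_le_mul_left h' _)

theorem w_mul (s α β α' β' : ℝ≥0) (hs : s ≠ 0) (i j : ℤ) :
    w s α β i * w s α' β' j ≤ w s (α * α') (β * β') (i + j) := by
  refine le_min ?_ ?_
  · refine (mul_le_mul' (min_le_left _ _) (min_le_left _ _)).trans (le_of_eq ?_)
    rw [neg_add, zpow_add₀ hs]; ring
  · refine (mul_le_mul' (min_le_right _ _) (min_le_right _ _)).trans (le_of_eq ?_)
    rw [zpow_add₀ hs]; ring

theorem mul_w (s α β t : ℝ≥0) (n : ℤ) : t * w s α β n = w s (t * α) (t * β) n := by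
  rw [w, w, mul_min_of_nonneg _ _ (zero_le : (0:ℝ≥0) ≤ t)]
  congr 1 <;> ring

theorem w_le {s α β r : ℝ≥0} (hs : 1 ≤ s) (hα : α ≤ r) (hβ : β ≤ r) (n : ℤ) : w s α β n ≤ r := by
  rcases le_total 0 n with h | h
  · refine (min_le_left _ _).trans ?_
    calc α * s ^ (-n) ≤ r * 1 := mul_le_mul' hα (zpow_le_one_of_nonpos₀ hs (by omega))
      _ = r := mul_one r
  · refine (min_le_right _ _).trans ?_
    calc β * s ^ n ≤ r * 1 := mul_le_mul' hβ (zpow_le_one_of_nonpos₀ hs h)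
      _ = r := mul_one r


theorem w_pos {s α β : ℝ≥0} (hs : 0 < s) (hα : 0 < α) (hβ : 0 < β) (n : ℤ) : 0 < w s α β n :=
  lt_min (mul_pos hα (zpow_pos hs _)) (mul_pos hβ (zpow_pos hs _))

/-- The box of the annulus `1/s < |y| < s` with bounds `α` (outer) and `β` (inner). -/
noncomputable def B (k : Type*) {E : Type*} [NormedField k] [NormedField E] [NormedAlgebra k E]
    (y : E) (s α β : ℝ≥0) : AddSubgroup E := Box k y (w s α β)

theorem B_mono {s α β α' β' : ℝ≥0} (h : α ≤ α') (h' : β ≤ β') : B k y s α β ≤ B k y s α' β' :=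
  Box_mono fun n => w_mono h h' n

theorem isClosed_B (s α β : ℝ≥0) : IsClosed (B k y s α β : Set E) := isClosed_Box _

section Ultra2

variable [IsUltrametricDist E]

theorem mul_mem_B (hG : IsGauss k y) {s : ℝ≥0} (hs : s ≠ 0) {α β α' β' : ℝ≥0} {x x' : E}
    (hx : x ∈ B k y s α β) (hx' : x' ∈ B k y s α' β') : x * x' ∈ B k y s (α * α') (β * β') :=
  mul_mem_Box hG (w_mul s α β α' β' hs) hx hx'

theorem norm_le_of_mem_B (hG : IsGauss k y) {s α β r : ℝ≥0} (hs : 1 ≤ s) (hα : α ≤ r)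
    (hβ : β ≤ r) {x : E} (hx : x ∈ B k y s α β) : ‖x‖ ≤ r :=
  norm_le_of_mem_Box hG (w_le hs hα hβ) hx

/-- Every Laurent polynomial is in a box. -/
theorem exists_ev_mem_B {s : ℝ≥0} (hs : 0 < s) (p : ℤ →₀ k) :
    ∃ t : ℝ≥0, ev k y p ∈ B k y s t t := by
  refine ⟨∑ n ∈ p.support, ‖p n‖₊ * (max (s ^ n) (s ^ (-n))), ev_mem_Box fun n => ?_⟩
  by_cases hn : n ∈ p.support
  · have h1 : ‖p n‖₊ * max (s ^ n) (s ^ (-n)) ≤
        ∑ n ∈ p.support, ‖p n‖₊ * (max (s ^ n) (s ^ (-n))) :=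
      Finset.single_le_sum (f := fun n => ‖p n‖₊ * (max (s ^ n) (s ^ (-n))))
        (fun _ _ => zero_le) hn
    have h2 : s ^ n * s ^ (-n) = 1 := by rw [← zpow_add₀ hs.ne', add_neg_cancel, zpow_zero]
    refine le_min ?_ ?_
    · calc ‖p n‖₊ = ‖p n‖₊ * s ^ n * s ^ (-n) := by rw [mul_assoc, h2, mul_one]
        _ ≤ _ := mul_le_mul_left ((mul_le_mul_right (le_max_left _ _) _).trans h1) _
    · calc ‖p n‖₊ = ‖p n‖₊ * s ^ (-n) * s ^ n := by
            rw [mul_assoc, mul_comm (s ^ (-n)), h2, mul_one]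
        _ ≤ _ := mul_le_mul_left ((mul_le_mul_right (le_max_right _ _) _).trans h1) _
  · rw [Finsupp.notMem_support_iff.1 hn]; simp

end Ultra2

end Crest.Agent.R013.Annu_930
end

-- ▼ part R013/Annu2_930
section

/-!
# Functions on a closed annulus, part 2: the ring `AN`, Newton data, division

`AN hG hs` (`1 < s`) = functions on `1/s ≤ |y| ≤ s` = elements of `E` which are approximated by
Laurent polynomials uniformly on this annulus.  Main result: `division`.
-/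

set_option autoImplicit false
set_option linter.unusedSectionVars false

namespace Crest.Agent.R013.Annu_930

open Filter Topology Polynomial Crest.Agent.R013.Gl946
open scoped NNReal

variable {k E : Type*} [NormedField k] [NormedField E] [NormedAlgebra k E]
  [IsUltrametricDist E] {y : E}

theorem ev_mem_B_iff (hG : IsGauss k y) {s α β : ℝ≥0} {p : ℤ →₀ k} :
    ev k y p ∈ B k y s α β ↔ ∀ n, ‖p n‖₊ ≤ w s α β n := ev_mem_Box_iff hG

/-- being approximated by Laurent polynomials -/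
def IsAN (k : Type*) {E : Type*} [NormedField k] [NormedField E] [NormedAlgebra k E] (y : E)
    (s : ℝ≥0) (x : E) : Prop :=
  ∀ ε : ℝ≥0, 0 < ε → ∃ p : ℤ →₀ k, x - ev k y p ∈ B k y s ε ε

theorem IsAN.exists_B {s : ℝ≥0} (hs : 1 < s) {x : E} (hx : IsAN k y s x) :
    ∃ t : ℝ≥0, x ∈ B k y s t t := by
  obtain ⟨p, hp⟩ := hx 1 zero_lt_one
  obtain ⟨t, ht⟩ := exists_ev_mem_B (y := y) (zero_lt_one.trans hs) p
  refine ⟨max 1 t, ?_⟩
  have : x = (x - ev k y p) + ev k y p := by ring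
  rw [this]
  exact add_mem (B_mono (le_max_left _ _) (le_max_left _ _) hp)
    (B_mono (le_max_right _ _) (le_max_right _ _) ht)

/-- The functions on the closed annulus `1/s ≤ |y| ≤ s`. -/
noncomputable def AN (hG : IsGauss k y) {s : ℝ≥0} (hs : 1 < s) : Subalgebra k E where
  carrier := {x | IsAN k y s x}
  mul_mem' := by
    intro x x' hx hx' ε hε
    have hs0 : s ≠ 0 := (zero_lt_one.trans hs).ne'
    obtain ⟨t, ht⟩ := hx.exists_B hs
    obtain ⟨p', hp'⟩ := hx' (ε / (t + 1)) (div_pos hε (by positivity))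
    obtain ⟨t', ht'⟩ := exists_ev_mem_B (y := y) (zero_lt_one.trans hs) p'
    obtain ⟨p, hp⟩ := hx (ε / (t' + 1)) (div_pos hε (by positivity))
    obtain ⟨r, hr⟩ := ev_mul_ev hG p p'
    refine ⟨r, ?_⟩
    have e : x * x' - ev k y r = x * (x' - ev k y p') + (x - ev k y p) * ev k y p' := by
      rw [hr]; ring
    have aux : ∀ u : ℝ≥0, u * (ε / (u + 1)) ≤ ε := by
      intro u
      rw [mul_div_left_comm]
      calc ε * (u / (u + 1)) ≤ ε * 1 := mul_le_mul_right
            (div_le_one_of_le₀ le_self_add zero_le) _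
        _ = ε := mul_one ε
    rw [e]
    refine add_mem (B_mono (aux t) (aux t) (mul_mem_B hG hs0 ht hp')) ?_
    refine B_mono ?_ ?_ (mul_mem_B hG hs0 hp ht')
    · rw [mul_comm]; exact aux t'
    · rw [mul_comm]; exact aux t'
  add_mem' := by
    intro x x' hx hx' ε hε
    obtain ⟨p, hp⟩ := hx ε hε
    obtain ⟨p', hp'⟩ := hx' ε hε
    refine ⟨p + p', ?_⟩
    rw [map_add, add_sub_add_comm]
    exact add_mem hp hp'
  algebraMap_mem' := by
    intro c ε _
    refine ⟨Finsupp.single 0 c, ?_⟩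
    rw [ev_single, zpow_zero, Algebra.smul_def, mul_one, sub_self]
    exact zero_mem _


theorem ev_mem_AN (hG : IsGauss k y) {s : ℝ≥0} (hs : 1 < s) (p : ℤ →₀ k) :
    ev k y p ∈ AN hG hs := fun _ _ => ⟨p, by rw [sub_self]; exact zero_mem _⟩

theorem zpow_mem_AN (hG : IsGauss k y) {s : ℝ≥0} (hs : 1 < s) (n : ℤ) : y ^ n ∈ AN hG hs := by
  have := ev_mem_AN hG hs (Finsupp.single n 1)
  rwa [ev_single, one_smul] at this

theorem aeval_mem_AN (hG : IsGauss k y) {s : ℝ≥0} (hs : 1 < s) (f : k[X]) :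
    aeval y f ∈ AN hG hs := by
  obtain ⟨p, hp, -⟩ := aeval_eq_ev (y := y) f
  rw [← hp]
  exact ev_mem_AN hG hs p



/-! ### Completeness -/

theorem hasSum_mem_B [CompleteSpace E] (hG : IsGauss k y) {s : ℝ≥0} (hs : 1 < s) {α β θ : ℝ≥0}
    (hθ : θ < 1) {q : ℕ → E} (hq : ∀ i, q i ∈ B k y s (θ ^ i * α) (θ ^ i * β)) :
    ∃ Q : E, HasSum q Q ∧
      ∀ m, Q - ∑ i ∈ Finset.range m, q i ∈ B k y s (θ ^ m * α) (θ ^ m * β) := by
  have hθ' : (θ : ℝ) < 1 := by exact_mod_cast hθ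
  have hsum : Summable q := by
    refine Summable.of_norm_bounded (g := fun i => (θ : ℝ) ^ i * (max α β : ℝ≥0)) ?_ fun i => ?_
    · exact (summable_geometric_of_lt_one θ.2 hθ').mul_right _
    · have := norm_le_of_mem_B hG hs.le (r := θ ^ i * max α β)
        (mul_le_mul_right (le_max_left _ _) _) (mul_le_mul_right (le_max_right _ _) _) (hq i)
      simpa using this
  refine ⟨∑' i, q i, hsum.hasSum, fun m => ?_⟩
  have h1 : Tendsto (fun n => ∑ i ∈ Finset.range n, q i - ∑ i ∈ Finset.range m, q i) atTop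
      (𝓝 (∑' i, q i - ∑ i ∈ Finset.range m, q i)) :=
    hsum.hasSum.tendsto_sum_nat.sub_const _
  refine (isClosed_B s _ _).mem_of_tendsto h1 (eventually_atTop.2 ⟨m, fun n hn => ?_⟩)
  rw [Finset.sum_range_sub_sum_range hn]
  refine AddSubgroup.sum_mem _ fun i hi => ?_
  rw [Finset.mem_filter, Finset.mem_range] at hi
  have : θ ^ i ≤ θ ^ m := pow_le_pow_right_of_le_one' hθ.le hi.2
  exact B_mono (mul_le_mul_left this _) (mul_le_mul_left this _) (hq i)

theorem hasSum_mem_AN [CompleteSpace E] (hG : IsGauss k y) {s : ℝ≥0} (hs : 1 < s) {t θ : ℝ≥0}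
    (hθ : θ < 1) {q : ℕ → E} (hq : ∀ i, q i ∈ B k y s (θ ^ i * t) (θ ^ i * t))
    (hq' : ∀ i, q i ∈ AN hG hs) : ∃ Q ∈ AN hG hs, HasSum q Q ∧ Q ∈ B k y s t t := by
  obtain ⟨Q, h1, h2⟩ := hasSum_mem_B hG hs hθ hq
  refine ⟨Q, fun ε hε => ?_, h1, by simpa using h2 0⟩
  obtain ⟨m, hm⟩ : ∃ m : ℕ, θ ^ m * t ≤ ε := by
    have hθ' : (θ : ℝ) < 1 := by exact_mod_cast hθ
    have : Tendsto (fun m : ℕ => (θ : ℝ) ^ m * t) atTop (𝓝 0) := by
      simpa using (tendsto_pow_atTop_nhds_zero_of_lt_one θ.2 hθ').mul_const (t : ℝ)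
    obtain ⟨m, hm⟩ := (this.eventually (gt_mem_nhds (show (0:ℝ) < ε by exact_mod_cast hε))).exists
    exact ⟨m, by exact_mod_cast hm.le⟩
  have h3 : ∑ i ∈ Finset.range m, q i ∈ AN hG hs := sum_mem fun i _ => hq' i
  obtain ⟨p, hp⟩ := h3 ε hε
  refine ⟨p, ?_⟩
  have : Q - ev k y p = (Q - ∑ i ∈ Finset.range m, q i) + (∑ i ∈ Finset.range m, q i - ev k y p) := by
    ring
  rw [this]
  exact add_mem (B_mono hm hm (h2 m)) hp

/-! ### Newton data -/

/-- Newton data of `f`: `f = ev p + u`, the polynomial `p` has a dominating last coefficient at `μ`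
for `|y| = s` and a dominating first coefficient at `ν` for `|y| = 1/s`; `θ < 1` bounds the rest. -/
structure ND (k : Type*) {E : Type*} [NormedField k] [NormedField E] [NormedAlgebra k E] (y : E)
    (s : ℝ≥0) (f : E) (δ : ℝ≥0) (ν μ : ℤ) (p : ℤ →₀ k) (u : E) (θ α β : ℝ≥0) : Prop where
  hθ0 : 0 < θ
  hθ : θ < 1
  hα : 0 < α
  hβ : 0 < β
  le : ν ≤ μ
  eq : f = ev k y p + u
  bd : ∀ n, ‖p n‖₊ ≤ w s α β n
  out : ∀ n, n < ν ∨ μ < n → ‖p n‖₊ ≤ θ * w s α β n
  hμ : ‖p μ‖₊ = α * s ^ (-μ)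
  hν : ‖p ν‖₊ = β * s ^ ν
  hu : u ∈ B k y s (θ * α) (θ * β)
  hu' : u ∈ B k y s δ δ

theorem exists_newton_aux {s : ℝ≥0} (hs : 1 < s) (p : ℤ →₀ k) (hp : p ≠ 0) :
    ∃ (ν μ : ℤ) (α β : ℝ≥0), 0 < α ∧ 0 < β ∧ ν ≤ μ ∧ (∀ n, ‖p n‖₊ ≤ w s α β n) ∧
      (∀ n, n < ν ∨ μ < n → ‖p n‖₊ < w s α β n) ∧ ‖p μ‖₊ = α * s ^ (-μ) ∧
      ‖p ν‖₊ = β * s ^ ν := by
  classical
  have hs0 : s ≠ 0 := (zero_lt_one.trans hs).ne'
  have hsp : 0 < s := zero_lt_one.trans hs
  have hS : p.support.Nonempty := Finsupp.support_nonempty_iff.2 hp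
  obtain ⟨m0, hm0, hmax⟩ := Finset.exists_max_image p.support (fun n => ‖p n‖₊ * s ^ n) hS
  obtain ⟨n0, hn0, hmax'⟩ := Finset.exists_max_image p.support (fun n => ‖p n‖₊ * s ^ (-n)) hS
  set α := ‖p m0‖₊ * s ^ m0 with hα
  set β := ‖p n0‖₊ * s ^ (-n0) with hβ
  have hα0 : 0 < α := mul_pos (nnnorm_pos.2 (Finsupp.mem_support_iff.1 hm0)) (zpow_pos hsp _)
  have hβ0 : 0 < β := mul_pos (nnnorm_pos.2 (Finsupp.mem_support_iff.1 hn0)) (zpow_pos hsp _)
  set T := p.support.filter fun n => ‖p n‖₊ * s ^ n = α with hT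
  set T' := p.support.filter fun n => ‖p n‖₊ * s ^ (-n) = β with hT'
  have hTn : T.Nonempty := ⟨m0, Finset.mem_filter.2 ⟨hm0, rfl⟩⟩
  have hTn' : T'.Nonempty := ⟨n0, Finset.mem_filter.2 ⟨hn0, rfl⟩⟩
  set μ := T.max' hTn with hμ
  set ν := T'.min' hTn' with hν
  have hμT : μ ∈ T := T.max'_mem hTn
  have hνT : ν ∈ T' := T'.min'_mem hTn'
  have zz : ∀ n : ℤ, s ^ n * s ^ (-n) = 1 := fun n => by
    rw [← zpow_add₀ hs0, add_neg_cancel, zpow_zero]
  have hle : ∀ n, ‖p n‖₊ * s ^ n ≤ α := by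
    intro n
    by_cases hn : n ∈ p.support
    · exact hmax n hn
    · rw [Finsupp.notMem_support_iff.1 hn]; simp
  have hle' : ∀ n, ‖p n‖₊ * s ^ (-n) ≤ β := by
    intro n
    by_cases hn : n ∈ p.support
    · exact hmax' n hn
    · rw [Finsupp.notMem_support_iff.1 hn]; simp
  have c1 : ∀ n, ‖p n‖₊ = ‖p n‖₊ * s ^ n * s ^ (-n) := fun n => by rw [mul_assoc, zz, mul_one]
  have c2 : ∀ n, ‖p n‖₊ = ‖p n‖₊ * s ^ (-n) * s ^ n := fun n => by
    rw [mul_assoc, mul_comm (s ^ (-n)), zz, mul_one]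
  have b1 : ∀ n, ‖p n‖₊ ≤ α * s ^ (-n) := fun n => by
    rw [c1 n]; exact mul_le_mul_left (hle n) _
  have b2 : ∀ n, ‖p n‖₊ ≤ β * s ^ n := fun n => by
    rw [c2 n]; exact mul_le_mul_left (hle' n) _
  have hpμ : ‖p μ‖₊ = α * s ^ (-μ) := by
    have := (Finset.mem_filter.1 hμT).2
    rw [c1 μ, this]
  have hpν : ‖p ν‖₊ = β * s ^ ν := by
    have := (Finset.mem_filter.1 hνT).2
    rw [c2 ν, this]
  have hlt : ∀ n, n < ν ∨ μ < n → ‖p n‖₊ < w s α β n := by
    rintro n (hn | hn)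
    · have h1 : ‖p n‖₊ * s ^ (-n) < β := by
        refine lt_of_le_of_ne (hle' n) fun h => ?_
        by_cases hnS : n ∈ p.support
        · exact absurd (T'.min'_le n (Finset.mem_filter.2 ⟨hnS, h⟩)) (not_le.2 hn)
        · rw [Finsupp.notMem_support_iff.1 hnS, nnnorm_zero, zero_mul] at h
          exact hβ0.ne h
      have h2 : ‖p n‖₊ < β * s ^ n := by
        rw [c2 n]; exact mul_lt_mul_of_pos_right h1 (zpow_pos hsp _)
      refine lt_min (h2.trans_le ?_) h2
      have h3 : β = ‖p ν‖₊ * s ^ (-ν) := ((Finset.mem_filter.1 hνT).2).symm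
      rw [h3]
      calc ‖p ν‖₊ * s ^ (-ν) * s ^ n ≤ α * s ^ (-ν) * s ^ (-ν) * s ^ n :=
            mul_le_mul_left (mul_le_mul_left (b1 ν) _) _
        _ = α * s ^ (-ν + -ν + n) := by
            rw [zpow_add₀ hs0, zpow_add₀ hs0]; ring
        _ ≤ α * s ^ (-n) := mul_le_mul_right (zpow_le_zpow_right₀ hs.le (by omega)) _
    · have h1 : ‖p n‖₊ * s ^ n < α := by
        refine lt_of_le_of_ne (hle n) fun h => ?_
        by_cases hnS : n ∈ p.support
        · exact absurd (T.le_max' n (Finset.mem_filter.2 ⟨hnS, h⟩)) (not_le.2 hn)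
        · rw [Finsupp.notMem_support_iff.1 hnS, nnnorm_zero, zero_mul] at h
          exact hα0.ne h
      have h2 : ‖p n‖₊ < α * s ^ (-n) := by
        rw [c1 n]; exact mul_lt_mul_of_pos_right h1 (zpow_pos hsp _)
      refine lt_min h2 (h2.trans_le ?_)
      have h3 : α = ‖p μ‖₊ * s ^ μ := ((Finset.mem_filter.1 hμT).2).symm
      rw [h3]
      calc ‖p μ‖₊ * s ^ μ * s ^ (-n) ≤ β * s ^ μ * s ^ μ * s ^ (-n) :=
            mul_le_mul_left (mul_le_mul_left (b2 μ) _) _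
        _ = β * s ^ (μ + μ + -n) := by
            rw [zpow_add₀ hs0, zpow_add₀ hs0]; ring
        _ ≤ β * s ^ n := mul_le_mul_right (zpow_le_zpow_right₀ hs.le (by omega)) _
  refine ⟨ν, μ, α, β, hα0, hβ0, ?_, fun n => le_min (b1 n) (b2 n), hlt, hpμ, hpν⟩
  by_contra hcon
  push Not at hcon
  have h1 := hlt ν (Or.inr hcon)
  rw [hpν] at h1
  exact absurd h1 (not_lt.2 (min_le_right _ _))

theorem exists_newton (hG : IsGauss k y) {s : ℝ≥0} (hs : 1 < s) {f : E} (hf : f ∈ AN hG hs)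
    (hf0 : f ≠ 0) {δ : ℝ≥0} (hδ : 0 < δ) :
    ∃ ν μ p u θ α β, ND k y s f δ ν μ p u θ α β := by
  classical
  have hsp : 0 < s := zero_lt_one.trans hs
  have hfn : 0 < ‖f‖₊ := nnnorm_pos.2 hf0
  set ε0 := ‖f‖₊ / 2 with hε0
  have hε0p : 0 < ε0 := div_pos hfn two_pos
  have hε0f : ε0 < ‖f‖₊ := NNReal.half_lt_self hfn.ne'
  obtain ⟨p0, hp0⟩ := hf ε0 hε0p
  obtain ⟨n0, hn0⟩ : ∃ n0, ε0 < ‖p0 n0‖₊ := by
    by_contra hcon
    push Not at hcon
    have h1 : ‖ev k y p0‖ ≤ ε0 := norm_le_of_mem_Box hG (b := fun _ => ε0) (fun _ => le_rfl)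
      (ev_mem_Box hcon)
    have h2 := norm_le_of_mem_B hG hs.le le_rfl le_rfl hp0
    have h3 : ‖f‖ ≤ ε0 := by
      have : f = (f - ev k y p0) + ev k y p0 := by ring
      rw [this]
      exact (nadd _ _).trans (max_le h2 h1)
    exact absurd hε0f (not_lt.2 (by exact_mod_cast h3))
  set L := w s ‖p0 n0‖₊ ‖p0 n0‖₊ n0 with hL
  set L' := ‖p0 n0‖₊ * min (s ^ n0) (s ^ (-n0)) with hL'
  have ha0 : 0 < ‖p0 n0‖₊ := hε0p.trans hn0
  have hL'0 : 0 < L' := mul_pos ha0 (lt_min (zpow_pos hsp _) (zpow_pos hsp _))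
  set ε1 := min (min ε0 δ) (L' / 2) with hε1
  have hε1p : 0 < ε1 := lt_min (lt_min hε0p hδ) (div_pos hL'0 two_pos)
  have hε1L : ε1 < L' := (min_le_right _ _).trans_lt (NNReal.half_lt_self hL'0.ne')
  obtain ⟨p, hp⟩ := hf ε1 hε1p
  have hpn0 : ‖p0 n0‖₊ ≤ ‖p n0‖₊ := by
    have h1 : ev k y (p0 - p) ∈ B k y s ε0 ε0 := by
      have : ev k y (p0 - p) = (f - ev k y p) - (f - ev k y p0) := by rw [map_sub]; ring
      rw [this]
      have h2 : ε1 ≤ ε0 := (min_le_left _ _).trans (min_le_left _ _)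
      exact sub_mem (B_mono h2 h2 hp) hp0
    have h2 := (ev_mem_B_iff hG).1 h1 n0
    have h3 : ‖p0 n0 - p n0‖₊ ≤ ε0 := h2.trans (w_le hs.le le_rfl le_rfl _)
    rcases le_max_iff.1 (nnsub_k' E (p0 n0) (p n0)) with h | h
    · exact h
    · exact absurd hn0 (not_lt.2 (h.trans h3))
  have hp0' : p ≠ 0 := by
    rintro rfl
    rw [Finsupp.zero_apply, nnnorm_zero] at hpn0
    exact absurd ha0 (not_lt.2 hpn0)
  obtain ⟨ν, μ, α, β, hα, hβ, hνμ, hbd, hout, hμ, hν⟩ := exists_newton_aux hs p hp0'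
  have hs0 : s ≠ 0 := hsp.ne'
  have zz : ∀ n : ℤ, s ^ n * s ^ (-n) = 1 := fun n => by
    rw [← zpow_add₀ hs0, add_neg_cancel, zpow_zero]
  have hαL : ε1 < α := by
    refine hε1L.trans_le ?_
    have h1 := (hbd n0).trans (min_le_left _ _)
    calc L' ≤ ‖p0 n0‖₊ * s ^ n0 := mul_le_mul_right (min_le_left _ _) _
      _ ≤ ‖p n0‖₊ * s ^ n0 := mul_le_mul_left hpn0 _
      _ ≤ α * s ^ (-n0) * s ^ n0 := mul_le_mul_left h1 _
      _ = α := by rw [mul_assoc, mul_comm (s ^ (-n0)), zz, mul_one]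
  have hβL : ε1 < β := by
    refine hε1L.trans_le ?_
    have h1 := (hbd n0).trans (min_le_right _ _)
    calc L' ≤ ‖p0 n0‖₊ * s ^ (-n0) := mul_le_mul_right (min_le_right _ _) _
      _ ≤ ‖p n0‖₊ * s ^ (-n0) := mul_le_mul_left hpn0 _
      _ ≤ β * s ^ n0 * s ^ (-n0) := mul_le_mul_left h1 _
      _ = β := by rw [mul_assoc, zz, mul_one]
  set O := p.support.filter fun n => n < ν ∨ μ < n with hO
  set θ := max (max (O.sup fun n => ‖p n‖₊ / w s α β n) (1 / 2)) (max (ε1 / α) (ε1 / β)) with hθ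
  have hwp : ∀ n, 0 < w s α β n := w_pos hsp hα hβ
  have hθ1 : θ < 1 := by
    refine max_lt (max_lt ?_ (by norm_num)) (max_lt ?_ ?_)
    · rw [Finset.sup_lt_iff (by simp)]
      intro n hn
      rw [div_lt_one (hwp n)]
      exact hout n (Finset.mem_filter.1 hn).2
    · rwa [div_lt_one hα]
    · rwa [div_lt_one hβ]
  have hε1α : ε1 ≤ θ * α := by
    have : ε1 / α ≤ θ := (le_max_left _ _).trans (le_max_right _ _)
    rwa [div_le_iff₀ hα] at this
  have hε1β : ε1 ≤ θ * β := by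
    have : ε1 / β ≤ θ := (le_max_right _ _).trans (le_max_right _ _)
    rwa [div_le_iff₀ hβ] at this
  refine ⟨ν, μ, p, f - ev k y p, θ, α, β, ?_, hθ1, hα, hβ, hνμ, by ring, hbd, ?_, hμ, hν, ?_, ?_⟩
  · exact lt_of_lt_of_le (by norm_num : (0:ℝ≥0) < 1 / 2) ((le_max_right _ _).trans (le_max_left _ _))
  · intro n hn
    by_cases hnS : n ∈ p.support
    · have h1 : ‖p n‖₊ / w s α β n ≤ O.sup fun n => ‖p n‖₊ / w s α β n :=
        Finset.le_sup (f := fun n => ‖p n‖₊ / w s α β n) (Finset.mem_filter.2 ⟨hnS, hn⟩)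
      have h2 : ‖p n‖₊ / w s α β n ≤ θ := h1.trans ((le_max_left _ _).trans (le_max_left _ _))
      rwa [div_le_iff₀ (hwp n)] at h2
    · rw [Finsupp.notMem_support_iff.1 hnS]; simp
  · exact B_mono hε1α hε1β hp
  · have : ε1 ≤ δ := (min_le_left _ _).trans (min_le_right _ _)
    exact B_mono this this hp

/-! ### Division -/

/-- Division of monomials (one direction). -/
theorem div_mono {Y : E} (hY : Y ≠ 0) {s : ℝ≥0} (hs : s ≠ 0) (D : AddSubgroup E) (P : ℤ →₀ k)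
    (ν μ : ℤ) (hsupp : ∀ n, P n ≠ 0 → ν ≤ n ∧ n ≤ μ) {A : ℝ≥0} (hA : 0 < A)
    (hP : ∀ n, ‖P n‖₊ ≤ A * s ^ (-n)) (hlead : ‖P μ‖₊ = A * s ^ (-μ)) (t : ℝ≥0)
    (hD1 : ∀ m : ℤ, 0 ≤ m → ∀ c : k, ‖c‖₊ ≤ t * s ^ (-m) → ev k Y P * (c • Y ^ m) ∈ D)
    (hD2 : ∀ m : ℤ, ν ≤ m → m ≤ μ → ∀ c : k, c • Y ^ m ∈ D) (j : ℕ) :
    ∀ n : ℤ, ν ≤ n → n ≤ μ + j → ∀ c : k, ‖c‖₊ ≤ t * (A * s ^ (-n)) → c • Y ^ n ∈ D := by
  classical
  induction j with
  | zero =>
    intro n h1 h2 c _
    exact hD2 n h1 (by simpa using h2) c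
  | succ j ih =>
    intro n h1 h2 c hc
    rcases lt_or_ge μ n with h3 | h3
    swap
    · exact hD2 n h1 h3 c
    have hPμ : P μ ≠ 0 := by
      rw [← nnnorm_pos, hlead]
      exact mul_pos hA (zpow_pos (pos_iff_ne_zero.2 hs) _)
    have hPμs : μ ∈ P.support := Finsupp.mem_support_iff.2 hPμ
    set d := c * (P μ)⁻¹ with hd
    have e1 : ev k Y P * (d • Y ^ (n - μ)) = c • Y ^ n +
        ∑ i ∈ P.support.erase μ, (d * P i) • Y ^ (n - μ + i) := by
      rw [ev_apply, Finsupp.sum, Finset.sum_mul, ← Finset.add_sum_erase _ _ hPμs]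
      congr 1
      · rw [smul_mul_smul_comm, ← zpow_add₀ hY, hd, mul_comm c, mul_inv_cancel_left₀ hPμ]
        congr 2; ring
      · refine Finset.sum_congr rfl fun i _ => ?_
        rw [smul_mul_smul_comm, ← zpow_add₀ hY, mul_comm (P i) d]
        congr 2; ring
    have hdn : ‖d‖₊ ≤ t * s ^ (-(n - μ)) := by
      rw [hd, nnnorm_mul, nnnorm_inv, hlead]
      have hpos : 0 < A * s ^ (-μ) := mul_pos hA (zpow_pos (pos_iff_ne_zero.2 hs) _)
      rw [mul_inv_le_iff₀ hpos]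
      refine hc.trans (le_of_eq ?_)
      have : s ^ (-n) = s ^ (-(n - μ)) * s ^ (-μ) := by
        rw [← zpow_add₀ hs]; congr 1; ring
      rw [this]; ring
    have e2 : c • Y ^ n = ev k Y P * (d • Y ^ (n - μ)) -
        ∑ i ∈ P.support.erase μ, (d * P i) • Y ^ (n - μ + i) := by rw [e1]; ring
    rw [e2]
    refine sub_mem (hD1 _ (by omega) _ hdn) (AddSubgroup.sum_mem _ fun i hi => ?_)
    rw [Finset.mem_erase, Finsupp.mem_support_iff] at hi
    have hi2 := hsupp i hi.2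
    have hi3 : i < μ := lt_of_le_of_ne hi2.2 hi.1
    refine ih (n - μ + i) (by omega) (by push_cast at h2 ⊢; omega) _ ?_
    calc ‖d * P i‖₊ = ‖d‖₊ * ‖P i‖₊ := nnnorm_mul _ _
      _ ≤ (t * s ^ (-(n - μ))) * (A * s ^ (-i)) := mul_le_mul' hdn (hP i)
      _ = t * (A * s ^ (-(n - μ + i))) := by
        have : s ^ (-(n - μ + i)) = s ^ (-(n - μ)) * s ^ (-i) := by
          rw [← zpow_add₀ hs]; congr 1; ring
        rw [this]; ring

/-- Span of `y ^ i`, `ν ≤ i ≤ μ`. -/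
def VV (k : Type*) {E : Type*} [NormedField k] [NormedField E] [NormedAlgebra k E] (y : E)
    (ν μ : ℤ) : Submodule k E :=
  Submodule.span k (Set.range fun i : Finset.Icc ν μ => y ^ (i : ℤ))

theorem smul_mem_VV {ν μ n : ℤ} (h1 : ν ≤ n) (h2 : n ≤ μ) (c : k) : c • y ^ n ∈ VV k y ν μ :=
  Submodule.smul_mem _ _ (Submodule.subset_span ⟨⟨n, Finset.mem_Icc.2 ⟨h1, h2⟩⟩, rfl⟩)

theorem exists_of_mem_VV {ν μ : ℤ} {x : E} (hx : x ∈ VV k y ν μ) :
    ∃ r : ℤ →₀ k, ev k y r = x ∧ ∀ n, r n ≠ 0 → ν ≤ n ∧ n ≤ μ := by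
  classical
  refine Submodule.span_induction ?_ ?_ ?_ ?_ hx
  · rintro _ ⟨⟨i, hi⟩, rfl⟩
    refine ⟨Finsupp.single i 1, by rw [ev_single, one_smul], fun n hn => ?_⟩
    rw [Finsupp.single_apply] at hn
    have : i = n := by by_contra h; exact hn (if_neg h)
    rw [← this]; exact Finset.mem_Icc.1 hi
  · exact ⟨0, by simp, by simp⟩
  · rintro _ _ _ _ ⟨p, rfl, hp⟩ ⟨q, rfl, hq⟩
    refine ⟨p + q, map_add _ _ _, fun n hn => ?_⟩
    by_cases h : p n = 0
    · refine hq n fun h' => hn ?_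
      rw [Finsupp.add_apply, h, h', add_zero]
    · exact hp n h
  · rintro c _ _ ⟨p, rfl, hp⟩
    refine ⟨c • p, map_smul _ _ _, fun n hn => hp n fun h => hn ?_⟩
    rw [Finsupp.smul_apply, h, smul_zero]

theorem VV_le_AN (hG : IsGauss k y) {s : ℝ≥0} (hs : 1 < s) {ν μ : ℤ} {x : E}
    (hx : x ∈ VV k y ν μ) : x ∈ AN hG hs := by
  obtain ⟨r, rfl, -⟩ := exists_of_mem_VV hx
  exact ev_mem_AN hG hs r

theorem isClosed_VV [CompleteSpace k] {π : k} (hπ : IsUnif π) (ν μ : ℤ) :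
    IsClosed (VV k y ν μ : Set E) := by
  let inst : NontriviallyNormedField k :=
    { (inferInstance : NormedField k) with
      non_trivial := ⟨π⁻¹, by
        rw [norm_inv]; exact (one_lt_inv₀ hπ.pos).2 hπ.lt_one⟩ }
  have hfin : FiniteDimensional k (VV k y ν μ) :=
    FiniteDimensional.span_of_finite k (Set.finite_range _)
  exact Submodule.closed_of_finiteDimensional _

/-- the mirror `n ↦ p (-n)` -/
noncomputable def mir (p : ℤ →₀ k) : ℤ →₀ k := Finsupp.equivMapDomain (Equiv.neg ℤ) p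

theorem mir_apply (p : ℤ →₀ k) (n : ℤ) : mir p n = p (-n) := by
  rw [mir, Finsupp.equivMapDomain_apply]; rfl

theorem ev_mir (p : ℤ →₀ k) : ev k y⁻¹ (mir p) = ev k y p := by
  rw [ev, mir, Finsupp.linearCombination_equivMapDomain]
  congr 2
  funext n
  simp [Equiv.neg_apply]

variable {s : ℝ≥0} {f : E} {δ : ℝ≥0} {ν μ : ℤ} {p : ℤ →₀ k} {u : E} {θ α β : ℝ≥0}

/-- Division of Laurent polynomials by the polynomial part of `p` supported in `[ν, μ]`. -/
theorem ND.div_poly (hG : IsGauss k y) (hs : 1 < s) (h : ND k y s f δ ν μ p u θ α β)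
    (P : ℤ →₀ k) (hP : ∀ n, P n = if ν ≤ n ∧ n ≤ μ then p n else 0) (t : ℝ≥0) (g : ℤ →₀ k)
    (hg : ∀ n, ‖g n‖₊ ≤ t * w s α β n) :
    ∃ q : E, q ∈ AN hG hs ∧ q ∈ B k y s t t ∧ ∃ r ∈ VV k y ν μ, ev k y g = ev k y P * q + r := by
  have hsp : 0 < s := zero_lt_one.trans hs
  have hs0 : s ≠ 0 := hsp.ne'
  -- the group `D`
  let Q : AddSubgroup E := (AN hG hs).toSubmodule.toAddSubgroup ⊓ B k y s t t
  let D : AddSubgroup E := (Q.map (AddMonoidHom.mulLeft (ev k y P))) ⊔ (VV k y ν μ).toAddSubgroup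
  have hD1 : ∀ (m : ℤ) (c : k), ‖c‖₊ ≤ w s t t m → ev k y P * (c • y ^ m) ∈ D := by
    intro m c hc
    refine AddSubgroup.mem_sup_left ⟨c • y ^ m, ⟨?_, smul_mem_Box hc⟩, rfl⟩
    exact (AN hG hs).smul_mem (zpow_mem_AN hG hs m) c
  have hD2 : ∀ m : ℤ, ν ≤ m → m ≤ μ → ∀ c : k, c • y ^ m ∈ D := fun m h1 h2 c =>
    AddSubgroup.mem_sup_right (smul_mem_VV h1 h2 c)
  have wpos : ∀ m : ℤ, 0 ≤ m → t * s ^ (-m) ≤ w s t t m := fun m hm =>
    le_min le_rfl (mul_le_mul_right (zpow_le_zpow_right₀ hs.le (by omega)) _)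
  have wneg : ∀ m : ℤ, 0 ≤ m → t * s ^ (-m) ≤ w s t t (-m) := fun m hm =>
    le_min (mul_le_mul_right (zpow_le_zpow_right₀ hs.le (by omega)) _) le_rfl
  have key : ∀ (n : ℤ) (c : k), ‖c‖₊ ≤ t * w s α β n → c • y ^ n ∈ D := by
    intro n c hc
    rcases lt_or_ge μ n with h1 | h1
    · refine div_mono hG.ne_zero hs0 D P ν μ ?_ h.hα ?_ ?_ t ?_ hD2 (n - μ).toNat n
        (h.le.trans h1.le) (by omega) c (hc.trans (mul_le_mul_right (min_le_left _ _) _))
      · intro i hi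
        by_contra hcon
        exact hi (by rw [hP, if_neg hcon])
      · intro i
        rw [hP]
        split_ifs
        · exact (h.bd i).trans (min_le_left _ _)
        · simp
      · rw [hP, if_pos ⟨h.le, le_rfl⟩, h.hμ]
      · intro m hm c hc
        exact hD1 m c (hc.trans (wpos m hm))
    rcases lt_or_ge n ν with h2 | h2
    · have hy' : (y⁻¹ : E) ≠ 0 := inv_ne_zero hG.ne_zero
      have e : c • y ^ n = c • (y⁻¹) ^ (-n) := by rw [inv_zpow', neg_neg]
      rw [e]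
      refine div_mono hy' hs0 D (mir P) (-μ) (-ν) ?_ h.hβ ?_ ?_ t ?_ ?_ (ν - n).toNat
        (-n) ?_ ?_ c (hc.trans (mul_le_mul_right ?_ _))
      · intro i hi
        rw [mir_apply] at hi
        by_contra hcon
        exact hi (by rw [hP, if_neg (by omega)])
      · intro i
        rw [mir_apply, hP]
        split_ifs
        · have := (h.bd (-i)).trans (min_le_right _ _)
          exact this
        · simp
      · rw [mir_apply, neg_neg, hP, if_pos ⟨le_rfl, h.le⟩, h.hν]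
      · intro m hm c hc
        rw [ev_mir]
        have e' : (y⁻¹ : E) ^ m = y ^ (-m) := by rw [inv_zpow']
        rw [e']
        exact hD1 (-m) c (hc.trans (wneg m hm))
      · intro m h3 h4 c
        have e' : (y⁻¹ : E) ^ m = y ^ (-m) := by rw [inv_zpow']
        rw [e']
        exact hD2 (-m) (by omega) (by omega) c
      · have := h.le; omega
      · omega
      · rw [neg_neg]; exact min_le_right _ _
    · exact hD2 n h2 h1 c
  have hgD : ev k y g ∈ D := by
    rw [ev_apply]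
    exact AddSubgroup.sum_mem _ fun n _ => key n _ (hg n)
  obtain ⟨_, ⟨q, ⟨hq1, hq2⟩, rfl⟩, r, hr, e⟩ := AddSubgroup.mem_sup.1 hgD
  exact ⟨q, hq1, hq2, r, hr, e.symm⟩

/-- One step of the division by `f`. -/
theorem ND.approx_div (hG : IsGauss k y) (hs : 1 < s) (h : ND k y s f δ ν μ p u θ α β)
    (hf : f ∈ AN hG hs) {t : ℝ≥0} (ht : 0 < t) {g : E} (hg : g ∈ AN hG hs)
    (hgB : g ∈ B k y s (t * α) (t * β)) :
    ∃ q : E, q ∈ AN hG hs ∧ q ∈ B k y s t t ∧ ∃ r ∈ VV k y ν μ,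
      g - (f * q + r) ∈ AN hG hs ∧ g - (f * q + r) ∈ B k y s (θ * t * α) (θ * t * β) := by
  classical
  have hsp : 0 < s := zero_lt_one.trans hs
  have hs0 : s ≠ 0 := hsp.ne'
  set P : ℤ →₀ k := p.filter (fun n => ν ≤ n ∧ n ≤ μ) with hPdef
  have hP : ∀ n, P n = if ν ≤ n ∧ n ≤ μ then p n else 0 := fun n => by
    rw [hPdef, Finsupp.filter_apply]
  -- `f = ev P + u'`
  have hu' : f - ev k y P ∈ B k y s (θ * α) (θ * β) := by
    have e : f - ev k y P = ev k y (p - P) + u := by rw [h.eq, map_sub]; ring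
    rw [e]
    refine add_mem ((ev_mem_B_iff hG).2 fun n => ?_) h.hu
    rw [← mul_w, Finsupp.sub_apply, hP]
    split_ifs with hn
    · rw [sub_self, nnnorm_zero]; exact zero_le
    · rw [sub_zero]; exact h.out n (by omega)
  set ε := θ * t * min α β with hε
  have hεp : 0 < ε := mul_pos (mul_pos h.hθ0 ht) (lt_min h.hα h.hβ)
  obtain ⟨g0, hg0⟩ := hg ε hεp
  have hεα : ε ≤ θ * t * α := mul_le_mul_right (min_le_left _ _) _
  have hεβ : ε ≤ θ * t * β := mul_le_mul_right (min_le_right _ _) _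
  have hθt : θ * t ≤ t := by
    calc θ * t ≤ 1 * t := mul_le_mul_left h.hθ.le _
      _ = t := one_mul t
  have hg0B : ev k y g0 ∈ B k y s (t * α) (t * β) := by
    have e : ev k y g0 = g - (g - ev k y g0) := by ring
    rw [e]
    exact sub_mem hgB (B_mono (hεα.trans (mul_le_mul_left hθt _))
      (hεβ.trans (mul_le_mul_left hθt _)) hg0)
  obtain ⟨q, hq1, hq2, r, hr, e⟩ := h.div_poly hG hs P hP t g0 fun n => by
    rw [mul_w]; exact (ev_mem_B_iff hG).1 hg0B n
  refine ⟨q, hq1, hq2, r, hr, ?_, ?_⟩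
  · exact sub_mem hg (add_mem (mul_mem hf hq1) (VV_le_AN hG hs hr))
  · have e2 : g - (f * q + r) = (g - ev k y g0) - (f - ev k y P) * q := by
      rw [e]; ring
    rw [e2]
    refine sub_mem (B_mono hεα hεβ hg0) ?_
    refine B_mono (le_of_eq ?_) (le_of_eq ?_) (mul_mem_B hG hs0 hu' hq2) <;> ring

/-- **Division on the annulus.** -/
theorem ND.division [CompleteSpace k] [CompleteSpace E] {π : k} (hπ : IsUnif π)
    (hG : IsGauss k y) (hs : 1 < s) (h : ND k y s f δ ν μ p u θ α β)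
    (hf : f ∈ AN hG hs) {g : E} (hg : g ∈ AN hG hs) :
    ∃ q ∈ AN hG hs, ∃ r ∈ VV k y ν μ, g = f * q + r := by
  have hsp : 0 < s := zero_lt_one.trans hs
  obtain ⟨t, ht, hgB⟩ : ∃ t : ℝ≥0, 0 < t ∧ g ∈ B k y s (t * α) (t * β) := by
    obtain ⟨t0, ht0⟩ := IsAN.exists_B hs hg
    refine ⟨(t0 + 1) / min α β, div_pos (by positivity) (lt_min h.hα h.hβ), B_mono ?_ ?_ ht0⟩
    · rw [div_mul_eq_mul_div, le_div_iff₀ (lt_min h.hα h.hβ)]
      exact mul_le_mul' le_self_add (min_le_left _ _)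
    · rw [div_mul_eq_mul_div, le_div_iff₀ (lt_min h.hα h.hβ)]
      exact mul_le_mul' le_self_add (min_le_right _ _)
  have H : ∀ (i : ℕ) (z : E), z ∈ AN hG hs ∧ z ∈ B k y s (θ ^ i * t * α) (θ ^ i * t * β) →
      ∃ q r : E, q ∈ AN hG hs ∧ q ∈ B k y s (θ ^ i * t) (θ ^ i * t) ∧ r ∈ VV k y ν μ ∧
        z - (f * q + r) ∈ AN hG hs ∧
        z - (f * q + r) ∈ B k y s (θ ^ (i + 1) * t * α) (θ ^ (i + 1) * t * β) := by
    rintro i z ⟨hz1, hz2⟩
    obtain ⟨q, h1, h2, r, h3, h4, h5⟩ := h.approx_div hG hs hf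
      (t := θ ^ i * t) (mul_pos (pow_pos h.hθ0 _) ht) hz1 hz2
    refine ⟨q, r, h1, h2, h3, h4, ?_⟩
    have e : θ * (θ ^ i * t) = θ ^ (i + 1) * t := by rw [pow_succ]; ring
    rwa [e] at h5
  choose! Q R hQ1 hQ2 hR hN1 hN2 using H
  set G : ℕ → E := fun n => Nat.rec g (fun i z => z - (f * Q i z + R i z)) n with hGdef
  have G0 : G 0 = g := rfl
  have GS : ∀ i, G (i + 1) = G i - (f * Q i (G i) + R i (G i)) := fun i => rfl
  have hGi : ∀ i, G i ∈ AN hG hs ∧ G i ∈ B k y s (θ ^ i * t * α) (θ ^ i * t * β) := by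
    intro i
    induction i with
    | zero => rw [G0]; exact ⟨hg, by simpa using hgB⟩
    | succ i ih => rw [GS]; exact ⟨hN1 i _ ih, hN2 i _ ih⟩
  obtain ⟨q, hqAN, hqsum, -⟩ := hasSum_mem_AN hG hs h.hθ (q := fun i => Q i (G i))
    (fun i => hQ2 i _ (hGi i)) (fun i => hQ1 i _ (hGi i))
  refine ⟨q, hqAN, g - f * q, ?_, by ring⟩
  have hpart : ∀ n, ∑ i ∈ Finset.range n, R i (G i) =
      g - f * ∑ i ∈ Finset.range n, Q i (G i) - G n := by
    intro n
    induction n with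
    | zero => simp [G0]
    | succ n ih => rw [Finset.sum_range_succ, Finset.sum_range_succ, ih, GS]; ring
  have hG0 : Tendsto G atTop (𝓝 0) := by
    have hθ' : (θ : ℝ) < 1 := by exact_mod_cast h.hθ
    refine squeeze_zero_norm (a := fun i : ℕ => (θ : ℝ) ^ i * (t * max α β : ℝ≥0)) (fun i => ?_) ?_
    · have := norm_le_of_mem_B hG hs.le (r := θ ^ i * (t * max α β))
        (by rw [mul_assoc]; exact mul_le_mul_right (mul_le_mul_right (le_max_left _ _) _) _)
        (by rw [mul_assoc]; exact mul_le_mul_right (mul_le_mul_right (le_max_right _ _) _) _)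
        (hGi i).2
      simpa using this
    · simpa using (tendsto_pow_atTop_nhds_zero_of_lt_one θ.2 hθ').mul_const
        ((t * max α β : ℝ≥0) : ℝ)
  have hlim : Tendsto (fun n => ∑ i ∈ Finset.range n, R i (G i)) atTop (𝓝 (g - f * q - 0)) := by
    simp only [hpart]
    exact ((hqsum.tendsto_sum_nat.const_mul f).const_sub g).sub hG0
  rw [sub_zero] at hlim
  exact (isClosed_VV hπ ν μ).mem_of_tendsto hlim (Eventually.of_forall fun n =>
    Submodule.sum_mem _ fun i _ => hR i _ (hGi i))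

end Crest.Agent.R013.Annu_930
end

-- ▼ part R013/Annu3_930
section

/-!
# Functions on a closed annulus, part 3: units, Weierstrass preparation, principal ideals
-/

set_option autoImplicit false
set_option linter.unusedSectionVars false

namespace Crest.Agent.R013.Annu_930

open Filter Topology Polynomial Crest.Agent.R013.Gl946
open scoped NNReal

variable {k E : Type*} [NormedField k] [NormedField E] [NormedAlgebra k E]
  [IsUltrametricDist E] {y : E}

/-! ### The mirror `y ↦ 1/y` -/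

theorem isGauss_inv (hG : IsGauss k y) : IsGauss k y⁻¹ where
  norm_le := by rw [norm_inv, hG.norm_eq, inv_one]
  coeff_le := by
    intro f i
    obtain ⟨p, hp, hpc⟩ := aeval_eq_ev (y := y⁻¹) f
    have h1 : mir (mir p) = p := by ext n; rw [mir_apply, mir_apply, neg_neg]
    have h2 : aeval y⁻¹ f = ev k y (mir p) := by
      rw [← hp, ← ev_mir (y := y) (mir p), h1]
    rw [h2, ← hpc i]
    have := coeff_le hG (mir p) (-(i : ℤ))
    rwa [mir_apply, neg_neg] at this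

theorem Box_inv (b : ℤ → ℝ≥0) : Box k y⁻¹ b = Box k y (fun n => b (-n)) := by
  have : Box0 k y⁻¹ b = Box0 k y (fun n => b (-n)) := by
    unfold Box0
    congr 1
    ext x
    constructor
    · rintro ⟨n, c, hc, rfl⟩
      exact ⟨-n, c, by dsimp only; rwa [neg_neg], by rw [inv_zpow']⟩
    · rintro ⟨n, c, hc, rfl⟩
      exact ⟨-n, c, hc, by rw [inv_zpow', neg_neg]⟩
  rw [Box, Box, this]

theorem w_neg (s α β : ℝ≥0) (n : ℤ) : w s α β (-n) = w s β α n := by
  rw [w, w, neg_neg, min_comm]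

theorem B_inv (s α β : ℝ≥0) : B k y⁻¹ s α β = B k y s β α := by
  rw [B, B, Box_inv]
  congr 1
  funext n
  exact w_neg s α β n

theorem ND.inv {s : ℝ≥0} {f : E} {δ : ℝ≥0} {ν μ : ℤ} {p : ℤ →₀ k} {u : E} {θ α β : ℝ≥0}
    (h : ND k y s f δ ν μ p u θ α β) : ND k y⁻¹ s f δ (-μ) (-ν) (mir p) u θ β α where
  hθ0 := h.hθ0
  hθ := h.hθ
  hα := h.hβ
  hβ := h.hα
  le := neg_le_neg h.le
  eq := by rw [ev_mir]; exact h.eq
  bd n := by rw [mir_apply, ← w_neg]; exact h.bd _
  out n hn := by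
    rw [mir_apply, ← w_neg]
    exact h.out _ (by omega)
  hμ := by rw [mir_apply, neg_neg]; exact h.hν
  hν := by rw [mir_apply, neg_neg]; exact h.hμ
  hu := by rw [B_inv]; exact h.hu
  hu' := by rw [B_inv]; exact h.hu'

/-! ### Dominating terms of products -/

/-- the bound for the remainder after the dominating term at `μ`, for `|y| = s` -/
noncomputable def lb (s α θ : ℝ≥0) (μ n : ℤ) : ℝ≥0 :=
  if n < μ then α * s ^ (-n) else θ * α * s ^ (-n)

theorem ND.rest {s : ℝ≥0} {f : E} {δ : ℝ≥0} {ν μ : ℤ} {p : ℤ →₀ k} {u : E} {θ α β : ℝ≥0}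
    (h : ND k y s f δ ν μ p u θ α β) {θ' : ℝ≥0} (hθ' : θ ≤ θ') (hθ1 : θ' ≤ 1) :
    f - p μ • y ^ μ ∈ Box k y (lb s α θ' μ) := by
  have e : f - p μ • y ^ μ = ev k y (p - Finsupp.single μ (p μ)) + u := by
    rw [map_sub, ev_single, h.eq]; ring
  rw [e]
  have hle : ∀ n, θ * α * s ^ (-n) ≤ lb s α θ' μ n := by
    intro n
    unfold lb
    split_ifs
    · exact mul_le_mul_left ((mul_le_mul_left (hθ'.trans hθ1) _).trans (one_mul α).le) _
    · exact mul_le_mul_left (mul_le_mul_left hθ' _) _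
  refine add_mem (ev_mem_Box fun n => ?_) (Box_mono (fun n => ?_) h.hu)
  · rw [Finsupp.sub_apply, Finsupp.single_apply]
    rcases lt_trichotomy n μ with hn | hn | hn
    · rw [if_neg (by omega), sub_zero, lb, if_pos hn]
      exact (h.bd n).trans (min_le_left _ _)
    · subst hn; rw [if_pos rfl, sub_self, nnnorm_zero]; exact zero_le
    · rw [if_neg (by omega), sub_zero]
      refine le_trans ?_ (hle n)
      rw [mul_assoc]
      exact (h.out n (Or.inr hn)).trans (mul_le_mul_right (min_le_left _ _) _)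
  · exact (min_le_left _ _).trans (hle n)

theorem lb_mul {s : ℝ≥0} (hs : s ≠ 0) (α α' θ : ℝ≥0) (hθ : θ ≤ 1) (μ μ' i j : ℤ) :
    lb s α θ μ i * lb s α' θ μ' j ≤ lb s (α * α') θ (μ + μ') (i + j) := by
  have e : s ^ (-(i + j)) = s ^ (-i) * s ^ (-j) := by
    rw [neg_add, zpow_add₀ hs]
  unfold lb
  rw [e]
  have hθθ : θ * θ ≤ θ := (mul_le_mul_right hθ _).trans (mul_one θ).le
  split_ifs with h1 h2 h3 h4 h5 h6
  · exact le_of_eq (by ring)
  · omega
  · calc α * s ^ (-i) * (θ * α' * s ^ (-j)) = θ * (α * α' * (s ^ (-i) * s ^ (-j))) := by ring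
      _ ≤ 1 * (α * α' * (s ^ (-i) * s ^ (-j))) := mul_le_mul_left hθ _
      _ = _ := one_mul _
  · exact le_of_eq (by ring)
  · calc θ * α * s ^ (-i) * (α' * s ^ (-j)) = θ * (α * α' * (s ^ (-i) * s ^ (-j))) := by ring
      _ ≤ 1 * (α * α' * (s ^ (-i) * s ^ (-j))) := mul_le_mul_left hθ _
      _ = _ := one_mul _
  · exact le_of_eq (by ring)
  · omega
  · calc θ * α * s ^ (-i) * (θ * α' * s ^ (-j)) = θ * θ * (α * α' * (s ^ (-i) * s ^ (-j))) := by
          ring
      _ ≤ θ * (α * α' * (s ^ (-i) * s ^ (-j))) := mul_le_mul_left hθθ _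
      _ = _ := by ring

theorem lead_mul (hG : IsGauss k y) {s : ℝ≥0} (hs : 1 < s) {f f' : E}
    {δ : ℝ≥0} {ν μ : ℤ} {p : ℤ →₀ k} {u : E} {θ α β : ℝ≥0} (h : ND k y s f δ ν μ p u θ α β)
    {δ' : ℝ≥0} {ν' μ' : ℤ} {p' : ℤ →₀ k} {u' : E} {θ' α' β' : ℝ≥0}
    (h' : ND k y s f' δ' ν' μ' p' u' θ' α' β') (hff : f * f' = 1) : μ + μ' = 0 := by
  by_contra hne
  have hsp : 0 < s := zero_lt_one.trans hs
  have hs0 : s ≠ 0 := hsp.ne'
  set Θ := max θ θ' with hΘ
  have hΘ1 : Θ < 1 := max_lt h.hθ h'.hθ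
  have r1 := h.rest (le_max_left θ θ') hΘ1.le
  have r2 := h'.rest (le_max_right θ θ') hΘ1.le
  have e1 : ∀ n, ‖p μ‖₊ * lb s α' Θ μ' n ≤ lb s (α * α') Θ (μ + μ') (μ + n) := by
    intro n
    rw [h.hμ]
    have e : s ^ (-(μ + n)) = s ^ (-μ) * s ^ (-n) := by rw [neg_add, zpow_add₀ hs0]
    unfold lb
    rw [e]
    split_ifs with h1 h2 h3
    · exact le_of_eq (by ring)
    · omega
    · omega
    · exact le_of_eq (by ring)
  have e2 : ∀ n, ‖p' μ'‖₊ * lb s α Θ μ n ≤ lb s (α * α') Θ (μ + μ') (μ' + n) := by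
    intro n
    rw [h'.hμ]
    have e : s ^ (-(μ' + n)) = s ^ (-μ') * s ^ (-n) := by rw [neg_add, zpow_add₀ hs0]
    unfold lb
    rw [e]
    split_ifs with h1 h2 h3
    · exact le_of_eq (by ring)
    · omega
    · omega
    · exact le_of_eq (by ring)
  have hmem : ev k y (Finsupp.single 0 1 - Finsupp.single (μ + μ') (p μ * p' μ')) ∈
      Box k y (lb s (α * α') Θ (μ + μ')) := by
    have e3 : ev k y (Finsupp.single 0 1 - Finsupp.single (μ + μ') (p μ * p' μ')) =
        p μ • y ^ μ * (f' - p' μ' • y ^ μ') + p' μ' • y ^ μ' * (f - p μ • y ^ μ) +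
          (f - p μ • y ^ μ) * (f' - p' μ' • y ^ μ') := by
      rw [map_sub, ev_single, ev_single, one_smul, zpow_zero]
      have : (p μ * p' μ') • y ^ (μ + μ') = p μ • y ^ μ * p' μ' • y ^ μ' := by
        rw [zpow_add₀ hG.ne_zero, smul_mul_smul_comm]
      rw [this, ← hff]; ring
    rw [e3]
    refine add_mem (add_mem (smul_mul_mem_Box hG e1 r2) (smul_mul_mem_Box hG e2 r1)) ?_
    exact mul_mem_Box hG (lb_mul hs0 α α' Θ hΘ1.le μ μ') r1 r2
  have h1 := (ev_mem_Box_iff hG).1 hmem (μ + μ')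
  rw [Finsupp.sub_apply, Finsupp.single_apply, Finsupp.single_apply, if_neg (Ne.symm hne),
    if_pos rfl, zero_sub, nnnorm_neg, nnnorm_mul, h.hμ, h'.hμ, lb, if_neg (lt_irrefl _)] at h1
  have e4 : α * s ^ (-μ) * (α' * s ^ (-μ')) = α * α' * s ^ (-(μ + μ')) := by
    rw [neg_add, zpow_add₀ hs0]; ring
  rw [e4, mul_assoc Θ] at h1
  have hpos : 0 < α * α' * s ^ (-(μ + μ')) := mul_pos (mul_pos h.hα h'.hα) (zpow_pos hsp _)
  have h2 : Θ * (α * α' * s ^ (-(μ + μ'))) < 1 * (α * α' * s ^ (-(μ + μ'))) :=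
    mul_lt_mul_of_pos_right hΘ1 hpos
  rw [one_mul] at h2
  exact absurd h1 (not_le.2 h2)

/-- **Units of `AN`**: one dominating term on the whole annulus. -/
theorem unit_form (hG : IsGauss k y) {s : ℝ≥0} (hs : 1 < s) {f f' : E} (hf : f ∈ AN hG hs)
    (hf' : f' ∈ AN hG hs) (hff : f * f' = 1) :
    ∃ (c : k) (j : ℤ) (ε : E) (θ : ℝ≥0), c ≠ 0 ∧ f = c • y ^ j * (1 + ε) ∧ ε ∈ AN hG hs ∧
      θ < 1 ∧ ε ∈ B k y s θ θ ∧ ‖ε‖ < (s : ℝ)⁻¹ := by
  have hsp : 0 < s := zero_lt_one.trans hs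
  have hs0 : s ≠ 0 := hsp.ne'
  have hf0 : f ≠ 0 := left_ne_zero_of_mul_eq_one hff
  have hf0' : f' ≠ 0 := right_ne_zero_of_mul_eq_one hff
  have hfn : 0 < ‖f‖₊ := nnnorm_pos.2 hf0
  obtain ⟨ν, μ, p, u, θ, α, β, h⟩ := exists_newton hG hs hf hf0 (δ := ‖f‖₊ / (2 * s))
    (by positivity)
  obtain ⟨ν', μ', p', u', θ', α', β', h'⟩ := exists_newton hG hs hf' hf0' zero_lt_one
  have h1 := lead_mul hG hs h h' hff
  have h2 := lead_mul (isGauss_inv hG) hs h.inv h'.inv hff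
  have h3 := h.le
  have h4 := h'.le
  obtain rfl : ν = μ := by omega
  set c := p ν with hc
  have hcn : 0 < ‖c‖₊ := by rw [h.hν]; exact mul_pos h.hβ (zpow_pos hsp _)
  have hc0 : c ≠ 0 := nnnorm_pos.1 hcn
  have zz : ∀ n : ℤ, s ^ n * s ^ (-n) = 1 := fun n => by
    rw [← zpow_add₀ hs0, add_neg_cancel, zpow_zero]
  have hα : α = ‖c‖₊ * s ^ ν := by
    rw [h.hμ, mul_assoc, mul_comm (s ^ (-ν)), zz, mul_one]
  have hβ : β = ‖c‖₊ * s ^ (-ν) := by
    rw [h.hν, mul_assoc, zz, mul_one]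
  have hy := hG.ne_zero
  have hcy : c • y ^ ν ≠ 0 := smul_ne_zero hc0 (zpow_ne_zero _ hy)
  have hcyn : ‖c • y ^ ν‖ = ‖c‖ := by rw [norm_smul, nyz hG, mul_one]
  -- the inverse of the monomial
  have hinv : (c • y ^ ν)⁻¹ = c⁻¹ • y ^ (-ν) := by
    rw [zpow_neg, smul_inv₀]
  set ε := c⁻¹ • y ^ (-ν) * (f - c • y ^ ν) with hε
  have hfe : f = c • y ^ ν * (1 + ε) := by
    rw [hε, ← hinv, mul_add, mul_one, mul_inv_cancel_left₀ hcy]; ring
  have hrest : f - c • y ^ ν = ev k y (p - Finsupp.single ν c) + u := by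
    rw [map_sub, ev_single, h.eq]; ring
  have hpc : ∀ n, ‖(p - Finsupp.single ν c) n‖₊ ≤ if n = ν then 0 else θ * w s α β n := by
    intro n
    rw [Finsupp.sub_apply, Finsupp.single_apply]
    split_ifs with h5 h6 h7
    · rw [← h5, sub_self, nnnorm_zero]
    · exact absurd h5.symm h6
    · exact absurd h7.symm h5
    · rw [sub_zero]; exact h.out n (by omega)
  have hB : f - c • y ^ ν ∈ B k y s (θ * α) (θ * β) := by
    rw [hrest]
    refine add_mem ((ev_mem_B_iff hG).2 fun n => (hpc n).trans ?_) h.hu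
    rw [← mul_w]
    split_ifs
    · exact zero_le
    · exact le_rfl
  -- norm
  have hw : ∀ n, n ≠ ν → w s α β n ≤ ‖c‖₊ / s := by
    intro n hn
    rw [w, hα, hβ, mul_assoc, mul_assoc, ← zpow_add₀ hs0, ← zpow_add₀ hs0, div_eq_mul_inv,
      ← zpow_neg_one]
    rcases lt_or_gt_of_ne hn with h5 | h5
    · exact (min_le_right _ _).trans (mul_le_mul_right (zpow_le_zpow_right₀ hs.le (by omega)) _)
    · exact (min_le_left _ _).trans (mul_le_mul_right (zpow_le_zpow_right₀ hs.le (by omega)) _)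
  have hn1 : ‖ev k y (p - Finsupp.single ν c)‖ ≤ (θ * (‖c‖₊ / s) : ℝ≥0) := by
    refine norm_le_of_mem_Box hG (b := fun n => if n = ν then 0 else θ * w s α β n) ?_
      (ev_mem_Box hpc)
    intro n
    split_ifs with h5
    · exact zero_le
    · exact mul_le_mul_right (hw n h5) _
  have hn2 : ‖u‖ ≤ (‖f‖₊ / (2 * s) : ℝ≥0) := norm_le_of_mem_B hG hs.le le_rfl le_rfl h.hu'
  have hδ : ‖f‖₊ / (2 * s) < ‖f‖₊ / s :=
    div_lt_div_of_pos_left hfn hsp (by
      calc s = 1 * s := (one_mul s).symm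
        _ < 2 * s := mul_lt_mul_of_pos_right one_lt_two hsp)
  have hfs : ‖f‖₊ / s ≤ ‖f‖₊ := div_le_self zero_le hs.le
  have hcs : ‖c‖₊ / s ≤ ‖c‖₊ := div_le_self zero_le hs.le
  have hθc : θ * (‖c‖₊ / s) < ‖c‖₊ / s := by
    calc θ * (‖c‖₊ / s) < 1 * (‖c‖₊ / s) := mul_lt_mul_of_pos_right h.hθ (div_pos hcn hsp)
      _ = _ := one_mul _
  have hfc : ‖f‖₊ ≤ ‖c‖₊ := by
    by_contra hcon
    push Not at hcon
    have h6 : ‖f‖ < ‖f‖ := by
      have e : f = c • y ^ ν + (ev k y (p - Finsupp.single ν c) + u) := by rw [← hrest]; ring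
      have h7 : ‖c • y ^ ν + (ev k y (p - Finsupp.single ν c) + u)‖ < ‖f‖ := by
        refine (nadd _ _).trans_lt (max_lt ?_ ((nadd _ _).trans_lt (max_lt ?_ ?_)))
        · rw [hcyn]; exact_mod_cast hcon
        · refine hn1.trans_lt ?_
          have : θ * (‖c‖₊ / s) < ‖f‖₊ := (hθc.trans_le hcs).trans hcon
          exact_mod_cast this
        · refine hn2.trans_lt ?_
          have : ‖f‖₊ / (2 * s) < ‖f‖₊ := hδ.trans_le hfs
          exact_mod_cast this
      rwa [← e] at h7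
    exact lt_irrefl _ h6
  refine ⟨c, ν, ε, θ, hc0, hfe, ?_, h.hθ, ?_, ?_⟩
  · refine mul_mem ((AN hG hs).smul_mem (zpow_mem_AN hG hs _) _) (sub_mem hf ?_)
    exact (AN hG hs).smul_mem (zpow_mem_AN hG hs _) _
  · refine smul_mul_mem_Box hG (b := w s (θ * α) (θ * β)) (fun n => ?_) hB
    have hcc : ‖c‖₊⁻¹ * ‖c‖₊ = 1 := inv_mul_cancel₀ hcn.ne'
    rw [nnnorm_inv, mul_w]
    refine min_le_min (le_of_eq ?_) (le_of_eq ?_)
    · rw [hα, neg_add, neg_neg, zpow_add₀ hs0]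
      linear_combination (θ * s ^ ν * s ^ (-n)) * hcc
    · rw [hβ, zpow_add₀ hs0]
      linear_combination (θ * s ^ (-ν) * s ^ n) * hcc
  · rw [hε, norm_mul, norm_smul, nyz hG, mul_one, norm_inv, hrest,
      inv_mul_lt_iff₀ (by exact_mod_cast hcn)]
    have h8 : ‖c‖ * (s : ℝ)⁻¹ = ((‖c‖₊ / s : ℝ≥0) : ℝ) := by
      rw [NNReal.coe_div, coe_nnnorm, div_eq_mul_inv]
    rw [h8]
    refine (nadd _ _).trans_lt (max_lt (hn1.trans_lt ?_) (hn2.trans_lt ?_))
    · exact_mod_cast hθc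
    · have : ‖f‖₊ / (2 * s) < ‖c‖₊ / s := hδ.trans_le (by
        exact div_le_div_of_nonneg_right hfc hsp.le)
      exact_mod_cast this

end Crest.Agent.R013.Annu_930
end

-- ▼ part R013/Annu4_930
section

/-!
# Functions on a closed annulus, part 4: Weierstrass preparation, `AN` is a principal ideal domain,
the field `MN` of meromorphic functions, divisors
-/

set_option autoImplicit false
set_option linter.unusedSectionVars false

namespace Crest.Agent.R013.Annu_930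

open Filter Topology Polynomial Crest.Agent.R013.Gl946
open scoped NNReal

variable {k E : Type*} [NormedField k] [NormedField E] [NormedAlgebra k E]
  [IsUltrametricDist E] {y : E}

section Ring

variable (hG : IsGauss k y) {s : ℝ≥0} (hs : 1 < s)

/-- `y` as an element of `AN`. -/
noncomputable def yA : AN hG hs := ⟨y, by simpa using zpow_mem_AN hG hs 1⟩

theorem coe_yA : ((yA hG hs : AN hG hs) : E) = y := rfl

/-- `k[X] → AN`, `X ↦ y`. -/
noncomputable def phi : k[X] →ₐ[k] AN hG hs := aeval (yA hG hs)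

theorem coe_phi (F : k[X]) : ((phi hG hs F : AN hG hs) : E) = aeval y F := by
  have : ((AN hG hs).val.comp (phi hG hs)) = aeval y := by
    refine Polynomial.algHom_ext ?_
    simp [phi, coe_yA]
  exact congrArg (fun g : k[X] →ₐ[k] E => g F) this

theorem phi_X : phi hG hs X = yA hG hs := by simp [phi]

theorem phi_ne_zero {F : k[X]} (hF : F ≠ 0) : phi hG hs F ≠ 0 := by
  intro h
  have := coe_phi hG hs F
  rw [h] at this
  exact hG.aeval_ne_zero hF this.symm

theorem isUnit_yA : IsUnit (yA hG hs) := by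
  refine IsUnit.of_mul_eq_one ⟨y⁻¹, by simpa using zpow_mem_AN hG hs (-1)⟩ ?_
  ext
  exact mul_inv_cancel₀ hG.ne_zero

theorem isUnit_phi_C {c : k} (hc : c ≠ 0) : IsUnit (phi hG hs (C c)) :=
  (isUnit_C.2 (isUnit_iff_ne_zero.2 hc)).map _

variable [CompleteSpace k] [CompleteSpace E] {π : k} (hπ : IsUnif π)

include hπ

/-- Division by a nonzero element of `AN`. -/
theorem division (f : AN hG hs) (hf : f ≠ 0) : ∃ ν μ : ℤ, ∀ g : AN hG hs, ∃ q r : AN hG hs,
    g = f * q + r ∧ (r : E) ∈ VV k y ν μ := by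
  have hf0 : (f : E) ≠ 0 := fun h => hf (Subtype.ext h)
  obtain ⟨ν, μ, p, u, θ, α, β, h⟩ := exists_newton hG hs f.2 hf0 zero_lt_one
  refine ⟨ν, μ, fun g => ?_⟩
  obtain ⟨q, hq, r, hr, e⟩ := h.division hπ hG hs f.2 g.2
  exact ⟨⟨q, hq⟩, ⟨r, VV_le_AN hG hs hr⟩, Subtype.ext e, hr⟩

omit [CompleteSpace k] [CompleteSpace E] hπ in
/-- A Laurent polynomial is `y^(-N)` times a polynomial. -/
theorem exists_pow_mul {ν μ : ℤ} (r : AN hG hs) (hr : (r : E) ∈ VV k y ν μ) :
    ∃ (N : ℕ) (F : k[X]), yA hG hs ^ N * r = phi hG hs F := by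
  obtain ⟨ρ, hρ, -⟩ := exists_of_mem_VV hr
  obtain ⟨N, F, -, h2, -⟩ := exists_shift hG ρ 0
  refine ⟨N, F, Subtype.ext ?_⟩
  rw [coe_phi, h2, hρ]
  rfl

/-- Every nonzero element of `AN` divides a nonzero polynomial. -/
theorem exists_dvd_poly (f : AN hG hs) (hf : f ≠ 0) : ∃ F : k[X], F ≠ 0 ∧ f ∣ phi hG hs F := by
  classical
  obtain ⟨ν, μ, hdiv⟩ := division hG hs hπ f hf
  obtain ⟨q, r, e, hr⟩ := hdiv ⟨y ^ (μ + 1), zpow_mem_AN hG hs _⟩
  obtain ⟨ρ, hρ, hsupp⟩ := exists_of_mem_VV hr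
  obtain ⟨N, F, h1, h2, h3⟩ := exists_shift hG (Finsupp.single (μ + 1) 1 - ρ) (μ + 1)
  refine ⟨F, ?_, yA hG hs ^ N * q, Subtype.ext ?_⟩
  · rintro rfl
    have h4 := h3 (μ + 1) h1
    rw [coeff_zero, Finsupp.sub_apply, Finsupp.single_apply, if_pos rfl] at h4
    have h5 : ρ (μ + 1) = 0 := by
      by_contra hcon
      have := (hsupp _ hcon).2
      omega
    rw [h5, sub_zero] at h4
    exact zero_ne_one h4
  · have e' : y ^ (μ + 1) = (f : E) * (q : E) + (r : E) := congrArg Subtype.val e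
    rw [coe_phi, h2, map_sub, ev_single, one_smul, hρ, e', add_sub_cancel_right]
    change y ^ N * ((f : E) * q) = f * (y ^ N * q)
    ring

/-- Modulo a nonzero polynomial prime to `y`, every function on the annulus is a polynomial. -/
theorem exists_mod (P : k[X]) (hP : P.coeff 0 ≠ 0) (g : AN hG hs) :
    ∃ (q : AN hG hs) (G : k[X]), g = phi hG hs P * q + phi hG hs G := by
  have hP0 : P ≠ 0 := by rintro rfl; exact hP (coeff_zero 0)
  set I : Ideal (AN hG hs) := Ideal.span {phi hG hs P} with hI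
  set ψ : k[X] →+* AN hG hs ⧸ I := (Ideal.Quotient.mk I).comp (phi hG hs).toRingHom with hψ
  have hψa : ∀ F, ψ F = Ideal.Quotient.mk I (phi hG hs F) := fun F => rfl
  suffices h : Ideal.Quotient.mk I g ∈ ψ.range by
    obtain ⟨G, hG'⟩ := h
    have h1 : g - phi hG hs G ∈ I := by
      rw [← Ideal.Quotient.mk_eq_mk_iff_sub_mem, ← hG', hψa]
    obtain ⟨q, hq⟩ := Ideal.mem_span_singleton.1 h1
    exact ⟨q, G, by rw [← hq]; ring⟩
  obtain ⟨z, hz⟩ := isUnit_yA hG hs
  -- `1/y` is in the range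
  have hinv : Ideal.Quotient.mk I (↑z⁻¹ : AN hG hs) ∈ ψ.range := by
    refine ⟨C (-(P.coeff 0)⁻¹) * P.divX, ?_⟩
    rw [hψa]
    refine (Ideal.Quotient.mk_eq_mk_iff_sub_mem _ _).2 ?_
    refine Ideal.mem_span_singleton.2 ⟨-(↑z⁻¹ : AN hG hs) * phi hG hs (C (P.coeff 0)⁻¹), ?_⟩
    have e1 : phi hG hs P = phi hG hs P.divX * yA hG hs + phi hG hs (C (P.coeff 0)) := by
      conv_lhs => rw [← divX_mul_X_add P]
      rw [map_add, map_mul, phi_X]
    have e2 : phi hG hs (C (P.coeff 0)) * phi hG hs (C (P.coeff 0)⁻¹) = 1 := by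
      rw [← map_mul, ← C_mul, mul_inv_cancel₀ hP, map_one, map_one]
    have e3 : yA hG hs * (↑z⁻¹ : AN hG hs) = 1 := by rw [← hz]; exact z.mul_inv
    rw [e1, map_mul, C_neg, map_neg]
    linear_combination (phi hG hs (C (P.coeff 0)⁻¹) * phi hG hs P.divX) * e3 +
      (↑z⁻¹ : AN hG hs) * e2
  obtain ⟨ν, μ, hdiv⟩ := division hG hs hπ (phi hG hs P) (phi_ne_zero hG hs hP0)
  obtain ⟨q, r, e, hr⟩ := hdiv g
  obtain ⟨N, F, hF⟩ := exists_pow_mul hG hs r hr
  have e4 : r = (↑z⁻¹ : AN hG hs) ^ N * phi hG hs F := by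
    rw [← hF, ← hz, ← mul_assoc, ← mul_pow, z.inv_mul, one_pow, one_mul]
  have e5 : Ideal.Quotient.mk I g = Ideal.Quotient.mk I (↑z⁻¹ : AN hG hs) ^ N * ψ F := by
    rw [hψa, ← map_pow, ← map_mul, ← e4]
    refine (Ideal.Quotient.mk_eq_mk_iff_sub_mem _ _).2 ?_
    rw [e, add_sub_cancel_right]
    exact Ideal.mem_span_singleton.2 ⟨q, rfl⟩
  rw [e5]
  exact mul_mem (pow_mem hinv N) ⟨F, rfl⟩

omit [CompleteSpace k] [CompleteSpace E] hπ in
/-- If `P` is irreducible and not invertible on the annulus then `P ∣ F` in `AN` implies `P ∣ F`. -/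
theorem dvd_of_dvd {P F : k[X]} (hP : Irreducible P) (hu : ¬ IsUnit (phi hG hs P))
    (h : phi hG hs P ∣ phi hG hs F) : P ∣ F := by
  by_contra hcon
  obtain ⟨a, b, hab⟩ := (hP.coprime_iff_not_dvd.2 hcon)
  apply hu
  refine isUnit_of_dvd_one ?_
  have e : phi hG hs a * phi hG hs P + phi hG hs b * phi hG hs F = 1 := by
    rw [← map_mul, ← map_mul, ← map_add, hab, map_one]
  rw [← e]
  exact dvd_add (Dvd.intro_left _ rfl) (h.mul_left _)

omit [CompleteSpace k] [CompleteSpace E] hπ in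
theorem pow_dvd_of_pow_dvd {P : k[X]} (hP : Irreducible P) (hu : ¬ IsUnit (phi hG hs P)) (n : ℕ) :
    ∀ F : k[X], phi hG hs P ^ n ∣ phi hG hs F → P ^ n ∣ F := by
  induction n with
  | zero => intro F _; simp
  | succ n ih =>
    intro F hF
    obtain ⟨F1, rfl⟩ := dvd_of_dvd hG hs hP hu ((dvd_pow_self _ (Nat.succ_ne_zero n)).trans hF)
    rw [pow_succ', map_mul] at hF
    rw [pow_succ']
    exact mul_dvd_mul_left P (ih F1 ((mul_dvd_mul_iff_left (phi_ne_zero hG hs hP.ne_zero)).1 hF))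

/-- An irreducible polynomial is invertible on the annulus or a prime element of `AN`. -/
theorem isUnit_or_prime (P : k[X]) (hP : Irreducible P) :
    IsUnit (phi hG hs P) ∨ Prime (phi hG hs P) := by
  by_cases hP0 : P.coeff 0 = 0
  · left
    obtain ⟨Q, rfl⟩ := X_dvd_iff.2 hP0
    rcases hP.isUnit_or_isUnit rfl with h | h
    · exact absurd h not_isUnit_X
    · rw [map_mul, phi_X]
      exact (isUnit_yA hG hs).mul (h.map _)
  by_cases hu : IsUnit (phi hG hs P)
  · exact Or.inl hu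
  right
  refine ⟨phi_ne_zero hG hs hP.ne_zero, hu, fun a b hab => ?_⟩
  obtain ⟨qa, A, ha⟩ := exists_mod hG hs hπ P hP0 a
  obtain ⟨qb, Bp, hb⟩ := exists_mod hG hs hπ P hP0 b
  have h1 : phi hG hs P ∣ phi hG hs (A * Bp) := by
    have e : phi hG hs (A * Bp) = a * b - phi hG hs P * (qa * b + qb * phi hG hs A) := by
      rw [map_mul, ha, hb]; ring
    rw [e]
    exact dvd_sub hab (Dvd.intro _ rfl)
  have h2 := dvd_of_dvd hG hs hP hu h1
  rcases hP.prime.dvd_or_dvd h2 with h3 | h3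
  · left; rw [ha]; exact dvd_add (Dvd.intro _ rfl) (_root_.map_dvd (phi hG hs) h3)
  · right; rw [hb]; exact dvd_add (Dvd.intro _ rfl) (_root_.map_dvd (phi hG hs) h3)

/-- A divisor in `AN` of a nonzero polynomial is a unit times a polynomial. -/
theorem exists_of_mul_eq (F : k[X]) : F ≠ 0 → ∀ f g : AN hG hs, f * g = phi hG hs F →
    ∃ (u : AN hG hs) (G : k[X]), IsUnit u ∧ G ≠ 0 ∧ f = u * phi hG hs G := by
  induction F using WfDvdMonoid.induction_on_irreducible with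
  | zero => intro h; exact absurd rfl h
  | unit U hU =>
    intro _ f g h
    exact ⟨f, 1, isUnit_of_mul_isUnit_left (y := g) (by rw [h]; exact hU.map _), one_ne_zero,
      by rw [map_one, mul_one]⟩
  | mul F P hF hP ih =>
    intro _ f g h
    rw [map_mul] at h
    rcases isUnit_or_prime hG hs hπ P hP with hu | hp
    · obtain ⟨z, hz⟩ := hu
      refine ih hF f (g * ↑z⁻¹) ?_
      rw [← mul_assoc, h, ← hz, mul_comm (z : AN hG hs), mul_assoc, z.mul_inv, mul_one]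
    · rcases hp.dvd_or_dvd (show phi hG hs P ∣ f * g from ⟨_, h⟩) with ⟨f1, hf1⟩ | ⟨g1, hg1⟩
      · have h1 : f1 * g = phi hG hs F := by
          apply mul_left_cancel₀ hp.ne_zero
          rw [← h, hf1]; ring
        obtain ⟨u, G, hu, hG0, e⟩ := ih hF f1 g h1
        exact ⟨u, P * G, hu, mul_ne_zero hP.ne_zero hG0, by rw [hf1, e, map_mul]; ring⟩
      · refine ih hF f g1 ?_
        apply mul_left_cancel₀ hp.ne_zero
        rw [← h, hg1]; ring

/-- **Weierstrass preparation** on the closed annulus. -/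
theorem weierstrass_AN (f : AN hG hs) (hf : f ≠ 0) :
    ∃ (u : AN hG hs) (G : k[X]), IsUnit u ∧ G ≠ 0 ∧ f = u * phi hG hs G := by
  obtain ⟨F, hF, g, hg⟩ := exists_dvd_poly hG hs hπ f hf
  exact exists_of_mul_eq hG hs hπ F hF f g hg.symm

/-- `AN` is a principal ideal domain; all ideals are generated by polynomials. -/
theorem exists_span (I : Ideal (AN hG hs)) : ∃ G : k[X], I = Ideal.span {phi hG hs G} := by
  have : IsPrincipalIdealRing k[X] := inferInstance
  obtain ⟨G, hGI⟩ := (this.principal (I.comap (phi hG hs).toRingHom)).principal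
  have hGI' : I.comap (phi hG hs).toRingHom = Ideal.span {G} := hGI
  refine ⟨G, le_antisymm (fun f hf => ?_) ?_⟩
  · by_cases hf0 : f = 0
    · rw [hf0]; exact zero_mem _
    obtain ⟨u, F, ⟨z, hz⟩, hF, e⟩ := weierstrass_AN hG hs hπ f hf0
    have h1 : F ∈ I.comap (phi hG hs).toRingHom := by
      change phi hG hs F ∈ I
      have : phi hG hs F = ↑z⁻¹ * f := by rw [e, ← hz, ← mul_assoc, z.inv_mul, one_mul]
      rw [this]
      exact I.mul_mem_left _ hf
    rw [hGI', Ideal.mem_span_singleton] at h1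
    rw [Ideal.mem_span_singleton, e]
    exact (_root_.map_dvd (phi hG hs) h1).mul_left _
  · rw [Ideal.span_singleton_le_iff_mem]
    have : G ∈ I.comap (phi hG hs).toRingHom := by
      rw [hGI']; exact Ideal.mem_span_singleton_self G
    exact this

theorem isPrincipalIdealRing_AN : IsPrincipalIdealRing (AN hG hs) :=
  ⟨fun I => by
    obtain ⟨G, h⟩ := exists_span hG hs hπ I
    exact ⟨⟨phi hG hs G, h⟩⟩⟩

omit [CompleteSpace k] [CompleteSpace E] hπ in
/-- A product of units. -/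
theorem isUnit_phi_of (F : k[X]) : F ≠ 0 → (∀ P, Irreducible P → P ∣ F → IsUnit (phi hG hs P)) →
    IsUnit (phi hG hs F) := by
  induction F using WfDvdMonoid.induction_on_irreducible with
  | zero => intro h; exact absurd rfl h
  | unit U hU => intro _ _; exact hU.map _
  | mul F P hF hP ih =>
    intro _ h
    rw [map_mul]
    exact (h P hP (Dvd.intro _ rfl)).mul (ih hF fun Q hQ hQF => h Q hQ (hQF.mul_left _))

end Ring

/-! ### The field of meromorphic functions -/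

section Field

variable (hG : IsGauss k y) {s : ℝ≥0} (hs : 1 < s)

/-- Meromorphic functions on `1/s ≤ |y| ≤ s`. -/
noncomputable def MN : IntermediateField k E where
  carrier := {z | ∃ a ∈ AN hG hs, ∃ b ∈ AN hG hs, b ≠ 0 ∧ z = a / b}
  mul_mem' := by
    rintro _ _ ⟨a, ha, b, hb, h1, rfl⟩ ⟨a', ha', b', hb', h1', rfl⟩
    exact ⟨a * a', mul_mem ha ha', b * b', mul_mem hb hb', mul_ne_zero h1 h1',
      by rw [div_mul_div_comm]⟩
  add_mem' := by
    rintro _ _ ⟨a, ha, b, hb, h1, rfl⟩ ⟨a', ha', b', hb', h1', rfl⟩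
    exact ⟨a * b' + b * a', add_mem (mul_mem ha hb') (mul_mem hb ha'), b * b', mul_mem hb hb',
      mul_ne_zero h1 h1', by rw [div_add_div _ _ h1 h1']⟩
  algebraMap_mem' := fun c => ⟨algebraMap k E c, (AN hG hs).algebraMap_mem c, 1, one_mem _,
    one_ne_zero, by rw [div_one]⟩
  inv_mem' := by
    rintro _ ⟨a, ha, b, hb, h1, rfl⟩
    by_cases h : a = 0
    · exact ⟨0, zero_mem _, 1, one_mem _, one_ne_zero, by simp [h]⟩
    · exact ⟨b, hb, a, ha, h, by rw [inv_div]⟩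


theorem AN_le_MN {z : E} (hz : z ∈ AN hG hs) : z ∈ MN hG hs :=
  ⟨z, hz, 1, one_mem _, one_ne_zero, by rw [div_one]⟩



noncomputable instance algAM : Algebra (AN hG hs) (MN hG hs) :=
  ((AN hG hs).val.toRingHom.codRestrict (MN hG hs).toSubfield.toSubring
    fun x => AN_le_MN hG hs x.2 : AN hG hs →+* (MN hG hs).toSubfield.toSubring).toAlgebra


instance isFrac : IsFractionRing (AN hG hs) (MN hG hs) := by
  have : FaithfulSMul (AN hG hs) (MN hG hs) := by
    rw [faithfulSMul_iff_algebraMap_injective]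
    intro a b h
    exact Subtype.ext (congrArg (fun z : MN hG hs => (z : E)) h)
  refine IsFractionRing.of_field _ _ fun z => ?_
  obtain ⟨a, ha, b, hb, h1, e⟩ := z.2
  exact ⟨⟨a, ha⟩, ⟨b, hb⟩, Subtype.ext e⟩

end Field

end Crest.Agent.R013.Annu_930
end

-- ▼ part R013/Annu5_930
section

/-!
# Functions on a closed annulus, part 5: functions whose divisor is divisible by `n`

Main results: `annu` (for `x ∈ MN`), `annu_algHom` (for a field `U` embedded in `MN`).
-/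

set_option autoImplicit false
set_option linter.unusedSectionVars false

namespace Crest.Agent.R013.Annu_930

open Filter Topology Polynomial Crest.Agent.R013.Gl946 IsDedekindDomain WithZero
open scoped NNReal

variable {k E : Type*} [NormedField k] [NormedField E] [NormedAlgebra k E]
  [IsUltrametricDist E] {y : E}

section Main

variable (hG : IsGauss k y) {s : ℝ≥0} (hs : 1 < s) [CompleteSpace k] [CompleteSpace E]

/-- `phi` with values in the field `MN`. -/
noncomputable def phiM : k[X] →+* MN hG hs :=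
  (algebraMap (AN hG hs) (MN hG hs)).comp (phi hG hs).toRingHom

omit [CompleteSpace k] [CompleteSpace E] in
theorem coe_phiM (F : k[X]) : ((phiM hG hs F : MN hG hs) : E) = aeval y F := coe_phi hG hs F

omit [CompleteSpace k] [CompleteSpace E] in
theorem phiM_ne_zero {F : k[X]} (hF : F ≠ 0) : phiM hG hs F ≠ 0 := by
  intro h
  have := coe_phiM hG hs F
  rw [h] at this
  exact hG.aeval_ne_zero hF this.symm

variable [IsPrincipalIdealRing (AN hG hs)]

omit [CompleteSpace k] [CompleteSpace E] in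
theorem val_unit (v : HeightOneSpectrum (AN hG hs)) {u : AN hG hs} (hu : IsUnit u) :
    v.valuation (MN hG hs) (algebraMap (AN hG hs) (MN hG hs) u) = 1 := by
  rw [v.valuation_of_algebraMap, HeightOneSpectrum.intValuation_eq_one_iff]
  intro h
  exact v.isPrime.ne_top (Ideal.eq_top_of_isUnit_mem _ h hu)

omit [CompleteSpace k] [CompleteSpace E] in
theorem exists_exp (v : HeightOneSpectrum (AN hG hs)) {x : MN hG hs} (hx : x ≠ 0) :
    ∃ i : ℤ, v.valuation (MN hG hs) x = exp i :=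
  ⟨_, (exp_log ((Valuation.ne_zero_iff _).2 hx)).symm⟩

/-- every valuation of `x` at the points of the annulus is divisible by `n` -/
def DivBy (n : ℕ) (x : MN hG hs) : Prop :=
  ∀ v : HeightOneSpectrum (AN hG hs), ∃ j : ℤ, v.valuation (MN hG hs) x = exp ((n : ℤ) * j)

omit [CompleteSpace k] [CompleteSpace E] in
theorem DivBy.mul {n : ℕ} {x x' : MN hG hs} (h : DivBy hG hs n x) (h' : DivBy hG hs n x') :
    DivBy hG hs n (x * x') := by
  intro v
  obtain ⟨j, hj⟩ := h v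
  obtain ⟨j', hj'⟩ := h' v
  exact ⟨j + j', by rw [map_mul, hj, hj', ← exp_add, mul_add]⟩

omit [CompleteSpace k] [CompleteSpace E] in
theorem DivBy.pow {n : ℕ} {x : MN hG hs} (hx : x ≠ 0) : DivBy hG hs n (x ^ n) := by
  intro v
  obtain ⟨i, hi⟩ := exists_exp hG hs v hx
  exact ⟨i, by rw [map_pow, hi, ← exp_nsmul, nsmul_eq_mul]⟩

omit [CompleteSpace k] [CompleteSpace E] in
theorem DivBy.inv {n : ℕ} {x : MN hG hs} (h : DivBy hG hs n x) : DivBy hG hs n x⁻¹ := by
  intro v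
  obtain ⟨j, hj⟩ := h v
  exact ⟨-j, by rw [map_inv₀, hj, ← exp_neg, mul_neg]⟩

omit [CompleteSpace k] [CompleteSpace E] in
theorem DivBy.unit {n : ℕ} {u : AN hG hs} (hu : IsUnit u) :
    DivBy hG hs n (algebraMap (AN hG hs) (MN hG hs) u) := by
  intro v
  exact ⟨0, by rw [val_unit hG hs v hu, mul_zero, exp_zero]⟩

/-- Polynomials with divisor on the annulus divisible by `n`. -/
theorem divBy_poly {π : k} (hπ : IsUnif π) {n : ℕ} (hn : 0 < n) (d : ℕ) :
    ∀ F : k[X], F ≠ 0 → F.natDegree ≤ d → DivBy hG hs n (phiM hG hs F) →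
      ∃ W G : k[X], IsUnit (phi hG hs W) ∧ G ≠ 0 ∧ F = W * G ^ n := by
  induction d with
  | zero =>
    intro F hF hd _
    obtain ⟨c, hc⟩ := natDegree_eq_zero.1 (Nat.le_zero.1 hd)
    refine ⟨F, 1, ?_, one_ne_zero, by simp⟩
    rw [← hc]
    refine isUnit_phi_C hG hs ?_
    rintro rfl
    apply hF; rw [← hc, C_0]
  | succ d ih =>
    intro F hF hd hdiv
    by_cases hu : IsUnit (phi hG hs F)
    · exact ⟨F, 1, hu, one_ne_zero, by simp⟩
    obtain ⟨P, hP, hPF, hPu⟩ : ∃ P, Irreducible P ∧ P ∣ F ∧ ¬ IsUnit (phi hG hs P) := by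
      by_contra hcon
      push Not at hcon
      exact hu (isUnit_phi_of hG hs F hF hcon)
    have hprime : Prime (phi hG hs P) := (isUnit_or_prime hG hs hπ P hP).resolve_left hPu
    let v : HeightOneSpectrum (AN hG hs) :=
      { asIdeal := Ideal.span {phi hG hs P}
        isPrime := (Ideal.span_singleton_prime hprime.ne_zero).2 hprime
        ne_bot := by rw [Ne, Ideal.span_singleton_eq_bot]; exact hprime.ne_zero }
    obtain ⟨j, hj⟩ := hdiv v
    have hj' : v.intValuation (phi hG hs F) = exp ((n : ℤ) * j) := by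
      rw [← v.valuation_of_algebraMap (K := MN hG hs)]; exact hj
    have hlt : v.intValuation (phi hG hs F) < 1 := by
      rw [v.intValuation_lt_one_iff_mem]
      exact Ideal.mem_span_singleton.2 (_root_.map_dvd (phi hG hs) hPF)
    rw [hj', ← exp_zero, exp_lt_exp] at hlt
    have hle : (n : ℤ) * j ≤ -(n : ℤ) := by
      have : j ≤ -1 := by
        by_contra hcon
        push Not at hcon
        have : 0 ≤ j := by omega
        have := mul_nonneg (Int.natCast_nonneg n) this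
        omega
      nlinarith [Int.natCast_nonneg n]
    have h1 : phi hG hs P ^ n ∣ phi hG hs F := by
      have h2 : v.intValuation (phi hG hs F) ≤ exp (-(n : ℤ)) := by rw [hj', exp_le_exp]; exact hle
      rw [v.intValuation_le_pow_iff_dvd, Ideal.dvd_span_singleton] at h2
      have h3 : v.asIdeal ^ n = Ideal.span {phi hG hs P ^ n} := Ideal.span_singleton_pow _ _
      rw [h3, Ideal.mem_span_singleton] at h2
      exact h2
    obtain ⟨F1, rfl⟩ := pow_dvd_of_pow_dvd hG hs hP hPu n F h1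
    have hF1 : F1 ≠ 0 := right_ne_zero_of_mul hF
    have hPn : P ^ n ≠ 0 := left_ne_zero_of_mul hF
    have hdeg : F1.natDegree ≤ d := by
      rw [natDegree_mul hPn hF1, natDegree_pow] at hd
      have : 0 < P.natDegree := hP.natDegree_pos
      have : 0 < n * P.natDegree := Nat.mul_pos hn this
      omega
    have hdiv1 : DivBy hG hs n (phiM hG hs F1) := by
      have e : phiM hG hs F1 = phiM hG hs (P ^ n * F1) * ((phiM hG hs P) ^ n)⁻¹ := by
        rw [map_mul, map_pow]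
        field_simp [phiM_ne_zero hG hs hP.ne_zero]
      rw [e]
      exact DivBy.mul hG hs hdiv (DivBy.inv hG hs (DivBy.pow hG hs (phiM_ne_zero hG hs hP.ne_zero)))
    obtain ⟨W, G, hW, hG0, e⟩ := ih F1 hF1 hdeg hdiv1
    exact ⟨W, P * G, hW, mul_ne_zero hP.ne_zero hG0, by rw [e]; ring⟩

/-- **Functions with divisor divisible by `n` on the annulus**, abstract form. -/
theorem divBy_form {π : k} (hπ : IsUnif π) {n : ℕ} (hn : 0 < n) (x : MN hG hs) (hx : x ≠ 0)
    (hdiv : DivBy hG hs n x) : ∃ (u : AN hG hs) (A D : k[X]), IsUnit u ∧ A ≠ 0 ∧ D ≠ 0 ∧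
      (x : E) = u * (aeval y A / aeval y D) ^ n := by
  obtain ⟨a, ha, b, hb, hb0, e⟩ := x.2
  have ha0 : a ≠ 0 := by
    rintro rfl
    apply hx
    apply Subtype.ext
    rw [e, zero_div]; rfl
  obtain ⟨u1, F1, ⟨z1, rfl⟩, hF1, e1⟩ := weierstrass_AN hG hs hπ ⟨a, ha⟩
    (fun h => ha0 (congrArg Subtype.val h))
  obtain ⟨u2, F2, ⟨z2, rfl⟩, hF2, e2⟩ := weierstrass_AN hG hs hπ ⟨b, hb⟩
    (fun h => hb0 (congrArg Subtype.val h))
  have e1' : a = (z1 : AN hG hs) * aeval y F1 := by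
    have := congrArg Subtype.val e1
    rw [← coe_phi hG hs F1]; exact this
  have e2' : b = (z2 : AN hG hs) * aeval y F2 := by
    have := congrArg Subtype.val e2
    rw [← coe_phi hG hs F2]; exact this
  have hF1n := hG.aeval_ne_zero hF1
  have hF2n := hG.aeval_ne_zero hF2
  have hz2 : (((z2 : AN hG hs) : AN hG hs) : E) ≠ 0 := by
    intro h; apply hb0; rw [e2', h, zero_mul]
  have hz2' : ((↑z2⁻¹ : AN hG hs) : E) = (((z2 : AN hG hs) : AN hG hs) : E)⁻¹ := by
    refine eq_inv_of_mul_eq_one_left ?_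
    exact congrArg Subtype.val z2.inv_mul
  have hz1' : ((↑z1⁻¹ : AN hG hs) : E) * (((z1 : AN hG hs) : AN hG hs) : E) = 1 :=
    congrArg Subtype.val z1.inv_mul
  obtain ⟨m, rfl⟩ : ∃ m, n = m + 1 := ⟨n - 1, by omega⟩
  set F := F1 * F2 ^ m with hF
  have hF0 : F ≠ 0 := mul_ne_zero hF1 (pow_ne_zero _ hF2)
  have eF : phiM hG hs F = x * algebraMap (AN hG hs) (MN hG hs) ((z2 : AN hG hs) * ↑z1⁻¹) *
      (phiM hG hs F2) ^ (m + 1) := by
    apply Subtype.ext
    change ((phiM hG hs F : MN hG hs) : E) = (x : E) * ((z2 : AN hG hs) * ((↑z1⁻¹ : AN hG hs) : E)) *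
      ((phiM hG hs F2 : MN hG hs) : E) ^ (m + 1)
    rw [coe_phiM, coe_phiM, e, e1', e2', hF, map_mul, map_pow]
    have : (z1 : AN hG hs) * aeval y F1 / ((z2 : AN hG hs) * aeval y F2) *
        (((z2 : AN hG hs) : E) * ((↑z1⁻¹ : AN hG hs) : E)) * aeval y F2 ^ (m + 1) =
        (((↑z1⁻¹ : AN hG hs) : E) * (z1 : AN hG hs)) * aeval y F1 * aeval y F2 ^ m := by
      field_simp
      ring
    rw [this, hz1', one_mul]
  have hdF : DivBy hG hs (m + 1) (phiM hG hs F) := by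
    rw [eF]
    refine DivBy.mul hG hs (DivBy.mul hG hs hdiv ?_) (DivBy.pow hG hs (phiM_ne_zero hG hs hF2))
    exact DivBy.unit hG hs (z2.isUnit.mul z1⁻¹.isUnit)
  obtain ⟨W, G, hW, hG0, eW⟩ := divBy_poly hG hs hπ hn _ F hF0 le_rfl hdF
  refine ⟨z1 * ↑z2⁻¹ * phi hG hs W, G, F2, ((z1.isUnit.mul z2⁻¹.isUnit).mul hW), hG0, hF2, ?_⟩
  change (x : E) = (z1 : AN hG hs) * ((↑z2⁻¹ : AN hG hs) : E) * ((phi hG hs W : AN hG hs) : E) *
    (aeval y G / aeval y F2) ^ (m + 1)
  have e3 : aeval y F1 * aeval y F2 ^ m = aeval y W * aeval y G ^ (m + 1) := by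
    rw [← map_pow, ← map_mul, ← map_pow, ← map_mul, ← eW]
  rw [coe_phi, hz2', e, e1', e2', div_pow]
  have e4 : (z1 : AN hG hs) * (((z2 : AN hG hs) : AN hG hs) : E)⁻¹ * aeval y W *
      (aeval y G ^ (m + 1) / aeval y F2 ^ (m + 1)) =
      (z1 : AN hG hs) * (((z2 : AN hG hs) : AN hG hs) : E)⁻¹ *
        (aeval y W * aeval y G ^ (m + 1)) / aeval y F2 ^ (m + 1) := by ring
  rw [e4, ← e3]
  field_simp
  ring

end Main

section Final

variable (hG : IsGauss k y) {s : ℝ≥0} (hs : 1 < s) [CompleteSpace k] [CompleteSpace E]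

/-- **ANNU.** A meromorphic function `x` on the closed annulus `1/s ≤ |y| ≤ s` all of whose orders
are divisible by `n` is `c y^m g^n (1 + ε)` with `g ∈ k(y)` and `‖ε‖ < 1/s`. -/
theorem annu {π : k} (hπ : IsUnif π) {n : ℕ} (hn : 0 < n) (x : MN hG hs) (hx : x ≠ 0)
    (hdiv : ∀ v : Valuation (MN hG hs) ℤᵐ⁰, (∀ a ∈ AN hG hs, ∀ h : a ∈ MN hG hs, v ⟨a, h⟩ ≤ 1) →
      (∃ F : k[X], ∀ h : aeval y F ∈ MN hG hs, v ⟨aeval y F, h⟩ = exp (-1 : ℤ)) →
      ∃ j : ℤ, v x = exp ((n : ℤ) * j)) :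
    ∃ (c : k) (m : ℤ) (A D : k[X]) (ε : E), c ≠ 0 ∧ A ≠ 0 ∧ D ≠ 0 ∧ ‖ε‖ < (s : ℝ)⁻¹ ∧
      (x : E) = c • y ^ m * (1 + ε) * (aeval y A / aeval y D) ^ n := by
  have hpid := isPrincipalIdealRing_AN hG hs hπ
  obtain ⟨u, A, D, hu, hA, hD, e⟩ := divBy_form hG hs hπ hn x hx fun v => by
    refine hdiv (v.valuation (MN hG hs)) (fun a ha h => ?_) ?_
    · exact v.valuation_le_one (K := MN hG hs) ⟨a, ha⟩
    · obtain ⟨G, hGv⟩ := exists_span hG hs hπ v.asIdeal
      have hG0 : phi hG hs G ≠ 0 := by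
        intro h0
        rw [h0, Ideal.span_singleton_eq_bot.2 rfl] at hGv
        exact v.ne_bot hGv
      refine ⟨G, fun h => ?_⟩
      have e1 : (⟨aeval y G, h⟩ : MN hG hs) = algebraMap (AN hG hs) (MN hG hs) (phi hG hs G) :=
        Subtype.ext (coe_phi hG hs G).symm
      rw [e1, v.valuation_of_algebraMap]
      exact v.intValuation_singleton hG0 hGv
  obtain ⟨z, rfl⟩ := hu
  obtain ⟨c, m, ε, θ, hc, hf, -, -, -, hε⟩ := unit_form hG hs (z : AN hG hs).2 (↑z⁻¹ : AN hG hs).2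
    (congrArg Subtype.val z.mul_inv)
  exact ⟨c, m, A, D, ε, hc, hA, hD, hε, by rw [e, hf]⟩

/-- **ANNU for a subfield.** `U` is a field over `k` embedded in the field of meromorphic functions
on the closed annulus `1/s ≤ |y| ≤ s`, with `y ∈ U`. If all discrete valuations of `U/k` of `h` are
divisible by `n` then `h = c y^m g^n (1 + ε)` with `g ∈ k(y)` and `‖ε‖ < 1/s`. -/
theorem annu_algHom {π : k} (hπ : IsUnif π) {U : Type*} [Field U] [Algebra k U] (ι : U →ₐ[k] E)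
    (hι : ∀ z, ι z ∈ MN hG hs) {yU : U} (hy : ι yU = y) {n : ℕ} (hn : 0 < n) {h : U} (h0 : h ≠ 0)
    (hdiv : ∀ v : Valuation U ℤᵐ⁰, (∀ c : k, c ≠ 0 → v (algebraMap k U c) = 1) →
      Function.Surjective v → ∃ j : ℤ, v h = exp ((n : ℤ) * j)) :
    ∃ (c : k) (m : ℤ) (A D : k[X]) (ε : E), c ≠ 0 ∧ A ≠ 0 ∧ D ≠ 0 ∧ ‖ε‖ < (s : ℝ)⁻¹ ∧
      ι h = c • y ^ m * (1 + ε) * (aeval y A / aeval y D) ^ n := by
  let ι' : U →+* MN hG hs := (ι.codRestrict (MN hG hs).toSubalgebra hι).toRingHom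
  have hι' : ∀ z, ((ι' z : MN hG hs) : E) = ι z := fun z => rfl
  have hh0 : ι' h ≠ 0 := (map_ne_zero ι').2 h0
  obtain ⟨c, m, A, D, ε, hc, hA, hD, hε, e⟩ := annu hG hs hπ hn (ι' h) hh0 fun v h1 ⟨F, h2⟩ => by
    refine hdiv (v.comap ι') ?_ ?_
    · intro c hc
      rw [Valuation.comap_apply]
      have e1 : ∀ c : k, ι' (algebraMap k U c) =
          ⟨algebraMap k E c, AN_le_MN hG hs ((AN hG hs).algebraMap_mem c)⟩ :=
        fun c => Subtype.ext (ι.commutes c)
      refine le_antisymm (by rw [e1]; exact h1 _ ((AN hG hs).algebraMap_mem c) _) ?_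
      have h3 : v (ι' (algebraMap k U c⁻¹)) ≤ 1 := by
        rw [e1]; exact h1 _ ((AN hG hs).algebraMap_mem _) _
      have h4 : v (ι' (algebraMap k U c)) * v (ι' (algebraMap k U c⁻¹)) = 1 := by
        rw [← map_mul, ← map_mul, ← map_mul, mul_inv_cancel₀ hc, map_one, map_one, map_one]
      calc (1 : ℤᵐ⁰) = v (ι' (algebraMap k U c)) * v (ι' (algebraMap k U c⁻¹)) := h4.symm
        _ ≤ v (ι' (algebraMap k U c)) * 1 := mul_le_mul_right h3 _
        _ = _ := mul_one _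
    · have hF : ι (aeval yU F) = aeval y F := by rw [← aeval_algHom_apply, hy]
      have hFv : v (ι' (aeval yU F)) = exp (-1 : ℤ) := by
        have h5 : ι' (aeval yU F) = ⟨aeval y F, AN_le_MN hG hs (aeval_mem_AN hG hs F)⟩ :=
          Subtype.ext hF
        rw [h5]; exact h2 _
      intro z
      by_cases hz : z = 0
      · exact ⟨0, by rw [hz, map_zero]⟩
      · refine ⟨(aeval yU F) ^ (-(log z)), ?_⟩
        rw [Valuation.comap_apply, map_zpow₀, map_zpow₀, hFv, ← exp_zsmul, smul_eq_mul,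
          neg_mul_neg, mul_one, exp_log hz]
  exact ⟨c, m, A, D, ε, hc, hA, hD, hε, by rw [← hι', e]⟩

end Final

end Crest.Agent.R013.Annu_930
end

-- ▼ part R013/Annu6_930

/-!
# Functions on a closed annulus, part 6: `AN` is a Weierstrass ring (623's `Wr`); series
-/

set_option autoImplicit false
set_option linter.unusedSectionVars false

namespace Crest.Agent.R013.Annu_930

open Filter Topology Polynomial Crest.Agent.R013.Gl946 Crest.Agent.R013.LemW623
open scoped NNReal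

variable {k E : Type*} [NormedField k] [NormedField E] [NormedAlgebra k E]
  [IsUltrametricDist E] {y : E}

section Wr

variable (hG : IsGauss k y) {s : ℝ≥0} (hs : 1 < s)

theorem transcendental (hG : IsGauss k y) : Transcendental k y := by
  rw [transcendental_iff]
  intro p hp
  by_contra h
  exact hG.aeval_ne_zero h hp

theorem unitIn_of_isUnit {u : AN hG hs} (hu : IsUnit u) : UnitIn (AN hG hs) (u : E) := by
  obtain ⟨z, rfl⟩ := hu
  exact UnitIn.of_mul_eq_one (z : AN hG hs).2 (↑z⁻¹ : AN hG hs).2 (congrArg Subtype.val z.mul_inv)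

variable [CompleteSpace k] [CompleteSpace E] {π : k} (hπ : IsUnif π)

include hπ in
/-- (A1) of 623 #3325. -/
theorem wr_AN : Wr k (AN hG hs) y where
  t_mem := (yA hG hs).2
  transc := transcendental hG
  weier := by
    intro a ha ha0
    obtain ⟨u, G, hu, hG0, e⟩ := weierstrass_AN hG hs hπ ⟨a, ha⟩ fun h => ha0 (congrArg Subtype.val h)
    refine ⟨u, G, unitIn_of_isUnit hG hs hu, ?_⟩
    rw [← coe_phi hG hs]
    exact congrArg Subtype.val e
  prime := by
    intro P hP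
    by_cases hu : IsUnit (phi hG hs P)
    · left
      have := unitIn_of_isUnit hG hs hu
      rwa [coe_phi] at this
    · right
      intro f hf
      refine dvd_of_dvd hG hs hP hu ⟨⟨_, hf⟩, Subtype.ext ?_⟩
      change ((phi hG hs f : AN hG hs) : E) = (phi hG hs P : AN hG hs) * (aeval y f / aeval y P)
      rw [coe_phi, coe_phi, mul_div_cancel₀ _ (hG.aeval_ne_zero hP.ne_zero)]


include hπ in
theorem mem_MN_iff_Fr {z : E} : z ∈ MN hG hs ↔ z ∈ Fr (AN hG hs) y := by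
  constructor
  · rintro ⟨a, ha, b, hb, h1, rfl⟩
    have h := wr_AN hG hs hπ
    rw [div_eq_mul_inv]
    exact h.Fr_mul (h.subset_Fr ha) (h.Fr_inv (h.subset_Fr hb))
  · rintro ⟨a, ha, g, hg, rfl⟩
    exact ⟨a, ha, _, aeval_mem_AN hG hs g, hG.aeval_ne_zero hg, rfl⟩


end Wr

section Series

variable (hG : IsGauss k y) {s : ℝ≥0} (hs : 1 < s)

/-- A convergent Laurent series with the growth of the annulus is in `AN`. -/
theorem hasSum_mem_AN_of_growth (a : ℤ → k) (ha : ∀ ε : ℝ≥0, 0 < ε → ∀ᶠ n in cofinite,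
    ‖a n‖₊ ≤ w s ε ε n) {x : E} (hx : HasSum (fun n => a n • y ^ n) x) : x ∈ AN hG hs := by
  classical
  intro ε hε
  have hfin : {n | ¬ ‖a n‖₊ ≤ w s ε ε n}.Finite := ha ε hε
  set S := hfin.toFinset with hS
  refine ⟨∑ n ∈ S, Finsupp.single n (a n), ?_⟩
  have e : ev k y (∑ n ∈ S, Finsupp.single n (a n)) = ∑ n ∈ S, a n • y ^ n := by
    rw [map_sum]; exact Finset.sum_congr rfl fun n _ => ev_single _ _ _
  rw [e]
  have h1 : Tendsto (fun T : Finset ℤ => ∑ n ∈ T, a n • y ^ n - ∑ n ∈ S, a n • y ^ n) atTop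
      (𝓝 (x - ∑ n ∈ S, a n • y ^ n)) := hx.sub_const _
  refine (isClosed_B s ε ε).mem_of_tendsto h1 (eventually_atTop.2 ⟨S, fun T hT => ?_⟩)
  rw [← Finset.sum_sdiff hT, add_sub_cancel_right]
  refine AddSubgroup.sum_mem _ fun n hn => smul_mem_Box ?_
  rw [Finset.mem_sdiff] at hn
  by_contra hcon
  exact hn.2 (hfin.mem_toFinset.2 hcon)

/-- Power series converging on a disc of radius `R > s`. -/
theorem hasSum_mem_AN_of_bounded (a : ℕ → k) {R C : ℝ≥0} (hR : s < R)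
    (ha : ∀ n, ‖a n‖₊ * R ^ n ≤ C) {x : E} (hx : HasSum (fun n => a n • y ^ n) x) :
    x ∈ AN hG hs := by
  classical
  have hsp : 0 < s := zero_lt_one.trans hs
  have hRp : 0 < R := hsp.trans hR
  let b : ℤ → k := fun n => if 0 ≤ n then a n.toNat else 0
  refine hasSum_mem_AN_of_growth hG hs b ?_ ?_
  · intro ε hε
    have hq : (s / R : ℝ≥0) < 1 := by rwa [div_lt_one hRp]
    have ht : Tendsto (fun n : ℕ => (C : ℝ≥0) * (s / R) ^ n) atTop (𝓝 0) := by
      simpa using (tendsto_pow_atTop_nhds_zero_of_lt_one (r := s / R) zero_le hq).const_mul C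
    obtain ⟨N, hN⟩ := eventually_atTop.1 (ht.eventually (gt_mem_nhds hε))
    have hsub : {n : ℤ | ¬ ‖b n‖₊ ≤ w s ε ε n} ⊆ Set.Icc 0 (N : ℤ) := by
      intro n hn
      by_contra hcon
      apply hn
      rcases lt_or_ge n 0 with h0 | h0
      · simp [b, not_le.2 h0]
      · have hnN : N ≤ n.toNat := by
          rw [Set.mem_Icc] at hcon
          push Not at hcon
          have := hcon h0
          omega
        have h2 := hN _ hnN
        obtain ⟨m, rfl⟩ := Int.eq_ofNat_of_zero_le h0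
        simp only [b, if_pos h0, Int.toNat_natCast] at h2 ⊢
        have h3 : ‖a m‖₊ ≤ C / R ^ m := by
          rw [le_div_iff₀ (pow_pos hRp _)]; exact ha m
        have h4 : C / R ^ m = C * (s / R) ^ m * s ^ (-(m : ℤ)) := by
          rw [zpow_neg, zpow_natCast, div_pow]
          field_simp
        have h5 : ‖a m‖₊ ≤ ε * s ^ (-(m : ℤ)) := by
          refine h3.trans ?_
          rw [h4]
          exact mul_le_mul_left h2.le _
        refine le_min h5 (h5.trans (mul_le_mul_right (zpow_le_zpow_right₀ hs.le (by omega)) _))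
    exact (Set.finite_Icc _ _).subset hsub
  · have hinj : Function.Injective (fun n : ℕ => (n : ℤ)) := Nat.cast_injective
    have h0 : ∀ n : ℤ, n ∉ Set.range (fun n : ℕ => (n : ℤ)) → b n • y ^ n = 0 := by
      intro n hn
      have : ¬ 0 ≤ n := fun h => hn ⟨n.toNat, Int.toNat_of_nonneg h⟩
      simp [b, this]
    rw [← hinj.hasSum_iff h0]
    convert hx using 1
    funext n
    simp [b]

end Series

section Root

variable [CompleteSpace E]

/-- `1`-units close to `1` are `n`-th powers. -/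
theorem exists_pow_eq_of_lt {n : ℕ} (hn : (n : E) ≠ 0) {a : E} (ha : ‖a - 1‖ < ‖(n : E)‖ ^ 2) :
    ∃ z : E, z ^ n = a ∧ ‖z - 1‖ ≤ ‖a - 1‖ / ‖(n : E)‖ := by
  classical
  have hn0 : 0 < ‖(n : E)‖ := norm_pos_iff.2 hn
  have hn1 : ‖(n : E)‖ ≤ 1 := by
    have : ∀ m : ℕ, ‖(m : E)‖ ≤ 1 := by
      intro m
      induction m with
      | zero => simp
      | succ m ih => rw [Nat.cast_succ]; exact (nadd _ _).trans (max_le ih (by simp))
    exact this n
  have nat_le : ∀ m : ℕ, ‖(m : E)‖ ≤ 1 := by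
    intro m
    induction m with
    | zero => simp
    | succ m ih => rw [Nat.cast_succ]; exact (nadd _ _).trans (max_le ih (by simp))
  set q := ‖a - 1‖ / ‖(n : E)‖ ^ 2 with hq
  have hq1 : q < 1 := by rw [hq, div_lt_one (by positivity)]; exact ha
  have hq0 : 0 ≤ q := by positivity
  set ρ := ‖a - 1‖ / ‖(n : E)‖ with hρ
  have hρ0 : 0 ≤ ρ := by positivity
  have hρq : ρ = q * ‖(n : E)‖ := by rw [hρ, hq]; field_simp
  have hρn : ρ < ‖(n : E)‖ := by
    rw [hρq]; calc q * ‖(n : E)‖ < 1 * ‖(n : E)‖ := mul_lt_mul_of_pos_right hq1 hn0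
      _ = _ := one_mul _
  have hρ1 : ρ < 1 := hρn.trans_le hn1
  -- expansion of `(z + t) ^ n` for `‖z‖ = 1`
  have key : ∀ z t : E, ‖z‖ ≤ 1 → ‖t‖ ≤ 1 → ‖(z + t) ^ n - z ^ n - n * z ^ (n - 1) * t‖ ≤ ‖t‖ ^ 2 := by
    intro z t hz ht
    obtain ⟨c, hc, hc1⟩ : ∃ c : E, (z + t) ^ n = z ^ n + n * z ^ (n - 1) * t + c * t ^ 2 ∧
        ‖c‖ ≤ 1 := by
      clear_value ρ q
      have : ∀ m : ℕ, ∃ c : E, (z + t) ^ m = z ^ m + m * z ^ (m - 1) * t + c * t ^ 2 ∧ ‖c‖ ≤ 1 := by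
        intro m
        induction m with
        | zero => exact ⟨0, by simp, by simp⟩
        | succ m ih =>
          obtain ⟨c, hc, hc1⟩ := ih
          refine ⟨m * z ^ (m - 1) + c * (z + t), ?_, ?_⟩
          · rw [pow_succ, hc]
            rcases m with _ | m
            · simp; ring
            · simp only [Nat.add_sub_cancel, Nat.cast_succ]
              ring
          · refine (nadd _ _).trans (max_le ?_ ?_)
            · rw [norm_mul, norm_pow]
              exact mul_le_one₀ (nat_le m) (by positivity) (pow_le_one₀ (norm_nonneg _) hz)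
            · rw [norm_mul]
              exact mul_le_one₀ hc1 (norm_nonneg _) ((nadd _ _).trans (max_le hz ht))
      exact this n
    have e : (z + t) ^ n - z ^ n - n * z ^ (n - 1) * t = c * t ^ 2 := by rw [hc]; ring
    rw [e, norm_mul, norm_pow]
    calc ‖c‖ * ‖t‖ ^ 2 ≤ 1 * ‖t‖ ^ 2 := mul_le_mul_of_nonneg_right hc1 (by positivity)
      _ = _ := one_mul _
  -- Newton iteration
  let F : E → E := fun z => z - (z ^ n - a) / (n * z ^ (n - 1))
  have hstep : ∀ (i : ℕ) (z : E), ‖z - 1‖ ≤ ρ ∧ ‖z ^ n - a‖ ≤ q ^ i * ‖a - 1‖ →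
      ‖F z - 1‖ ≤ ρ ∧ ‖F z ^ n - a‖ ≤ q ^ (i + 1) * ‖a - 1‖ ∧ ‖F z - z‖ ≤ q ^ i * ρ := by
    rintro i z ⟨h1, h2⟩
    have hz1 : ‖z‖ = 1 := by
      have h3 : ‖z - 1‖ < 1 := h1.trans_lt hρ1
      apply le_antisymm
      · have : z = (z - 1) + 1 := by ring
        rw [this]; exact (nadd _ _).trans (max_le h3.le (by simp))
      · by_contra hcon
        push Not at hcon
        have h4 : ‖(1 : E)‖ < 1 := by
          have : (1 : E) = z - (z - 1) := by ring
          rw [this]; exact (nsub _ _).trans_lt (max_lt hcon h3)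
        rw [norm_one] at h4
        exact lt_irrefl _ h4
    have hz0 : z ≠ 0 := by rintro rfl; rw [norm_zero] at hz1; norm_num at hz1
    set t := -((z ^ n - a) / (n * z ^ (n - 1))) with ht
    have hFz : F z = z + t := by change z - _ = z + -_; ring
    have htn : ‖t‖ ≤ q ^ i * ρ := by
      rw [ht, norm_neg, norm_div, norm_mul, norm_pow, hz1, one_pow, mul_one, hρ, ← mul_div_assoc]
      exact div_le_div_of_nonneg_right h2 hn0.le
    have htρ : ‖t‖ ≤ ρ := htn.trans (by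
      calc q ^ i * ρ ≤ 1 * ρ := mul_le_mul_of_nonneg_right (pow_le_one₀ hq0 hq1.le) hρ0
        _ = ρ := one_mul _)
    refine ⟨?_, ?_, ?_⟩
    · rw [hFz]
      have : z + t - 1 = (z - 1) + t := by ring
      rw [this]; exact (nadd _ _).trans (max_le h1 htρ)
    · have e : F z ^ n - a = (z + t) ^ n - z ^ n - n * z ^ (n - 1) * t := by
        have h5 : (n : E) * z ^ (n - 1) * t = -(z ^ n - a) := by
          rw [ht]; field_simp
        rw [hFz, h5]; ring
      rw [e]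
      refine (key z t hz1.le (htρ.trans hρ1.le)).trans ?_
      have h6 : ρ * ρ = q * ‖a - 1‖ := by
        rw [hρ, hq]; field_simp
      calc ‖t‖ ^ 2 ≤ (q ^ i * ρ) ^ 2 := by gcongr
        _ = q ^ i * (q ^ i * (ρ * ρ)) := by ring
        _ = q ^ i * (q ^ (i + 1) * ‖a - 1‖) := by rw [h6]; ring
        _ ≤ 1 * (q ^ (i + 1) * ‖a - 1‖) :=
          mul_le_mul_of_nonneg_right (pow_le_one₀ hq0 hq1.le) (by positivity)
        _ = _ := one_mul _
    · rw [hFz, add_sub_cancel_left]; exact htn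
  let Z : ℕ → E := fun i => F^[i] 1
  have Z0 : Z 0 = 1 := rfl
  have ZS : ∀ i, Z (i + 1) = F (Z i) := fun i => Function.iterate_succ_apply' F i 1
  have hZ : ∀ i, ‖Z i - 1‖ ≤ ρ ∧ ‖Z i ^ n - a‖ ≤ q ^ i * ‖a - 1‖ := by
    intro i
    induction i with
    | zero => rw [Z0]; refine ⟨by simpa using hρ0, ?_⟩; rw [one_pow, norm_sub_rev]; simp
    | succ i ih => rw [ZS]; exact ⟨(hstep i _ ih).1, (hstep i _ ih).2.1⟩
  have hcau : CauchySeq Z := by
    refine cauchySeq_of_le_geometric q ρ hq1 fun i => ?_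
    rw [dist_comm, dist_eq_norm, ZS, mul_comm]
    exact (hstep i _ (hZ i)).2.2
  obtain ⟨z, hz⟩ := cauchySeq_tendsto_of_complete hcau
  refine ⟨z, ?_, ?_⟩
  · have h1 : Tendsto (fun i => Z i ^ n - a) atTop (𝓝 (z ^ n - a)) := (hz.pow n).sub_const a
    have h2 : Tendsto (fun i => Z i ^ n - a) atTop (𝓝 0) := by
      refine squeeze_zero_norm (fun i => (hZ i).2) ?_
      simpa using (tendsto_pow_atTop_nhds_zero_of_lt_one hq0 hq1).mul_const ‖a - 1‖
    exact sub_eq_zero.1 (tendsto_nhds_unique h1 h2)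
  · exact le_of_tendsto (hz.sub_const 1).norm (Eventually.of_forall fun i => (hZ i).1)

end Root

end Crest.Agent.R013.Annu_930
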