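import Mathlib

-- ▼ part R013/LemD1_323
section

/-!
# Lemma D of #2097 (S1): exact order `m` for free (row 13, helper323)

`F` a complete nontrivially normed field of characteristic zero, `V` a finite dimensional `F`-space,
`f : ι → (F → V)` analytic at `0`, linearly independent as germs over `F`,
`m * dim V < card ι`.  Then arbitrarily close to `0` there are a point `s` and a combination
`g = ∑ c i • f i` whose order at `s` is exactly `m`.
-/

namespace Crest.Agent.R013.LemD_323

open Filter Topology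

variable {F : Type*} [NontriviallyNormedField F]

/-- the ring of germs at `0` of analytic functions -/
def Og (F : Type*) [NontriviallyNormedField F] : Subring ((𝓝 (0 : F)).Germ F) where
  carrier := {g | ∃ f : F → F, AnalyticAt F f 0 ∧ (f : (𝓝 (0 : F)).Germ F) = g}
  mul_mem' := by
    rintro a b ⟨f, hf, rfl⟩ ⟨g, hg, rfl⟩
    exact ⟨f * g, hf.mul hg, rfl⟩
  one_mem' := ⟨1, analyticAt_const, rfl⟩
  add_mem' := by
    rintro a b ⟨f, hf, rfl⟩ ⟨g, hg, rfl⟩
    exact ⟨f + g, hf.add hg, rfl⟩
  zero_mem' := ⟨0, analyticAt_const, rfl⟩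
  neg_mem' := by
    rintro a ⟨f, hf, rfl⟩
    exact ⟨-f, hf.neg, rfl⟩

theorem ev_zero_of_mul {f g : F → F} (hf : AnalyticAt F f 0) (hg : AnalyticAt F g 0)
    (h : ∀ᶠ z in 𝓝 (0 : F), f z * g z = 0) :
    (∀ᶠ z in 𝓝 (0 : F), f z = 0) ∨ (∀ᶠ z in 𝓝 (0 : F), g z = 0) := by
  rcases hf.eventually_eq_zero_or_eventually_ne_zero with h1 | h1
  · exact Or.inl h1
  · refine Or.inr ?_
    rcases hg.eventually_eq_zero_or_eventually_ne_zero with h2 | h2
    · exact h2
    · exfalso
      have h3 : ∀ᶠ z in 𝓝[≠] (0 : F), False := by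
        filter_upwards [h1, h2, h.filter_mono nhdsWithin_le_nhds] with z a b c
        exact (mul_ne_zero a b) c
      exact h3.exists.elim fun _ h => h

instance : IsDomain (Og F) where
  exists_pair_ne := by
    refine ⟨0, 1, fun h => ?_⟩
    have h1 : ((0 : F → F) : (𝓝 (0 : F)).Germ F) = ((1 : F → F) : (𝓝 (0 : F)).Germ F) :=
      congrArg Subtype.val h
    have h2 := (Filter.Germ.coe_eq.mp h1).self_of_nhds
    simp at h2
  mul_left_cancel_of_ne_zero := by
    rintro ⟨a, f, hf, rfl⟩ ha ⟨b, g, hg, rfl⟩ ⟨c, g', hg', rfl⟩ h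
    have h1 : ((f * g : F → F) : (𝓝 (0 : F)).Germ F) = ((f * g' : F → F) : (𝓝 (0 : F)).Germ F) :=
      congrArg Subtype.val h
    have h2 := Filter.Germ.coe_eq.mp h1
    have h3 : ∀ᶠ z in 𝓝 (0 : F), f z * (g - g') z = 0 := by
      filter_upwards [h2] with z hz
      simp only [Pi.mul_apply, Pi.sub_apply] at hz ⊢
      rw [mul_sub, hz, sub_self]
    apply Subtype.ext
    show (g : (𝓝 (0 : F)).Germ F) = g'
    rcases ev_zero_of_mul hf (hg.sub hg') h3 with h4 | h4
    · exact absurd (Subtype.ext (Filter.Germ.coe_eq.mpr h4)) ha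
    · refine Filter.Germ.coe_eq.mpr ?_
      filter_upwards [h4] with z hz
      exact sub_eq_zero.mp hz
  mul_right_cancel_of_ne_zero := by
    rintro ⟨a, f, hf, rfl⟩ ha ⟨b, g, hg, rfl⟩ ⟨c, g', hg', rfl⟩ h
    have h1 : ((g * f : F → F) : (𝓝 (0 : F)).Germ F) = ((g' * f : F → F) : (𝓝 (0 : F)).Germ F) :=
      congrArg Subtype.val h
    have h2 := Filter.Germ.coe_eq.mp h1
    have h3 : ∀ᶠ z in 𝓝 (0 : F), f z * (g - g') z = 0 := by
      filter_upwards [h2] with z hz
      simp only [Pi.mul_apply, Pi.sub_apply] at hz ⊢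
      rw [mul_sub, mul_comm, hz, mul_comm, sub_self]
    apply Subtype.ext
    show (g : (𝓝 (0 : F)).Germ F) = g'
    rcases ev_zero_of_mul hf (hg.sub hg') h3 with h4 | h4
    · exact absurd (Subtype.ext (Filter.Germ.coe_eq.mpr h4)) ha
    · refine Filter.Germ.coe_eq.mpr ?_
      filter_upwards [h4] with z hz
      exact sub_eq_zero.mp hz

/-- more unknowns than equations: a non trivial analytic relation -/
theorem exists_relation {ι ν : Type*} [Fintype ι] [Fintype ν] (A : ι → ν → F → F)
    (hA : ∀ α i, AnalyticAt F (A α i) 0) (hcard : Fintype.card ι < Fintype.card ν) :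
    ∃ a : ν → F → F, (∀ i, AnalyticAt F (a i) 0) ∧ (∃ j, ¬ ∀ᶠ z in 𝓝 (0 : F), a j z = 0) ∧
      ∀ α, ∀ᶠ z in 𝓝 (0 : F), ∑ i, a i z * A α i z = 0 := by
  classical
  obtain ⟨e⟩ := Function.Embedding.nonempty_of_card_le hcard.le
  have hns : ¬ Function.Surjective e := fun hs =>
    absurd (Fintype.card_le_of_surjective e hs) (not_le.mpr hcard)
  obtain ⟨r0, hr0⟩ := not_forall.mp hns
  let B : ν → ν → F → F := fun r i => if h : ∃ α, e α = r then A h.choose i else 0
  have hB : ∀ r i, AnalyticAt F (B r i) 0 := by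
    intro r i
    by_cases h : ∃ α, e α = r
    · simpa only [B, dif_pos h] using hA _ i
    · simp only [B, dif_neg h]; exact (analyticAt_const (v := (0 : F)))
  let M : Matrix ν ν (Og F) := fun r i => ⟨_, B r i, hB r i, rfl⟩
  have hdet : M.det = 0 := by
    apply Matrix.det_eq_zero_of_row_eq_zero r0
    intro i
    apply Subtype.ext
    show ((B r0 i : F → F) : (𝓝 (0 : F)).Germ F) = ((0 : F → F) : (𝓝 (0 : F)).Germ F)
    have : B r0 i = 0 := by simp only [B, dif_neg hr0]
    rw [this]
  obtain ⟨v, hv0, hv⟩ := Matrix.exists_mulVec_eq_zero_iff.mpr hdet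
  choose a ha hav using fun i => (v i).2
  refine ⟨a, ha, ?_, ?_⟩
  · obtain ⟨j, hj⟩ := Function.ne_iff.mp hv0
    refine ⟨j, fun h => hj ?_⟩
    apply Subtype.ext
    rw [← hav j]
    exact Filter.Germ.coe_eq.mpr h
  · intro α
    have h1 := congrFun hv (e α)
    have h2 := congrArg Subtype.val h1
    have h3 : ((fun z => ∑ i, B (e α) i z * a i z : F → F) : (𝓝 (0 : F)).Germ F) =
        ((0 : F → F) : (𝓝 (0 : F)).Germ F) := by
      have h4 : (((M.mulVec v) (e α) : Og F) : (𝓝 (0 : F)).Germ F) =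
          ∑ i, ((B (e α) i : F → F) : (𝓝 (0 : F)).Germ F) * ((a i : F → F) : (𝓝 (0 : F)).Germ F) := by
        simp only [Matrix.mulVec, dotProduct]
        rw [AddSubmonoidClass.coe_finsetSum]
        refine Finset.sum_congr rfl fun i _ => ?_
        rw [hav i]
        rfl
      rw [h4] at h2
      rw [show ((0 : F → F) : (𝓝 (0 : F)).Germ F) = (((0 : ν → Og F) (e α) : Og F) : (𝓝 (0 : F)).Germ F)
        from rfl, ← h2]
      have h5 : ∀ s : Finset ν, ((fun z => ∑ i ∈ s, B (e α) i z * a i z : F → F) :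
          (𝓝 (0 : F)).Germ F) = ∑ i ∈ s, ((B (e α) i : F → F) : (𝓝 (0 : F)).Germ F) *
            ((a i : F → F) : (𝓝 (0 : F)).Germ F) := by
        intro s
        induction s using Finset.induction_on with
        | empty => simp; rfl
        | insert i s hi ih =>
          rw [Finset.sum_insert hi, ← ih]
          simp only [Finset.sum_insert hi]
          rfl
      exact h5 Finset.univ
    have h6 := Filter.Germ.coe_eq.mp h3
    filter_upwards [h6] with z hz
    have hα : ∃ β, e β = e α := ⟨α, rfl⟩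
    have hch : hα.choose = α := e.injective hα.choose_spec
    have hBA : ∀ i, B (e α) i z = A α i z := by
      intro i
      simp only [B, dif_pos hα, hch]
    simpa [hBA, mul_comm] using hz

theorem z_mul_deriv [CompleteSpace F] {a g : F → F} {k : ℕ} (hg : AnalyticAt F g 0)
    (h : ∀ᶠ z in 𝓝 (0 : F), a z = z ^ k * g z) :
    ∀ᶠ z in 𝓝 (0 : F), z * deriv a z = z ^ k * (k * g z + z * deriv g z) := by
  have h1 : ∀ᶠ z in 𝓝 (0 : F), deriv a z = deriv (fun z => z ^ k * g z) z :=
    Filter.EventuallyEq.deriv h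
  filter_upwards [h1, hg.eventually_analyticAt] with z hz hgz
  rw [hz]
  have h2 : HasDerivAt (fun z => z ^ k * g z) ((k : F) * z ^ (k - 1) * g z + z ^ k * deriv g z) z :=
    (hasDerivAt_pow k z).mul hgz.differentiableAt.hasDerivAt
  rw [h2.deriv]
  rcases Nat.eq_zero_or_pos k with hk | hk
  · subst hk; simp
  · obtain ⟨j, rfl⟩ : ∃ j, k = j + 1 := ⟨k - 1, by omega⟩
    simp only [Nat.add_sub_cancel]
    ring

/-- equal Wronskian orders -/
theorem order_eq [CompleteSpace F] [CharZero F] {a b g h : F → F} {k n : ℕ}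
    (hg : AnalyticAt F g 0) (hh : AnalyticAt F h 0) (hg0 : g 0 ≠ 0) (hh0 : h 0 ≠ 0)
    (ha : ∀ᶠ z in 𝓝 (0 : F), a z = z ^ k * g z) (hb : ∀ᶠ z in 𝓝 (0 : F), b z = z ^ n * h z)
    (hw : ∀ᶠ z in 𝓝 (0 : F), b z * deriv a z = deriv b z * a z) : k = n := by
  have h1 := z_mul_deriv hg ha
  have h2 := z_mul_deriv hh hb
  have h3 : ∀ᶠ z in 𝓝[≠] (0 : F),
      ((k : F) - n) * (g z * h z) + z * (h z * deriv g z - deriv h z * g z) = 0 := by
    have hne : ∀ᶠ z in 𝓝[≠] (0 : F), z ≠ 0 := self_mem_nhdsWithin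
    filter_upwards [h1.filter_mono nhdsWithin_le_nhds, h2.filter_mono nhdsWithin_le_nhds,
      ha.filter_mono nhdsWithin_le_nhds, hb.filter_mono nhdsWithin_le_nhds,
      hw.filter_mono nhdsWithin_le_nhds, hne] with z e1 e2 e3 e4 e5 e6
    have e7 : b z * (z * deriv a z) = (z * deriv b z) * a z := by
      linear_combination z * e5
    rw [e1, e2, e3, e4] at e7
    have e8 : z ^ (k + n) ≠ 0 := pow_ne_zero _ e6
    have e9 : z ^ (k + n) * (((k : F) - n) * (g z * h z) +
        z * (h z * deriv g z - deriv h z * g z)) = 0 := by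
      rw [pow_add]; linear_combination e7
    exact (mul_eq_zero.mp e9).resolve_left e8
  have hc : ContinuousAt (fun z => ((k : F) - n) * (g z * h z) +
      z * (h z * deriv g z - deriv h z * g z)) 0 := by
    have c1 := hg.continuousAt
    have c2 := hh.continuousAt
    have c3 := hg.deriv.continuousAt
    have c4 := hh.deriv.continuousAt
    fun_prop
  have h4 : Tendsto (fun z => ((k : F) - n) * (g z * h z) +
      z * (h z * deriv g z - deriv h z * g z)) (𝓝[≠] 0) (𝓝 (((k : F) - n) * (g 0 * h 0) +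
      0 * (h 0 * deriv g 0 - deriv h 0 * g 0))) := hc.tendsto.mono_left nhdsWithin_le_nhds
  have h5 : Tendsto (fun z => ((k : F) - n) * (g z * h z) +
      z * (h z * deriv g z - deriv h z * g z)) (𝓝[≠] 0) (𝓝 0) :=
    tendsto_const_nhds.congr' (by filter_upwards [h3] with z hz; exact hz.symm)
  have h6 := tendsto_nhds_unique h4 h5
  rw [zero_mul, add_zero] at h6
  have h7 : (k : F) - n = 0 := by
    rcases mul_eq_zero.mp h6 with h | h
    · exact h
    · exact absurd h (mul_ne_zero hg0 hh0)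
  exact_mod_cast sub_eq_zero.mp h7

theorem const_of_wronskian [CompleteSpace F] [CharZero F] {a b : F → F}
    (ha : AnalyticAt F a 0) (hb : AnalyticAt F b 0) (hb0 : ¬ ∀ᶠ z in 𝓝 (0 : F), b z = 0)
    (hw : ∀ᶠ z in 𝓝 (0 : F), b z * deriv a z = deriv b z * a z) :
    ∃ c : F, ∀ᶠ z in 𝓝 (0 : F), a z = c * b z := by
  have key : ∀ e : F → F, AnalyticAt F e 0 → (¬ ∀ᶠ z in 𝓝 (0 : F), e z = 0) →
      ∃ (n : ℕ) (g : F → F), AnalyticAt F g 0 ∧ g 0 ≠ 0 ∧ ∀ᶠ z in 𝓝 (0 : F), e z = z ^ n * g z := by
    intro e he h0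
    have ht : analyticOrderAt e 0 ≠ ⊤ := fun h => h0 (analyticOrderAt_eq_top.mp h)
    obtain ⟨n, hn⟩ := ENat.ne_top_iff_exists.mp ht
    obtain ⟨g, hg1, hg2, hg3⟩ := (he.analyticOrderAt_eq_natCast).mp hn.symm
    exact ⟨n, g, hg1, hg2, by simpa using hg3⟩
  by_cases ha0 : ∀ᶠ z in 𝓝 (0 : F), a z = 0
  · exact ⟨0, by filter_upwards [ha0] with z hz; rw [hz, zero_mul]⟩
  obtain ⟨n, h, hh, hh0, hbe⟩ := key b hb hb0
  obtain ⟨k, g, hg, hg0, hae⟩ := key a ha ha0
  have hkn : k = n := order_eq hg hh hg0 hh0 hae hbe hw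
  subst hkn
  set c := g 0 / h 0 with hc
  refine ⟨c, ?_⟩
  by_contra hcon
  have he : AnalyticAt F (fun z => a z - c * b z) 0 := ha.sub (analyticAt_const.mul hb)
  have he0 : ¬ ∀ᶠ z in 𝓝 (0 : F), (fun z => a z - c * b z) z = 0 := by
    intro h'
    exact hcon (by filter_upwards [h'] with z hz; exact sub_eq_zero.mp hz)
  obtain ⟨k', g', hg', hg'0, hee⟩ := key _ he he0
  have hwe : ∀ᶠ z in 𝓝 (0 : F), b z * deriv (fun z => a z - c * b z) z =
      deriv b z * (fun z => a z - c * b z) z := by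
    filter_upwards [hw, ha.eventually_analyticAt, hb.eventually_analyticAt] with z e1 e2 e3
    have e4 : HasDerivAt (fun z => a z - c * b z) (deriv a z - c * deriv b z) z :=
      e2.differentiableAt.hasDerivAt.sub (e3.differentiableAt.hasDerivAt.const_mul c)
    rw [e4.deriv]
    show b z * (deriv a z - c * deriv b z) = deriv b z * (a z - c * b z)
    linear_combination e1
  have hk' : k' = k := order_eq hg' hh hg'0 hh0 hee hbe hwe
  subst hk'
  have h3 : ∀ᶠ z in 𝓝[≠] (0 : F), g' z = g z - c * h z := by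
    have hne : ∀ᶠ z in 𝓝[≠] (0 : F), z ≠ 0 := self_mem_nhdsWithin
    filter_upwards [hae.filter_mono nhdsWithin_le_nhds, hbe.filter_mono nhdsWithin_le_nhds,
      hee.filter_mono nhdsWithin_le_nhds, hne] with z e1 e2 e3 e4
    have e5 : z ^ k' ≠ 0 := pow_ne_zero _ e4
    apply mul_left_cancel₀ e5
    rw [← e3, e1, e2]; ring
  have h4 : Tendsto g' (𝓝[≠] 0) (𝓝 (g' 0)) := hg'.continuousAt.tendsto.mono_left nhdsWithin_le_nhds
  have h5 : Tendsto (fun z => g z - c * h z) (𝓝[≠] 0) (𝓝 (g 0 - c * h 0)) :=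
    (hg.continuousAt.sub (continuousAt_const.mul hh.continuousAt)).tendsto.mono_left
      nhdsWithin_le_nhds
  have h6 := tendsto_nhds_unique (h4.congr' h3) h5
  apply hg'0
  rw [h6, hc, div_mul_cancel₀ _ hh0, sub_self]

/-- A set `K` of analytic vectors which is stable under derivation and under combinations
`f a - g b` and contains a non zero vector contains a non zero vector proportional to a constant
vector. -/
theorem exists_const [CompleteSpace F] [CharZero F] {ν : Type*} [Finite ν]
    (K : (ν → F → F) → Prop)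
    (hK0 : ∃ a : ν → F → F, (∀ i, AnalyticAt F (a i) 0) ∧ K a ∧
      ∃ j, ¬ ∀ᶠ z in 𝓝 (0 : F), a j z = 0)
    (hder : ∀ a : ν → F → F, (∀ i, AnalyticAt F (a i) 0) → K a → K (fun i => deriv (a i)))
    (hcomb : ∀ (a b : ν → F → F) (f g : F → F), (∀ i, AnalyticAt F (a i) 0) →
      (∀ i, AnalyticAt F (b i) 0) → AnalyticAt F f 0 → AnalyticAt F g 0 → K a → K b →
      K (fun i z => f z * a i z - g z * b i z)) :
    ∃ (a : ν → F → F) (b : F → F) (c : ν → F), (∀ i, AnalyticAt F (a i) 0) ∧ K a ∧
      AnalyticAt F b 0 ∧ (¬ ∀ᶠ z in 𝓝 (0 : F), b z = 0) ∧ c ≠ 0 ∧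
      ∀ i, ∀ᶠ z in 𝓝 (0 : F), a i z = c i * b z := by
  classical
  cases nonempty_fintype ν
  let supp : (ν → F → F) → Finset ν := fun a =>
    Finset.univ.filter fun i => ¬ ∀ᶠ z in 𝓝 (0 : F), a i z = 0
  have hex : ∃ n : ℕ, ∃ a : ν → F → F, (∀ i, AnalyticAt F (a i) 0) ∧ K a ∧
      (∃ j, ¬ ∀ᶠ z in 𝓝 (0 : F), a j z = 0) ∧ (supp a).card = n := by
    obtain ⟨a, h1, h2, h3⟩ := hK0
    exact ⟨_, a, h1, h2, h3, rfl⟩
  obtain ⟨a, ha, hKa, ⟨j, hj⟩, hcard⟩ := Nat.find_spec hex
  have hmin : ∀ w : ν → F → F, (∀ i, AnalyticAt F (w i) 0) → K w → (supp w) ⊂ (supp a) →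
      ∀ i, ∀ᶠ z in 𝓝 (0 : F), w i z = 0 := by
    intro w hw hKw hlt i
    by_contra hne
    have h1 : (supp w).card < Nat.find hex := by
      rw [← hcard]; exact Finset.card_lt_card hlt
    exact Nat.find_min hex h1 ⟨w, hw, hKw, ⟨i, hne⟩, rfl⟩
  have hKd := hder a ha hKa
  have had : ∀ i, AnalyticAt F (deriv (a i)) 0 := fun i => (ha i).deriv
  have hKw := hcomb (fun i => deriv (a i)) a (a j) (deriv (a j)) had ha (ha j) (had j) hKd hKa
  have hw : ∀ i, AnalyticAt F (fun z => a j z * deriv (a i) z - deriv (a j) z * a i z) 0 :=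
    fun i => ((ha j).mul (had i)).sub ((had j).mul (ha i))
  have hjs : j ∈ supp a := by simp only [supp, Finset.mem_filter, Finset.mem_univ, true_and]; exact hj
  have hlt : supp (fun i z => a j z * deriv (a i) z - deriv (a j) z * a i z) ⊂ supp a := by
    refine (Finset.ssubset_iff_of_subset ?_).mpr ⟨j, hjs, ?_⟩
    · intro i hi
      simp only [supp, Finset.mem_filter, Finset.mem_univ, true_and] at hi ⊢
      intro h0
      apply hi
      have h1 : ∀ᶠ z in 𝓝 (0 : F), deriv (a i) z = deriv (fun _ => (0 : F)) z :=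
        Filter.EventuallyEq.deriv h0
      filter_upwards [h0, h1] with z e1 e2
      rw [e1, e2, deriv_const, mul_zero, mul_zero, sub_zero]
    · simp only [supp, Finset.mem_filter, Finset.mem_univ, true_and, not_not]
      filter_upwards with z
      ring
  have hz := hmin _ hw hKw hlt
  have hc : ∀ i, ∃ c : F, ∀ᶠ z in 𝓝 (0 : F), a i z = c * a j z := by
    intro i
    apply const_of_wronskian (ha i) (ha j) hj
    filter_upwards [hz i] with z e
    exact sub_eq_zero.mp e
  choose c hc using hc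
  refine ⟨a, a j, c, ha, hKa, ha j, hj, ?_, hc⟩
  intro h0
  apply hj
  filter_upwards [hc j] with z e
  rw [e, h0]; simp

end Crest.Agent.R013.LemD_323
end

-- ▼ part R013/LemD2_323
section

/-!
# Lemma D of #2097 (S1), second part: the theorem in function form
-/

namespace Crest.Agent.R013.LemD_323

open Filter Topology

variable {F : Type*} [NontriviallyNormedField F]
variable {V : Type*} [NormedAddCommGroup V] [NormedSpace F V]

theorem analyticAt_iter [CompleteSpace V] {f : F → V} {s : F} (hf : AnalyticAt F f s) (l : ℕ) :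
    AnalyticAt F (deriv^[l] f) s := by
  induction l with
  | zero => simpa using hf
  | succ l ih =>
    rw [Function.iterate_succ_apply']
    exact ih.deriv

theorem iter_sum [CompleteSpace V] {ν : Type*} [Fintype ν] (f : ν → F → V) (c : ν → F) (l : ℕ) :
    ∀ s : F, (∀ i, AnalyticAt F (f i) s) →
      deriv^[l] (fun z => ∑ i, c i • f i z) s = ∑ i, c i • deriv^[l] (f i) s := by
  induction l with
  | zero => intro s _; simp
  | succ l ih =>
    intro s hs
    rw [Function.iterate_succ_apply']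
    have h1 : deriv^[l] (fun z => ∑ i, c i • f i z) =ᶠ[𝓝 s]
        fun z => ∑ i, c i • deriv^[l] (f i) z := by
      have h2 : ∀ᶠ z in 𝓝 s, ∀ i, AnalyticAt F (f i) z :=
        Filter.eventually_all.mpr fun i => (hs i).eventually_analyticAt
      filter_upwards [h2] with z hz
      exact ih z hz
    rw [h1.deriv_eq]
    have h3 : HasDerivAt (fun z => ∑ i, c i • deriv^[l] (f i) z)
        (∑ i, c i • deriv (deriv^[l] (f i)) s) s := by
      have := HasDerivAt.sum (u := Finset.univ) (A := fun i z => c i • deriv^[l] (f i) z)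
        (A' := fun i => c i • deriv (deriv^[l] (f i)) s) (x := s) (fun i _ =>
          ((analyticAt_iter (hs i) l).differentiableAt.hasDerivAt).const_smul (c i))
      convert this using 1
      funext z; simp
    rw [h3.deriv]
    refine Finset.sum_congr rfl fun i _ => ?_
    rw [Function.iterate_succ_apply']

/-- LEMMA D (function form). -/
theorem lemD [CompleteSpace F] [CharZero F] [FiniteDimensional F V] {ν : Type*} [Fintype ν]
    (f : ν → F → V) (hf : ∀ i, AnalyticAt F (f i) 0)
    (hli : ∀ c : ν → F, (∀ᶠ z in 𝓝 (0 : F), ∑ i, c i • f i z = 0) → c = 0) (m : ℕ)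
    (hcard : m * Module.finrank F V < Fintype.card ν) :
    ∃ᶠ s in 𝓝 (0 : F), ∃ c : ν → F,
      (∀ l < m, ∑ i, c i • deriv^[l] (f i) s = 0) ∧ ∑ i, c i • deriv^[m] (f i) s ≠ 0 := by
  classical
  have : CompleteSpace V := FiniteDimensional.complete F V
  by_contra hcon
  have H : ∀ᶠ s in 𝓝 (0 : F), ∀ c : ν → F,
      (∀ l < m, ∑ i, c i • deriv^[l] (f i) s = 0) → ∑ i, c i • deriv^[m] (f i) s = 0 := by
    filter_upwards [Filter.not_frequently.mp hcon] with s hs c hc
    by_contra h0
    exact hs ⟨c, hc, h0⟩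
  have hD : ∀ l i, AnalyticAt F (deriv^[l] (f i)) 0 := fun l i => analyticAt_iter (hf i) l
  let K : (ν → F → F) → Prop := fun a =>
    ∀ l < m, ∀ᶠ z in 𝓝 (0 : F), ∑ i, a i z • deriv^[l] (f i) z = 0
  have hKle : ∀ a, K a → ∀ l ≤ m, ∀ᶠ z in 𝓝 (0 : F), ∑ i, a i z • deriv^[l] (f i) z = 0 := by
    intro a ha l hl
    rcases hl.lt_or_eq with h | h
    · exact ha l h
    · subst h
      have h1 : ∀ᶠ z in 𝓝 (0 : F), ∀ l' : Fin l, ∑ i, a i z • deriv^[(l' : ℕ)] (f i) z = 0 :=
        Filter.eventually_all.mpr fun l' => ha l' l'.2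
      filter_upwards [h1, H] with z e1 e2
      exact e2 (fun i => a i z) fun l' hl' => e1 ⟨l', hl'⟩
  have hK0 : ∃ a : ν → F → F, (∀ i, AnalyticAt F (a i) 0) ∧ K a ∧
      ∃ j, ¬ ∀ᶠ z in 𝓝 (0 : F), a j z = 0 := by
    let B := Module.finBasis F V
    have hcard' : Fintype.card (Fin m × Fin (Module.finrank F V)) < Fintype.card ν := by
      simpa using hcard
    obtain ⟨a, ha, hne, hrel⟩ := exists_relation (F := F)
      (fun (α : Fin m × Fin (Module.finrank F V)) (i : ν) (z : F) =>
        B.coord α.2 (deriv^[(α.1 : ℕ)] (f i) z)) (fun α i => by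
          have h1 : AnalyticAt F (fun z => (LinearMap.toContinuousLinearMap (B.coord α.2))
              (deriv^[(α.1 : ℕ)] (f i) z)) 0 :=
            ((LinearMap.toContinuousLinearMap (B.coord α.2)).analyticAt _).comp (hD α.1 i)
          exact h1) hcard'
    refine ⟨a, ha, ?_, hne⟩
    intro l hl
    have h1 : ∀ᶠ z in 𝓝 (0 : F), ∀ j : Fin (Module.finrank F V),
        ∑ i, a i z * B.coord j (deriv^[l] (f i) z) = 0 :=
      Filter.eventually_all.mpr fun j => hrel (⟨l, hl⟩, j)
    filter_upwards [h1] with z hz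
    apply B.ext_elem
    intro j
    have := hz j
    simpa [map_sum, Finsupp.finsetSum_apply] using this
  have hder : ∀ a : ν → F → F, (∀ i, AnalyticAt F (a i) 0) → K a → K (fun i => deriv (a i)) := by
    intro a ha hKa l hl
    have h1 := hKle a hKa l hl.le
    have h2 := hKle a hKa (l + 1) hl
    have h3 : ∀ᶠ z in 𝓝 (0 : F), deriv (fun z => ∑ i, a i z • deriv^[l] (f i) z) z =
        deriv (fun _ => (0 : V)) z := Filter.EventuallyEq.deriv h1
    have h4 : ∀ᶠ z in 𝓝 (0 : F), ∀ i, AnalyticAt F (a i) z :=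
      Filter.eventually_all.mpr fun i => (ha i).eventually_analyticAt
    have h5 : ∀ᶠ z in 𝓝 (0 : F), ∀ i, AnalyticAt F (deriv^[l] (f i)) z :=
      Filter.eventually_all.mpr fun i => (hD l i).eventually_analyticAt
    filter_upwards [h2, h3, h4, h5] with z e2 e3 e4 e5
    have h6 : HasDerivAt (fun z => ∑ i, a i z • deriv^[l] (f i) z)
        (∑ i, (a i z • deriv (deriv^[l] (f i)) z + deriv (a i) z • deriv^[l] (f i) z)) z := by
      have := HasDerivAt.sum (u := Finset.univ) (A := fun i z => a i z • deriv^[l] (f i) z)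
        (A' := fun i => a i z • deriv (deriv^[l] (f i)) z + deriv (a i) z • deriv^[l] (f i) z)
        (x := z) (fun i _ =>
          (e4 i).differentiableAt.hasDerivAt.smul (e5 i).differentiableAt.hasDerivAt)
      convert this using 1
      funext z; simp
    rw [h6.deriv, deriv_const, Finset.sum_add_distrib] at e3
    have h7 : ∑ i, a i z • deriv (deriv^[l] (f i)) z = 0 := by
      rw [← e2]
      refine Finset.sum_congr rfl fun i _ => ?_
      rw [Function.iterate_succ_apply']
    rw [h7, zero_add] at e3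
    exact e3
  have hcomb : ∀ (a b : ν → F → F) (f g : F → F), (∀ i, AnalyticAt F (a i) 0) →
      (∀ i, AnalyticAt F (b i) 0) → AnalyticAt F f 0 → AnalyticAt F g 0 → K a → K b →
      K (fun i z => f z * a i z - g z * b i z) := by
    intro a b f' g' ha hb hf' hg' hKa hKb l hl
    filter_upwards [hKa l hl, hKb l hl] with z e1 e2
    calc ∑ i, (f' z * a i z - g' z * b i z) • deriv^[l] (f i) z
        = f' z • ∑ i, a i z • deriv^[l] (f i) z - g' z • ∑ i, b i z • deriv^[l] (f i) z := by
          rw [Finset.smul_sum, Finset.smul_sum, ← Finset.sum_sub_distrib]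
          refine Finset.sum_congr rfl fun i _ => ?_
          rw [sub_smul, mul_smul, mul_smul]
      _ = 0 := by rw [e1, e2]; simp
  obtain ⟨a, b, c, ha, hKa, hb, hb0, hc0, hab⟩ := exists_const (F := F) K hK0 hder hcomb
  have h1 := hKle a hKa 0 (Nat.zero_le m)
  have h2 : ∀ᶠ z in 𝓝 (0 : F), ∀ i, a i z = c i * b z := Filter.eventually_all.mpr hab
  have h3 : ∀ᶠ z in 𝓝 (0 : F), b z • ∑ i, c i • f i z = 0 := by
    filter_upwards [h1, h2] with z e1 e2
    rw [← e1, Finset.smul_sum]
    refine Finset.sum_congr rfl fun i _ => ?_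
    rw [e2 i, Function.iterate_zero, id, smul_smul, mul_comm]
  have hg : AnalyticAt F (fun z => ∑ i, c i • f i z) 0 := by
    have := Finset.analyticAt_sum (𝕜 := F) (f := fun i z => c i • f i z) (c := (0 : F))
      Finset.univ (fun i _ => (hf i).const_smul (c := c i))
    convert this using 1
    funext z; simp
  rcases hg.eventually_eq_zero_or_eventually_ne_zero with h4 | h4
  · exact hc0 (hli c h4)
  · rcases hb.eventually_eq_zero_or_eventually_ne_zero with h5 | h5
    · exact hb0 h5
    · have h6 : ∀ᶠ z in 𝓝[≠] (0 : F), False := by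
        filter_upwards [h4, h5, h3.filter_mono nhdsWithin_le_nhds] with z e1 e2 e3
        exact (smul_ne_zero e2 e1) e3
      exact h6.exists.elim fun _ h => h

/-- LEMMA D, iterated derivatives of the combination itself. -/
theorem lemD' [CompleteSpace F] [CharZero F] [FiniteDimensional F V] {ν : Type*} [Fintype ν]
    (f : ν → F → V) (hf : ∀ i, AnalyticAt F (f i) 0)
    (hli : ∀ c : ν → F, (∀ᶠ z in 𝓝 (0 : F), ∑ i, c i • f i z = 0) → c = 0) (m : ℕ)
    (hcard : m * Module.finrank F V < Fintype.card ν) :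
    ∃ᶠ s in 𝓝 (0 : F), ∃ c : ν → F,
      (∀ l < m, iteratedDeriv l (fun z => ∑ i, c i • f i z) s = 0) ∧
        iteratedDeriv m (fun z => ∑ i, c i • f i z) s ≠ 0 := by
  have : CompleteSpace V := FiniteDimensional.complete F V
  have h2 : ∀ᶠ z in 𝓝 (0 : F), ∀ i, AnalyticAt F (f i) z :=
    Filter.eventually_all.mpr fun i => (hf i).eventually_analyticAt
  refine ((lemD f hf hli m hcard).and_eventually h2).mono ?_
  rintro s ⟨⟨c, h3, h4⟩, h5⟩
  refine ⟨c, fun l hl => ?_, ?_⟩
  · rw [iteratedDeriv_eq_iterate, iter_sum f c l s h5]; exact h3 l hl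
  · rw [iteratedDeriv_eq_iterate, iter_sum f c m s h5]; exact h4

end Crest.Agent.R013.LemD_323
end

-- ▼ part R013/LemD3_323
section

/-!
# Lemma D of #2097 (S1), third part: convergent power series over a non archimedean field

`Bd r f` : the coefficients `a n` of `f` satisfy `‖a n‖ * r ^ n ≤ C`.
`ev f s = ∑ a n s ^ n`,  `shift s f` = Taylor expansion of `f` at `s`.
`lemD_ps` : Lemma D for power series.
-/

namespace Crest.Agent.R013.LemD_323

open Filter Topology PowerSeries

section

variable {k : Type*} [NontriviallyNormedField k]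

/-- bounded on the closed/open disc of radius `r` -/
def Bd (r : ℝ) (f : PowerSeries k) : Prop := ∃ C, ∀ n, ‖coeff n f‖ * r ^ n ≤ C

/-- value at `s` -/
noncomputable def ev (f : PowerSeries k) (s : k) : k := ∑' n, coeff n f * s ^ n

/-- Taylor expansion at `s` -/
noncomputable def shift (s : k) (f : PowerSeries k) : PowerSeries k :=
  PowerSeries.mk fun l => ∑' n, ((n + l).choose l : k) * coeff (n + l) f * s ^ n

theorem coeff_shift (s : k) (f : PowerSeries k) (l : ℕ) :
    coeff l (shift s f) = ∑' n, ((n + l).choose l : k) * coeff (n + l) f * s ^ n := by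
  simp [shift]

theorem Bd.nonneg_bound {r : ℝ} (hr : 0 ≤ r) {f : PowerSeries k} (hf : Bd r f) :
    ∃ C, 0 ≤ C ∧ ∀ n, ‖coeff n f‖ * r ^ n ≤ C := by
  obtain ⟨C, hC⟩ := hf
  exact ⟨C, le_trans (mul_nonneg (norm_nonneg _) (pow_nonneg hr 0)) (hC 0), hC⟩

theorem summable_geom {s : k} {r : ℝ} (hs : ‖s‖ < r) : Summable fun n : ℕ => (‖s‖ / r) ^ n := by
  have hr : 0 < r := (norm_nonneg s).trans_lt hs
  exact summable_geometric_of_lt_one (by positivity) ((div_lt_one hr).mpr hs)

theorem summable_ev [CompleteSpace k] {r : ℝ} {f : PowerSeries k} (hf : Bd r f) {s : k}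
    (hs : ‖s‖ < r) : Summable fun n => coeff n f * s ^ n := by
  have hr : 0 < r := (norm_nonneg s).trans_lt hs
  obtain ⟨C, hC0, hC⟩ := hf.nonneg_bound hr.le
  refine Summable.of_norm_bounded ((summable_geom hs).mul_left C) fun n => ?_
  rw [norm_mul, norm_pow, div_pow]
  have h1 : ‖coeff n f‖ * ‖s‖ ^ n = (‖coeff n f‖ * r ^ n) * (‖s‖ ^ n / r ^ n) := by
    field_simp
  rw [h1]
  exact mul_le_mul_of_nonneg_right (hC n) (by positivity)

variable [IsUltrametricDist k]

theorem norm_natCast_le (n : ℕ) : ‖(n : k)‖ ≤ 1 := IsUltrametricDist.norm_natCast_le_one k n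

theorem bd_term {r C : ℝ} (hr : 0 < r) {f : PowerSeries k}
    (hC : ∀ n, ‖coeff n f‖ * r ^ n ≤ C) (s : k) (n l : ℕ) :
    ‖((n + l).choose l : k) * coeff (n + l) f * s ^ n‖ * r ^ l ≤ C * (‖s‖ / r) ^ n := by
  rw [norm_mul, norm_mul, norm_pow]
  calc ‖((n + l).choose l : k)‖ * ‖coeff (n + l) f‖ * ‖s‖ ^ n * r ^ l
      ≤ 1 * ‖coeff (n + l) f‖ * ‖s‖ ^ n * r ^ l := by
        gcongr
        exact norm_natCast_le _
    _ = (‖coeff (n + l) f‖ * r ^ (n + l)) * (‖s‖ / r) ^ n := by
        rw [pow_add, div_pow]; field_simp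
    _ ≤ C * (‖s‖ / r) ^ n := by
        gcongr
        exact hC _

theorem summable_shift [CompleteSpace k] {r : ℝ} {f : PowerSeries k} (hf : Bd r f) {s : k}
    (hs : ‖s‖ < r) (l : ℕ) :
    Summable fun n => ((n + l).choose l : k) * coeff (n + l) f * s ^ n := by
  have hr : 0 < r := (norm_nonneg s).trans_lt hs
  obtain ⟨C, hC0, hC⟩ := hf.nonneg_bound hr.le
  refine Summable.of_norm_bounded (((summable_geom hs).mul_left C).mul_right (r ^ l)⁻¹) fun n => ?_
  rw [← div_eq_mul_inv, le_div_iff₀ (by positivity)]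
  exact bd_term hr hC s n l

/-- the Taylor expansion has the same bound -/
theorem bd_shift [CompleteSpace k] {r C : ℝ} {f : PowerSeries k} (hC0 : 0 ≤ C)
    (hC : ∀ n, ‖coeff n f‖ * r ^ n ≤ C)
    {s : k} (hs : ‖s‖ < r) (l : ℕ) : ‖coeff l (shift s f)‖ * r ^ l ≤ C := by
  have hr : 0 < r := (norm_nonneg s).trans_lt hs
  rw [coeff_shift, ← le_div_iff₀ (by positivity)]
  refine IsUltrametricDist.norm_tsum_le_of_forall_le_of_nonneg (by positivity) fun n => ?_
  rw [le_div_iff₀ (by positivity)]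
  refine (bd_term hr hC s n l).trans ?_
  have h1 : (‖s‖ / r) ^ n ≤ 1 := pow_le_one₀ (by positivity) ((div_le_one hr).mpr hs.le)
  calc C * (‖s‖ / r) ^ n ≤ C * 1 := by gcongr
    _ = C := mul_one C

theorem Bd.shift [CompleteSpace k] {r : ℝ} {f : PowerSeries k} (hf : Bd r f) {s : k}
    (hs : ‖s‖ < r) : Bd r (shift s f) := by
  have hr : 0 < r := (norm_nonneg s).trans_lt hs
  obtain ⟨C, hC0, hC⟩ := hf.nonneg_bound hr.le
  exact ⟨C, bd_shift hC0 hC hs⟩

theorem ev_shift [CompleteSpace k] {r : ℝ} {f : PowerSeries k} (hf : Bd r f) {s t : k}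
    (hs : ‖s‖ < r) (ht : ‖t‖ < r) : ev (shift s f) t = ev f (s + t) := by
  have hr : 0 < r := (norm_nonneg s).trans_lt hs
  obtain ⟨C, hC0, hC⟩ := hf.nonneg_bound hr.le
  obtain ⟨T, hTdef⟩ : ∃ T : ℕ → ℕ → k, ∀ n l, T n l = ((n + l).choose l : k) * coeff (n + l) f *
    s ^ n * t ^ l := ⟨_, fun _ _ => rfl⟩
  have hT : Summable (Function.uncurry T) := by
    have h1 : Summable fun x : ℕ × ℕ => C * ((‖s‖ / r) ^ x.1 * (‖t‖ / r) ^ x.2) :=
      ((summable_geom hs).mul_of_nonneg (summable_geom ht) (fun _ => by positivity)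
        (fun _ => by positivity)).mul_left C
    refine Summable.of_norm_bounded h1 fun x => ?_
    have h2 := bd_term hr hC s x.1 x.2
    calc ‖Function.uncurry T x‖
          = ‖((x.1 + x.2).choose x.2 : k) * coeff (x.1 + x.2) f * s ^ x.1‖ * ‖t‖ ^ x.2 := by
          simp only [Function.uncurry, hTdef, norm_mul, norm_pow]
      _ = (‖((x.1 + x.2).choose x.2 : k) * coeff (x.1 + x.2) f * s ^ x.1‖ * r ^ x.2) *
          (‖t‖ / r) ^ x.2 := by rw [div_pow]; field_simp
      _ ≤ (C * (‖s‖ / r) ^ x.1) * (‖t‖ / r) ^ x.2 := by gcongr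
      _ = _ := by ring
  have h3 : ∑' l, ∑' n, T n l = ev (LemD_323.shift s f) t := by
    unfold ev
    congr 1
    funext l
    rw [coeff_shift, ← tsum_mul_right]
    congr 1
    funext n
    exact hTdef n l
  have h5 : ∑' x : ℕ × ℕ, Function.uncurry T x = ev f (s + t) := by
    have h6 : Summable (Function.uncurry T ∘ Finset.HasAntidiagonal.sigmaAntidiagonalEquivProd) :=
      Finset.HasAntidiagonal.sigmaAntidiagonalEquivProd.summable_iff.mpr hT
    rw [← Finset.HasAntidiagonal.sigmaAntidiagonalEquivProd.tsum_eq (Function.uncurry T)]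
    rw [show (∑' c, Function.uncurry T (Finset.HasAntidiagonal.sigmaAntidiagonalEquivProd c)) =
      ∑' c, (Function.uncurry T ∘ Finset.HasAntidiagonal.sigmaAntidiagonalEquivProd) c from rfl,
      h6.tsum_sigma' (fun n => (hasSum_fintype _).summable)]
    unfold ev
    congr 1
    funext N
    rw [tsum_fintype, add_pow, Finset.mul_sum]
    have h7 : ∑ b : Finset.HasAntidiagonal.antidiagonal N, (Function.uncurry T ∘
        Finset.HasAntidiagonal.sigmaAntidiagonalEquivProd) ⟨N, b⟩ =
        ∑ b ∈ Finset.HasAntidiagonal.antidiagonal N, T b.1 b.2 := by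
      rw [← Finset.sum_coe_sort (Finset.HasAntidiagonal.antidiagonal N) (fun b => T b.1 b.2)]
      rfl
    rw [h7, Finset.Nat.sum_antidiagonal_eq_sum_range_succ_mk]
    refine Finset.sum_congr rfl fun m hm => ?_
    have hm' : m ≤ N := Nat.lt_succ_iff.mp (Finset.mem_range.mp hm)
    have h8 : m + (N - m) = N := by omega
    rw [hTdef, h8, Nat.choose_symm hm']
    ring
  rw [← h3, hT.tsum_comm, ← h5, hT.tsum_prod]
  rfl

end

end Crest.Agent.R013.LemD_323
end

-- ▼ part R013/LemD4_323

/-!
# Lemma D of #2097 (S1), fourth part: Lemma D for convergent power series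
-/

namespace Crest.Agent.R013.LemD_323

open Filter Topology PowerSeries

variable {F : Type*} [NontriviallyNormedField F]
variable {k : Type*} [NontriviallyNormedField k] [NormedAlgebra F k]

/-- the formal multilinear series of a power series along the subfield `F` -/
noncomputable def fms (F : Type*) [NontriviallyNormedField F] [NormedAlgebra F k]
    (f : PowerSeries k) : FormalMultilinearSeries F F k :=
  fun n => ContinuousMultilinearMap.mkPiRing F (Fin n) (coeff n f)

theorem norm_fms (f : PowerSeries k) (n : ℕ) : ‖fms F f n‖ = ‖coeff n f‖ := by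
  simp [fms]

variable [IsUltrametricDist k] [CompleteSpace k]

theorem hasFPS {r : ℝ} {f : PowerSeries k} (hf : Bd r f) {s : F} (hs : ‖s‖ < r) :
    HasFPowerSeriesOnBall (fun z : F => ev f (algebraMap F k z))
      (fms F (shift (algebraMap F k s) f)) s (ENNReal.ofReal r) := by
  have hr : 0 < r := (norm_nonneg s).trans_lt hs
  have hs' : ‖algebraMap F k s‖ < r := by rwa [norm_algebraMap']
  obtain ⟨C, hC0, hC⟩ := hf.nonneg_bound hr.le
  refine ⟨?_, by simpa using hr, ?_⟩
  · have h1 := (fms F (shift (algebraMap F k s) f)).le_radius_of_bound C (r := r.toNNReal)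
      (fun n => by
        rw [norm_fms, Real.coe_toNNReal r hr.le]
        exact bd_shift hC0 hC hs' n)
    exact h1
  · intro y hy
    have hy' : ‖y‖ < r := by
      have h2 : y ∈ Metric.eball (0 : F) (ENNReal.ofReal r) := hy
      rw [Metric.eball_ofReal] at h2
      simpa using h2
    have hy'' : ‖algebraMap F k y‖ < r := by rwa [norm_algebraMap']
    have h3 := (summable_ev (hf.shift hs') hy'').hasSum
    rw [show (∑' n, coeff n (shift (algebraMap F k s) f) * (algebraMap F k y) ^ n) =
      ev (shift (algebraMap F k s) f) (algebraMap F k y) from rfl,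
      ev_shift hf hs' hy'', ← map_add] at h3
    convert! h3 using 2 with n
    simp [fms, Algebra.smul_def, mul_comm]

theorem analyticAt_ev {r : ℝ} {f : PowerSeries k} (hf : Bd r f) {s : F} (hs : ‖s‖ < r) :
    AnalyticAt F (fun z : F => ev f (algebraMap F k z)) s :=
  (hasFPS hf hs).analyticAt

theorem iteratedDeriv_ev {r : ℝ} {f : PowerSeries k} (hf : Bd r f) {s : F} (hs : ‖s‖ < r)
    (l : ℕ) : iteratedDeriv l (fun z : F => ev f (algebraMap F k z)) s =
      (l.factorial : k) * coeff l (shift (algebraMap F k s) f) := by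
  have h1 := (hasFPS hf hs).factorial_smul (1 : F) l
  rw [iteratedDeriv_eq_iteratedFDeriv, ← h1]
  simp [fms]

/-- a convergent power series whose values near `0 ∈ F` vanish is zero -/
theorem eq_zero_of_ev {r : ℝ} (hr : 0 < r) {f : PowerSeries k} (hf : Bd r f)
    (h : ∀ᶠ z in 𝓝 (0 : F), ev f (algebraMap F k z) = 0) : f = 0 := by
  have hs : ‖(0 : F)‖ < r := by simpa using hr
  have h1 : HasFPowerSeriesAt (fun z : F => ev f (algebraMap F k z))
      (fms F (shift (algebraMap F k 0) f)) 0 := (hasFPS hf hs).hasFPowerSeriesAt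
  have h2 : HasFPowerSeriesAt (0 : F → k) (fms F (shift (algebraMap F k 0) f)) 0 :=
    h1.congr (by filter_upwards [h] with z hz; exact hz)
  have h3 := h2.eq_zero
  ext n
  have h4 : fms F (shift (algebraMap F k 0) f) n = 0 := by rw [h3]; rfl
  have h5 : coeff n (shift (algebraMap F k (0 : F)) f) = 0 := by
    have := norm_fms (F := F) (shift (algebraMap F k (0 : F)) f) n
    rw [h4, norm_zero] at this
    exact norm_eq_zero.mp this.symm
  rw [coeff_shift, tsum_eq_single 0] at h5
  · simpa using h5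
  · intro b hb
    simp [hb]

/-- LEMMA D (power series form).  `F` complete field of characteristic `0`
(for example `ℚ_[p]`), `k/F` finite, `U` a finite dimensional `F`-space, `f : U → k⟦X⟧` injective
`F`-linear with values convergent on a disc of radius `r`, `m [k:F] < dim U`.  Then there are
arbitrarily small `s ∈ F` and `u ∈ U` such that the Taylor expansion of `f u` at `s` has order
exactly `m`. -/
theorem lemD_ps [CompleteSpace F] [CharZero F] [FiniteDimensional F k]
    {U : Type*} [AddCommGroup U] [Module F U] [FiniteDimensional F U]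
    (f : U →ₗ[F] PowerSeries k) (hinj : Function.Injective f) {r : ℝ} (hr : 0 < r)
    (hf : ∀ u, Bd r (f u)) (m : ℕ) (hm : m * Module.finrank F k < Module.finrank F U)
    {ε : ℝ} (hε : 0 < ε) :
    ∃ s : F, ‖s‖ < ε ∧ ∃ u : U,
      (∀ l < m, coeff l (shift (algebraMap F k s) (f u)) = 0) ∧
        coeff m (shift (algebraMap F k s) (f u)) ≠ 0 := by
  classical
  have : CharZero k := charZero_of_injective_algebraMap (algebraMap F k).injective
  let B := Module.finBasis F U
  have hev : ∀ (c : Fin (Module.finrank F U) → F) (z : F), ‖z‖ < r →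
      ∑ i, c i • ev (f (B i)) (algebraMap F k z) = ev (f (∑ i, c i • B i)) (algebraMap F k z) := by
    intro c z hz
    have hz' : ‖algebraMap F k z‖ < r := by rwa [norm_algebraMap']
    unfold ev
    simp_rw [← tsum_const_smul'']
    rw [← Summable.tsum_finsetSum]
    · congr 1
      funext n
      simp [map_sum, Finset.sum_mul]
    · intro i _
      exact (summable_ev (hf (B i)) hz').const_smul (c i)
  have hball : ∀ᶠ z in 𝓝 (0 : F), ‖z‖ < r := by
    filter_upwards [Metric.ball_mem_nhds (0 : F) hr] with z hz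
    simpa using hz
  have hball' : ∀ᶠ z in 𝓝 (0 : F), ‖z‖ < ε := by
    filter_upwards [Metric.ball_mem_nhds (0 : F) hε] with z hz
    simpa using hz
  have key := lemD' (F := F) (V := k) (fun i z => ev (f (B i)) (algebraMap F k z))
    (fun i => analyticAt_ev (hf (B i)) (by simpa using hr)) (fun c hc => ?_) m (by simpa using hm)
  · obtain ⟨s, ⟨c, h1, h2⟩, hs1, hs2⟩ := (key.and_eventually (hball.and hball')).exists
    have h3 : (fun z : F => ∑ i, c i • ev (f (B i)) (algebraMap F k z)) =ᶠ[𝓝 s]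
        fun z => ev (f (∑ i, c i • B i)) (algebraMap F k z) := by
      have h4 : ∀ᶠ z in 𝓝 s, ‖z‖ < r := by
        have := (isOpen_lt continuous_norm continuous_const (f := fun z : F => ‖z‖)
          (g := fun _ => r)).mem_nhds hs1
        exact this
      filter_upwards [h4] with z hz
      exact hev c z hz
    refine ⟨s, hs2, ∑ i, c i • B i, fun l hl => ?_, fun h0 => ?_⟩
    · have h5 := h1 l hl
      rw [h3.iteratedDeriv_eq l, iteratedDeriv_ev (hf _) hs1 l] at h5
      rcases mul_eq_zero.mp h5 with h6 | h6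
      · exact absurd h6 (Nat.cast_ne_zero.mpr l.factorial_ne_zero)
      · exact h6
    · apply h2
      rw [h3.iteratedDeriv_eq m, iteratedDeriv_ev (hf _) hs1 m, h0, mul_zero]
  · have h4 : f (∑ i, c i • B i) = 0 := by
      apply eq_zero_of_ev (F := F) hr (hf _)
      filter_upwards [hc, hball] with z e1 e2
      rw [← hev c z e2]
      exact e1
    have h5 : ∑ i, c i • B i = 0 := hinj (by rw [h4, map_zero])
    funext i
    exact (Fintype.linearIndependent_iff.mp B.linearIndependent) c h5 i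


end Crest.Agent.R013.LemD_323
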