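import Mathlib
import Crest.Agent.R013.KAS2_940
import Crest.Agent.R013.LemD4_323
import Crest.Agent.R013.Gl2_946

-- ▼ part R013/KAS1_940
section

/-!
# R013 / KAS1: Kummer → Artin–Schreier in a valued field (helper940)

`L` a field with a valuation `w`, `lam ^ (p-1) = -p`, `w lam < 1`.
* `step`: `y ^ p = 1 + lam ^ p * a + e` with `w a ≤ 1`, `w e < w (lam ^ p)` implies `y = 1 + lam * z`,
  `w z ≤ 1` and `w (z ^ p - z - a) < 1`.
* `exists_root`: version with `y ^ (p ^ (n+1)) = (c * g) ^ (p ^ (n+1)) * E ^ (p ^ n)`.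
-/

set_option autoImplicit false

namespace Crest.Agent.R013.KAS1_940

open Finset

variable {L : Type*} [Field L]

/-- the binomial expansion with `p * lam = - lam ^ p` -/
theorem expand {p : ℕ} (hp : p.Prime) {lam : L} (hlam : lam ^ (p - 1) = -(p : L)) (z : L) :
    (1 + lam * z) ^ p = 1 + lam ^ p * (z ^ p - z) +
      ∑ i ∈ range (p - 2), (lam * z) ^ (i + 2) * ((p.choose (i + 2) : ℕ) : L) := by
  obtain ⟨q, rfl⟩ : ∃ q, p = q + 2 := ⟨p - 2, by have := hp.two_le; omega⟩
  have h1 : lam ^ (q + 2) = -((q + 2 : ℕ) : L) * lam := by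
    have : q + 2 - 1 = q + 1 := rfl
    rw [this] at hlam
    rw [pow_succ, hlam]
  rw [add_comm (1 : L), add_pow, sum_range_succ, sum_range_succ', sum_range_succ']
  simp only [one_pow, mul_one]
  have h2 : q + 2 - 2 = q := rfl
  rw [h2]
  simp only [Nat.choose_self, Nat.cast_one, mul_one, zero_add, pow_zero, Nat.choose_zero_right,
    Nat.choose_one_right, pow_one]
  have h3 : lam ^ (q + 2) * (z ^ (q + 2) - z) = (lam * z) ^ (q + 2) + ((q + 2 : ℕ) : L) * lam * z := by
    rw [mul_sub, ← mul_pow, h1]; ring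
  rw [h3]
  have h4 : ∀ i, i + 1 + 1 = i + 2 := fun _ => rfl
  simp only [h4]
  ring

variable {Γ : Type*} [LinearOrderedCommGroupWithZero Γ] (w : Valuation L Γ)

theorem w_natCast_le (n : ℕ) : w (n : L) ≤ 1 := by
  induction n with
  | zero => simp
  | succ n ih =>
    push_cast
    exact (w.map_add _ _).trans (max_le ih (by simp))

/-- the middle terms are small -/
theorem mid_lt {p : ℕ} (hp : p.Prime) {lam : L} (hlam : lam ^ (p - 1) = -(p : L)) (hlam0 : lam ≠ 0)
    (hw : w lam < 1) (z : L) {B : Γ} (hB : w (lam ^ p) ≤ B) (hB2 : w (lam ^ p * z ^ p) ≤ B) :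
    w (∑ i ∈ range (p - 2), (lam * z) ^ (i + 2) * ((p.choose (i + 2) : ℕ) : L)) < B := by
  have hl0 : w lam ≠ 0 := (Valuation.ne_zero_iff w).mpr hlam0
  have hlpos : 0 < w lam := zero_lt_iff.mpr hl0
  have hB0 : B ≠ 0 := by
    rintro rfl
    rw [le_zero_iff, map_pow] at hB
    exact hl0 (pow_eq_zero_iff hp.ne_zero |>.mp hB)
  refine w.map_sum_lt hB0 fun i hi => ?_
  rw [mem_range] at hi
  have hip : i + 2 < p := by omega
  obtain ⟨c, hc⟩ := hp.dvd_choose_self (by omega : i + 2 ≠ 0) hip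
  rw [hc]
  push_cast
  have hpw : w (p : L) = w lam ^ (p - 1) := by
    rw [← map_pow, hlam, Valuation.map_neg]
  rw [map_mul, map_mul, map_pow, map_mul, hpw]
  -- the case distinction on `w z`
  have key : w lam ^ p * (w lam * w z ^ (i + 2)) * w (c : L) < B := by
    have hc1 := w_natCast_le w c
    rcases le_or_gt (w z) 1 with hz | hz
    · calc w lam ^ p * (w lam * w z ^ (i + 2)) * w (c : L)
          ≤ w lam ^ p * (w lam * 1) * 1 := by
            gcongr
            exact pow_le_one' hz _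
        _ < w lam ^ p * 1 := by
            rw [mul_one, mul_one]
            exact mul_lt_mul_of_pos_left hw (pow_pos hlpos _)
        _ ≤ B := by rw [mul_one, ← map_pow]; exact hB
    · calc w lam ^ p * (w lam * w z ^ (i + 2)) * w (c : L)
          ≤ w lam ^ p * (w lam * w z ^ p) * 1 := by
            gcongr
            · exact hz.le
        _ < w lam ^ p * (1 * w z ^ p) := by
            rw [mul_one]
            have : 0 < w z ^ p := pow_pos (lt_trans zero_lt_one hz) _
            exact mul_lt_mul_of_pos_left (mul_lt_mul_of_pos_right hw this) (pow_pos hlpos _)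
        _ ≤ B := by rw [one_mul, ← map_pow, ← map_pow, ← map_mul]; exact hB2
  refine lt_of_le_of_lt ?_ key
  have e : w lam ^ p = w lam ^ (p - 1) * w lam := by
    rw [← pow_succ]; congr 1; have := hp.two_le; omega
  have h2 : w lam ^ (i + 2) ≤ w lam * w lam := by
    calc w lam ^ (i + 2) = w lam ^ i * (w lam * w lam) := by rw [pow_add, sq]
      _ ≤ 1 * (w lam * w lam) := by gcongr; exact pow_le_one' hw.le _
      _ = _ := one_mul _
  calc (w lam * w z) ^ (i + 2) * (w lam ^ (p - 1) * w (c : L))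
      = w lam ^ (p - 1) * (w lam ^ (i + 2) * w z ^ (i + 2)) * w (c : L) := by
        rw [mul_pow]; simp only [mul_comm, mul_assoc]
    _ ≤ w lam ^ (p - 1) * ((w lam * w lam) * w z ^ (i + 2)) * w (c : L) := by gcongr
    _ = _ := by rw [e]; simp only [mul_assoc]

/-- **Kummer → Artin–Schreier** -/
theorem step {p : ℕ} (hp : p.Prime) {lam : L} (hlam : lam ^ (p - 1) = -(p : L)) (hlam0 : lam ≠ 0)
    (hw : w lam < 1) {y a e : L} (ha : w a ≤ 1) (he : w e < w (lam ^ p))
    (hy : y ^ p = 1 + lam ^ p * a + e) :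
    ∃ z : L, y = 1 + lam * z ∧ w z ≤ 1 ∧ w (z ^ p - z - a) < 1 := by
  refine ⟨(y - 1) / lam, ?_, ?_⟩
  · field_simp; ring
  set z := (y - 1) / lam with hz
  have hyz : y = 1 + lam * z := by rw [hz]; field_simp; ring
  have hlp0 : w (lam ^ p) ≠ 0 := (Valuation.ne_zero_iff w).mpr (pow_ne_zero _ hlam0)
  have hlppos : 0 < w (lam ^ p) := zero_lt_iff.mpr hlp0
  rw [hyz, expand hp hlam] at hy
  set R := ∑ i ∈ range (p - 2), (lam * z) ^ (i + 2) * ((p.choose (i + 2) : ℕ) : L) with hR
  have h1 : lam ^ p * (z ^ p - z) = lam ^ p * a + e - R := by linear_combination hy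
  have hz1 : w z ≤ 1 := by
    by_contra hcon
    rw [not_le] at hcon
    have hzp : w (lam ^ p * z ^ p) ≠ 0 := by
      rw [map_mul, map_pow w z]
      exact mul_ne_zero hlp0 (pow_ne_zero _ (ne_of_gt (lt_trans zero_lt_one hcon)))
    have hB : w (lam ^ p) < w (lam ^ p * z ^ p) := by
      rw [map_mul, map_pow w z]
      have : 1 < w z ^ p := one_lt_pow₀ hcon hp.ne_zero
      calc w (lam ^ p) = w (lam ^ p) * 1 := (mul_one _).symm
        _ < _ := mul_lt_mul_of_pos_left this hlppos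
    have hR1 : w R < w (lam ^ p * z ^ p) := mid_lt w hp hlam hlam0 hw z hB.le le_rfl
    have h2 : w (lam ^ p * z) < w (lam ^ p * z ^ p) := by
      rw [map_mul, map_mul, map_pow w z]
      refine mul_lt_mul_of_pos_left ?_ hlppos
      calc w z = w z ^ 1 := (pow_one _).symm
        _ < w z ^ p := pow_lt_pow_right₀ hcon hp.one_lt
    have h3 : lam ^ p * z ^ p = lam ^ p * a + e - R + lam ^ p * z := by linear_combination h1
    have h4 : w (lam ^ p * a) < w (lam ^ p * z ^ p) := by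
      refine lt_of_le_of_lt ?_ hB
      rw [map_mul]
      calc w (lam ^ p) * w a ≤ w (lam ^ p) * 1 := by gcongr
        _ = _ := mul_one _
    have h5 : w (lam ^ p * a + e - R + lam ^ p * z) < w (lam ^ p * z ^ p) :=
      w.map_add_lt (w.map_sub_lt (w.map_add_lt h4 (he.trans hB)) hR1) h2
    rw [← h3] at h5
    exact lt_irrefl _ h5
  refine ⟨hz1, ?_⟩
  have hB2 : w (lam ^ p * z ^ p) ≤ w (lam ^ p) := by
    rw [map_mul, map_pow w z]
    calc w (lam ^ p) * w z ^ p ≤ w (lam ^ p) * 1 := by gcongr; exact pow_le_one' hz1 _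
      _ = _ := mul_one _
  have hR1 : w R < w (lam ^ p) := mid_lt w hp hlam hlam0 hw z le_rfl hB2
  have h6 : w (lam ^ p * (z ^ p - z - a)) < w (lam ^ p) := by
    have : lam ^ p * (z ^ p - z - a) = e - R := by linear_combination h1
    rw [this]
    exact w.map_sub_lt he hR1
  rw [map_mul] at h6
  by_contra hcon
  rw [not_lt] at hcon
  have : w (lam ^ p) * 1 ≤ w (lam ^ p) * w (z ^ p - z - a) := by gcongr
  rw [mul_one] at this
  exact absurd h6 (not_lt.mpr this)

/-- extraction of a `p ^ (n+1)`-th root: if `y ^ (p ^ (n+1)) = u ^ (p ^ (n+1)) * E ^ (p ^ n)` with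
`u ≠ 0`, `E ≠ 0` and every `p ^ n`-th root of unity of `L` is a `p`-th power, then some
`y / (u * xi)` is a `p`-th root of `E`. -/
theorem exists_root {p n : ℕ} (hp : p ≠ 0) {y u E : L} (hu : u ≠ 0) (hE : E ≠ 0)
    (hmu : ∀ x : L, x ^ p ^ n = 1 → ∃ xi : L, xi ^ p = x)
    (hy : y ^ p ^ (n + 1) = u ^ p ^ (n + 1) * E ^ p ^ n) :
    ∃ xi : L, xi ^ p ^ (n + 1) = 1 ∧ (y / (u * xi)) ^ p = E := by
  have hu1 : u ^ p ^ (n + 1) ≠ 0 := pow_ne_zero _ hu
  have h1 : ((y / u) ^ p / E) ^ p ^ n = 1 := by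
    rw [div_pow, ← pow_mul, ← pow_succ', div_pow, hy, mul_comm, mul_div_cancel_right₀ _ hu1]
    exact div_self (pow_ne_zero _ hE)
  obtain ⟨xi, hxi⟩ := hmu _ h1
  have hxi1 : xi ^ p ^ (n + 1) = 1 := by rw [pow_succ', pow_mul, hxi, h1]
  have hy0 : y ≠ 0 := by
    rintro rfl
    rw [zero_pow (pow_ne_zero _ hp)] at hy
    exact mul_ne_zero hu1 (pow_ne_zero _ hE) hy.symm
  refine ⟨xi, hxi1, ?_⟩
  have h2 : (y / u) ^ p ≠ 0 := pow_ne_zero _ (div_ne_zero hy0 hu)
  rw [← div_div, div_pow, hxi, div_div_eq_mul_div, mul_comm, mul_div_assoc, div_self h2, mul_one]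

end Crest.Agent.R013.KAS1_940
end

-- ▼ part R013/KAS3_940
section

/-!
# R013 / KAS3: Kummer torsors near a point are Artin-Schreier at small circles (helper940)

`kas_main`: `K` ultrametric normed field of char 0, `lam ^ (p-1) = -p`, `u' = (om + eta) u` with
`om` of exact order `i`, `c` with `(om_i / (i+1)) c ^ (i+1) = p ^ n lam ^ p`, `‖c‖` small, `eta` small.
For every valued field `L` receiving the power series bounded at some radius `r1 > ‖c‖`, with
`w ∘ iota ≤` Gauss norm at radius `‖c‖`, every `y` with `y ^ (p ^ (n+1)) = u * b ^ (p ^ (n+1))` gives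
`z ∈ L` with `w (z ^ p - z - (X / c) ^ (i+1)) < 1`.
`as_reduce`: `z ^ p - z = t ^ (p ^ j)` can be replaced by `z ^ p - z = t` modulo the maximal ideal.
-/

set_option autoImplicit false

namespace Crest.Agent.R013.KAS3_940

open PowerSeries Finset
open scoped NNReal
open Crest.Agent.R013.KAS1_940 Crest.Agent.R013.KAS2_940

variable {K : Type*} [NormedField K] [IsUltrametricDist K]

/-- the ring of power series bounded at the radius `r` -/
def bsub (r : ℝ) (hr : 0 < r) : Subring K⟦X⟧ where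
  carrier := {f | ∃ C, Bd r C f}
  mul_mem' := by
    rintro f g ⟨C, hC⟩ ⟨D, hD⟩
    exact ⟨C * D, hC.mul hr hD⟩
  one_mem' := ⟨1, bd_one⟩
  add_mem' := by
    rintro f g ⟨C, hC⟩ ⟨D, hD⟩
    exact ⟨max C D, (hC.mono (le_max_left _ _)).add hr.le (hD.mono (le_max_right _ _))⟩
  zero_mem' := ⟨0, bd_zero le_rfl⟩
  neg_mem' := by
    rintro f ⟨C, hC⟩
    exact ⟨C, hC.neg⟩

theorem mem_bsub {r : ℝ} {hr : 0 < r} {f : K⟦X⟧} {C : ℝ} (h : Bd r C f) : f ∈ bsub r hr := ⟨C, h⟩

theorem C_mem {r : ℝ} {hr : 0 < r} (a : K) : (C a : K⟦X⟧) ∈ bsub r hr := ⟨_, bd_C a⟩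

theorem X_mem {r : ℝ} {hr : 0 < r} : (X : K⟦X⟧) ∈ bsub r hr := by
  have := bd_monomial (K := K) hr.le 1 1
  rw [← X_eq] at this
  exact ⟨_, this⟩

/-- a valued field which receives the power series bounded at radius `r1`, with the Gauss norm at
radius `r` -/
structure GaussPt (r r1 : ℝ) (hr1 : 0 < r1) (L : Type*) [Field L] (w : Valuation L ℝ≥0)
    (iota : (bsub (K := K) r1 hr1) →+* L) : Prop where
  le_of_bd : ∀ (f : bsub (K := K) r1 hr1) (B : ℝ), Bd r B (f : K⟦X⟧) → (w (iota f) : ℝ) ≤ B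
  w_C : ∀ a : K, (w (iota ⟨C a, C_mem a⟩) : ℝ) = ‖a‖

variable [CharZero K] [Algebra ℚ K]

theorem kas_main {p : ℕ} (hp : p.Prime) {lam : K} (hlam : lam ^ (p - 1) = -(p : K))
    (hlam1 : ‖lam‖ < 1) {om : K⟦X⟧} {R D : ℝ} (hR : 0 < R) (hom : Bd R D om) {i : ℕ}
    (h0 : ∀ m < i, coeff m om = 0) (hi : coeff i om ≠ 0) :
    ∃ rs : ℝ, 0 < rs ∧ ∀ (n : ℕ) (c : K), c ≠ 0 → ‖c‖ < rs →
      coeff i om / ((i + 1 : ℕ) : K) * c ^ (i + 1) = (p : K) ^ n * lam ^ p →
      (∃ zeta : K, IsPrimitiveRoot zeta (p ^ (n + 1))) →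
      ∃ (r1 : ℝ) (hr1 : 0 < r1), ‖c‖ < r1 ∧ r1 < rs ∧
        ∀ eta : K⟦X⟧, Bd R (‖(p : K)‖ ^ (n + 1) / R) eta →
        ∀ u : K⟦X⟧, constantCoeff u = 1 → d⁄dX K u = (om + eta) * u →
        ∃ hu : u ∈ bsub (K := K) r1 hr1,
        ∀ (L : Type*) [Field L] (w : Valuation L ℝ≥0) (iota : (bsub (K := K) r1 hr1) →+* L),
          GaussPt ‖c‖ r1 hr1 L w iota → ∀ (y b : L), b ≠ 0 →
            y ^ p ^ (n + 1) = iota ⟨u, hu⟩ * b ^ p ^ (n + 1) →
            ∃ z : L, w z ≤ 1 ∧ w (z ^ p - z - (iota ⟨X, X_mem⟩ / iota ⟨C c, C_mem c⟩) ^ (i + 1)) < 1 := by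
  have hlam0 : lam ≠ 0 := by
    rintro rfl
    rw [zero_pow (by have := hp.two_le; omega)] at hlam
    exact hp.ne_zero (by exact_mod_cast (neg_eq_zero.mp hlam.symm))
  have hl : ‖lam‖ ^ (p - 1) = ‖(p : K)‖ := by rw [← norm_pow, hlam, norm_neg]
  have hl0 : 0 < ‖lam‖ := norm_pos_iff.mpr hlam0
  obtain ⟨rs, hrs, H⟩ := kas_formal hp hl0 hlam1 hl hR hom h0 hi
  refine ⟨rs, hrs, fun n c hc hcrs hcn hzeta => ?_⟩
  have hcn' : ‖coeff i om / ((i + 1 : ℕ) : K)‖ * ‖c‖ ^ (i + 1) = ‖(p : K)‖ ^ n * ‖lam‖ ^ p := by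
    rw [← norm_pow, ← norm_mul, hcn, norm_mul, norm_pow, norm_pow]
  obtain ⟨r1, hr1a, hr1b, H⟩ := H n ‖c‖ (norm_pos_iff.mpr hc) hcrs hcn'
  have hr1 : 0 < r1 := (norm_nonneg c).trans_lt hr1a
  refine ⟨r1, hr1, hr1a, hr1b, fun eta heta u hu0 hu => ?_⟩
  obtain ⟨A, A2, B, e, huAB, hAA2, hA2, hBe, hA0, hB0, hA1, hB1, he1, th, hth, he⟩ := H eta heta u hu0 hu
  have huB : Bd r1 (1 ^ p ^ (n + 1) * 1 ^ p ^ n) u := by
    rw [huAB]; exact (hA1.pow hr1 _).mul hr1 (hB1.pow hr1 _)
  refine ⟨mem_bsub huB, ?_⟩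
  intro L _ w iota hG y b hb hy
  have hpK : (p : K) ≠ 0 := Nat.cast_ne_zero.mpr hp.ne_zero
  set A' : bsub (K := K) r1 hr1 := ⟨A, mem_bsub hA1⟩ with hA'
  set B' : bsub (K := K) r1 hr1 := ⟨B, mem_bsub hB1⟩ with hB'
  set e' : bsub (K := K) r1 hr1 := ⟨e, mem_bsub he1⟩ with he'
  set X' : bsub (K := K) r1 hr1 := ⟨X, X_mem⟩ with hX'
  have hC : ∀ a : K, (C a : K⟦X⟧) ∈ bsub r1 hr1 := fun a => C_mem a
  -- the ring homomorphism K → L
  let phi : K →+* L := iota.comp ((C (R := K)).codRestrict (bsub r1 hr1) hC)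
  have hphi : ∀ a : K, iota ⟨C a, C_mem a⟩ = phi a := fun a => rfl
  have hwphi : ∀ a : K, (w (phi a) : ℝ) = ‖a‖ := fun a => hG.w_C a
  have hu1 : iota ⟨u, mem_bsub huB⟩ = iota A' ^ p ^ (n + 1) * iota B' ^ p ^ n := by
    rw [← map_pow, ← map_pow, ← map_mul]
    congr 1
    exact Subtype.ext huAB
  have hB1' : iota B' = 1 + phi lam ^ p * (iota X' / phi c) ^ (i + 1) + iota e' := by
    have h1 : (B' : bsub (K := K) r1 hr1) =
        1 + ((C (R := K)).codRestrict (bsub r1 hr1) hC) (lam ^ p / c ^ (i + 1)) * X' ^ (i + 1) + e' := by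
      apply Subtype.ext
      rw [hB']
      simp only
      rw [hBe]
      simp only [Subring.coe_add, Subring.coe_one, Subring.coe_mul, Subring.coe_pow, he', hX']
      congr 2
      have h2 : coeff i om / ((i + 1 : ℕ) : K) / (p : K) ^ n = lam ^ p / c ^ (i + 1) := by
        rw [div_eq_div_iff (pow_ne_zero _ hpK) (pow_ne_zero _ hc), hcn]; ring
      rw [h2]
      ext m
      show _ = coeff m (C (lam ^ p / c ^ (i + 1)) * X ^ (i + 1))
      rw [coeff_monomial, coeff_C_mul_X_pow]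
    rw [h1, map_add, map_add, map_one, map_mul, map_pow]
    congr 2
    show phi (lam ^ p / c ^ (i + 1)) * _ = _
    rw [map_div₀, map_pow, map_pow, div_pow]
    have hc' : phi c ≠ 0 := (map_ne_zero phi).mpr hc
    field_simp
  -- nonvanishing
  have hwe : w (iota e') < w (phi lam ^ p) := by
    rw [← NNReal.coe_lt_coe, map_pow, NNReal.coe_pow, hwphi]
    exact (hG.le_of_bd e' th he).trans_lt hth
  have hwlam : w (phi lam) < 1 := by
    rw [← NNReal.coe_lt_coe, hwphi]; exact_mod_cast hlam1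
  have hlamL : phi lam ^ (p - 1) = -(p : L) := by
    rw [← map_pow, hlam, map_neg, map_natCast]
  have hlamL0 : phi lam ≠ 0 := (map_ne_zero phi).mpr hlam0
  have hX1 : (w (iota X') : ℝ) ≤ ‖c‖ := by
    refine hG.le_of_bd X' ‖c‖ ?_
    have := bd_monomial (K := K) (norm_nonneg c) 1 1
    rw [norm_one, one_mul, pow_one, ← X_eq] at this
    exact this
  have hwt : w (iota X' / phi c) ≤ 1 := by
    rw [map_div₀, ← NNReal.coe_le_coe, NNReal.coe_div, hwphi, NNReal.coe_one]
    exact (div_le_one (norm_pos_iff.mpr hc)).mpr hX1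
  have hwa : w ((iota X' / phi c) ^ (i + 1)) ≤ 1 := by
    rw [map_pow]; exact pow_le_one' hwt _
  have hwlp : w (phi lam ^ p) < 1 := by
    rw [map_pow]; exact pow_lt_one₀ zero_le hwlam hp.ne_zero
  -- A and B are nonzero in L
  have hwB : w (iota B') = 1 := by
    have h1 : w (phi lam ^ p * (iota X' / phi c) ^ (i + 1)) < 1 := by
      rw [map_mul]
      calc w (phi lam ^ p) * w ((iota X' / phi c) ^ (i + 1)) ≤ w (phi lam ^ p) * 1 := by gcongr
        _ < 1 := by rwa [mul_one]
    rw [hB1', add_assoc, add_comm]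
    have h2 : w (phi lam ^ p * (iota X' / phi c) ^ (i + 1) + iota e') < w (1 : L) := by
      rw [map_one]
      exact w.map_add_lt h1 (hwe.trans hwlp)
    rw [Valuation.map_add_eq_of_lt_right _ h2, map_one]
  have hB0' : iota B' ≠ 0 := by
    intro h; rw [h, map_zero] at hwB; exact zero_ne_one hwB
  have hA0' : iota A' ≠ 0 := by
    intro h
    have h1 : A' * ⟨A2, mem_bsub hA2⟩ = 1 := Subtype.ext hAA2
    have h2 := congrArg iota h1
    rw [map_mul, h, zero_mul, map_one] at h2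
    exact zero_ne_one h2
  -- the root
  have hmuL : ∀ x : L, x ^ p ^ n = 1 → ∃ xi : L, xi ^ p = x := by
    intro x hx
    obtain ⟨zeta, hzeta⟩ := hzeta
    have hz : IsPrimitiveRoot (phi zeta) (p ^ (n + 1)) := hzeta.map_of_injective phi.injective
    have : NeZero (p ^ (n + 1)) := ⟨pow_ne_zero _ hp.ne_zero⟩
    have hz1 : IsPrimitiveRoot (phi zeta ^ p) (p ^ n) :=
      hz.pow (pow_pos hp.pos _) (by rw [pow_succ, mul_comm])
    have : NeZero (p ^ n) := ⟨pow_ne_zero _ hp.ne_zero⟩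
    obtain ⟨k, _, hk⟩ := hz1.eq_pow_of_pow_eq_one hx
    exact ⟨phi zeta ^ k, by rw [← hk, ← pow_mul, ← pow_mul, mul_comm]⟩
  have hy' : y ^ p ^ (n + 1) = (iota A' * b) ^ p ^ (n + 1) * iota B' ^ p ^ n := by
    rw [hy, hu1, mul_pow]; ring
  obtain ⟨xi, hxi, hroot⟩ := exists_root hp.ne_zero (mul_ne_zero hA0' hb) hB0' hmuL hy'
  rw [hB1'] at hroot
  obtain ⟨z, _, hz1, hz2⟩ := step w hp hlamL hlamL0 hwlam hwa hwe hroot
  exact ⟨z, hz1, hz2⟩

omit [CharZero K] [Algebra ℚ K] [IsUltrametricDist K] [NormedField K] in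
theorem sub_pow_prime {L : Type*} [Field L] (w : Valuation L ℝ≥0) {p : ℕ} (hp : p.Prime)
    (hwp : w (p : L) < 1) {z s : L} (hz : w z ≤ 1) (hs : w s ≤ 1) :
    w ((z - s) ^ p - (z ^ p - s ^ p)) < 1 := by
  obtain ⟨r, hr⟩ := exists_add_pow_prime_eq hp (⟨z, hz⟩ : w.integer) (-⟨s, hs⟩ : w.integer)
  obtain ⟨r', hr'⟩ : ∃ r' : w.integer, (-(⟨s, hs⟩ : w.integer)) ^ p = -(⟨s, hs⟩ : w.integer) ^ p + p * r' := by
    rcases hp.eq_two_or_odd' with h | h
    · subst h
      exact ⟨(⟨s, hs⟩ : w.integer) ^ 2, by push_cast; ring⟩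
    · exact ⟨0, by rw [h.neg_pow, mul_zero, add_zero]⟩
  have h1 : (z - s) ^ p - (z ^ p - s ^ p) =
      (p : L) * ((⟨z, hz⟩ * -⟨s, hs⟩ * r + r' : w.integer) : L) := by
    have h2 := congrArg (Subtype.val : w.integer → L) hr
    have h3 := congrArg (Subtype.val : w.integer → L) hr'
    push_cast at h2 h3
    rw [← sub_eq_add_neg] at h2
    push_cast
    rw [h2, h3]; ring
  rw [h1, map_mul]
  calc w (p : L) * w ((⟨z, hz⟩ * -⟨s, hs⟩ * r + r' : w.integer) : L) ≤ w (p : L) * 1 := by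
        gcongr
        exact (⟨z, hz⟩ * -⟨s, hs⟩ * r + r' : w.integer).2
    _ < 1 := by rwa [mul_one]

omit [CharZero K] [Algebra ℚ K] [IsUltrametricDist K] [NormedField K] in
/-- `z ^ p - z = t ^ (p ^ j)` can be replaced by `z ^ p - z = t` -/
theorem as_reduce {L : Type*} [Field L] (w : Valuation L ℝ≥0) {p : ℕ} (hp : p.Prime)
    (hwp : w (p : L) < 1) {t : L} (ht : w t ≤ 1) (j : ℕ) :
    ∀ z : L, w z ≤ 1 → w (z ^ p - z - t ^ p ^ j) < 1 →
      ∃ z' : L, w z' ≤ 1 ∧ w (z' ^ p - z' - t) < 1 := by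
  induction j with
  | zero =>
    intro z hz h
    rw [pow_zero, pow_one] at h
    exact ⟨z, hz, h⟩
  | succ j ih =>
    intro z hz h
    have hs : w (t ^ p ^ j) ≤ 1 := by rw [map_pow]; exact pow_le_one' ht _
    refine ih (z - t ^ p ^ j) ((w.map_sub _ _).trans (max_le hz hs)) ?_
    have h1 := sub_pow_prime w hp hwp hz hs
    have h2 : (z - t ^ p ^ j) ^ p - (z - t ^ p ^ j) - t ^ p ^ j =
        ((z - t ^ p ^ j) ^ p - (z ^ p - (t ^ p ^ j) ^ p)) + (z ^ p - z - t ^ p ^ (j + 1)) := by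
      rw [pow_succ p j, pow_mul]; ring
    rw [h2]
    exact w.map_add_lt h1 h

/-- **KAS, final form**: `i + 1 = p ^ j * m`; the residue field of every extension of the Gauss
point at radius `‖c‖` to `L ∋ u ^ (1 / p ^ (n+1))` contains a root of `z ^ p - z = t ^ m`, `t = X / c`. -/
theorem kas {p : ℕ} (hp : p.Prime) {lam : K} (hlam : lam ^ (p - 1) = -(p : K))
    (hlam1 : ‖lam‖ < 1) {om : K⟦X⟧} {R D : ℝ} (hR : 0 < R) (hom : Bd R D om) {i : ℕ}
    (h0 : ∀ m < i, coeff m om = 0) (hi : coeff i om ≠ 0) {j m : ℕ} (hjm : i + 1 = p ^ j * m) :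
    ∃ rs : ℝ, 0 < rs ∧ ∀ (n : ℕ) (c : K), c ≠ 0 → ‖c‖ < rs →
      coeff i om / ((i + 1 : ℕ) : K) * c ^ (i + 1) = (p : K) ^ n * lam ^ p →
      (∃ zeta : K, IsPrimitiveRoot zeta (p ^ (n + 1))) →
      ∃ (r1 : ℝ) (hr1 : 0 < r1), ‖c‖ < r1 ∧ r1 < rs ∧
        ∀ eta : K⟦X⟧, Bd R (‖(p : K)‖ ^ (n + 1) / R) eta →
        ∀ u : K⟦X⟧, constantCoeff u = 1 → d⁄dX K u = (om + eta) * u →
        ∃ hu : u ∈ bsub (K := K) r1 hr1,
        ∀ (L : Type*) [Field L] (w : Valuation L ℝ≥0) (iota : (bsub (K := K) r1 hr1) →+* L),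
          GaussPt ‖c‖ r1 hr1 L w iota → ∀ (y b : L), b ≠ 0 →
            y ^ p ^ (n + 1) = iota ⟨u, hu⟩ * b ^ p ^ (n + 1) →
            ∃ z : L, w z ≤ 1 ∧ w (z ^ p - z - (iota ⟨X, X_mem⟩ / iota ⟨C c, C_mem c⟩) ^ m) < 1 := by
  obtain ⟨rs, hrs, H⟩ := kas_main hp hlam hlam1 hR hom h0 hi
  refine ⟨rs, hrs, fun n c hc hcrs hcn hzeta => ?_⟩
  obtain ⟨r1, hr1, h1, h2, H⟩ := H n c hc hcrs hcn hzeta
  refine ⟨r1, hr1, h1, h2, fun eta heta u hu0 hu => ?_⟩
  obtain ⟨hu', H⟩ := H eta heta u hu0 hu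
  refine ⟨hu', fun L _ w iota hG y b hb hy => ?_⟩
  obtain ⟨z, hz1, hz2⟩ := H L w iota hG y b hb hy
  have hC : ∀ a : K, (C a : K⟦X⟧) ∈ bsub r1 hr1 := fun a => C_mem a
  let phi : K →+* L := iota.comp ((C (R := K)).codRestrict (bsub r1 hr1) hC)
  have hphi : ∀ a : K, iota ⟨C a, C_mem a⟩ = phi a := fun a => rfl
  have hwphi : ∀ a : K, (w (phi a) : ℝ) = ‖a‖ := fun a => hG.w_C a
  have hwp : w (p : L) < 1 := by
    have h3 : (p : L) = phi (p : K) := (map_natCast phi p).symm
    have hl : ‖(p : K)‖ < 1 := by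
      rw [← norm_neg, ← hlam, norm_pow]
      exact pow_lt_one₀ (norm_nonneg _) hlam1 (by have := hp.two_le; omega)
    rw [h3, ← NNReal.coe_lt_coe, hwphi]
    exact_mod_cast hl
  have hX1 : (w (iota ⟨X, X_mem⟩) : ℝ) ≤ ‖c‖ := by
    refine hG.le_of_bd ⟨X, X_mem⟩ ‖c‖ ?_
    have := bd_monomial (K := K) (norm_nonneg c) 1 1
    rw [norm_one, one_mul, pow_one, ← X_eq] at this
    exact this
  have hwt : w (iota ⟨X, X_mem⟩ / iota ⟨C c, C_mem c⟩) ≤ 1 := by
    rw [map_div₀, ← NNReal.coe_le_coe, NNReal.coe_div, hphi, hwphi, NNReal.coe_one]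
    exact (div_le_one (norm_pos_iff.mpr hc)).mpr hX1
  have hwtm : w ((iota ⟨X, X_mem⟩ / iota ⟨C c, C_mem c⟩) ^ m) ≤ 1 := by
    rw [map_pow]; exact pow_le_one' hwt _
  refine as_reduce w hp hwp hwtm j z hz1 ?_
  rw [← pow_mul, mul_comm m, ← hjm]
  exact hz2

end Crest.Agent.R013.KAS3_940
end

-- ▼ part R013/Good1_940
section

/-!
# R013 / Good1: from the local computation KAS to a valuation of the Kummer extension (helper940)

* `ev hr1 x hx : bsub r1 →+* E`, `f ↦ ∑ a_m x ^ m` for `‖x‖ < r1`, `E` complete ultrametric.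
* `specVal` : the spectral norm of an algebraic extension as a valuation in `ℝ≥0`.
* `exists_val_kummer` : `iota : K →+* E` dense, `iota h = ev u * g ^ N`; then every algebraic
  extension `K1 = K(y)`, `y ^ N = h`, has a valuation extending `‖iota ·‖` and `z ∈ K1` with
  `v (z ^ p - z - t ^ m) < 1`.
-/

set_option autoImplicit false

namespace Crest.Agent.R013.Good1_940

open PowerSeries Finset
open scoped NNReal
open Crest.Agent.R013.KAS1_940 Crest.Agent.R013.KAS2_940 Crest.Agent.R013.KAS3_940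

section Ev

variable {k E : Type*} [NormedField k] [IsUltrametricDist k] [NormedField E] [IsUltrametricDist E]
  [NormedAlgebra k E] [CompleteSpace E]

omit [IsUltrametricDist k] [IsUltrametricDist E] [CompleteSpace E] in
theorem summable_norm {r1 C : ℝ} {f : k⟦X⟧} (hf : Bd r1 C f) {x : E} (hx : ‖x‖ < r1) :
    Summable fun m => ‖algebraMap k E (coeff m f) * x ^ m‖ := by
  have hr1 : 0 < r1 := (norm_nonneg x).trans_lt hx
  have hC := hf.nonneg
  refine Summable.of_nonneg_of_le (fun m => norm_nonneg _) (fun m => ?_)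
    ((summable_geometric_of_lt_one (r := ‖x‖ / r1) (by positivity)
      ((div_lt_one hr1).mpr hx)).mul_left C)
  rw [norm_mul, norm_algebraMap', norm_pow, div_pow]
  have h1 := hf m
  calc ‖coeff m f‖ * ‖x‖ ^ m = (‖coeff m f‖ * r1 ^ m) * (‖x‖ ^ m / r1 ^ m) := by field_simp
    _ ≤ C * (‖x‖ ^ m / r1 ^ m) := by gcongr

omit [IsUltrametricDist k] [IsUltrametricDist E] in
theorem tsum_add' {r1 C D : ℝ} {f g : k⟦X⟧} (hf : Bd r1 C f) (hg : Bd r1 D g) {x : E}
    (hx : ‖x‖ < r1) : (∑' m, algebraMap k E (coeff m (f + g)) * x ^ m) =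
      (∑' m, algebraMap k E (coeff m f) * x ^ m) + ∑' m, algebraMap k E (coeff m g) * x ^ m := by
  rw [← ((summable_norm hf hx).of_norm).tsum_add ((summable_norm hg hx).of_norm)]
  refine tsum_congr fun m => ?_
  rw [map_add, map_add, add_mul]

omit [IsUltrametricDist k] [IsUltrametricDist E] in
theorem tsum_mul' {r1 C D : ℝ} {f g : k⟦X⟧} (hf : Bd r1 C f) (hg : Bd r1 D g) {x : E}
    (hx : ‖x‖ < r1) : (∑' m, algebraMap k E (coeff m (f * g)) * x ^ m) =
      (∑' m, algebraMap k E (coeff m f) * x ^ m) * ∑' m, algebraMap k E (coeff m g) * x ^ m := by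
  have h1 := tsum_mul_tsum_eq_tsum_sum_antidiagonal_of_summable_norm
    (f := fun m => algebraMap k E (coeff m f) * x ^ m)
    (g := fun m => algebraMap k E (coeff m g) * x ^ m) (summable_norm hf hx) (summable_norm hg hx)
  rw [h1]
  refine tsum_congr fun m => ?_
  rw [coeff_mul, map_sum, sum_mul]
  refine sum_congr rfl ?_
  rintro ⟨i, j⟩ hij
  rw [HasAntidiagonal.mem_antidiagonal] at hij
  simp only at hij ⊢
  rw [← hij, map_mul, pow_add]; ring

omit [IsUltrametricDist k] [IsUltrametricDist E] [CompleteSpace E] in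
theorem tsum_C' {x : E} (a : k) :
    (∑' m, algebraMap k E (coeff m (C a : k⟦X⟧)) * x ^ m) = algebraMap k E a := by
  rw [tsum_eq_single 0]
  · simp
  · intro m hm
    rw [coeff_C, if_neg hm, map_zero, zero_mul]

omit [IsUltrametricDist k] [IsUltrametricDist E] [CompleteSpace E] in
theorem tsum_X' {x : E} :
    (∑' m, algebraMap k E (coeff m (X : k⟦X⟧)) * x ^ m) = x := by
  rw [tsum_eq_single 1]
  · simp
  · intro m hm
    rw [coeff_X, if_neg hm, map_zero, zero_mul]

/-- evaluation of the power series bounded at radius `r1` at a point of norm `< r1` -/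
noncomputable def ev {r1 : ℝ} (hr1 : 0 < r1) (x : E) (hx : ‖x‖ < r1) :
    bsub (K := k) r1 hr1 →+* E where
  toFun f := ∑' m, algebraMap k E (coeff m f.1) * x ^ m
  map_one' := by
    have := tsum_C' (x := x) (1 : k)
    rwa [map_one, map_one] at this
  map_zero' := by
    have := tsum_C' (x := x) (0 : k)
    rwa [map_zero, map_zero] at this
  map_add' f g := tsum_add' f.2.choose_spec g.2.choose_spec hx
  map_mul' f g := tsum_mul' f.2.choose_spec g.2.choose_spec hx

omit [IsUltrametricDist E] in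
theorem ev_apply {r1 : ℝ} {hr1 : 0 < r1} {x : E} {hx : ‖x‖ < r1} (f : bsub (K := k) r1 hr1) :
    ev hr1 x hx f = ∑' m, algebraMap k E (coeff m f.1) * x ^ m := rfl

omit [IsUltrametricDist E] in
theorem ev_C {r1 : ℝ} {hr1 : 0 < r1} {x : E} {hx : ‖x‖ < r1} (a : k) :
    ev hr1 x hx ⟨C a, C_mem a⟩ = algebraMap k E a := by
  rw [ev_apply]; exact tsum_C' a

omit [IsUltrametricDist E] in
theorem ev_X {r1 : ℝ} {hr1 : 0 < r1} {x : E} {hx : ‖x‖ < r1} :
    ev hr1 x hx (⟨X, X_mem⟩ : bsub (K := k) r1 hr1) = x := by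
  rw [ev_apply]; exact tsum_X'

theorem norm_ev_le {r1 : ℝ} {hr1 : 0 < r1} {x : E} {hx : ‖x‖ < r1} (f : bsub (K := k) r1 hr1)
    {B : ℝ} (hB : Bd ‖x‖ B f.1) : ‖ev hr1 x hx f‖ ≤ B := by
  rw [ev_apply]
  refine IsUltrametricDist.norm_tsum_le_of_forall_le_of_nonneg hB.nonneg fun m => ?_
  rw [norm_mul, norm_algebraMap', norm_pow]
  exact hB m

theorem gaussPt_ev {r r1 : ℝ} {hr1 : 0 < r1} {x : E} {hx : ‖x‖ < r1} (hr : ‖x‖ = r) {L : Type*}
    [Field L] (w : Valuation L ℝ≥0) (phi : E →+* L) (hw : ∀ e, w (phi e) = ‖e‖₊) :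
    GaussPt r r1 hr1 L w (phi.comp (ev (k := k) hr1 x hx)) where
  le_of_bd f B hB := by
    rw [RingHom.comp_apply, hw, coe_nnnorm]
    rw [← hr] at hB
    exact norm_ev_le f hB
  w_C a := by
    rw [RingHom.comp_apply, hw, coe_nnnorm, ev_C, norm_algebraMap']

end Ev

section Spec

variable (E : Type*) [NontriviallyNormedField E] [IsUltrametricDist E] [CompleteSpace E]
  (L : Type*) [Field L] [Algebra E L] [Algebra.IsAlgebraic E L]

/-- the spectral norm as a valuation -/
noncomputable def specVal : Valuation L ℝ≥0 where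
  toFun x := Real.toNNReal (spectralNorm E L x)
  map_zero' := by rw [spectralNorm_zero, Real.toNNReal_zero]
  map_one' := by rw [spectralNorm_one, Real.toNNReal_one]
  map_mul' x y := by
    rw [← Real.toNNReal_mul (spectralNorm_nonneg x)]
    congr 1
    exact map_mul (spectralMulAlgNorm E L) x y
  map_add_le_max' x y := by
    have h := isNonarchimedean_spectralNorm (K := E) (L := L) x y
    rcases le_total (spectralNorm E L x) (spectralNorm E L y) with h1 | h1
    · rw [max_eq_right h1] at h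
      exact (Real.toNNReal_mono h).trans (le_max_right _ _)
    · rw [max_eq_left h1] at h
      exact (Real.toNNReal_mono h).trans (le_max_left _ _)

theorem specVal_coe (x : L) : (specVal E L x : ℝ) = spectralNorm E L x :=
  Real.coe_toNNReal _ (spectralNorm_nonneg x)

theorem specVal_algebraMap (e : E) : specVal E L (algebraMap E L e) = ‖e‖₊ := by
  ext
  rw [specVal_coe, coe_nnnorm]
  exact spectralNorm_extends e

end Spec

/-- `w (a ^ n - b ^ n) ≤ w (a - b)` for integral `a`, `b` -/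
theorem w_pow_sub_pow_le {L : Type*} [Field L] (w : Valuation L ℝ≥0) {a b : L} (ha : w a ≤ 1)
    (hb : w b ≤ 1) (n : ℕ) : w (a ^ n - b ^ n) ≤ w (a - b) := by
  obtain ⟨c, hc⟩ := sub_dvd_pow_sub_pow (⟨a, ha⟩ : w.integer) ⟨b, hb⟩ n
  have h1 : a ^ n - b ^ n = (a - b) * (c : L) := by
    have := congrArg (Subtype.val : w.integer → L) hc
    push_cast at this
    exact this
  rw [h1, map_mul]
  calc w (a - b) * w (c : L) ≤ w (a - b) * 1 := by gcongr; exact c.2
    _ = _ := mul_one _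

section Main

universe uE

variable {k : Type*} {E : Type uE} [NormedField k] [IsUltrametricDist k]
  [NontriviallyNormedField E] [IsUltrametricDist E] [NormedAlgebra k E] [CompleteSpace E]

/-- approximation of the elements of `E(j y)` by elements of `K1` -/
theorem exists_approx {K K1 : Type*} [Field K] [Field K1] [Algebra K K1] (iota : K →+* E)
    (hd : DenseRange iota) {Om : Type*} [Field Om] [Algebra E Om] [Algebra.IsAlgebraic E Om]
    (j : K1 →+* Om) (hj : ∀ a : K, j (algebraMap K K1 a) = algebraMap E Om (iota a)) (y : K1)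
    (x : Om) (hx : x ∈ IntermediateField.adjoin E {j y}) :
    ∃ z : K1, specVal E Om (x - j z) < 1 := by
  let : NormedField Om := spectralNorm.normedField E Om
  have hmem : x ∈ j.range.topologicalClosure := by
    have hint : IsIntegral E (j y) := Algebra.IsIntegral.isIntegral _
    rw [← IntermediateField.mem_toSubalgebra,
      IntermediateField.adjoin_simple_toSubalgebra_of_isAlgebraic hint.isAlgebraic] at hx
    refine Algebra.adjoin_induction ?_ ?_ ?_ ?_ hx
    · intro a ha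
      rw [Set.mem_singleton_iff] at ha
      rw [ha]
      exact j.range.le_topologicalClosure ⟨y, rfl⟩
    · intro e
      change algebraMap E Om e ∈ closure (j.range : Set Om)
      rw [Metric.mem_closure_iff]
      intro ε hε
      obtain ⟨a, ha⟩ := hd.exists_dist_lt e hε
      refine ⟨algebraMap E Om (iota a), ⟨algebraMap K K1 a, hj a⟩, ?_⟩
      rw [dist_eq_norm] at ha ⊢
      rw [← map_sub]
      exact (spectralNorm_extends (L := Om) (e - iota a)).trans_lt ha
    · intro a b _ _ ha hb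
      exact Subring.add_mem _ ha hb
    · intro a b _ _ ha hb
      exact Subring.mul_mem _ ha hb
  change x ∈ closure (j.range : Set Om) at hmem
  rw [Metric.mem_closure_iff] at hmem
  obtain ⟨b, ⟨z, rfl⟩, hb⟩ := hmem 1 one_pos
  refine ⟨z, ?_⟩
  rw [← NNReal.coe_lt_coe, specVal_coe]
  rw [dist_eq_norm] at hb
  exact hb

/-- **(GOOD1)** The conclusion of `kas` for `u` passes to a valuation of the Kummer extension. -/
theorem exists_val_kummer {p N m : ℕ} {c : k} (hc : c ≠ 0) {r1 : ℝ} {hr1 : 0 < r1} (hcr : ‖c‖ < r1)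
    (u : bsub (K := k) r1 hr1)
    (hkas : ∀ (L : Type uE) [Field L] (w : Valuation L ℝ≥0) (iota : (bsub (K := k) r1 hr1) →+* L),
      GaussPt ‖c‖ r1 hr1 L w iota → ∀ (y b : L), b ≠ 0 → y ^ N = iota u * b ^ N →
        ∃ z : L, w z ≤ 1 ∧ w (z ^ p - z - (iota ⟨X, X_mem⟩ / iota ⟨C c, C_mem c⟩) ^ m) < 1)
    {x : E} (hx : ‖x‖ = ‖c‖) {K K1 : Type*} [Field K] [Field K1] [Algebra K K1]
    [Algebra.IsAlgebraic K K1] (iota : K →+* E) (hd : DenseRange iota) {h : K} {g : E} (hg : g ≠ 0)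
    (hh : iota h = ev hr1 x (hx.trans_lt hcr) u * g ^ N) {y : K1} (hy : y ^ N = algebraMap K K1 h) :
    ∃ v : Valuation K1 ℝ≥0, (∀ a : K, v (algebraMap K K1 a) = ‖iota a‖₊) ∧
      ∃ z : K1, v z ≤ 1 ∧ ∀ t : K, ‖iota t - x / algebraMap k E c‖ < 1 →
        v (z ^ p - z - (algebraMap K K1 t) ^ m) < 1 := by
  classical
  let : Algebra K (AlgebraicClosure E) := ((algebraMap E (AlgebraicClosure E)).comp iota).toAlgebra
  let j : K1 →ₐ[K] AlgebraicClosure E := IsAlgClosed.lift
  have hj : ∀ a : K, j (algebraMap K K1 a) = algebraMap E (AlgebraicClosure E) (iota a) := fun a =>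
    j.commutes a
  set w := specVal E (AlgebraicClosure E) with hw
  let L := IntermediateField.adjoin E {(j : K1 →+* AlgebraicClosure E) y}
  let yL : L := ⟨(j : K1 →+* AlgebraicClosure E) y, IntermediateField.mem_adjoin_simple_self E _⟩
  let wL : Valuation L ℝ≥0 := w.comap (algebraMap L (AlgebraicClosure E))
  have hwL : ∀ e : E, wL (algebraMap E L e) = ‖e‖₊ := by
    intro e
    exact specVal_algebraMap E (AlgebraicClosure E) e
  have hG : GaussPt ‖c‖ r1 hr1 L wL ((algebraMap E L).comp (ev (k := k) hr1 x (hx.trans_lt hcr))) :=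
    gaussPt_ev (k := k) (hr1 := hr1) (hx := hx.trans_lt hcr) hx wL (algebraMap E L) hwL
  have hgL : algebraMap E L g ≠ 0 := (map_ne_zero _).mpr hg
  have hyL : yL ^ N = ((algebraMap E L).comp (ev (k := k) hr1 x (hx.trans_lt hcr))) u * (algebraMap E L g) ^ N := by
    rw [RingHom.comp_apply, ← map_pow, ← map_mul, ← hh]
    apply Subtype.ext
    show ((j : K1 →+* AlgebraicClosure E) y) ^ N = algebraMap E (AlgebraicClosure E) (iota h)
    rw [← hj h, ← hy, map_pow]
    rfl
  obtain ⟨zL, hz1, hz2⟩ := hkas L wL _ hG yL (algebraMap E L g) hgL hyL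
  obtain ⟨z, hz⟩ := exists_approx iota hd (j : K1 →+* AlgebraicClosure E) hj y (zL : AlgebraicClosure E) zL.2
  refine ⟨w.comap (j : K1 →+* AlgebraicClosure E), ?_, z, ?_, ?_⟩
  · intro a
    rw [Valuation.comap_apply]
    show w (j (algebraMap K K1 a)) = _
    rw [hj]
    exact specVal_algebraMap E (AlgebraicClosure E) (iota a)
  · rw [Valuation.comap_apply]
    have h1 : (j : K1 →+* AlgebraicClosure E) z = (zL : AlgebraicClosure E) - ((zL : AlgebraicClosure E) - (j : K1 →+* AlgebraicClosure E) z) := by ring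
    rw [h1]
    exact (w.map_sub _ _).trans (max_le hz1 hz.le)
  · intro t ht
    set W := w.comap (j : K1 →+* AlgebraicClosure E) with hW
    -- everything in `AlgebraicClosure E`
    have hz2' : w ((zL : AlgebraicClosure E) ^ p - (zL : AlgebraicClosure E) -
        (algebraMap E (AlgebraicClosure E) (x / algebraMap k E c)) ^ m) < 1 := by
      have h1 : ((algebraMap E L).comp (ev (k := k) hr1 x (hx.trans_lt hcr))) ⟨X, X_mem⟩ /
          ((algebraMap E L).comp (ev (k := k) hr1 x (hx.trans_lt hcr))) ⟨C c, C_mem c⟩ =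
          algebraMap E L (x / algebraMap k E c) := by
        rw [RingHom.comp_apply, RingHom.comp_apply, ev_X, ev_C, map_div₀]
      rw [h1] at hz2
      exact hz2
    have hz1' : w (zL : AlgebraicClosure E) ≤ 1 := hz1
    have hcn : algebraMap k E c ≠ 0 := (map_ne_zero _).mpr hc
    have hxc : ‖x / algebraMap k E c‖ = 1 := by
      rw [norm_div, norm_algebraMap', hx, div_self (norm_ne_zero_iff.mpr hc)]
    have hwx : w (algebraMap E (AlgebraicClosure E) (x / algebraMap k E c)) ≤ 1 := by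
      rw [hw, specVal_algebraMap, ← NNReal.coe_le_coe, coe_nnnorm, hxc, NNReal.coe_one]
    have hwd : w (algebraMap E (AlgebraicClosure E) (iota t) -
        algebraMap E (AlgebraicClosure E) (x / algebraMap k E c)) < 1 := by
      rw [← map_sub, hw, specVal_algebraMap, ← NNReal.coe_lt_coe, coe_nnnorm]
      exact ht
    have hwt : w (algebraMap E (AlgebraicClosure E) (iota t)) ≤ 1 := by
      have h1 : algebraMap E (AlgebraicClosure E) (iota t) =
          (algebraMap E (AlgebraicClosure E) (iota t) -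
            algebraMap E (AlgebraicClosure E) (x / algebraMap k E c)) +
          algebraMap E (AlgebraicClosure E) (x / algebraMap k E c) := by ring
      rw [h1]
      exact (w.map_add _ _).trans (max_le hwd.le hwx)
    have hwz : w ((j : K1 →+* AlgebraicClosure E) z) ≤ 1 := by
      have h1 : (j : K1 →+* AlgebraicClosure E) z = (zL : AlgebraicClosure E) -
          ((zL : AlgebraicClosure E) - (j : K1 →+* AlgebraicClosure E) z) := by ring
      rw [h1]
      exact (w.map_sub _ _).trans (max_le hz1' hz.le)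
    have hwdz : w ((j : K1 →+* AlgebraicClosure E) z - (zL : AlgebraicClosure E)) < 1 := by
      rw [Valuation.map_sub_swap]; exact hz
    have e1 : w (((j : K1 →+* AlgebraicClosure E) z) ^ p - (zL : AlgebraicClosure E) ^ p) < 1 :=
      (w_pow_sub_pow_le w hwz hz1' p).trans_lt hwdz
    have e2 : w ((algebraMap E (AlgebraicClosure E) (iota t)) ^ m -
        (algebraMap E (AlgebraicClosure E) (x / algebraMap k E c)) ^ m) < 1 :=
      (w_pow_sub_pow_le w hwt hwx m).trans_lt hwd
    have e3 : (j : K1 →+* AlgebraicClosure E) (z ^ p - z - (algebraMap K K1 t) ^ m) =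
        ((zL : AlgebraicClosure E) ^ p - (zL : AlgebraicClosure E) -
          (algebraMap E (AlgebraicClosure E) (x / algebraMap k E c)) ^ m) +
        (((j : K1 →+* AlgebraicClosure E) z) ^ p - (zL : AlgebraicClosure E) ^ p) -
        ((j : K1 →+* AlgebraicClosure E) z - (zL : AlgebraicClosure E)) -
        ((algebraMap E (AlgebraicClosure E) (iota t)) ^ m -
          (algebraMap E (AlgebraicClosure E) (x / algebraMap k E c)) ^ m) := by
      have h2 : (j : K1 →+* AlgebraicClosure E) (algebraMap K K1 t) =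
          algebraMap E (AlgebraicClosure E) (iota t) := hj t
      rw [map_sub, map_sub, map_pow, map_pow, h2]; ring
    rw [hW, Valuation.comap_apply, e3]
    exact w.map_sub_lt (w.map_sub_lt (w.map_add_lt hz2' e1) hwdz) e2

end Main

end Crest.Agent.R013.Good1_940
end

-- ▼ part R013/Good3_940

/-!
# R013 / Good3: bounded power series on a disc and the circle fields inside it (helper940)

* `shift_mul`, `shift_derivative`, `shift_shift` for 323's Taylor expansion `shift q f`.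
* `tsum_shift` : evaluation of `shift q f` at `z ∈ E` is the evaluation of `f` at `q + z`.
* `evq` : `bsub R →+* E`, `X ↦ q + c y`, `E` a circle field (`IsGauss k y`), injective with
  `‖evq f‖ = sup_n ‖coeff n (shift q f)‖ ‖c‖ ^ n`; `frq : FractionRing (bsub R) →+* E`.
* `dense_of_const` : a field containing `X` and a dense set of constants has dense image in `E`.
-/

set_option autoImplicit false
set_option linter.unusedSectionVars false

namespace Crest.Agent.R013.Good3_940

open PowerSeries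
open scoped NNReal
open Crest.Agent.R013.KAS2_940 (Bd)
open Crest.Agent.R013.KAS3_940 Crest.Agent.R013.Good1_940 Crest.Agent.R013.Gl946
open Crest.Agent.R013.LemD_323 (shift coeff_shift ev_shift summable_shift)

section Shift

variable {k : Type*} [NontriviallyNormedField k]

theorem toBd {r C : ℝ} {f : k⟦X⟧} (hf : Bd r C f) : LemD_323.Bd r f := ⟨C, hf⟩


theorem ev_eq (f : k⟦X⟧) (t : k) :
    LemD_323.ev f t = ∑' m, algebraMap k k (coeff m f) * t ^ m := rfl

variable [IsUltrametricDist k] [CompleteSpace k]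

theorem bd_shift' {r C : ℝ} {f : k⟦X⟧} (hf : Bd r C f) {s : k} (hs : ‖s‖ < r) :
    Bd r C (shift s f) := LemD_323.bd_shift hf.nonneg hf hs

theorem eq_of_ev {r C D : ℝ} (hr : 0 < r) {f g : k⟦X⟧} (hf : Bd r C f) (hg : Bd r D g)
    (h : ∀ t : k, ‖t‖ < r → LemD_323.ev f t = LemD_323.ev g t) : f = g := by
  have h1 : Bd r (max C D) (f - g) :=
    (hf.mono (le_max_left _ _)).sub hr.le (hg.mono (le_max_right _ _))
  have h2 : ∀ t : k, ‖t‖ < r → LemD_323.ev (f - g) t = 0 := by
    intro t ht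
    have h3 : LemD_323.ev (f - g) t = LemD_323.ev f t - LemD_323.ev g t := by
      rw [ev_eq, ev_eq, ev_eq,
        ← ((summable_norm (E := k) hf ht).of_norm).tsum_sub ((summable_norm (E := k) hg ht).of_norm)]
      refine tsum_congr fun m => ?_
      rw [map_sub, map_sub, sub_mul]
    rw [h3, h t ht, sub_self]
  have h4 : f - g = 0 := by
    refine LemD_323.eq_zero_of_ev (F := k) hr (toBd h1) ?_
    filter_upwards [Metric.ball_mem_nhds (0 : k) hr] with z hz
    exact h2 z (by simpa using hz)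
  exact sub_eq_zero.mp h4

theorem ev_mul {r C D : ℝ} {f g : k⟦X⟧} (hf : Bd r C f) (hg : Bd r D g) {t : k} (ht : ‖t‖ < r) :
    LemD_323.ev (f * g) t = LemD_323.ev f t * LemD_323.ev g t := by
  rw [ev_eq, ev_eq, ev_eq]
  exact tsum_mul' (E := k) hf hg ht

theorem norm_add_lt' {r : ℝ} {s t : k} (hs : ‖s‖ < r) (ht : ‖t‖ < r) : ‖s + t‖ < r :=
  (IsUltrametricDist.norm_add_le_max s t).trans_lt (max_lt hs ht)

theorem shift_mul {r C D : ℝ} (hr : 0 < r) {f g : k⟦X⟧} (hf : Bd r C f) (hg : Bd r D g) {s : k}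
    (hs : ‖s‖ < r) : shift s (f * g) = shift s f * shift s g := by
  refine eq_of_ev hr (bd_shift' (hf.mul hr hg) hs) ((bd_shift' hf hs).mul hr (bd_shift' hg hs)) ?_
  intro t ht
  rw [ev_mul (bd_shift' hf hs) (bd_shift' hg hs) ht, ev_shift (toBd (hf.mul hr hg)) hs ht,
    ev_shift (toBd hf) hs ht, ev_shift (toBd hg) hs ht]
  exact ev_mul hf hg (norm_add_lt' hs ht)

theorem shift_shift {r C : ℝ} (hr : 0 < r) {f : k⟦X⟧} (hf : Bd r C f) {s : k} (hs : ‖s‖ < r) :
    shift (-s) (shift s f) = f := by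
  have hs' : ‖-s‖ < r := by rwa [norm_neg]
  refine eq_of_ev hr (bd_shift' (bd_shift' hf hs) hs') hf ?_
  intro t ht
  rw [ev_shift (toBd (bd_shift' hf hs)) hs' ht, ev_shift (toBd hf) hs (norm_add_lt' hs' ht)]
  congr 1
  ring

omit [IsUltrametricDist k] [CompleteSpace k] in
theorem shift_zero (s : k) : shift s (0 : k⟦X⟧) = 0 := by
  ext l
  rw [coeff_shift, map_zero]
  simp

theorem shift_ne_zero {r C : ℝ} (hr : 0 < r) {f : k⟦X⟧} (hf : Bd r C f) {s : k} (hs : ‖s‖ < r)
    (h : f ≠ 0) : shift s f ≠ 0 := by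
  intro h0
  have := shift_shift hr hf hs
  rw [h0, shift_zero] at this
  exact h this.symm

omit [IsUltrametricDist k] [CompleteSpace k] in
theorem shift_derivative (s : k) (f : k⟦X⟧) : shift s (d⁄dX k f) = d⁄dX k (shift s f) := by
  ext l
  rw [coeff_derivative, coeff_shift, coeff_shift, ← tsum_mul_right]
  refine tsum_congr fun n => ?_
  rw [coeff_derivative]
  have h1 : (n + l + 1) * (n + l).choose l = (n + l + 1).choose (l + 1) * (l + 1) :=
    Nat.add_one_mul_choose_eq (n + l) l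
  have h2 := congrArg (Nat.cast : ℕ → k) h1
  push_cast at h2
  have h3 : n + (l + 1) = n + l + 1 := rfl
  rw [h3]
  push_cast
  linear_combination (coeff (n + l + 1) f * s ^ n) * h2

end Shift

section Eval

variable {k E : Type*} [NontriviallyNormedField k] [IsUltrametricDist k] [CompleteSpace k]
  [NormedField E] [IsUltrametricDist E] [NormedAlgebra k E] [CompleteSpace E]

theorem tsum_shift {r C : ℝ} {f : k⟦X⟧} (hf : Bd r C f) {q : k} (hq : ‖q‖ < r) {z : E}
    (hz : ‖z‖ < r) : (∑' m, algebraMap k E (coeff m (shift q f)) * z ^ m) =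
      ∑' m, algebraMap k E (coeff m f) * (algebraMap k E q + z) ^ m := by
  let nnE : NontriviallyNormedField E :=
    { ‹NormedField E› with
      non_trivial := by
        obtain ⟨a, ha⟩ := NontriviallyNormedField.non_trivial (α := k)
        exact ⟨algebraMap k E a, by rwa [norm_algebraMap']⟩ }
  have hfE : LemD_323.Bd r (PowerSeries.map (algebraMap k E) f) :=
    ⟨C, fun n => by rw [coeff_map, norm_algebraMap']; exact hf n⟩
  have hqE : ‖algebraMap k E q‖ < r := by rwa [norm_algebraMap']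
  have h1 := ev_shift (k := E) hfE hqE hz
  have h2 : shift (algebraMap k E q) (PowerSeries.map (algebraMap k E) f) =
      PowerSeries.map (algebraMap k E) (shift q f) := by
    ext l
    rw [coeff_shift, coeff_map, coeff_shift]
    have hc : Continuous (algebraMap k E) := (algebraMapCLM k E).continuous
    rw [(summable_shift (toBd hf) hq l).map_tsum (algebraMap k E) hc]
    refine tsum_congr fun n => ?_
    rw [map_mul, map_mul, map_natCast, map_pow, coeff_map]
  rw [h2] at h1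
  have h3 : ∀ (g : k⟦X⟧) (t : E), LemD_323.ev (PowerSeries.map (algebraMap k E) g) t =
      ∑' m, algebraMap k E (coeff m g) * t ^ m := by
    intro g t
    refine tsum_congr fun m => ?_
    rw [coeff_map]
  rw [h3, h3] at h1
  exact h1

/-- the coefficients of a bounded series are bounded by its norm in a circle field -/
theorem coeff_le_norm {r C : ℝ} {f : k⟦X⟧} (hf : Bd r C f) {y : E} (hy : IsGauss k y) {c : k}
    (hc : ‖c‖ < r) (n : ℕ) :
    ‖coeff n f‖ * ‖c‖ ^ n ≤ ‖∑' m, algebraMap k E (coeff m f) * (algebraMap k E c * y) ^ m‖ := by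
  have hcy : ‖algebraMap k E c * y‖ < r := by
    rw [norm_mul, norm_algebraMap', hy.norm_eq, mul_one]; exact hc
  have hs := ((summable_norm (E := E) hf hcy).of_norm).hasSum.tendsto_sum_nat.norm
  refine ge_of_tendsto hs ?_
  filter_upwards [Filter.eventually_gt_atTop n] with N hN
  have h1 := hy.coeff_le (∑ m ∈ Finset.range N, Polynomial.monomial m (coeff m f * c ^ m)) n
  rw [Polynomial.finsetSum_coeff, Finset.sum_eq_single n] at h1
  · rw [Polynomial.coeff_monomial, if_pos rfl, norm_mul, norm_pow] at h1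
    refine h1.trans (le_of_eq ?_)
    congr 1
    rw [map_sum]
    refine Finset.sum_congr rfl fun m _ => ?_
    rw [Polynomial.aeval_monomial, map_mul, map_pow, mul_pow, mul_assoc]
  · intro m _ hm
    rw [Polynomial.coeff_monomial, if_neg hm]
  · intro h
    exact absurd (Finset.mem_range.mpr hN) h

/-- the point `q + c y` of the circle field -/
noncomputable def pt (q c : k) (y : E) : E := algebraMap k E q + algebraMap k E c * y

omit [CompleteSpace k] [IsUltrametricDist k] [CompleteSpace E] in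
theorem norm_pt_lt {r : ℝ} {q c : k} {y : E} (hy : IsGauss k y) (hq : ‖q‖ < r) (hc : ‖c‖ < r) :
    ‖pt q c y‖ < r := by
  refine (IsUltrametricDist.norm_add_le_max _ _).trans_lt (max_lt ?_ ?_)
  · rwa [norm_algebraMap']
  · rwa [norm_mul, norm_algebraMap', hy.norm_eq, mul_one]

/-- **evaluation of the bounded functions of the disc of radius `r` at the circle `(q, ‖c‖)`** -/
noncomputable def evq {r : ℝ} (hr : 0 < r) {q c : k} {y : E} (hy : IsGauss k y) (hq : ‖q‖ < r)
    (hc : ‖c‖ < r) : bsub (K := k) r hr →+* E :=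
  ev hr (pt q c y) (norm_pt_lt hy hq hc)

theorem evq_X {r : ℝ} {hr : 0 < r} {q c : k} {y : E} {hy : IsGauss k y} {hq : ‖q‖ < r}
    {hc : ‖c‖ < r} : evq hr hy hq hc ⟨X, X_mem⟩ = pt q c y := ev_X

theorem evq_C {r : ℝ} {hr : 0 < r} {q c : k} {y : E} {hy : IsGauss k y} {hq : ‖q‖ < r}
    {hc : ‖c‖ < r} (a : k) : evq hr hy hq hc ⟨C a, C_mem a⟩ = algebraMap k E a := ev_C a

/-- Taylor expansion at `q` in the ring of bounded series -/
noncomputable def shiftB {r : ℝ} (hr : 0 < r) {q : k} (hq : ‖q‖ < r) (f : bsub (K := k) r hr) :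
    bsub (K := k) r hr :=
  ⟨shift q f.1, _, bd_shift' f.2.choose_spec hq⟩

theorem norm_cy_lt {r : ℝ} {c : k} {y : E} (hy : IsGauss k y) (hc : ‖c‖ < r) :
    ‖algebraMap k E c * y‖ < r := by
  rwa [norm_mul, norm_algebraMap', hy.norm_eq, mul_one]

theorem evq_eq_shift {r : ℝ} {hr : 0 < r} {q c : k} {y : E} {hy : IsGauss k y} {hq : ‖q‖ < r}
    {hc : ‖c‖ < r} (f : bsub (K := k) r hr) :
    evq hr hy hq hc f = ev hr (algebraMap k E c * y) (norm_cy_lt hy hc) (shiftB hr hq f) := by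
  rw [evq, ev_apply, ev_apply, shiftB, tsum_shift f.2.choose_spec hq (norm_cy_lt hy hc)]
  rfl

theorem coeff_le_norm_evq {r : ℝ} {hr : 0 < r} {q c : k} {y : E} {hy : IsGauss k y} {hq : ‖q‖ < r}
    {hc : ‖c‖ < r} (f : bsub (K := k) r hr) (n : ℕ) :
    ‖coeff n (shift q f.1)‖ * ‖c‖ ^ n ≤ ‖evq hr hy hq hc f‖ := by
  rw [evq_eq_shift, ev_apply]
  exact coeff_le_norm (bd_shift' f.2.choose_spec hq) hy hc n


theorem evq_injective {r : ℝ} {hr : 0 < r} {q c : k} {y : E} {hy : IsGauss k y} {hq : ‖q‖ < r}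
    {hc : ‖c‖ < r} (hc0 : c ≠ 0) : Function.Injective (evq (E := E) hr hy hq hc) := by
  rw [injective_iff_map_eq_zero]
  intro f hf
  by_contra hne
  have h1 : f.1 ≠ 0 := fun h => hne (Subtype.ext h)
  have h2 := shift_ne_zero hr f.2.choose_spec hq h1
  refine h2 (PowerSeries.ext fun n => ?_)
  have h3 := coeff_le_norm_evq (hy := hy) (hq := hq) (hc := hc) f n
  rw [hf, norm_zero] at h3
  have h4 : 0 < ‖c‖ ^ n := pow_pos (norm_pos_iff.mpr hc0) n
  have h5 : ‖coeff n (shift q f.1)‖ ≤ 0 := by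
    by_contra hcon
    rw [not_le] at hcon
    exact absurd h3 (not_le.mpr (mul_pos hcon h4))
  rw [map_zero]
  exact norm_le_zero_iff.mp h5

instance {r : ℝ} (hr : 0 < r) : IsDomain (bsub (K := k) r hr) := inferInstance

/-- the field of fractions of the bounded functions on the disc of radius `r` -/
abbrev FDisc (k : Type*) [NontriviallyNormedField k] [IsUltrametricDist k] (r : ℝ) (hr : 0 < r) :
    Type _ := FractionRing (bsub (K := k) r hr)

/-- **the disc field maps to the circle field** -/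
noncomputable def frq {r : ℝ} (hr : 0 < r) {q c : k} {y : E} (hy : IsGauss k y) (hq : ‖q‖ < r)
    (hc : ‖c‖ < r) (hc0 : c ≠ 0) : FDisc k r hr →+* E :=
  IsFractionRing.lift (evq_injective (hr := hr) (hy := hy) (hq := hq) (hc := hc) hc0)

theorem frq_algebraMap {r : ℝ} {hr : 0 < r} {q c : k} {y : E} {hy : IsGauss k y} {hq : ‖q‖ < r}
    {hc : ‖c‖ < r} {hc0 : c ≠ 0} (f : bsub (K := k) r hr) :
    frq hr hy hq hc hc0 (algebraMap _ (FDisc k r hr) f) = evq hr hy hq hc f :=
  IsFractionRing.lift_algebraMap _ f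

/-- **density**: a field with a map to the disc field, containing `X` and a dense set of constants,
has dense image in the circle field. -/
theorem dense_of_const {r : ℝ} {hr : 0 < r} {q c : k} {y : E} {hy : IsGauss k y}
    (hd : DenseRat k y) {hq : ‖q‖ < r} {hc : ‖c‖ < r} {hc0 : c ≠ 0} {K : Type*} [Field K]
    (iota : K →+* FDisc k r hr) {x : K} (hx : iota x = algebraMap _ _ (⟨X, X_mem⟩ : bsub (K := k) r hr))
    (hK : ∀ (a : k) (ε : ℝ), 0 < ε → ∃ (b : K) (b' : k), ‖a - b'‖ < ε ∧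
      iota b = algebraMap _ _ (⟨C b', C_mem b'⟩ : bsub (K := k) r hr)) :
    DenseRange ((frq hr hy hq hc hc0).comp iota) := by
  set j := (frq hr hy hq hc hc0).comp iota with hj
  let S : Subfield E := j.fieldRange.topologicalClosure
  have hS : ∀ z : E, z ∈ S ↔ z ∈ closure (Set.range j) := by
    intro z
    change z ∈ closure (j.fieldRange : Set E) ↔ _
    rw [RingHom.coe_fieldRange]
  have hSc : IsClosed (S : Set E) := Subfield.isClosed_topologicalClosure _
  have hconst : ∀ a : k, algebraMap k E a ∈ S := by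
    intro a
    rw [hS, Metric.mem_closure_iff]
    intro ε hε
    obtain ⟨b, b', h1, h2⟩ := hK a ε hε
    refine ⟨j b, ⟨b, rfl⟩, ?_⟩
    rw [hj, RingHom.comp_apply, h2, frq_algebraMap, evq_C, dist_eq_norm, ← map_sub,
      norm_algebraMap']
    exact h1
  have hpt : pt q c y ∈ S := by
    rw [hS]
    refine subset_closure ⟨x, ?_⟩
    rw [hj, RingHom.comp_apply, hx, frq_algebraMap, evq_X]
  have hcE : algebraMap k E c ≠ 0 := (map_ne_zero _).mpr hc0
  have hyS : y ∈ S := by
    have h1 : y = (pt q c y - algebraMap k E q) / algebraMap k E c := by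
      rw [pt, add_sub_cancel_left, mul_div_cancel_left₀ _ hcE]
    rw [h1]
    exact S.div_mem (S.sub_mem hpt (hconst q)) (hconst c)
  have hpoly : ∀ f : Polynomial k, Polynomial.aeval y f ∈ S := by
    intro f
    induction f using Polynomial.induction_on' with
    | add f g hf hg => rw [map_add]; exact S.add_mem hf hg
    | monomial n a =>
      rw [Polynomial.aeval_monomial]
      exact S.mul_mem (hconst a) (S.pow_mem hyS n)
  intro z
  rw [← hS]
  have h1 : z ∈ closure (S : Set E) := by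
    rw [Metric.mem_closure_iff]
    intro ε hε
    obtain ⟨f, g, _, h⟩ := hd z ε hε
    exact ⟨_, S.div_mem (hpoly f) (hpoly g), by rw [dist_eq_norm]; exact h⟩
  rwa [hSc.closure_eq] at h1

end Eval

end Crest.Agent.R013.Good3_940
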