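import Mathlib
import Crest.Agent.R013.RR7_948
import Crest.Prelude.Def_SectConj

-- ▼ part R013/Unr1_957
section

/-!
# R013 / Unr1: discrete valuations with values in `ℝ≥0`, ramification and inertia (helper957)

`Gen w c`: the non-zero values of `w` are exactly the powers of `c`, `0 < c < 1`.
`gen_ext`: `Gen` goes up finite separable extensions, `c = c' ^ e`;
`gen_ext_galois`: for a Galois extension with residue characteristic zero `e = #(inertia group)`.
-/

set_option autoImplicit false

namespace Crest.Agent.R013.Unr1_957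

open scoped NNReal nonZeroDivisors
open WithZero IsDedekindDomain Module
open Crest.Agent.R013.RR7_948

/-- `w` is discrete with generator `c`. -/
structure Gen {F : Type*} [Field F] (w : Valuation F ℝ≥0) (c : ℝ≥0) : Prop where
  pos : 0 < c
  lt : c < 1
  mem : ∀ x : F, x ≠ 0 → ∃ n : ℤ, w x = c ^ n
  surj : ∃ x : F, w x = c

/-- the inertia group of `w` -/
def Iner (K : Type*) {N : Type*} [Field K] [Field N] [Algebra K N] (w : Valuation N ℝ≥0) :
    Subgroup (N ≃ₐ[K] N) where
  carrier := {σ | (∀ x, w (σ x) = w x) ∧ ∀ x, w x ≤ 1 → w (σ x - x) < 1}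
  mul_mem' := by
    intro a b ha hb
    refine ⟨fun x => ?_, fun x hx => ?_⟩
    · rw [AlgEquiv.mul_apply, ha.1, hb.1]
    · have ha1 := ha.2 (b x) (by rw [hb.1]; exact hx)
      have : (a * b) x - x = (a (b x) - b x) + (b x - x) := by
        rw [AlgEquiv.mul_apply]; ring
      rw [this]
      exact lt_of_le_of_lt (Valuation.map_add _ _ _) (max_lt ha1 (hb.2 x hx))
  one_mem' := ⟨fun x => rfl, fun x _ => by simp⟩
  inv_mem' := by
    intro a ha
    have h1 : ∀ x, w (a⁻¹ x) = w x := by
      intro x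
      rw [← ha.1 (a⁻¹ x), ← AlgEquiv.mul_apply, mul_inv_cancel, AlgEquiv.one_apply]
    refine ⟨h1, fun x hx => ?_⟩
    have h2 := ha.2 (a⁻¹ x) (by rw [h1]; exact hx)
    rw [← AlgEquiv.mul_apply, mul_inv_cancel, AlgEquiv.one_apply] at h2
    rwa [← Valuation.map_neg, neg_sub] at h2

section iner

variable {K N : Type*} [Field K] [Field N] [Algebra K N] {w : Valuation N ℝ≥0}


/-- for automorphisms of finite order the second condition is enough -/
theorem mem_iner_of {σ : N ≃ₐ[K] N} (hfin : IsOfFinOrder σ)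
    (h : ∀ x, w x ≤ 1 → w (σ x - x) < 1) : σ ∈ Iner K w := by
  refine ⟨?_, h⟩
  obtain ⟨n, hn, hσ⟩ := (isOfFinOrder_iff_pow_eq_one).mp hfin
  have hlt : ∀ z, w z < 1 → w (σ z) < 1 := by
    intro z hz
    have h1 := h z hz.le
    have : σ z = (σ z - z) + z := by ring
    rw [this]
    exact lt_of_le_of_lt (Valuation.map_add _ _ _) (max_lt h1 hz)
  have hpow : ∀ z, w z < 1 → ∀ j : ℕ, w ((σ ^ j) z) < 1 := by
    intro z hz j
    induction j with
    | zero => simpa using hz
    | succ j ih =>
      rw [pow_succ', AlgEquiv.mul_apply]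
      exact hlt _ ih
  -- if `w (x / σ x) < 1` or `w (σ x / x) < 1` we get a contradiction
  have hprod : ∀ (x : N), x ≠ 0 → ∀ j : ℕ,
      ∏ i ∈ Finset.range j, ((σ ^ i) (σ x / x)) = (σ ^ j) x / x := by
    intro x hx j
    induction j with
    | zero => simp [hx]
    | succ j ih =>
      rw [Finset.prod_range_succ, ih, map_div₀, ← AlgEquiv.mul_apply, ← pow_succ]
      have : (σ ^ j) x ≠ 0 := (map_ne_zero (σ ^ j)).mpr hx
      field_simp
  have hprod1 : ∀ (x : N), x ≠ 0 → ∏ i ∈ Finset.range n, ((σ ^ i) (σ x / x)) = 1 := by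
    intro x hx
    rw [hprod x hx, hσ, AlgEquiv.one_apply, div_self hx]
  intro x
  by_cases hx : x = 0
  · simp [hx]
  have hwx : 0 < w x := (Valuation.pos_iff w).mpr hx
  have hσx : σ x ≠ 0 := by simpa using hx
  have hwσx : 0 < w (σ x) := (Valuation.pos_iff w).mpr hσx
  have hn0 : (Finset.range n).Nonempty := by simpa using hn.ne'
  rcases lt_trichotomy (w (σ x)) (w x) with hlt' | heq | hgt
  · exfalso
    have h1 : w (σ x / x) < 1 := by
      rw [map_div₀]; exact (div_lt_one hwx).mpr hlt'
    have h2 : w (∏ i ∈ Finset.range n, ((σ ^ i) (σ x / x))) < 1 := by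
      rw [map_prod]
      calc _ < ∏ i ∈ Finset.range n, (1 : ℝ≥0) := by
            apply Finset.prod_lt_prod_of_nonempty
            · intro i _
              rw [Valuation.pos_iff]
              exact (map_ne_zero (σ ^ i)).mpr (div_ne_zero hσx hx)
            · intro i _
              exact hpow _ h1 i
            · exact hn0
        _ = 1 := by simp
    rw [hprod1 x hx, map_one] at h2
    exact lt_irrefl _ h2
  · exact heq
  · exfalso
    have h1 : w (x / σ x) < 1 := by
      rw [map_div₀]; exact (div_lt_one hwσx).mpr hgt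
    have h2 : w (∏ i ∈ Finset.range n, ((σ ^ i) (x / σ x))) < 1 := by
      rw [map_prod]
      calc _ < ∏ i ∈ Finset.range n, (1 : ℝ≥0) := by
            apply Finset.prod_lt_prod_of_nonempty
            · intro i _
              rw [Valuation.pos_iff]
              exact (map_ne_zero (σ ^ i)).mpr (div_ne_zero hx hσx)
            · intro i _
              exact hpow _ h1 i
            · exact hn0
        _ = 1 := by simp
    have h3 : ∏ i ∈ Finset.range n, ((σ ^ i) (x / σ x)) = 1 := by
      have h4 : ∏ i ∈ Finset.range n, ((σ ^ i) (x / σ x))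
          = (∏ i ∈ Finset.range n, ((σ ^ i) (σ x / x)))⁻¹ := by
        rw [← Finset.prod_inv_distrib]
        refine Finset.prod_congr rfl fun i _ => ?_
        rw [← map_inv₀, inv_div]
      rw [h4, hprod1 x hx, inv_one]
    rw [h3, map_one] at h2
    exact lt_irrefl _ h2

end iner

section adic

variable {F : Type*} [Field F]

theorem Gen.pow_inj {w : Valuation F ℝ≥0} {c : ℝ≥0} (h : Gen w c) {m n : ℤ}
    (hmn : c ^ m = c ^ n) : m = n :=
  zpow_right_injective₀ h.pos h.lt.ne hmn

/-- the generator is unique -/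
theorem Gen.unique {w : Valuation F ℝ≥0} {c d : ℝ≥0} (hc : Gen w c) (hd : Gen w d) : c = d := by
  obtain ⟨x, hx⟩ := hc.surj
  obtain ⟨y, hy⟩ := hd.surj
  have hx0 : x ≠ 0 := by rintro rfl; rw [map_zero] at hx; exact hc.pos.ne hx
  have hy0 : y ≠ 0 := by rintro rfl; rw [map_zero] at hy; exact hd.pos.ne hy
  obtain ⟨a, ha⟩ := hd.mem x hx0
  obtain ⟨b, hb⟩ := hc.mem y hy0
  have h1 : c = d ^ a := by rw [← hx, ha]
  have h2 : d = c ^ b := by rw [← hy, hb]
  have h3 : c ^ (1 : ℤ) = c ^ (b * a) := by
    rw [zpow_mul, ← h2, ← h1, zpow_one]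
  have h4 := hc.pow_inj h3
  have h5 : IsUnit a := isUnit_of_dvd_one ⟨b, by rw [h4]; ring⟩
  rcases Int.isUnit_iff.mp h5 with h6 | h6
  · rw [h1, h6, zpow_one]
  · exfalso
    rw [h6] at h1
    have h7 : 1 < c := by
      rw [h1, zpow_neg, zpow_one]
      exact (one_lt_inv₀ hd.pos).mpr hd.lt
    exact absurd hc.lt (not_lt.mpr h7.le)

/-- a valuation equivalent to a `P`-adic one -/
theorem gen_of_adic {B : Type*} [CommRing B] [IsDedekindDomain B] [Algebra B F]
    [IsFractionRing B F] {P : HeightOneSpectrum B} {w : Valuation F ℝ≥0}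
    (h : (P.valuation F).IsEquiv w) :
    ∃ c, Gen w c ∧ ∀ x (n : ℤ), P.valuation F x = exp n → w x = c ^ (-n) := by
  obtain ⟨ϖ, hϖ⟩ := P.valuation_exists_uniformizer F
  have hϖ0 : ϖ ≠ 0 := by rintro rfl; rw [map_zero] at hϖ; exact exp_ne_zero hϖ.symm
  have hpos : 0 < w ϖ := (Valuation.pos_iff w).mpr hϖ0
  have hlt : w ϖ < 1 := by
    rw [← h.lt_one_iff_lt_one, hϖ, ← exp_zero, exp_lt_exp]; norm_num
  have key : ∀ x (n : ℤ), P.valuation F x = exp n → w x = (w ϖ) ^ (-n) := by
    intro x n hx
    have h1 : P.valuation F (x * ϖ ^ n) = 1 := by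
      rw [map_mul, map_zpow₀, hϖ, hx, ← exp_zsmul, ← exp_add]
      simp
    rw [h.eq_one_iff_eq_one, map_mul, map_zpow₀] at h1
    rw [zpow_neg]
    exact eq_inv_of_mul_eq_one_left h1
  refine ⟨w ϖ, ⟨hpos, hlt, fun x hx => ?_, ϖ, rfl⟩, key⟩
  have h1 : P.valuation F x = exp (log (P.valuation F x)) :=
    (exp_log ((Valuation.ne_zero_iff _).mpr hx)).symm
  exact ⟨_, key x _ h1⟩

/-- the valuation ring of a discrete valuation is a DVR -/
theorem dvr_of_gen {w : Valuation F ℝ≥0} {c : ℝ≥0} (h : Gen w c) :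
    IsDiscreteValuationRing w.valuationSubring := by
  obtain ⟨π, hπ⟩ := h.surj
  have hπ0 : π ≠ 0 := by rintro rfl; rw [map_zero] at hπ; exact h.pos.ne hπ
  let p : w.valuationSubring := ⟨π, by rw [Valuation.mem_valuationSubring_iff, hπ]; exact h.lt.le⟩
  have hp0 : p ≠ 0 := fun h0 => hπ0 (congrArg Subtype.val h0)
  have hunit : ∀ x : w.valuationSubring, IsUnit x ↔ w (x : F) = 1 := by
    intro x
    constructor
    · intro hx
      obtain ⟨y, hy⟩ := isUnit_iff_exists_inv.mp hx
      have h1 : w (x : F) * w (y : F) = 1 := by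
        rw [← map_mul]
        have : ((x : F) * (y : F)) = 1 := congrArg Subtype.val hy
        rw [this, map_one]
      refine le_antisymm x.2 ?_
      by_contra hcon
      rw [not_le] at hcon
      have h2 : w (x : F) * w (y : F) < 1 := mul_lt_one_of_lt_of_le hcon y.2
      exact absurd h1 h2.ne
    · intro hx
      have hx0 : (x : F) ≠ 0 := by intro h0; rw [h0, map_zero] at hx; exact zero_ne_one hx
      refine isUnit_iff_exists_inv.mpr ⟨⟨(x : F)⁻¹, ?_⟩, ?_⟩
      · rw [Valuation.mem_valuationSubring_iff, map_inv₀, hx, inv_one]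
      · apply Subtype.ext
        exact mul_inv_cancel₀ hx0
  apply IsDiscreteValuationRing.ofHasUnitMulPowIrreducibleFactorization
  refine ⟨p, ?_, ?_⟩
  · refine ⟨?_, ?_⟩
    · rw [hunit]
      change w π ≠ 1
      rw [hπ]; exact h.lt.ne
    · intro a b hab
      have hab' : w (a : F) * w (b : F) = c := by
        rw [← map_mul, ← hπ]
        exact congrArg w (congrArg Subtype.val hab).symm
      have ha0 : (a : F) ≠ 0 := by
        intro h0; rw [h0, map_zero, zero_mul] at hab'; exact h.pos.ne hab'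
      have hb0 : (b : F) ≠ 0 := by
        intro h0; rw [h0, map_zero, mul_zero] at hab'; exact h.pos.ne hab'
      obtain ⟨m, hm⟩ := h.mem _ ha0
      obtain ⟨n, hn⟩ := h.mem _ hb0
      have hm0 : 0 ≤ m := by
        by_contra hcon
        rw [not_le] at hcon
        have : 1 < c ^ m := one_lt_zpow_of_neg₀ h.pos h.lt hcon
        have h2 : w (a : F) ≤ 1 := a.2
        rw [hm] at h2
        exact absurd h2 (not_le.mpr this)
      have hn0 : 0 ≤ n := by
        by_contra hcon
        rw [not_le] at hcon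
        have : 1 < c ^ n := one_lt_zpow_of_neg₀ h.pos h.lt hcon
        have h2 : w (b : F) ≤ 1 := b.2
        rw [hn] at h2
        exact absurd h2 (not_le.mpr this)
      have hmn : m + n = 1 := by
        apply h.pow_inj
        rw [zpow_add₀ h.pos.ne', ← hm, ← hn, hab', zpow_one]
      rcases (by omega : m = 0 ∨ n = 0) with h0 | h0
      · left; rw [hunit, hm, h0, zpow_zero]
      · right; rw [hunit, hn, h0, zpow_zero]
  · intro x hx
    have hx0 : (x : F) ≠ 0 := fun h0 => hx (Subtype.ext h0)
    obtain ⟨m, hm⟩ := h.mem _ hx0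
    have hm0 : 0 ≤ m := by
      by_contra hcon
      rw [not_le] at hcon
      have : 1 < c ^ m := one_lt_zpow_of_neg₀ h.pos h.lt hcon
      have h2 : w (x : F) ≤ 1 := x.2
      rw [hm] at h2
      exact absurd h2 (not_le.mpr this)
    obtain ⟨n, rfl⟩ := Int.eq_ofNat_of_zero_le hm0
    refine ⟨n, ?_⟩
    let u : F := (x : F) / π ^ n
    have hu : w u = 1 := by
      simp only [u, map_div₀, map_pow, hm, hπ, zpow_natCast]
      exact div_self (pow_ne_zero _ h.pos.ne')
    let uu : w.valuationSubring := ⟨u, by rw [Valuation.mem_valuationSubring_iff, hu]⟩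
    have huu : IsUnit uu := (hunit uu).mpr hu
    refine ⟨huu.unit, ?_⟩
    apply Subtype.ext
    change π ^ n * u = (x : F)
    simp only [u]
    field_simp

end adic

end Crest.Agent.R013.Unr1_957
end

-- ▼ part R013/Unr2_957
section

/-!
# R013 / Unr2: discrete valuations in finite extensions; `e = #inertia` (helper957)
-/

set_option autoImplicit false

namespace Crest.Agent.R013.Unr2_957

open scoped NNReal nonZeroDivisors
open WithZero IsDedekindDomain Module
open Crest.Agent.R013.RR7_948 Crest.Agent.R013.Unr1_957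

section ext

variable {F E : Type*} [Field F] [Field E] [Algebra F E]

/-- an element algebraic over a field on which `w` is bounded has value `≤ 1` -/
theorem le_one_of_integral' {S : Type*} [CommRing S] [Algebra S E] (v : Valuation E ℝ≥0)
    (hS : ∀ s : S, v (algebraMap S E s) ≤ 1) {a : E} (ha : IsIntegral S a) : v a ≤ 1 := by
  obtain ⟨p, hp, hpa⟩ := ha
  let φ : S →+* v.integer := (algebraMap S E).codRestrict v.integer hS
  have h1 : IsIntegral v.integer a := by
    refine ⟨p.map φ, hp.map φ, ?_⟩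
    rw [Polynomial.eval₂_map]
    exact hpa
  exact (Valuation.integer.integers v).mem_of_integral h1

theorem gen_ext_aux [FiniteDimensional F E] [Algebra.IsSeparable F E] {w : Valuation F ℝ≥0}
    {c : ℝ≥0} (h : Gen w c) (w' : Valuation E ℝ≥0) (hw : w'.comap (algebraMap F E) = w) :
    ∃ c' : ℝ≥0, ∃ e : ℕ, 0 < e ∧ Gen w' c' ∧ c = c' ^ e ∧
      (IsGalois F E → (∀ n : ℕ, n ≠ 0 → w (n : F) = 1) → e = Nat.card (Iner F w')) := by
  have hdvr := dvr_of_gen h
  set A := w.valuationSubring with hA
  set B := integralClosure A E with hB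
  have hwA : ∀ x : F, w' (algebraMap F E x) = w x := fun x => by rw [← hw]; rfl
  have hdB : IsDedekindDomain B := integralClosure.isDedekindDomain A F E
  have hfB : IsFractionRing B E := integralClosure.isFractionRing_of_finite_extension F E
  have hmB : Module.Finite A B := IsIntegralClosure.finite A F E B
  have hfreeB : Module.Free A B := IsIntegralClosure.module_free A F E B
  -- the centres
  obtain ⟨x₀, hx₀⟩ := h.surj
  have hnt : ∃ x : F, w x ≠ 0 ∧ w x ≠ 1 :=
    ⟨x₀, by rw [hx₀]; exact h.pos.ne', by rw [hx₀]; exact h.lt.ne⟩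
  obtain ⟨p, hp⟩ := exists_heightOne_isEquiv (A := A) w (fun a => a.2) hnt
  have hBle : ∀ b : B, w' (algebraMap B E b) ≤ 1 := by
    intro b
    apply le_one_of_integral' (S := A) w' _ b.2
    intro s
    have : algebraMap A E s = algebraMap F E (s : F) := rfl
    rw [this, hwA]
    exact s.2
  obtain ⟨P, hP⟩ := exists_heightOne_isEquiv (A := B) w' hBle
    ⟨algebraMap F E x₀, by rw [hwA, hx₀]; exact h.pos.ne', by rw [hwA, hx₀]; exact h.lt.ne⟩
  have hlo : P.asIdeal.LiesOver p.asIdeal := by
    constructor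
    ext a
    rw [Ideal.under_def, Ideal.mem_comap, ← HeightOneSpectrum.valuation_lt_one_iff_mem (K := F),
      ← HeightOneSpectrum.valuation_lt_one_iff_mem (K := E), hp.lt_one_iff_lt_one,
      hP.lt_one_iff_lt_one]
    have h1 : w' (algebraMap B E (algebraMap A B a)) = w (algebraMap A F a) := hwA a
    rw [h1]
  obtain ⟨c₀, hc₀, hkey₀⟩ := gen_of_adic hp
  obtain rfl := h.unique hc₀
  obtain ⟨c', hc', hkey'⟩ := gen_of_adic hP
  have he : 0 < p.asIdeal.ramificationIdx' P.asIdeal :=
    Nat.pos_of_ne_zero (Ideal.IsDedekindDomain.ramificationIdx'_ne_zero_of_liesOver P.asIdeal p.ne_bot)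
  refine ⟨c', p.asIdeal.ramificationIdx' P.asIdeal, he, hc', ?_, ?_⟩
  · obtain ⟨π, hπ⟩ := p.valuation_exists_uniformizer F
    have h1 := HeightOneSpectrum.valuation_liesOver E p P π
    rw [hπ, ← exp_nsmul] at h1
    have h2 := hkey' _ _ h1.symm
    have h3 := hkey₀ _ _ hπ
    rw [hwA, h3] at h2
    simpa using h2
  · intro hgal hres
    have hgal' : IsGaloisGroup (E ≃ₐ[F] E) F E := inferInstance
    have hGAB : IsGaloisGroup (E ≃ₐ[F] E) A B := IsGaloisGroup.of_isFractionRing _ A B F E
    have hflat : Module.Flat A B := inferInstance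
    have hchar : CharZero p.asIdeal.ResidueField := by
      refine charZero_of_inj_zero fun n hn => ?_
      by_contra hn0
      have h1 : algebraMap A p.asIdeal.ResidueField (n : A) = 0 := by rw [map_natCast]; exact hn
      rw [Ideal.algebraMap_residueField_eq_zero,
        ← HeightOneSpectrum.valuation_lt_one_iff_mem (K := F), hp.lt_one_iff_lt_one] at h1
      have h2 : w (n : F) < 1 := by simpa using h1
      rw [hres n hn0] at h2
      exact lt_irrefl _ h2
    have hperf : PerfectField p.asIdeal.ResidueField := inferInstance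
    have h1 := Ideal.card_inertia_eq_ramificationIdxIn (G := E ≃ₐ[F] E) p.asIdeal P.asIdeal
    rw [Ideal.ramificationIdxIn_eq_ramificationIdx p.asIdeal P.asIdeal (E ≃ₐ[F] E),
      ← Ideal.ramificationIdx'_eq_ramificationIdx p.asIdeal P.asIdeal p.ne_bot] at h1
    rw [← h1]
    congr 2
    have hcoe : ∀ b : B, w' (algebraMap B E b) < 1 ↔ b ∈ P.asIdeal := by
      intro b
      rw [← hP.lt_one_iff_lt_one, HeightOneSpectrum.valuation_lt_one_iff_mem]
    ext σ
    rw [AddSubgroup.mem_inertia]
    constructor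
    · intro hσ
      have hσ' : ∀ b : B, w' (σ (b : E) - b) < 1 := by
        intro b
        have h2 := (hcoe (σ • b - b)).mpr (hσ b)
        exact h2
      apply mem_iner_of (isOfFinOrder_of_finite σ)
      intro x hx
      have hx' : P.valuation E x ≤ 1 := hP.le_one_iff_le_one.mpr hx
      obtain ⟨n, d, hnd⟩ := P.exists_primeCompl_mul_eq_of_integer x hx'
      have hd : w' ((d : B) : E) = 1 := by
        refine le_antisymm (hBle _) (not_lt.mp fun hlt => d.2 ((hcoe _).mp hlt))
      have hσd : w' (σ ((d : B) : E)) = 1 := by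
        have h3 : σ ((d : B) : E) = (σ ((d : B) : E) - (d : B)) + (d : B) := by ring
        rw [h3, Valuation.map_add_eq_of_lt_right w' (by rw [hd]; exact hσ' _)]
        exact hd
      have hd0 : ((d : B) : E) ≠ 0 := by
        intro h0; rw [h0, map_zero] at hd; exact zero_ne_one hd
      have hσd0 : σ ((d : B) : E) ≠ 0 := by
        intro h0; rw [h0, map_zero] at hσd; exact zero_ne_one hσd
      have hxe : x = ((n : B) : E) / ((d : B) : E) := by
        rw [eq_div_iff hd0]; exact hnd
      have h4 : σ x - x = ((d : B) * (σ ((n : B) : E) - n) - n * (σ ((d : B) : E) - d))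
          / (σ ((d : B) : E) * (d : B)) := by
        rw [hxe, map_div₀]
        field_simp
        ring
      rw [h4, map_div₀, map_mul, hσd, hd, mul_one, div_one]
      refine lt_of_le_of_lt (Valuation.map_sub _ _ _) (max_lt ?_ ?_)
      · rw [map_mul, hd, one_mul]; exact hσ' n
      · rw [map_mul]
        calc _ ≤ 1 * w' (σ ((d : B) : E) - d) := mul_le_mul_left (hBle n) _
          _ < 1 := by rw [one_mul]; exact hσ' d
    · intro hσ b
      have h2 := hσ.2 (b : E) (hBle b)
      exact (hcoe (σ • b - b)).mp h2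

theorem gen_ext [FiniteDimensional F E] [Algebra.IsSeparable F E] {w : Valuation F ℝ≥0}
    {c : ℝ≥0} (h : Gen w c) (w' : Valuation E ℝ≥0) (hw : w'.comap (algebraMap F E) = w) :
    ∃ c' : ℝ≥0, ∃ e : ℕ, 0 < e ∧ Gen w' c' ∧ c = c' ^ e := by
  obtain ⟨c', e, h1, h2, h3, _⟩ := gen_ext_aux h w' hw
  exact ⟨c', e, h1, h2, h3⟩

theorem gen_ext_galois [FiniteDimensional F E] [IsGalois F E] {w : Valuation F ℝ≥0}
    {c : ℝ≥0} (h : Gen w c) (w' : Valuation E ℝ≥0) (hw : w'.comap (algebraMap F E) = w)
    (hres : ∀ n : ℕ, n ≠ 0 → w (n : F) = 1) {c' : ℝ≥0} (hc' : Gen w' c') :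
    c = c' ^ (Nat.card (Iner F w')) := by
  obtain ⟨c'', e, _, h2, h3, h4⟩ := gen_ext_aux h w' hw
  obtain rfl := hc'.unique h2
  rw [← h4 inferInstance hres]
  exact h3

end ext

section key

variable {K N : Type*} [Field K] [Field N] [Algebra K N]


/-- **Criterion**: `L/K` has ramification index one at `w` iff the inertia group of `w` fixes `L`. -/
theorem val_eq_iff_iner [FiniteDimensional K N] [IsGalois K N] {w : Valuation N ℝ≥0} {c : ℝ≥0}
    (h : Gen (w.comap (algebraMap K N)) c) (hres : ∀ n : ℕ, n ≠ 0 → w (n : N) = 1)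
    (L : IntermediateField K N) :
    (∀ b ∈ L, b ≠ 0 → ∃ a : K, w b = w (algebraMap K N a)) ↔
      ∀ σ ∈ Iner K w, ∀ x ∈ L, σ x = x := by
  have hresK : ∀ n : ℕ, n ≠ 0 → w.comap (algebraMap K N) (n : K) = 1 := by
    intro n hn
    rw [Valuation.comap_apply, map_natCast, hres n hn]
  have hresL : ∀ n : ℕ, n ≠ 0 → w.comap (algebraMap L N) (n : L) = 1 := by
    intro n hn
    rw [Valuation.comap_apply, map_natCast, hres n hn]
  obtain ⟨c', e, he, hc', hcc'⟩ := gen_ext h w rfl
  obtain ⟨cL, e₂, he₂, hcL, hccL⟩ := gen_ext (E := L) h (w.comap (algebraMap L N)) (by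
    ext x; rfl)
  have h1 := gen_ext_galois h w rfl hresK hc'
  have h2 := gen_ext_galois hcL w rfl hresL hc'
  -- the restriction map on inertia groups
  let f : Iner L w → Iner K w := fun σ => ⟨σ.1.restrictScalars K, σ.2⟩
  have hf : Function.Injective f := by
    intro σ τ hστ
    apply Subtype.ext
    exact AlgEquiv.restrictScalars_injective K (congrArg Subtype.val hστ)
  have hfix : (∀ σ ∈ Iner K w, ∀ x ∈ L, σ x = x) ↔ Function.Surjective f := by
    constructor
    · intro hall ⟨σ, hσ⟩
      let τ : N ≃ₐ[L] N := AlgEquiv.ofRingEquiv (f := σ.toRingEquiv) (by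
        intro x
        exact hall σ hσ (x : N) x.2)
      refine ⟨⟨τ, hσ⟩, ?_⟩
      apply Subtype.ext
      ext x
      rfl
    · intro hsurj σ hσ x hx
      obtain ⟨τ, hτ⟩ := hsurj ⟨σ, hσ⟩
      have h3 : τ.1.restrictScalars K = σ := congrArg Subtype.val hτ
      rw [← h3]
      exact τ.1.commutes ⟨x, hx⟩
  have hcard : Function.Surjective f ↔ Nat.card (Iner L w) = Nat.card (Iner K w) := by
    constructor
    · intro hs
      exact Nat.card_congr (Equiv.ofBijective f ⟨hf, hs⟩)
    · intro hc
      have : Finite (Iner L w) := Finite.of_injective f hf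
      exact ((Nat.bijective_iff_injective_and_card f).mpr ⟨hf, hc⟩).2
  rw [hfix, hcard]
  constructor
  · intro hval
    have h3 : Gen (w.comap (algebraMap L N)) c := by
      refine ⟨h.pos, h.lt, ?_, ?_⟩
      · intro x hx
        obtain ⟨a, ha⟩ := hval (x : N) x.2 (by simpa using hx)
        have ha0 : a ≠ 0 := by
          rintro rfl
          rw [map_zero, map_zero] at ha
          exact hx (by simpa using ha)
        obtain ⟨n, hn⟩ := h.mem a ha0
        exact ⟨n, by rw [← hn]; exact ha⟩
      · obtain ⟨x, hx⟩ := h.surj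
        refine ⟨algebraMap K L x, ?_⟩
        rw [← hx]; rfl
    have h4 := hcL.unique h3
    rw [h4] at h2
    have h5 := h1.symm.trans h2
    have h6 : c' ^ ((Nat.card (Iner K w) : ℕ) : ℤ) = c' ^ ((Nat.card (Iner L w) : ℕ) : ℤ) := by
      rw [zpow_natCast, zpow_natCast]; exact h5
    exact_mod_cast (hc'.pow_inj h6).symm
  · intro hcd b hb hb0
    have h3 : cL = c := by rw [h2, hcd, ← h1]
    obtain ⟨n, hn⟩ := hcL.mem ⟨b, hb⟩ (fun h0 => hb0 (congrArg Subtype.val h0))
    obtain ⟨π, hπ⟩ := h.surj
    refine ⟨π ^ n, ?_⟩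
    have h4 : w b = cL ^ n := hn
    rw [h4, h3, ← hπ, map_zpow₀, map_zpow₀]
    rfl

end key

end Crest.Agent.R013.Unr2_957
end

-- ▼ part R013/Unr3_957

/-!
# R013 / Unr3: places of function fields are discrete, extension of places (helper957)
-/

set_option autoImplicit false

namespace Crest.Agent.R013.Unr3_957

open scoped NNReal nonZeroDivisors
open WithZero IsDedekindDomain Module
open Crest.NumberTheoryR.Sect
open Crest.Agent.R013.RR7_948 Crest.Agent.R013.Unr1_957 Crest.Agent.R013.Unr2_957

section extend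

variable {F E : Type*} [Field F] [Field E] [Algebra F E]

/-- extension of a discrete valuation to a finite separable extension -/
theorem exists_extend [FiniteDimensional F E] [Algebra.IsSeparable F E] {w : Valuation F ℝ≥0}
    {c : ℝ≥0} (h : Gen w c) : ∃ w' : Valuation E ℝ≥0, w'.comap (algebraMap F E) = w := by
  have hdvr := dvr_of_gen h
  set A := w.valuationSubring with hA
  set B := integralClosure A E with hB
  have hdB : IsDedekindDomain B := integralClosure.isDedekindDomain A F E
  have hfB : IsFractionRing B E := integralClosure.isFractionRing_of_finite_extension F E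
  have hmB : Module.Finite A B := IsIntegralClosure.finite A F E B
  have hfreeB : Module.Free A B := IsIntegralClosure.module_free A F E B
  have hfaith : FaithfulSMul A B := by
    rw [faithfulSMul_iff_algebraMap_injective]
    intro a b hab
    apply Subtype.ext
    apply (algebraMap F E).injective
    exact congrArg Subtype.val hab
  obtain ⟨x₀, hx₀⟩ := h.surj
  have hnt : ∃ x : F, w x ≠ 0 ∧ w x ≠ 1 :=
    ⟨x₀, by rw [hx₀]; exact h.pos.ne', by rw [hx₀]; exact h.lt.ne⟩
  obtain ⟨p, hp⟩ := exists_heightOne_isEquiv (A := A) w (fun a => a.2) hnt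
  obtain ⟨P, hP1, hP2⟩ : ∃ P : Ideal B, P.IsPrime ∧ P.LiesOver p.asIdeal := by
    have hint : Algebra.IsIntegral A B := inferInstance
    obtain ⟨⟨P, hP⟩⟩ := Ideal.nonempty_primesOver (S := B) p.asIdeal
    exact ⟨P, hP.1, hP.2⟩
  have hP0 : P ≠ ⊥ := Ideal.ne_bot_of_liesOver_of_ne_bot p.ne_bot P
  let Q : HeightOneSpectrum B := ⟨P, hP1, hP0⟩
  have hlo : Q.asIdeal.LiesOver p.asIdeal := hP2
  obtain ⟨c₀, hc₀, hkey₀⟩ := gen_of_adic hp
  obtain rfl := h.unique hc₀
  set e := p.asIdeal.ramificationIdx' Q.asIdeal with he'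
  have he : 0 < e :=
    Nat.pos_of_ne_zero (Ideal.IsDedekindDomain.ramificationIdx'_ne_zero_of_liesOver Q.asIdeal p.ne_bot)
  -- base of the exponential
  set d : ℝ≥0 := (c⁻¹) ^ ((1 : ℝ) / e) with hd
  have hcinv : 1 < c⁻¹ := (one_lt_inv₀ h.pos).mpr h.lt
  have hd1 : 1 < d := NNReal.one_lt_rpow hcinv (by positivity)
  have hde : d ^ e = c⁻¹ := by
    rw [hd, ← NNReal.rpow_natCast, ← NNReal.rpow_mul, one_div,
      inv_mul_cancel₀ (by exact_mod_cast he.ne'), NNReal.rpow_one]
  let φ := WithZeroMulInt.toNNReal (zero_lt_one.trans hd1).ne'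
  have hφ : StrictMono φ := WithZeroMulInt.toNNReal_strictMono hd1
  have hφexp : ∀ n : ℤ, φ (exp n) = d ^ n := by
    intro n
    simp only [φ]
    rw [WithZeroMulInt.toNNReal_neg_apply _ exp_ne_zero]
    rfl
  refine ⟨(Q.valuation E).map φ hφ.monotone, ?_⟩
  ext x
  rw [Valuation.comap_apply, Valuation.map_apply]
  by_cases hx : x = 0
  · simp [hx]
  have h1 : p.valuation F x = exp (log (p.valuation F x)) :=
    (exp_log ((Valuation.ne_zero_iff _).mpr hx)).symm
  have h2 := HeightOneSpectrum.valuation_liesOver E p Q x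
  rw [← h2, hkey₀ x _ h1]
  rw [h1, ← exp_nsmul, hφexp, log_exp, nsmul_eq_mul, zpow_mul, zpow_natCast, hde, inv_zpow,
    zpow_neg]

end extend

section place

variable {k : Type*} [Field k]

theorem trivialOn_of_isPlace {F : Type*} [Field F] [Algebra k F] {v : Valuation F ℝ≥0}
    (hv : IsPlace k v) : v.IsTrivialOn k := ⟨hv.1⟩

theorem isNontrivial_of_isPlace {F : Type*} [Field F] [Algebra k F] {v : Valuation F ℝ≥0}
    (hv : IsPlace k v) : v.IsNontrivial := by
  obtain ⟨a, h0, h1⟩ := hv.2
  exact ⟨a, h0, h1⟩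

theorem gen_ratFunc {v : Valuation (RatFunc k) ℝ≥0} (hv : IsPlace k v) : ∃ c, Gen v c := by
  have h1 := trivialOn_of_isPlace hv
  have h2 := isNontrivial_of_isPlace hv
  rcases lt_or_ge 1 (v RatFunc.X) with hX | hX
  · refine ⟨(v RatFunc.X)⁻¹, inv_pos.mpr (zero_lt_one.trans hX),
      (inv_lt_one₀ (zero_lt_one.trans hX)).mpr hX, fun x hx => ⟨-x.intDegree, ?_⟩,
      RatFunc.X⁻¹, by rw [map_inv₀]⟩
    rw [RatFunc.valuation_eq_valuation_X_zpow_intDegree_of_one_lt_valuation_X hX hx]
    simp
  · have hne : RatFunc.uniformizingPolynomial hX ≠ 0 := RatFunc.uniformizingPolynomial_ne_zero hX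
    have hlt := RatFunc.valuation_uniformizingPolynomial_lt_one hX
    refine ⟨v (RatFunc.uniformizingPolynomial hX : RatFunc k), ?_, hlt, fun x hx => ?_, _, rfl⟩
    · rw [Valuation.pos_iff]
      simpa using hne
    · obtain ⟨z, hz⟩ := RatFunc.exists_zpow_uniformizingPolynomial hX hx
      exact ⟨z, hz⟩

variable {F E : Type*} [Field F] [Field E] [Algebra F E] [Algebra k F] [Algebra k E]
  [IsScalarTower k F E]

/-- restriction of a place along an algebraic extension -/
theorem isPlace_comap [Algebra.IsAlgebraic F E] {w : Valuation E ℝ≥0} (hw : IsPlace k w) :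
    IsPlace k (w.comap (algebraMap F E)) := by
  refine ⟨fun c hc => ?_, ?_⟩
  · rw [Valuation.comap_apply, ← IsScalarTower.algebraMap_apply]
    exact hw.1 c hc
  · by_contra hcon
    push Not at hcon
    obtain ⟨a, ha0, ha1⟩ := hw.2
    have hle : ∀ x : F, w (algebraMap F E x) ≤ 1 := by
      intro x
      by_cases hx : w (algebraMap F E x) = 0
      · rw [hx]; exact zero_le_one
      · exact (hcon x hx).le
    have h1 : ∀ y : E, w y ≤ 1 := fun y =>
      le_one_of_integral' (S := F) w hle (Algebra.IsIntegral.isIntegral y)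
    have h2 := h1 a
    have h3 := h1 a⁻¹
    have hpos : 0 < w a := pos_iff_ne_zero.mpr ha0
    rw [map_inv₀, inv_le_one₀ hpos] at h3
    exact ha1 (le_antisymm h2 h3)

/-- a valuation extending a place is a place -/
theorem isPlace_of_comap {w : Valuation E ℝ≥0} (hw : IsPlace k (w.comap (algebraMap F E))) :
    IsPlace k w := by
  refine ⟨fun c hc => ?_, ?_⟩
  · have := hw.1 c hc
    rwa [Valuation.comap_apply, ← IsScalarTower.algebraMap_apply] at this
  · obtain ⟨a, ha0, ha1⟩ := hw.2
    exact ⟨algebraMap F E a, ha0, ha1⟩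

omit [Algebra k E] [IsScalarTower k F E] [Algebra F E] [Field E] in
theorem place_natCast [CharZero k] {w : Valuation F ℝ≥0} (hw : IsPlace k w) (n : ℕ)
    (hn : n ≠ 0) : w (n : F) = 1 := by
  have := hw.1 (n : k) (Nat.cast_ne_zero.mpr hn)
  rwa [map_natCast] at this

end place

section functionField

variable {k : Type*} [Field k] [CharZero k] {F : Type*} [Field F] [Algebra k F]
  [Algebra (RatFunc k) F] [IsScalarTower k (RatFunc k) F] [FiniteDimensional (RatFunc k) F]

/-- places of function fields are discrete -/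
theorem gen_place {w : Valuation F ℝ≥0} (hw : IsPlace k w) : ∃ c, Gen w c := by
  have : CharZero (RatFunc k) := charZero_of_injective_algebraMap (algebraMap k (RatFunc k)).injective
  obtain ⟨c, hc⟩ := gen_ratFunc (isPlace_comap (F := RatFunc k) hw)
  obtain ⟨c', _, _, h, _⟩ := gen_ext hc w rfl
  exact ⟨c', h⟩

end functionField

end Crest.Agent.R013.Unr3_957
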