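import Mathlib
import Crest.Agent.R013.Unr3_957
import Crest.Prelude.Def_SectConj
import Crest.Agent.R013.Unr5_957
import Crest.Agent.R013.Unr9_957

-- ▼ part R013/Unr6_957
section

/-!
# R013 / Unr6: extensions of a discrete valuation to a finite Galois extension are conjugate;
`UnrAt v A`: the commutative `K`-algebra `A` is unramified (ramification index one) at `v`
(helper957)
-/

set_option autoImplicit false
set_option linter.style.haveILetI false
set_option linter.unusedSectionVars false

namespace Crest.Agent.R013.Unr6_957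

open scoped NNReal nonZeroDivisors Pointwise
open WithZero IsDedekindDomain Module
open Crest.Agent.R013.RR7_948 Crest.Agent.R013.Unr1_957 Crest.Agent.R013.Unr2_957
open Crest.Agent.R013.Unr3_957

section conj

variable {F E : Type*} [Field F] [Field E] [Algebra F E]

/-- two valuations equivalent to the same `P`-adic one, equal to the same nontrivial value somewhere,
are equal -/
theorem eq_of_adic {B : Type*} [CommRing B] [IsDedekindDomain B] [Algebra B F]
    [IsFractionRing B F] {P : HeightOneSpectrum B} {w w' : Valuation F ℝ≥0}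
    (h : (P.valuation F).IsEquiv w) (h' : (P.valuation F).IsEquiv w') {x : F} (hx : w x = w' x)
    (hx0 : w x ≠ 0) (hx1 : w x ≠ 1) : w = w' := by
  obtain ⟨c, hc, hk⟩ := gen_of_adic h
  obtain ⟨c', hc', hk'⟩ := gen_of_adic h'
  have hx' : x ≠ 0 := by rintro rfl; exact hx0 (map_zero _)
  have e : ∀ y : F, y ≠ 0 → P.valuation F y = exp (log (P.valuation F y)) := fun y hy =>
    (exp_log ((Valuation.ne_zero_iff _).mpr hy)).symm
  have h1 := hk x _ (e x hx')
  have h2 := hk' x _ (e x hx')
  set m := -log (P.valuation F x) with hm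
  have hcc : c = c' := by
    have hm0 : m ≠ 0 := by
      intro h0
      rw [h0, zpow_zero] at h1
      exact hx1 h1
    rw [h1, h2] at hx
    exact (zpow_left_inj₀ zero_le' zero_le' hm0).mp hx
  ext y
  by_cases hy : y = 0
  · simp [hy]
  · rw [hk y _ (e y hy), hk' y _ (e y hy), hcc]

/-- extensions of a discrete valuation to a finite Galois extension are conjugate -/
theorem exists_conj [FiniteDimensional F E] [IsGalois F E] {v : Valuation F ℝ≥0}
    {c : ℝ≥0} (h : Gen v c) (w w' : Valuation E ℝ≥0) (hw : w.comap (algebraMap F E) = v)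
    (hw' : w'.comap (algebraMap F E) = v) : ∃ σ : E ≃ₐ[F] E, ∀ x, w' x = w (σ x) := by
  have hdvr := dvr_of_gen h
  set A := v.valuationSubring with hA
  set B := integralClosure A E with hB
  have hwA : ∀ x : F, w (algebraMap F E x) = v x := fun x => by rw [← hw]; rfl
  have hwA' : ∀ x : F, w' (algebraMap F E x) = v x := fun x => by rw [← hw']; rfl
  have hdB : IsDedekindDomain B := integralClosure.isDedekindDomain A F E
  have hfB : IsFractionRing B E := integralClosure.isFractionRing_of_finite_extension F E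
  obtain ⟨x₀, hx₀⟩ := h.surj
  have hnt : ∃ x : F, v x ≠ 0 ∧ v x ≠ 1 :=
    ⟨x₀, by rw [hx₀]; exact h.pos.ne', by rw [hx₀]; exact h.lt.ne⟩
  have hBle : ∀ u : Valuation E ℝ≥0, (∀ x : F, u (algebraMap F E x) = v x) →
      ∀ b : B, u (algebraMap B E b) ≤ 1 := by
    intro u hu b
    apply le_one_of_integral' (S := A) u _ b.2
    intro s
    have : algebraMap A E s = algebraMap F E (s : F) := rfl
    rw [this, hu]
    exact s.2
  have hcen : ∀ u : Valuation E ℝ≥0, (∀ x : F, u (algebraMap F E x) = v x) →
      ∃ P : HeightOneSpectrum B, (P.valuation E).IsEquiv u := by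
    intro u hu
    exact exists_heightOne_isEquiv (A := B) u (hBle u hu)
      ⟨algebraMap F E x₀, by rw [hu, hx₀]; exact h.pos.ne', by rw [hu, hx₀]; exact h.lt.ne⟩
  obtain ⟨P, hP⟩ := hcen w hwA
  obtain ⟨P', hP'⟩ := hcen w' hwA'
  have hgal' : IsGaloisGroup (E ≃ₐ[F] E) F E := inferInstance
  have hGAB : IsGaloisGroup (E ≃ₐ[F] E) A B := IsGaloisGroup.of_isFractionRing _ A B F E
  have hinv : Algebra.IsInvariant A B (E ≃ₐ[F] E) := hGAB.isInvariant
  have hcomm : SMulCommClass (E ≃ₐ[F] E) A B := hGAB.commutes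
  have hund : ∀ (u : Valuation E ℝ≥0) (_ : ∀ x : F, u (algebraMap F E x) = v x)
      (Q : HeightOneSpectrum B) (_ : (Q.valuation E).IsEquiv u) (a : A),
      a ∈ Q.asIdeal.under A ↔ v (a : F) < 1 := by
    intro u hu Q hQ a
    rw [Ideal.under_def, Ideal.mem_comap, ← HeightOneSpectrum.valuation_lt_one_iff_mem (K := E),
      hQ.lt_one_iff_lt_one]
    have h1 : u (algebraMap B E (algebraMap A B a)) = v (a : F) := hu a
    rw [h1]
  have hPP : P.asIdeal.under A = P'.asIdeal.under A := by
    ext a
    rw [hund w hwA P hP, hund w' hwA' P' hP']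
  obtain ⟨g, hg⟩ := Algebra.IsInvariant.exists_smul_of_under_eq A B (E ≃ₐ[F] E) P.asIdeal
    P'.asIdeal hPP
  -- `w ∘ g⁻¹` has centre `P'`
  let u : Valuation E ℝ≥0 := w.comap ((g⁻¹ : E ≃ₐ[F] E) : E →+* E)
  have hu : ∀ x : F, u (algebraMap F E x) = v x := by
    intro x
    change w (g⁻¹ (algebraMap F E x)) = v x
    rw [AlgEquiv.commutes, hwA]
  obtain ⟨Q, hQ⟩ := hcen u hu
  have hQP' : Q = P' := by
    apply HeightOneSpectrum.ext
    rw [hg]
    ext b
    rw [← HeightOneSpectrum.valuation_lt_one_iff_mem (K := E), hQ.lt_one_iff_lt_one,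
      Ideal.mem_pointwise_smul_iff_inv_smul_mem,
      ← HeightOneSpectrum.valuation_lt_one_iff_mem (K := E), hP.lt_one_iff_lt_one]
    rfl
  rw [hQP'] at hQ
  have huw : u = w' := by
    refine eq_of_adic hQ hP' (x := algebraMap F E x₀) ?_ ?_ ?_
    · rw [hu, hwA']
    · rw [hu, hx₀]; exact h.pos.ne'
    · rw [hu, hx₀]; exact h.lt.ne
  refine ⟨g⁻¹, fun x => ?_⟩
  rw [← huw]
  rfl

end conj

end Crest.Agent.R013.Unr6_957
end

-- ▼ part R013/Unr7_957
section

/-!
# R013 / Unr7: `UnrAt v A`, the commutative `K`-algebra `A` has ramification index one at all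
extensions of the valuation `v` of `K` (helper957)

* elementary: `of_surj`, `congr`, `prod`, `pi`, `self`;
* `iner_fix`, `unrAt_of_iner`: inertia criterion;
* `UnrAt.tensor`;
* `UnrAt.baseChange`, `UnrAt.of_baseChange`: base change to a valued extension field `(M, v')`.
-/

set_option autoImplicit false
set_option linter.style.haveILetI false
set_option linter.unusedSectionVars false

universe u

namespace Crest.Agent.R013.Unr7_957

open scoped NNReal nonZeroDivisors Pointwise TensorProduct
open WithZero IsDedekindDomain Module IntermediateField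
open Crest.Agent.R013.RR7_948 Crest.Agent.R013.Unr1_957 Crest.Agent.R013.Unr2_957
open Crest.Agent.R013.Unr3_957 Crest.Agent.R013.Unr6_957

/-- the commutative `K`-algebra `A` has ramification index one at all extensions of `v` -/
def UnrAt {K : Type*} [Field K] (v : Valuation K ℝ≥0) (A : Type*) [CommRing A] [Algebra K A] :
    Prop :=
  ∀ w : Valuation A ℝ≥0, w.comap (algebraMap K A) = v → ∀ b : A, ∃ a : K, w b = v a

section basic

variable {K : Type*} [Field K] {v : Valuation K ℝ≥0}
variable {A B : Type*} [CommRing A] [Algebra K A] [CommRing B] [Algebra K B]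

theorem UnrAt.of_surj (h : UnrAt v A) (f : A →ₐ[K] B) (hf : Function.Surjective f) :
    UnrAt v B := by
  intro w hw b
  obtain ⟨a, rfl⟩ := hf b
  refine h (w.comap f.toRingHom) ?_ a
  rw [← hw, ← Valuation.comap_comp]
  congr 1
  exact f.comp_algebraMap

theorem UnrAt.congr (e : A ≃ₐ[K] B) : UnrAt v A ↔ UnrAt v B :=
  ⟨fun h => h.of_surj e.toAlgHom e.surjective, fun h => h.of_surj e.symm.toAlgHom e.symm.surjective⟩





/-- the quotient field of a finite algebra at a valuation -/
theorem exists_field {A : Type*} [CommRing A] [Algebra K A] [Module.Finite K A]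
    (w : Valuation A ℝ≥0) :
    ∃ (p : Ideal A) (_ : p.IsMaximal), ∃ w' : Valuation (A ⧸ p) ℝ≥0,
      w'.comap (Ideal.Quotient.mk p) = w := by
  have : IsArtinianRing A := isArtinian_of_tower K inferInstance
  exact ⟨w.supp, inferInstance, w.onQuot le_rfl, w.onQuot_comap_eq le_rfl⟩

/-- `UnrAt` for a finite algebra only concerns its quotient fields -/
theorem unrAt_iff_quot {A : Type*} [CommRing A] [Algebra K A] [Module.Finite K A] :
    UnrAt v A ↔ ∀ (p : Ideal A) [p.IsMaximal], UnrAt v (A ⧸ p) := by
  constructor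
  · intro h p _
    exact h.of_surj (Ideal.Quotient.mkₐ K p) (Ideal.Quotient.mkₐ_surjective K p)
  · intro h w hw b
    obtain ⟨p, hp, w', hw'⟩ := exists_field (K := K) w
    have h2 : w'.comap (algebraMap K (A ⧸ p)) = v := by
      rw [← hw, ← hw', ← Valuation.comap_comp]; rfl
    obtain ⟨a, ha⟩ := h p w' h2 (Ideal.Quotient.mk p b)
    exact ⟨a, by rw [← ha, ← hw']; rfl⟩

/-- generic version: it is enough to look at the surjections to fields -/
theorem unrAt_of_fields {K : Type*} [Field K] {v : Valuation K ℝ≥0} {A : Type u} [CommRing A]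
    [Algebra K A] [Module.Finite K A]
    (h : ∀ (L : Type u) [Field L] [Algebra K L] (f : A →ₐ[K] L), Function.Surjective f →
      UnrAt v L) : UnrAt v A := by
  rw [unrAt_iff_quot]
  intro p hp
  letI : Field (A ⧸ p) := Ideal.Quotient.field p
  exact h (A ⧸ p) (Ideal.Quotient.mkₐ K p) (Ideal.Quotient.mkₐ_surjective K p)

end basic

section iner

variable {K : Type*} [Field K] {v : Valuation K ℝ≥0} {c : ℝ≥0}

theorem charZero_of_res (hres : ∀ n : ℕ, n ≠ 0 → v (n : K) = 1) : CharZero K :=
  charZero_of_inj_zero fun n hn => by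
    by_contra hn0
    have := hres n hn0
    rw [hn, map_zero] at this
    exact zero_ne_one this

/-- inertia groups fix the images of an unramified algebra -/
theorem iner_fix {A N : Type*} [CommRing A] [Algebra K A] [Field N] [Algebra K N]
    [FiniteDimensional K N] [IsGalois K N] (hv : Gen v c)
    (hres : ∀ n : ℕ, n ≠ 0 → v (n : K) = 1) (hA : UnrAt v A) (f : A →ₐ[K] N)
    {w : Valuation N ℝ≥0} (hw : w.comap (algebraMap K N) = v) {σ : N ≃ₐ[K] N}
    (hσ : σ ∈ Iner K w) (a : A) : σ (f a) = f a := by
  let L : IntermediateField K N := f.range.toIntermediateField (by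
    intro x hx
    exact (f.range).inv_mem_of_algebraic (x := ⟨x, hx⟩) (Algebra.IsAlgebraic.isAlgebraic _))
  have hL : UnrAt v L := by
    refine hA.of_surj (B := L) (f.codRestrict L.toSubalgebra (fun a => ⟨a, rfl⟩)) ?_
    rintro ⟨_, a, rfl⟩
    exact ⟨a, rfl⟩
  have hresN : ∀ n : ℕ, n ≠ 0 → w (n : N) = 1 := by
    intro n hn
    rw [← hres n hn, ← hw, Valuation.comap_apply, map_natCast (algebraMap K N)]
  have hwv : ∀ x : K, w (algebraMap K N x) = v x := fun x => by rw [← hw]; rfl
  refine (val_eq_iff_iner (w := w) (by rw [hw]; exact hv) hresN L).mp ?_ σ hσ (f a) ⟨a, rfl⟩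
  intro b hb _
  obtain ⟨a', ha'⟩ := hL (w.comap (algebraMap L N)) (by rw [← Valuation.comap_comp]; exact hw)
    ⟨b, hb⟩
  refine ⟨a', ?_⟩
  rw [hwv, ← ha']
  rfl

/-- if the inertia groups of the extensions of `w` to a Galois extension fix the image of `L`,
then `L` is unramified -/
theorem unrAt_of_iner {L N : Type*} [Field L] [Algebra K L] [Field N] [Algebra K N]
    [FiniteDimensional K N] [IsGalois K N] (hv : Gen v c)
    (hres : ∀ n : ℕ, n ≠ 0 → v (n : K) = 1) (f : L →ₐ[K] N)
    (h : ∀ w : Valuation N ℝ≥0, w.comap (algebraMap K N) = v → ∀ σ ∈ Iner K w, ∀ x : L,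
      σ (f x) = f x) : UnrAt v L := by
  have hcK := charZero_of_res hres
  intro w hw b
  have hfd : FiniteDimensional K L := FiniteDimensional.of_injective f.toLinearMap f.injective
  have hcL : CharZero L := charZero_of_injective_algebraMap (algebraMap K L).injective
  obtain ⟨c', e, he, hc', hcc'⟩ := gen_ext hv w hw
  let : Algebra L N := f.toRingHom.toAlgebra
  have : IsScalarTower K L N := IsScalarTower.of_algebraMap_eq (fun x => (f.commutes x).symm)
  have : FiniteDimensional L N := FiniteDimensional.right K L N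
  obtain ⟨w', hw'⟩ := exists_extend (E := N) hc'
  have hwv' : w'.comap (algebraMap K N) = v := by
    rw [IsScalarTower.algebraMap_eq K L N, Valuation.comap_comp, hw', hw]
  have hwv : ∀ x : K, w' (algebraMap K N x) = v x := fun x => by rw [← hwv']; rfl
  have hresN : ∀ n : ℕ, n ≠ 0 → w' (n : N) = 1 := by
    intro n hn
    rw [← hres n hn, ← hwv', Valuation.comap_apply, map_natCast (algebraMap K N)]
  by_cases hb : b = 0
  · exact ⟨0, by rw [hb, map_zero, map_zero]⟩
  obtain ⟨a, ha⟩ := (val_eq_iff_iner (w := w') (by rw [hwv']; exact hv) hresN f.fieldRange).mpr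
    (by
      rintro σ hσ _ ⟨x, rfl⟩
      exact h w' hwv' σ hσ x) (f b) ⟨b, rfl⟩ (by simpa using hb)
  refine ⟨a, ?_⟩
  rw [← hwv, ← ha, ← hw']
  rfl

/-- a finite extension embeds into a finite Galois one -/
theorem exists_galois_hom (K : Type*) [Field K] [CharZero K] (L : Type*) [Field L] [Algebra K L]
    [FiniteDimensional K L] :
    ∃ N : IntermediateField K (AlgebraicClosure L), FiniteDimensional K N ∧ IsGalois K N ∧
      ∀ x : L, algebraMap L (AlgebraicClosure L) x ∈ N := by
  have : Algebra.IsAlgebraic K (AlgebraicClosure L) :=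
    Algebra.IsAlgebraic.trans K L (AlgebraicClosure L)
  have : IsAlgClosure K (AlgebraicClosure L) := ⟨inferInstance, inferInstance⟩
  have : Normal K (AlgebraicClosure L) := normal_iff.mpr fun x =>
    ⟨Algebra.IsIntegral.isIntegral x, IsAlgClosed.splits _⟩
  let f : L →ₐ[K] AlgebraicClosure L := IsScalarTower.toAlgHom K L (AlgebraicClosure L)
  refine ⟨normalClosure K L (AlgebraicClosure L), ?_, ?_, fun x => ?_⟩
  · exact normalClosure.is_finiteDimensional K L (AlgebraicClosure L)
  · exact IsGalois.normalClosure K L (AlgebraicClosure L)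
  · exact AlgHom.fieldRange_le_normalClosure f ⟨x, rfl⟩


/-- sub-extensions -/
theorem UnrAt.of_hom {L M : Type*} [Field L] [Algebra K L] [Field M] [Algebra K M]
    [FiniteDimensional K M] (hv : Gen v c)
    (hres : ∀ n : ℕ, n ≠ 0 → v (n : K) = 1) (hM : UnrAt v M) (f : L →ₐ[K] M) : UnrAt v L := by
  have := charZero_of_res hres
  obtain ⟨N, h1, h2, h3⟩ := exists_galois_hom K M
  let g : M →ₐ[K] N := (IsScalarTower.toAlgHom K M (AlgebraicClosure M)).codRestrict
    N.toSubalgebra h3
  exact unrAt_of_iner hv hres (g.comp f) fun w hw σ hσ x => iner_fix hv hres hM g hw hσ (f x)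


/-- fields: the compositum of two unramified extensions is unramified -/
theorem UnrAt.compositum {L₁ L₂ M : Type*} [Field L₁] [Algebra K L₁] [Field L₂] [Algebra K L₂]
    [Field M] [Algebra K M] [FiniteDimensional K M] (hv : Gen v c)
    (hres : ∀ n : ℕ, n ≠ 0 → v (n : K) = 1) (h₁ : UnrAt v L₁) (h₂ : UnrAt v L₂)
    (f₁ : L₁ →ₐ[K] M) (f₂ : L₂ →ₐ[K] M) (hM : f₁.fieldRange ⊔ f₂.fieldRange = ⊤) :
    UnrAt v M := by
  have := charZero_of_res hres
  obtain ⟨N, h1, h2, h3⟩ := exists_galois_hom K M
  let g : M →ₐ[K] N := (IsScalarTower.toAlgHom K M (AlgebraicClosure M)).codRestrict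
    N.toSubalgebra h3
  refine unrAt_of_iner hv hres g fun w hw σ hσ x => ?_
  -- the subfield of `M` of elements `x` with `σ (g x) = g x`
  let E : IntermediateField K M := IntermediateField.comap g
    (IntermediateField.fixedField (Subgroup.zpowers σ))
  have hE : ∀ x : M, x ∈ E ↔ σ (g x) = g x := by
    intro x
    change g x ∈ IntermediateField.fixedField (Subgroup.zpowers σ) ↔ _
    rw [IntermediateField.mem_fixedField_iff]
    constructor
    · intro hy
      exact hy σ (Subgroup.mem_zpowers σ)
    · intro hy τ hτ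
      have h1 : σ ∈ MulAction.stabilizer (N ≃ₐ[K] N) (g x) := hy
      have h2 : Subgroup.zpowers σ ≤ MulAction.stabilizer (N ≃ₐ[K] N) (g x) := by
        rwa [Subgroup.zpowers_le]
      exact h2 hτ
  have htop : (⊤ : IntermediateField K M) ≤ E := by
    rw [← hM, sup_le_iff]
    constructor
    · rintro _ ⟨a, rfl⟩
      exact (hE _).mpr (iner_fix hv hres h₁ (g.comp f₁) hw hσ a)
    · rintro _ ⟨a, rfl⟩
      exact (hE _).mpr (iner_fix hv hres h₂ (g.comp f₂) hw hσ a)
  exact (hE x).mp (htop trivial)

end iner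

section base

variable {K M : Type*} [Field K] [Field M] [Algebra K M]
variable {v : Valuation K ℝ≥0} {v' : Valuation M ℝ≥0} {c c' : ℝ≥0}

/-- extension of embeddings into an algebraically closed field -/
theorem exists_lift_hom {K L N Ω : Type*} [Field K] [Field L] [Field N] [Field Ω] [Algebra K L]
    [Algebra K N] [Algebra K Ω] [Algebra.IsAlgebraic K N] [IsAlgClosed Ω] (g : L →ₐ[K] N)
    (i : L →ₐ[K] Ω) : ∃ j : N →ₐ[K] Ω, ∀ x, j (g x) = i x := by
  let : Algebra L N := g.toRingHom.toAlgebra
  let : Algebra L Ω := i.toRingHom.toAlgebra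
  have : IsScalarTower K L N := IsScalarTower.of_algebraMap_eq (fun x => (g.commutes x).symm)
  have : IsScalarTower K L Ω := IsScalarTower.of_algebraMap_eq (fun x => (i.commutes x).symm)
  have hLN : Algebra.IsAlgebraic L N := Algebra.IsAlgebraic.tower_top (K := K) L
  let j₀ : N →ₐ[L] Ω := IsAlgClosed.lift
  exact ⟨j₀.restrictScalars K, fun x => j₀.commutes x⟩

/-- restriction of inertia to a normal subfield over a smaller base -/
theorem iner_res {P N : Type*} [Field P] [Field N] [Algebra M P] [Algebra K P]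
    [IsScalarTower K M P] [Algebra K N] [Normal K N] [FiniteDimensional K N] (j : N →ₐ[K] P)
    {w : Valuation P ℝ≥0}
    {σ : P ≃ₐ[M] P} (hσ : σ ∈ Iner M w) :
    ∃ τ : N ≃ₐ[K] N, τ ∈ Iner K (w.comap (j : N →+* P)) ∧ ∀ x, j (τ x) = σ (j x) := by
  let : Algebra N P := j.toRingHom.toAlgebra
  have : IsScalarTower K N P := IsScalarTower.of_algebraMap_eq (fun x => (j.commutes x).symm)
  let s : P ≃ₐ[K] P := σ.restrictScalars K
  have hτ : ∀ x, j (s.restrictNormal N x) = σ (j x) := fun x => s.restrictNormal_commutes N x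
  refine ⟨s.restrictNormal N, ⟨fun x => ?_, fun x hx => ?_⟩, hτ⟩
  · change w (j (s.restrictNormal N x)) = w (j x)
    rw [hτ]
    exact hσ.1 _
  · change w (j (s.restrictNormal N x - x)) < 1
    rw [map_sub, hτ]
    exact hσ.2 _ hx

/-- **base change**: if `A/K` is unramified at `v` then `M ⊗ A` is unramified at `v'`, for every
discretely valued extension `(M, v')` of `(K, v)` -/
theorem UnrAt.baseChange {A : Type*} [CommRing A] [Algebra K A] [Module.Finite K A]
    (hv : Gen v c) (hres : ∀ n : ℕ, n ≠ 0 → v (n : K) = 1) (hv' : Gen v' c')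
    (hvv : v'.comap (algebraMap K M) = v) (hA : UnrAt v A) : UnrAt v' (M ⊗[K] A) := by
  have hcK := charZero_of_res hres
  have hresM : ∀ n : ℕ, n ≠ 0 → v' (n : M) = 1 := by
    intro n hn
    rw [← hres n hn, ← hvv, Valuation.comap_apply, map_natCast (algebraMap K M)]
  have hcM := charZero_of_res hresM
  have hfin : Module.Finite M (M ⊗[K] A) := inferInstance
  refine unrAt_of_fields fun Q _ _ π hπ => ?_
  have : FiniteDimensional M Q := Module.Finite.of_surjective π.toLinearMap hπ
  -- the image of `A` in an algebraic closure of `M`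
  let Ω := AlgebraicClosure M
  let i : Q →ₐ[M] Ω := IsAlgClosed.lift
  let f : A →ₐ[K] Ω := ((i.comp π).restrictScalars K).comp Algebra.TensorProduct.includeRight
  have hf : ∀ a, f a = i (π (1 ⊗ₜ a)) := fun a => rfl
  have hrng : ∀ x : Ω, x ∈ f.range → IsAlgebraic K x := by
    rintro _ ⟨a, rfl⟩
    exact ((Algebra.IsIntegral.isIntegral (R := K) a).map f).isAlgebraic
  let L : IntermediateField K Ω := f.range.toIntermediateField (fun x hx =>
    (f.range).inv_mem_of_algebraic (x := ⟨x, hx⟩) (hrng x hx))
  let fL : A →ₐ[K] L := f.codRestrict L.toSubalgebra (fun a => ⟨a, rfl⟩)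
  have hfL : Function.Surjective fL := by
    rintro ⟨_, a, rfl⟩
    exact ⟨a, rfl⟩
  have : FiniteDimensional K L := Module.Finite.of_surjective fL.toLinearMap hfL
  -- a Galois extension of `K` containing `L`, and its embedding in `Ω`
  obtain ⟨N, hN1, hN2, hN3⟩ := exists_galois_hom K L
  let g : L →ₐ[K] N := (IsScalarTower.toAlgHom K L (AlgebraicClosure L)).codRestrict
    N.toSubalgebra hN3
  obtain ⟨j, hj⟩ := exists_lift_hom g L.val
  -- a finite Galois extension of `M` containing everything
  obtain ⟨θ, hθ⟩ := Field.exists_primitive_element K N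
  let P₀ : IntermediateField M Ω := M⟮j θ⟯
  have hP₀fin : FiniteDimensional M P₀ :=
    IntermediateField.adjoin.finiteDimensional (Algebra.IsIntegral.isIntegral _)
  have hjP₀ : ∀ x, j x ∈ P₀ := by
    intro x
    have h1 : x ∈ (⊤ : IntermediateField K N) := trivial
    rw [← hθ] at h1
    have h2 : K⟮θ⟯ ≤ IntermediateField.comap j (P₀.restrictScalars K) := by
      rw [adjoin_simple_le_iff]
      exact mem_adjoin_simple_self M (j θ)
    exact h2 h1
  let P : IntermediateField M Ω := normalClosure M P₀ Ω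
  have hP1 : FiniteDimensional M P := normalClosure.is_finiteDimensional M P₀ Ω
  have hP2 : IsGalois M P := IsGalois.normalClosure M P₀ Ω
  have hP3 : P₀ ≤ P := P₀.le_normalClosure
  let j' : N →ₐ[K] P := j.codRestrict (P.toSubalgebra.restrictScalars K) (fun x => hP3 (hjP₀ x))
  have hiP : ∀ z, i (π z) ∈ P := by
    intro z
    induction z using TensorProduct.induction_on with
    | zero => simp
    | add x y hx hy => rw [map_add, map_add]; exact add_mem hx hy
    | tmul m a =>
      have h1 : m ⊗ₜ[K] a = m • (1 ⊗ₜ[K] a : M ⊗[K] A) := by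
        rw [TensorProduct.smul_tmul']; simp
      rw [h1, map_smul, map_smul]
      refine IntermediateField.smul_mem P ?_
      have h2 : i (π (1 ⊗ₜ[K] a)) = j (g (fL a)) := (hj (fL a)).symm
      rw [h2]
      exact hP3 (hjP₀ _)
  let g' : Q →ₐ[M] P := i.codRestrict P.toSubalgebra (fun x => by
    obtain ⟨z, rfl⟩ := hπ x
    exact hiP z)
  refine unrAt_of_iner hv' hresM g' fun w hw σ hσ x => ?_
  obtain ⟨z, rfl⟩ := hπ x
  obtain ⟨τ, hτ, hτσ⟩ := iner_res (K := K) (M := M) j' hσ
  have hwN : (w.comap (j' : N →+* P)).comap (algebraMap K N) = v := by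
    rw [← hvv, ← hw, ← Valuation.comap_comp, ← Valuation.comap_comp]
    congr 1
    ext x
    change ((j' (algebraMap K N x) : P) : Ω) = _
    rw [j'.commutes]
    rfl
  induction z using TensorProduct.induction_on with
  | zero => simp
  | add x y hx hy => rw [map_add, map_add, map_add, hx, hy]
  | tmul m a =>
    have h1 : m ⊗ₜ[K] a = m • (1 ⊗ₜ[K] a : M ⊗[K] A) := by
      rw [TensorProduct.smul_tmul']; simp
    rw [h1, map_smul, map_smul, Algebra.smul_def, map_mul, AlgEquiv.commutes]
    congr 1
    have h2 : g' (π (1 ⊗ₜ[K] a)) = j' (g (fL a)) := Subtype.ext (hj (fL a)).symm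
    have h3 : τ (g (fL a)) = g (fL a) := iner_fix hv hres hA (g.comp fL) hwN hτ a
    rw [h2, ← hτσ, h3]




end base

end Crest.Agent.R013.Unr7_957
end

-- ▼ part R013/Unr8_957
section

/-!
# R013 / Unr8: local criteria of unramifiedness (helper957)

* `unrAt_kummer`: `v h = v a ^ n` implies `K(h^{1/n})` unramified at `v`, and the converse;
* `unrAt_of_root`: generated by a root of a `v`-integral monic polynomial with unit derivative;
* `exists_finset_unrAt`: a finite extension is unramified at almost all places;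
* `UnrAt.trans`, `UnrAt.tower_top`: towers;
* `unrAt_of_closure`: only closures matter.
-/

set_option autoImplicit false
set_option linter.style.haveILetI false
set_option linter.unusedSectionVars false

universe u

namespace Crest.Agent.R013.Unr8_957

open scoped NNReal nonZeroDivisors Pointwise TensorProduct
open WithZero IsDedekindDomain Module IntermediateField
open Crest.Agent.R013.RR7_948 Crest.Agent.R013.Unr1_957 Crest.Agent.R013.Unr2_957
open Crest.Agent.R013.Unr3_957 Crest.Agent.R013.Unr6_957 Crest.Agent.R013.Unr7_957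

section adjoin

variable {K : Type*} {L : Type u} [Field K] [Field L] [Algebra K L]
variable {v : Valuation K ℝ≥0} {c : ℝ≥0}

/-- criterion for a simple extension -/
theorem unrAt_of_simple [FiniteDimensional K L] (hv : Gen v c)
    (hres : ∀ n : ℕ, n ≠ 0 → v (n : K) = 1) {y : L} (hL : K⟮y⟯ = ⊤)
    (h : ∀ (N : Type u) [Field N] [Algebra K N] [FiniteDimensional K N] [IsGalois K N]
      (g : L →ₐ[K] N) (w : Valuation N ℝ≥0), w.comap (algebraMap K N) = v → ∀ σ ∈ Iner K w,
      σ (g y) = g y) : UnrAt v L := by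
  have := charZero_of_res hres
  obtain ⟨N, h1, h2, h3⟩ := exists_galois_hom K L
  let g : L →ₐ[K] N := (IsScalarTower.toAlgHom K L (AlgebraicClosure L)).codRestrict
    N.toSubalgebra h3
  refine unrAt_of_iner hv hres g fun w hw σ hσ x => ?_
  have h4 := h N g w hw σ hσ
  have h5 : (σ.toAlgHom.comp g) = g := by
    have hx : ∀ x ∈ (K⟮y⟯ : IntermediateField K L), (σ.toAlgHom.comp g) x = g x := by
      intro x hx
      refine IntermediateField.adjoin_induction K (s := {y})
        (p := fun x _ => (σ.toAlgHom.comp g) x = g x) ?_ ?_ ?_ ?_ ?_ hx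
      · intro x hx
        rw [Set.mem_singleton_iff] at hx
        rw [hx]; exact h4
      · intro x
        rw [AlgHom.commutes, AlgHom.commutes]
      · intro a b _ _ ha hb
        rw [map_add, map_add, ha, hb]
      · intro a _ ha
        rw [map_inv₀, map_inv₀, ha]
      · intro a b _ _ ha hb
        rw [map_mul, map_mul, ha, hb]
    exact AlgHom.ext fun x => hx x (by rw [hL]; trivial)
  exact DFunLike.congr_fun h5 x

/-- **Kummer extensions** -/
theorem unrAt_kummer [FiniteDimensional K L] (hv : Gen v c)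
    (hres : ∀ n : ℕ, n ≠ 0 → v (n : K) = 1) {n : ℕ} (hn : n ≠ 0) {h a : K}
    (ha : v h = v a ^ n) {y : L} (hy : y ^ n = algebraMap K L h) (hL : K⟮y⟯ = ⊤) :
    UnrAt v L := by
  refine unrAt_of_simple hv hres hL fun N _ _ _ _ g w hw σ hσ => ?_
  have hwv : ∀ x : K, w (algebraMap K N x) = v x := fun x => by rw [← hw]; rfl
  by_cases hy0 : y = 0
  · rw [hy0, map_zero, map_zero]
  have hh0 : h ≠ 0 := by
    rintro rfl
    rw [map_zero] at hy
    exact hy0 (pow_eq_zero_iff hn |>.mp hy)
  have ha0 : a ≠ 0 := by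
    rintro rfl
    rw [map_zero, zero_pow hn] at ha
    exact hh0 ((map_eq_zero v).mp ha)
  have hgy : (g y) ^ n = algebraMap K N h := by
    rw [← map_pow, hy, g.commutes]
  have hwy : w (g y) = v a := by
    have h1 : w (g y) ^ n = v a ^ n := by
      rw [← map_pow, hgy, hwv, ha]
    exact (pow_left_inj₀ zero_le zero_le hn).mp h1
  have hgy0 : g y ≠ 0 := by simpa using hy0
  have ha0' : algebraMap K N a ≠ 0 := by simpa using ha0
  set u : N := g y / algebraMap K N a with hu
  have hu0 : u ≠ 0 := div_ne_zero hgy0 ha0'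
  have hwu : w u = 1 := by
    rw [hu, map_div₀, hwy, hwv, div_self ((Valuation.ne_zero_iff _).mpr ha0)]
  have hσu : w (σ u - u) < 1 := hσ.2 u hwu.le
  set ζ : N := σ u / u with hζ
  have hζn : ζ ^ n = 1 := by
    have h1 : (σ u) ^ n = u ^ n := by
      have h2 : u ^ n = algebraMap K N (h / a ^ n) := by
        rw [hu, div_pow, hgy, map_div₀, map_pow]
      rw [← map_pow, h2, AlgEquiv.commutes]
    rw [hζ, div_pow, h1, div_self (pow_ne_zero _ hu0)]
  have hζ1 : w (ζ - 1) < 1 := by
    have h1 : ζ - 1 = (σ u - u) / u := by rw [hζ]; field_simp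
    rw [h1, map_div₀, hwu, div_one]
    exact hσu
  have hζle : w ζ ≤ 1 := by
    have h1 : ζ = (ζ - 1) + 1 := by ring
    rw [h1]
    exact (Valuation.map_add _ _ _).trans (max_le hζ1.le (by rw [map_one]))
  have hpow : ∀ i : ℕ, w (ζ ^ i - 1) < 1 := by
    intro i
    have h1 : ζ ^ i - 1 = (ζ - 1) * ∑ j ∈ Finset.range i, ζ ^ j := by
      rw [mul_geom_sum]
    rw [h1, map_mul]
    calc _ ≤ w (ζ - 1) * 1 := by
          refine mul_le_mul_right ?_ _
          refine w.map_sum_le fun j _ => ?_
          rw [map_pow]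
          exact pow_le_one₀ zero_le hζle
      _ < 1 := by rwa [mul_one]
  have hζone : ζ = 1 := by
    by_contra hne
    have h1 : ∑ j ∈ Finset.range n, ζ ^ j = 0 := by
      have h2 : (ζ - 1) * ∑ j ∈ Finset.range n, ζ ^ j = 0 := by
        rw [mul_geom_sum, hζn, sub_self]
      exact (mul_eq_zero.mp h2).resolve_left (sub_ne_zero.mpr hne)
    have h2 : w (∑ j ∈ Finset.range n, (ζ ^ j - 1)) < 1 := by
      refine lt_of_le_of_lt (?_ : _ ≤ (Finset.range n).sup (fun j => w (ζ ^ j - 1))) ?_
      · exact w.map_sum_le fun j hj => Finset.le_sup (f := fun j => w (ζ ^ j - 1)) hj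
      · rw [Finset.sup_lt_iff (by simp)]
        exact fun j _ => hpow j
    rw [Finset.sum_sub_distrib, h1] at h2
    simp only [Finset.sum_const, Finset.card_range, nsmul_eq_mul, mul_one, zero_sub,
      Valuation.map_neg] at h2
    have h3 : w (n : N) = 1 := by
      rw [← hres n hn, ← hwv, map_natCast (algebraMap K N)]
    rw [h3] at h2
    exact lt_irrefl _ h2
  have h6 : σ u = u := by
    have h7 : σ u = ζ * u := by rw [hζ]; field_simp
    rw [h7, hζone, one_mul]
  have h8 : g y = u * algebraMap K N a := by rw [hu]; field_simp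
  rw [h8, map_mul, h6, AlgEquiv.commutes]

/-- converse of `unrAt_kummer` (any field, any `v` which extends to `L`) -/
theorem kummer_of_unrAt (hL : UnrAt v L) (hex : ∃ w : Valuation L ℝ≥0,
    w.comap (algebraMap K L) = v) {n : ℕ} {h : K} {y : L} (hy : y ^ n = algebraMap K L h) :
    ∃ a : K, v h = v a ^ n := by
  obtain ⟨w, hw⟩ := hex
  obtain ⟨a, ha⟩ := hL w hw y
  refine ⟨a, ?_⟩
  rw [← ha, ← map_pow, hy, ← hw]
  rfl

/-- root of an integral monic polynomial with unit derivative -/
theorem unrAt_of_root [FiniteDimensional K L] (hv : Gen v c)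
    (hres : ∀ n : ℕ, n ≠ 0 → v (n : K) = 1) {f : Polynomial K} (hf : f.Monic)
    (hcoef : ∀ i, v (f.coeff i) ≤ 1) {θ : L} (hθ : Polynomial.aeval θ f = 0) (hL : K⟮θ⟯ = ⊤)
    (hd : ∀ w : Valuation L ℝ≥0, w.comap (algebraMap K L) = v →
      w (Polynomial.aeval θ (Polynomial.derivative f)) = 1) : UnrAt v L := by
  refine unrAt_of_simple hv hres hL fun N _ _ _ _ g w hw σ hσ => ?_
  have hwv : ∀ x : K, w (algebraMap K N x) = v x := fun x => by rw [← hw]; rfl
  -- the integral model of `f`
  let S : Subring N := w.integer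
  let F : Polynomial S := Polynomial.toSubring (f.map (algebraMap K N)) S (by
    intro x hx
    obtain ⟨i, _, rfl⟩ := Polynomial.mem_coeffs_iff.mp hx
    rw [Polynomial.coeff_map]
    change w (algebraMap K N (f.coeff i)) ≤ 1
    rw [hwv]
    exact hcoef i)
  have hF : F.map S.subtype = f.map (algebraMap K N) := Polynomial.map_toSubring _ _ _
  have hθint : IsIntegral S (g θ) := by
    refine ⟨F, ?_, ?_⟩
    · exact (Polynomial.monic_toSubring _ _ _).mpr (hf.map _)
    · rw [← Polynomial.eval_map]
      change (F.map S.subtype).eval (g θ) = 0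
      rw [hF, Polynomial.eval_map, ← Polynomial.aeval_def, Polynomial.aeval_algHom_apply, hθ,
        map_zero]
  have hθle : w (g θ) ≤ 1 := (Valuation.integer.integers w).mem_of_integral hθint
  have hσle : w (σ (g θ)) ≤ 1 := by rw [hσ.1]; exact hθle
  by_contra hne
  let x : S := ⟨g θ, hθle⟩
  let y : S := ⟨σ (g θ) - g θ, (Valuation.map_sub _ _ _).trans (max_le hσle hθle)⟩
  obtain ⟨k, hk⟩ := Polynomial.binomExpansion F x y
  have hev : ∀ z : S, ((Polynomial.eval z F : S) : N) = Polynomial.aeval (z : N) f := by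
    intro z
    rw [Polynomial.aeval_def, ← Polynomial.eval_map, ← hF, Polynomial.eval_map]
    change S.subtype (Polynomial.eval z F) = _
    rw [← Polynomial.eval₂_at_apply]
    rfl
  have hF' : (F.derivative).map S.subtype = f.derivative.map (algebraMap K N) := by
    rw [← Polynomial.derivative_map, hF, Polynomial.derivative_map]
  have hev' : ∀ z : S, ((Polynomial.eval z F.derivative : S) : N)
      = Polynomial.aeval (z : N) f.derivative := by
    intro z
    rw [Polynomial.aeval_def, ← Polynomial.eval_map, ← hF', Polynomial.eval_map]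
    change S.subtype (Polynomial.eval z F.derivative) = _
    rw [← Polynomial.eval₂_at_apply]
    rfl
  have h1 : ((Polynomial.eval x F : S) : N) = 0 := by
    rw [hev]
    change Polynomial.aeval (g θ) f = 0
    rw [Polynomial.aeval_algHom_apply, hθ, map_zero]
  have h2 : ((Polynomial.eval (x + y) F : S) : N) = 0 := by
    rw [hev]
    have : ((x + y : S) : N) = σ (g θ) := by
      change g θ + (σ (g θ) - g θ) = _
      ring
    rw [this]
    change Polynomial.aeval (σ.toAlgHom (g θ)) f = 0
    rw [Polynomial.aeval_algHom_apply, Polynomial.aeval_algHom_apply, hθ, map_zero, map_zero]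
  have h3 := congrArg (Subtype.val) hk
  have h4 : ((Polynomial.eval (x + y) F : S) : N)
      = ((Polynomial.eval x F : S) : N) + ((Polynomial.eval x F.derivative : S) : N) * (y : N)
        + (k : N) * (y : N) ^ 2 := h3
  rw [h1, h2, zero_add] at h4
  have hy0 : (y : N) ≠ 0 := sub_ne_zero.mpr hne
  have h5 : ((Polynomial.eval x F.derivative : S) : N) = -((k : N) * (y : N)) := by
    have h6 : (y : N) * (((Polynomial.eval x F.derivative : S) : N) + (k : N) * (y : N)) = 0 := by
      rw [mul_add, h4]; ring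
    have h7 := (mul_eq_zero.mp h6).resolve_left hy0
    exact eq_neg_of_add_eq_zero_left h7
  have h6 : w ((Polynomial.eval x F.derivative : S) : N) < 1 := by
    rw [h5, Valuation.map_neg, map_mul]
    calc w (k : N) * w (y : N) ≤ 1 * w (y : N) := mul_le_mul_left (k.2) _
      _ < 1 := by rw [one_mul]; exact hσ.2 _ hθle
  have h7 : w ((Polynomial.eval x F.derivative : S) : N) = 1 := by
    rw [hev']
    change w (Polynomial.aeval (g θ) _) = 1
    rw [Polynomial.aeval_algHom_apply]
    refine hd (w.comap (g : L →+* N)) ?_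
    rw [← hw, ← Valuation.comap_comp]
    congr 1
    exact g.comp_algebraMap
  rw [h7] at h6
  exact lt_irrefl _ h6

end adjoin

section tower

variable {K L : Type*} [Field K] [Field L] [Algebra K L] {A : Type*} [CommRing A] [Algebra K A]
  [Algebra L A] [IsScalarTower K L A] {v : Valuation K ℝ≥0}

theorem UnrAt.trans (hL : UnrAt v L)
    (hA : ∀ u : Valuation L ℝ≥0, u.comap (algebraMap K L) = v → UnrAt u A) : UnrAt v A := by
  intro w hw b
  have h1 : (w.comap (algebraMap L A)).comap (algebraMap K L) = v := by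
    rw [← hw, ← Valuation.comap_comp, ← IsScalarTower.algebraMap_eq]
  obtain ⟨l, hl⟩ := hA _ h1 w rfl b
  obtain ⟨a, ha⟩ := hL _ h1 l
  exact ⟨a, by rw [hl, ha]⟩

theorem UnrAt.tower_top (hA : UnrAt v A) {u : Valuation L ℝ≥0}
    (hu : u.comap (algebraMap K L) = v) : UnrAt u A := by
  intro w hw b
  obtain ⟨a, ha⟩ := hA w (by
    rw [IsScalarTower.algebraMap_eq K L A, Valuation.comap_comp, hw, hu]) b
  refine ⟨algebraMap K L a, ?_⟩
  rw [ha, ← hu]
  rfl

end tower

section almost

variable {K L : Type*} [Field K] [Field L] [Algebra K L]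

/-- a finite extension is unramified at every place at which finitely many given elements of `K`
are integral -/
theorem exists_finset_unrAt [FiniteDimensional K L] [CharZero K] :
    ∃ S : Finset K, ∀ (v : Valuation K ℝ≥0) (c : ℝ≥0), Gen v c →
      (∀ n : ℕ, n ≠ 0 → v (n : K) = 1) → (∀ x ∈ S, v x ≤ 1) → UnrAt v L := by
  classical
  obtain ⟨θ, hθ⟩ := Field.exists_primitive_element K L
  set f := minpoly K θ with hf
  have hint : IsIntegral K θ := Algebra.IsIntegral.isIntegral θ
  set z : L := Polynomial.aeval θ (Polynomial.derivative f) with hz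
  have hz0 : z ≠ 0 := by
    have hirr := minpoly.irreducible hint
    exact hirr.separable.aeval_derivative_ne_zero (minpoly.aeval K θ)
  have hzint : IsIntegral K z⁻¹ := Algebra.IsIntegral.isIntegral _
  refine ⟨f.coeffs ∪ (minpoly K z⁻¹).coeffs, fun v c hv hres hS => ?_⟩
  have hle : ∀ (w : Valuation L ℝ≥0), w.comap (algebraMap K L) = v → ∀ y : L, IsIntegral K y →
      (∀ x ∈ (minpoly K y).coeffs, v x ≤ 1) → w y ≤ 1 := by
    intro w hw y hy hc
    have hwv : ∀ x : K, w (algebraMap K L x) = v x := fun x => by rw [← hw]; rfl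
    let F : Polynomial w.integer := Polynomial.toSubring ((minpoly K y).map (algebraMap K L))
      w.integer (by
        intro x hx
        obtain ⟨i, hi, rfl⟩ := Polynomial.mem_coeffs_iff.mp hx
        rw [Polynomial.coeff_map]
        change w (algebraMap K L _) ≤ 1
        rw [hwv]
        by_cases h0 : (minpoly K y).coeff i = 0
        · rw [h0, map_zero]; exact zero_le
        · exact hc _ (Polynomial.mem_coeffs_iff.mpr ⟨i, Polynomial.mem_support_iff.mpr h0, rfl⟩))
    have hF : F.map (Subring.subtype _) = (minpoly K y).map (algebraMap K L) :=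
      Polynomial.map_toSubring _ _ _
    have hyint : IsIntegral w.integer y := by
      refine ⟨F, ?_, ?_⟩
      · exact (Polynomial.monic_toSubring _ _ _).mpr ((minpoly.monic hy).map _)
      · rw [← Polynomial.eval_map]
        change (F.map (Subring.subtype _)).eval y = 0
        rw [hF, Polynomial.eval_map, ← Polynomial.aeval_def, minpoly.aeval]
    exact (Valuation.integer.integers w).mem_of_integral hyint
  refine unrAt_of_root hv hres (minpoly.monic hint) ?_ (minpoly.aeval K θ) hθ ?_
  · intro i
    by_cases h0 : (minpoly K θ).coeff i = 0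
    · rw [h0, map_zero]; exact zero_le
    · exact hS _ (Finset.mem_union_left _
        (Polynomial.mem_coeffs_iff.mpr ⟨i, Polynomial.mem_support_iff.mpr h0, rfl⟩))
  · intro w hw
    have hwv : ∀ x : K, w (algebraMap K L x) = v x := fun x => by rw [← hw]; rfl
    change w z = 1
    have h1 : w θ ≤ 1 := hle w hw θ hint (fun x hx => hS x (Finset.mem_union_left _ hx))
    have h2 : w z⁻¹ ≤ 1 := hle w hw z⁻¹ hzint (fun x hx => hS x (Finset.mem_union_right _ hx))
    have h3 : w z ≤ 1 := by
      rw [hz, Polynomial.aeval_eq_sum_range]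
      refine w.map_sum_le fun i _ => ?_
      rw [Algebra.smul_def, map_mul, map_pow, hwv, Polynomial.coeff_derivative, map_mul]
      have h4 : v (f.coeff (i + 1)) ≤ 1 := by
        by_cases h0 : f.coeff (i + 1) = 0
        · rw [h0, map_zero]; exact zero_le
        · exact hS _ (Finset.mem_union_left _
            (Polynomial.mem_coeffs_iff.mpr ⟨i + 1, Polynomial.mem_support_iff.mpr h0, rfl⟩))
      have h5 : v ((i : K) + 1) ≤ 1 := by
        have := hres (i + 1) (by omega)
        push_cast at this
        exact this.le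
      exact mul_le_one₀ (mul_le_one₀ h4 zero_le h5) zero_le (pow_le_one₀ zero_le h1)
    rw [map_inv₀] at h2
    refine le_antisymm h3 ?_
    have h6 : 0 < w z := (Valuation.pos_iff w).mpr hz0
    exact (inv_le_one₀ h6).mp h2

end almost

section closure

variable {K Ω : Type*} [Field K] [Field Ω] [Algebra K Ω]


end closure

end Crest.Agent.R013.Unr8_957
end

-- ▼ part R013/Unr10_957

/-!
# R013 / Unr10: everywhere unramified algebras, Kummer, change of the base curve (helper957)

`UnrEv k K A`: the commutative `K`-algebra `A` is unramified at all places of `K/k`.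
-/

set_option autoImplicit false
set_option linter.style.haveILetI false
set_option linter.unusedSectionVars false

namespace Crest.Agent.R013.Unr10_957

open scoped NNReal TensorProduct
open Module IntermediateField
open Crest.NumberTheoryR.Sect
open Crest.Agent.R013.Unr1_957 Crest.Agent.R013.Unr2_957 Crest.Agent.R013.Unr3_957
open Crest.Agent.R013.Unr4_957 Crest.Agent.R013.Unr5_957 Crest.Agent.R013.Unr7_957
open Crest.Agent.R013.Unr8_957 Crest.Agent.R013.Unr9_957

/-- the commutative `K`-algebra `A` is unramified at all places of `K/k` -/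
def UnrEv (k : Type*) [Field k] (K : Type*) [Field K] [Algebra k K] (A : Type*) [CommRing A]
    [Algebra K A] : Prop :=
  ∀ v : Valuation K ℝ≥0, IsPlace k v → UnrAt v A

section basic

variable {k : Type*} [Field k] {K : Type*} [Field K] [Algebra k K]
variable {A B : Type*} [CommRing A] [Algebra K A] [CommRing B] [Algebra K B]

theorem UnrEv.of_surj (h : UnrEv k K A) (f : A →ₐ[K] B) (hf : Function.Surjective f) :
    UnrEv k K B := fun v hv => (h v hv).of_surj f hf

theorem UnrEv.congr (e : A ≃ₐ[K] B) : UnrEv k K A ↔ UnrEv k K B :=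
  ⟨fun h v hv => (UnrAt.congr e).mp (h v hv), fun h v hv => (UnrAt.congr e).mpr (h v hv)⟩




theorem unr_iff_unrEv {L : IntermediateField K (AlgebraicClosure K)} :
    IsUnramifiedEverywhere k K L ↔ FiniteDimensional K L ∧ UnrEv k K L := by
  constructor
  · rintro ⟨hfd, h⟩
    refine ⟨hfd, fun v hv w hw b => ?_⟩
    have hpl : IsPlace k w := isPlace_of_comap (F := K) (by rw [hw]; exact hv)
    by_cases hb : b = 0
    · exact ⟨0, by rw [hb, map_zero, map_zero]⟩
    · obtain ⟨a, ha⟩ := h w hpl b hb
      exact ⟨a, by rw [ha, ← hw]; rfl⟩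
  · rintro ⟨hfd, h⟩
    refine ⟨hfd, fun w hw b _ => ?_⟩
    obtain ⟨a, ha⟩ := h _ (isPlace_base hw) w rfl b
    exact ⟨a, ha⟩

end basic

section tower

variable {k : Type*} [Field k] {K : Type*} [Field K] [Algebra k K] {L : Type*} [Field L]
  [Algebra K L] [Algebra k L] [IsScalarTower k K L] {A : Type*} [CommRing A] [Algebra K A]
  [Algebra L A] [IsScalarTower K L A]

theorem UnrEv.trans (hL : UnrEv k K L) (hA : UnrEv k L A) : UnrEv k K A :=
  fun v hv => UnrAt.trans (hL v hv) fun u hu => hA u (isPlace_of_comap (F := K) (by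
    rw [hu]; exact hv))

theorem UnrEv.tower_top [Algebra.IsAlgebraic K L] (hA : UnrEv k K A) :
    UnrEv k L A :=
  fun u hu => UnrAt.tower_top (hA _ (isPlace_comap (F := K) hu)) rfl

end tower

section const

variable {k k₁ : Type*} [Field k] [Field k₁] [Algebra k k₁] [Algebra.IsAlgebraic k k₁]
  {K : Type*} [Field K] [Algebra k K] [Algebra k₁ K] [IsScalarTower k k₁ K]

theorem isPlace_const_iff {v : Valuation K ℝ≥0} : IsPlace k v ↔ IsPlace k₁ v := by
  constructor
  · rintro ⟨h1, h2⟩
    refine ⟨fun c hc => ?_, h2⟩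
    refine trivial_of_trivial (F := k) (v.comap (algebraMap k₁ K)) ?_ c hc
    intro x hx
    rw [Valuation.comap_apply, ← IsScalarTower.algebraMap_apply]
    exact h1 x hx
  · rintro ⟨h1, h2⟩
    refine ⟨fun c hc => ?_, h2⟩
    rw [IsScalarTower.algebraMap_apply k k₁ K]
    exact h1 _ (by simpa using hc)

theorem unrEv_const_iff {A : Type*} [CommRing A] [Algebra K A] :
    UnrEv k K A ↔ UnrEv k₁ K A :=
  ⟨fun h v hv => h v (isPlace_const_iff.mpr hv), fun h v hv => h v (isPlace_const_iff.mp hv)⟩

end const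

section char0

variable {k : Type*} [Field k] [CharZero k] {K : Type*} [Field K] [Algebra k K]
  [Algebra (RatFunc k) K] [IsScalarTower k (RatFunc k) K] [FiniteDimensional (RatFunc k) K]

theorem UnrEv.of_hom {L M : Type*} [Field L] [Algebra K L] [Field M] [Algebra K M]
    [FiniteDimensional K M] (hM : UnrEv k K M) (f : L →ₐ[K] M) : UnrEv k K L := by
  intro v hv
  obtain ⟨c, hc⟩ := gen_place hv
  exact (hM v hv).of_hom hc (place_natCast hv) f


theorem UnrEv.compositum {L₁ L₂ M : Type*} [Field L₁] [Algebra K L₁] [Field L₂] [Algebra K L₂]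
    [Field M] [Algebra K M] [FiniteDimensional K M] (h₁ : UnrEv k K L₁) (h₂ : UnrEv k K L₂)
    (f₁ : L₁ →ₐ[K] M) (f₂ : L₂ →ₐ[K] M) (hM : f₁.fieldRange ⊔ f₂.fieldRange = ⊤) :
    UnrEv k K M := by
  intro v hv
  obtain ⟨c, hc⟩ := gen_place hv
  exact (h₁ v hv).compositum hc (place_natCast hv) (h₂ v hv) f₁ f₂ hM

/-- **Kummer** -/
theorem unrEv_kummer {L : Type*} [Field L] [Algebra K L] [FiniteDimensional K L] {n : ℕ}
    (hn : n ≠ 0) {h : K} (hh : ∀ v : Valuation K ℝ≥0, IsPlace k v → ∃ a : K, v h = v a ^ n)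
    {y : L} (hy : y ^ n = algebraMap K L h) (hL : K⟮y⟯ = ⊤) : UnrEv k K L := by
  intro v hv
  obtain ⟨c, hc⟩ := gen_place hv
  obtain ⟨a, ha⟩ := hh v hv
  exact unrAt_kummer hc (place_natCast hv) hn ha hy hL


theorem mem_maxUnramified_iff_unrEv {x : AlgebraicClosure K} :
    x ∈ maxUnramified k K ↔ UnrEv k K K⟮x⟯ := by
  rw [mem_maxUnramified_iff', unr_iff_unrEv, and_iff_right]
  exact IntermediateField.adjoin.finiteDimensional (Algebra.IsIntegral.isIntegral x)

/-- the images of an unramified finite algebra lie in `maxUnramified` -/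
theorem UnrEv.mem_maxUnramified {A : Type*} [CommRing A] [Algebra K A] [Module.Finite K A]
    (hA : UnrEv k K A) (f : A →ₐ[K] AlgebraicClosure K) (a : A) : f a ∈ maxUnramified k K := by
  let L : IntermediateField K (AlgebraicClosure K) := f.range.toIntermediateField (fun x hx =>
    (f.range).inv_mem_of_algebraic (x := ⟨x, hx⟩) (Algebra.IsAlgebraic.isAlgebraic _))
  let g : A →ₐ[K] L := f.codRestrict L.toSubalgebra (fun a => ⟨a, rfl⟩)
  have hg : Function.Surjective g := by
    rintro ⟨_, a, rfl⟩
    exact ⟨a, rfl⟩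
  have hfd : FiniteDimensional K L := Module.Finite.of_surjective g.toLinearMap hg
  have hL : UnrEv k K L := hA.of_surj g hg
  have h1 : IsUnramifiedEverywhere k K L := unr_iff_unrEv.mpr ⟨hfd, hL⟩
  exact le_maxUnramified_iff.mpr h1 ⟨a, rfl⟩

/-- the Kummer extension of an unramified extension `U` generated by an `n`-th root of an element
of `U` whose divisor is divisible by `n` is contained in `maxUnramified` -/
theorem kummer_mem_maxUnramified {U : IntermediateField K (AlgebraicClosure K)}
    (hU : IsUnramifiedEverywhere k K U) {n : ℕ} (hn : n ≠ 0) {h : U}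
    (hh : ∀ u : Valuation U ℝ≥0, IsPlace k u → ∃ a : U, u h = u a ^ n)
    {y : AlgebraicClosure K} (hy : y ^ n = (h : AlgebraicClosure K)) :
    y ∈ maxUnramified k K := by
  have := hU.1
  let L : IntermediateField U (AlgebraicClosure K) := U⟮y⟯
  have hL : FiniteDimensional U L :=
    IntermediateField.adjoin.finiteDimensional (Algebra.IsIntegral.isIntegral y)
  have : FiniteDimensional (RatFunc k) U := finite_IF U
  have : IsScalarTower k (RatFunc k) U := tower_IF U
  let y' : L := ⟨y, mem_adjoin_simple_self U y⟩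
  have hy' : y' ^ n = algebraMap U L h := Subtype.ext hy
  have htop : U⟮y'⟯ = (⊤ : IntermediateField U L) := by
    apply IntermediateField.lift_injective L
    rw [IntermediateField.lift_adjoin_simple, IntermediateField.lift_top]
  have h1 : UnrEv k U L := unrEv_kummer hn hh hy' htop
  have h2 : UnrEv k K U := (unr_iff_unrEv.mp hU).2
  have h3 : UnrEv k K L := h2.trans h1
  have h4 : FiniteDimensional K L := FiniteDimensional.trans K U L
  let f : L →ₐ[K] AlgebraicClosure K := L.val.restrictScalars K
  exact h3.mem_maxUnramified f y'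

end char0

section transport

variable {k : Type*} [Field k] [CharZero k] {K : Type*} [Field K] [Algebra k K]
  [Algebra (RatFunc k) K] [IsScalarTower k (RatFunc k) K] [FiniteDimensional (RatFunc k) K]
  {k₁ : Type*} [Field k₁] [CharZero k₁] {L : Type*} [Field L] [Algebra k₁ L]
  [Algebra (RatFunc k₁) L] [IsScalarTower k₁ (RatFunc k₁) L] [FiniteDimensional (RatFunc k₁) L]
  [Algebra k k₁] [Algebra.IsAlgebraic k k₁] [Algebra k L] [IsScalarTower k k₁ L]
  [Algebra K L] [IsScalarTower k K L] [FiniteDimensional K L]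

/-- **change of the base curve**: `maxUnramified` does not change along an unramified extension -/
theorem mem_maxUnramified_transport (hL : UnrEv k K L)
    (e : AlgebraicClosure L ≃ₐ[K] AlgebraicClosure K) (x : AlgebraicClosure L) :
    x ∈ maxUnramified k₁ L ↔ e x ∈ maxUnramified k K := by
  have hfdM : FiniteDimensional L L⟮x⟯ :=
    IntermediateField.adjoin.finiteDimensional (Algebra.IsIntegral.isIntegral x)
  have hKM : FiniteDimensional K L⟮x⟯ := FiniteDimensional.trans K L L⟮x⟯
  have halg : Algebra.IsAlgebraic K (AlgebraicClosure L) :=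
    Algebra.IsAlgebraic.trans K L (AlgebraicClosure L)
  -- `K⟮x⟯` and `K⟮e x⟯`
  have hmap : (K⟮x⟯ : IntermediateField K (AlgebraicClosure L)).map e.toAlgHom = K⟮e x⟯ := by
    rw [IntermediateField.adjoin_map, Set.image_singleton]
    rfl
  have e₁ : K⟮x⟯ ≃ₐ[K] K⟮e x⟯ :=
    ((K⟮x⟯ : IntermediateField K (AlgebraicClosure L)).equivMap e.toAlgHom).trans
      (IntermediateField.equivOfEq hmap)
  -- the two maps into `L⟮x⟯`
  have hle : (K⟮x⟯ : IntermediateField K (AlgebraicClosure L))
      ≤ (L⟮x⟯ : IntermediateField L (AlgebraicClosure L)).restrictScalars K := by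
    rw [adjoin_simple_le_iff]
    exact mem_adjoin_simple_self L x
  let f₁ : L →ₐ[K] L⟮x⟯ := IsScalarTower.toAlgHom K L L⟮x⟯
  let f₂ : K⟮x⟯ →ₐ[K] L⟮x⟯ := IntermediateField.inclusion hle
  have hgen : f₁.fieldRange ⊔ f₂.fieldRange = ⊤ := by
    rw [eq_top_iff]
    rintro ⟨z, hz⟩ -
    refine IntermediateField.adjoin_induction L (s := {x})
      (p := fun z hz => (⟨z, hz⟩ : L⟮x⟯) ∈ f₁.fieldRange ⊔ f₂.fieldRange) ?_ ?_ ?_ ?_ ?_ hz
    · intro y hy
      have hy' : y = x := hy
      subst hy'
      exact (le_sup_right : f₂.fieldRange ≤ _) ⟨⟨y, mem_adjoin_simple_self K y⟩, rfl⟩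
    · intro l
      exact (le_sup_left : f₁.fieldRange ≤ _) ⟨l, rfl⟩
    · intro a b ha hb h1 h2
      exact add_mem h1 h2
    · intro a ha h1
      exact inv_mem h1
    · intro a b ha hb h1 h2
      exact mul_mem h1 h2
  rw [mem_maxUnramified_iff_unrEv, mem_maxUnramified_iff_unrEv, ← unrEv_const_iff (k := k),
    ← UnrEv.congr e₁]
  constructor
  · intro h
    exact (hL.trans h).of_hom f₂
  · intro h
    exact (hL.compositum h f₁ f₂ hgen).tower_top

end transport

end Crest.Agent.R013.Unr10_957
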