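import Mathlib
import Crest.Prelude.Def_SectConj
import Crest.Agent.R013.Unr10_957
import Crest.Agent.R013.MaxUnr_97
import Crest.Agent.R013.SE_669

/-!
# R013 / Unr11: closure criterion for unramifiedness, constant extensions (helper957)
-/

set_option autoImplicit false
set_option linter.style.haveILetI false
set_option linter.unusedSectionVars false

namespace Crest.Agent.R013.Unr11_957

open scoped NNReal TensorProduct
open Module IntermediateField
open Crest.NumberTheoryR.Sect
open Crest.Agent.R013.Unr1_957 Crest.Agent.R013.Unr2_957 Crest.Agent.R013.Unr3_957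
open Crest.Agent.R013.Unr4_957 Crest.Agent.R013.Unr5_957 Crest.Agent.R013.Unr7_957
open Crest.Agent.R013.Unr8_957 Crest.Agent.R013.Unr9_957 Crest.Agent.R013.Unr10_957
open Crest.Agent.R013.SE_669

section closure

variable {K Ω : Type*} [Field K] [Field Ω] [Algebra K Ω] [Algebra.IsAlgebraic K Ω]


end closure

section clfield

variable {Ω : Type*} [Field Ω] {w : Valuation Ω ℝ≥0} {K : Type*} [Field K] [Algebra K Ω]

theorem subset_cl (F : Set Ω) : F ⊆ cl w F := fun a ha ε hε => ⟨a, ha, by simpa using hε⟩

/-- the closure of a subfield is a subfield -/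
def clF (w : Valuation Ω ℝ≥0) (F : IntermediateField K Ω) : IntermediateField K Ω where
  carrier := cl w (F : Set Ω)
  algebraMap_mem' x := subset_cl _ (F.algebraMap_mem x)
  add_mem' {a b} ha hb := by
    intro ε hε
    obtain ⟨a', ha', h1⟩ := ha ε hε
    obtain ⟨b', hb', h2⟩ := hb ε hε
    refine ⟨a' + b', F.add_mem ha' hb', ?_⟩
    have : a + b - (a' + b') = (a - a') + (b - b') := by ring
    rw [this]
    exact lt_of_le_of_lt (w.map_add _ _) (max_lt h1 h2)
  mul_mem' {a b} ha hb := by
    intro ε hε
    -- choose `b'` with `w a * w (b - b') < ε`, then `a'` with `w (a - a') * w b' < ε`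
    obtain ⟨b', hb', h2⟩ := hb (ε / (w a + 1)) (div_pos hε (by positivity))
    obtain ⟨a', ha', h1⟩ := ha (ε / (w b' + 1)) (div_pos hε (by positivity))
    refine ⟨a' * b', F.mul_mem ha' hb', ?_⟩
    have : a * b - a' * b' = a * (b - b') + (a - a') * b' := by ring
    rw [this]
    have aux : ∀ s t : ℝ≥0, t < ε / (s + 1) → s * t < ε := by
      intro s t ht
      have hs : 0 < s + 1 := by positivity
      rw [lt_div_iff₀ hs] at ht
      calc s * t ≤ t * (s + 1) := by rw [mul_comm]; gcongr; simp
        _ < ε := ht
    refine lt_of_le_of_lt (w.map_add _ _) (max_lt ?_ ?_)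
    · rw [map_mul]; exact aux _ _ h2
    · rw [map_mul, mul_comm]; exact aux _ _ h1
  inv_mem' a ha := by
    by_cases h0 : a = 0
    · rw [h0, inv_zero]
      exact subset_cl _ F.zero_mem
    intro ε hε
    have hpos : 0 < w a := (Valuation.pos_iff w).mpr h0
    obtain ⟨b, hb, hab⟩ := ha (min (w a) (ε * (w a * w a))) (lt_min hpos (by positivity))
    have h1 : w (a - b) < w a := lt_of_lt_of_le hab (min_le_left _ _)
    have h2 : w (a - b) < ε * (w a * w a) := lt_of_lt_of_le hab (min_le_right _ _)
    have hwb : w b = w a := by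
      have h3 : b = a - (a - b) := by ring
      rw [h3, Valuation.map_sub_eq_of_lt_left w h1]
    have hb0 : b ≠ 0 := by
      rintro rfl
      rw [map_zero] at hwb
      exact hpos.ne hwb
    refine ⟨b⁻¹, F.inv_mem hb, ?_⟩
    have h3 : a⁻¹ - b⁻¹ = -((a - b) / (a * b)) := by
      field_simp; ring
    rw [h3, Valuation.map_neg, map_div₀, map_mul, hwb, div_lt_iff₀ (by positivity)]
    exact h2


end clfield

section glob

variable {k : Type*} [Field k] [CharZero k] {K : Type*} [Field K] [Algebra k K]
  [Algebra (RatFunc k) K] [IsScalarTower k (RatFunc k) K] [FiniteDimensional (RatFunc k) K]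



end glob

section const

variable {k : Type*} [Field k] [CharZero k] {K : Type*} [Field K] [Algebra k K]
  [Algebra (RatFunc k) K] [IsScalarTower k (RatFunc k) K] [FiniteDimensional (RatFunc k) K]

/-- constant extensions are unramified: if `L/K` is finite and generated by elements algebraic over
`k` then `L/K` is everywhere unramified -/
theorem unrEv_const {L : Type*} [Field L] [Algebra K L] [FiniteDimensional K L] [Algebra k L]
    [IsScalarTower k K L] (h : IntermediateField.adjoin K {x : L | IsIntegral k x} = ⊤) :
    UnrEv k K L := by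
  have hK := charZero_K k K
  let f : L →ₐ[K] AlgebraicClosure K := IsAlgClosed.lift
  have hle : f.fieldRange ≤ maxUnramified k K := by
    rw [AlgHom.fieldRange_eq_map, ← h, IntermediateField.adjoin_map, adjoin_le_iff]
    rintro _ ⟨x, hx, rfl⟩
    refine MaxUnr_97.mem_maxUnramified_of_isIntegral _ ?_
    have hx' : IsIntegral k x := hx
    exact hx'.map (f.restrictScalars k)
  let e : L ≃ₐ[K] f.fieldRange := AlgEquiv.ofInjectiveField f
  have hfd : FiniteDimensional K f.fieldRange := e.toLinearEquiv.finiteDimensional
  rw [UnrEv.congr e]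
  exact (unr_iff_unrEv.mp (le_maxUnramified_iff.mp hle)).2

end const

end Crest.Agent.R013.Unr11_957
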