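import Crest.Agent.R013.LemT1_874
import Crest.Agent.R013.LemT3_874
import Crest.Agent.R013.Gl9_946
import Crest.Agent.R013.Lift4_903
import Crest.Agent.R013.A2a_275
import Crest.Agent.R013.Unr10_957
import Crest.Agent.R013.MaxUnr_97
import Crest.Agent.R013.Fp4_831

-- ▼ part R013/LemT2_874
section

/-!
# Lemma T (task A-T of row 13), part 2: one-circle `μ_l`-classes are fixed by the tame generator.
-/

set_option autoImplicit false

namespace Crest.Agent.R013.LemT_874

open Crest.Agent.R013.Lift903 Crest.Agent.R013.Gl946 Polynomial TensorProduct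

attribute [local instance] Algebra.TensorProduct.rightAlgebra

section T2

variable {L L' M : Type*} [Field L] [Field L'] [Field M] [Algebra L L'] [Algebra L M] [Algebra L' M]
  [IsScalarTower L L' M]

/-- an element of order dividing `l^(m+1)` and `e - 1` has order dividing `l^m` -/
theorem pow_eq_one_aux {M : Type*} [Field M] {l m : ℕ} (hl : l.Prime) {κ : M} {e : ℕ}
    (h1 : κ ^ (l ^ (m + 1)) = 1) (h2 : κ = κ ^ e) (h3 : ¬ ((l ^ (m + 1) : ℕ) : ℤ) ∣ (e : ℤ) - 1) :
    κ ^ (l ^ m) = 1 := by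
  have hκ0 : κ ≠ 0 := by
    rintro rfl
    rw [zero_pow (pow_pos hl.pos _).ne'] at h1
    exact zero_ne_one h1
  rcases Nat.eq_zero_or_pos e with rfl | he
  · rw [h2, pow_zero, one_pow]
  · obtain ⟨e', rfl⟩ : ∃ e', e = e' + 1 := ⟨e - 1, by omega⟩
    have h4 : κ ^ e' = 1 := by
      rw [pow_succ] at h2
      exact (mul_right_cancel₀ hκ0 ((one_mul κ).trans h2)).symm
    have h5 : ((e' + 1 : ℕ) : ℤ) - 1 = (e' : ℕ) := by push_cast; ring
    rw [h5, Int.natCast_dvd_natCast] at h3
    have h6 : orderOf κ ∣ l ^ (m + 1) := orderOf_dvd_of_pow_eq_one h1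
    obtain ⟨i, hi, hio⟩ := (Nat.dvd_prime_pow hl).mp h6
    rcases Nat.lt_or_ge i (m + 1) with hi' | hi'
    · rw [← orderOf_dvd_iff_pow_eq_one, hio]
      exact pow_dvd_pow l (Nat.lt_succ_iff.mp hi')
    · exfalso
      apply h3
      rw [le_antisymm hi' hi, ← hio]
      exact orderOf_dvd_of_pow_eq_one h4

/-- final computation in `M` -/
theorem fix_aux {M : Type*} [Field M] {l m : ℕ} (hl : l.Prime) {z : M}
    (hz : IsPrimitiveRoot z (l ^ (m + 1))) (τ : M ≃+* M) (hτz : τ z = z) {H h' v y x : M}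
    (H0 : H ≠ 0) (v0 : v ≠ 0) (e1 : h' = v ^ l * H) (hy : y ^ (l ^ (m + 1)) = h')
    (hx : x ^ l = H) (hv : τ v = v) (h'τ : τ h' = h') {e : ℕ}
    (he1 : ¬ ((l ^ (m + 1) : ℕ) : ℤ) ∣ (e : ℤ) - 1) (he2 : τ y = (τ : M → M)^[e] y) : τ x = x := by
  set N := l ^ (m + 1) with hN
  have hN0 : 0 < N := pow_pos hl.pos _
  have hNl : N = l ^ m * l := pow_succ l m
  have : NeZero N := ⟨hN0.ne'⟩
  have h'0 : h' ≠ 0 := by
    rw [e1]
    exact mul_ne_zero (pow_ne_zero _ v0) H0
  have hy0 : y ≠ 0 := by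
    rintro rfl
    rw [zero_pow hN0.ne'] at hy
    exact h'0 hy.symm
  obtain ⟨j, -, hj⟩ := hz.eq_pow_of_pow_eq_one (ξ := τ y / y) (by
    rw [div_pow, ← map_pow, hy, h'τ, ← hy, div_self (pow_ne_zero _ hy0)])
  have e3 : τ y = z ^ j * y := by rw [hj, div_mul_cancel₀ _ hy0]
  have e4 : ∀ n : ℕ, (τ : M → M)^[n] y = (z ^ j) ^ n * y := by
    intro n
    induction n with
    | zero => simp
    | succ n ih =>
      rw [Function.iterate_succ_apply', ih, map_mul, map_pow, map_pow, hτz, e3, pow_succ, mul_assoc]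
  have hκN : (z ^ j) ^ N = 1 := by rw [← pow_mul, mul_comm, pow_mul, hz.pow_eq_one, one_pow]
  have e5 : z ^ j = (z ^ j) ^ e := by
    have h3 := he2
    rw [e3, e4] at h3
    exact mul_right_cancel₀ hy0 h3
  have e7 : (z ^ j) ^ (l ^ m) = 1 := pow_eq_one_aux hl hκN e5 he1
  have hx0 : x ≠ 0 := by
    rintro rfl
    rw [zero_pow hl.pos.ne'] at hx
    exact H0 hx.symm
  have e8 : (y ^ (l ^ m)) ^ l = (v * x) ^ l := by
    rw [← pow_mul, ← hNl, hy, mul_pow, hx, e1]
  have hzl : IsPrimitiveRoot (z ^ (l ^ m)) l := hz.pow hN0 hNl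
  have : NeZero l := ⟨hl.pos.ne'⟩
  obtain ⟨i, -, hi⟩ := hzl.eq_pow_of_pow_eq_one (ξ := y ^ (l ^ m) / (v * x)) (by
    rw [div_pow, e8, div_self (pow_ne_zero _ (mul_ne_zero v0 hx0))])
  have e9 : y ^ (l ^ m) = (z ^ (l ^ m)) ^ i * (v * x) := by
    rw [hi, div_mul_cancel₀ _ (mul_ne_zero v0 hx0)]
  have e10 : τ (y ^ (l ^ m)) = y ^ (l ^ m) := by
    rw [map_pow, e3, mul_pow, e7, one_mul]
  rw [e9, map_mul, map_mul, map_pow, map_pow, hτz, hv] at e10
  have h3 := mul_left_cancel₀ (pow_ne_zero _ (pow_ne_zero _ (hz.ne_zero hN0.ne'))) e10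
  exact mul_left_cancel₀ v0 h3

omit [IsScalarTower L L' M] in
/-- Kummer commutation: `φ` and `τ` commute on `N`-th roots of `h'`. -/
theorem comm_of_root {N : ℕ} (hN : 0 < N) {z : L'} (hz : IsPrimitiveRoot z N) {h' : L'} (h0 : h' ≠ 0)
    (hσ : ∀ (σ : L' →ₐ[L] L') (χ : ℕ), σ z = z ^ χ → ∃ u : L', u ≠ 0 ∧ σ h' = u ^ N * h' ^ χ)
    {φ τ : M →ₐ[L] M} (σ : L' →ₐ[L] L') (hφ : ∀ x, φ (algebraMap L' M x) = algebraMap L' M (σ x))
    (hτ : ∀ x, τ (algebraMap L' M x) = algebraMap L' M x) {y : M} (hy : y ^ N = algebraMap L' M h') :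
    φ (τ y) = τ (φ y) := by
  have : NeZero N := ⟨hN.ne'⟩
  have hzM : IsPrimitiveRoot (algebraMap L' M z) N := hz.map_of_injective (algebraMap L' M).injective
  have hy0 : y ≠ 0 := by
    rintro rfl
    rw [zero_pow hN.ne'] at hy
    exact h0 ((map_eq_zero _).mp hy.symm)
  -- the cyclotomic character of `σ`
  obtain ⟨χ, -, hχ⟩ := hz.eq_pow_of_pow_eq_one (ξ := σ z) (by rw [← map_pow, hz.pow_eq_one, map_one])
  have hχ' : σ z = z ^ χ := hχ.symm
  obtain ⟨u, u0, hu⟩ := hσ σ χ hχ'
  -- `φ y = ξ u y^χ`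
  have e1 : (φ y) ^ N = (algebraMap L' M u * y ^ χ) ^ N := by
    rw [← map_pow, hy, hφ, hu, map_mul, map_pow, map_pow, ← hy, mul_pow, ← pow_mul, ← pow_mul,
      mul_comm N χ]
  have hb0 : algebraMap L' M u * y ^ χ ≠ 0 :=
    mul_ne_zero ((_root_.map_ne_zero _).mpr u0) (pow_ne_zero _ hy0)
  obtain ⟨i, -, hi⟩ := hzM.eq_pow_of_pow_eq_one (ξ := φ y / (algebraMap L' M u * y ^ χ))
    (by rw [div_pow, e1, div_self (pow_ne_zero _ hb0)])
  have e2 : φ y = algebraMap L' M z ^ i * (algebraMap L' M u * y ^ χ) := by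
    rw [hi, div_mul_cancel₀ _ hb0]
  -- `τ y = κ y`
  obtain ⟨j, -, hj⟩ := hzM.eq_pow_of_pow_eq_one (ξ := τ y / y) (by
    rw [div_pow, ← map_pow, hy, hτ, ← hy, div_self (pow_ne_zero _ hy0)])
  have e3 : τ y = algebraMap L' M z ^ j * y := by rw [hj, div_mul_cancel₀ _ hy0]
  have e4 : φ (algebraMap L' M z) = algebraMap L' M z ^ χ := by rw [hφ, hχ', map_pow]
  calc φ (τ y) = algebraMap L' M z ^ (χ * j) * φ y := by
        rw [e3, map_mul, map_pow, e4, ← pow_mul]
    _ = algebraMap L' M z ^ i * (algebraMap L' M u * (algebraMap L' M z ^ j * y) ^ χ) := by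
        rw [e2, mul_pow, ← pow_mul, mul_comm χ j]; ring
    _ = τ (φ y) := by rw [e2, map_mul, map_mul, map_pow, map_pow, hτ, hτ, e3]

end T2

section T3

open IntermediateField

variable {F E L M : Type*} [Field F] [CommRing E] [Nontrivial E] [Field L] [Field M] [Algebra F E]
  [Algebra F L] [Algebra F M] [Algebra L M] [IsScalarTower F L M] [FiniteDimensional F L]
  {R S : Subring E} (hR : ∀ x : F, algebraMap F E x ∈ R)
  (hS : ∀ x : F, algebraMap F E x ∈ S)
  (hRS : ∀ z : E, z ∈ R → z ∈ S → z ∈ Set.range (algebraMap F E))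
  (fac : ∀ (n : ℕ) (M M' : Matrix (Fin n) (Fin n) E), M * M' = 1 → ∃ P Q : Matrix (Fin n) (Fin n) E,
      GLin R P ∧ GLin S Q ∧ M = P * Q)

include hRS fac in
/-- **Lemma T**, abstract form. -/
theorem lemT {l m : ℕ} (hl : l.Prime) {z : M} (hz : IsPrimitiveRoot z (l ^ (m + 1)))
    {w : L} (hw : algebraMap L M w = z ^ (l ^ m)) [FiniteDimensional F L⟮z⟯]
    (φ τ : M ≃ₐ[L] M) (hτz : τ z = z)
    (unr : ∀ h' : L⟮z⟯, NPow hR (l ^ (m + 1)) h' → NPow hS (l ^ (m + 1)) h' →
      ∃ y : M, y ^ (l ^ (m + 1)) = h')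
    (tame : ∀ y : M, y ^ (l ^ (m + 1)) ∈ L⟮z⟯ → ∃ e : ℕ, ¬ ((l ^ (m + 1) : ℕ) : ℤ) ∣ (e : ℤ) - 1 ∧
      φ (τ (φ.symm y)) = (τ ^ e) y)
    {h : L} (h0 : h ≠ 0) (h1 : NPow hR l h) (h2 : NPow hS l h) {x : M}
    (hx : x ^ l = algebraMap L M h) : τ x = x := by
  set N := l ^ (m + 1) with hN
  have hN0 : 0 < N := pow_pos hl.pos _
  have hNl : N = l ^ m * l := pow_succ l m
  let z' : L⟮z⟯ := AdjoinSimple.gen L z
  have hz'c : (z' : M) = z := AdjoinSimple.coe_gen L z
  have hz' : IsPrimitiveRoot z' N := by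
    refine IsPrimitiveRoot.of_map_of_injective (f := algebraMap L⟮z⟯ M) ?_ (algebraMap L⟮z⟯ M).injective
    exact hz
  have hw' : algebraMap L L⟮z⟯ w = z' ^ (l ^ m) := by
    apply (algebraMap L⟮z⟯ M).injective
    rw [map_pow, ← IsScalarTower.algebraMap_apply, hw]
    rfl
  obtain ⟨h', v, h'0, v0, e1, n1, n2, hσ⟩ := lift_class hR hS hRS fac hl.pos hz' hw' h0 h1 h2
  obtain ⟨y, hy⟩ := unr h' n1 n2
  -- restrictions
  have hNe : NeZero N := ⟨hN0.ne'⟩
  have hint : IsIntegral L z := ⟨X ^ N - 1, monic_X_pow_sub_C 1 hN0.ne', by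
    simp [hz.pow_eq_one]⟩
  have hcyc : IsCyclotomicExtension {N} L L⟮z⟯ := by
    change IsCyclotomicExtension {N} L (IntermediateField.adjoin L {z}).toSubalgebra
    rw [IntermediateField.adjoin_simple_toSubalgebra_of_isAlgebraic hint.isAlgebraic]
    exact hz.adjoin_isCyclotomicExtension L
  have hnorm : Normal L L⟮z⟯ := by
    have : IsGalois L L⟮z⟯ := IsCyclotomicExtension.isGalois {N} L L⟮z⟯
    infer_instance
  have hτfix : ∀ x : L⟮z⟯, (τ : M →ₐ[L] M) (algebraMap L⟮z⟯ M x) = algebraMap L⟮z⟯ M x := by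
    intro x
    have h3 : L⟮z⟯ ≤ IntermediateField.fixedField (Subgroup.zpowers τ) := by
      rw [IntermediateField.adjoin_simple_le_iff, IntermediateField.mem_fixedField_iff]
      intro f hf
      obtain ⟨k, rfl⟩ := Subgroup.mem_zpowers_iff.mp hf
      have h4 : τ ∈ MulAction.stabilizer (M ≃ₐ[L] M) z := hτz
      exact (Subgroup.zpow_mem _ h4 k : τ ^ k ∈ MulAction.stabilizer (M ≃ₐ[L] M) z)
    exact (IntermediateField.mem_fixedField_iff _ _).mp (h3 x.2) τ (Subgroup.mem_zpowers τ)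
  have hσφ : ∀ x : L⟮z⟯, (φ.symm : M →ₐ[L] M) (algebraMap L⟮z⟯ M x) =
      algebraMap L⟮z⟯ M ((φ.symm.restrictNormal L⟮z⟯ : L⟮z⟯ →ₐ[L] L⟮z⟯) x) := fun x =>
    (φ.symm.restrictNormal_commutes L⟮z⟯ x).symm
  have hcomm : φ.symm (τ y) = τ (φ.symm y) :=
    comm_of_root (φ := (φ.symm : M →ₐ[L] M)) (τ := (τ : M →ₐ[L] M)) hN0 hz' h'0 hσ _ hσφ hτfix hy
  have hyN : y ^ N ∈ L⟮z⟯ := by rw [hy]; exact h'.2
  obtain ⟨e, he1, he2⟩ := tame y hyN
  rw [← hcomm, AlgEquiv.apply_symm_apply] at he2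
  have hit : ∀ n : ℕ, (τ ^ n) y = ((τ : M ≃+* M) : M → M)^[n] y := by
    intro n
    induction n with
    | zero => simp
    | succ n ih => rw [pow_succ', AlgEquiv.mul_apply, ih, Function.iterate_succ_apply']; rfl
  refine fix_aux (m := m) (H := algebraMap L M h) (h' := (h' : M)) (v := (v : M)) (y := y) (e := e)
    hl hz (τ : M ≃+* M) hτz ((_root_.map_ne_zero _).mpr h0) (fun h3 => v0 (Subtype.ext h3)) ?_ hy hx
    (hτfix v) (hτfix h') he1 (he2.trans (hit e))
  rw [e1]
  rfl

end T3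

end Crest.Agent.R013.LemT_874
end

-- ▼ part R013/LemT4_874
section

/-!
# Lemma T (task A-T of row 13), part 4: one-circle `N`-classes are unramified.
-/

set_option autoImplicit false

namespace Crest.Agent.R013.LemT_874

open Crest.Agent.R013.Lift903 Crest.Agent.R013.Gl946 Crest.Agent.R013.A2a_275 Polynomial TensorProduct
open scoped NNReal

attribute [local instance] Algebra.TensorProduct.rightAlgebra

section Eval

variable {F E L : Type*} [Field F] [CommRing E] [Field L] [Algebra F E] [Algebra F L]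
  [FiniteDimensional F L]

/-- If `h` is an `N`-th power in `R ⊗ L` and `R` maps to the completion of `L` at `w`, then
`w h` is an `N`-th power of a value. -/
theorem NPow.val {R : Subring E} {hR : ∀ x : F, algebraMap F E x ∈ R} {N : ℕ} {h : L}
    (H : NPow hR N h) (h0 : h ≠ 0) (hN : 0 < N) (w : Valuation L ℝ≥0) (ρ : R →+* Cpl w)
    (hc : ∀ x : F, ρ ⟨algebraMap F E x, hR x⟩ = toCpl w (algebraMap F L x)) :
    ∃ a : L, w h = w a ^ N := by
  obtain ⟨a, ha, e⟩ := H
  set α : Cpl w := ev (isBC F E L) hR ρ (toCpl w) hc ⟨a, ha⟩ with hα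
  have e1 : α ^ N = toCpl w h := by
    rw [hα, ← map_pow, ← ev_algebraMap (isBC F E L) hR ρ (toCpl w) hc h]
    congr 1
    exact Subtype.ext e
  have hα0 : α ≠ 0 := by
    intro h1
    rw [h1, zero_pow hN.ne'] at e1
    exact h0 ((map_eq_zero (toCpl w)).mp e1.symm)
  -- density
  obtain ⟨g, hg⟩ := (denseRange_toCpl w).exists_dist_lt α (norm_pos_iff.mpr hα0)
  rw [dist_eq_norm] at hg
  have h2 : ‖toCpl w g‖ = ‖α‖ := by
    have h3 : ‖toCpl w g - α‖ < ‖α‖ := by rw [norm_sub_rev]; exact hg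
    have h4 : toCpl w g = (toCpl w g - α) + α := by ring
    rw [h4]
    rw [IsUltrametricDist.norm_add_eq_max_of_norm_ne_norm h3.ne, max_eq_right h3.le]
  refine ⟨g, ?_⟩
  have h5 : ((w h : ℝ≥0) : ℝ) = ((w g ^ N : ℝ≥0) : ℝ) := by
    rw [← norm_toCpl, ← e1, norm_pow, ← h2, norm_toCpl, NNReal.coe_pow]
  exact_mod_cast h5

end Eval

section Places

variable {κ E : Type*} [NormedField κ] [NormedField E] [NormedAlgebra κ E] [IsUltrametricDist E]
  [CompleteSpace E] [CompleteSpace κ] {y : E} (hG : IsGauss κ y) {π : κ} (hπ : IsUnif π)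
  (hd : DenseRat κ y)
  {F L : Type*} [Field F] [Field L] [Algebra F E] [Algebra F L] [FiniteDimensional F L]
  [Algebra κ F] [IsScalarTower κ F E] [Algebra κ L] [IsScalarTower κ F L]

include hπ in
/-- **One-circle `N`-classes are unramified at all places.** -/
theorem val_of_NPow (hF : ∀ x : F, algebraMap F E x ∈ KY hG)
    (hF' : ∀ z : E, z ∈ KY hG → z ∈ Set.range (algebraMap F E)) {N : ℕ} (hN : 0 < N) {h : L}
    (h0 : h ≠ 0) (h1 : NPow (algebraMap_mem_RU hG hF) N h)
    (h2 : NPow (algebraMap_mem_FP hG hπ hd hF) N h) (w : Valuation L ℝ≥0)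
    (hw : ∀ c : κ, c ≠ 0 → w (algebraMap κ L c) = 1) (hnt : ∃ a : L, w a ≠ 0 ∧ w a ≠ 1) :
    ∃ a : L, w h = w a ^ N := by
  -- `κ` is a nontrivially normed ultrametric field
  let inst : NontriviallyNormedField κ :=
    { (inferInstance : NormedField κ) with
      non_trivial := ⟨π⁻¹, by
        rw [norm_inv]; exact (one_lt_inv₀ hπ.pos).2 hπ.lt_one⟩ }
  have hult : IsUltrametricDist κ := by
    refine IsUltrametricDist.isUltrametricDist_of_forall_norm_add_le_max_norm fun a b => ?_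
    rw [← norm_algebraMap' E, ← norm_algebraMap' E a, ← norm_algebraMap' E b, map_add]
    exact IsUltrametricDist.norm_add_le_max _ _
  -- the isomorphism `F = k(y)`
  obtain ⟨yF, hyF⟩ := hF' y (y_mem_KY hG)
  let e0 : F →+* KY hG := (algebraMap F E).codRestrict (KY hG) hF
  have he0 : Function.Bijective e0 := by
    refine ⟨fun a b hab => (algebraMap F E).injective (congrArg Subtype.val hab), fun z => ?_⟩
    obtain ⟨x, hx⟩ := hF' z.1 z.2
    exact ⟨x, Subtype.ext hx⟩
  let e : F ≃+* KY hG := RingEquiv.ofBijective e0 he0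
  have he : ∀ x : F, e x = ⟨algebraMap F E x, hF x⟩ := fun x => rfl
  have hes : ∀ (x : F) (hx : algebraMap F E x ∈ KY hG), e.symm ⟨algebraMap F E x, hx⟩ = x := by
    intro x hx
    rw [← he x, e.symm_apply_apply]
  let ψ : KY hG →+* Cpl w := ((toCpl w).comp (algebraMap F L)).comp (e.symm : KY hG →+* F)
  have hψ : ∀ (x : F) (hx : algebraMap F E x ∈ KY hG),
      ψ ⟨algebraMap F E x, hx⟩ = toCpl w (algebraMap F L x) := by
    intro x hx
    change toCpl w (algebraMap F L (e.symm _)) = _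
    rw [hes]
  set yL : L := algebraMap F L yF with hyL
  have hy0 : yF ≠ 0 := by
    rintro rfl
    rw [map_zero] at hyF
    exact hG.ne_zero hyF.symm
  have hyL0 : yL ≠ 0 := (_root_.map_ne_zero _).mpr hy0
  have hψc : ∀ c : κ, ‖ψ ⟨algebraMap κ E c, const_mem_KY hG c⟩‖ ≤ 1 := by
    intro c
    have h3 : (⟨algebraMap κ E c, const_mem_KY hG c⟩ : KY hG) =
        ⟨algebraMap F E (algebraMap κ F c), hF _⟩ :=
      Subtype.ext (IsScalarTower.algebraMap_apply κ F E c)
    rw [h3, hψ, norm_toCpl, ← IsScalarTower.algebraMap_apply]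
    exact_mod_cast val_const_le w hw c
  have hpol : ∀ Q : κ[X], algebraMap F E (aeval yF Q) = aeval y Q := by
    intro Q
    rw [← hyF, aeval_algebraMap_apply]
  have hpolinv : ∀ Q : κ[X], algebraMap F E (aeval yF⁻¹ Q) = aeval y⁻¹ Q := by
    intro Q
    rw [← hyF, ← map_inv₀, aeval_algebraMap_apply]
  have hyF' : (⟨y, y_mem_KY hG⟩ : KY hG) = ⟨algebraMap F E yF, hF _⟩ := Subtype.ext hyF.symm
  -- algebraicity of the residue
  have halg : w yL ≤ 1 → ∃ P : κ[X], P ≠ 0 ∧ w (aeval yL P) < 1 := by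
    intro hy1
    by_contra hcon
    push Not at hcon
    have hP1 : ∀ P : κ[X], P ≠ 0 → w (aeval yL P) = 1 := fun P hP =>
      le_antisymm (val_aeval_le w hw hy1 P) (hcon P hP)
    -- `w` is trivial on `F`
    have hF1 : ∀ x : F, x ≠ 0 → w (algebraMap F L x) = 1 := by
      intro x hx
      obtain ⟨f, g, hg, hfg⟩ := hF x
      have hx1 : x = aeval yF f / aeval yF g := by
        apply (algebraMap F E).injective
        rw [map_div₀, hpol, hpol]
        exact hfg
      have hf : f ≠ 0 := by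
        rintro rfl
        rw [map_zero, zero_div] at hx1
        exact hx hx1
      rw [hx1, map_div₀, map_div₀, ← aeval_algebraMap_apply, ← aeval_algebraMap_apply, hP1 f hf,
        hP1 g hg, div_one]
    -- hence on `L`
    obtain ⟨a, ha0, ha1⟩ := hnt
    have hle : ∀ b : L, w b ≤ 1 := by
      intro b
      have hb : IsIntegral F b := Algebra.IsIntegral.isIntegral b
      obtain ⟨p, hp, hpb⟩ := hb
      by_contra hcon2
      push Not at hcon2
      have hlt : w (∑ i ∈ Finset.range p.natDegree, algebraMap F L (p.coeff i) * b ^ i) <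
          w b ^ p.natDegree := by
        rcases Nat.eq_zero_or_pos p.natDegree with hd0 | hd0
        · rw [hd0]; simp
        · refine Valuation.map_sum_lt w (pow_ne_zero _ (ne_of_gt (zero_lt_one.trans hcon2))) ?_
          intro i hi
          rw [Finset.mem_range] at hi
          rw [map_mul, map_pow]
          have h3 : w (algebraMap F L (p.coeff i)) ≤ 1 := by
            rcases eq_or_ne (p.coeff i) 0 with h4 | h4
            · rw [h4, map_zero, map_zero]; exact zero_le_one
            · exact (hF1 _ h4).le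
          calc w (algebraMap F L (p.coeff i)) * w b ^ i ≤ 1 * w b ^ i :=
                mul_le_mul_of_nonneg_right h3 bot_le
            _ = w b ^ i := one_mul _
            _ < w b ^ p.natDegree := pow_lt_pow_right₀ hcon2 hi
      have heq : b ^ p.natDegree =
          -(∑ i ∈ Finset.range p.natDegree, algebraMap F L (p.coeff i) * b ^ i) := by
        rw [eval₂_eq_sum_range, Finset.sum_range_succ, show p.coeff p.natDegree = 1 from hp,
          map_one, one_mul] at hpb
        exact (neg_eq_of_add_eq_zero_right hpb).symm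
      rw [← map_pow, heq, Valuation.map_neg] at hlt
      exact lt_irrefl _ hlt
    apply ha1
    refine le_antisymm (hle a) ?_
    have h3 := hle a⁻¹
    rw [map_inv₀] at h3
    exact (inv_le_one₀ (pos_iff_ne_zero.mpr ha0)).mp h3
  rcases place_dich w hw hyL0 halg with ⟨hy1, Q, hQ, hQ1, hQw⟩ | ⟨hy1, Q, hQ, hQ1, hQw⟩
  · have h3 : ‖ψ ⟨y⁻¹, yinv_mem_KY hG⟩‖ ≤ 1 := by
      have h5 : y⁻¹ = algebraMap F E yF⁻¹ := by rw [map_inv₀, hyF]
      have h4 : (⟨y⁻¹, yinv_mem_KY hG⟩ : KY hG) = ⟨algebraMap F E yF⁻¹, hF _⟩ := Subtype.ext h5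
      rw [h4, hψ, norm_toCpl, map_inv₀ (algebraMap F L)]
      exact NNReal.coe_le_one.mpr hy1
    have h4 : ‖ψ ⟨aeval (y⁻¹) Q, aeval_inv_mem_KY hG Q⟩‖ < 1 := by
      have h5 : (⟨aeval (y⁻¹) Q, aeval_inv_mem_KY hG Q⟩ : KY hG) =
          ⟨algebraMap F E (aeval yF⁻¹ Q), hF _⟩ := Subtype.ext (hpolinv Q).symm
      rw [h5, hψ, norm_toCpl, ← aeval_algebraMap_apply, map_inv₀ (algebraMap F L)]
      exact NNReal.coe_lt_one.mpr hQw
    obtain ⟨Φ, hΦ, -⟩ := mapRU_place hG hπ ψ hψc h3 Q hQ hQ1 h4 ⊤ isClosed_univ (fun _ => trivial)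
    exact h1.val h0 hN w Φ (fun x => (hΦ _ (hF x)).trans (hψ x (hF x)))
  · have h3 : ‖ψ ⟨y, y_mem_KY hG⟩‖ ≤ 1 := by
      rw [hyF', hψ, norm_toCpl]
      exact_mod_cast hy1
    have h4 : ‖ψ ⟨aeval y Q, aeval_mem_KY hG Q⟩‖ < 1 := by
      have h5 : (⟨aeval y Q, aeval_mem_KY hG Q⟩ : KY hG) =
          ⟨algebraMap F E (aeval yF Q), hF _⟩ := Subtype.ext (hpol Q).symm
      rw [h5, hψ, norm_toCpl, ← aeval_algebraMap_apply]
      exact_mod_cast hQw
    obtain ⟨Φ, hΦ, -⟩ := mapFP_place hG hπ hd ψ hψc h3 Q hQ hQ1 h4 ⊤ isClosed_univ (fun _ => trivial)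
    exact h2.val h0 hN w (Φ : (FP hG hπ hd).toSubring →+* Cpl w)
      (fun x => (hΦ _ (hF x)).trans (hψ x (hF x)))

end Places

end Crest.Agent.R013.LemT_874
end

-- ▼ part R013/LemT5_874

/-!
# Lemma T (task A-T of row 13), part 5: the instance for `M = maxUnramified k K` and a section `s`.
-/

set_option autoImplicit false

namespace Crest.Agent.R013.LemT_874

open Crest.Agent.R013.Lift903 Crest.Agent.R013.Gl946 Polynomial TensorProduct
open Crest.NumberTheoryR.Sect
open scoped NNReal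

attribute [local instance] Algebra.TensorProduct.rightAlgebra

section Root

variable {k : Type*} [Field k] [CharZero k] {K : Type*} [Field K] [Algebra k K]
  [Algebra (RatFunc k) K] [IsScalarTower k (RatFunc k) K] [FiniteDimensional (RatFunc k) K]

/-- Kummer criterion inside `maxUnramified`. -/
theorem exists_root_of_val {L : Type*} [Field L] [Algebra K L] [Algebra k L] [IsScalarTower k K L]
    [FiniteDimensional K L] (f : L →ₐ[K] maxUnramified k K)
    {N : ℕ} (hN : N ≠ 0) (h : L)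
    (hv : ∀ w : Valuation L ℝ≥0, IsPlace k w → ∃ a : L, w h = w a ^ N) :
    ∃ y : maxUnramified k K, y ^ N = f h := by
  let f' : L →ₐ[K] AlgebraicClosure K := (maxUnramified k K).val.comp f
  let U : IntermediateField K (AlgebraicClosure K) := f'.fieldRange
  let e : L ≃ₐ[K] U := AlgEquiv.ofInjectiveField f'
  have hfd : FiniteDimensional K U := e.toLinearEquiv.finiteDimensional
  have hle : U ≤ maxUnramified k K := by
    rintro _ ⟨x, rfl⟩
    exact (f x).2
  have hU : IsUnramifiedEverywhere k K U := Unr5_957.le_maxUnramified_iff.mp hle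
  have hh : ∀ u : Valuation U ℝ≥0, IsPlace k u → ∃ a : U, u (e h) = u a ^ N := by
    intro u hu
    let w : Valuation L ℝ≥0 := u.comap (e : L →+* U)
    have hw : IsPlace k w := by
      refine ⟨fun c hc => ?_, ?_⟩
      · have h1 : e (algebraMap k L c) = algebraMap k U c := by
          have h2 : algebraMap k L c = algebraMap K L (algebraMap k K c) :=
            IsScalarTower.algebraMap_apply k K L c
          rw [h2, e.commutes, ← IsScalarTower.algebraMap_apply]
        change u (e (algebraMap k L c)) = 1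
        rw [h1]
        exact hu.1 c hc
      · obtain ⟨b, hb0, hb1⟩ := hu.2
        refine ⟨e.symm b, ?_, ?_⟩
        · change u (e (e.symm b)) ≠ 0
          rwa [e.apply_symm_apply]
        · change u (e (e.symm b)) ≠ 1
          rwa [e.apply_symm_apply]
    obtain ⟨a, ha⟩ := hv w hw
    exact ⟨e a, ha⟩
  obtain ⟨y, hy⟩ := IsAlgClosed.exists_pow_nat_eq ((f h : maxUnramified k K) : AlgebraicClosure K)
    (Nat.pos_of_ne_zero hN)
  have hyM : y ∈ maxUnramified k K :=
    Unr10_957.kummer_mem_maxUnramified hU hN (h := e h) hh (y := y) hy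
  exact ⟨⟨y, hyM⟩, Subtype.ext hy⟩

/-- primitive roots of unity exist in `maxUnramified` -/
theorem exists_primitive {N : ℕ} (hN : 0 < N) :
    ∃ z : maxUnramified k K, IsPrimitiveRoot z N := by
  have hK : CharZero K := Unr4_957.charZero_K k K
  have : CharZero (maxUnramified k K) :=
    charZero_of_injective_algebraMap (algebraMap K (maxUnramified k K)).injective
  have : NeZero (N : maxUnramified k K) := ⟨Nat.cast_ne_zero.mpr hN.ne'⟩
  have h1 := MaxUnr_97.splits_maxUnramified (k := k) (K := K) (cyclotomic N k)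
  rw [map_cyclotomic] at h1
  have h2 : (cyclotomic N (maxUnramified k K)).degree ≠ 0 := by
    rw [degree_cyclotomic]
    exact_mod_cast (Nat.totient_pos.mpr hN).ne'
  obtain ⟨z, hz⟩ := h1.exists_eval_eq_zero h2
  exact ⟨z, isRoot_cyclotomic_iff.mp hz⟩

end Root

section Final

variable {k : Type*} [Field k] [CharZero k] {K : Type*} [Field K] [Algebra k K]
  [Algebra (RatFunc k) K] [IsScalarTower k (RatFunc k) K] [FiniteDimensional (RatFunc k) K]

/-- What Lemma T needs to know about `t ∈ Gal(constField/k)`: it acts trivially on the roots of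
unity of order a power of `l`, and it is a tame generator (in a weak sense). -/
structure TameAt (l : ℕ) (t : ConstGal k K) : Prop where
  mu : ∀ (n : ℕ) (z : constField k K), z ^ (l ^ n) = 1 → t z = z
  conj : ∀ U : Subgroup (ConstGal k K), IsOpen (U : Set (ConstGal k K)) →
    ∃ g ∈ U, ∃ B : ℕ, ∀ N : OpenNormalSubgroup (ConstGal k K), ∃ e : ℕ,
      ¬ ((l ^ B : ℕ) : ℤ) ∣ (e : ℤ) - 1 ∧ (t ^ e)⁻¹ * (g * t * g⁻¹) ∈ N

/-- an automorphism fixing `L` as an automorphism over `L` -/
def toL {K M : Type*} [Field K] [Field M] [Algebra K M] (L : IntermediateField K M) (g : M ≃ₐ[K] M)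
    (hg : ∀ a ∈ L, g a = a) : M ≃ₐ[L] M :=
  { (g : M ≃+* M) with commutes' := fun a => hg a a.2 }

theorem toL_apply {K M : Type*} [Field K] [Field M] [Algebra K M] (L : IntermediateField K M)
    (g : M ≃ₐ[K] M) (hg : ∀ a ∈ L, g a = a) (x : M) : toL L g hg x = g x := rfl

theorem toL_pow_apply {K M : Type*} [Field K] [Field M] [Algebra K M] (L : IntermediateField K M)
    (g : M ≃ₐ[K] M) (hg : ∀ a ∈ L, g a = a) (n : ℕ) (x : M) : (toL L g hg ^ n) x = (g ^ n) x := by
  induction n with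
  | zero => simp
  | succ n ih => rw [pow_succ', pow_succ', AlgEquiv.mul_apply, AlgEquiv.mul_apply, ih, toL_apply]

theorem toL_symm_apply {K M : Type*} [Field K] [Field M] [Algebra K M] (L : IntermediateField K M)
    (g : M ≃ₐ[K] M) (hg : ∀ a ∈ L, g a = a) (x : M) : (toL L g hg).symm x = g⁻¹ x := by
  apply (toL L g hg).injective
  rw [AlgEquiv.apply_symm_apply, toL_apply]
  exact (AlgEquiv.apply_symm_apply g x).symm

section Circle

variable {κ E : Type*} [NormedField κ] [NormedField E] [NormedAlgebra κ E] [IsUltrametricDist E]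
  [CompleteSpace E] [CompleteSpace κ] {y : E} (hG : IsGauss κ y) {π : κ} (hπ : IsUnif π)
  (hd : DenseRat κ y) {F : Type*} [Field F] [Algebra F E] [Algebra κ F] [IsScalarTower κ F E]

include hπ in
/-- `N`-th roots of one-circle `N`-classes over `L' ⊆ M` lie in `M = maxUnramified`. -/
theorem root_of_NPow {L : Type*} [Field L] [Algebra K L] [Algebra k L] [IsScalarTower k K L]
    [FiniteDimensional K L] (f : L →ₐ[K] maxUnramified k K) [Algebra F L] [FiniteDimensional F L] (hF : ∀ x : F, algebraMap F E x ∈ KY hG)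
    (hF' : ∀ z : E, z ∈ KY hG → z ∈ Set.range (algebraMap F E))
    (hκ : ∀ c : κ, IsIntegral k (algebraMap F L (algebraMap κ F c))) {N : ℕ} (hN : 0 < N) (h : L)
    (h1 : NPow (algebraMap_mem_RU hG hF) N h) (h2 : NPow (algebraMap_mem_FP hG hπ hd hF) N h) :
    ∃ y : maxUnramified k K, y ^ N = f h := by
  rcases eq_or_ne h 0 with rfl | h0
  · exact ⟨0, by rw [zero_pow hN.ne', map_zero]⟩
  let _ : Algebra κ L := ((algebraMap F L).comp (algebraMap κ F)).toAlgebra
  have : IsScalarTower κ F L := IsScalarTower.of_algebraMap_eq (fun _ => rfl)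
  refine exists_root_of_val f hN.ne' h fun w hw => ?_
  refine val_of_NPow hG hπ hd hF hF' hN h0 h1 h2 w ?_ hw.2
  -- constants have value `1`
  have hle : ∀ b : L, IsIntegral k b → w b ≤ 1 := fun b hb =>
    Unr2_957.le_one_of_integral' w (fun s => by
      rcases eq_or_ne s 0 with rfl | hs
      · rw [map_zero, map_zero]; exact zero_le_one
      · exact (hw.1 s hs).le) hb
  intro c hc
  have h3 := hle _ (hκ c)
  have h4 := hle _ (hκ c⁻¹)
  have h5 : algebraMap F L (algebraMap κ F c⁻¹) = (algebraMap F L (algebraMap κ F c))⁻¹ := by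
    rw [map_inv₀, map_inv₀]
  have h6 : algebraMap F L (algebraMap κ F c) ≠ 0 :=
    (_root_.map_ne_zero _).mpr ((_root_.map_ne_zero _).mpr hc)
  rw [h5, map_inv₀] at h4
  have h7 : 0 < w (algebraMap F L (algebraMap κ F c)) := (Valuation.pos_iff w).mpr h6
  exact le_antisymm h3 ((inv_le_one₀ h7).mp h4)

include hπ in
/-- **Lemma T** for `M = maxUnramified k K`: a one-circle topological `μ_l`-class over a finite
extension `L ⊆ M^{s(t)}` of `K` is fixed by the tame element `s(t)`. -/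
theorem lemT_maxUnramified {l : ℕ} (hl : l.Prime) [IsGalois k (constField k K)]
    (s : ConstGal k K →* PiGroup k K)
    (hs : IsSection k K s) {t : ConstGal k K} (ht : TameAt l t)
    (L : IntermediateField K (maxUnramified k K)) [FiniteDimensional K L]
    (hLt : ∀ a ∈ L, s t a = a) {w : L} (hw : IsPrimitiveRoot w l)
    [Algebra F L] [FiniteDimensional F L] (hF : ∀ x : F, algebraMap F E x ∈ KY hG)
    (hF' : ∀ z : E, z ∈ KY hG → z ∈ Set.range (algebraMap F E))
    (hκ : ∀ c : κ, IsIntegral k (algebraMap F L (algebraMap κ F c))) {h : L} (h0 : h ≠ 0)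
    (h1 : NPow (algebraMap_mem_RU hG hF) l h) (h2 : NPow (algebraMap_mem_FP hG hπ hd hF) l h)
    {x : maxUnramified k K} (hx : x ^ l = h) : s t x = x := by
  -- the Frobenius-like element
  let U : Subgroup (ConstGal k K) := (IntermediateField.fixingSubgroup L).comap s
  have hU : IsOpen (U : Set (ConstGal k K)) :=
    (IntermediateField.fixingSubgroup_isOpen L).preimage hs.1
  obtain ⟨g, hgU, B, hB⟩ := ht.conj U hU
  have hgL : ∀ a ∈ L, s g a = a := fun a ha => hgU ⟨a, ha⟩
  obtain ⟨N0, -⟩ := Fp4_831.exists_openNormal_le U hU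
  obtain ⟨m, rfl⟩ : ∃ m, B = m + 1 := by
    obtain ⟨e, he, -⟩ := hB N0
    rcases Nat.eq_zero_or_pos B with rfl | hB0
    · exact absurd (by rw [pow_zero, Nat.cast_one]; exact one_dvd _) he
    · exact ⟨B - 1, by omega⟩
  set N := l ^ (m + 1) with hN
  have hN0 : 0 < N := pow_pos hl.pos _
  obtain ⟨z, hz⟩ := exists_primitive (k := k) (K := K) hN0
  -- `z ^ (l ^ m) ∈ L`
  have hwM : IsPrimitiveRoot (algebraMap L (maxUnramified k K) w) l :=
    hw.map_of_injective (algebraMap L (maxUnramified k K)).injective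
  have : NeZero l := ⟨hl.pos.ne'⟩
  obtain ⟨j, -, hj⟩ := hwM.eq_pow_of_pow_eq_one (ξ := z ^ (l ^ m)) (by
    rw [← pow_mul, ← pow_succ, hz.pow_eq_one])
  have hw' : algebraMap L (maxUnramified k K) (w ^ j) = z ^ (l ^ m) := by rw [map_pow, hj]
  -- `t` fixes `z`
  have htz : s t z = z := by
    have hzi : IsIntegral k z := ⟨X ^ N - 1, monic_X_pow_sub_C 1 hN0.ne', by
      simp [hz.pow_eq_one]⟩
    let z' : constField k K := ⟨z, mem_algebraicClosure_iff.mpr hzi.isAlgebraic⟩
    have h3 := ht.mu (m + 1) z' (Subtype.ext hz.pow_eq_one)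
    have h4 := hs.2 t z'
    rw [h3] at h4
    exact h4
  -- algebra structures
  let _ : Algebra F (maxUnramified k K) :=
    ((algebraMap L (maxUnramified k K)).comp (algebraMap F L)).toAlgebra
  have : IsScalarTower F L (maxUnramified k K) := IsScalarTower.of_algebraMap_eq (fun _ => rfl)
  have hint : IsIntegral L z := ⟨X ^ N - 1, monic_X_pow_sub_C 1 hN0.ne', by
    simp [hz.pow_eq_one]⟩
  have : FiniteDimensional L (IntermediateField.adjoin L {z}) :=
    IntermediateField.adjoin.finiteDimensional hint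
  have : FiniteDimensional F (IntermediateField.adjoin L {z}) :=
    FiniteDimensional.trans F L (IntermediateField.adjoin L {z})
  refine lemT (algebraMap_mem_RU hG hF) (algebraMap_mem_FP hG hπ hd hF)
    (fun z h1 h2 => hF' z (inter_FP_RU hG hπ hd z h2 h1))
    (fun _ M M' h => fac_RU_FP hG hπ hd M M' h) hl (m := m) hz hw' (toL L (s g) hgL)
    (toL L (s t) hLt) htz ?_ ?_ h0 h1 h2 hx
  · -- unramified
    intro h' n1 n2
    have : FiniteDimensional K (IntermediateField.adjoin L {z}) :=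
      FiniteDimensional.trans K L (IntermediateField.adjoin L {z})
    have : IsScalarTower k L (maxUnramified k K) := IsScalarTower.of_algebraMap_eq (fun _ => rfl)
    have : IsScalarTower k K (IntermediateField.adjoin L {z}) :=
      IsScalarTower.of_algebraMap_eq (fun _ => rfl)
    let f : IntermediateField.adjoin L {z} →ₐ[K] maxUnramified k K :=
      (IntermediateField.adjoin L {z}).val.restrictScalars K
    refine root_of_NPow hG hπ hd f hF hF' ?_ hN0 h' n1 n2
    intro c
    have h3 : algebraMap F (IntermediateField.adjoin L {z}) (algebraMap κ F c) =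
        algebraMap L (IntermediateField.adjoin L {z}) (algebraMap F L (algebraMap κ F c)) :=
      IsScalarTower.algebraMap_apply F L (IntermediateField.adjoin L {z}) _
    rw [h3]
    exact (hκ c).map (IsScalarTower.toAlgHom k L (IntermediateField.adjoin L {z}))
  · -- tameness
    intro y _
    have : FiniteDimensional K (IntermediateField.adjoin K {y}) :=
      IntermediateField.adjoin.finiteDimensional (Algebra.IsIntegral.isIntegral y)
    let V : Subgroup (ConstGal k K) :=
      (IntermediateField.fixingSubgroup (IntermediateField.adjoin K {y})).comap s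
    have hV : IsOpen (V : Set (ConstGal k K)) :=
      (IntermediateField.fixingSubgroup_isOpen (IntermediateField.adjoin K {y})).preimage hs.1
    obtain ⟨N1, hN1⟩ := Fp4_831.exists_openNormal_le V hV
    obtain ⟨e, he1, he2⟩ := hB N1
    refine ⟨e, he1, ?_⟩
    have h3 : s ((t ^ e)⁻¹ * (g * t * g⁻¹)) y = y :=
      hN1 he2 ⟨y, IntermediateField.mem_adjoin_simple_self K y⟩
    rw [toL_symm_apply, toL_apply, toL_apply, toL_pow_apply]
    rw [map_mul, map_mul, map_mul, map_inv, map_inv, map_pow, AlgEquiv.mul_apply,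
      AlgEquiv.mul_apply, AlgEquiv.mul_apply] at h3
    have h4 := congrArg (s t ^ e) h3
    rw [← h4]
    exact (AlgEquiv.apply_symm_apply (s t ^ e) _).symm

end Circle

end Final

end Crest.Agent.R013.LemT_874
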