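import Mathlib
import Crest.Agent.R013.Lift4_903
import Crest.Agent.R013.Gl9_946

-- ▼ part R013/Lift2_365
section

/-!
# LIFT-2: local `N`-th powers are `N`-th powers in `E ⊗ K`

`E` a complete ultrametric field, `F → E` a field, `K/F` finite separable, `N` prime to the residue
characteristic (`‖(N : E)‖ = 1`).  If `f ∈ K` is congruent to an `N`-th power modulo 1-units at every
valuation of `K` extending the norm of `E` restricted to `F`, then `1 ⊗ f` is an `N`-th power in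
`E ⊗[F] K`.
-/

set_option autoImplicit false

namespace Crest.Agent.R013.Lift2_365

open scoped NNReal TensorProduct

/-- In a complete ultrametric field a 1-unit is an `N`-th power if `‖N‖ = 1`. -/
theorem exists_pow_eq_of_near_one {L : Type*} [NormedField L] [IsUltrametricDist L]
    [CompleteSpace L] (N : ℕ) (hN : ‖(N : L)‖ = 1) (x : L) (hx : ‖x - 1‖ < 1) :
    ∃ y : L, ‖y - 1‖ ≤ ‖x - 1‖ ∧ y ^ N = x := by
  have hN0 : (N : L) ≠ 0 := by
    intro h; rw [h, norm_zero] at hN; norm_num at hN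
  set δ : ℝ := ‖x - 1‖ with hδ
  have hδ0 : 0 ≤ δ := norm_nonneg _
  set φ : L → L := fun y => y - (y ^ N - x) / N with hφ
  have nle : ∀ y : L, ‖y - 1‖ ≤ δ → ‖y‖ ≤ 1 := by
    intro y hy
    have : y = (y - 1) + 1 := by ring
    rw [this]
    refine (IsUltrametricDist.norm_add_le_max _ _).trans (max_le (hy.trans hx.le) ?_)
    rw [norm_one]
  -- powers stay near 1
  have npow : ∀ y : L, ‖y - 1‖ ≤ δ → ∀ n : ℕ, ‖y ^ n - 1‖ ≤ δ := by
    intro y hy n
    induction n with
    | zero => simpa using hδ0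
    | succ n ih =>
      have : y ^ (n + 1) - 1 = (y ^ n - 1) * y + (y - 1) := by ring
      rw [this]
      refine (IsUltrametricDist.norm_add_le_max _ _).trans (max_le ?_ hy)
      rw [norm_mul]
      calc ‖y ^ n - 1‖ * ‖y‖ ≤ δ * 1 := mul_le_mul ih (nle y hy) (norm_nonneg _) hδ0
        _ = δ := mul_one _
  have nmul : ∀ a b : L, ‖a - 1‖ ≤ δ → ‖b - 1‖ ≤ δ → ‖a * b - 1‖ ≤ δ := by
    intro a b ha hb
    have : a * b - 1 = (a - 1) * b + (b - 1) := by ring
    rw [this]
    refine (IsUltrametricDist.norm_add_le_max _ _).trans (max_le ?_ hb)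
    rw [norm_mul]
    calc ‖a - 1‖ * ‖b‖ ≤ δ * 1 := mul_le_mul ha (nle b hb) (norm_nonneg _) hδ0
      _ = δ := mul_one _
  -- contraction
  have hcontr : ∀ y z : L, ‖y - 1‖ ≤ δ → ‖z - 1‖ ≤ δ → ‖φ y - φ z‖ ≤ δ * ‖y - z‖ := by
    intro y z hy hz
    have h1 : φ y - φ z = (y - z) *
        ((∑ i ∈ Finset.range N, (1 - y ^ i * z ^ (N - 1 - i))) / N) := by
      have h2 : (y ^ N - z ^ N) = (∑ i ∈ Finset.range N, y ^ i * z ^ (N - 1 - i)) * (y - z) :=
        (geom_sum₂_mul y z N).symm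
      have h3 : (∑ i ∈ Finset.range N, ((1 : L) - y ^ i * z ^ (N - 1 - i))) =
          N - ∑ i ∈ Finset.range N, y ^ i * z ^ (N - 1 - i) := by
        rw [Finset.sum_sub_distrib]; simp
      rw [h3]
      simp only [hφ]
      field_simp
      linear_combination -h2
    rw [h1, norm_mul, norm_div, hN, div_one, mul_comm]
    refine mul_le_mul_of_nonneg_right ?_ (norm_nonneg _)
    refine IsUltrametricDist.norm_sum_le_of_forall_le_of_nonneg hδ0 fun i _ => ?_
    rw [norm_sub_rev]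
    exact nmul _ _ (npow y hy _) (npow z hz _)
  have hself : ∀ y : L, ‖y - 1‖ ≤ δ → ‖φ y - 1‖ ≤ δ := by
    intro y hy
    have h1 : φ y - 1 = (φ y - φ 1) + (φ 1 - 1) := by ring
    have h2 : ‖φ 1 - 1‖ = δ := by
      have : φ 1 - 1 = (x - 1) / N := by simp only [hφ, one_pow]; ring
      rw [this, norm_div, hN, div_one]
    rw [h1]
    refine (IsUltrametricDist.norm_add_le_max _ _).trans (max_le ?_ h2.le)
    refine (hcontr y 1 hy (by simpa using hδ0)).trans ?_
    calc δ * ‖y - 1‖ ≤ 1 * δ := mul_le_mul hx.le hy (norm_nonneg _) zero_le_one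
      _ = δ := one_mul _
  -- Cauchy iteration
  set s : ℕ → L := fun n => φ^[n] 1 with hs
  have sS : ∀ n, s (n + 1) = φ (s n) := fun n => Function.iterate_succ_apply' φ n 1
  have s1 : ∀ n, ‖s n - 1‖ ≤ δ := by
    intro n
    induction n with
    | zero => simpa [hs] using hδ0
    | succ n ih => rw [sS]; exact hself _ ih
  have sd : ∀ n, ‖s n - s (n + 1)‖ ≤ 1 * δ ^ n := by
    intro n
    induction n with
    | zero =>
      have h0 : s 0 = 1 := rfl
      have := s1 1
      rw [pow_zero, mul_one, norm_sub_rev, h0]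
      exact this.trans hx.le
    | succ n ih =>
      rw [sS n, sS (n + 1)]
      refine (hcontr _ _ (s1 n) (s1 (n + 1))).trans ?_
      rw [pow_succ, one_mul, mul_comm]
      exact mul_le_mul_of_nonneg_right (by simpa using ih) hδ0
  have hc : CauchySeq s := by
    refine cauchySeq_of_le_geometric δ 1 hx fun n => ?_
    rw [dist_eq_norm]; exact sd n
  obtain ⟨y, hy⟩ := cauchySeq_tendsto_of_complete hc
  have hy1 : ‖y - 1‖ ≤ δ :=
    le_of_tendsto (hy.sub_const 1).norm (Filter.Eventually.of_forall s1)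
  refine ⟨y, hy1, ?_⟩
  have hfix : φ y = y := by
    have h1 : Filter.Tendsto (fun n => s (n + 1)) Filter.atTop (nhds y) :=
      hy.comp (Filter.tendsto_add_atTop_nat 1)
    have h2 : Filter.Tendsto (fun n => φ (s n)) Filter.atTop (nhds (φ y)) := by
      have : Continuous φ := by
        simp only [hφ]
        fun_prop
      exact (this.tendsto y).comp hy
    simp only [sS] at h1
    exact tendsto_nhds_unique h2 h1
  have : (y ^ N - x) / N = 0 := by
    have h := hfix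
    simp only [hφ] at h
    linear_combination -h
  rcases div_eq_zero_iff.1 this with h | h
  · exact sub_eq_zero.1 h
  · exact absurd h hN0

/-- Local version: in a finite field extension `L` of the complete field `E`. -/
theorem exists_local_pow {F E K L : Type*} [Field F] [NontriviallyNormedField E] [Algebra F E]
    [IsUltrametricDist E] [CompleteSpace E] [Field K] [Algebra F K] [Field L] [Algebra E L]
    [FiniteDimensional E L] (N : ℕ) (hN : ‖(N : E)‖ = 1) (f : K)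
    (hf : ∀ v : Valuation K ℝ≥0, (∀ a : F, v (algebraMap F K a) = ‖algebraMap F E a‖₊) →
      ∃ w : K, w ≠ 0 ∧ v (f - w ^ N) < v f)
    (ι : K →+* L) (hι : ∀ a : F, ι (algebraMap F K a) = algebraMap E L (algebraMap F E a)) :
    ∃ c : L, c ^ N = ι f := by
  have : Algebra.IsAlgebraic E L := inferInstance
  let nf : NormedField L := spectralNorm.normedField E L
  have : CompleteSpace L := spectralNorm.completeSpace E L
  have : IsUltrametricDist L :=
    IsUltrametricDist.isUltrametricDist_of_isNonarchimedean_norm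
      (isNonarchimedean_spectralNorm (K := E) (L := L))
  have hext : ∀ e : E, ‖algebraMap E L e‖ = ‖e‖ := fun e => spectralNorm_extends e
  set v : Valuation K ℝ≥0 := (NormedField.valuation (K := L)).comap ι with hv
  have hvapp : ∀ a : K, v a = ‖ι a‖₊ := fun a => rfl
  obtain ⟨w, hw0, hw⟩ := hf v (by
    intro a
    rw [hvapp, hι]
    exact NNReal.eq (hext _))
  have hιw : ι w ≠ 0 := by
    rw [Ne, map_eq_zero]; exact hw0
  have hN' : ‖(N : L)‖ = 1 := by
    rw [← map_natCast (algebraMap E L), hext, hN]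
  have hwf : v (w ^ N) = v f := by
    have : w ^ N = f - (f - w ^ N) := by ring
    rw [this]
    exact Valuation.map_sub_eq_of_lt_left _ hw
  have hnear : ‖ι f / ι w ^ N - 1‖ < 1 := by
    have h1 : ι f / ι w ^ N - 1 = ι (f - w ^ N) / ι (w ^ N) := by
      rw [map_sub, map_pow, sub_div, div_self (pow_ne_zero _ hιw)]
    have h2 : (‖ι (f - w ^ N)‖₊ : ℝ≥0) < ‖ι (w ^ N)‖₊ := by
      rw [← hvapp, ← hvapp, hwf]; exact hw
    rw [h1, norm_div, div_lt_one]
    · exact_mod_cast h2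
    · exact norm_pos_iff.2 (by rw [map_pow]; exact pow_ne_zero _ hιw)
  obtain ⟨y, -, hy⟩ := exists_pow_eq_of_near_one N hN' _ hnear
  refine ⟨y * ι w, ?_⟩
  rw [mul_pow, hy, div_mul_cancel₀ _ (pow_ne_zero _ hιw)]

/-- **LIFT-2.** -/
theorem exists_tensor_pow {F E K : Type*} [Field F] [NontriviallyNormedField E] [Algebra F E]
    [IsUltrametricDist E] [CompleteSpace E] [Field K] [Algebra F K] [FiniteDimensional F K]
    [Algebra.IsSeparable F K] (N : ℕ) (hN : ‖(N : E)‖ = 1) (f : K)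
    (hf : ∀ v : Valuation K ℝ≥0, (∀ a : F, v (algebraMap F K a) = ‖algebraMap F E a‖₊) →
      ∃ w : K, w ≠ 0 ∧ v (f - w ^ N) < v f) :
    ∃ c : E ⊗[F] K, c ^ N = 1 ⊗ₜ[F] f := by
  classical
  have : Algebra.FormallyUnramified F K := Algebra.FormallyUnramified.of_isSeparable F K
  have : Algebra.FormallyUnramified E (E ⊗[F] K) := inferInstance
  have : Module.Finite E (E ⊗[F] K) := inferInstance
  have : IsArtinianRing (E ⊗[F] K) := isArtinian_of_tower E inferInstance
  have : IsReduced (E ⊗[F] K) := Algebra.FormallyUnramified.isReduced_of_field E (E ⊗[F] K)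
  have key : ∀ I : MaximalSpectrum (E ⊗[F] K), ∃ c : (E ⊗[F] K) ⧸ I.asIdeal,
      c ^ N = Ideal.Quotient.mk I.asIdeal ((1 : E) ⊗ₜ[F] f) := by
    intro I
    have := I.isMaximal
    let ι : K →+* (E ⊗[F] K) ⧸ I.asIdeal := (Ideal.Quotient.mk I.asIdeal).comp
      (Algebra.TensorProduct.includeRight : K →ₐ[F] (E ⊗[F] K)).toRingHom
    refine @exists_local_pow F E K ((E ⊗[F] K) ⧸ I.asIdeal) _ _ _ _ _ _ _
      (Ideal.Quotient.field I.asIdeal) _ _ N hN f hf ι ?_
    intro a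
    have h1 : (1 : E) ⊗ₜ[F] (algebraMap F K a) =
        (algebraMap E (E ⊗[F] K) (algebraMap F E a)) := by
      rw [Algebra.TensorProduct.algebraMap_apply, Algebra.algebraMap_self, RingHom.id_apply,
        Algebra.algebraMap_eq_smul_one, Algebra.algebraMap_eq_smul_one, TensorProduct.tmul_smul,
        TensorProduct.smul_tmul']
    exact congrArg (Ideal.Quotient.mk I.asIdeal) h1
  choose c hc using key
  obtain ⟨a, ha⟩ := (IsArtinianRing.equivPi (E ⊗[F] K)).surjective c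
  refine ⟨a, (IsArtinianRing.equivPi (E ⊗[F] K)).injective ?_⟩
  rw [map_pow, ha]
  funext I
  exact hc I

end Crest.Agent.R013.Lift2_365
end

-- ▼ part R013/Lift5_903
section

/-!
# Lemma LIFT: gluing of two functions which agree modulo `N`-th powers near the circle

`T = E ⊗_F K`.  If `h₀ / h_P ∈ K^×` is, for every norm of `K` over the norm of `F`, an `N`-th power
times a `1`-unit (`N` prime to the residue characteristic), there is `h ∈ K^×` with
`h = h₀ a^N`, `a ∈ (R ⊗ K)^×` and `h = h_P d^N`, `d ∈ (S ⊗ K)^×`.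
-/

set_option autoImplicit false

namespace Crest.Agent.R013.Lift903

open Gl946 Matrix
open scoped NNReal TensorProduct

attribute [local instance] Algebra.TensorProduct.rightAlgebra

section Tensor

variable {F E K : Type*} [Field F] [CommRing E] [Field K] [Algebra F E] [Algebra F K]
  {ι : Type*}

/-- The tensor product is a base change. -/
theorem isBC_tensor (b : Module.Basis ι F K) :
    IsBC (T := E ⊗[F] K) b (Algebra.TensorProduct.basis E b) :=
  ⟨fun i => by
    rw [Algebra.TensorProduct.basis_apply]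
    rfl⟩


end Tensor

section Patch

variable {F E K : Type*} [Field F] [NontriviallyNormedField E] [Algebra F E]
  [IsUltrametricDist E] [CompleteSpace E] [Field K] [Algebra F K] [FiniteDimensional F K]
  [Algebra.IsSeparable F K] {ι : Type*} [Fintype ι] [DecidableEq ι] (b : Module.Basis ι F K)
  {R S : Subring E} (hR : ∀ x : F, algebraMap F E x ∈ R)
  (hS : ∀ x : F, algebraMap F E x ∈ S)

/-- **Lemma LIFT**, gluing step. -/
theorem patch
    (hRS : ∀ z : E, z ∈ R → z ∈ S → z ∈ Set.range (algebraMap F E))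
    (fac : ∀ M M' : Matrix ι ι E, M * M' = 1 → ∃ P Q : Matrix ι ι E,
      GLin R P ∧ GLin S Q ∧ M = P * Q) (N : ℕ) (hN : ‖(N : E)‖ = 1)
    (h₀ hP : K) (h0 : h₀ ≠ 0) (hP0 : hP ≠ 0)
    (hf : ∀ v : Valuation K ℝ≥0, (∀ a : F, v (algebraMap F K a) = ‖algebraMap F E a‖₊) →
      ∃ w : K, w ≠ 0 ∧ v (h₀ / hP - w ^ N) < v (h₀ / hP)) :
    ∃ h : K, h ≠ 0 ∧ ∃ a ∈ KR R hR (isBC_tensor (E := E) b),
      ∃ a' ∈ KR R hR (isBC_tensor (E := E) b), ∃ d ∈ KR S hS (isBC_tensor (E := E) b),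
      ∃ d' ∈ KR S hS (isBC_tensor (E := E) b),
      a * a' = 1 ∧ d * d' = 1 ∧ algebraMap K (E ⊗[F] K) h = algebraMap K (E ⊗[F] K) h₀ * a ^ N ∧
        algebraMap K (E ⊗[F] K) h = algebraMap K (E ⊗[F] K) hP * d ^ N := by
  obtain ⟨c, hc⟩ := Lift2_365.exists_tensor_pow (E := E) N hN (h₀ / hP) hf
  have hN0 : N ≠ 0 := by
    rintro rfl
    rw [Nat.cast_zero, norm_zero] at hN
    exact zero_ne_one hN
  have : Nontrivial (E ⊗[F] K) := inferInstance
  have e1 : c ^ N = algebraMap K (E ⊗[F] K) (h₀ / hP) := hc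
  have e2 : c * (c ^ (N - 1) * algebraMap K (E ⊗[F] K) (hP / h₀)) = 1 := by
    rw [← mul_assoc, ← pow_succ', Nat.sub_add_cancel (Nat.one_le_iff_ne_zero.2 hN0), e1,
      ← map_mul, div_mul_div_cancel₀ hP0, div_self h0, map_one]
  refine lift (isBC_tensor (E := E) b) hR hS (algebraMap F E).injective hRS fac N
    (algebraMap K (E ⊗[F] K) h₀) (algebraMap K (E ⊗[F] K) h₀⁻¹) (algebraMap K (E ⊗[F] K) hP)
    c _ (algebraMap_mem_KR _ hR h₀) ?_ (algebraMap_mem_KR _ hS hP) e2 ?_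
  · rw [← map_mul, mul_inv_cancel₀ h0, map_one]
  · rw [e1, ← map_mul, div_mul_cancel₀ _ hP0]

end Patch

/-! ### 946's setting -/

section Instance

variable {k E : Type*} [NormedField k] [NontriviallyNormedField E] [NormedAlgebra k E]
  [IsUltrametricDist E] [CompleteSpace E] [CompleteSpace k] {y : E} (hG : IsGauss k y) {π : k}
  (hπ : IsUnif π) (hd : DenseRat k y)
  {F K : Type*} [Field F] [Field K] [Algebra F K] [Algebra F E] [FiniteDimensional F K]
  [Algebra.IsSeparable F K] {ι : Type*} [Fintype ι] [DecidableEq ι] (b : Module.Basis ι F K)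

/-- **Lemma LIFT** in 946's setting: `h₀` (outside) and `h_P` (inside) are glued. -/
theorem patch_E (hF : ∀ x : F, algebraMap F E x ∈ KY hG)
    (hF' : ∀ z : E, z ∈ KY hG → z ∈ Set.range (algebraMap F E)) (N : ℕ) (hN : ‖(N : E)‖ = 1)
    (h₀ hP : K) (h0 : h₀ ≠ 0) (hP0 : hP ≠ 0)
    (hf : ∀ v : Valuation K ℝ≥0, (∀ a : F, v (algebraMap F K a) = ‖algebraMap F E a‖₊) →
      ∃ w : K, w ≠ 0 ∧ v (h₀ / hP - w ^ N) < v (h₀ / hP)) :
    ∃ h : K, h ≠ 0 ∧ ∃ a ∈ KR (RU k y) (algebraMap_mem_RU hG hF) (isBC_tensor (E := E) b),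
      ∃ a' ∈ KR (RU k y) (algebraMap_mem_RU hG hF) (isBC_tensor (E := E) b),
      ∃ d ∈ KR (FP hG hπ hd).toSubring (algebraMap_mem_FP hG hπ hd hF) (isBC_tensor (E := E) b),
      ∃ d' ∈ KR (FP hG hπ hd).toSubring (algebraMap_mem_FP hG hπ hd hF) (isBC_tensor (E := E) b),
      a * a' = 1 ∧ d * d' = 1 ∧ algebraMap K (E ⊗[F] K) h = algebraMap K (E ⊗[F] K) h₀ * a ^ N ∧
        algebraMap K (E ⊗[F] K) h = algebraMap K (E ⊗[F] K) hP * d ^ N :=
  patch b (algebraMap_mem_RU hG hF) (algebraMap_mem_FP hG hπ hd hF)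
    (fun z h1 h2 => hF' z (inter_FP_RU hG hπ hd z h2 h1))
    (fun M M' h => fac_RU_FP hG hπ hd M M' h) N hN h₀ hP h0 hP0 hf

end Instance

end Crest.Agent.R013.Lift903
end

-- ▼ part R013/Lift6_903

/-!
# Lemma LIFT at a finite level: the gluing theorem `glue`

`k, E, y` as in 946's patching files, `F = k(y_F)` a field mapping to `E`, `K/F` finite separable.
If `h₀ / h_P` is an `N`-th power up to `1`-units for every norm of `K` over the Gauss norm of `F`,
there is `h ∈ K^×` which is `h₀` (up to `N`-th powers and `1`-units) at all norms and places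
"outside" (`|y| ≥ 1`) and `h_P` "inside" (`|y| < 1`).
-/

set_option autoImplicit false
set_option linter.unusedSectionVars false

namespace Crest.Agent.R013.Lift903

open Gl946 Matrix Polynomial
open scoped NNReal TensorProduct

attribute [local instance] Algebra.TensorProduct.rightAlgebra

universe u

/-- The absolute value of a real valued valuation. -/
noncomputable def absv {K : Type*} [Field K] (w : Valuation K ℝ≥0) : AbsoluteValue K ℝ where
  toFun x := (w x : ℝ)
  map_mul' x y := by rw [map_mul]; push_cast; rfl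
  nonneg' x := (w x).2
  eq_zero' x := by rw [NNReal.coe_eq_zero, map_eq_zero]
  add_le' x y := by
    have h := w.map_add x y
    rcases le_max_iff.1 h with h | h
    · calc (w (x + y) : ℝ) ≤ w x := by exact_mod_cast h
        _ ≤ w x + w y := le_add_of_nonneg_right (w y).2
    · calc (w (x + y) : ℝ) ≤ w y := by exact_mod_cast h
        _ ≤ w x + w y := le_add_of_nonneg_left (w x).2

/-- The completion of `K` at a real valued valuation. -/
theorem exists_completion {K : Type u} [Field K] (w : Valuation K ℝ≥0) :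
    ∃ (Ω : Type u) (_ : NormedField Ω) (_ : IsUltrametricDist Ω) (_ : CompleteSpace Ω)
      (κ : K →+* Ω), (∀ x, ‖κ x‖₊ = w x) ∧ ∀ α : Ω, α ≠ 0 → ∃ g : K, ‖κ g - α‖ < ‖α‖ := by
  let nf : NormedField K := (absv w).toNormedField
  have hnorm : ∀ x : K, ‖x‖ = (w x : ℝ) := fun x => rfl
  have hult : IsUltrametricDist K := by
    refine IsUltrametricDist.isUltrametricDist_of_forall_norm_add_le_max_norm fun x y => ?_
    rw [hnorm, hnorm, hnorm]
    exact_mod_cast w.map_add x y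
  refine ⟨UniformSpace.Completion K, inferInstance, IsUltrametricDist.of_normedAlgebra K,
    inferInstance, algebraMap K (UniformSpace.Completion K), ?_, ?_⟩
  · intro x
    refine NNReal.eq ?_
    rw [coe_nnnorm, norm_algebraMap', hnorm]
  · intro α hα
    have hpos : 0 < ‖α‖ := norm_pos_iff.2 hα
    obtain ⟨g, hg⟩ := Metric.denseRange_iff.1
      (UniformSpace.Completion.denseRange_coe (α := K)) α ‖α‖ hpos
    refine ⟨g, ?_⟩
    rw [dist_comm, dist_eq_norm] at hg
    exact hg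

section Setting

variable {k E : Type*} [NormedField k] [NontriviallyNormedField E] [NormedAlgebra k E]
  [IsUltrametricDist E] [CompleteSpace E] [CompleteSpace k] {y : E} (hG : IsGauss k y) {π : k}
  (hπ : IsUnif π) (hd : DenseRat k y)
  {F K : Type*} [Field F] [Field K] [Algebra F K] [Algebra F E]
  [Algebra k F] [IsScalarTower k F E] [Algebra k K] [IsScalarTower k F K]
  {yF : F} (hy : algebraMap F E yF = y)
  (hgen : ∀ x : F, ∃ f g : k[X], aeval yF g ≠ 0 ∧ x = aeval yF f / aeval yF g)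

omit [IsUltrametricDist E] [CompleteSpace E] [CompleteSpace k] in
include hy in
theorem map_aeval (f : k[X]) : algebraMap F E (aeval yF f) = aeval y f := by
  rw [← hy, ← aeval_algebraMap_apply]

omit [IsUltrametricDist E] [CompleteSpace E] [CompleteSpace k] in
include hy hgen in
theorem mem_KY_of_gen (x : F) : algebraMap F E x ∈ KY hG := by
  obtain ⟨f, g, hg, rfl⟩ := hgen x
  refine ⟨f, g, ?_, ?_⟩
  · rintro rfl
    exact hg (map_zero _)
  · rw [map_div₀, map_aeval hy, map_aeval hy]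

omit [IsUltrametricDist E] [CompleteSpace E] [CompleteSpace k] in
include hy in
theorem range_of_mem_KY (z : E) (hz : z ∈ KY hG) : z ∈ Set.range (algebraMap F E) := by
  obtain ⟨f, g, -, rfl⟩ := hz
  exact ⟨aeval yF f / aeval yF g, by rw [map_div₀, map_aeval hy, map_aeval hy]⟩

/-- `F ≃ k(y) ⊆ E`. -/
noncomputable def eKY (hF : ∀ x : F, algebraMap F E x ∈ KY hG)
    (hF' : ∀ z : E, z ∈ KY hG → z ∈ Set.range (algebraMap F E)) : F ≃+* KY hG :=
  RingEquiv.ofBijective ((algebraMap F E).codRestrict (KY hG) hF) ⟨fun a b h =>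
    (algebraMap F E).injective (congrArg Subtype.val h), fun z => by
      obtain ⟨x, hx⟩ := hF' z z.2
      exact ⟨x, Subtype.ext hx⟩⟩

omit [IsUltrametricDist E] [CompleteSpace E] [CompleteSpace k] [Algebra k F]
  [IsScalarTower k F E] in
theorem eKY_symm_apply (hF : ∀ x : F, algebraMap F E x ∈ KY hG)
    (hF' : ∀ z : E, z ∈ KY hG → z ∈ Set.range (algebraMap F E)) (x : F) (h) :
    (eKY hG hF hF').symm ⟨algebraMap F E x, h⟩ = x := by
  rw [RingEquiv.symm_apply_eq]
  rfl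

section Hom

variable {Ω : Type*} [NormedField Ω] (κ : K →+* Ω)
  (hF : ∀ x : F, algebraMap F E x ∈ KY hG)
  (hF' : ∀ z : E, z ∈ KY hG → z ∈ Set.range (algebraMap F E))

/-- `k(y) → Ω` induced by `K → Ω`. -/
noncomputable def psi : KY hG →+* Ω :=
  (κ.comp (algebraMap F K)).comp (eKY hG hF hF').symm.toRingHom

omit [IsUltrametricDist E] [CompleteSpace E] [CompleteSpace k] [Algebra k F]
  [IsScalarTower k F E] [Algebra k K] [IsScalarTower k F K] in
theorem psi_apply (x : F) (h) :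
    psi hG κ hF hF' ⟨algebraMap F E x, h⟩ = κ (algebraMap F K x) := by
  change κ (algebraMap F K ((eKY hG hF hF').symm ⟨algebraMap F E x, h⟩)) = _
  rw [eKY_symm_apply]

omit [IsUltrametricDist E] [CompleteSpace E] [CompleteSpace k] [Algebra k F]
  [IsScalarTower k F E] [Algebra k K] [IsScalarTower k F K] in
theorem psi_apply' (z : E) (h : z ∈ KY hG) (x : F) (hx : algebraMap F E x = z) :
    psi hG κ hF hF' ⟨z, h⟩ = κ (algebraMap F K x) := by
  subst hx
  exact psi_apply hG κ hF hF' x h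

omit [IsUltrametricDist E] [CompleteSpace E] [CompleteSpace k] in
theorem psi_const (c : k) :
    psi hG κ hF hF' ⟨algebraMap k E c, const_mem_KY hG c⟩ = κ (algebraMap k K c) := by
  rw [psi_apply' hG κ hF hF' _ _ (algebraMap k F c)
    (IsScalarTower.algebraMap_apply k F E c).symm, ← IsScalarTower.algebraMap_apply k F K]

omit [IsUltrametricDist E] [CompleteSpace E] [CompleteSpace k] in
include hy in
theorem psi_y : psi hG κ hF hF' ⟨y, y_mem_KY hG⟩ = κ (algebraMap F K yF) :=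
  psi_apply' hG κ hF hF' _ _ yF hy

omit [IsUltrametricDist E] [CompleteSpace E] [CompleteSpace k] in
include hy in
theorem psi_yinv : psi hG κ hF hF' ⟨y⁻¹, yinv_mem_KY hG⟩ = κ (algebraMap F K yF)⁻¹ := by
  rw [psi_apply' hG κ hF hF' _ _ yF⁻¹ (by rw [map_inv₀, hy]), map_inv₀ (algebraMap F K)]

omit [IsUltrametricDist E] [CompleteSpace E] [CompleteSpace k] in
include hy in
theorem psi_aeval (f : k[X]) : psi hG κ hF hF' ⟨aeval y f, aeval_mem_KY hG f⟩ =
    κ (aeval (algebraMap F K yF) f) := by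
  rw [psi_apply' hG κ hF hF' _ _ (aeval yF f) (map_aeval hy f), aeval_algebraMap_apply]

omit [IsUltrametricDist E] [CompleteSpace E] [CompleteSpace k] in
include hy in
theorem psi_aeval_inv (f : k[X]) :
    psi hG κ hF hF' ⟨aeval (y⁻¹) f, aeval_inv_mem_KY hG f⟩ =
    κ (aeval ((algebraMap F K yF)⁻¹) f) := by
  rw [psi_apply' hG κ hF hF' _ _ (aeval (yF⁻¹) f) (by
    rw [← aeval_algebraMap_apply, map_inv₀, hy]), ← map_inv₀ (algebraMap F K),
    aeval_algebraMap_apply]

end Hom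

section Cases

variable {K : Type u} [Field K] [Algebra F K] [Algebra k K] [IsScalarTower k F K]
  (hF : ∀ x : F, algebraMap F E x ∈ KY hG)
  (hF' : ∀ z : E, z ∈ KY hG → z ∈ Set.range (algebraMap F E))

include hy hF' in
/-- `RU → Ω`, norm with `|y| ≥ 1`. -/
theorem homU_norm {Ω : Type*} [NormedField Ω] [IsUltrametricDist Ω] [CompleteSpace Ω]
    (κ : K →+* Ω) (hk : ∀ c : k, ‖κ (algebraMap k K c)‖ ≤ ‖c‖)
    (h1 : 1 ≤ ‖κ (algebraMap F K yF)‖) :
    ∃ ρ : RU k y →+* Ω, ∀ x : F, ρ ⟨algebraMap F E x, algebraMap_mem_RU hG hF x⟩ =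
      κ (algebraMap F K x) := by
  obtain ⟨Φ, hΦ, -⟩ := mapRU_norm hG (psi hG κ hF hF') (fun c => by
    rw [psi_const]; exact hk c) (by
    rw [psi_yinv hG hy, map_inv₀, norm_inv]
    exact inv_le_one_of_one_le₀ h1) ⊤ isClosed_univ (fun _ => trivial)
  exact ⟨Φ, fun x => (hΦ _ (hF x)).trans (psi_apply hG κ hF hF' x _)⟩

include hy hF' in
/-- `FP → Ω`, norm with `|y| < 1`. -/
theorem homP_norm {Ω : Type*} [NormedField Ω] [IsUltrametricDist Ω] [CompleteSpace Ω]
    (κ : K →+* Ω) (hk : ∀ c : k, ‖κ (algebraMap k K c)‖ ≤ ‖c‖)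
    (h1 : ‖κ (algebraMap F K yF)‖ < 1) :
    ∃ ρ : (FP hG hπ hd).toSubring →+* Ω,
      ∀ x : F, ρ ⟨algebraMap F E x, algebraMap_mem_FP hG hπ hd hF x⟩ =
      κ (algebraMap F K x) := by
  obtain ⟨Φ, hΦ, -⟩ := mapFP_norm hG hπ hd (psi hG κ hF hF') (fun c => by
    rw [psi_const]; exact hk c) (by
    rw [psi_y hG hy]
    exact h1) ⊤ isClosed_univ (fun _ => trivial)
  exact ⟨Φ, fun x => (hΦ _ (hF x)).trans (psi_apply hG κ hF hF' x _)⟩

include hy hF' hπ in
/-- `RU → Ω`, place in `|y| ≥ 1`. -/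
theorem homU_place {Ω : Type*} [NormedField Ω] [IsUltrametricDist Ω] [CompleteSpace Ω]
    (κ : K →+* Ω) (hk : ∀ c : k, ‖κ (algebraMap k K c)‖ ≤ 1)
    (h1 : ‖κ (algebraMap F K yF)⁻¹‖ ≤ 1) (Q : k[X]) (hQ : Q.Monic) (hQ1 : ∀ i, ‖Q.coeff i‖ ≤ 1)
    (hQ2 : ‖κ (aeval ((algebraMap F K yF)⁻¹) Q)‖ < 1) :
    ∃ ρ : RU k y →+* Ω, ∀ x : F, ρ ⟨algebraMap F E x, algebraMap_mem_RU hG hF x⟩ =
      κ (algebraMap F K x) := by
  obtain ⟨Φ, hΦ, -⟩ := mapRU_place hG hπ (psi hG κ hF hF') (fun c => by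
    rw [psi_const]; exact hk c) (by
    rw [psi_yinv hG hy]
    exact h1) Q hQ hQ1 (by rw [psi_aeval_inv hG hy]; exact hQ2) ⊤ isClosed_univ (fun _ => trivial)
  exact ⟨Φ, fun x => (hΦ _ (hF x)).trans (psi_apply hG κ hF hF' x _)⟩

include hy hF' in
/-- `FP → Ω`, place in `|y| < 1`. -/
theorem homP_place {Ω : Type*} [NormedField Ω] [IsUltrametricDist Ω] [CompleteSpace Ω]
    (κ : K →+* Ω) (hk : ∀ c : k, ‖κ (algebraMap k K c)‖ ≤ 1)
    (h1 : ‖κ (algebraMap F K yF)‖ ≤ 1) (Q : k[X]) (hQ : Q.Monic)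
    (hQ1 : ∀ i < Q.natDegree, ‖Q.coeff i‖ < 1)
    (hQ2 : ‖κ (aeval (algebraMap F K yF) Q)‖ < 1) :
    ∃ ρ : (FP hG hπ hd).toSubring →+* Ω,
      ∀ x : F, ρ ⟨algebraMap F E x, algebraMap_mem_FP hG hπ hd hF x⟩ =
      κ (algebraMap F K x) := by
  obtain ⟨Φ, hΦ, -⟩ := mapFP_place hG hπ hd (psi hG κ hF hF') (fun c => by
    rw [psi_const]; exact hk c) (by
    rw [psi_y hG hy]
    exact h1) Q hQ hQ1 (by rw [psi_aeval hG hy]; exact hQ2) ⊤ isClosed_univ (fun _ => trivial)
  exact ⟨Φ, fun x => (hΦ _ (hF x)).trans (psi_apply hG κ hF hF' x _)⟩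

omit [Algebra k K] [IsScalarTower k F K] [IsUltrametricDist E] [CompleteSpace E] in
/-- The conclusion at one valuation. -/
theorem ratio {ι : Type*} [Fintype ι] (b : Module.Basis ι F K) {R : Subring E}
    (hR : ∀ x : F, algebraMap F E x ∈ R) (w : Valuation K ℝ≥0)
    (hρ : ∀ (Ω : Type u) (_ : NormedField Ω) (_ : IsUltrametricDist Ω) (_ : CompleteSpace Ω)
      (κ : K →+* Ω), (∀ x, ‖κ x‖₊ = w x) → ∃ ρ : R →+* Ω, ∀ x : F,
        ρ ⟨algebraMap F E x, hR x⟩ = κ (algebraMap F K x))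
    (N : ℕ) (h h₀ : K) (h0 : h₀ ≠ 0) (a a' : E ⊗[F] K)
    (ha : a ∈ KR R hR (isBC_tensor (E := E) b)) (ha' : a' ∈ KR R hR (isBC_tensor (E := E) b))
    (haa : a * a' = 1)
    (e : algebraMap K (E ⊗[F] K) h = algebraMap K (E ⊗[F] K) h₀ * a ^ N) :
    ∃ g : K, g ≠ 0 ∧ w (h / (h₀ * g ^ N) - 1) < 1 := by
  obtain ⟨Ω, i1, i2, i3, κ, h1, h2⟩ := exists_completion w
  obtain ⟨ρ, hρ'⟩ := hρ Ω i1 i2 i3 κ h1
  refine lift_val (isBC_tensor (E := E) b) hR w (NormedField.valuation (K := Ω)) κ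
    (fun x => h1 x) (fun α hα => ?_) ρ hρ' N h h₀ h0 a a' ha ha' haa e
  obtain ⟨g, hg⟩ := h2 α hα
  exact ⟨g, hg⟩

end Cases

section Glue

variable {K : Type u} [Field K] [Algebra F K] [Algebra k K] [IsScalarTower k F K]
  [FiniteDimensional F K] [Algebra.IsSeparable F K]

include hG hπ hd hy hgen in
/-- **Lemma LIFT at a finite level.** -/
theorem glue (N : ℕ) (hN : ‖(N : E)‖ = 1) (h₀ hP : K) (h0 : h₀ ≠ 0) (hP0 : hP ≠ 0)
    (hf : ∀ v : Valuation K ℝ≥0, (∀ a : F, v (algebraMap F K a) = ‖algebraMap F E a‖₊) →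
      ∃ w : K, w ≠ 0 ∧ v (h₀ / hP - w ^ N) < v (h₀ / hP)) :
    ∃ h : K, h ≠ 0 ∧ ∀ w : Valuation K ℝ≥0,
      ((∀ c : k, w (algebraMap k K c) ≤ ‖c‖₊) → 1 ≤ w (algebraMap F K yF) →
        ∃ g : K, g ≠ 0 ∧ w (h / (h₀ * g ^ N) - 1) < 1) ∧
      ((∀ c : k, w (algebraMap k K c) ≤ ‖c‖₊) → w (algebraMap F K yF) < 1 →
        ∃ g : K, g ≠ 0 ∧ w (h / (hP * g ^ N) - 1) < 1) ∧
      ((∀ c : k, w (algebraMap k K c) ≤ 1) → w (algebraMap F K yF)⁻¹ ≤ 1 →
        (∃ Q : k[X], Q.Monic ∧ (∀ i, ‖Q.coeff i‖ ≤ 1) ∧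
          w (aeval ((algebraMap F K yF)⁻¹) Q) < 1) →
        ∃ g : K, g ≠ 0 ∧ w (h / (h₀ * g ^ N) - 1) < 1) ∧
      ((∀ c : k, w (algebraMap k K c) ≤ 1) → w (algebraMap F K yF) ≤ 1 →
        (∃ Q : k[X], Q.Monic ∧ (∀ i < Q.natDegree, ‖Q.coeff i‖ < 1) ∧
          w (aeval (algebraMap F K yF) Q) < 1) →
        ∃ g : K, g ≠ 0 ∧ w (h / (hP * g ^ N) - 1) < 1) := by
  classical
  have hF : ∀ x : F, algebraMap F E x ∈ KY hG := mem_KY_of_gen hG hy hgen
  have hF' : ∀ z : E, z ∈ KY hG → z ∈ Set.range (algebraMap F E) := range_of_mem_KY hG hy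
  let b := Module.finBasis F K
  obtain ⟨h, hh0, a, ha, a', ha', d, hd1, d', hd1', e1, e2, e3, e4⟩ :=
    patch_E hG hπ hd b hF hF' N hN h₀ hP h0 hP0 hf
  refine ⟨h, hh0, fun w => ⟨fun hk hy1 => ?_, fun hk hy1 => ?_, fun hk hy1 hQ => ?_,
    fun hk hy1 hQ => ?_⟩⟩
  · refine ratio b (algebraMap_mem_RU hG hF) w (fun Ω i1 i2 i3 κ h1 => ?_) N h h₀ h0 a a' ha ha'
      e1 e3
    refine homU_norm hG hy hF hF' κ (fun c => ?_) ?_
    · have := hk c
      rw [← h1] at this
      exact_mod_cast this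
    · rw [← h1] at hy1
      exact_mod_cast hy1
  · refine ratio b (algebraMap_mem_FP hG hπ hd hF) w (fun Ω i1 i2 i3 κ h1 => ?_) N h hP hP0 d d'
      hd1 hd1' e2 e4
    refine homP_norm hG hπ hd hy hF hF' κ (fun c => ?_) ?_
    · have := hk c
      rw [← h1] at this
      exact_mod_cast this
    · rw [← h1] at hy1
      exact_mod_cast hy1
  · refine ratio b (algebraMap_mem_RU hG hF) w (fun Ω i1 i2 i3 κ h1 => ?_) N h h₀ h0 a a' ha ha'
      e1 e3
    obtain ⟨Q, hQ0, hQ1, hQ2⟩ := hQ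
    refine homU_place hG hπ hy hF hF' κ (fun c => ?_) ?_ Q hQ0 hQ1 ?_
    · have := hk c
      rw [← h1] at this
      exact_mod_cast this
    · rw [← h1] at hy1
      exact_mod_cast hy1
    · rw [← h1] at hQ2
      exact_mod_cast hQ2
  · refine ratio b (algebraMap_mem_FP hG hπ hd hF) w (fun Ω i1 i2 i3 κ h1 => ?_) N h hP hP0 d d'
      hd1 hd1' e2 e4
    obtain ⟨Q, hQ0, hQ1, hQ2⟩ := hQ
    refine homP_place hG hπ hd hy hF hF' κ (fun c => ?_) ?_ Q hQ0 hQ1 ?_
    · have := hk c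
      rw [← h1] at this
      exact_mod_cast this
    · rw [← h1] at hy1
      exact_mod_cast hy1
    · rw [← h1] at hQ2
      exact_mod_cast hQ2

end Glue

end Setting

end Crest.Agent.R013.Lift903
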