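import Crest.Agent.R013.Lift1_903
import Crest.Agent.R013.LemT1_874
import Crest.Agent.R013.Lift6_903
import Crest.Agent.R013.OneP2_920
import Crest.Agent.R013.Good2_940
import Crest.Agent.R013.A2c_275
import Crest.Agent.R013.A2d_275
import Crest.Agent.R013.APt_349
import Crest.Agent.R013.RR20_948
import Crest.Agent.R013.LemT5_874
import Crest.Agent.R013.AAsm_349

-- ▼ part R013/OneA_622
section

/-!
# (ONE) of row 13, part A: `l`-th roots of `1 + g` in a finite algebra over a complete field

`g ^ n = ∑ a_i g ^ i` with `a_i` in a closed subring `A` of the unit ball, `‖a_i‖ ≤ ρ < 1`, `l` a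
unit of `A`: then `1 + g = b ^ l` with `b ∈ ∑_{i<n} A g ^ i`.
-/

set_option autoImplicit false

namespace Crest.Agent.R013.One_622

open Filter Topology Polynomial

section Series

variable {R : Type*} [CommRing R]

theorem step (l : ℕ) (l' : R) (hl : l' * l = 1) (N : ℕ) (B : R[X])
    (h : (X ^ (N + 1) : R[X]) ∣ B ^ l - (1 + X)) (h0 : B.coeff 0 = 1) :
    ∃ c : R, (X ^ (N + 2) : R[X]) ∣ (B + C c * X ^ (N + 1)) ^ l - (1 + X) ∧
      (B + C c * X ^ (N + 1)).coeff 0 = 1 := by
  obtain ⟨Q, hQ⟩ := h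
  refine ⟨-l' * Q.coeff 0, ?_, ?_⟩
  · set c := -l' * Q.coeff 0 with hc
    obtain ⟨k, hk⟩ := Polynomial.powAddExpansion B (C c * X ^ (N + 1)) l
    rw [hk]
    have hB : (B ^ (l - 1)).coeff 0 = 1 := by
      rw [coeff_zero_eq_eval_zero, eval_pow, ← coeff_zero_eq_eval_zero, h0, one_pow]
    have h1 : (X : R[X]) ∣ Q + (l : R[X]) * B ^ (l - 1) * C c := by
      rw [X_dvd_iff, coeff_add, mul_coeff_zero, mul_coeff_zero, coeff_C_zero,
        ← C_eq_natCast, coeff_C_zero, hB, hc]
      linear_combination (-Q.coeff 0) * hl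
    obtain ⟨Q', hQ'⟩ := h1
    refine ⟨Q' + k * C c ^ 2 * X ^ N, ?_⟩
    have : B ^ l = X ^ (N + 1) * Q + (1 + X) := by rw [← hQ]; ring
    have h2 : Q = X * Q' - (l : R[X]) * B ^ (l - 1) * C c := by rw [← hQ']; ring
    rw [this, h2]
    ring
  · rw [coeff_add, h0, coeff_C_mul, coeff_X_pow, if_neg (by omega), mul_zero, add_zero]

/-- The coefficients of an `l`-th root of `1 + X`. -/
theorem exists_seq (l : ℕ) (l' : R) (hl : l' * l = 1) : ∃ γ : ℕ → R, ∀ N : ℕ,
    (X ^ N : R[X]) ∣ (∑ j ∈ Finset.range N, C (γ j) * X ^ j) ^ l - (1 + X) := by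
  classical
  let St := fun N : ℕ => {B : R[X] // (X ^ (N + 1) : R[X]) ∣ B ^ l - (1 + X) ∧ B.coeff 0 = 1}
  let c : ∀ N : ℕ, St N → R := fun N B => (step l l' hl N B.1 B.2.1 B.2.2).choose
  have hc : ∀ (N : ℕ) (B : St N), (X ^ (N + 2) : R[X]) ∣ (B.1 + C (c N B) * X ^ (N + 1)) ^ l
      - (1 + X) ∧ (B.1 + C (c N B) * X ^ (N + 1)).coeff 0 = 1 := fun N B =>
    (step l l' hl N B.1 B.2.1 B.2.2).choose_spec
  let S : ∀ N : ℕ, St N := fun N => Nat.rec (motive := St) ⟨1, by
    constructor
    · change (X ^ (0 + 1) : R[X]) ∣ _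
      rw [zero_add, pow_one]
      exact ⟨-1, by ring⟩
    · simp⟩ (fun N B => ⟨B.1 + C (c N B) * X ^ (N + 1), hc N B⟩) N
  have hS : ∀ N, (S (N + 1)).1 = (S N).1 + C (c N (S N)) * X ^ (N + 1) := fun N => rfl
  let γ : ℕ → R := fun N => Nat.casesOn N 1 (fun M => c M (S M))
  have hsum : ∀ N, ∑ j ∈ Finset.range (N + 1), C (γ j) * X ^ j = (S N).1 := by
    intro N
    induction N with
    | zero => simp [γ, S]
    | succ N ih => rw [Finset.sum_range_succ, ih, hS]
  refine ⟨γ, fun N => ?_⟩
  rcases N with _ | N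
  · rw [pow_zero]; exact one_dvd _
  · rw [hsum]
    exact (S N).2.1

end Series

section Root

variable {E T : Type*} [NormedField E] [IsUltrametricDist E] [CommRing T] [Algebra E T]

/-- Coordinates of powers of `g`. -/
theorem exists_coords (A : Subring E) (g : T) (n : ℕ) (hn : 0 < n) (a : ℕ → E)
    (ha : ∀ i, a i ∈ A) (ρ : ℝ) (hρ0 : 0 ≤ ρ) (hρ : ρ < 1) (haρ : ∀ i, ‖a i‖ ≤ ρ)
    (hg : g ^ n = ∑ i ∈ Finset.range n, a i • g ^ i) (N : ℕ) :
    ∃ c : ℕ → E, (∀ i, c i ∈ A) ∧ (∀ i, ‖c i‖ ≤ ρ ^ (N / n)) ∧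
      g ^ N = ∑ i ∈ Finset.range n, c i • g ^ i := by
  induction N using Nat.strong_induction_on with
  | _ N ih =>
    by_cases hN : N < n
    · refine ⟨fun i => if i = N then 1 else 0, fun i => ?_, fun i => ?_, ?_⟩
      · beta_reduce
        split_ifs
        · exact A.one_mem
        · exact A.zero_mem
      · rw [Nat.div_eq_of_lt hN, pow_zero]
        beta_reduce
        split_ifs <;> simp
      · rw [Finset.sum_eq_single N]
        · simp
        · intro j _ hj
          simp [hj]
        · intro h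
          exact absurd (Finset.mem_range.2 hN) h
    · push Not at hN
      have key : ∀ i, ∃ c : ℕ → E, i < n → (∀ j, c j ∈ A) ∧ (∀ j, ‖c j‖ ≤ ρ ^ ((N - n + i) / n)) ∧
          g ^ (N - n + i) = ∑ j ∈ Finset.range n, c j • g ^ j := by
        intro i
        by_cases hi : i < n
        · obtain ⟨c, hc⟩ := ih (N - n + i) (by omega)
          exact ⟨c, fun _ => hc⟩
        · exact ⟨0, fun h => absurd h hi⟩
      choose c hc using key
      refine ⟨fun j => ∑ i ∈ Finset.range n, a i * c i j, fun j => ?_, fun j => ?_, ?_⟩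
      · exact A.sum_mem fun i hi => A.mul_mem (ha i) ((hc i (Finset.mem_range.1 hi)).1 j)
      · refine IsUltrametricDist.norm_sum_le_of_forall_le_of_nonneg (pow_nonneg hρ0 _) ?_
        intro i hi
        have h2 := (hc i (Finset.mem_range.1 hi)).2.1 j
        have e1 : N / n = (N - n) / n + 1 := by
          conv_lhs => rw [← Nat.sub_add_cancel hN]
          rw [Nat.add_div_right _ hn]
        rw [norm_mul, e1, pow_succ']
        refine mul_le_mul (haρ i) (h2.trans ?_) (norm_nonneg _) hρ0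
        exact pow_le_pow_of_le_one hρ0 hρ.le (Nat.div_le_div_right (by omega))
      · have e2 : g ^ N = g ^ (N - n) * g ^ n := by rw [← pow_add, Nat.sub_add_cancel hN]
        rw [e2, hg, Finset.mul_sum]
        have e3 : ∀ i ∈ Finset.range n, g ^ (N - n) * a i • g ^ i =
            ∑ j ∈ Finset.range n, (a i * c i j) • g ^ j := by
          intro i hi
          rw [mul_smul_comm, ← pow_add, (hc i (Finset.mem_range.1 hi)).2.2, Finset.smul_sum]
          exact Finset.sum_congr rfl fun j _ => by rw [smul_smul]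
        rw [Finset.sum_congr rfl e3, Finset.sum_comm]
        refine Finset.sum_congr rfl fun j _ => ?_
        rw [Finset.sum_smul]

variable {ι : Type*} [Fintype ι] (bT : Module.Basis ι E T)

/-- coordinatewise convergence in `T` -/
def Conv (x : ℕ → T) (b : T) : Prop :=
  ∀ i, Tendsto (fun N => bT.repr (x N) i) atTop (𝓝 (bT.repr b i))

omit [IsUltrametricDist E] [Fintype ι] in
theorem Conv.unique {x : ℕ → T} {b b' : T} (h : Conv bT x b) (h' : Conv bT x b') : b = b' :=
  bT.ext_elem fun i => tendsto_nhds_unique (h i) (h' i)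

omit [IsUltrametricDist E] in
theorem Conv.mul {x y : ℕ → T} {b c : T} (h : Conv bT x b) (h' : Conv bT y c) :
    Conv bT (fun N => x N * y N) (b * c) := by
  intro k
  have e : ∀ s t : T, bT.repr (s * t) k =
      ∑ i, ∑ j, bT.repr s i * (bT.repr t j * bT.repr (bT i * bT j) k) := by
    intro s t
    conv_lhs => rw [← bT.sum_repr s, ← bT.sum_repr t]
    rw [Finset.sum_mul_sum, map_sum, Finsupp.finsetSum_apply]
    refine Finset.sum_congr rfl fun i _ => ?_
    rw [map_sum, Finsupp.finsetSum_apply]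
    refine Finset.sum_congr rfl fun j _ => ?_
    rw [smul_mul_smul_comm, map_smul, Finsupp.smul_apply, smul_eq_mul, mul_assoc]
  have e' : (fun N => bT.repr (x N * y N) k) = fun N =>
      ∑ i, ∑ j, bT.repr (x N) i * (bT.repr (y N) j * bT.repr (bT i * bT j) k) :=
    funext fun N => e _ _
  rw [e', e b c]
  exact tendsto_finsetSum _ fun i _ => tendsto_finsetSum _ fun j _ =>
    (h i).mul ((h' j).mul_const _)

omit [IsUltrametricDist E] in
theorem Conv.pow {x : ℕ → T} {b : T} (h : Conv bT x b) (l : ℕ) :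
    Conv bT (fun N => x N ^ l) (b ^ l) := by
  induction l with
  | zero =>
    intro i
    simp only [pow_zero]
    exact tendsto_const_nhds
  | succ l ih =>
    simp only [pow_succ]
    exact ih.mul bT h

variable [CompleteSpace E]

include bT in
/-- **Root lemma.** -/
theorem root (A : Subring E) (hAc : IsClosed (A : Set E)) (hA1 : ∀ x ∈ A, ‖x‖ ≤ 1)
    (l : ℕ) (l' : E) (hl' : l' ∈ A) (hl : l' * l = 1) (g : T) (n : ℕ) (a : ℕ → E)
    (ha : ∀ i, a i ∈ A) (ρ : ℝ) (hρ0 : 0 ≤ ρ) (hρ : ρ < 1) (haρ : ∀ i, ‖a i‖ ≤ ρ)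
    (hg : g ^ n = ∑ i ∈ Finset.range n, a i • g ^ i) :
    ∃ β : ℕ → E, (∀ i, β i ∈ A) ∧ (∑ i ∈ Finset.range n, β i • g ^ i) ^ l = 1 + g := by
  classical
  rcases Nat.eq_zero_or_pos n with hn | hn
  · subst hn
    have h01 : (1 : T) = 0 := by simpa using hg
    have hsub : Subsingleton T := subsingleton_of_zero_eq_one h01.symm
    exact ⟨0, fun i => A.zero_mem, Subsingleton.elim _ _⟩
  choose c hcA hcn hc using exists_coords A g n hn a ha ρ hρ0 hρ haρ hg
  obtain ⟨γ, hγ⟩ := exists_seq (R := A) l ⟨l', hl'⟩ (Subtype.ext (by simpa using hl))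
  have hdiv : Tendsto (fun N : ℕ => N / n) atTop atTop :=
    Nat.tendsto_div_const_atTop hn.ne'
  have hpow : Tendsto (fun N : ℕ => ρ ^ (N / n)) atTop (𝓝 0) :=
    (tendsto_pow_atTop_nhds_zero_of_lt_one hρ0 hρ).comp hdiv
  have hterm : ∀ i, Tendsto (fun N => (γ N : E) * c N i) atTop (𝓝 0) := by
    intro i
    refine squeeze_zero_norm (fun N => ?_) hpow
    rw [norm_mul]
    calc ‖(γ N : E)‖ * ‖c N i‖ ≤ 1 * ρ ^ (N / n) :=
          mul_le_mul (hA1 _ (γ N).2) (hcn N i) (norm_nonneg _) zero_le_one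
      _ = ρ ^ (N / n) := one_mul _
  have hsm : ∀ i, Summable fun N => (γ N : E) * c N i := by
    intro i
    refine NonarchimedeanAddGroup.summable_of_tendsto_cofinite_zero ?_
    rw [Nat.cofinite_eq_atTop]
    exact hterm i
  have hlim : ∀ i, Tendsto (fun N => ∑ j ∈ Finset.range N, (γ j : E) * c j i) atTop
      (𝓝 (∑' N, (γ N : E) * c N i)) := fun i => (hsm i).hasSum.tendsto_sum_nat
  refine ⟨fun i => ∑' N, (γ N : E) * c N i, fun i => ?_, ?_⟩
  · refine hAc.mem_of_tendsto (hlim i) (Eventually.of_forall fun N => ?_)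
    exact A.sum_mem fun j _ => A.mul_mem (γ j).2 (hcA j i)
  set b : T := ∑ i ∈ Finset.range n, (∑' N, (γ N : E) * c N i) • g ^ i with hb
  let x : ℕ → T := fun N => ∑ j ∈ Finset.range N, (γ j : E) • g ^ j
  have hx : Conv bT x b := by
    intro k
    have e : ∀ N, x N = ∑ i ∈ Finset.range n, (∑ j ∈ Finset.range N, (γ j : E) * c j i) • g ^ i := by
      intro N
      simp only [x, Finset.sum_smul]
      rw [Finset.sum_comm]
      refine Finset.sum_congr rfl fun j _ => ?_
      conv_lhs => rw [hc j, Finset.smul_sum]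
      exact Finset.sum_congr rfl fun i _ => by rw [smul_smul]
    simp only [e, hb, map_sum, map_smul, Finsupp.finsetSum_apply, Finsupp.smul_apply, smul_eq_mul]
    exact tendsto_finsetSum _ fun i _ => (hlim i).mul_const _
  have hxl := hx.pow bT l
  refine Conv.unique bT hxl ?_
  -- the error term
  let Φ : A[X] →+* T := eval₂RingHom ((algebraMap E T).comp A.subtype) g
  have hΦ : ∀ P : A[X], Φ P = ∑ j ∈ Finset.range (P.natDegree + 1), ((P.coeff j : A) : E) • g ^ j := by
    intro P
    simp only [Φ, coe_eval₂RingHom, eval₂_eq_sum_range, RingHom.comp_apply, Subring.coe_subtype]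
    exact Finset.sum_congr rfl fun j _ => (Algebra.smul_def _ _).symm
  have hxΦ : ∀ N, x N = Φ (∑ j ∈ Finset.range N, C (γ j) * X ^ j) := by
    intro N
    simp only [x, map_sum, map_mul, map_pow, Φ, coe_eval₂RingHom, eval₂_C, eval₂_X,
      RingHom.comp_apply, Subring.coe_subtype]
    exact Finset.sum_congr rfl fun j _ => Algebra.smul_def _ _
  set M : ℝ := ∑ i ∈ Finset.range n, ∑ k, ‖bT.repr (g ^ i) k‖ with hM
  have hM0 : 0 ≤ M := Finset.sum_nonneg fun i _ => Finset.sum_nonneg fun k _ => norm_nonneg _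
  have hMle : ∀ i ∈ Finset.range n, ∀ k, ‖bT.repr (g ^ i) k‖ ≤ M := by
    intro i hi k
    refine le_trans ?_ (Finset.single_le_sum (f := fun i => ∑ k, ‖bT.repr (g ^ i) k‖)
      (fun i _ => Finset.sum_nonneg fun k _ => norm_nonneg _) hi)
    exact Finset.single_le_sum (f := fun k => ‖bT.repr (g ^ i) k‖)
      (fun k _ => norm_nonneg _) (Finset.mem_univ k)
  have hgN : ∀ N k, ‖bT.repr (g ^ N) k‖ ≤ ρ ^ (N / n) * M := by
    intro N k
    rw [hc N, map_sum, Finsupp.finsetSum_apply]
    refine IsUltrametricDist.norm_sum_le_of_forall_le_of_nonneg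
      (mul_nonneg (pow_nonneg hρ0 _) hM0) fun i hi => ?_
    rw [map_smul, Finsupp.smul_apply, smul_eq_mul, norm_mul]
    exact mul_le_mul (hcn N i) (hMle i hi k) (norm_nonneg _) (pow_nonneg hρ0 _)
  have herr : ∀ N (P : A[X]), (X ^ N : A[X]) ∣ P → ∀ k, ‖bT.repr (Φ P) k‖ ≤ ρ ^ (N / n) * M := by
    rintro N _ ⟨Q, rfl⟩ k
    rw [map_mul, hΦ Q, Finset.mul_sum, map_sum, Finsupp.finsetSum_apply]
    refine IsUltrametricDist.norm_sum_le_of_forall_le_of_nonneg
      (mul_nonneg (pow_nonneg hρ0 _) hM0) fun j _ => ?_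
    have e : Φ (X ^ N) * ((Q.coeff j : A) : E) • g ^ j = ((Q.coeff j : A) : E) • g ^ (N + j) := by
      rw [mul_smul_comm, pow_add]
      simp only [Φ, coe_eval₂RingHom, map_pow, eval₂_X]
    rw [e, map_smul, Finsupp.smul_apply, smul_eq_mul, norm_mul]
    calc ‖((Q.coeff j : A) : E)‖ * ‖bT.repr (g ^ (N + j)) k‖
        ≤ 1 * (ρ ^ ((N + j) / n) * M) :=
          mul_le_mul (hA1 _ (Q.coeff j).2) (hgN _ _) (norm_nonneg _) zero_le_one
      _ = ρ ^ ((N + j) / n) * M := one_mul _
      _ ≤ ρ ^ (N / n) * M := mul_le_mul_of_nonneg_right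
          (pow_le_pow_of_le_one hρ0 hρ.le (Nat.div_le_div_right (by omega))) hM0
  intro k
  have e1 : ∀ N, bT.repr (x N ^ l) k = bT.repr (Φ ((∑ j ∈ Finset.range N, C (γ j) * X ^ j) ^ l
      - (1 + X))) k + bT.repr (1 + g) k := by
    intro N
    have h1 : Φ (1 + X) = 1 + g := by simp [Φ]
    have h2 : x N ^ l = Φ ((∑ j ∈ Finset.range N, C (γ j) * X ^ j) ^ l - (1 + X)) + (1 + g) := by
      rw [RingHom.map_sub, RingHom.map_pow, h1, hxΦ, sub_add_cancel]
    rw [h2, map_add, Finsupp.add_apply]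
  simp only [e1]
  have e2 : Tendsto (fun N => bT.repr (Φ ((∑ j ∈ Finset.range N, C (γ j) * X ^ j) ^ l
      - (1 + X))) k) atTop (𝓝 0) := by
    refine squeeze_zero_norm (fun N => herr N _ (hγ N) k) ?_
    simpa using hpow.mul_const M
  simpa using e2.add_const (bT.repr (1 + g) k)

end Root

end Crest.Agent.R013.One_622
end

-- ▼ part R013/OneB_622
section

/-!
# (ONE) of row 13, part B: from valuation rings to `l`-th roots on both sides of one circle

`RZ π W`: the valuation ring `W` of `L` contains the unit ball of `k` and `π ∈ m_W`.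
`rel`: if `g ∈ m_W` for all `W ∈ RZ` containing `Y`, then `g ^ n = π ∑ P_i(Y) g ^ i` with integral
polynomials `P_i`.
`nPow_FP`, `nPow_RU`: the conclusions on the two sides of the circle `|y| = 1` of 946.
-/

set_option autoImplicit false

namespace Crest.Agent.R013.One_622

open Polynomial Gl946 Lift903 LemT_874
open scoped TensorProduct

attribute [local instance] Algebra.TensorProduct.rightAlgebra

section Rel

variable (k : Type*) [NormedField k] [IsUltrametricDist k]

/-- the unit ball -/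
def R0 : Subring k where
  carrier := {c | ‖c‖ ≤ 1}
  mul_mem' {a b} ha hb := by
    change ‖a * b‖ ≤ 1
    rw [norm_mul]
    exact mul_le_one₀ ha (norm_nonneg _) hb
  one_mem' := by
    change ‖(1 : k)‖ ≤ 1
    rw [norm_one]
  add_mem' {a b} ha hb := (IsUltrametricDist.norm_add_le_max a b).trans (max_le ha hb)
  zero_mem' := by
    change ‖(0 : k)‖ ≤ 1
    rw [norm_zero]; exact zero_le_one
  neg_mem' {a} ha := by
    change ‖-a‖ ≤ 1
    rw [norm_neg]; exact ha

variable {k} {L : Type*} [Field L] [Algebra k L]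

/-- The valuation ring `W` contains the unit ball of `k` and `π ∈ m_W`. -/
structure RZ (π : k) (W : ValuationSubring L) : Prop where
  mem : ∀ c : k, ‖c‖ ≤ 1 → algebraMap k L c ∈ W
  lt : W.valuation (algebraMap k L π) < 1

theorem rel (π : k) (Y g : L) (hg : g ≠ 0) (hπ : ‖π‖ ≤ 1)
    (H : ∀ W : ValuationSubring L, RZ π W → Y ∈ W → W.valuation g < 1) :
    ∃ (n : ℕ) (P : ℕ → k[X]), (∀ i j, ‖(P i).coeff j‖ ≤ 1) ∧
      g ^ n = algebraMap k L π * ∑ i ∈ Finset.range (n + 1), aeval Y (P i) * g ^ i := by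
  let φ : R0 k →+* L := (algebraMap k L).comp (R0 k).subtype
  let Φ : (R0 k)[X][X] →+* L := eval₂RingHom (eval₂RingHom φ Y) g⁻¹
  let A : Subring L := RingHom.range (R := (R0 k)[X][X]) (S := L) Φ
  have hπA : algebraMap k L π ∈ A := ⟨C (C ⟨π, hπ⟩), by simp [Φ, φ]⟩
  let ϖ : A := ⟨algebraMap k L π, hπA⟩
  have htop : Ideal.span {ϖ} = (⊤ : Ideal A) := by
    by_contra hne
    obtain ⟨B, hB1, hB2⟩ := Ideal.image_subset_nonunits_valuationSubring _ hne
    have h1 : RZ π B := by
      refine ⟨fun c hc => hB1 ⟨C (C ⟨c, hc⟩), by simp [Φ, φ]⟩, ?_⟩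
      have : algebraMap k L π ∈ B.nonunits :=
        hB2 ⟨ϖ, Ideal.subset_span rfl, rfl⟩
      exact (ValuationSubring.mem_nonunits_iff B).1 this
    have h2 : Y ∈ B := hB1 ⟨C X, by simp [Φ]⟩
    have h3 : g⁻¹ ∈ B := hB1 ⟨X, by simp [Φ]⟩
    have h4 := H B h1 h2
    have h5 := (B.valuation_le_one_iff _).2 h3
    have h6 : B.valuation g * B.valuation g⁻¹ = 1 := by
      rw [← map_mul, mul_inv_cancel₀ hg, map_one]
    have h7 : B.valuation g * B.valuation g⁻¹ < 1 :=
      lt_of_le_of_lt (mul_le_of_le_one_right' h5) h4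
    exact absurd h6 h7.ne
  have h1 : (1 : A) ∈ Ideal.span {ϖ} := by rw [htop]; trivial
  obtain ⟨a, ha⟩ := Ideal.mem_span_singleton'.1 h1
  obtain ⟨Q, hQ⟩ := a.2
  have ha' : (a : L) * algebraMap k L π = 1 := congrArg Subtype.val ha
  set n := Q.natDegree with hn
  refine ⟨n, fun i => (Q.coeff (n - i)).map (R0 k).subtype, fun i j => ?_, ?_⟩
  · rw [coeff_map]
    exact ((Q.coeff (n - i)).coeff j).2
  · have e1 : (a : L) = ∑ i ∈ Finset.range (n + 1), aeval Y ((Q.coeff i).map (R0 k).subtype) *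
        g⁻¹ ^ i := by
      rw [← hQ]
      simp only [Φ, coe_eval₂RingHom, eval₂_eq_sum_range]
      refine Finset.sum_congr rfl fun i _ => ?_
      rw [← eval₂_eq_sum_range, aeval_def, eval₂_map]
    have e2 : g ^ n = algebraMap k L π * ((a : L) * g ^ n) := by
      rw [← mul_assoc, mul_comm (algebraMap k L π), ha', one_mul]
    rw [e2, e1, Finset.sum_mul, ← Finset.sum_range_reflect]
    congr 1
    refine Finset.sum_congr rfl fun i hi => ?_
    have hi' : i ≤ n := Nat.lt_succ_iff.1 (Finset.mem_range.1 hi)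
    have e3 : n + 1 - 1 - i = n - i := by omega
    rw [e3, mul_assoc]
    congr 1
    have e4 : g ^ n = g ^ (n - i) * g ^ i := by rw [← pow_add]; congr 1; omega
    rw [e4, ← mul_assoc, inv_pow, inv_mul_cancel₀ (pow_ne_zero _ hg), one_mul]

end Rel

section Closed

variable {k E : Type*} [NormedField k] [NormedField E] [NormedAlgebra k E] [IsUltrametricDist E]

/-- the unit ball of `AU k y` -/
noncomputable def AB (k : Type*) {E : Type*} [NormedField k] [NormedField E] [NormedAlgebra k E]
    [IsUltrametricDist E] (y : E) : Subring E := (AU k y).toSubring ⊓ R0 E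

theorem mem_AB (y x : E) : x ∈ AB k y ↔ x ∈ AU k y ∧ ‖x‖ ≤ 1 := Iff.rfl

theorem isClosed_AB (y : E) : IsClosed (AB k y : Set E) := by
  have h1 : (AB k y : Set E) = (AU k y : Set E) ∩ {x | ‖x‖ ≤ 1} := rfl
  rw [h1]
  exact (isClosed_AU y).inter (isClosed_le continuous_norm continuous_const)

theorem algebraMap_mem_AB (y : E) (c : k) (hc : ‖c‖ ≤ 1) : algebraMap k E c ∈ AB k y :=
  (mem_AB y _).2 ⟨(AU k y).algebraMap_mem c, by rw [norm_algebraMap']; exact hc⟩

omit [IsUltrametricDist E] in
theorem AU_inv_le_AP {y : E} (hG : IsGauss k y) (x : E) (hx : x ∈ AU k y⁻¹) : x ∈ AP hG := by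
  have h : AU k y⁻¹ ≤ AP hG := by
    refine Subalgebra.topologicalClosure_minimal ?_ (isClosed_AP hG)
    rintro _ ⟨f, rfl⟩
    rw [inv_inv]
    exact aeval_mem_AP hG f
  exact h hx

end Closed

section Setting

variable {k E : Type*} [NormedField k] [NormedField E] [NormedAlgebra k E]
  [IsUltrametricDist E] [CompleteSpace E] {y : E} (hG : IsGauss k y) {π : k}
  (hπ : IsUnif π)
  {F L : Type*} [Field F] [Field L] [Algebra F L] [Algebra F E]
  [Algebra k F] [IsScalarTower k F E] [Algebra k L] [IsScalarTower k F L]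
  {yF : F} (hy : algebraMap F E yF = y)

omit [IsUltrametricDist E] [CompleteSpace E] in
include hy in
theorem algebraMap_aeval (P : k[X]) :
    algebraMap L (E ⊗[F] L) (aeval (algebraMap F L yF) P) =
      algebraMap E (E ⊗[F] L) (aeval y P) := by
  have h1 : aeval (algebraMap F L yF) P = algebraMap F L (aeval yF P) := by
    rw [aeval_algebraMap_apply]
  have h2 : aeval y P = algebraMap F E (aeval yF P) := by
    rw [← hy, aeval_algebraMap_apply]
  rw [h1, h2, ← IsScalarTower.algebraMap_apply, ← IsScalarTower.algebraMap_apply]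

variable [FiniteDimensional F L]

/-- From a root in a finite module to `NPow`. -/
theorem nPow_of_root {A R : Subring E} (hAR : A ≤ R) (hR : ∀ x : F, algebraMap F E x ∈ R)
    (hAc : IsClosed (A : Set E)) (hA1 : ∀ x ∈ A, ‖x‖ ≤ 1) (l : ℕ) (l' : E) (hl' : l' ∈ A)
    (hl : l' * l = 1) (g u h : L) (hh : h = u ^ l * (1 + g)) (n : ℕ) (a : ℕ → E)
    (ha : ∀ i, a i ∈ A) (ρ : ℝ) (hρ0 : 0 ≤ ρ) (hρ : ρ < 1) (haρ : ∀ i, ‖a i‖ ≤ ρ)
    (hg : (algebraMap L (E ⊗[F] L) g) ^ n =
      ∑ i ∈ Finset.range n, a i • (algebraMap L (E ⊗[F] L) g) ^ i) : NPow hR l h := by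
  obtain ⟨β, hβ, e⟩ := root (bE F E L) A hAc hA1 l l' hl' hl (algebraMap L (E ⊗[F] L) g) n a ha ρ
    hρ0 hρ haρ hg
  refine ⟨algebraMap L (E ⊗[F] L) u *
    ∑ i ∈ Finset.range n, β i • (algebraMap L (E ⊗[F] L) g) ^ i, ?_, ?_⟩
  · refine Subring.mul_mem _ (algebraMap_mem_KR (isBC F E L) hR u)
      (Subring.sum_mem _ fun i _ => ?_)
    rw [Algebra.smul_def]
    exact Subring.mul_mem _ (algebraMap_mem_KR' (isBC F E L) hR _ (hAR (hβ i)))
      (Subring.pow_mem _ (algebraMap_mem_KR (isBC F E L) hR g) i)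
  · rw [mul_pow, e, hh, map_mul, map_pow, map_add, map_one]

include hG hπ in
theorem nPow_RU (hF : ∀ x : F, algebraMap F E x ∈ KY hG) (l : ℕ) (hl : ‖(l : k)‖ = 1)
    (f u h : L) (hh : h = u ^ l * (1 + f)) (m : ℕ) (hm : 0 < m)
    (hf : f ^ m * algebraMap F L yF = algebraMap k L π) (hy : algebraMap F E yF = y) :
    NPow (algebraMap_mem_RU hG hF) l h := by
  classical
  have hl0 : (l : k) ≠ 0 := by
    intro h0
    rw [h0, norm_zero] at hl
    exact zero_ne_one hl
  have hy0 : y ≠ 0 := hG.ne_zero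
  refine nPow_of_root (A := AB k y) ?_ (algebraMap_mem_RU hG hF) (isClosed_AB y)
    (fun x hx => hx.2) l (algebraMap k E (l : k)⁻¹) ?_ ?_ f u h hh m
    (fun i => if i = 0 then algebraMap k E π * y⁻¹ else 0) ?_ ‖π‖ hπ.pos.le hπ.lt_one ?_ ?_
  · exact fun x hx => le_fracSub _ _ _ hx.1
  · exact algebraMap_mem_AB y _ (by rw [norm_inv, hl, inv_one])
  · rw [← map_natCast (algebraMap k E), ← map_mul, inv_mul_cancel₀ hl0, map_one]
  · intro i
    split_ifs
    · refine (AB k y).mul_mem (algebraMap_mem_AB y π hπ.lt_one.le) ((mem_AB y _).2 ⟨?_, ?_⟩)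
      · have := aeval_inv_mem_AU (k := k) y X
        rwa [aeval_X] at this
      · rw [norm_inv, hG.norm_eq, inv_one]
    · exact (AB k y).zero_mem
  · intro i
    split_ifs
    · rw [norm_mul, norm_inv, hG.norm_eq, inv_one, mul_one, norm_algebraMap']
    · rw [norm_zero]; exact hπ.pos.le
  · rw [Finset.sum_eq_single 0]
    · rw [if_pos rfl, pow_zero, Algebra.smul_def, mul_one]
      have e1 := congrArg (algebraMap L (E ⊗[F] L)) hf
      rw [map_mul, map_pow, ← IsScalarTower.algebraMap_apply F L,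
        IsScalarTower.algebraMap_apply F E, hy, IsScalarTower.algebraMap_apply k F L,
        ← IsScalarTower.algebraMap_apply F L, IsScalarTower.algebraMap_apply F E,
        ← IsScalarTower.algebraMap_apply k F E] at e1
      rw [map_mul, ← e1, mul_assoc, ← map_mul, mul_inv_cancel₀ hy0, map_one, mul_one]
    · intro i _ hi
      rw [if_neg hi, zero_smul]
    · intro h0
      exact absurd (Finset.mem_range.2 hm) h0

include hy in
theorem nPow_FP [IsUltrametricDist k] [CompleteSpace k] (hd : DenseRat k y)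
    (hF : ∀ x : F, algebraMap F E x ∈ KY hG) (l : ℕ) (hl : ‖(l : k)‖ = 1)
    (g u h : L) (hh : h = u ^ l * (1 + g))
    (H : ∀ W : ValuationSubring L, RZ π W → algebraMap F L yF ∈ W → W.valuation g < 1) :
    NPow (algebraMap_mem_FP hG hπ hd hF) l h := by
  classical
  have hl0 : (l : k) ≠ 0 := by
    intro h0
    rw [h0, norm_zero] at hl
    exact zero_ne_one hl
  have hAR : AB k y⁻¹ ≤ (FP hG hπ hd).toSubring := by
    intro x hx
    exact (mem_FP hG hπ hd _).2 ⟨x, AU_inv_le_AP hG x hx.1, 1, one_ne_zero, by simp⟩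
  have hl'A : algebraMap k E (l : k)⁻¹ ∈ AB k y⁻¹ :=
    algebraMap_mem_AB y⁻¹ _ (by rw [norm_inv, hl, inv_one])
  have hl'1 : algebraMap k E (l : k)⁻¹ * (l : E) = 1 := by
    rw [← map_natCast (algebraMap k E), ← map_mul, inv_mul_cancel₀ hl0, map_one]
  by_cases hg : g = 0
  · refine nPow_of_root (A := AB k y⁻¹) hAR (algebraMap_mem_FP hG hπ hd hF) (isClosed_AB _)
      (fun x hx => hx.2) l _ hl'A hl'1 g u h hh 1 (fun _ => 0) (fun _ => (AB k y⁻¹).zero_mem) 0
      le_rfl zero_lt_one (fun _ => by rw [norm_zero]) ?_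
    simp [hg]
  obtain ⟨n, P, hP, e⟩ := rel π (algebraMap F L yF) g hg hπ.lt_one.le H
  have hPA : ∀ i, aeval y (P i) ∈ AB k y⁻¹ := by
    intro i
    refine (mem_AB _ _).2 ⟨?_, hG.aeval_le _ zero_le_one (hP i)⟩
    have := aeval_inv_mem_AU (k := k) y⁻¹ (P i)
    rwa [inv_inv] at this
  have hπA : algebraMap k E π ∈ AB k y⁻¹ := algebraMap_mem_AB _ _ hπ.lt_one.le
  obtain ⟨s, hsA, hs1, -⟩ := exists_inv_of_near_one (AB k y⁻¹) (isClosed_AB _)
    (1 - algebraMap k E π * aeval y (P n))
    ((AB k y⁻¹).sub_mem (AB k y⁻¹).one_mem ((AB k y⁻¹).mul_mem hπA (hPA n))) (by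
      rw [sub_sub_cancel_left, norm_neg, norm_mul, norm_algebraMap']
      calc ‖π‖ * ‖aeval y (P n)‖ ≤ ‖π‖ * 1 :=
            mul_le_mul_of_nonneg_left (hPA n).2 (norm_nonneg _)
        _ < 1 := by rw [mul_one]; exact hπ.lt_one)
  refine nPow_of_root (A := AB k y⁻¹) hAR (algebraMap_mem_FP hG hπ hd hF) (isClosed_AB _)
    (fun x hx => hx.2) l _ hl'A hl'1 g u h hh n
    (fun i => s * (algebraMap k E π * aeval y (P i))) (fun i => (AB k y⁻¹).mul_mem hsA
      ((AB k y⁻¹).mul_mem hπA (hPA i))) ‖π‖ hπ.pos.le hπ.lt_one ?_ ?_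
  · intro i
    rw [norm_mul, norm_mul, norm_algebraMap']
    calc ‖s‖ * (‖π‖ * ‖aeval y (P i)‖) ≤ 1 * (‖π‖ * 1) :=
          mul_le_mul hsA.2 (mul_le_mul_of_nonneg_left (hPA i).2 (norm_nonneg _))
            (mul_nonneg (norm_nonneg _) (norm_nonneg _)) zero_le_one
      _ = ‖π‖ := by ring
  · set G := algebraMap L (E ⊗[F] L) g with hGdef
    have e1 := congrArg (algebraMap L (E ⊗[F] L)) e
    rw [map_pow, map_mul, map_sum, Finset.sum_range_succ] at e1
    simp only [map_mul, map_pow, algebraMap_aeval (k := k) (E := E) (L := L) hy] at e1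
    have e2 : algebraMap L (E ⊗[F] L) (algebraMap k L π) =
        algebraMap E (E ⊗[F] L) (algebraMap k E π) := by
      rw [IsScalarTower.algebraMap_apply k F L, ← IsScalarTower.algebraMap_apply F L,
        IsScalarTower.algebraMap_apply F E, ← IsScalarTower.algebraMap_apply k F E]
    rw [e2] at e1
    have e3 : algebraMap E (E ⊗[F] L) (1 - algebraMap k E π * aeval y (P n)) * G ^ n =
        algebraMap E (E ⊗[F] L) (algebraMap k E π) *
          ∑ i ∈ Finset.range n, algebraMap E (E ⊗[F] L) (aeval y (P i)) * G ^ i := by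
      rw [map_sub, map_one, map_mul, sub_mul, one_mul]
      rw [sub_eq_iff_eq_add]
      conv_lhs => rw [e1]
      ring
    have e4 : G ^ n = algebraMap E (E ⊗[F] L) s *
        (algebraMap E (E ⊗[F] L) (1 - algebraMap k E π * aeval y (P n)) * G ^ n) := by
      rw [← mul_assoc, ← map_mul, mul_comm s, hs1, map_one, one_mul]
    rw [e4, e3, Finset.mul_sum, Finset.mul_sum]
    refine Finset.sum_congr rfl fun i _ => ?_
    rw [Algebra.smul_def, map_mul, map_mul]
    ring

end Setting

end Crest.Agent.R013.One_622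
end

-- ▼ part R013/OneC_622
section

/-!
# (ONE) of row 13, part C: assembly

`one_general`: P1 data (97) + P2 (920) + `nPow_RU`, `nPow_FP` give: `h` is a one-circle class for
`Y = π / (h / u₀ ^ l - 1) ^ m`.
`one_p`: the same over `ℚ_p` with the circle field (940) and `F = ℚ_p(Y)` supplied.
-/

set_option autoImplicit false

namespace Crest.Agent.R013.One_622

open Polynomial Gl946 Lift903 LemT_874
open scoped TensorProduct

attribute [local instance] Algebra.TensorProduct.rightAlgebra

section Max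

variable {k : Type*} [NormedField k] [IsUltrametricDist k] {π : k} (hπ : IsUnif π)

/-- the uniformizer as an element of the unit ball -/
def pi0 : R0 k := ⟨π, hπ.lt_one.le⟩

theorem mem_span_pi0 (a : R0 k) : a ∈ Ideal.span {pi0 hπ} ↔ ‖(a : k)‖ < 1 := by
  have hπ0 : π ≠ 0 := norm_pos_iff.1 hπ.pos
  rw [Ideal.mem_span_singleton']
  constructor
  · rintro ⟨b, rfl⟩
    change ‖(b : k) * π‖ < 1
    rw [norm_mul]
    calc ‖(b : k)‖ * ‖π‖ ≤ 1 * ‖π‖ := mul_le_mul_of_nonneg_right b.2 (norm_nonneg _)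
      _ < 1 := by rw [one_mul]; exact hπ.lt_one
  · intro h
    refine ⟨⟨(a : k) / π, ?_⟩, Subtype.ext ?_⟩
    · change ‖(a : k) / π‖ ≤ 1
      rw [norm_div]
      exact (div_le_one hπ.pos).2 (hπ.le _ h)
    · change (a : k) / π * π = a
      exact div_mul_cancel₀ _ hπ0

theorem isMaximal_pi0 : (Ideal.span {pi0 hπ}).IsMaximal := by
  rw [Ideal.isMaximal_iff]
  constructor
  · rw [mem_span_pi0]
    change ¬ ‖(1 : k)‖ < 1
    rw [norm_one]
    exact lt_irrefl _
  · intro J x _ hx hxJ
    have h1 : ‖(x : k)‖ = 1 := le_antisymm x.2 (by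
      by_contra h
      exact hx ((mem_span_pi0 hπ x).2 (not_le.1 h)))
    have hx0 : (x : k) ≠ 0 := by
      intro h0
      rw [h0, norm_zero] at h1
      exact zero_ne_one h1
    have h2 : (1 : R0 k) = ⟨(x : k)⁻¹, by
        change ‖(x : k)⁻¹‖ ≤ 1
        rw [norm_inv, h1, inv_one]⟩ * x := Subtype.ext (by
      change (1 : k) = (x : k)⁻¹ * x
      rw [inv_mul_cancel₀ hx0])
    rw [h2]
    exact J.mul_mem_left _ hxJ

end Max

section General

variable {k : Type*} [NormedField k] [IsUltrametricDist k] [CompleteSpace k] {π : k}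
  (hπ : IsUnif π) {L : Type*} [Field L] [Algebra k L]

/-- The P1 data: finitely many `u i`, and `u₀`, `m`. -/
structure P1 {ι : Type*} (s : Finset ι) (u : ι → L) (h : L) (l : ℕ) (u₀ : L) (m : ℕ) : Prop where
  hu : ∀ i ∈ s, u i ≠ 0
  hu₀ : u₀ ≠ 0
  hm : 0 < m
  tr : Transcendental k (h / u₀ ^ l - 1)
  cov : ∀ W : ValuationSubring L, (∀ c : R0 k, algebraMap (R0 k) L c ∈ W) →
    W.valuation (algebraMap (R0 k) L (pi0 hπ)) < 1 → ∃ i ∈ s, W.valuation (h / u i ^ l - 1) < 1
  V : ∀ W : ValuationSubring L, (∀ c : R0 k, algebraMap (R0 k) L c ∈ W) →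
    W.valuation (algebraMap (R0 k) L (pi0 hπ)) < 1 → ∀ i ∈ s, h / u i ^ l - 1 ∈ W →
    (∀ Q : (R0 k)[X], (∃ j, Q.coeff j ∉ Ideal.span {pi0 hπ}) →
      W.valuation (aeval (h / u i ^ l - 1) Q) = 1) →
    (h / u₀ ^ l - 1) ^ m / algebraMap k L π ^ 2 ∈ W

/-- the coordinate of the circle -/
noncomputable def coord (π : k) (h : L) (l : ℕ) (u₀ : L) (m : ℕ) : L :=
  algebraMap k L π / (h / u₀ ^ l - 1) ^ m

variable {E : Type*} [NormedField E] [NormedAlgebra k E]
  [IsUltrametricDist E] [CompleteSpace E] {y : E} (hG : IsGauss k y) (hd : DenseRat k y)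
  {F : Type*} [Field F] [Algebra F L] [Algebra F E]
  [Algebra k F] [IsScalarTower k F E] [IsScalarTower k F L] [FiniteDimensional F L]
  {yF : F} (hy : algebraMap F E yF = y) (hF : ∀ x : F, algebraMap F E x ∈ KY hG)

include hy in
/-- **Theorem (ONE)**, assembled from P1, P2, P3. -/
theorem one_general [Finite (R0 k ⧸ Ideal.span {pi0 hπ})] {l : ℕ} (hl2 : 2 ≤ l)
    (hl : ‖(l : k)‖ = 1) {h : L} (h0 : h ≠ 0) {ι : Type*} {s : Finset ι} {u : ι → L} {u₀ : L}
    {m : ℕ} (P : P1 hπ s u h l u₀ m) (hyL : algebraMap F L yF = coord π h l u₀ m) :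
    NPow (algebraMap_mem_RU hG hF) l h ∧ NPow (algebraMap_mem_FP hG hπ hd hF) l h := by
  have hπ0 : π ≠ 0 := norm_pos_iff.1 hπ.pos
  have hπL : algebraMap k L π ≠ 0 := (_root_.map_ne_zero _).2 hπ0
  set f₀ : L := h / u₀ ^ l - 1 with hf₀
  have hf0 : f₀ ≠ 0 := by
    intro h1
    apply P.tr
    rw [← hf₀, h1]
    exact isAlgebraic_zero
  have hu0 : u₀ ^ l ≠ 0 := pow_ne_zero _ P.hu₀
  constructor
  · refine nPow_RU hG hπ hF l hl f₀ u₀ h ?_ m P.hm ?_ hy
    · rw [hf₀]; field_simp; ring
    · rw [hyL, coord, ← hf₀, mul_div_cancel₀ _ (pow_ne_zero _ hf0)]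
  · have := isMaximal_pi0 hπ
    set X₀ : L := algebraMap k L π ^ 2 / f₀ ^ m with hX₀
    have hX0 : X₀ ≠ 0 := div_ne_zero (pow_ne_zero _ hπL) (pow_ne_zero _ hf0)
    obtain ⟨a, ha0, ha⟩ := OneP2_920.p2 (L := L) (pi0 hπ) (X := X₀) hX0 s u P.hu h0 hl2 P.cov
      (fun W h1 h2 i hi h3 h4 => by
        rw [hX₀, inv_div]
        exact P.V W h1 h2 i hi h3 h4)
    refine nPow_FP hG hπ hy hd hF l hl (h / a ^ l - 1) a h ?_ ?_
    · have := pow_ne_zero l ha0
      field_simp
      ring
    · intro W hW hYW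
      refine ha W (fun c => hW.mem c c.2) hW.lt ?_
      have e1 : X₀ = algebraMap k L π * algebraMap F L yF := by
        rw [hyL, coord, ← hf₀, hX₀]; ring
      rw [e1, map_mul]
      exact lt_of_le_of_lt (mul_le_of_le_one_right' ((W.valuation_le_one_iff _).2 hYW)) hW.lt

end General

section Pack

universe u

variable {k : Type u} [NormedField k] [IsUltrametricDist k] [CompleteSpace k] {π : k}
  (hπ : IsUnif π) {L : Type*} [Field L] [Algebra k L]

omit [IsUltrametricDist k] [CompleteSpace k] in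
theorem transcendental_coord {h : L} {l : ℕ} {u₀ : L} {m : ℕ} (hm : 0 < m) (hπ0 : π ≠ 0)
    (tr : Transcendental k (h / u₀ ^ l - 1)) : Transcendental k (coord π h l u₀ m) := by
  intro hY
  apply tr
  have hπL : algebraMap k L π ≠ 0 := (_root_.map_ne_zero _).2 hπ0
  have hf0 : h / u₀ ^ l - 1 ≠ 0 := by
    intro h1
    apply tr
    rw [h1]
    exact isAlgebraic_zero
  have e1 : (h / u₀ ^ l - 1) ^ m = algebraMap k L π / coord π h l u₀ m := by
    rw [coord, div_div_cancel₀ hπL]
  have h2 : IsAlgebraic k ((h / u₀ ^ l - 1) ^ m) := by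
    rw [e1, div_eq_mul_inv]
    exact (isAlgebraic_algebraMap π).mul hY.inv
  exact h2.of_pow hm

/-- **Theorem (ONE)** with all the fields supplied. -/
theorem one_pack [Finite (R0 k ⧸ Ideal.span {pi0 hπ})] {l : ℕ} (hl2 : 2 ≤ l)
    (hl : ‖(l : k)‖ = 1) {h : L} (h0 : h ≠ 0) {ι : Type*} {s : Finset ι} {u : ι → L} {u₀ : L}
    {m : ℕ} (P : P1 hπ s u h l u₀ m)
    (hfin : ∀ x : L, Transcendental k x → FiniteDimensional (IntermediateField.adjoin k {x}) L) :
    ∃ (F E : Type u) (_ : NormedField E) (_ : NormedAlgebra k E) (_ : IsUltrametricDist E)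
      (_ : CompleteSpace E) (_ : Field F) (_ : Algebra F L) (_ : Algebra F E) (_ : Algebra k F)
      (_ : IsScalarTower k F E) (_ : IsScalarTower k F L) (_ : FiniteDimensional F L) (y : E)
      (hG : IsGauss k y) (hd : DenseRat k y) (hF : ∀ x : F, algebraMap F E x ∈ KY hG)
      (_ : ∀ z ∈ KY hG, z ∈ Set.range (algebraMap F E)),
      NPow (algebraMap_mem_RU hG hF) l h ∧ NPow (algebraMap_mem_FP hG hπ hd hF) l h := by
  classical
  have hπ0 : π ≠ 0 := norm_pos_iff.1 hπ.pos
  set Y := coord π h l u₀ m with hY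
  have hYt : Transcendental k Y := transcendental_coord P.hm hπ0 P.tr
  obtain ⟨E, i1, i2, i3, i4, y, hG, hd⟩ := Good2_940.exists_circle k
  let eY : RatFunc k ≃ₐ[k] IntermediateField.adjoin k {Y} :=
    RatFunc.algEquivOfTranscendental Y hYt
  have heY : ((eY RatFunc.X : IntermediateField.adjoin k {Y}) : L) = Y :=
    RatFunc.algEquivOfTranscendental_X Y hYt
  let aL : RatFunc k →ₐ[k] L := (IntermediateField.val _).comp eY.toAlgHom
  let aE : RatFunc k →ₐ[k] E := RatFunc.liftAlgHom (aeval y) (by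
    intro f hf
    rw [Submonoid.mem_comap]
    exact mem_nonZeroDivisors_of_ne_zero (hG.aeval_ne_zero (nonZeroDivisors.ne_zero hf)))
  let iL : Algebra (RatFunc k) L := aL.toRingHom.toAlgebra
  let iE : Algebra (RatFunc k) E := aE.toRingHom.toAlgebra
  have tE : IsScalarTower k (RatFunc k) E := IsScalarTower.of_algebraMap_eq fun c =>
    (aE.commutes c).symm
  have tL : IsScalarTower k (RatFunc k) L := IsScalarTower.of_algebraMap_eq fun c =>
    (aL.commutes c).symm
  have hfd : FiniteDimensional (IntermediateField.adjoin k {Y}) L := hfin Y hYt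
  have hfd' : FiniteDimensional (RatFunc k) L :=
    Module.Finite.of_equiv_equiv (A₁ := IntermediateField.adjoin k {Y}) (B₁ := L)
      eY.symm.toRingEquiv (RingEquiv.refl L) (by
        ext x
        change aL (eY.symm x) = (x : L)
        change ((eY (eY.symm x) : IntermediateField.adjoin k {Y}) : L) = (x : L)
        rw [AlgEquiv.apply_symm_apply])
  have hy : algebraMap (RatFunc k) E RatFunc.X = y := by
    change aE RatFunc.X = y
    have e1 : (RatFunc.X : RatFunc k) = algebraMap k[X] (RatFunc k) X / algebraMap k[X] (RatFunc k) 1 := by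
      rw [map_one, div_one, RatFunc.algebraMap_X]
    rw [e1, RatFunc.liftAlgHom_apply_div, aeval_X, map_one, div_one]
  have hgen : ∀ x : RatFunc k, ∃ f g : k[X], aeval (RatFunc.X : RatFunc k) g ≠ 0 ∧
      x = aeval (RatFunc.X : RatFunc k) f / aeval (RatFunc.X : RatFunc k) g := by
    intro x
    have key : ∀ f : k[X], aeval (RatFunc.X : RatFunc k) f = algebraMap k[X] (RatFunc k) f := by
      intro f
      rw [← RatFunc.algebraMap_X, aeval_algebraMap_apply, aeval_X_left_apply]
    refine ⟨x.num, x.denom, ?_, ?_⟩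
    · rw [key]
      exact RatFunc.algebraMap_ne_zero x.denom_ne_zero
    · rw [key, key, RatFunc.num_div_denom]
  have hmap : ∀ f : k[X], algebraMap (RatFunc k) E (aeval (RatFunc.X : RatFunc k) f) =
      aeval y f := fun f => by rw [← hy, ← aeval_algebraMap_apply]
  have hF : ∀ x : RatFunc k, algebraMap (RatFunc k) E x ∈ KY hG := by
    intro x
    obtain ⟨f, g, hg, rfl⟩ := hgen x
    refine ⟨f, g, ?_, ?_⟩
    · rintro rfl
      exact hg (map_zero _)
    · rw [map_div₀, hmap, hmap]
  refine ⟨RatFunc k, E, i1, i2, i3, i4, inferInstance, iL, iE, inferInstance, tE, tL, hfd', y, hG,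
    hd, hF, ?_, ?_⟩
  · rintro _ ⟨f, g, -, rfl⟩
    exact ⟨aeval RatFunc.X f / aeval RatFunc.X g, by rw [map_div₀, hmap, hmap]⟩
  refine one_general hπ hG hd hy hF hl2 hl h0 P ?_
  change aL RatFunc.X = Y
  exact heY

end Pack

section Padic

variable (p : ℕ) [Fact p.Prime]

theorem isUnif_p : IsUnif (p : ℚ_[p]) where
  pos := by
    rw [Padic.norm_p]
    exact inv_pos.2 (by exact_mod_cast (Fact.out : p.Prime).pos)
  lt_one := Padic.norm_p_lt_one
  le a ha := by
    have h1 := (PadicInt.norm_lt_one_iff_dvd (⟨a, ha.le⟩ : ℤ_[p])).1 ha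
    obtain ⟨b, hb⟩ := h1
    have h2 : a = (p : ℚ_[p]) * (b : ℚ_[p]) := by
      have := congrArg (fun x : ℤ_[p] => (x : ℚ_[p])) hb
      simpa using this
    rw [h2, norm_mul]
    exact mul_le_of_le_one_right (norm_nonneg _) b.2

instance finite_residue : Finite (R0 ℚ_[p] ⧸ Ideal.span {pi0 (isUnif_p p)}) := by
  let φ : R0 ℚ_[p] →+* ℤ_[p] :=
    { toFun := fun x => ⟨x.1, x.2⟩
      map_one' := rfl
      map_mul' := fun _ _ => rfl
      map_zero' := rfl
      map_add' := fun _ _ => rfl }
  let ψ : R0 ℚ_[p] →+* ZMod p := (PadicInt.toZMod).comp φ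
  have hker : RingHom.ker ψ = Ideal.span {pi0 (isUnif_p p)} := by
    ext x
    rw [mem_span_pi0, RingHom.mem_ker]
    change PadicInt.toZMod (φ x) = 0 ↔ _
    rw [← RingHom.mem_ker, PadicInt.ker_toZMod, PadicInt.maximalIdeal_eq_span_p,
      Ideal.mem_span_singleton, ← PadicInt.norm_lt_one_iff_dvd]
    rfl
  rw [← hker]
  exact Finite.of_injective _ (RingHom.kerLift_injective ψ)

/-- **Theorem (ONE)** over `ℚ_p`. -/
theorem one_p {L : Type*} [Field L] [Algebra ℚ_[p] L] {l : ℕ} (hl : l.Prime) (hlp : l ≠ p)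
    {h : L} (h0 : h ≠ 0) {ι : Type*} {s : Finset ι} {u : ι → L} {u₀ : L}
    {m : ℕ} (P : P1 (isUnif_p p) s u h l u₀ m)
    (hfin : ∀ x : L, Transcendental ℚ_[p] x →
      FiniteDimensional (IntermediateField.adjoin ℚ_[p] {x}) L) :
    ∃ (F E : Type) (_ : NormedField E) (_ : NormedAlgebra ℚ_[p] E) (_ : IsUltrametricDist E)
      (_ : CompleteSpace E) (_ : Field F) (_ : Algebra F L) (_ : Algebra F E)
      (_ : Algebra ℚ_[p] F) (_ : IsScalarTower ℚ_[p] F E) (_ : IsScalarTower ℚ_[p] F L)
      (_ : FiniteDimensional F L) (y : E)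
      (hG : IsGauss ℚ_[p] y) (hd : DenseRat ℚ_[p] y) (hF : ∀ x : F, algebraMap F E x ∈ KY hG)
      (_ : ∀ z ∈ KY hG, z ∈ Set.range (algebraMap F E)),
      NPow (algebraMap_mem_RU hG hF) l h ∧
        NPow (algebraMap_mem_FP hG (isUnif_p p) hd hF) l h := by
  refine one_pack (isUnif_p p) hl.two_le ?_ h0 P hfin
  rw [Padic.norm_natCast_eq_one_iff]
  exact ((Nat.coprime_primes (Fact.out : p.Prime) hl).2 (Ne.symm hlp))

end Padic

end Crest.Agent.R013.One_622
end

-- ▼ part R013/A2e_275
section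

/-!
Row 13, part A: points of arbitrary places of `maxUnramified k K` (after helper349's `ptOf`), and
the existence of a `τ`-fixed point from bad points (norms or type 1) at every finite level.
-/

set_option autoImplicit false
set_option linter.unusedSectionVars false

noncomputable section

namespace Crest.Agent.R013.A2e_275

open Crest.NumberTheoryR.Sect
open Crest.Agent.R013.Places_97 Crest.Agent.R013.MaxUnr_97 Crest.Agent.R013.Clause1_97
  Crest.Agent.R013.Clause1Main_97 Crest.Agent.R013.A2b_275 Crest.Agent.R013.APt_349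
open scoped NNReal ENNReal Topology

/-- `vt` is trivial on `k` and its residue field is given by constants. -/
def GoodPl (k : Type*) [Field k] (K : Type*) [Field K] [Algebra k K]
    (vt : Valuation (maxUnramified k K) ℝ≥0) : Prop :=
  (∀ c : k, c ≠ 0 → vt (algebraMap k (maxUnramified k K) c) = 1) ∧
    ∀ f : maxUnramified k K, vt f ≤ 1 → ∃ c : constField k K, vt (f - c) < 1

section pt

variable {p : ℕ} [Fact p.Prime] {k : Type*} [Field k] [Algebra ℚ_[p] k]
  {K : Type*} [Field K] [Algebra k K]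

/-- The point of `[0,∞]^M` given by a place: norm of the residue. -/
def ptG (W : Valuation (constField k K) ℝ≥0) (vt : Valuation (maxUnramified k K) ℝ≥0)
    (f : maxUnramified k K) : ℝ≥0∞ := by
  classical
  exact if h : ∃ c : constField k K, vt (f - c) < 1 then ((W h.choose : ℝ≥0) : ℝ≥0∞) else ⊤

variable (W : Valuation (constField k K) ℝ≥0) {vt : Valuation (maxUnramified k K) ℝ≥0}

theorem vt_k (hvt : GoodPl k K vt) (c : k) (hc : c ≠ 0) :
    vt (algebraMap k (maxUnramified k K) c) = 1 := by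
  exact hvt.1 c hc

theorem vt_const (hvt : GoodPl k K vt) (c : constField k K) (hc : c ≠ 0) :
    vt (c : maxUnramified k K) = 1 :=
  val_eq_one_of_isAlgebraic vt (vt_k hvt)
    (fun h => hc (Subtype.ext h)) (isIntegral_constField c)

theorem vt_const_le (hvt : GoodPl k K vt) (c : constField k K) :
    vt (c : maxUnramified k K) ≤ 1 := by
  rcases eq_or_ne c 0 with rfl | h
  · simp
  · exact (vt_const hvt c h).le

theorem vt_const_lt (hvt : GoodPl k K vt) {c : constField k K}
    (h : vt (c : maxUnramified k K) < 1) : c = 0 := by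
  by_contra hc
  rw [vt_const hvt c hc] at h
  exact lt_irrefl _ h

theorem ptG_eq (hvt : GoodPl k K vt) {f : maxUnramified k K}
    {c : constField k K} (h : vt (f - c) < 1) : ptG W vt f = (W c : ℝ≥0∞) := by
  classical
  have hex : ∃ c : constField k K, vt (f - c) < 1 := ⟨c, h⟩
  have h1 := hex.choose_spec
  have h2 : hex.choose - c = 0 := by
    apply vt_const_lt hvt
    have h3 : ((hex.choose - c : constField k K) : maxUnramified k K) =
        (f - c) - (f - hex.choose) := by
      push_cast; ring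
    rw [h3]
    exact vt.map_sub_lt h h1
  have h4 : hex.choose = c := sub_eq_zero.1 h2
  rw [ptG, dif_pos hex, h4]

theorem ptG_of_gt (hvt : GoodPl k K vt) {f : maxUnramified k K}
    (h : 1 < vt f) : ptG W vt f = ⊤ := by
  classical
  have hex : ¬ ∃ c : constField k K, vt (f - c) < 1 := by
    rintro ⟨c, hc⟩
    have h1 : vt f ≤ 1 := by
      have h2 : f = (f - c) + c := by ring
      rw [h2]
      exact (vt.map_add _ _).trans (max_le hc.le (vt_const_le hvt c))
    exact not_lt.2 h1 h
  rw [ptG, dif_neg hex]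

section FF

variable [CharZero k] [Algebra (RatFunc k) K] [IsScalarTower k (RatFunc k) K]
  [FiniteDimensional (RatFunc k) K]

theorem exists_res (hvt : GoodPl k K vt) {f : maxUnramified k K}
    (h : vt f ≤ 1) : ∃ c : constField k K, vt (f - c) < 1 := by
  exact hvt.2 f h

theorem ptG_eq_top_iff (hvt : GoodPl k K vt) (f : maxUnramified k K) :
    ptG W vt f = ⊤ ↔ 1 < vt f := by
  constructor
  · intro h
    by_contra hcon
    push Not at hcon
    obtain ⟨c, hc⟩ := exists_res hvt hcon
    rw [ptG_eq W hvt hc] at h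
    exact ENNReal.coe_ne_top h
  · exact ptG_of_gt W hvt

theorem ptG_eq_zero_iff (hvt : GoodPl k K vt) (f : maxUnramified k K) :
    ptG W vt f = 0 ↔ vt f < 1 := by
  constructor
  · intro h
    have h1 : vt f ≤ 1 := by
      by_contra hcon
      push Not at hcon
      rw [ptG_of_gt W hvt hcon] at h
      exact ENNReal.top_ne_zero h
    obtain ⟨c, hc⟩ := exists_res hvt h1
    rw [ptG_eq W hvt hc] at h
    have h2 : W c = 0 := by exact_mod_cast h
    have h3 : c = 0 := (Valuation.zero_iff W).1 h2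
    rw [h3] at hc
    simpa using hc
  · intro h
    have h1 : vt (f - ((0 : constField k K) : maxUnramified k K)) < 1 := by simpa using h
    rw [ptG_eq W hvt h1]
    simp

theorem ptG_isPt (hW : ∀ q : ℚ_[p], W (iQ p k (constField k K) q) = ‖q‖₊)
    (hvt : GoodPl k K vt) :
    IsPt p k (maxUnramified k K) (ptG W vt) where
  add a b := by
    by_cases ha : 1 < vt a
    · rw [ptG_of_gt W hvt ha, top_sup_eq]; exact le_top
    by_cases hb : 1 < vt b
    · rw [ptG_of_gt W hvt hb, sup_top_eq]; exact le_top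
    push Not at ha hb
    obtain ⟨c, hc⟩ := exists_res hvt ha
    obtain ⟨d, hd⟩ := exists_res hvt hb
    have h1 : vt (a + b - ((c + d : constField k K) : maxUnramified k K)) < 1 := by
      have h2 : a + b - ((c + d : constField k K) : maxUnramified k K) = (a - c) + (b - d) := by
        push_cast; ring
      rw [h2]
      exact vt.map_add_lt hc hd
    rw [ptG_eq W hvt h1, ptG_eq W hvt hc, ptG_eq W hvt hd]
    exact_mod_cast W.map_add c d
  mul a b h1' h2' := by
    have h1 : ¬ (ptG W vt a = 0 ∧ ptG W vt b = ⊤) := by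
      rintro ⟨h, h'⟩
      rcases h1' with h3 | h3
      · exact h3 h
      · exact h3 h'
    have h2 : ¬ (ptG W vt a = ⊤ ∧ ptG W vt b = 0) := by
      rintro ⟨h, h'⟩
      rcases h2' with h3 | h3
      · exact h3 h'
      · exact h3 h
    by_cases ha : 1 < vt a
    · have h3 : ¬ vt b < 1 := by
        intro h
        exact h2 ⟨ptG_of_gt W hvt ha, (ptG_eq_zero_iff W hvt b).2 h⟩
      have h4 : 1 < vt (a * b) := by
        rw [map_mul]
        push Not at h3
        calc 1 < vt a := ha
          _ = vt a * 1 := (mul_one _).symm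
          _ ≤ vt a * vt b := by gcongr
      rw [ptG_of_gt W hvt ha, ptG_of_gt W hvt h4, ENNReal.top_mul]
      intro h
      exact h3 ((ptG_eq_zero_iff W hvt b).1 h)
    by_cases hb : 1 < vt b
    · have h3 : ¬ vt a < 1 := by
        intro h
        exact h1 ⟨(ptG_eq_zero_iff W hvt a).2 h, ptG_of_gt W hvt hb⟩
      have h4 : 1 < vt (a * b) := by
        rw [map_mul]
        push Not at h3
        calc 1 < vt b := hb
          _ = 1 * vt b := (one_mul _).symm
          _ ≤ vt a * vt b := by gcongr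
      rw [ptG_of_gt W hvt hb, ptG_of_gt W hvt h4, ENNReal.mul_top]
      intro h
      exact h3 ((ptG_eq_zero_iff W hvt a).1 h)
    push Not at ha hb
    obtain ⟨c, hc⟩ := exists_res hvt ha
    obtain ⟨d, hd⟩ := exists_res hvt hb
    have h1 : vt (a * b - ((c * d : constField k K) : maxUnramified k K)) < 1 := by
      have h2 : a * b - ((c * d : constField k K) : maxUnramified k K) =
          (a - c) * b + c * (b - d) := by
        push_cast; ring
      rw [h2]
      refine vt.map_add_lt ?_ ?_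
      · rw [map_mul]
        exact mul_lt_one_of_nonneg_of_lt_one_left zero_le hc hb
      · rw [map_mul]
        exact mul_lt_one_of_nonneg_of_lt_one_right (vt_const_le hvt c) zero_le hd
    rw [ptG_eq W hvt h1, ptG_eq W hvt hc, ptG_eq W hvt hd, map_mul]
    exact ENNReal.coe_mul _ _
  inv a ha := by
    have hva : vt a ≠ 0 := (Valuation.ne_zero_iff vt).2 ha
    rcases lt_trichotomy (vt a) 1 with h | h | h
    · rw [(ptG_eq_zero_iff W hvt a).2 h, ENNReal.inv_zero, ptG_eq_top_iff W hvt, map_inv₀]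
      exact (one_lt_inv₀ (pos_iff_ne_zero.2 hva)).2 h
    · obtain ⟨c, hc⟩ := exists_res hvt h.le
      have hc0 : c ≠ 0 := by
        rintro rfl
        rw [ZeroMemClass.coe_zero, sub_zero, h] at hc
        exact lt_irrefl _ hc
      have hc1 := vt_const hvt c hc0
      have hc0' : (c : maxUnramified k K) ≠ 0 := fun h => hc0 (Subtype.ext h)
      have h1 : vt (a⁻¹ - ((c⁻¹ : constField k K) : maxUnramified k K)) < 1 := by
        have h2 : a⁻¹ - ((c⁻¹ : constField k K) : maxUnramified k K) =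
            -(a - c) * (a⁻¹ * (c : maxUnramified k K)⁻¹) := by
          push_cast
          field_simp
          ring
        rw [h2, map_mul, map_mul, Valuation.map_neg, map_inv₀, map_inv₀, h, hc1]
        simpa using hc
      rw [ptG_eq W hvt h1, ptG_eq W hvt hc, map_inv₀, ENNReal.coe_inv]
      exact (Valuation.ne_zero_iff W).2 hc0
    · rw [ptG_of_gt W hvt h, ENNReal.inv_top, ptG_eq_zero_iff W hvt, map_inv₀]
      exact inv_lt_one_of_one_lt₀ h
  ext q := by
    change ptG W vt (iQ p k (maxUnramified k K) q) = _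
    have h1 : vt (iQ p k (maxUnramified k K) q -
        ((iQ p k (constField k K) q : constField k K) : maxUnramified k K)) < 1 := by
      have h2 : ((iQ p k (constField k K) q : constField k K) : maxUnramified k K) =
        iQ p k (maxUnramified k K) q := rfl
      rw [h2, sub_self, map_zero]
      exact zero_lt_one
    rw [ptG_eq W hvt h1, hW]

theorem ptG_inv [FiniteDimensional ℚ_[p] k]
    (hW : ∀ q : ℚ_[p], W (iQ p k (constField k K) q) = ‖q‖₊)
    (hvt : GoodPl k K vt) (g : PiGroup k K) (hg : g ∈ decomp k K vt)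
    (f : maxUnramified k K) : ptG W vt (g f) = ptG W vt f := by
  have : IsGalois k (constField k K) := A2c_275.isGalois_constField
  by_cases hf : 1 < vt f
  · rw [ptG_of_gt W hvt hf, ptG_of_gt W hvt (by rw [hg f]; exact hf)]
  push Not at hf
  obtain ⟨c, hc⟩ := exists_res hvt hf
  have h1 : vt (g f - ((res g c : constField k K) : maxUnramified k K)) < 1 := by
    rw [coe_res, ← map_sub, hg]
    exact hc
  rw [ptG_eq W hvt h1, ptG_eq W hvt hc, W_inv hW]

end FF

end pt

section final

open Crest.Agent.R013.RR7_948 Crest.Agent.R013.RR8_948 Crest.Agent.R013.RR13_948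
  Crest.Agent.R013.RR14_948

variable {p : ℕ} [Fact p.Prime] {k : Type*} [Field k] [Algebra ℚ_[p] k] [FiniteDimensional ℚ_[p] k]
  {K : Type*} [Field K] [Algebra k K] [Algebra (RatFunc k) K] [IsScalarTower k (RatFunc k) K]
  [FiniteDimensional (RatFunc k) K]

/-- Every place of `maxUnramified` has constant residues. -/
theorem goodPl_of_isPlace [CharZero k] (vt : Valuation (maxUnramified k K) ℝ≥0)
    (hpl : IsPlace k (vt.comap (algebraMap K (maxUnramified k K)))) : GoodPl k K vt := by
  classical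
  have hcharR : CharZero (RatFunc k) :=
    charZero_of_injective_algebraMap (algebraMap k (RatFunc k)).injective
  have hk : ∀ c : k, c ≠ 0 → vt (algebraMap k (maxUnramified k K) c) = 1 := by
    intro c hc
    have := hpl.1 c hc
    rw [IsScalarTower.algebraMap_apply k K]
    exact this
  refine ⟨hk, ?_⟩
  intro x hx
  obtain ⟨L, hL, hxL⟩ := (Unr5_957.mem_maxUnramified_iff (k := k) (K := K)).mp x.2
  have hLM : L ≤ maxUnramified k K := le_sSup hL
  have hfd : FiniteDimensional K L := hL.1
  let ι : L →+* maxUnramified k K := (IntermediateField.inclusion hLM).toRingHom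
  have := Unr4_957.tower_IF (k := k) (K := K) L
  have := Unr4_957.finite_IF (k := k) (K := K) L
  obtain ⟨P, hP⟩ := exists_place (k := k) (K := L) (vt.comap ι)
    (by
      intro c hc
      rw [Valuation.comap_apply]
      exact hk c hc)
    (by
      obtain ⟨b, hb⟩ := hpl.2
      exact ⟨algebraMap K L b, hb⟩)
  let x' : L := ⟨(x : AlgebraicClosure K), hxL⟩
  have hιx : ι x' = x := rfl
  have hdeg : degE P ≠ ⊤ := by
    rw [RR11_948.degE_eq P]; exact ENat.natCast_ne_top _
  obtain ⟨f, hf0, hf⟩ := exists_poly_lt_one P hdeg (u := x') (hP.le_one_iff_le_one.mpr hx)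
  have hf1 := hP.lt_one_iff_lt_one.mp hf
  have hf2 : vt (Polynomial.aeval x f) < 1 := by
    have h1 : ι (Polynomial.aeval x' f) = Polynomial.aeval x f := by
      have h2 : ι (Polynomial.aeval x' f) = Polynomial.aeval (ι x') f :=
        (Polynomial.aeval_algHom_apply ((IntermediateField.inclusion hLM).restrictScalars k)
          x' f).symm
      rw [h2, hιx]
    rw [← h1]
    exact hf1
  have hsplit := splits_maxUnramified (K := K) f
  have hroots := hsplit.eq_prod_roots
  have hev : Polynomial.aeval x f =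
      Polynomial.eval x (f.map (algebraMap k (maxUnramified k K))) := by
    rw [Polynomial.eval_map, Polynomial.aeval_def]
  rw [hev, hroots, Polynomial.eval_mul, Polynomial.eval_C, map_mul,
    Polynomial.leadingCoeff_map, hk _ (Polynomial.leadingCoeff_ne_zero.mpr hf0), one_mul,
    Polynomial.eval_multiset_prod, map_multiset_prod, Multiset.map_map, Multiset.map_map] at hf2
  obtain ⟨c, hc, hac⟩ : ∃ c ∈ (f.map (algebraMap k (maxUnramified k K))).roots,
      vt (x - c) < 1 := by
    by_contra hcon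
    push Not at hcon
    refine absurd hf2 (not_lt.mpr ?_)
    refine Multiset.one_le_prod ?_
    intro y hy
    obtain ⟨c, hc, rfl⟩ := Multiset.mem_map.mp hy
    simpa using hcon c hc
  have hcint : IsIntegral k c := by
    rw [← isAlgebraic_iff_isIntegral]
    refine ⟨f, hf0, ?_⟩
    have := (Polynomial.mem_roots'.mp hc).2
    rwa [Polynomial.IsRoot, Polynomial.eval_map, ← Polynomial.aeval_def] at this
  exact ⟨⟨c, mem_constField hcint⟩, hac⟩

/-- Abstract form of the compactness argument. -/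
theorem exists_tau_fixed_abs {p : ℕ} [Fact p.Prime] {k : Type*} [Field k] [Algebra ℚ_[p] k]
    {K M : Type*} [Field K] [Field M] [CharZero K] [Algebra K M] [Algebra k K] [Algebra k M]
    [IsScalarTower k K M] [IsGalois K M]
    (l : ℕ) (hl : l.Prime) (τ : M ≃ₐ[K] M) (hpro : ∀ a, ∃ n, (τ ^ l ^ n) a = a)
    (z : M) (hτl : (τ ^ l) z = z)
    (hyp : ∀ L : IntermediateField K M, FiniteDimensional K L → (∀ a ∈ L, τ a = a) →
      ∃ φ : M → ℝ≥0∞, IsPt p k M φ ∧ ∃ g : M ≃ₐ[K] M, (∀ a ∈ L, g a = a) ∧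
        (∀ a, φ (g a) = φ a) ∧ g z ≠ z) :
    ∃ φ : M → ℝ≥0∞, IsPt p k M φ ∧ ∀ a, φ (τ a) = φ a := by
  classical
  -- the index set
  let ι := {L : IntermediateField K M // FiniteDimensional K L ∧ ∀ a ∈ L, τ a = a}
  have hfix : ∀ L : IntermediateField K M, (∀ a ∈ L, τ a = a) ↔
      L ≤ IntermediateField.fixedField (Subgroup.zpowers τ) := by
    intro L
    constructor
    · intro h a ha
      rw [IntermediateField.mem_fixedField_iff]
      intro f hf
      have h1 : τ ∈ MulAction.stabilizer (M ≃ₐ[K] M) a := h a ha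
      have h2 : Subgroup.zpowers τ ≤ MulAction.stabilizer (M ≃ₐ[K] M) a :=
        (Subgroup.zpowers_le).mpr h1
      exact h2 hf
    · intro h a ha
      exact (IntermediateField.mem_fixedField_iff _ _).mp (h ha) τ (Subgroup.mem_zpowers τ)
  have hne : Nonempty ι := ⟨⟨⊥, inferInstance, by
    rw [hfix]; exact bot_le⟩⟩
  have hdir : IsDirectedOrder ι := ⟨fun L₁ L₂ => by
    have h1 := L₁.2.1
    have h2 := L₂.2.1
    refine ⟨⟨L₁.1 ⊔ L₂.1, IntermediateField.finiteDimensional_sup _ _, ?_⟩,
      show L₁.1 ≤ L₁.1 ⊔ L₂.1 from le_sup_left, show L₂.1 ≤ L₁.1 ⊔ L₂.1 from le_sup_right⟩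
    rw [hfix]
    exact sup_le ((hfix _).mp L₁.2.2) ((hfix _).mp L₂.2.2)⟩
  choose ψ hψ g hgfix hgW hgz using fun i : ι => hyp i.1 i.2.1 i.2.2
  let U : Ultrafilter ι := Ultrafilter.of Filter.atTop
  have hU : (U : Filter ι) ≤ Filter.atTop := Ultrafilter.of_le _
  -- eventually `ψ i (τ a) = ψ i a`
  have hev : ∀ a : M, ∀ᶠ i in (U : Filter ι), ψ i (τ a) = ψ i a := by
    intro a
    apply hU
    let N0 : IntermediateField K M := IntermediateField.adjoin K {a, z}
    have hN0 : FiniteDimensional K N0 := by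
      refine IntermediateField.finiteDimensional_adjoin ?_
      intro x _
      exact Algebra.IsIntegral.isIntegral x
    let N : IntermediateField K M := IntermediateField.normalClosure K N0 M
    have hNfd : FiniteDimensional K N := normalClosure.is_finiteDimensional K N0 M
    have hNgal : IsGalois K N := IsGalois.normalClosure K N0 M
    have hN0N : N0 ≤ N := N0.le_normalClosure
    have haN : a ∈ N := hN0N (IntermediateField.subset_adjoin K _ (by simp))
    have hzN : z ∈ N := hN0N (IntermediateField.subset_adjoin K _ (by simp))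
    have hm : ∃ m, ∀ b ∈ N, (τ ^ l ^ m) b = b := by
      obtain ⟨S, hS⟩ := (IntermediateField.essFiniteType_iff (K := N)).mp inferInstance
      choose n hn using hpro
      let m := S.sup n
      refine ⟨m, ?_⟩
      have h1 : ∀ x ∈ (S : Set M), (τ ^ l ^ m) • x = x := by
        intro x hx
        have h2 : n x ≤ m := Finset.le_sup (f := n) hx
        obtain ⟨d, hd⟩ := Nat.exists_eq_add_of_le h2
        have h3 : (τ ^ l ^ n x) ∈ MulAction.stabilizer (M ≃ₐ[K] M) x := hn x
        have h4 : τ ^ l ^ m = (τ ^ l ^ n x) ^ (l ^ d) := by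
          rw [← pow_mul, ← pow_add, hd]
        rw [h4]
        exact Subgroup.pow_mem _ h3 _
      intro b hb
      rw [← hS] at hb
      exact (IntermediateField.forall_mem_adjoin_smul_eq_self_iff K (S := (S : Set M))
        (τ ^ l ^ m)).mpr h1 b hb
    obtain ⟨m, hm⟩ := hm
    let i0 : ι := ⟨N ⊓ IntermediateField.fixedField (Subgroup.zpowers τ), by
      exact FiniteDimensional.of_injective
        (IntermediateField.inclusion (inf_le_left :
          N ⊓ IntermediateField.fixedField (Subgroup.zpowers τ) ≤ N)).toLinearMap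
        (fun x y hxy => Subtype.ext (congrArg (Subtype.val : N → M) hxy)), by
      rw [hfix]; exact inf_le_right⟩
    refine (Filter.eventually_ge_atTop i0).mono ?_
    intro i hi
    obtain ⟨t, ht⟩ := A2d_275.exists_zpow l hl τ (g i) N m hm z hzN hτl (by
      intro b hb hτb
      refine hgfix i b (hi ?_)
      refine ⟨hb, ?_⟩
      have h5 : IntermediateField.adjoin K {b} ≤
          IntermediateField.fixedField (Subgroup.zpowers τ) := by
        rw [IntermediateField.adjoin_simple_le_iff, IntermediateField.mem_fixedField_iff]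
        intro f hf
        have h1 : τ ∈ MulAction.stabilizer (M ≃ₐ[K] M) b := hτb
        exact ((Subgroup.zpowers_le).mpr h1) hf
      exact h5 (IntermediateField.mem_adjoin_simple_self K b)) (hgz i)
    rw [ht a haN]
    let D : Subgroup (M ≃ₐ[K] M) :=
      { carrier := {σ | ∀ b, ψ i (σ b) = ψ i b}
        mul_mem' := by
          intro x y hx hy b
          change ψ i (x (y b)) = ψ i b
          rw [hx, hy]
        one_mem' := fun b => rfl
        inv_mem' := by
          intro x hx b
          have h1 := hx (x⁻¹ b)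
          have h2 : x (x⁻¹ b) = b := AlgEquiv.apply_symm_apply x b
          rw [h2] at h1
          exact h1.symm }
    have hgD : g i ∈ D := hgW i
    exact (D.zpow_mem hgD t) a
  let Φ : M → ℝ≥0∞ := fun a => (U.map (fun i => ψ i a)).lim
  have hlim : ∀ a, Filter.Tendsto (fun i => ψ i a) U (𝓝 (Φ a)) := fun a =>
    Ultrafilter.le_nhds_lim (U.map (fun i => ψ i a))
  refine ⟨Φ, A2d_275.isPt_of_tendsto U ψ hψ Φ hlim, ?_⟩
  intro a
  refine tendsto_nhds_unique (hlim (τ a)) ((hlim a).congr' ?_)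
  filter_upwards [hev a] with i hi
  exact hi.symm

/-- If `z` is near `u` then `z ^ l / u ^ l` is near `1`. -/
lemma div_sub_one_lt {M : Type*} [Field M] (W : Valuation M ℝ≥0) {z u : M} (h : W (z - u) < W z)
    {l : ℕ} (hl : l ≠ 0) : u ≠ 0 ∧ W (z ^ l / u ^ l - 1) < 1 := by
  have hu0 : u ≠ 0 := by
    rintro rfl
    rw [sub_zero] at h
    exact lt_irrefl _ h
  have hWu : W u = W z := by
    have h1 : u = z - (z - u) := by ring
    have h2 : W (z - (z - u)) = W z := W.map_sub_eq_of_lt_left h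
    rw [← h1] at h2
    exact h2
  refine ⟨hu0, ?_⟩
  have h3 := A2d_275.pow_sub_pow_lt W h hl
  have h4 : z ^ l / u ^ l - 1 = (z ^ l - u ^ l) / u ^ l := by
    rw [sub_div, div_self (pow_ne_zero l hu0)]
  have h5 : 0 < W (u ^ l) := (Valuation.pos_iff W).mpr (pow_ne_zero l hu0)
  rw [h4, map_div₀, div_lt_one₀ h5, map_pow, hWu, ← map_pow]
  exact h3

/-- **Existence of a `τ`-fixed point** from bad points (norms or type 1) at every finite level. -/
theorem exists_tau_fixed_pt [CharZero k] (l : ℕ) (hl : l.Prime) (τ : PiGroup k K)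
    (hpro : ∀ a, ∃ n, (τ ^ l ^ n) a = a) (z : maxUnramified k K) (hz0 : z ≠ 0)
    (hτl : (τ ^ l) z = z) (hτz : τ (z ^ l) = z ^ l)
    (hyp : ∀ L : IntermediateField K (maxUnramified k K), FiniteDimensional K L →
      (∀ a ∈ L, τ a = a) → z ^ l ∈ L →
      ∃ L' : IntermediateField K (maxUnramified k K), L ≤ L' ∧ FiniteDimensional K L' ∧
        ∃ φ₀ : L' → ℝ≥0∞, IsPt p k L' φ₀ ∧
          ∀ h u : L', (h : maxUnramified k K) = z ^ l → u ≠ 0 → 1 ≤ φ₀ (h / u ^ l - 1)) :
    ∃ φ : maxUnramified k K → ℝ≥0∞, IsPt p k (maxUnramified k K) φ ∧ ∀ a, φ (τ a) = φ a := by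
  classical
  have hcharK : CharZero K := charZero_of_injective_algebraMap (algebraMap k K).injective
  have hcharR : CharZero (RatFunc k) :=
    charZero_of_injective_algebraMap (algebraMap k (RatFunc k)).injective
  have hgal : IsGalois K (maxUnramified k K) := isGalois_maxUnramified
  have halgC : Algebra.IsAlgebraic k (constField k K) := algebraicClosure.isAlgebraic _ _
  refine exists_tau_fixed_abs (p := p) (k := k) l hl τ hpro z hτl ?_
  intro L hLfd hLfix
  -- enlarge `L` by `z ^ l`
  let L₁ : IntermediateField K (maxUnramified k K) := L ⊔ IntermediateField.adjoin K {z ^ l}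
  have hfd1 : FiniteDimensional K (IntermediateField.adjoin K {z ^ l}) :=
    IntermediateField.adjoin.finiteDimensional (Algebra.IsIntegral.isIntegral _)
  have hfd2 : FiniteDimensional K L₁ := IntermediateField.finiteDimensional_sup _ _
  have hfix1 : ∀ a ∈ L₁, τ a = a := by
    have h1 : L₁ ≤ IntermediateField.fixedField (Subgroup.zpowers τ) := by
      refine sup_le ?_ ?_
      · intro a ha
        rw [IntermediateField.mem_fixedField_iff]
        intro f hf
        have h1 : τ ∈ MulAction.stabilizer (PiGroup k K) a := hLfix a ha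
        exact ((Subgroup.zpowers_le).mpr h1) hf
      · rw [IntermediateField.adjoin_simple_le_iff, IntermediateField.mem_fixedField_iff]
        intro f hf
        have h1 : τ ∈ MulAction.stabilizer (PiGroup k K) (z ^ l) := hτz
        exact ((Subgroup.zpowers_le).mpr h1) hf
    intro a ha
    exact (IntermediateField.mem_fixedField_iff _ _).mp (h1 ha) τ (Subgroup.mem_zpowers τ)
  have hmem1 : z ^ l ∈ L₁ :=
    (le_sup_right : _ ≤ L₁) (IntermediateField.mem_adjoin_simple_self K _)
  obtain ⟨L', hL', hfd', φ₀, hφ₀, hNP⟩ := hyp L₁ hfd2 hfix1 hmem1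
  have hLL' : L ≤ L' := le_sup_left.trans hL'
  let h' : L' := ⟨z ^ l, hL' hmem1⟩
  have hcharL : CharZero L' := charZero_of_injective_algebraMap (algebraMap K L').injective
  have hN : Normal L' (maxUnramified k K) := inferInstance
  have htow : IsScalarTower k L' (maxUnramified k K) := IsScalarTower.of_algebraMap_eq fun _ => rfl
  by_cases hfin : ∀ a, φ₀ a ≠ ∞
  · -- norm case
    let w := hφ₀.toValuation hfin
    have hw : ∀ c : ℚ_[p], w (algebraMap k L' (algebraMap ℚ_[p] k c)) = ‖c‖₊ := by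
      intro c
      apply ENNReal.coe_injective
      rw [hφ₀.coe_toValuation hfin, hφ₀.ext]
    have hnt : ∃ a : L', 1 < w a := by
      refine ⟨algebraMap k L' (algebraMap ℚ_[p] k ((p : ℚ_[p])⁻¹)), ?_⟩
      rw [hw, nnnorm_inv]
      have h1 := Padic.norm_p_lt_one (p := p)
      have h2 : ‖(p : ℚ_[p])‖₊ < 1 := by exact_mod_cast h1
      have h3 : 0 < ‖(p : ℚ_[p])‖₊ := by
        rw [nnnorm_pos]
        exact_mod_cast (Fact.out : p.Prime).ne_zero
      exact (one_lt_inv₀ h3).mpr h2
    obtain ⟨W, hWc, g, hg, hgz⟩ := A2d_275.exists_ext_aut w hnt z hz0 (by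
      intro W hW u
      by_contra hcon
      push Not at hcon
      obtain ⟨hu0, hlt⟩ := div_sub_one_lt W hcon hl.ne_zero
      have hu0' : u ≠ 0 := by
        rintro rfl
        exact hu0 (map_zero _)
      have h1 := hNP h' u rfl hu0'
      have h2 : W (z ^ l / (algebraMap L' (maxUnramified k K) u) ^ l - 1) = w (h' / u ^ l - 1) := by
        rw [← hW]; rfl
      rw [h2] at hlt
      rw [← hφ₀.coe_toValuation hfin] at h1
      exact absurd hlt (not_lt.mpr (by exact_mod_cast h1)))
    refine ⟨fun a => (W a : ℝ≥0∞), isPt_of_valuation W ?_, g.restrictScalars K, ?_, ?_, hgz⟩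
    · intro c
      have h1 : W (algebraMap L' (maxUnramified k K) (algebraMap k L' (algebraMap ℚ_[p] k c))) =
          w (algebraMap k L' (algebraMap ℚ_[p] k c)) := by
        rw [← hWc]; rfl
      rw [IsScalarTower.algebraMap_apply k L' (maxUnramified k K), h1, hw]
    · intro a ha
      exact g.commutes ⟨a, hLL' ha⟩
    · intro a
      change ((W (g a) : ℝ≥0) : ℝ≥0∞) = _
      rw [hg]
  · -- type 1 case
    push Not at hfin
    obtain ⟨a₀, ha₀⟩ := hfin
    let v := hφ₀.ring.valuation
    have hv1 : ∀ a, v a ≤ 1 ↔ φ₀ a ≠ ∞ := fun a => by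
      rw [ValuationSubring.valuation_le_one_iff]; rfl
    have hvlt : ∀ a, v a < 1 → φ₀ a = 0 := by
      intro a ha
      rcases eq_or_ne a 0 with rfl | ha0
      · exact hφ₀.map_zero
      have h1 : ¬ v a⁻¹ ≤ 1 := by
        rw [map_inv₀, not_le]
        exact (one_lt_inv₀ (zero_lt_iff.mpr ((Valuation.ne_zero_iff v).mpr ha0))).mpr ha
      rw [hv1, not_not, hφ₀.inv a ha0, ENNReal.inv_eq_top] at h1
      exact h1
    let _ : Algebra ℚ_[p] L' := ((algebraMap k L').comp (algebraMap ℚ_[p] k)).toAlgebra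
    have : IsScalarTower ℚ_[p] k L' := IsScalarTower.of_algebraMap_eq fun _ => rfl
    have hk_le : ∀ c : k, v (algebraMap k L' c) ≤ 1 := by
      intro c
      rw [hv1]
      refine hφ₀.ne_top_of_isIntegral ?_
      have h1 : IsIntegral ℚ_[p] c := Algebra.IsIntegral.isIntegral c
      exact h1.map (IsScalarTower.toAlgHom ℚ_[p] k L')
    have hk : ∀ c : k, c ≠ 0 → v (algebraMap k L' c) = 1 := by
      intro c hc
      refine le_antisymm (hk_le c) ?_
      have h1 := hk_le c⁻¹
      have h2 : v (algebraMap k L' c) ≠ 0 := by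
        rw [Valuation.ne_zero_iff, map_ne_zero]
        exact hc
      rw [map_inv₀, map_inv₀] at h1
      exact (inv_le_one₀ (zero_lt_iff.mpr h2)).mp h1
    have hnt : ∃ a : L', v a ≠ 0 ∧ v a ≠ 1 := by
      refine ⟨a₀, ?_, ?_⟩
      · intro h0
        have h1 : v a₀ ≤ 1 := by rw [h0]; exact zero_le_one
        exact (hv1 a₀).mp h1 ha₀
      · intro h0
        exact (hv1 a₀).mp h0.le ha₀
    have htR : IsScalarTower (RatFunc k) K L' := inferInstance
    have htK : IsScalarTower k (RatFunc k) L' := by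
      refine IsScalarTower.of_algebraMap_eq (fun x => ?_)
      rw [IsScalarTower.algebraMap_apply (RatFunc k) K L',
        ← IsScalarTower.algebraMap_apply k (RatFunc k) K, ← IsScalarTower.algebraMap_apply k K L']
    have hfR : FiniteDimensional (RatFunc k) L' := FiniteDimensional.trans (RatFunc k) K L'
    obtain ⟨PL, hPL⟩ := exists_place (k := k) (K := L') v hk hnt
    have hpl : IsPlace k (vR PL) := isPlace_vR PL
    have hequiv : (vR PL).IsEquiv v := (isEquiv_vR PL).symm.trans hPL
    have hnt1 : ∃ a : L', 1 < vR PL a := by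
      obtain ⟨a, h0, h1⟩ := hpl.2
      rcases lt_or_gt_of_ne h1 with h2 | h2
      · refine ⟨a⁻¹, ?_⟩
        rw [map_inv₀]
        exact (one_lt_inv₀ (pos_iff_ne_zero.mpr h0)).mpr h2
      · exact ⟨a, h2⟩
    obtain ⟨W, hWc, g, hg, hgz⟩ := A2d_275.exists_ext_aut (vR PL) hnt1 z hz0 (by
      intro W hW u
      by_contra hcon
      push Not at hcon
      obtain ⟨hu0, hlt⟩ := div_sub_one_lt W hcon hl.ne_zero
      have hu0' : u ≠ 0 := by
        rintro rfl
        exact hu0 (map_zero _)
      have h1 := hNP h' u rfl hu0'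
      have h2 : W (z ^ l / (algebraMap L' (maxUnramified k K) u) ^ l - 1) =
          vR PL (h' / u ^ l - 1) := by
        rw [← hW]; rfl
      rw [h2, hequiv.lt_one_iff_lt_one] at hlt
      rw [hvlt _ hlt] at h1
      exact absurd h1 (not_le.mpr zero_lt_one))
    have hplK : IsPlace k (W.comap (algebraMap K (maxUnramified k K))) := by
      have h1 : W.comap (algebraMap K (maxUnramified k K)) = (vR PL).comap (algebraMap K L') := by
        rw [← hWc]; rfl
      rw [h1]
      exact Unr3_957.isPlace_comap (F := K) hpl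
    have hgood : GoodPl k K W := goodPl_of_isPlace W hplK
    obtain ⟨W₀, hW₀⟩ := exists_W (p := p) (k := k) (L := constField k K)
    refine ⟨ptG W₀ W, ptG_isPt W₀ hW₀ hgood, g.restrictScalars K, ?_, ?_, hgz⟩
    · intro a ha
      exact g.commutes ⟨a, hLL' ha⟩
    · intro a
      exact ptG_inv W₀ hW₀ hgood (g.restrictScalars K) hg a

end final

end Crest.Agent.R013.A2e_275
end
end

-- ▼ part R013/AECtx_854
section

/-!
# Row 13, A-E: a function field over `k` is a function field over a subfield `k₀` with `[k : k₀]`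
finite.
-/

set_option autoImplicit false

noncomputable section

namespace Crest.Agent.R013.AECtx_854

open Polynomial Crest.Agent.R013.RR20_948
open scoped IntermediateField

variable {k₀ : Type*} (k : Type*) {L : Type*} [Field k₀] [Field k] [Algebra k₀ k] [FiniteDimensional k₀ k] [Field L]
  [Algebra k L] [Algebra k₀ L] [IsScalarTower k₀ k L] [Algebra (RatFunc k) L]
  [IsScalarTower k (RatFunc k) L] [FiniteDimensional (RatFunc k) L]

include k in
/-- The function field context over `k₀`. -/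
theorem exists_ctx : ∃ (_ : Algebra (RatFunc k₀) L), IsScalarTower k₀ (RatFunc k₀) L ∧
    FiniteDimensional (RatFunc k₀) L := by
  classical
  set y : L := algebraMap (RatFunc k) L RatFunc.X with hy
  have hyk : Transcendental k y := transcendental_xK (k := k) (K := L)
  have hy0 : Transcendental k₀ y := fun h => hyk (h.extendScalars (algebraMap k₀ k).injective)
  let alg : Algebra (RatFunc k₀) L := ratAlg y hy0
  have htow : IsScalarTower k₀ (RatFunc k₀) L := ratAlg_tower y hy0
  refine ⟨alg, htow, ?_⟩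
  have hX : algebraMap (RatFunc k₀) L RatFunc.X = y := ratHom_X y hy0
  let b := Module.finBasis k₀ k
  let S : Set L := Set.range fun i => algebraMap k L (b i)
  have hSfin : S.Finite := Set.finite_range _
  let B : IntermediateField (RatFunc k₀) L := IntermediateField.adjoin (RatFunc k₀) S
  have hB : FiniteDimensional (RatFunc k₀) B := by
    have := hSfin.to_subtype
    refine IntermediateField.finiteDimensional_adjoin ?_
    rintro _ ⟨i, rfl⟩
    have h1 : IsIntegral k₀ (b i) := Algebra.IsIntegral.isIntegral _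
    have h2 : IsIntegral k₀ (algebraMap k L (b i)) := h1.map (IsScalarTower.toAlgHom k₀ k L)
    exact h2.tower_top
  -- constants are in `B`
  have hk : ∀ c : k, algebraMap k L c ∈ B := by
    intro c
    rw [← b.sum_repr c, map_sum]
    refine sum_mem fun i _ => ?_
    rw [Algebra.smul_def, map_mul, ← IsScalarTower.algebraMap_apply k₀ k L,
      IsScalarTower.algebraMap_apply k₀ (RatFunc k₀) L]
    exact mul_mem (B.algebraMap_mem _) (IntermediateField.subset_adjoin _ _ ⟨i, rfl⟩)
  have hyB : y ∈ B := by rw [← hX]; exact B.algebraMap_mem _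
  have hpoly : ∀ f : k[X], algebraMap (RatFunc k) L (algebraMap k[X] (RatFunc k) f) ∈ B := by
    intro f
    induction f using Polynomial.induction_on' with
    | add f g hf hg => rw [map_add, map_add]; exact add_mem hf hg
    | monomial n c =>
      rw [← C_mul_X_pow_eq_monomial, map_mul, map_mul, map_pow, map_pow, RatFunc.algebraMap_X,
        RatFunc.algebraMap_C, ← RatFunc.algebraMap_eq_C,
        ← IsScalarTower.algebraMap_apply k (RatFunc k) L]
      exact mul_mem (hk c) (pow_mem hyB n)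
  have hrat : ∀ f : RatFunc k, algebraMap (RatFunc k) L f ∈ B := by
    intro f
    induction f using RatFunc.induction_on with
    | f P Q hQ => rw [map_div₀]; exact div_mem (hpoly P) (hpoly Q)
  -- `L` is finite over `B`
  have hLB : Module.Finite B L := by
    let e := Module.finBasis (RatFunc k) L
    refine ⟨⟨Finset.univ.image e, ?_⟩⟩
    rw [eq_top_iff]
    rintro x -
    rw [← e.sum_repr x]
    refine Submodule.sum_mem _ fun i _ => ?_
    have h1 : (e.repr x i) • e i = (⟨algebraMap (RatFunc k) L (e.repr x i), hrat _⟩ : B) • e i := by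
      rw [Algebra.smul_def, Algebra.smul_def]; rfl
    rw [h1]
    refine Submodule.smul_mem _ _ (Submodule.subset_span ?_)
    simp
  exact Module.Finite.trans B L

end Crest.Agent.R013.AECtx_854
end
end

-- ▼ part R013/AEAsm_854
section

/-!
# Row 13, task A-E: existence of a `τ`-fixed point (`ETau`), assembly.

`ONE` is the theorem of helpers 920 / 97 / 622: a class which is near an `l`-th power at every
point of `L` is a one-circle class.  With Lemma T (helper874) and the bridge of helper275 it gives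
`ETau`.
-/

set_option autoImplicit false
set_option linter.unusedVariables false

noncomputable section

namespace Crest.Agent.R013.AEAsm_854

open Crest.NumberTheoryR.Sect
open Crest.Agent.R013.Lift903 Crest.Agent.R013.Gl946 Crest.Agent.R013.LemT_874
  Crest.Agent.R013.A2b_275
open scoped NNReal ENNReal IntermediateField

/-- `h` is an `N`-th power on both sides of a circle of `ℚ_p(Y)`, `Y ∈ L`. -/
def OneCircle (p : ℕ) [Fact p.Prime] (L : Type) [Field L] [Algebra ℚ_[p] L] (N : ℕ) (h : L) :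
    Prop :=
  ∃ (F : Type) (_ : Field F) (_ : Algebra ℚ_[p] F) (_ : Algebra F L) (_ : IsScalarTower ℚ_[p] F L)
    (_ : FiniteDimensional F L) (E : Type) (_ : NormedField E) (_ : NormedAlgebra ℚ_[p] E)
    (_ : IsUltrametricDist E) (_ : CompleteSpace E) (_ : Algebra F E) (_ : IsScalarTower ℚ_[p] F E)
    (y : E) (hG : IsGauss ℚ_[p] y) (π : ℚ_[p]) (hπ : IsUnif π) (hd : DenseRat ℚ_[p] y)
    (hF : ∀ x : F, algebraMap F E x ∈ KY hG)
    (_ : ∀ z : E, z ∈ KY hG → z ∈ Set.range (algebraMap F E)),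
    NPow (algebraMap_mem_RU hG hF) N h ∧ NPow (algebraMap_mem_FP hG hπ hd hF) N h

/-- Theorem (ONE) over `ℚ_p`. -/
def ONE (p : ℕ) [Fact p.Prime] : Prop :=
  ∀ (L : Type) [Field L] [Algebra ℚ_[p] L] [Algebra (RatFunc ℚ_[p]) L]
    [IsScalarTower ℚ_[p] (RatFunc ℚ_[p]) L] [FiniteDimensional (RatFunc ℚ_[p]) L],
    ∀ (l : ℕ), l.Prime → l ≠ p → ∀ h : L, h ≠ 0 →
      (∀ φ : L → ℝ≥0∞, IsPt p ℚ_[p] L φ → ∃ u : L, u ≠ 0 ∧ φ (h / u ^ l - 1) < 1) →
      OneCircle p L l h

section main

variable {p : ℕ} [Fact p.Prime] {k : Type} [Field k] [Algebra ℚ_[p] k] [FiniteDimensional ℚ_[p] k]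
  {K : Type} [Field K] [Algebra k K] [Algebra (RatFunc k) K] [IsScalarTower k (RatFunc k) K]
  [FiniteDimensional (RatFunc k) K]

/-- Existence of a `τ`-fixed point, from (ONE) and the function field context over `ℚ_p`. -/
theorem etau_aux [CharZero k] [IsGalois k (constField k K)] (l : ℕ) (hl : l.Prime)
    (s : ConstGal k K →* PiGroup k K) (hs : IsSection k K s) {t : ConstGal k K}
    (ht : TameAt l t) (hpro : ∀ N : OpenNormalSubgroup (ConstGal k K), ∃ n : ℕ, t ^ (l ^ n) ∈ N)
    (z : constField k K) (hz0 : z ≠ 0) (c : k) (hzc : z ^ l = algebraMap k _ c) (htz : t z ≠ z)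
    (one : ∀ L : IntermediateField K (maxUnramified k K), FiniteDimensional K L →
      letI : Algebra ℚ_[p] L := ((algebraMap k L).comp (algebraMap ℚ_[p] k)).toAlgebra
      ∀ h : L, h ≠ 0 → (∀ φ : L → ℝ≥0∞, IsPt p k L φ → ∃ u : L, u ≠ 0 ∧ φ (h / u ^ l - 1) < 1) →
        OneCircle p L l h) :
    AAsm_349.ETau p s t := by
  classical
  -- the root of unity `ζ = t z / z`
  set ζ : constField k K := t z / z with hζ
  have htzl : (t z) ^ l = z ^ l := by
    rw [← map_pow, hzc, AlgEquiv.commutes]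
  have hζl : ζ ^ l = 1 := by
    rw [hζ, div_pow, htzl, div_self (pow_ne_zero _ hz0)]
  have hζ1 : ζ ≠ 1 := by
    intro h
    rw [hζ, div_eq_one_iff_eq hz0] at h
    exact htz h
  have htζ : t ζ = ζ := ht.mu 1 ζ (by rw [pow_one]; exact hζl)
  have htz' : t z = ζ * z := by rw [hζ, div_mul_cancel₀ _ hz0]
  have hpow : ∀ n : ℕ, (t ^ n) z = ζ ^ n * z := by
    intro n
    induction n with
    | zero => simp
    | succ n ih =>
      rw [pow_succ', AlgEquiv.mul_apply, ih, map_mul, map_pow, htζ, htz', pow_succ]; ring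
  have hspow : ∀ (n : ℕ) (a : constField k K),
      (s t ^ n) (a : maxUnramified k K) = (((t ^ n) a : constField k K) : maxUnramified k K) := by
    intro n a
    rw [← map_pow]
    exact hs.2 (t ^ n) a
  have hzM0 : (z : maxUnramified k K) ≠ 0 := by
    intro h
    exact hz0 (Subtype.ext h)
  have hzl : (z : maxUnramified k K) ^ l = algebraMap k (maxUnramified k K) c := by
    have := congrArg (Subtype.val : constField k K → maxUnramified k K) hzc
    exact this
  refine A2e_275.exists_tau_fixed_pt l hl (s t) ?_ (z : maxUnramified k K) hzM0 ?_ ?_ ?_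
  · -- pro-`l`
    intro a
    let U : Subgroup (ConstGal k K) := (MulAction.stabilizer (PiGroup k K) a).comap s
    have hU : IsOpen (U : Set (ConstGal k K)) := by
      have h1 : IsOpen ((MulAction.stabilizer (PiGroup k K) a : Subgroup (PiGroup k K)) :
          Set (PiGroup k K)) := stabilizer_isOpen_of_isIntegral (K := K) a
      exact h1.preimage hs.1
    obtain ⟨N, hN⟩ := Fp4_831.exists_openNormal_le U hU
    obtain ⟨n, hn⟩ := hpro N
    refine ⟨n, ?_⟩
    have h2 : t ^ (l ^ n) ∈ U := hN hn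
    have h3 : s (t ^ (l ^ n)) • a = a := h2
    rw [map_pow] at h3
    exact h3
  · rw [hspow, hpow, hζl, one_mul]
  · rw [hzl, IsScalarTower.algebraMap_apply k K (maxUnramified k K), AlgEquiv.commutes]
  · intro L hLfd hLfix hzL
    by_contra hcon
    push Not at hcon
    set ζM : maxUnramified k K := (ζ : maxUnramified k K) with hζM
    have hζMl : ζM ^ l = 1 := by
      have := congrArg (Subtype.val : constField k K → maxUnramified k K) hζl
      exact this
    have hζM1 : ζM ≠ 1 := fun h => hζ1 (Subtype.ext h)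
    let L₁ : IntermediateField K (maxUnramified k K) := L ⊔ IntermediateField.adjoin K {ζM}
    have hfd1 : FiniteDimensional K (IntermediateField.adjoin K {ζM}) :=
      IntermediateField.adjoin.finiteDimensional (Algebra.IsIntegral.isIntegral _)
    have hfd2 : FiniteDimensional K L₁ := IntermediateField.finiteDimensional_sup _ _
    have hfix1 : ∀ a ∈ L₁, s t a = a := by
      have h1 : L₁ ≤ IntermediateField.fixedField (Subgroup.zpowers (s t)) := by
        refine sup_le (fun a ha => ?_) ?_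
        · rw [IntermediateField.mem_fixedField_iff]
          rintro _ ⟨n, rfl⟩
          have h2 : s t • a = a := hLfix a ha
          have h3 : s t ∈ MulAction.stabilizer (PiGroup k K) a := h2
          exact (MulAction.stabilizer (PiGroup k K) a).zpow_mem h3 n
        · rw [IntermediateField.adjoin_le_iff]
          rintro _ rfl
          rw [SetLike.mem_coe, IntermediateField.mem_fixedField_iff]
          rintro _ ⟨n, rfl⟩
          have h2 : s t • ζM = ζM := by
            change s t (ζ : maxUnramified k K) = (ζ : maxUnramified k K)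
            rw [hs.2 t ζ, htζ]
          have h3 : s t ∈ MulAction.stabilizer (PiGroup k K) ζM := h2
          exact (MulAction.stabilizer (PiGroup k K) ζM).zpow_mem h3 n
      intro a ha
      exact (IntermediateField.mem_fixedField_iff _ _).mp (h1 ha) (s t) (Subgroup.mem_zpowers _)
    have hle : L ≤ L₁ := le_sup_left
    have hζL : ζM ∈ L₁ :=
      (le_sup_right : IntermediateField.adjoin K {ζM} ≤ L₁) (IntermediateField.mem_adjoin_simple_self K ζM)
    let h : L₁ := ⟨(z : maxUnramified k K) ^ l, hle hzL⟩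
    have hh0 : h ≠ 0 := by
      intro h1
      exact pow_ne_zero l hzM0 (congrArg Subtype.val h1)
    have hprim : IsPrimitiveRoot (⟨ζM, hζL⟩ : L₁) l := by
      have h1 : orderOf (⟨ζM, hζL⟩ : L₁) = l := by
        have : Fact l.Prime := ⟨hl⟩
        refine orderOf_eq_prime (Subtype.ext hζMl) fun h2 => hζM1 (congrArg Subtype.val h2)
      rw [← h1]
      exact IsPrimitiveRoot.orderOf _
    have hgood : ∀ φ : L₁ → ℝ≥0∞, IsPt p k L₁ φ → ∃ u : L₁, u ≠ 0 ∧ φ (h / u ^ l - 1) < 1 := by
      intro φ hφ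
      obtain ⟨h', u, h1, h2, h3⟩ := hcon L₁ hle hfd2 φ hφ
      have h4 : h' = h := Subtype.ext h1
      subst h4
      exact ⟨u, h2, h3⟩
    have hone := one L₁ hfd2 h hh0 hgood
    let alg : Algebra ℚ_[p] L₁ := ((algebraMap k L₁).comp (algebraMap ℚ_[p] k)).toAlgebra
    obtain ⟨F, _, _, _, hFt, _, E, _, _, _, _, _, _, y, hG, π, hπ, hd, hF, hF', n1, n2⟩ := hone
    have hκ : ∀ c : ℚ_[p], IsIntegral k (algebraMap F L₁ (algebraMap ℚ_[p] F c)) := by
      intro c
      rw [← IsScalarTower.algebraMap_apply ℚ_[p] F L₁]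
      exact isIntegral_algebraMap
    have hfin := lemT_maxUnramified (k := k) (K := K) hG hπ hd hl s hs ht L₁ hfix1 hprim hF hF' hκ
      hh0 n1 n2 (x := (z : maxUnramified k K)) rfl
    rw [hs.2 t z] at hfin
    exact htz (Subtype.ext hfin)

/-- **(E) of #2717.** Existence of a point of `M` fixed by `s t`. -/
theorem etau [CharZero k] [IsGalois k (constField k K)] (one : ONE p) (l : ℕ) (hl : l.Prime)
    (hlp : l ≠ p) (s : ConstGal k K →* PiGroup k K) (hs : IsSection k K s) {t : ConstGal k K}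
    (ht : TameAt l t) (hpro : ∀ N : OpenNormalSubgroup (ConstGal k K), ∃ n : ℕ, t ^ (l ^ n) ∈ N)
    (z : constField k K) (hz0 : z ≠ 0) (c : k) (hzc : z ^ l = algebraMap k _ c) (htz : t z ≠ z) :
    AAsm_349.ETau p s t := by
  refine etau_aux l hl s hs ht hpro z hz0 c hzc htz ?_
  intro L hfd h hh hyp
  let alg : Algebra ℚ_[p] L := ((algebraMap k L).comp (algebraMap ℚ_[p] k)).toAlgebra
  have htow : IsScalarTower ℚ_[p] k L := IsScalarTower.of_algebraMap_eq fun _ => rfl
  have h2 : IsScalarTower (RatFunc k) K L := inferInstance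
  have h1 : IsScalarTower k (RatFunc k) L := by
    refine IsScalarTower.of_algebraMap_eq fun c => ?_
    rw [IsScalarTower.algebraMap_apply (RatFunc k) K L,
      ← IsScalarTower.algebraMap_apply k (RatFunc k) K, ← IsScalarTower.algebraMap_apply k K L]
  have h3 : FiniteDimensional (RatFunc k) L := FiniteDimensional.trans (RatFunc k) K L
  obtain ⟨i1, i2, i3⟩ := AECtx_854.exists_ctx (k₀ := ℚ_[p]) k (L := L)
  refine one L l hl hlp h hh fun φ hφ => hyp φ ⟨hφ.add, hφ.mul, hφ.inv, fun c => ?_⟩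
  have := hφ.ext c
  exact this

end main

end Crest.Agent.R013.AEAsm_854
end
end

-- ▼ part R013/OneD_622

/-!
# (ONE) of row 13, part D: 854's statement `ONE p` from the P1 data
-/

set_option autoImplicit false

namespace Crest.Agent.R013.One_622

open Polynomial Gl946 Lift903 LemT_874 AEAsm_854 A2b_275
open scoped TensorProduct ENNReal

section Fin

variable {k K : Type*} [Field k] [Field K] [Algebra k K] [Algebra (RatFunc k) K]
  [IsScalarTower k (RatFunc k) K] [FiniteDimensional (RatFunc k) K]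

/-- `K / k(x)` is finite for every transcendental `x`. -/
theorem finite_adjoin (x : K) (hx : Transcendental k x) :
    FiniteDimensional (IntermediateField.adjoin k {x}) K := by
  have h := RR20_948.ratAlg_finite x hx
  let e : RatFunc k ≃ₐ[k] IntermediateField.adjoin k {x} := RatFunc.algEquivOfTranscendental x hx
  refine @Module.Finite.of_equiv_equiv (RatFunc k) K (IntermediateField.adjoin k {x}) K _ _ _ _
    (RR20_948.ratAlg x hx) _ e.toRingEquiv (RingEquiv.refl K) ?_ h
  have hpoly : ∀ f : k[X], ((e (algebraMap k[X] (RatFunc k) f) : IntermediateField.adjoin k {x}) :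
      K) = aeval x f := by
    intro f
    rw [RatFunc.algEquivOfTranscendental_algebraMap]
    simp
  have hpoly' : ∀ f : k[X], @algebraMap (RatFunc k) K _ _ (RR20_948.ratAlg x hx)
      (algebraMap k[X] (RatFunc k) f) = aeval x f := by
    intro f
    change RR20_948.ratHom x hx (algebraMap k[X] (RatFunc k) f) = _
    have h1 := RatFunc.liftAlgHom_apply_div (Polynomial.aeval x)
      (nonZeroDivisors_le_comap_nonZeroDivisors_of_injective _
        (transcendental_iff_injective.mp hx)) f (1 : k[X])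
    simp only [map_one, div_one] at h1
    exact h1
  ext z
  change ((e z : IntermediateField.adjoin k {x}) : K) =
    @algebraMap (RatFunc k) K _ _ (RR20_948.ratAlg x hx) z
  rw [← RatFunc.num_div_denom z, map_div₀, map_div₀, IntermediateField.coe_div, hpoly, hpoly,
    hpoly', hpoly']

end Fin

/-- **P1** of #3256 over `ℚ_p`. -/
def P1Stmt (p : ℕ) [Fact p.Prime] : Prop :=
  ∀ (L : Type) [Field L] [Algebra ℚ_[p] L] [Algebra (RatFunc ℚ_[p]) L]
    [IsScalarTower ℚ_[p] (RatFunc ℚ_[p]) L] [FiniteDimensional (RatFunc ℚ_[p]) L],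
    ∀ (l : ℕ), l.Prime → l ≠ p → ∀ h : L, h ≠ 0 →
      (∀ φ : L → ℝ≥0∞, IsPt p ℚ_[p] L φ → ∃ u : L, u ≠ 0 ∧ φ (h / u ^ l - 1) < 1) →
      ∃ (ι : Type) (s : Finset ι) (u : ι → L) (u₀ : L) (m : ℕ), P1 (isUnif_p p) s u h l u₀ m

theorem one_of_p1 {p : ℕ} [Fact p.Prime] (H : P1Stmt p) : ONE p := by
  intro L _ _ _ _ _ l hl hlp h h0 hloc
  obtain ⟨ι, s, u, u₀, m, P⟩ := H L l hl hlp h h0 hloc
  obtain ⟨F, E, i1, i2, i3, i4, j1, j2, j3, j4, j5, j6, j7, y, hG, hd, hF, hF', h1, h2⟩ :=
    one_p p hl hlp h0 P (fun x hx => finite_adjoin x hx)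
  exact ⟨F, j1, j4, j2, j6, j7, E, i1, i2, i3, i4, j3, j5, y, hG, (p : ℚ_[p]), isUnif_p p, hd, hF,
    hF', h1, h2⟩

end Crest.Agent.R013.One_622
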