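import Mathlib
import Crest.Agent.R013.RR19_948

-- ▼ part R013/RHP1_240
section

/-!
# R013 / RHP1: relative different exponents on charts, any characteristic (helper240)
-/

set_option autoImplicit false
set_option linter.all false

namespace Crest.Agent.R013.RHP_240

open Polynomial WithZero Module IsDedekindDomain nonZeroDivisors
open Crest.Agent.R013.RR1_948 Crest.Agent.R013.RR2_948 Crest.Agent.R013.RR3_948
open Crest.Agent.R013.RR4_948 Crest.Agent.R013.RR5_948 Crest.Agent.R013.RR6_948
open Crest.Agent.R013.RR16_948

attribute [local instance] FractionRing.liftAlgebra FractionRing.isScalarTower_liftAlgebra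

section Count

variable {O O' : Type*} [CommRing O] [IsDedekindDomain O] [CommRing O'] [IsDedekindDomain O']
  [Algebra O O'] [Module.IsTorsionFree O O']

theorem mem_pow_iff {O : Type*} [CommRing O] [IsDedekindDomain O] (w : HeightOneSpectrum O)
    (x : O) (n : ℕ) : x ∈ w.asIdeal ^ n ↔ w.intValuation x ≤ exp (-(n : ℤ)) := by
  rw [w.intValuation_le_pow_iff_mem]

/-- exponent of the extension of an ideal -/
theorem count_map (w : HeightOneSpectrum O) (w' : HeightOneSpectrum O') {e : ℕ}
    (hval : ∀ x : O, w'.intValuation (algebraMap O O' x) = w.intValuation x ^ e)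
    {I : Ideal O} (hI : I ≠ ⊥) :
    (Associates.mk w'.asIdeal).count (Associates.mk (I.map (algebraMap O O'))).factors =
      e * (Associates.mk w.asIdeal).count (Associates.mk I).factors := by
  classical
  set n := (Associates.mk w.asIdeal).count (Associates.mk I).factors with hn
  have hI0 : Associates.mk I ≠ 0 := Associates.mk_ne_zero.mpr hI
  have hirr := w.associates_irreducible
  have hirr' := w'.associates_irreducible
  have hmap0 : I.map (algebraMap O O') ≠ ⊥ := by
    rw [ne_eq, Ideal.map_eq_bot_iff_of_injective (FaithfulSMul.algebraMap_injective O O')]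
    exact hI
  have hmap0' : Associates.mk (I.map (algebraMap O O')) ≠ 0 := Associates.mk_ne_zero.mpr hmap0
  have h1 : w.asIdeal ^ n ∣ I := by
    rw [← Associates.mk_le_mk_iff_dvd, Associates.mk_pow, Associates.prime_pow_dvd_iff_le hI0 hirr]
  have h2 : ¬ w.asIdeal ^ (n + 1) ∣ I := by
    rw [← Associates.mk_le_mk_iff_dvd, Associates.mk_pow, Associates.prime_pow_dvd_iff_le hI0 hirr]
    omega
  have h3 : ¬ I ≤ w.asIdeal ^ (n + 1) := by rwa [← Ideal.dvd_iff_le]
  obtain ⟨a, haI, ha⟩ := Set.not_subset.mp h3
  have hale : w.intValuation a ≤ exp (-(n : ℤ)) :=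
    (mem_pow_iff w a n).mp (Ideal.dvd_iff_le.mp h1 haI)
  have hagt : exp (-((n + 1 : ℕ) : ℤ)) < w.intValuation a := by
    rw [← not_le]
    intro h
    exact ha ((mem_pow_iff w a (n + 1)).mpr h)
  have hane : w.intValuation a ≠ 0 := fun h => by
    rw [h] at hagt; exact not_lt.mpr zero_le hagt
  have hav : w.intValuation a = exp (-(n : ℤ)) := by
    rw [← exp_log hane] at hale hagt ⊢
    rw [exp_le_exp] at hale
    rw [exp_lt_exp] at hagt
    push_cast at hagt
    rw [exp_inj]
    omega
  have hle : w'.asIdeal ^ (e * n) ∣ I.map (algebraMap O O') := by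
    rw [Ideal.dvd_iff_le, Ideal.map_le_iff_le_comap]
    intro x hx
    rw [Ideal.mem_comap, mem_pow_iff, hval]
    have hxw : w.intValuation x ≤ exp (-(n : ℤ)) :=
      (mem_pow_iff w x n).mp (Ideal.dvd_iff_le.mp h1 hx)
    calc w.intValuation x ^ e ≤ exp (-(n : ℤ)) ^ e := pow_le_pow_left₀ zero_le hxw e
      _ = exp (-((e * n : ℕ) : ℤ)) := by
        rw [← exp_nsmul]; congr 1; push_cast; simp
  have hnle : ¬ w'.asIdeal ^ (e * n + 1) ∣ I.map (algebraMap O O') := by
    intro h
    have h4 := Ideal.dvd_iff_le.mp h (Ideal.mem_map_of_mem _ haI)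
    rw [mem_pow_iff, hval, hav, ← exp_nsmul, exp_le_exp] at h4
    push_cast at h4
    simp only [smul_neg, nsmul_eq_mul] at h4
    omega
  have h5 : e * n ≤ (Associates.mk w'.asIdeal).count
      (Associates.mk (I.map (algebraMap O O'))).factors := by
    rw [← Associates.prime_pow_dvd_iff_le hmap0' hirr', ← Associates.mk_pow,
      Associates.mk_le_mk_iff_dvd]
    exact hle
  have h6 : ¬ e * n + 1 ≤ (Associates.mk w'.asIdeal).count
      (Associates.mk (I.map (algebraMap O O'))).factors := by
    rw [← Associates.prime_pow_dvd_iff_le hmap0' hirr', ← Associates.mk_pow,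
      Associates.mk_le_mk_iff_dvd]
    exact hnle
  omega

end Count

section Exponent

variable (S F K L : Type*) {O O' : Type*} [CommRing S] [IsDomain S] [IsPrincipalIdealRing S]
  [Field F] [Algebra S F] [IsFractionRing S F]
  [Field K] [Algebra F K] [FiniteDimensional F K] [Algebra.IsSeparable F K] [Algebra S K]
  [IsScalarTower S F K]
  [CommRing O] [IsDedekindDomain O] [Algebra S O] [Algebra O K] [IsScalarTower S O K]
  [IsIntegralClosure O S K] [IsFractionRing O K]
  [Field L] [Algebra F L] [FiniteDimensional F L] [Algebra.IsSeparable F L] [Algebra S L]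
  [IsScalarTower S F L] [Algebra K L] [IsScalarTower F K L]
  [CommRing O'] [IsDedekindDomain O'] [Algebra S O'] [Algebra O' L] [IsScalarTower S O' L]
  [IsIntegralClosure O' S L] [IsFractionRing O' L]
  [Algebra O O'] [IsScalarTower S O O'] [Algebra O L] [IsScalarTower O O' L]
  [IsScalarTower O K L]

include F K in
theorem injective_S_O : Function.Injective (algebraMap S O) := by
  have h1 : Function.Injective (algebraMap S K) := by
    rw [IsScalarTower.algebraMap_eq S F K]
    exact (algebraMap F K).injective.comp (IsFractionRing.injective S F)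
  rw [IsScalarTower.algebraMap_eq S O K] at h1
  exact Function.Injective.of_comp h1

include K L in
theorem injective_O_O' : Function.Injective (algebraMap O O') := by
  have h1 : Function.Injective (algebraMap O L) := by
    rw [IsScalarTower.algebraMap_eq O K L]
    exact (algebraMap K L).injective.comp (IsFractionRing.injective O K)
  rw [IsScalarTower.algebraMap_eq O O' L] at h1
  exact Function.Injective.of_comp h1

include S F K L in
theorem setup : Module.IsTorsionFree S O ∧ Module.IsTorsionFree S O' ∧
    Module.IsTorsionFree O O' ∧ Module.Finite S O ∧ Module.Finite S O' ∧ Module.Finite O O' := by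
  haveI : FaithfulSMul S O :=
    (faithfulSMul_iff_algebraMap_injective S O).mpr (injective_S_O S F K)
  haveI : FaithfulSMul S O' :=
    (faithfulSMul_iff_algebraMap_injective S O').mpr (injective_S_O S F L)
  haveI : FaithfulSMul O O' :=
    (faithfulSMul_iff_algebraMap_injective O O').mpr (injective_O_O' K L)
  haveI h1 : Module.Finite S O := IsIntegralClosure.finite S F K O
  haveI h2 : Module.Finite S O' := IsIntegralClosure.finite S F L O'
  exact ⟨inferInstance, inferInstance, inferInstance, h1, h2,
    Module.Finite.of_restrictScalars_finite S O O'⟩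

theorem diffD_eq_count (w : HeightOneSpectrum O) [Module.IsTorsionFree S O]
    [Module.Finite S O] :
    diffD S F K O w =
      ((Associates.mk w.asIdeal).count (Associates.mk (differentIdeal S O)).factors : ℤ) := by
  haveI := isSeparable_fractionRing S F K O
  have hD0 : differentIdeal S O ≠ ⊥ := differentIdeal_ne_bot
  rw [diffD_apply, ← FractionalIdeal.count_inv, ← coeIdeal_differentIdeal S F K O,
    FractionalIdeal.count_coe K w hD0]

/-- transitivity of different exponents, with the lower bound `e - 1` -/
theorem exists_exponent (w : HeightOneSpectrum O) (w' : HeightOneSpectrum O') {e : ℕ}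
    (hval : ∀ x : O, w'.intValuation (algebraMap O O' x) = w.intValuation x ^ e)
    [Module.IsTorsionFree O O'] [Module.Finite O O'] :
    ∃ d : ℕ, diffD S F L O' w' = d + e * diffD S F K O w ∧ e - 1 ≤ d ∧
      (d = 0 ↔ ¬ w'.asIdeal ∣ differentIdeal O O') := by
  classical
  obtain ⟨i1, i2, _, i4, i5, _⟩ := setup S F K L (O := O) (O' := O')
  haveI := isSeparable_fractionRing S F K O
  haveI := isSeparable_fractionRing S F L O'
  haveI hsep : Algebra.IsSeparable (FractionRing O) (FractionRing O') :=
    Algebra.isSeparable_tower_top_of_isSeparable (FractionRing S) _ _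
  have hD0 : differentIdeal S O ≠ ⊥ := differentIdeal_ne_bot
  have hD0' : differentIdeal S O' ≠ ⊥ := differentIdeal_ne_bot
  have hR0 : differentIdeal O O' ≠ ⊥ := differentIdeal_ne_bot
  have hmap0 : (differentIdeal S O).map (algebraMap O O') ≠ ⊥ := by
    rw [ne_eq, Ideal.map_eq_bot_iff_of_injective (FaithfulSMul.algebraMap_injective O O')]
    exact hD0
  have hirr' := w'.associates_irreducible
  have htr : differentIdeal S O' =
      differentIdeal O O' * (differentIdeal S O).map (algebraMap O O') :=
    differentIdeal_eq_differentIdeal_mul_differentIdeal S O O'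
  have h3 : Associates.mk (differentIdeal O O') ≠ 0 := Associates.mk_ne_zero.mpr hR0
  have hcount : (Associates.mk w'.asIdeal).count (Associates.mk (differentIdeal S O')).factors =
      (Associates.mk w'.asIdeal).count (Associates.mk (differentIdeal O O')).factors +
      e * (Associates.mk w.asIdeal).count (Associates.mk (differentIdeal S O)).factors := by
    rw [htr, ← Associates.mk_mul_mk, Associates.count_mul h3 (Associates.mk_ne_zero.mpr hmap0) hirr',
      count_map w w' hval hD0]
  refine ⟨(Associates.mk w'.asIdeal).count (Associates.mk (differentIdeal O O')).factors, ?_, ?_, ?_⟩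
  · rw [diffD_eq_count S F L w', diffD_eq_count S F K w, hcount]
    push_cast
    ring
  · rw [← Associates.prime_pow_dvd_iff_le h3 hirr', ← Associates.mk_pow,
      Associates.mk_le_mk_iff_dvd]
    haveI : w.asIdeal.IsMaximal := w.isMaximal
    refine pow_sub_one_dvd_differentIdeal O w'.asIdeal e w.ne_bot ?_
    rw [Ideal.dvd_iff_le, Ideal.map_le_iff_le_comap]
    intro x hx
    rw [Ideal.mem_comap, mem_pow_iff, hval]
    have h4 : w.intValuation x ≤ exp (-((1 : ℕ) : ℤ)) := by
      rw [← mem_pow_iff, pow_one]; exact hx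
    calc w.intValuation x ^ e ≤ exp (-((1 : ℕ) : ℤ)) ^ e := pow_le_pow_left₀ zero_le h4 e
      _ = exp (-(e : ℤ)) := by rw [← exp_nsmul]; congr 1; simp
  · constructor
    · intro h0 hdvd
      have h4 : 1 ≤ (Associates.mk w'.asIdeal).count
          (Associates.mk (differentIdeal O O')).factors := by
        rw [← Associates.prime_pow_dvd_iff_le h3 hirr', pow_one, Associates.mk_le_mk_iff_dvd]
        exact hdvd
      omega
    · intro h
      by_contra h0
      have h4 : 1 ≤ (Associates.mk w'.asIdeal).count
          (Associates.mk (differentIdeal O O')).factors := by omega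
      rw [← Associates.prime_pow_dvd_iff_le h3 hirr', pow_one, Associates.mk_le_mk_iff_dvd] at h4
      exact h h4

/-- unramified (`e = 1`, separable residue extension): the different is trivial -/
theorem not_dvd_of_unramified {O O' : Type*} [CommRing O] [IsDedekindDomain O]
    [CommRing O'] [IsDedekindDomain O'] [Algebra O O']
    [Module.IsTorsionFree O O'] [Module.Finite O O']
    [Algebra.IsSeparable (FractionRing O) (FractionRing O')]
    (w : HeightOneSpectrum O) (w' : HeightOneSpectrum O')
    (hval : ∀ x : O, w'.intValuation (algebraMap O O' x) = w.intValuation x)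
    [w'.asIdeal.LiesOver w.asIdeal]
    [Algebra.IsSeparable (O ⧸ w.asIdeal) (O' ⧸ w'.asIdeal)] :
    ¬ w'.asIdeal ∣ differentIdeal O O' := by
  classical
  haveI : w.asIdeal.IsMaximal := w.isMaximal
  haveI : w'.asIdeal.IsMaximal := w'.isMaximal
  obtain ⟨Q, hQ⟩ : w'.asIdeal ∣ w.asIdeal.map (algebraMap O O') := by
    rw [Ideal.dvd_iff_le, Ideal.map_le_iff_le_comap]
    intro x hx
    rw [Ideal.mem_comap, ← pow_one w'.asIdeal, mem_pow_iff, hval, ← mem_pow_iff, pow_one]
    exact hx
  have h2 : ¬ w'.asIdeal ^ 2 ∣ w.asIdeal.map (algebraMap O O') := by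
    intro h
    have h3 : ¬ w.asIdeal ≤ w.asIdeal ^ 2 := by
      intro h4
      have h5 := w.isMaximal
      have h6 : w.asIdeal = w.asIdeal ^ 2 := le_antisymm h4 (Ideal.pow_le_self two_ne_zero)
      have h7 : w.asIdeal * 1 = w.asIdeal * w.asIdeal := by rw [mul_one, ← pow_two]; exact h6
      have h8 := mul_left_cancel₀ w.ne_bot h7
      exact h5.ne_top (by rw [← h8]; exact Ideal.one_eq_top)
    obtain ⟨a, haI, ha⟩ := Set.not_subset.mp h3
    apply ha
    have h4 := Ideal.dvd_iff_le.mp h (Ideal.mem_map_of_mem _ haI)
    rw [mem_pow_iff, hval, ← mem_pow_iff] at h4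
    exact h4
  have hQw : ¬ w'.asIdeal ∣ Q := by
    rintro ⟨Q', rfl⟩
    apply h2
    rw [hQ, pow_two, ← mul_assoc]
    exact dvd_mul_right _ _
  have hcop : IsCoprime w'.asIdeal Q := by
    rw [Ideal.isCoprime_iff_sup_eq]
    by_contra hne
    have h := w'.isMaximal.eq_of_le hne le_sup_left
    apply hQw
    rw [Ideal.dvd_iff_le, h]
    exact le_sup_right
  exact not_dvd_differentIdeal_of_isCoprime_of_isSeparable O w'.asIdeal Q hcop hQ.symm

end Exponent

end Crest.Agent.R013.RHP_240
end

-- ▼ part R013/RHP2_240

/-!
# R013 / RHP2: Riemann-Hurwitz in any characteristic (helper240)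
-/

set_option autoImplicit false
set_option linter.all false

namespace Crest.Agent.R013.RHP_240

open Polynomial WithZero Module IsDedekindDomain nonZeroDivisors
open Crest.Agent.R013.RR1_948 Crest.Agent.R013.RR2_948 Crest.Agent.R013.RR3_948
open Crest.Agent.R013.RR4_948 Crest.Agent.R013.RR5_948 Crest.Agent.R013.RR6_948
open Crest.Agent.R013.RR7_948 Crest.Agent.R013.RR8_948 Crest.Agent.R013.RR9_948
open Crest.Agent.R013.RR10_948
open Crest.Agent.R013.RR11_948 Crest.Agent.R013.RR12_948 Crest.Agent.R013.RR13_948
open Crest.Agent.R013.RR14_948 Crest.Agent.R013.RR15_948 Crest.Agent.R013.RR16_948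
open Crest.Agent.R013.RR17_948 Crest.Agent.R013.RR18_948 Crest.Agent.R013.RR19_948

attribute [local instance] FractionRing.liftAlgebra FractionRing.isScalarTower_liftAlgebra

section Local

variable {k : Type*} [Field k] {K : Type*} [Field K] [Algebra k K] [Algebra (RatFunc k) K]
  [IsScalarTower k (RatFunc k) K] [FiniteDimensional (RatFunc k) K]
  [Algebra.IsSeparable (RatFunc k) K]
  {L : Type*} [Field L] [Algebra k L] [Algebra K L] [IsScalarTower k K L]
  [FiniteDimensional K L] [Algebra.IsSeparable K L]
  [Algebra (RatFunc k) L] [IsScalarTower k (RatFunc k) L] [FiniteDimensional (RatFunc k) L]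
  [Algebra.IsSeparable (RatFunc k) L] [IsScalarTower (RatFunc k) K L]

/-- the local statement on a chart -/
theorem chart_aux (S : Type*) {O O' : Type*} [CommRing S] [IsDomain S] [IsPrincipalIdealRing S]
    [Algebra S (RatFunc k)] [IsFractionRing S (RatFunc k)]
    [Algebra S K] [IsScalarTower S (RatFunc k) K]
    [CommRing O] [IsDedekindDomain O] [Algebra S O] [Algebra O K] [IsScalarTower S O K]
    [IsIntegralClosure O S K] [IsFractionRing O K]
    [Algebra S L] [IsScalarTower S (RatFunc k) L]
    [CommRing O'] [IsDedekindDomain O'] [Algebra S O'] [Algebra O' L] [IsScalarTower S O' L]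
    [IsIntegralClosure O' S L] [IsFractionRing O' L]
    [Algebra O O'] [IsScalarTower S O O'] [Algebra O L] [IsScalarTower O O' L]
    [IsScalarTower O K L]
    [Algebra k O] [IsScalarTower k O K] [Algebra k O'] [IsScalarTower k O' L]
    (w : HeightOneSpectrum O) (w' : HeightOneSpectrum O')
    (hu : under K (ofH w' : Pl k L) = ofH w) :
    ∃ d : ℕ, diffD S (RatFunc k) L O' w' =
        d + eR K (ofH w' : Pl k L) * diffD S (RatFunc k) K O w ∧
      eR K (ofH w' : Pl k L) - 1 ≤ d ∧
      (PerfectField k → (d = 0 ↔ eR K (ofH w' : Pl k L) = 1)) := by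
  classical
  obtain ⟨i1, i2, i3, i4, i5, i6⟩ := setup S (RatFunc k) K L (O := O) (O' := O')
  have hval : ∀ x : O, w'.intValuation (algebraMap O O' x) =
      w.intValuation x ^ eR K (ofH w' : Pl k L) := by
    intro x
    have h1 := v_algebraMap (ofH w' : Pl k L) (algebraMap O K x)
    rw [hu] at h1
    have h2 : (ofH w : Pl k K).v (algebraMap O K x) = w.intValuation x :=
      HeightOneSpectrum.valuation_of_algebraMap w x
    have h3 : (ofH w' : Pl k L).v (algebraMap K L (algebraMap O K x)) =
        w'.intValuation (algebraMap O O' x) := by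
      rw [← IsScalarTower.algebraMap_apply O K L, IsScalarTower.algebraMap_apply O O' L]
      exact HeightOneSpectrum.valuation_of_algebraMap w' _
    rw [← h2, ← h3]
    exact h1
  obtain ⟨d, hd, hd1, hd2⟩ := exists_exponent S (RatFunc k) K L w w' hval
  refine ⟨d, hd, hd1, fun hp => ?_⟩
  constructor
  · intro h0
    have := eR_pos (K := K) (ofH w' : Pl k L)
    omega
  · intro h1
    rw [hd2]
    have hval' : ∀ x : O, w'.intValuation (algebraMap O O' x) = w.intValuation x := by
      intro x; rw [hval, h1, pow_one]
    haveI hlies : w'.asIdeal.LiesOver w.asIdeal := by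
      constructor
      ext x
      rw [Ideal.mem_comap, ← pow_one w.asIdeal, ← pow_one w'.asIdeal, mem_pow_iff, mem_pow_iff,
        hval']
    haveI := isSeparable_fractionRing S (RatFunc k) K O
    haveI := isSeparable_fractionRing S (RatFunc k) L O'
    haveI hsep : Algebra.IsSeparable (FractionRing O) (FractionRing O') :=
      Algebra.isSeparable_tower_top_of_isSeparable (FractionRing S) _ _
    haveI : w.asIdeal.IsMaximal := w.isMaximal
    haveI : w'.asIdeal.IsMaximal := w'.isMaximal
    haveI htow : IsScalarTower k O O' := by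
      refine IsScalarTower.of_algebraMap_eq fun c => ?_
      apply IsFractionRing.injective O' L
      rw [← IsScalarTower.algebraMap_apply O O' L, IsScalarTower.algebraMap_apply O K L,
        ← IsScalarTower.algebraMap_apply k O K, ← IsScalarTower.algebraMap_apply k K L,
        ← IsScalarTower.algebraMap_apply k O' L]
    letI : Field (O ⧸ w.asIdeal) := Ideal.Quotient.field _
    letI : Field (O' ⧸ w'.asIdeal) := Ideal.Quotient.field _
    haveI hfin : Module.Finite k (O ⧸ w.asIdeal) := by
      have h2 := degE_ofH (k := k) (K := K) w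
      rw [RR11_948.degE_eq] at h2
      exact (finite_of_length h2.symm).1
    haveI hfin' : Module.Finite k (O' ⧸ w'.asIdeal) := by
      have h2 := degE_ofH (k := k) (K := L) w'
      rw [RR11_948.degE_eq] at h2
      exact (finite_of_length h2.symm).1
    haveI : IsScalarTower k (O ⧸ w.asIdeal) (O' ⧸ w'.asIdeal) := by
      refine IsScalarTower.of_algebraMap_eq fun c => ?_
      have h2 : algebraMap k (O ⧸ w.asIdeal) c = Ideal.Quotient.mk _ (algebraMap k O c) := rfl
      have h3 : algebraMap k (O' ⧸ w'.asIdeal) c = Ideal.Quotient.mk _ (algebraMap k O' c) := rfl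
      rw [h2, h3, Ideal.Quotient.algebraMap_mk_of_liesOver,
        ← IsScalarTower.algebraMap_apply k O O']
    haveI : Algebra.IsAlgebraic k (O ⧸ w.asIdeal) := Algebra.IsAlgebraic.of_finite _ _
    haveI : PerfectField (O ⧸ w.asIdeal) := Algebra.IsAlgebraic.perfectField (K := k)
    haveI : Algebra.IsAlgebraic k (O' ⧸ w'.asIdeal) := Algebra.IsAlgebraic.of_finite _ _
    haveI : Algebra.IsAlgebraic (O ⧸ w.asIdeal) (O' ⧸ w'.asIdeal) :=
      Algebra.IsAlgebraic.tower_top (K := k) _
    haveI : Algebra.IsSeparable (O ⧸ w.asIdeal) (O' ⧸ w'.asIdeal) := inferInstance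
    exact not_dvd_of_unramified w w' hval'

/-- the algebra structure between integral closures -/
@[reducible] noncomputable def algOO (S K L : Type*) [CommRing S] [Field K] [Field L] [Algebra S K]
    [Algebra S L] [Algebra K L] [IsScalarTower S K L] :
    Algebra (integralClosure S K) (integralClosure S L) :=
  (((algebraMap K L).comp (algebraMap (integralClosure S K) K)).codRestrict (integralClosure S L)
    (fun x => by
      have h : IsIntegral S (x : K) := (mem_integralClosure_iff S K).mp x.2
      have h2 : IsIntegral S (algebraMap K L (x : K)) := h.algebraMap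
      exact (mem_integralClosure_iff S L).mpr h2)).toAlgebra

theorem ramD_aux (Q : Pl k L) : ∃ d : ℕ, ramD k K L Q = d ∧ eR K Q - 1 ≤ d ∧
    (PerfectField k → (d = 0 ↔ eR K Q = 1)) := by
  use_charts k, K
  use_charts k, L
  have hcanK : canD k K = WD k K (integralClosure (Polynomial k) K)
    (integralClosure (Rinf k) K) := rfl
  have hcanL : canD k L = WD k L (integralClosure (Polynomial k) L)
    (integralClosure (Rinf k) L) := rfl
  haveI t1 : IsScalarTower k[X] K L := IsScalarTower.of_algebraMap_eq fun x =>
    IsScalarTower.algebraMap_apply (RatFunc k) K L _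
  haveI t2 : IsScalarTower (Rinf k) K L := IsScalarTower.of_algebraMap_eq fun x =>
    IsScalarTower.algebraMap_apply (RatFunc k) K L _
  have hram : ramD k K L Q = canD k L Q - eR K Q * canD k K (under K Q) := by
    unfold ramD
    rw [Finsupp.sub_apply, con_apply]
  rcases le_or_gt (Q.v (xK k L)) 1 with h | h
  · obtain ⟨w', rfl⟩ := exists_ofH₀ (A₀ := integralClosure (Polynomial k) L) Q h
    have hP : (under K (ofH w' : Pl k L)).v (xK k K) ≤ 1 := by
      rw [under_le_one_iff, algebraMap_xK]; exact h
    obtain ⟨w, hw⟩ := exists_ofH₀ (A₀ := integralClosure (Polynomial k) K)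
      (under K (ofH w' : Pl k L)) hP
    letI := algOO k[X] K L
    haveI : IsScalarTower k[X] (integralClosure k[X] K) (integralClosure k[X] L) :=
      IsScalarTower.of_algebraMap_eq fun x => Subtype.ext
        (IsScalarTower.algebraMap_apply k[X] K L x)
    haveI : IsScalarTower (integralClosure k[X] K) (integralClosure k[X] L) L :=
      IsScalarTower.of_algebraMap_eq fun x => rfl
    obtain ⟨d, hd, hd1, hd2⟩ := chart_aux (k := k) (K := K) (L := L) k[X] w w' hw.symm
    refine ⟨d, ?_, hd1, hd2⟩
    rw [hram, hcanL, hcanK, ← hw, WD_ofH₀, WD_ofH₀, hd]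
    ring
  · obtain ⟨w', rfl⟩ := exists_ofH₁ (A₁ := integralClosure (Rinf k) L) Q h
    have hP : 1 < (under K (ofH w' : Pl k L)).v (xK k K) := by
      rw [← not_le, under_le_one_iff, algebraMap_xK, not_le]; exact h
    obtain ⟨w, hw⟩ := exists_ofH₁ (A₁ := integralClosure (Rinf k) K)
      (under K (ofH w' : Pl k L)) hP
    letI := algOO (Rinf k) K L
    haveI : IsScalarTower (Rinf k) (integralClosure (Rinf k) K) (integralClosure (Rinf k) L) :=
      IsScalarTower.of_algebraMap_eq fun x => Subtype.ext
        (IsScalarTower.algebraMap_apply (Rinf k) K L x)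
    haveI : IsScalarTower (integralClosure (Rinf k) K) (integralClosure (Rinf k) L) L :=
      IsScalarTower.of_algebraMap_eq fun x => rfl
    obtain ⟨d, hd, hd1, hd2⟩ := chart_aux (k := k) (K := K) (L := L) (Rinf k) w w' hw.symm
    refine ⟨d, ?_, hd1, hd2⟩
    have hpole : poleX k L (integralClosure (Rinf k) L) w' =
        eR K (ofH w' : Pl k L) * poleX k K (integralClosure (Rinf k) K) w := by
      have h1 := poleX_spec (k := k) (K := L) (integralClosure (Rinf k) L) w'
      have h2 := poleX_spec (k := k) (K := K) (integralClosure (Rinf k) K) w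
      rw [hw] at h2
      have h3 := v_algebraMap_exp (K := K) (ofH w' : Pl k L) h2
      rw [algebraMap_xK, h1, exp_inj] at h3
      exact h3
    rw [hram, hcanL, hcanK, ← hw, WD_ofH₁, WD_ofH₁, hd, hpole]
    ring


theorem ramD_nonneg (Q : Pl k L) : 0 ≤ ramD k K L Q := by
  obtain ⟨d, hd, _, _⟩ := ramD_aux (K := K) Q
  rw [hd]
  exact Nat.cast_nonneg d


theorem degD_ramD_nonneg : 0 ≤ degD (ramD k K L) := by
  unfold degD
  exact Finset.sum_nonneg fun Q _ => mul_nonneg (ramD_nonneg Q) (Nat.cast_nonneg _)


/-- **Riemann-Hurwitz inequality**, any characteristic, `L/K` separable -/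
theorem hurwitz_ge (hcK : algebraicClosure k K = ⊥) (hcL : algebraicClosure k L = ⊥) :
    finrank K L * (2 * (gen k K : ℤ) - 2) ≤ 2 * (gen k L : ℤ) - 2 := by
  rw [hurwitz (K := K) hcK hcL]
  have := degD_ramD_nonneg (k := k) (K := K) (L := L)
  linarith


theorem gen_le (hcK : algebraicClosure k K = ⊥) (hcL : algebraicClosure k L = ⊥) :
    gen k K ≤ gen k L := by
  rcases Nat.eq_zero_or_pos (gen k K) with h0 | h0
  · omega
  · have h1 := hurwitz_ge (L := L) hcK hcL
    have h2 : 1 ≤ finrank K L := Module.finrank_pos
    have h3 : (0 : ℤ) ≤ 2 * (gen k K : ℤ) - 2 := by omega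
    have h4 : (2 * (gen k K : ℤ) - 2) ≤ finrank K L * (2 * (gen k K : ℤ) - 2) := by
      have : (1 : ℤ) ≤ finrank K L := by exact_mod_cast h2
      nlinarith
    omega


end Local

end Crest.Agent.R013.RHP_240
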