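import Crest.Agent.R013.A2a_275
import Crest.Agent.R013.Gl2_946
import Crest.Prelude.Def_SectConj
import Crest.Agent.R013.Good3_940
import Crest.Agent.R013.CGood_588

-- ▼ part R013/Set1_803
section

/-!
# Row 13, B-SET, part 1: the normed field of constants

`v : Valuation Ω ℝ≥0` extends the `p`-adic norm, `C` an intermediate field of `Ω / k`, finite over
`k` (finite over `ℚ_p`).  `nnfld v C h` is the normed field structure on `C` induced by `v`; it is
ultrametric, complete and discretely valued.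
-/

set_option autoImplicit false
set_option linter.unusedSectionVars false
set_option linter.style.haveILetI false

noncomputable section

namespace Crest.Agent.R013.Set_803

open scoped NNReal Topology
open Filter Crest.NumberTheoryR.Sect Crest.Agent.R013.A2a_275 Crest.Agent.R013.Gl946

variable {k : Type*} [Field k] {Ω : Type*} [Field Ω] [Algebra k Ω]

/-- the embedding of `C` in the completion of `Ω` -/
def cEmb (v : Valuation Ω ℝ≥0) (C : IntermediateField k Ω) : C →+* Cpl v :=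
  (toCpl v).comp C.val.toRingHom

theorem cEmb_apply (v : Valuation Ω ℝ≥0) (C : IntermediateField k Ω) (c : C) :
    cEmb v C c = toCpl v (c : Ω) := rfl

/-- The norm on `C` given by `v`. -/
@[reducible] def nfld (v : Valuation Ω ℝ≥0) (C : IntermediateField k Ω) : NormedField C :=
  NormedField.induced C (Cpl v) (cEmb v C) (cEmb v C).injective

theorem nfld_norm (v : Valuation Ω ℝ≥0) (C : IntermediateField k Ω) (c : C) :
    (nfld v C).norm c = v (c : Ω) := by
  change ‖cEmb v C c‖ = _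
  rw [cEmb_apply, norm_toCpl]

/-- The norm on `C` given by `v`, nontrivial. -/
@[reducible] def nnfld (v : Valuation Ω ℝ≥0) (C : IntermediateField k Ω)
    (h : ∃ c ∈ C, 1 < v c) : NontriviallyNormedField C :=
  { nfld v C with
    non_trivial := by
      obtain ⟨c, hc, h1⟩ := h
      refine ⟨⟨c, hc⟩, ?_⟩
      rw [nfld_norm]
      exact_mod_cast h1 }

theorem ultra_nfld (v : Valuation Ω ℝ≥0) (C : IntermediateField k Ω) :
    @IsUltrametricDist C (nfld v C).toPseudoMetricSpace.toDist := by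
  letI := nfld v C
  refine IsUltrametricDist.isUltrametricDist_of_forall_norm_add_le_max_norm ?_
  intro x y
  rw [nfld_norm v C, nfld_norm v C, nfld_norm v C]
  have := v.map_add (x : Ω) (y : Ω)
  rw [← NNReal.coe_max]
  exact_mod_cast this

/-- `Cpl v` as a normed algebra over `C`. -/
@[reducible] def nalg0 (v : Valuation Ω ℝ≥0) (C : IntermediateField k Ω) :
    letI := nfld v C; NormedAlgebra C (Cpl v) :=
  letI := nfld v C
  { (cEmb v C).toAlgebra with
    norm_smul_le := fun a x => by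
      change ‖cEmb v C a * x‖ ≤ _
      rw [norm_mul, cEmb_apply, norm_toCpl, nfld_norm v C] }

section

variable (v : Valuation Ω ℝ≥0) (C : IntermediateField k Ω) (h : ∃ c ∈ C, 1 < v c)

theorem norm_eq (c : C) : (nnfld v C h).norm c = v (c : Ω) := nfld_norm v C c

theorem ultra : @IsUltrametricDist C (nnfld v C h).toPseudoMetricSpace.toDist := ultra_nfld v C

end

section Padic

variable {p : ℕ} [hp : Fact p.Prime] [Algebra ℚ_[p] k] {v : Valuation Ω ℝ≥0}

theorem val_p (hv : ExtendsPadicNorm k Ω p v) : v (p : Ω) = (p : ℝ≥0)⁻¹ := by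
  have h1 := hv (p : ℚ_[p])
  rw [map_natCast, map_natCast] at h1
  rw [h1]
  ext
  rw [coe_nnnorm, Padic.norm_p, NNReal.coe_inv, NNReal.coe_natCast]

theorem exists_gt (hv : ExtendsPadicNorm k Ω p v) (C : IntermediateField k Ω) :
    ∃ c ∈ C, 1 < v c := by
  refine ⟨(p : Ω)⁻¹, C.inv_mem (natCast_mem C p), ?_⟩
  rw [map_inv₀, val_p hv, inv_inv]
  exact_mod_cast hp.out.one_lt

/-- The norm on `C`. -/
@[reducible] def nC (hv : ExtendsPadicNorm k Ω p v) (C : IntermediateField k Ω) :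
    NontriviallyNormedField C := nnfld v C (exists_gt hv C)

theorem norm_nC (hv : ExtendsPadicNorm k Ω p v) (C : IntermediateField k Ω) (c : C) :
    (nC hv C).norm c = v (c : Ω) := norm_eq v C _ c

theorem ultra_nC (hv : ExtendsPadicNorm k Ω p v) (C : IntermediateField k Ω) :
    @IsUltrametricDist C (nC hv C).toPseudoMetricSpace.toDist := ultra v C _

/-- `C` as a `ℚ_p`-algebra -/
@[reducible] def algQ (p : ℕ) [Fact p.Prime] [Algebra ℚ_[p] k] (C : IntermediateField k Ω) :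
    Algebra ℚ_[p] C := ((algebraMap k C).comp (algebraMap ℚ_[p] k)).toAlgebra

theorem fd_algQ [FiniteDimensional ℚ_[p] k] (C : IntermediateField k Ω) [FiniteDimensional k C] :
    letI := algQ p C; FiniteDimensional ℚ_[p] C := by
  letI := algQ p C
  haveI : IsScalarTower ℚ_[p] k C := IsScalarTower.of_algebraMap_eq fun _ => rfl
  exact FiniteDimensional.trans ℚ_[p] k C

/-- `C` as a normed algebra over `ℚ_p` -/
@[reducible] def nalgQ (hv : ExtendsPadicNorm k Ω p v) (C : IntermediateField k Ω) :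
    letI := nC hv C; NormedAlgebra ℚ_[p] C :=
  letI := nC hv C
  { algQ p C with
    norm_smul_le := fun a x => by
      change ‖(algebraMap k C) (algebraMap ℚ_[p] k a) * x‖ ≤ _
      rw [norm_mul]
      refine le_of_eq ?_
      congr 1
      rw [norm_nC hv C]
      have h1 := hv a
      have h2 : (((algebraMap k C) (algebraMap ℚ_[p] k a) : C) : Ω) =
          algebraMap k Ω (algebraMap ℚ_[p] k a) := rfl
      rw [h2, h1]
      rfl }

theorem proper_nC [FiniteDimensional ℚ_[p] k] (hv : ExtendsPadicNorm k Ω p v)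
    (C : IntermediateField k Ω) [FiniteDimensional k C] :
    @ProperSpace C (nC hv C).toPseudoMetricSpace := by
  letI := nC hv C
  letI := nalgQ hv C
  haveI : FiniteDimensional ℚ_[p] C := fd_algQ C
  exact FiniteDimensional.proper ℚ_[p] C

theorem complete_nC [FiniteDimensional ℚ_[p] k] (hv : ExtendsPadicNorm k Ω p v)
    (C : IntermediateField k Ω) [FiniteDimensional k C] :
    @CompleteSpace C (nC hv C).toPseudoMetricSpace.toUniformSpace := by
  letI := nC hv C
  haveI := proper_nC hv C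
  infer_instance

theorem norm_p_lt (hv : ExtendsPadicNorm k Ω p v) (C : IntermediateField k Ω) :
    (nC hv C).norm (p : C) < 1 := by
  rw [norm_nC hv C]
  have h2 : ((p : C) : Ω) = (p : Ω) := by simp
  rw [h2, val_p hv, NNReal.coe_inv, NNReal.coe_natCast]
  exact inv_lt_one_of_one_lt₀ (by exact_mod_cast hp.out.one_lt)

/-- a uniformiser of `C` -/
theorem exists_unif [FiniteDimensional ℚ_[p] k] (hv : ExtendsPadicNorm k Ω p v)
    (C : IntermediateField k Ω) [FiniteDimensional k C] :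
    letI := nC hv C; ∃ π₀ : C, IsUnif π₀ := by
  letI := nC hv C
  haveI := ultra_nC hv C
  haveI := proper_nC hv C
  have hcl : IsClosed (Metric.ball (0 : C) 1) := IsUltrametricDist.isClosed_ball 0 1
  have hK : IsCompact (Metric.ball (0 : C) 1) :=
    Metric.isCompact_of_isClosed_isBounded hcl Metric.isBounded_ball
  have hp1 := norm_p_lt hv C
  obtain ⟨x, hx, hmax⟩ := hK.exists_isMaxOn ⟨(p : C), by simpa using hp1⟩
    (continuous_norm (E := C)).continuousOn
  have hx1 : ‖x‖ < 1 := by simpa using hx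
  have hle : ∀ a : C, ‖a‖ < 1 → ‖a‖ ≤ ‖x‖ := fun a ha => hmax (by simpa using ha)
  refine ⟨x, ?_, hx1, hle⟩
  have h1 := hle _ hp1
  have h2 : 0 < ‖(p : C)‖ := by
    rw [norm_nC hv C]
    have h2 : ((p : C) : Ω) = (p : Ω) := by simp
    rw [h2, val_p hv, NNReal.coe_inv, NNReal.coe_natCast]
    have := hp.out.pos
    positivity
  exact h2.trans_le h1

end Padic

end Crest.Agent.R013.Set_803
end
end

-- ▼ part R013/Set2_803
section

/-!
# Row 13, B-SET, part 2: expansions on a disc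

`w` a valuation of `Ω` (norm or place), `C` the constants, `x : Ω`, `w x < R`.
* `evW` : power series over `C` bounded at radius `R` (for `w`) → completion of `(Ω, w)`, `X ↦ x`.
* `tendsto_iff` : `w (f * psum H x n - psum G x n) → 0` iff `f * H(x) = G(x)` in the completion.
-/

set_option autoImplicit false
set_option linter.unusedSectionVars false
set_option linter.style.haveILetI false

noncomputable section

namespace Crest.Agent.R013.Set_803

open scoped NNReal Topology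
open Filter PowerSeries Crest.NumberTheoryR.Sect Crest.Agent.R013.A2a_275 Crest.Agent.R013.Gl946
  Crest.Agent.R013.SE_669 Crest.Agent.R013.KAS2_940 Crest.Agent.R013.KAS3_940
  Crest.Agent.R013.Good1_940 Crest.Agent.R013.Good3_940 Crest.Agent.R013.CGood_588

variable {k : Type*} [Field k] {Ω : Type*} [Field Ω] [Algebra k Ω]

/-- the coefficients of a power series over `C`, in `Ω` -/
def cf {C : IntermediateField k Ω} (G : C⟦X⟧) (i : ℕ) : Ω := ((coeff i G : C) : Ω)

/-- Power series over `C` bounded at radius `R` for the valuation `w`. -/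
def BS (w : Valuation Ω ℝ≥0) (C : IntermediateField k Ω) (R : ℝ≥0) (hR : 0 < R) :
    Subring C⟦X⟧ :=
  letI := nfld w C
  haveI := ultra_nfld w C
  bsub (K := C) (R : ℝ) (by exact_mod_cast hR)

theorem mem_BS {w : Valuation Ω ℝ≥0} {C : IntermediateField k Ω} {R : ℝ≥0} {hR : 0 < R}
    {G : C⟦X⟧} : G ∈ BS w C R hR ↔ ∃ B : ℝ≥0, ∀ i, w (coeff i G : C) * R ^ i ≤ B := by
  letI := nfld w C
  haveI := ultra_nfld w C
  constructor
  · rintro ⟨B, hB⟩
    refine ⟨Real.toNNReal B, fun i => ?_⟩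
    have h1 := hB i
    rw [← NNReal.coe_le_coe, Real.coe_toNNReal _ hB.nonneg]
    have h2 : ‖coeff i G‖ = w (coeff i G : C) := nfld_norm w C _
    rw [h2] at h1
    push_cast
    exact h1
  · rintro ⟨B, hB⟩
    refine ⟨(B : ℝ), fun i => ?_⟩
    have h2 : ‖coeff i G‖ = w (coeff i G : C) := nfld_norm w C _
    rw [h2]
    exact_mod_cast hB i

/-- evaluation at `x` -/
def evW (w : Valuation Ω ℝ≥0) (C : IntermediateField k Ω) (R : ℝ≥0) (hR : 0 < R) (x : Ω)
    (hx : w x < R) : BS w C R hR →+* Cpl w :=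
  letI := nfld w C
  haveI := ultra_nfld w C
  letI := nalg0 w C
  ev (k := C) (E := Cpl w) (r1 := (R : ℝ)) (by exact_mod_cast hR) (toCpl w x)
    (by rw [norm_toCpl]; exact_mod_cast hx)

section

variable {w : Valuation Ω ℝ≥0} {C : IntermediateField k Ω} {R : ℝ≥0} {hR : 0 < R} {x : Ω}
  {hx : w x < R}


theorem hasSum_evW (G : BS w C R hR) :
    HasSum (fun m => toCpl w (coeff m G.1 : C) * toCpl w x ^ m) (evW w C R hR x hx G) := by
  letI := nfld w C
  haveI := ultra_nfld w C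
  letI := nalg0 w C
  have h := summable_norm (k := C) (E := Cpl w) (f := G.1) (x := toCpl w x) (r1 := (R : ℝ))
    G.2.choose_spec (by rw [norm_toCpl]; exact_mod_cast hx)
  exact h.of_norm.hasSum

theorem toCpl_psum (G : ℕ → Ω) (n : ℕ) :
    toCpl w (psum G x n) = ∑ i ∈ Finset.range n, toCpl w (G i) * toCpl w x ^ i := by
  rw [psum, map_sum]
  exact Finset.sum_congr rfl fun i _ => by rw [map_mul, map_pow]

theorem tendsto_psum (G : BS w C R hR) :
    Tendsto (fun n => toCpl w (psum (cf G.1) x n)) atTop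
      (𝓝 (evW w C R hR x hx G)) := by
  have h := (hasSum_evW (hx := hx) G).tendsto_sum_nat
  simpa only [toCpl_psum, cf] using h

theorem tendsto_iff (f : Ω) (G H : BS w C R hR) :
    Tendsto (fun n => w (f * psum (cf H.1) x n -
      psum (cf G.1) x n)) atTop (𝓝 0) ↔
    toCpl w f * evW w C R hR x hx H = evW w C R hR x hx G := by
  have h1 := ((tendsto_psum (hx := hx) H).const_mul (toCpl w f)).sub (tendsto_psum (hx := hx) G)
  have h2 : (fun n => toCpl w f * toCpl w (psum (cf H.1) x n) -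
      toCpl w (psum (cf G.1) x n)) = fun n =>
      toCpl w (f * psum (cf H.1) x n -
        psum (cf G.1) x n) := by
    funext n; rw [map_sub, map_mul]
  rw [h2] at h1
  have h3 := h1.norm
  constructor
  · intro h
    have h4 : Tendsto (fun n => ‖toCpl w (f * psum (cf H.1) x n -
        psum (cf G.1) x n)‖) atTop (𝓝 0) := by
      simp only [norm_toCpl]
      have := NNReal.tendsto_coe.2 h
      rwa [NNReal.coe_zero] at this
    have h5 := tendsto_nhds_unique h3 h4
    exact sub_eq_zero.1 (norm_eq_zero.1 h5)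
  · intro h
    rw [sub_eq_zero.2 h, norm_zero] at h3
    simp only [norm_toCpl] at h3
    rw [← NNReal.tendsto_coe]
    simpa using h3

end

section SD

variable {w : Valuation Ω ℝ≥0} {C : IntermediateField k Ω} {R : ℝ≥0} {hR : 0 < R} {x : Ω}

theorem C_mem_BS (w : Valuation Ω ℝ≥0) (R : ℝ≥0) (hR : 0 < R) (c : C) :
    (PowerSeries.C c : C⟦X⟧) ∈ BS w C R hR :=
  letI := nfld w C
  haveI := ultra_nfld w C
  KAS3_940.C_mem c

theorem X_mem_BS (w : Valuation Ω ℝ≥0) (R : ℝ≥0) (hR : 0 < R) :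
    (PowerSeries.X : C⟦X⟧) ∈ BS w C R hR :=
  letI := nfld w C
  haveI := ultra_nfld w C
  KAS3_940.X_mem

theorem evW_C {hx : w x < R} (c : C) :
    evW w C R hR x hx ⟨PowerSeries.C c, C_mem_BS w R hR c⟩ = toCpl w c := by
  letI := nfld w C
  haveI := ultra_nfld w C
  letI := nalg0 w C
  exact ev_C (k := C) (E := Cpl w) c

theorem evW_X {hx : w x < R} :
    evW w C R hR x hx ⟨PowerSeries.X, X_mem_BS w R hR⟩ = toCpl w x := by
  letI := nfld w C
  haveI := ultra_nfld w C
  letI := nalg0 w C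
  exact ev_X (k := C) (E := Cpl w)

/-- a norm `v` and a place `P` (trivial on `C`); every power series is bounded for `P` -/
theorem mem_BS_place {P : Valuation Ω ℝ≥0} (hP : ∀ c : C, P (c : Ω) ≤ 1) (G : C⟦X⟧) :
    G ∈ BS P C 1 one_pos := mem_BS.2 ⟨1, fun i => by
      rw [one_pow, mul_one]; exact hP _⟩

/-- `f = G(x) / H(x)` for the norm `v` and for the place `P`. -/
structure IsRep (v P : Valuation Ω ℝ≥0) (C : IntermediateField k Ω) (R : ℝ≥0) (x f : Ω)
    (G H : C⟦X⟧) : Prop where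
  ne : H ≠ 0
  bG : ∃ B : ℝ≥0, ∀ i, v (cf G i) * R ^ i ≤ B
  bH : ∃ B : ℝ≥0, ∀ i, v (cf H i) * R ^ i ≤ B
  lv : Tendsto (fun n => v (f * psum (cf H) x n - psum (cf G) x n)) atTop (𝓝 0)
  lP : Tendsto (fun n => P (f * psum (cf H) x n - psum (cf G) x n)) atTop (𝓝 0)

variable {v P : Valuation Ω ℝ≥0}

theorem IsRep.v_eq {hx : v x < R} {f : Ω} {G H : C⟦X⟧} (h : IsRep v P C R x f G H) :
    toCpl v f * evW v C R hR x hx ⟨H, mem_BS.2 h.bH⟩ = evW v C R hR x hx ⟨G, mem_BS.2 h.bG⟩ :=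
  (tendsto_iff f ⟨G, mem_BS.2 h.bG⟩ ⟨H, mem_BS.2 h.bH⟩).1 h.lv

theorem IsRep.P_eq (hP : ∀ c : C, P (c : Ω) ≤ 1) {hx : P x < 1} {f : Ω} {G H : C⟦X⟧}
    (h : IsRep v P C R x f G H) :
    toCpl P f * evW P C 1 one_pos x hx ⟨H, mem_BS_place hP H⟩ =
      evW P C 1 one_pos x hx ⟨G, mem_BS_place hP G⟩ :=
  (tendsto_iff f ⟨G, mem_BS_place hP G⟩ ⟨H, mem_BS_place hP H⟩).1 h.lP

theorem isRep_of (hR : 0 < R) (hx : v x < R) (hP : ∀ c : C, P (c : Ω) ≤ 1) (hPx : P x < 1)
    {f : Ω} {G H : C⟦X⟧}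
    (hH : H ≠ 0) (bG : G ∈ BS v C R hR) (bH : H ∈ BS v C R hR)
    (ev : toCpl v f * evW v C R hR x hx ⟨H, bH⟩ = evW v C R hR x hx ⟨G, bG⟩)
    (eP : toCpl P f * evW P C 1 one_pos x hPx ⟨H, mem_BS_place hP H⟩ =
      evW P C 1 one_pos x hPx ⟨G, mem_BS_place hP G⟩) : IsRep v P C R x f G H where
  ne := hH
  bG := mem_BS.1 bG
  bH := mem_BS.1 bH
  lv := (tendsto_iff f ⟨G, bG⟩ ⟨H, bH⟩).2 ev
  lP := (tendsto_iff f ⟨G, mem_BS_place hP G⟩ ⟨H, mem_BS_place hP H⟩).2 eP

theorem IsRep.const (hR : 0 < R) (hx : v x < R) (hP : ∀ c : C, P (c : Ω) ≤ 1) (hPx : P x < 1)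
    (c : C) : IsRep v P C R x (c : Ω) (PowerSeries.C c) 1 := by
  refine isRep_of hR hx hP hPx one_ne_zero (C_mem_BS v R hR c) (one_mem _) ?_ ?_
  · rw [evW_C]
    have : (⟨1, one_mem _⟩ : BS v C R hR) = 1 := rfl
    rw [this, map_one, mul_one]
  · have h2 := evW_C (w := P) (R := 1) (hR := one_pos) (hx := hPx) c
    have : (⟨1, mem_BS_place hP 1⟩ : BS P C 1 one_pos) = 1 := rfl
    rw [this, map_one, mul_one]
    exact h2.symm

theorem IsRep.X (hR : 0 < R) (hx : v x < R) (hP : ∀ c : C, P (c : Ω) ≤ 1) (hPx : P x < 1) :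
    IsRep v P C R x x PowerSeries.X 1 := by
  refine isRep_of hR hx hP hPx one_ne_zero (X_mem_BS v R hR) (one_mem _) ?_ ?_
  · rw [evW_X]
    have : (⟨1, one_mem _⟩ : BS v C R hR) = 1 := rfl
    rw [this, map_one, mul_one]
  · have h2 := evW_X (w := P) (C := C) (R := 1) (hR := one_pos) (hx := hPx)
    have : (⟨1, mem_BS_place hP 1⟩ : BS P C 1 one_pos) = 1 := rfl
    rw [this, map_one, mul_one]
    exact h2.symm

theorem IsRep.mul (hR : 0 < R) (hx : v x < R) (hP : ∀ c : C, P (c : Ω) ≤ 1) (hPx : P x < 1)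
    {f f' : Ω} {G H G' H' : C⟦X⟧} (h : IsRep v P C R x f G H) (h' : IsRep v P C R x f' G' H') :
    IsRep v P C R x (f * f') (G * G') (H * H') := by
  refine isRep_of hR hx hP hPx (mul_ne_zero h.ne h'.ne) (mul_mem (mem_BS.2 h.bG) (mem_BS.2 h'.bG))
    (mul_mem (mem_BS.2 h.bH) (mem_BS.2 h'.bH)) ?_ ?_
  · have e1 := h.v_eq (hR := hR) (hx := hx)
    have e2 := h'.v_eq (hR := hR) (hx := hx)
    have e3 : evW v C R hR x hx ⟨H * H', mul_mem (mem_BS.2 h.bH) (mem_BS.2 h'.bH)⟩ =
        evW v C R hR x hx ⟨H, mem_BS.2 h.bH⟩ * evW v C R hR x hx ⟨H', mem_BS.2 h'.bH⟩ := by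
      rw [← map_mul]; rfl
    have e4 : evW v C R hR x hx ⟨G * G', mul_mem (mem_BS.2 h.bG) (mem_BS.2 h'.bG)⟩ =
        evW v C R hR x hx ⟨G, mem_BS.2 h.bG⟩ * evW v C R hR x hx ⟨G', mem_BS.2 h'.bG⟩ := by
      rw [← map_mul]; rfl
    rw [e3, e4, ← e1, ← e2, map_mul]; ring
  · have e1 := h.P_eq hP (hx := hPx)
    have e2 := h'.P_eq hP (hx := hPx)
    have e3 : evW P C 1 one_pos x hPx ⟨H * H', mem_BS_place hP _⟩ =
        evW P C 1 one_pos x hPx ⟨H, mem_BS_place hP _⟩ *
        evW P C 1 one_pos x hPx ⟨H', mem_BS_place hP _⟩ := by rw [← map_mul]; rfl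
    have e4 : evW P C 1 one_pos x hPx ⟨G * G', mem_BS_place hP _⟩ =
        evW P C 1 one_pos x hPx ⟨G, mem_BS_place hP _⟩ *
        evW P C 1 one_pos x hPx ⟨G', mem_BS_place hP _⟩ := by rw [← map_mul]; rfl
    rw [e3, e4, ← e1, ← e2, map_mul]; ring

theorem IsRep.add (hR : 0 < R) (hx : v x < R) (hP : ∀ c : C, P (c : Ω) ≤ 1) (hPx : P x < 1)
    {f f' : Ω} {G H G' H' : C⟦X⟧} (h : IsRep v P C R x f G H) (h' : IsRep v P C R x f' G' H') :
    IsRep v P C R x (f + f') (G * H' + G' * H) (H * H') := by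
  refine isRep_of hR hx hP hPx (mul_ne_zero h.ne h'.ne)
    (add_mem (mul_mem (mem_BS.2 h.bG) (mem_BS.2 h'.bH)) (mul_mem (mem_BS.2 h'.bG) (mem_BS.2 h.bH)))
    (mul_mem (mem_BS.2 h.bH) (mem_BS.2 h'.bH)) ?_ ?_
  · have e1 := h.v_eq (hR := hR) (hx := hx)
    have e2 := h'.v_eq (hR := hR) (hx := hx)
    have e3 : evW v C R hR x hx ⟨H * H', mul_mem (mem_BS.2 h.bH) (mem_BS.2 h'.bH)⟩ =
        evW v C R hR x hx ⟨H, mem_BS.2 h.bH⟩ * evW v C R hR x hx ⟨H', mem_BS.2 h'.bH⟩ := by
      rw [← map_mul]; rfl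
    have e4 : evW v C R hR x hx ⟨G * H' + G' * H, add_mem (mul_mem (mem_BS.2 h.bG)
        (mem_BS.2 h'.bH)) (mul_mem (mem_BS.2 h'.bG) (mem_BS.2 h.bH))⟩ =
        evW v C R hR x hx ⟨G, mem_BS.2 h.bG⟩ * evW v C R hR x hx ⟨H', mem_BS.2 h'.bH⟩ +
        evW v C R hR x hx ⟨G', mem_BS.2 h'.bG⟩ * evW v C R hR x hx ⟨H, mem_BS.2 h.bH⟩ := by
      rw [← map_mul, ← map_mul, ← map_add]; rfl
    rw [e3, e4, ← e1, ← e2, map_add]; ring
  · have e1 := h.P_eq hP (hx := hPx)
    have e2 := h'.P_eq hP (hx := hPx)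
    have e3 : evW P C 1 one_pos x hPx ⟨H * H', mem_BS_place hP _⟩ =
        evW P C 1 one_pos x hPx ⟨H, mem_BS_place hP _⟩ *
        evW P C 1 one_pos x hPx ⟨H', mem_BS_place hP _⟩ := by rw [← map_mul]; rfl
    have e4 : evW P C 1 one_pos x hPx ⟨G * H' + G' * H, mem_BS_place hP _⟩ =
        evW P C 1 one_pos x hPx ⟨G, mem_BS_place hP _⟩ *
        evW P C 1 one_pos x hPx ⟨H', mem_BS_place hP _⟩ +
        evW P C 1 one_pos x hPx ⟨G', mem_BS_place hP _⟩ *
        evW P C 1 one_pos x hPx ⟨H, mem_BS_place hP _⟩ := by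
      rw [← map_mul, ← map_mul, ← map_add]; rfl
    rw [e3, e4, ← e1, ← e2, map_add]; ring

end SD

end Crest.Agent.R013.Set_803
end
end

-- ▼ part R013/Set3_803

/-!
# Row 13, B-SET, part 3: the subfield `SD` of the elements expanded on the disc of radius `R`, and the
embedding `kap : SD →+* FDisc C R`.
-/

set_option autoImplicit false
set_option linter.unusedSectionVars false
set_option linter.style.haveILetI false

noncomputable section

namespace Crest.Agent.R013.Set_803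

open scoped NNReal Topology
open Filter PowerSeries Crest.NumberTheoryR.Sect Crest.Agent.R013.A2a_275 Crest.Agent.R013.Gl946
  Crest.Agent.R013.SE_669 Crest.Agent.R013.KAS2_940 Crest.Agent.R013.KAS3_940
  Crest.Agent.R013.Good1_940 Crest.Agent.R013.Good3_940 Crest.Agent.R013.CGood_588

variable {k : Type*} [Field k] {Ω : Type*} [Field Ω] [Algebra k Ω]
variable {p : ℕ} [hp : Fact p.Prime] [Algebra ℚ_[p] k] {v P : Valuation Ω ℝ≥0}
  {C : IntermediateField k Ω}

theorem psum_eq_aeval (f : Polynomial C) (t : Ω) (n : ℕ) (hn : f.natDegree < n) :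
    psum (fun i => ((f.coeff i : C) : Ω)) t n = Polynomial.aeval t f := by
  rw [Polynomial.aeval_eq_sum_range' hn, psum]
  exact Finset.sum_congr rfl fun i _ => by rw [Algebra.smul_def]; rfl

theorem gaussAt_norm {t : Ω} (hG : GaussAt C t v) : v t = 1 := by
  have h := hG 2 (fun i => if i = 1 then 1 else 0) (fun i => by
    split_ifs
    · exact one_mem _
    · exact zero_mem _)
  have h1 : psum (fun i => if i = 1 then (1 : Ω) else 0) t 2 = t := by
    simp [psum]
  rw [h1] at h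
  rw [h]
  apply le_antisymm
  · refine Finset.sup_le fun i _ => ?_
    split_ifs <;> simp
  · refine le_trans ?_ (Finset.le_sup (b := 1) (by simp))
    simp

/-- `Cpl v` as a normed algebra over `C`. -/
@[reducible] def nalgC (hv : ExtendsPadicNorm k Ω p v) (C : IntermediateField k Ω) :
    letI := nC hv C; NormedAlgebra C (Cpl v) := nalg0 v C

/-- the Gauss norm in the setting of 946 -/
theorem isGauss_of_gaussAt (hv : ExtendsPadicNorm k Ω p v) {t : Ω} (hG : GaussAt C t v) :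
    letI := nC hv C; letI := nalgC hv C; IsGauss C (toCpl v t) := by
  letI := nC hv C
  letI := nalgC hv C
  have key : ∀ f : Polynomial C, Polynomial.aeval (toCpl v t) f = toCpl v (Polynomial.aeval t f) := by
    intro f
    have h1 : (toCpl v) (Polynomial.aeval t f) = Polynomial.eval₂ ((toCpl v).comp (algebraMap C Ω))
        (toCpl v t) f := by
      rw [Polynomial.aeval_def, Polynomial.hom_eval₂]
    rw [h1, Polynomial.aeval_def]
    rfl
  have key2 : ∀ (f : Polynomial C) (i : ℕ), (v ((f.coeff i : C) : Ω) : ℝ) ≤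
      ‖toCpl v (Polynomial.aeval t f)‖ := by
    intro f i
    rw [norm_toCpl, ← psum_eq_aeval f t (max f.natDegree i + 1) (by omega),
      hG _ _ (fun i => (f.coeff i : C).2)]
    have := Finset.le_sup (f := fun i => v ((f.coeff i : C) : Ω))
      (s := Finset.range (max f.natDegree i + 1)) (b := i) (by simp)
    exact_mod_cast this
  refine ⟨?_, fun f i => ?_⟩
  · rw [norm_toCpl, gaussAt_norm hG]; simp
  · have h1 := key2 f i
    rw [← key f] at h1
    rw [norm_nC hv C]
    exact h1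

section Kap

/-- The data of a disc `|x| < R` with constants `C`, a norm `v` which is the Gauss norm of centre `q`
and radius `|c|`, and a place `P`, trivial on `C`, with `P x < 1`. -/
structure DiscData (p : ℕ) [Fact p.Prime] [Algebra ℚ_[p] k] (v P : Valuation Ω ℝ≥0)
    (C : IntermediateField k Ω) (R : ℝ≥0) (x q c : Ω) : Prop where
  hv : ExtendsPadicNorm k Ω p v
  hP : ∀ a : C, P (a : Ω) ≤ 1
  hPx : P x < 1
  qC : q ∈ C
  cC : c ∈ C
  c0 : c ≠ 0
  qR : v q < R
  cR : v c < R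
  gauss : GaussAt C ((x - q) / c) v

namespace DiscData

variable {R : ℝ≥0} {x q c : Ω} (D : DiscData p v P C R x q c)

include D

theorem hR : 0 < R := lt_of_le_of_lt zero_le D.cR

theorem x_eq : x = q + c * ((x - q) / c) := by
  rw [mul_div_cancel₀ _ D.c0]; ring

theorem hx : v x < R := by
  rw [D.x_eq]
  refine (v.map_add _ _).trans_lt (max_lt D.qR ?_)
  rw [map_mul, gaussAt_norm D.gauss, mul_one]
  exact D.cR

theorem point [FiniteDimensional ℚ_[p] k] [FiniteDimensional k C] (F : BS v C R D.hR) :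
    letI := nC D.hv C; letI := nalgC D.hv C
    haveI := ultra_nC D.hv C
    haveI := complete_nC D.hv C
    evW v C R D.hR x D.hx F = evq (k := C) (E := Cpl v) (r := (R : ℝ)) (by exact_mod_cast D.hR)
      (q := ⟨q, D.qC⟩) (c := ⟨c, D.cC⟩) (isGauss_of_gaussAt D.hv D.gauss)
      (by rw [norm_nC D.hv C]; exact_mod_cast D.qR) (by rw [norm_nC D.hv C]; exact_mod_cast D.cR)
      F := by
  letI := nC D.hv C
  letI := nalgC D.hv C
  haveI := ultra_nC D.hv C
  haveI := complete_nC D.hv C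
  have h1 : toCpl v x = pt (k := C) (⟨q, D.qC⟩ : C) ⟨c, D.cC⟩ (toCpl v ((x - q) / c)) := by
    conv_lhs => rw [D.x_eq, map_add, map_mul]
    rfl
  rw [evq, ev_apply, ← h1]
  rfl

theorem evW_injective [FiniteDimensional ℚ_[p] k] [FiniteDimensional k C] :
    Function.Injective (evW v C R D.hR x D.hx) := by
  letI := nC D.hv C
  letI := nalgC D.hv C
  haveI := ultra_nC D.hv C
  haveI := complete_nC D.hv C
  intro F G h
  rw [D.point, D.point] at h
  refine evq_injective (k := C) (E := Cpl v) (r := (R : ℝ)) ?_ h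
  intro h0
  exact D.c0 (congrArg Subtype.val h0)

theorem rep_inv [FiniteDimensional ℚ_[p] k] [FiniteDimensional k C] {f : Ω} (hf : f ≠ 0)
    {G H : C⟦X⟧} (h : IsRep v P C R x f G H) : IsRep v P C R x f⁻¹ H G := by
  have e1 := h.v_eq (hR := D.hR) (hx := D.hx)
  have hH : evW v C R D.hR x D.hx ⟨H, mem_BS.2 h.bH⟩ ≠ 0 := by
    intro h0
    have h1 := D.evW_injective (h0.trans (map_zero _).symm)
    exact h.ne (congrArg Subtype.val h1)
  have hf' : toCpl v f ≠ 0 := (map_ne_zero _).2 hf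
  have hf'' : toCpl P f ≠ 0 := (map_ne_zero _).2 hf
  refine isRep_of D.hR D.hx D.hP D.hPx ?_ (mem_BS.2 h.bH) (mem_BS.2 h.bG) ?_ ?_
  · rintro rfl
    have h2 : (⟨0, mem_BS.2 h.bG⟩ : BS v C R D.hR) = 0 := rfl
    rw [h2, map_zero] at e1
    exact (mul_ne_zero hf' hH) e1
  · rw [map_inv₀, ← e1, inv_mul_cancel_left₀ hf']
  · rw [map_inv₀, ← h.P_eq D.hP (hx := D.hPx), inv_mul_cancel_left₀ hf'']

/-- **The subfield of the elements expanded on the disc.** -/
def SD [FiniteDimensional ℚ_[p] k] [FiniteDimensional k C] : Subfield Ω where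
  carrier := {f | ∃ G H : C⟦X⟧, IsRep v P C R x f G H}
  mul_mem' := by
    rintro f f' ⟨G, H, h⟩ ⟨G', H', h'⟩
    exact ⟨_, _, h.mul D.hR D.hx D.hP D.hPx h'⟩
  one_mem' := ⟨_, _, IsRep.const D.hR D.hx D.hP D.hPx (1 : C)⟩
  add_mem' := by
    rintro f f' ⟨G, H, h⟩ ⟨G', H', h'⟩
    exact ⟨_, _, h.add D.hR D.hx D.hP D.hPx h'⟩
  zero_mem' := ⟨_, _, IsRep.const D.hR D.hx D.hP D.hPx (0 : C)⟩
  neg_mem' := by
    rintro f ⟨G, H, h⟩
    have h1 := (IsRep.const D.hR D.hx D.hP D.hPx (-1 : C)).mul D.hR D.hx D.hP D.hPx h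
    have h2 : (((-1 : C) : C) : Ω) * f = -f := by simp
    rw [h2] at h1
    exact ⟨_, _, h1⟩
  inv_mem' := by
    rintro f ⟨G, H, h⟩
    by_cases hf : f = 0
    · have h1 := IsRep.const D.hR D.hx D.hP D.hPx (0 : C)
      rw [hf, inv_zero]
      exact ⟨_, _, h1⟩
    · exact ⟨H, G, D.rep_inv hf h⟩

theorem mem_SD [FiniteDimensional ℚ_[p] k] [FiniteDimensional k C] {f : Ω} :
    f ∈ D.SD ↔ ∃ G H : C⟦X⟧, IsRep v P C R x f G H := Iff.rfl

theorem C_le_SD [FiniteDimensional ℚ_[p] k] [FiniteDimensional k C] (a : C) : (a : Ω) ∈ D.SD :=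
  ⟨_, _, IsRep.const D.hR D.hx D.hP D.hPx a⟩

theorem x_mem_SD [FiniteDimensional ℚ_[p] k] [FiniteDimensional k C] : x ∈ D.SD :=
  ⟨_, _, IsRep.X D.hR D.hx D.hP D.hPx⟩

omit D in
theorem isRep_of_discEmb {L : Type*} [Field L] [Algebra L Ω] (h : DiscEmb L C P x R v) (f : L) :
    ∃ G H : C⟦X⟧, IsRep v P C R x (algebraMap L Ω f) G H := by
  obtain ⟨G, H, hG, hH, ⟨i, hi⟩, ⟨B, hB⟩, l1, l2⟩ := h f
  have e1 : cf (PowerSeries.mk fun i => (⟨G i, hG i⟩ : C)) = G := by
    funext j; simp [cf, coeff_mk]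
  have e2 : cf (PowerSeries.mk fun i => (⟨H i, hH i⟩ : C)) = H := by
    funext j; simp [cf, coeff_mk]
  refine ⟨PowerSeries.mk fun i => ⟨G i, hG i⟩, PowerSeries.mk fun i => ⟨H i, hH i⟩, ?_, ?_, ?_, ?_,
    ?_⟩
  · intro h0
    apply hi
    rw [← e2, h0]
    simp [cf]
  · rw [e1]; exact ⟨B, fun i => (hB i).1⟩
  · rw [e2]; exact ⟨B, fun i => (hB i).2⟩
  · rw [e1, e2]; exact l1
  · rw [e1, e2]; exact l2

/-- bounded series on the disc, in fractions -/
abbrev FD : Type _ := FractionRing (BS v C R D.hR)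

/-- evaluation of the disc field in the completion at `v` -/
def evF [FiniteDimensional ℚ_[p] k] [FiniteDimensional k C] : D.FD →+* Cpl v :=
  IsFractionRing.lift D.evW_injective

theorem evF_algebraMap [FiniteDimensional ℚ_[p] k] [FiniteDimensional k C] (F : BS v C R D.hR) :
    D.evF (algebraMap (BS v C R D.hR) D.FD F) = evW v C R D.hR x D.hx F :=
  IsFractionRing.lift_algebraMap _ F

theorem evF_rep [FiniteDimensional ℚ_[p] k] [FiniteDimensional k C] {f : Ω} {G H : C⟦X⟧}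
    (h : IsRep v P C R x f G H) :
    D.evF (algebraMap (BS v C R D.hR) D.FD ⟨G, mem_BS.2 h.bG⟩ / algebraMap (BS v C R D.hR) D.FD ⟨H, mem_BS.2 h.bH⟩) =
      toCpl v f := by
  have hH : evW v C R D.hR x D.hx ⟨H, mem_BS.2 h.bH⟩ ≠ 0 := by
    intro h0
    have h1 := D.evW_injective (h0.trans (map_zero _).symm)
    exact h.ne (congrArg Subtype.val h1)
  rw [map_div₀, D.evF_algebraMap, D.evF_algebraMap, ← h.v_eq (hR := D.hR) (hx := D.hx),
    mul_div_cancel_right₀ _ hH]

theorem exists_kap [FiniteDimensional ℚ_[p] k] [FiniteDimensional k C] :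
    ∃ κ : D.SD →+* D.FD, ∀ f, D.evF (κ f) = toCpl v (f : Ω) := by
  have key : ∀ f : D.SD, ∃ g : D.FD, D.evF g = toCpl v (f : Ω) := by
    rintro ⟨f, G, H, h⟩
    exact ⟨_, D.evF_rep h⟩
  choose κ hκ using key
  have inj : Function.Injective D.evF := D.evF.injective
  refine ⟨{ toFun := κ, map_one' := inj ?_, map_mul' := fun f g => inj ?_, map_zero' := inj ?_,
            map_add' := fun f g => inj ?_ }, hκ⟩
  · rw [hκ, map_one]; exact map_one (toCpl v)
  · rw [map_mul, hκ, hκ, hκ]; exact map_mul (toCpl v) _ _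
  · rw [hκ, map_zero]; exact map_zero (toCpl v)
  · rw [map_add, hκ, hκ, hκ]; exact map_add (toCpl v) _ _

/-- **the expansion on the disc** -/
def kap [FiniteDimensional ℚ_[p] k] [FiniteDimensional k C] : D.SD →+* D.FD :=
  D.exists_kap.choose

theorem evF_kap [FiniteDimensional ℚ_[p] k] [FiniteDimensional k C] (f : D.SD) :
    D.evF (D.kap f) = toCpl v (f : Ω) := D.exists_kap.choose_spec f

theorem kap_rep [FiniteDimensional ℚ_[p] k] [FiniteDimensional k C] {f : Ω} {G H : C⟦X⟧}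
    (h : IsRep v P C R x f G H) (hf : f ∈ D.SD) : D.kap ⟨f, hf⟩ =
      algebraMap (BS v C R D.hR) D.FD ⟨G, mem_BS.2 h.bG⟩ / algebraMap (BS v C R D.hR) D.FD ⟨H, mem_BS.2 h.bH⟩ :=
  D.evF.injective (by rw [D.evF_kap, D.evF_rep h])

theorem kap_const [FiniteDimensional ℚ_[p] k] [FiniteDimensional k C] (a : C)
    (ha : (a : Ω) ∈ D.SD) :
    D.kap ⟨a, ha⟩ = algebraMap (BS v C R D.hR) D.FD ⟨PowerSeries.C a, C_mem_BS v R D.hR a⟩ := by
  have h := D.kap_rep (IsRep.const D.hR D.hx D.hP D.hPx a) ha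
  rw [h]
  have : (⟨1, mem_BS.2 (IsRep.const D.hR D.hx D.hP D.hPx a).bH⟩ : BS v C R D.hR) = 1 := rfl
  rw [this, map_one, div_one]

theorem kap_x [FiniteDimensional ℚ_[p] k] [FiniteDimensional k C] (hx : x ∈ D.SD) :
    D.kap ⟨x, hx⟩ = algebraMap (BS v C R D.hR) D.FD ⟨PowerSeries.X, X_mem_BS v R D.hR⟩ := by
  have h := D.kap_rep (IsRep.X D.hR D.hx D.hP D.hPx) hx
  rw [h]
  have : (⟨1, mem_BS.2 (IsRep.X (C := C) D.hR D.hx D.hP D.hPx).bH⟩ : BS v C R D.hR) = 1 := rfl
  rw [this, map_one, div_one]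

end DiscData

end Kap

end Crest.Agent.R013.Set_803
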