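import Crest.Agent.R013.Set3_803
import Crest.Agent.R013.Good2_940
import Crest.Agent.R013.Gl8_946
import Crest.Agent.R013.Gl13_946

-- ▼ part R013/Set4_803
section

/-!
# Row 13, B-SET, part 4: circles `|x| = |ρ|` inside the disc

`E` a circle field over `C` (setting of 946, `C` with the norm `nC`), `ρ ∈ C`, `0 < |ρ| < R`:
`iota : SD →+* E`, `x ↦ ρ y`, the identity on `C`, with range in `FP`.
-/

set_option autoImplicit false
set_option linter.unusedSectionVars false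
set_option linter.style.haveILetI false

noncomputable section

namespace Crest.Agent.R013.Set_803

open scoped NNReal Topology
open Filter PowerSeries Crest.NumberTheoryR.Sect Crest.Agent.R013.A2a_275 Crest.Agent.R013.Gl946
  Crest.Agent.R013.SE_669 Crest.Agent.R013.KAS2_940 Crest.Agent.R013.KAS3_940
  Crest.Agent.R013.Good1_940 Crest.Agent.R013.Good3_940 Crest.Agent.R013.CGood_588

variable {k : Type*} [Field k] {Ω : Type*} [Field Ω] [Algebra k Ω]
variable {p : ℕ} [hp : Fact p.Prime] [Algebra ℚ_[p] k] {v P : Valuation Ω ℝ≥0}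
  {C : IntermediateField k Ω}

/-- normed algebras over `C` -/
abbrev NAlg (hv : ExtendsPadicNorm k Ω p v) (C : IntermediateField k Ω) (E : Type*)
    [NormedField E] := @NormedAlgebra C E (nC hv C).toNormedField _

/-- `IsGauss` over `C` -/
abbrev IsG (hv : ExtendsPadicNorm k Ω p v) (C : IntermediateField k Ω) {E : Type*}
    [NormedField E] (A : NAlg hv C E) (y : E) : Prop := @IsGauss C E (nC hv C).toNormedField _ A y

/-- `DenseRat` over `C` -/
abbrev DenseR (hv : ExtendsPadicNorm k Ω p v) (C : IntermediateField k Ω) {E : Type*}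
    [NormedField E] (A : NAlg hv C E) (y : E) : Prop :=
  @DenseRat C E (nC hv C).toNormedField _ A y

/-- existence of the circle field -/
theorem exists_circ {k : Type} [Field k] {Ω : Type} [Field Ω] [Algebra k Ω]
    {p : ℕ} [Fact p.Prime] [Algebra ℚ_[p] k] {v : Valuation Ω ℝ≥0}
    (hv : ExtendsPadicNorm k Ω p v) (C : IntermediateField k Ω) :
    ∃ (E : Type) (_ : NormedField E) (A : NAlg hv C E) (_ : IsUltrametricDist E)
      (_ : CompleteSpace E) (y : E), IsG hv C A y ∧ DenseR hv C A y := by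
  letI := nC hv C
  haveI := ultra_nC hv C
  exact Good2_940.exists_circle C

namespace DiscData

variable {R : ℝ≥0} {x q c : Ω} (D : DiscData p v P C R x q c)
  [FiniteDimensional ℚ_[p] k] [FiniteDimensional k C]
  {E : Type*} [NormedField E] [IsUltrametricDist E] [CompleteSpace E]
  (A : NAlg D.hv C E) {y : E} (hy : IsG D.hv C A y)

/-- evaluation of bounded series at `ρ y` -/
def evE (ρ : C) (hρ : v ρ < R) : BS v C R D.hR →+* E :=
  letI := nC D.hv C
  haveI := ultra_nC D.hv C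
  haveI := complete_nC D.hv C
  evq (k := C) (E := E) (r := (R : ℝ)) (by exact_mod_cast D.hR) (q := 0) (c := ρ) hy
    (by rw [norm_zero]; exact_mod_cast D.hR) (by rw [norm_nC D.hv C]; exact_mod_cast hρ)

theorem evE_apply (ρ : C) (hρ : v ρ < R) (F : BS v C R D.hR) :
    D.evE A hy ρ hρ F = ∑' m, A.algebraMap (coeff m F.1) * (A.algebraMap ρ * y) ^ m := by
  letI := nC D.hv C
  haveI := ultra_nC D.hv C
  haveI := complete_nC D.hv C
  have h1 : pt (k := C) (0 : C) ρ y = algebraMap C E ρ * y := by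
    rw [pt, map_zero, zero_add]
  change (∑' m, algebraMap C E (coeff m F.1) * (pt (0 : C) ρ y) ^ m) = _
  rw [h1]

theorem evE_injective (ρ : C) (hρ : v ρ < R) (h0 : ρ ≠ 0) :
    Function.Injective (D.evE A hy ρ hρ) := by
  letI := nC D.hv C
  haveI := ultra_nC D.hv C
  haveI := complete_nC D.hv C
  exact evq_injective (k := C) (E := E) (r := (R : ℝ)) h0

theorem evE_C (ρ : C) (hρ : v ρ < R) (a : C) :
    D.evE A hy ρ hρ ⟨PowerSeries.C a, C_mem_BS v R D.hR a⟩ = A.algebraMap a := by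
  letI := nC D.hv C
  haveI := ultra_nC D.hv C
  haveI := complete_nC D.hv C
  exact evq_C (k := C) (E := E) a

theorem evE_X (ρ : C) (hρ : v ρ < R) :
    D.evE A hy ρ hρ ⟨PowerSeries.X, X_mem_BS v R D.hR⟩ = A.algebraMap ρ * y := by
  letI := nC D.hv C
  haveI := ultra_nC D.hv C
  haveI := complete_nC D.hv C
  have h := evq_X (k := C) (E := E) (r := (R : ℝ)) (hr := by exact_mod_cast D.hR) (q := 0) (c := ρ)
    (hy := hy) (hq := by rw [norm_zero]; exact_mod_cast D.hR)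
    (hc := by rw [norm_nC D.hv C]; exact_mod_cast hρ)
  rw [pt, map_zero, zero_add] at h
  exact h

/-- the disc field in the circle field -/
def frE (ρ : C) (hρ : v ρ < R) (h0 : ρ ≠ 0) : D.FD →+* E :=
  IsFractionRing.lift (D.evE_injective A hy ρ hρ h0)

theorem frE_algebraMap (ρ : C) (hρ : v ρ < R) (h0 : ρ ≠ 0) (F : BS v C R D.hR) :
    D.frE A hy ρ hρ h0 (algebraMap (BS v C R D.hR) D.FD F) = D.evE A hy ρ hρ F :=
  IsFractionRing.lift_algebraMap _ F

/-- **the circle `|x| = |ρ|` in `SD`** -/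
def iota (ρ : C) (hρ : v ρ < R) (h0 : ρ ≠ 0) : D.SD →+* E := (D.frE A hy ρ hρ h0).comp D.kap

theorem iota_const (ρ : C) (hρ : v ρ < R) (h0 : ρ ≠ 0) (a : C) (ha : (a : Ω) ∈ D.SD) :
    D.iota A hy ρ hρ h0 ⟨a, ha⟩ = A.algebraMap a := by
  rw [iota, RingHom.comp_apply, D.kap_const, D.frE_algebraMap, D.evE_C]

theorem iota_x (ρ : C) (hρ : v ρ < R) (h0 : ρ ≠ 0) (hx : x ∈ D.SD) :
    D.iota A hy ρ hρ h0 ⟨x, hx⟩ = A.algebraMap ρ * y := by
  rw [iota, RingHom.comp_apply, D.kap_x, D.frE_algebraMap, D.evE_X]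

theorem iota_rep (ρ : C) (hρ : v ρ < R) (h0 : ρ ≠ 0) {f : Ω} {G H : C⟦X⟧}
    (h : IsRep v P C R x f G H) (hf : f ∈ D.SD) :
    D.iota A hy ρ hρ h0 ⟨f, hf⟩ =
      D.evE A hy ρ hρ ⟨G, mem_BS.2 h.bG⟩ / D.evE A hy ρ hρ ⟨H, mem_BS.2 h.bH⟩ := by
  rw [iota, RingHom.comp_apply, D.kap_rep h hf, map_div₀, D.frE_algebraMap, D.frE_algebraMap]

theorem evE_ne_zero (ρ : C) (hρ : v ρ < R) (h0 : ρ ≠ 0) {H : C⟦X⟧} (hH : H ≠ 0)
    (bH : H ∈ BS v C R D.hR) : D.evE A hy ρ hρ ⟨H, bH⟩ ≠ 0 := by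
  intro h1
  have h2 := D.evE_injective A hy ρ hρ h0 (h1.trans (map_zero _).symm)
  exact hH (congrArg Subtype.val h2)

theorem iota_mul_rep (ρ : C) (hρ : v ρ < R) (h0 : ρ ≠ 0) {f : Ω} {G H : C⟦X⟧}
    (h : IsRep v P C R x f G H) (hf : f ∈ D.SD) :
    D.iota A hy ρ hρ h0 ⟨f, hf⟩ * D.evE A hy ρ hρ ⟨H, mem_BS.2 h.bH⟩ =
      D.evE A hy ρ hρ ⟨G, mem_BS.2 h.bG⟩ := by
  rw [D.iota_rep A hy ρ hρ h0 h hf, div_mul_cancel₀]
  exact D.evE_ne_zero A hy ρ hρ h0 h.ne _

end DiscData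

end Crest.Agent.R013.Set_803
end
end

-- ▼ part R013/Set5_803
section


/-!
# Row 13, B-SET, part 5: `FP → Ω` (norm case) with the bound on `AP`
-/

set_option autoImplicit false

namespace Crest.Agent.R013.Set_803

open Filter Topology Polynomial Crest.Agent.R013.Gl946

/-- Extension of a norm-nonincreasing ring homomorphism to the closure of a subring, with the
bound. -/
theorem ext_closure' {E : Type*} [NormedField E] (S0 : Subring E) {Ω : Type*} [NormedField Ω]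
    [CompleteSpace Ω] (ψ : S0 →+* Ω) (hψ : ∀ s, ‖ψ s‖ ≤ ‖(s : E)‖) :
    ∃ Ψ : S0.topologicalClosure →+* Ω,
      (∀ s (hs : s ∈ S0), Ψ ⟨s, S0.le_topologicalClosure hs⟩ = ψ ⟨s, hs⟩) ∧
      ∀ a, ‖Ψ a‖ ≤ ‖(a : E)‖ := by
  set i : S0 →+* S0.topologicalClosure := Subring.inclusion S0.le_topologicalClosure with hi
  have hui : IsUniformInducing i := by
    have h1 : IsUniformInducing (fun x : S0.topologicalClosure => (x : E)) :=
      isUniformInducing_val _
    have h2 : IsUniformInducing (fun x : S0 => (x : E)) := isUniformInducing_val _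
    exact h1.of_comp_iff.1 h2
  have hdr : DenseRange i := by
    intro x
    rw [Metric.mem_closure_iff]
    intro ε hε
    obtain ⟨s, hs, hxs⟩ := Metric.mem_closure_iff.1 (show (x : E) ∈ closure (S0 : Set E) from x.2)
      ε hε
    exact ⟨i ⟨s, hs⟩, ⟨⟨s, hs⟩, rfl⟩, hxs⟩
  have huc : UniformContinuous ψ := by
    refine AddMonoidHomClass.uniformContinuous_of_bound ψ 1 fun s => ?_
    rw [one_mul]; exact hψ s
  refine ⟨IsDenseInducing.extendRingHom hui hdr huc, ?_, ?_⟩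
  · intro s hs
    exact (hui.isDenseInducing hdr).extend_eq huc.continuous ⟨s, hs⟩
  · intro a
    have hcont : Continuous (IsDenseInducing.extendRingHom hui hdr huc) :=
      uniformContinuous_uniformly_extend hui hdr huc |>.continuous
    refine hdr.induction_on (p := fun a => ‖IsDenseInducing.extendRingHom hui hdr huc a‖ ≤ ‖(a : E)‖)
      a (isClosed_le hcont.norm (continuous_norm.comp continuous_subtype_val)) fun s => ?_
    have : IsDenseInducing.extendRingHom hui hdr huc (i s) = ψ s :=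
      (hui.isDenseInducing hdr).extend_eq huc.continuous s
    rw [this]; exact hψ s

variable {k E : Type*} [NormedField k] [NormedField E] [NormedAlgebra k E]
variable [IsUltrametricDist E] [CompleteSpace E] {y : E} (hG : IsGauss k y)
variable {Ω : Type*} [NormedField Ω] [IsUltrametricDist Ω] [CompleteSpace Ω]

/-- **norm case, inside**: `‖y‖_Ω < 1`, with the bound on `AP`. -/
theorem mapFP_norm' {k E : Type*} [NontriviallyNormedField k] [IsUltrametricDist k]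
    [NormedField E] [NormedAlgebra k E] [IsUltrametricDist E] [CompleteSpace E] {y : E}
    (hG : IsGauss k y) [CompleteSpace k] {π : k} (hπ : IsUnif π) (hd : DenseRat k y)
    (ψ : KY hG →+* Ω) (hk : ∀ c : k, ‖ψ ⟨algebraMap k E c, const_mem_KY hG c⟩‖ ≤ ‖c‖)
    (hy : ‖ψ ⟨y, y_mem_KY hG⟩‖ < 1) :
    ∃ Φ : FP hG hπ hd →+* Ω, (∀ z (hz : z ∈ KY hG), Φ ⟨z, KY_le_FP hG hπ hd hz⟩ = ψ ⟨z, hz⟩) ∧
      ∀ a (_ : a ∈ AP hG) (ha' : a ∈ FP hG hπ hd), ‖Φ ⟨a, ha'⟩‖ ≤ ‖a‖ := by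
  set S0 : Subring E := (AP0alg hG).toSubring with hS0
  have hS0le : S0 ≤ (KY hG).toSubring := by
    rintro _ ⟨f, g, h1, h2, rfl⟩
    exact ⟨f, g, by rintro rfl; simp at h2, rfl⟩
  have oadd : ∀ a b : Ω, ‖a + b‖ ≤ max ‖a‖ ‖b‖ := fun a b => IsUltrametricDist.norm_add_le_max a b
  obtain ⟨Ψ, h1, h2⟩ := ext_closure' S0 (ψ.comp (Subring.inclusion hS0le)) (by
    rintro ⟨_, f, g, hg1, hg0, rfl⟩
    have hgn := hG.norm_of_coeff_zero g hg1 hg0
    have hg_ne : g ≠ 0 := by rintro rfl; simp at hg0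
    have e1 : (ψ.comp (Subring.inclusion hS0le)) ⟨aeval y f / aeval y g, f, g, hg1, hg0, rfl⟩ =
        ψ ⟨aeval y f, aeval_mem_KY hG f⟩ / ψ ⟨aeval y g, aeval_mem_KY hG g⟩ :=
      map_div₀ ψ ⟨aeval y f, aeval_mem_KY hG f⟩ ⟨aeval y g, aeval_mem_KY hG g⟩
    rw [e1, norm_div, norm_div, hgn, div_one]
    have hf : ‖ψ ⟨aeval y f, aeval_mem_KY hG f⟩‖ ≤ ‖aeval y f‖ :=
      psi_poly_le (KY hG) (const_mem_KY hG) y (y_mem_KY hG) ψ hy.le f (aeval_mem_KY hG f)
        (norm_nonneg _) fun i => (hk _).trans (hG.coeff_le f i)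
    -- ‖ψ g‖ = 1
    have hg : ‖ψ ⟨aeval y g, aeval_mem_KY hG g⟩‖ = 1 := by
      have e2 : (⟨aeval y g, aeval_mem_KY hG g⟩ : KY hG) =
          ⟨aeval y g.divX, aeval_mem_KY hG _⟩ * ⟨y, y_mem_KY hG⟩ + 1 := by
        ext
        push_cast
        conv_lhs => rw [← divX_mul_X_add g, hg0]
        simp
      have h3 : ‖ψ ⟨aeval y g.divX, aeval_mem_KY hG _⟩ * ψ ⟨y, y_mem_KY hG⟩‖ < 1 := by
        rw [norm_mul]
        have h4 : ‖ψ ⟨aeval y g.divX, aeval_mem_KY hG _⟩‖ ≤ 1 :=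
          psi_poly_le (KY hG) (const_mem_KY hG) y (y_mem_KY hG) ψ hy.le _ (aeval_mem_KY hG _)
            zero_le_one fun i => (hk _).trans (by
              rw [coeff_divX]; exact (hG.coeff_le g _).trans hg1)
        calc _ ≤ 1 * ‖ψ ⟨y, y_mem_KY hG⟩‖ := mul_le_mul_of_nonneg_right h4 (norm_nonneg _)
          _ < 1 := by rw [one_mul]; exact hy
      rw [e2, map_add, map_mul, map_one]
      set t := ψ ⟨aeval y g.divX, aeval_mem_KY hG _⟩ * ψ ⟨y, y_mem_KY hG⟩ with ht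
      apply le_antisymm
      · refine (oadd _ _).trans (max_le h3.le ?_)
        rw [norm_one]
      · by_contra hcon
        push Not at hcon
        have h5 : (1 : Ω) = (t + 1) + (-t) := by ring
        have h6 : ‖(1 : Ω)‖ < 1 := by
          conv_lhs => rw [h5]
          refine (oadd _ _).trans_lt (max_lt hcon ?_)
          rw [norm_neg]; exact h3
        rw [norm_one] at h6
        exact lt_irrefl _ h6
    rw [hg, div_one]
    exact hf)
  have hle : (AP hG).toSubring ≤ S0.topologicalClosure := fun x hx => hx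
  obtain ⟨Φ, h3, -, h4⟩ := mapFP_of_AP' hG hπ hd ψ ⊤ (Ψ.comp (Subring.inclusion hle))
    (fun f => h1 (aeval y f) ⟨f, 1, by simp, by simp, by simp⟩) (fun _ => Subfield.mem_top _)
  refine ⟨Φ, h3, fun a ha ha' => ?_⟩
  rw [h4 a ha ha']
  exact h2 _

/-- Continuity on `AP` : limits of sequences. -/
theorem tendsto_of_bound {k E : Type*} [NormedField k] [NormedField E] [NormedAlgebra k E]
    [IsUltrametricDist E] [CompleteSpace E] {y : E} (hG : IsGauss k y) [CompleteSpace k] {π : k}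
    (hπ : IsUnif π) (hd : DenseRat k y) {Ω : Type*} [NormedField Ω] (Φ : FP hG hπ hd →+* Ω)
    (hΦ : ∀ a (_ : a ∈ AP hG) (ha' : a ∈ FP hG hπ hd), ‖Φ ⟨a, ha'⟩‖ ≤ ‖a‖)
    (u : ℕ → E) (hu : ∀ n, u n ∈ AP hG) (hu' : ∀ n, u n ∈ FP hG hπ hd) {a : E} (ha : a ∈ AP hG)
    (ha' : a ∈ FP hG hπ hd) (h : Tendsto u atTop (𝓝 a)) :
    Tendsto (fun n => Φ ⟨u n, hu' n⟩) atTop (𝓝 (Φ ⟨a, ha'⟩)) := by
  rw [tendsto_iff_norm_sub_tendsto_zero] at h ⊢
  refine squeeze_zero (fun _ => norm_nonneg _) (fun n => ?_) h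
  have e : Φ ⟨u n, hu' n⟩ - Φ ⟨a, ha'⟩ = Φ ⟨u n - a, sub_mem (hu' n) ha'⟩ := by
    rw [← map_sub]; rfl
  rw [e]
  exact hΦ _ (sub_mem (hu n) ha) _

end Crest.Agent.R013.Set_803
end

-- ▼ part R013/Set6_803

/-!
# Row 13, B-SET, part 6: `iota f ∈ FP`, and the homomorphism `FP → Cpl v`.
-/

set_option autoImplicit false
set_option linter.unusedSectionVars false
set_option linter.style.haveILetI false

noncomputable section

namespace Crest.Agent.R013.Set_803

open scoped NNReal Topology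
open Filter PowerSeries Crest.NumberTheoryR.Sect Crest.Agent.R013.A2a_275 Crest.Agent.R013.Gl946
  Crest.Agent.R013.SE_669 Crest.Agent.R013.KAS2_940 Crest.Agent.R013.KAS3_940
  Crest.Agent.R013.Good1_940 Crest.Agent.R013.Good3_940 Crest.Agent.R013.CGood_588

section Gen

variable {k E : Type*} [NontriviallyNormedField k] [IsUltrametricDist k] [CompleteSpace k]
  [NormedField E] [NormedAlgebra k E] [IsUltrametricDist E] [CompleteSpace E]

theorem hasSum_ev {r1 : ℝ} {hr1 : 0 < r1} {x : E} {hx : ‖x‖ < r1} (f : bsub (K := k) r1 hr1) :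
    HasSum (fun n => algebraMap k E (coeff n f.1) * x ^ n) (ev hr1 x hx f) :=
  (summable_norm f.2.choose_spec hx).of_norm.hasSum

theorem tendsto_ev {r1 : ℝ} {hr1 : 0 < r1} {x : E} {hx : ‖x‖ < r1} (f : bsub (K := k) r1 hr1) :
    Tendsto (fun n => ∑ i ∈ Finset.range n, algebraMap k E (coeff i f.1) * x ^ i) atTop
      (𝓝 (ev hr1 x hx f)) :=
  (hasSum_ev f).tendsto_sum_nat

theorem psum_mem_AP {y : E} (hG : IsGauss k y) (f : k⟦X⟧) (ρ : k) (n : ℕ) :
    ∑ i ∈ Finset.range n, algebraMap k E (coeff i f) * (algebraMap k E ρ * y) ^ i ∈ AP hG := by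
  have hy : y ∈ AP hG := by
    have := aeval_mem_AP hG (Polynomial.X : Polynomial k)
    rwa [Polynomial.aeval_X] at this
  exact sum_mem fun i _ => mul_mem ((AP hG).algebraMap_mem _)
    (pow_mem (mul_mem ((AP hG).algebraMap_mem _) hy) _)


theorem AP_le_FP {y : E} (hG : IsGauss k y) {π : k} (hπ : IsUnif π) (hd : DenseRat k y) {a : E}
    (ha : a ∈ AP hG) : a ∈ FP hG hπ hd :=
  ⟨a, ha, 1, one_mem _, one_ne_zero, (div_one a).symm⟩


/-- A homomorphism on `k(y) ⊂ E` from a homomorphism on a field containing `k(y)`. -/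
theorem exists_psi {y : E} (hG : IsGauss k y) {S Ω : Type*} [Field S] [Field Ω] (i : S →+* E)
    (j : S →+* Ω) (hi : ∀ a : k, ∃ s, i s = algebraMap k E a) (hy : ∃ s, i s = y) :
    ∃ ψ : KY hG →+* Ω, ∀ (s : S) (h : i s ∈ KY hG), ψ ⟨i s, h⟩ = j s := by
  have hpoly : ∀ f : Polynomial k, ∃ s, i s = Polynomial.aeval y f := by
    intro f
    change Polynomial.aeval y f ∈ i.fieldRange
    rw [Polynomial.aeval_eq_sum_range]
    refine sum_mem fun n _ => ?_
    rw [Algebra.smul_def]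
    exact mul_mem (hi _) (pow_mem hy _)
  have hall : ∀ z : KY hG, ∃ s, i s = z := by
    rintro ⟨_, f, g, _, rfl⟩
    obtain ⟨s, hs⟩ := hpoly f
    obtain ⟨t, ht⟩ := hpoly g
    exact ⟨s / t, by rw [map_div₀, hs, ht]⟩
  choose σ hσ using hall
  refine ⟨{ toFun := fun z => j (σ z), map_one' := ?_, map_mul' := fun a b => ?_,
            map_zero' := ?_, map_add' := fun a b => ?_ }, fun s h => ?_⟩
  · rw [← map_one j]; congr 1; apply i.injective; rw [hσ, map_one]; rfl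
  · rw [← map_mul]; congr 1; apply i.injective; rw [hσ, map_mul, hσ, hσ]; rfl
  · rw [← map_zero j]; congr 1; apply i.injective; rw [hσ, map_zero]; rfl
  · change j _ = j _ + j _
    rw [← map_add]; congr 1; apply i.injective; rw [hσ, map_add, hσ, hσ]; rfl
  · change j _ = j _
    congr 1; apply i.injective; rw [hσ]

/-- **`FP → Ω` compatible with a homomorphism `S → Ω`, where `S → E` contains the constants and `ρ y`.**
`b` : the bounded series at `ρ y`. -/
theorem exists_Phi_gen {y : E} (hG : IsGauss k y) {π : k} (hπ : IsUnif π) (hd : DenseRat k y)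
    {S Ω : Type*} [Field S] [NormedField Ω] [IsUltrametricDist Ω] [CompleteSpace Ω] (i : S →+* E)
    (j : S →+* Ω) (a : k → S) (ha : ∀ c : k, i (a c) = algebraMap k E c)
    (hja : ∀ c : k, ‖j (a c)‖ ≤ ‖c‖) (t : S) {ρ : k} (hρ0 : ρ ≠ 0) (ht : i t = algebraMap k E ρ * y)
    (hjt : ‖j t‖ < ‖j (a ρ)‖) :
    ∃ Φ : FP hG hπ hd →+* Ω, (∀ (s : S) (h : i s ∈ KY hG), Φ ⟨i s, KY_le_FP hG hπ hd h⟩ = j s) ∧
      (∀ x (_ : x ∈ AP hG) (hx' : x ∈ FP hG hπ hd), ‖Φ ⟨x, hx'⟩‖ ≤ ‖x‖) ∧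
      ∀ (f : k⟦X⟧) (z : E) (hz : z ∈ AP hG),
        Tendsto (fun n => ∑ l ∈ Finset.range n, algebraMap k E (coeff l f) *
          (algebraMap k E ρ * y) ^ l) atTop (𝓝 z) →
        Tendsto (fun n => ∑ l ∈ Finset.range n, j (a (coeff l f)) * j t ^ l) atTop
          (𝓝 (Φ ⟨z, AP_le_FP hG hπ hd hz⟩)) := by
  have hρE : algebraMap k E ρ ≠ 0 := (map_ne_zero _).2 hρ0
  have hyS : i (t / a ρ) = y := by
    rw [map_div₀, ht, ha, mul_div_cancel_left₀ _ hρE]
  obtain ⟨ψ, hψ⟩ := exists_psi hG i j (fun c => ⟨a c, ha c⟩) ⟨_, hyS⟩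
  have hψc : ∀ c : k, ψ ⟨algebraMap k E c, const_mem_KY hG c⟩ = j (a c) := by
    intro c
    rw [← hψ (a c) (by rw [ha]; exact const_mem_KY hG c)]
    congr 1
    exact Subtype.ext (ha c).symm
  have hjρ : j (a ρ) ≠ 0 := by
    intro h0
    rw [h0, norm_zero] at hjt
    exact absurd hjt (not_lt.2 (norm_nonneg _))
  obtain ⟨Φ, h1, h2⟩ := mapFP_norm' hG hπ hd ψ (fun c => by rw [hψc]; exact hja c) (by
    have e : (⟨y, y_mem_KY hG⟩ : KY hG) = ⟨i (t / a ρ), by rw [hyS]; exact y_mem_KY hG⟩ :=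
      Subtype.ext hyS.symm
    rw [e, hψ, map_div₀, norm_div, div_lt_one (norm_pos_iff.2 hjρ)]
    exact hjt)
  have h3 : ∀ (s : S) (h : i s ∈ KY hG), Φ ⟨i s, KY_le_FP hG hπ hd h⟩ = j s := fun s h =>
    (h1 _ h).trans (hψ s h)
  refine ⟨Φ, h3, h2, fun f z hz h => ?_⟩
  have hKY : ∀ n, ∑ l ∈ Finset.range n, algebraMap k E (coeff l f) *
      (algebraMap k E ρ * y) ^ l ∈ KY hG := fun n => sum_mem fun l _ =>
    mul_mem (const_mem_KY hG _) (pow_mem (mul_mem (const_mem_KY hG _) (y_mem_KY hG)) _)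
  have h4 := tendsto_of_bound hG hπ hd Φ h2 _ (fun n => psum_mem_AP hG f ρ n)
    (fun n => KY_le_FP hG hπ hd (hKY n)) hz (AP_le_FP hG hπ hd hz) h
  refine h4.congr fun n => ?_
  have e : i (∑ l ∈ Finset.range n, a (coeff l f) * t ^ l) =
      ∑ l ∈ Finset.range n, algebraMap k E (coeff l f) * (algebraMap k E ρ * y) ^ l := by
    rw [map_sum]
    exact Finset.sum_congr rfl fun l _ => by rw [map_mul, map_pow, ha, ht]
  have h5 := h3 (∑ l ∈ Finset.range n, a (coeff l f) * t ^ l) (by rw [e]; exact hKY n)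
  have e2 : (⟨i (∑ l ∈ Finset.range n, a (coeff l f) * t ^ l), KY_le_FP hG hπ hd
      (by rw [e]; exact hKY n)⟩ : FP hG hπ hd) = ⟨_, KY_le_FP hG hπ hd (hKY n)⟩ := Subtype.ext e
  rw [← e2, h5, map_sum]
  exact Finset.sum_congr rfl fun l _ => by rw [map_mul, map_pow]

end Gen

variable {k : Type*} [Field k] {Ω : Type*} [Field Ω] [Algebra k Ω]
variable {p : ℕ} [hp : Fact p.Prime] [Algebra ℚ_[p] k] {v P : Valuation Ω ℝ≥0}
  {C : IntermediateField k Ω}

namespace DiscData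

variable {R : ℝ≥0} {x q c : Ω} (D : DiscData p v P C R x q c)
  [FiniteDimensional ℚ_[p] k] [FiniteDimensional k C]
  {E : Type*} [NormedField E] [IsUltrametricDist E] [CompleteSpace E]
  (A : NAlg D.hv C E) {y : E} (hy : IsG D.hv C A y)

/-- expansion in `E` -/
theorem tendsto_evE (ρ : C) (hρ : v ρ < R) (F : BS v C R D.hR) :
    Tendsto (fun n => ∑ i ∈ Finset.range n, A.algebraMap (coeff i F.1) *
      (A.algebraMap ρ * y) ^ i) atTop (𝓝 (D.evE A hy ρ hρ F)) := by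
  letI := nC D.hv C
  haveI := ultra_nC D.hv C
  haveI := complete_nC D.hv C
  letI := A
  have h1 : pt (k := C) (0 : C) ρ y = algebraMap C E ρ * y := by
    rw [pt, map_zero, zero_add]
  have h2 := tendsto_ev (k := C) (E := E) (r1 := (R : ℝ)) (hr1 := by exact_mod_cast D.hR)
    (x := pt (k := C) (0 : C) ρ y) (hx := norm_pt_lt hy (by rw [norm_zero]; exact_mod_cast D.hR)
      (by rw [norm_nC D.hv C]; exact_mod_cast hρ)) F
  have h3 : (fun n => ∑ i ∈ Finset.range n, algebraMap C E (coeff i F.1) *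
      pt (k := C) (0 : C) ρ y ^ i) = fun n => ∑ i ∈ Finset.range n, algebraMap C E (coeff i F.1) *
      (algebraMap C E ρ * y) ^ i := by rw [h1]
  rw [h3] at h2
  exact h2

theorem evE_mem_AP (ρ : C) (hρ : v ρ < R) (F : BS v C R D.hR) :
    letI := nC D.hv C; letI := A
    D.evE A hy ρ hρ F ∈ AP hy := by
  letI := nC D.hv C
  haveI := ultra_nC D.hv C
  haveI := complete_nC D.hv C
  letI := A
  have hc : IsClosed ((AP hy : Subalgebra C E) : Set E) := isClosed_AP hy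
  exact hc.mem_of_tendsto (D.tendsto_evE A hy ρ hρ F) (Eventually.of_forall fun n =>
    psum_mem_AP hy _ _ _)

/-- **`iota f ∈ FP`** -/
theorem iota_mem_FP (ρ : C) (hρ : v ρ < R) (h0 : ρ ≠ 0) {π : C}
    (hπ : @IsUnif C (nC D.hv C).toNormedField π) (hd : DenseR D.hv C A y) (f : D.SD) :
    letI := nC D.hv C
    haveI := complete_nC D.hv C
    letI := A
    D.iota A hy ρ hρ h0 f ∈ FP hy hπ hd := by
  letI := nC D.hv C
  haveI := ultra_nC D.hv C
  haveI := complete_nC D.hv C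
  letI := A
  obtain ⟨f, G, H, h⟩ := f
  rw [D.iota_rep A hy ρ hρ h0 h]
  exact div_mem (AP_le_FP hy hπ hd (D.evE_mem_AP A hy ρ hρ _))
    (AP_le_FP hy hπ hd (D.evE_mem_AP A hy ρ hρ _))

/-- **(S4)** the homomorphism `FP → Cpl v` of the circle `|x| = |ρ|` for the norm `v`, when the centre
`q` and the radius `|c|` of `v` are `< |ρ|`; the identity on `SD`. -/
theorem exists_Phi (ρ : C) (hρ : v ρ < R) (h0 : ρ ≠ 0) (hq : v q < v ρ) (hc : v c < v ρ) {π : C}
    (hπ : @IsUnif C (nC D.hv C).toNormedField π) (hd : DenseR D.hv C A y) :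
    letI := nC D.hv C
    haveI := complete_nC D.hv C
    letI := A
    ∃ Φ : FP hy hπ hd →+* Cpl v,
      (∀ f : D.SD, Φ ⟨D.iota A hy ρ hρ h0 f, D.iota_mem_FP A hy ρ hρ h0 hπ hd f⟩ =
        toCpl v (f : Ω)) ∧
      ∀ x (_ : x ∈ AP hy) (hx' : x ∈ FP hy hπ hd), ‖Φ ⟨x, hx'⟩‖ ≤ ‖x‖ := by
  letI := nC D.hv C
  haveI := ultra_nC D.hv C
  haveI := complete_nC D.hv C
  letI := A
  let a : C → D.SD := fun b => ⟨b, D.C_le_SD b⟩
  have hxρ : v x < v ρ := by
    rw [D.x_eq]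
    refine (v.map_add _ _).trans_lt (max_lt hq ?_)
    rw [map_mul, gaussAt_norm D.gauss, mul_one]
    exact hc
  obtain ⟨Φ, h1, h2, h3⟩ := exists_Phi_gen hy hπ hd (D.iota A hy ρ hρ h0)
    ((toCpl v).comp D.SD.subtype) a (fun b => D.iota_const A hy ρ hρ h0 b (D.C_le_SD b))
    (fun b => by
      rw [norm_nC D.hv C]
      exact (norm_toCpl v (b : Ω)).le) ⟨x, D.x_mem_SD⟩ h0 (D.iota_x A hy ρ hρ h0 D.x_mem_SD)
    (by
      change ‖toCpl v x‖ < ‖toCpl v (ρ : Ω)‖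
      rw [norm_toCpl, norm_toCpl]
      exact_mod_cast hxρ)
  have h4 : ∀ F : BS v C R D.hR, Φ ⟨D.evE A hy ρ hρ F, AP_le_FP hy hπ hd
      (D.evE_mem_AP A hy ρ hρ F)⟩ = evW v C R D.hR x D.hx F := by
    intro F
    have h5 := h3 F.1 _ (D.evE_mem_AP A hy ρ hρ F) (D.tendsto_evE A hy ρ hρ F)
    have h6 := (hasSum_evW (hx := D.hx) F).tendsto_sum_nat
    exact tendsto_nhds_unique h5 h6
  refine ⟨Φ, ?_, h2⟩
  rintro ⟨f, G, H, h⟩
  have hH : evW v C R D.hR x D.hx ⟨H, mem_BS.2 h.bH⟩ ≠ 0 := by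
    intro h0
    have h1 := D.evW_injective (h0.trans (map_zero _).symm)
    exact h.ne (congrArg Subtype.val h1)
  have h5 := D.iota_mul_rep A hy ρ hρ h0 h ⟨G, H, h⟩
  have h6 : (⟨D.iota A hy ρ hρ h0 ⟨f, ⟨G, H, h⟩⟩, D.iota_mem_FP A hy ρ hρ h0 hπ hd _⟩ :
      FP hy hπ hd) * ⟨D.evE A hy ρ hρ ⟨H, mem_BS.2 h.bH⟩, AP_le_FP hy hπ hd
      (D.evE_mem_AP A hy ρ hρ _)⟩ = ⟨D.evE A hy ρ hρ ⟨G, mem_BS.2 h.bG⟩, AP_le_FP hy hπ hd
      (D.evE_mem_AP A hy ρ hρ _)⟩ := Subtype.ext h5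
  have h7 := congrArg Φ h6
  rw [map_mul, h4, h4, ← h.v_eq (hR := D.hR) (hx := D.hx)] at h7
  exact mul_right_cancel₀ hH h7

end DiscData

end Crest.Agent.R013.Set_803
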