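import Crest.Agent.R013.NB5_92
import Crest.Agent.R013.Set6_803
import Crest.Agent.R013.Half3_930
import Crest.Agent.R013.BTor4_914
import Crest.Agent.R013.BTor6_914
import Crest.Agent.R013.RZ4_365
import Crest.Agent.R013.OneD_622
import Mathlib
import Crest.Agent.R013.BTor5_914
import Crest.Agent.R013.Desc5_372
import Crest.Agent.R013.RHP2_240
import Crest.Agent.R013.Set3_803
import Crest.Agent.R013.Set10_803
import Crest.Agent.R013.Set8_803
import Crest.Agent.R013.Tors15_235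

-- ▼ part R013/NB6_92
section

/-!
# B-NB, part 6: two circles `|x| = |ϖ|`, `|x| = |ρ₁| ≤ |ϖ|/s`, in one circle field `E`
-/

set_option autoImplicit false
set_option linter.unusedSectionVars false
set_option linter.style.haveILetI false

namespace Crest.Agent.R013.NB_92

open Module Polynomial Crest.Agent.R013.Gl946 Crest.Agent.R013.CutCov_92
open Crest.Agent.R013.Annu_930 (MN)
open Crest.Agent.R013.Half_930 (Am Ap)
open scoped NNReal
open Crest.Agent.R013.A2a_275 (Cpl toCpl norm_toCpl)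
open Crest.NumberTheoryR.Sect (IsPlace)

section Theta

variable {κ E : Type*} [NontriviallyNormedField κ] [CompleteSpace κ] [IsUltrametricDist κ]
  [NormedField E] [NormedAlgebra κ E] [IsUltrametricDist E] [CompleteSpace E]
  {y : E} (hG : IsGauss κ y) {L : Type*} [Field L] [Algebra κ L]

/-- A circle: `ι : L → E` the identity on the constants, `x ↦ ϖ y`. -/
structure Circ (κ : Type*) {E : Type*} [NontriviallyNormedField κ] [NormedField E]
    [NormedAlgebra κ E] (y : E) {L : Type*} [Field L] [Algebra κ L]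
    (ι : L →+* E) (x : L) (ϖ : κ) : Prop where
  ne : ϖ ≠ 0
  const : ∀ a : κ, ι (algebraMap κ L a) = algebraMap κ E a
  x : ι x = algebraMap κ E ϖ * y

namespace Circ

variable {ι : L →+* E} {x : L} {ϖ : κ} (C : Circ κ y ι x ϖ)

include C

theorem y_eq : ι (x / algebraMap κ L ϖ) = y := by
  rw [map_div₀, C.x, C.const, mul_div_cancel_left₀]
  exact (_root_.map_ne_zero _).2 C.ne

theorem exists_theta : ∃ θ : KY hG →+* L, (∀ z, ι (θ z) = z) ∧
    ∀ l (h : ι l ∈ KY hG), θ ⟨ι l, h⟩ = l := by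
  obtain ⟨θ, hθ⟩ := Set_803.exists_psi hG ι (RingHom.id L)
    (fun a => ⟨_, C.const a⟩) ⟨_, C.y_eq⟩
  refine ⟨θ, fun z => ?_, fun l h => hθ l h⟩
  obtain ⟨z, hz⟩ := z
  have hrange : z ∈ ι.fieldRange := by
    obtain ⟨f, g, -, rfl⟩ := id hz
    have hpoly : ∀ f : κ[X], aeval y f ∈ ι.fieldRange := by
      intro f
      rw [aeval_eq_sum_range]
      refine sum_mem fun n _ => ?_
      rw [Algebra.smul_def]
      have hc1 : algebraMap κ E (f.coeff n) ∈ ι.fieldRange := ⟨_, C.const _⟩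
      have hc2 : y ∈ ι.fieldRange := ⟨_, C.y_eq⟩
      exact mul_mem hc1 (pow_mem hc2 _)
    exact div_mem (hpoly f) (hpoly g)
  obtain ⟨l, rfl⟩ := hrange
  rw [hθ l hz]; rfl

/-- elements of `KY` -/
theorem aeval_mem {ρ : κ} {ι' : L →+* E} (C' : Circ κ y ι' x ρ) {l : L} (hl : ι l ∈ KY hG) :
    ι' l ∈ KY hG := by
  have hpoly : ∀ f : κ[X], ∃ g : κ[X], aeval y f = ι (aeval (x / algebraMap κ L ϖ) f) ∧
      ι' (aeval (x / algebraMap κ L ϖ) f) = aeval y g := by
    intro f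
    refine ⟨f.comp (Polynomial.C (ρ / ϖ) * X), ?_, ?_⟩
    · rw [aeval_eq_sum_range, aeval_eq_sum_range, map_sum]
      refine Finset.sum_congr rfl fun n _ => ?_
      rw [Algebra.smul_def, Algebra.smul_def, map_mul, map_pow, C.y_eq, C.const]
    · rw [aeval_comp, map_mul, aeval_C, aeval_X, aeval_eq_sum_range, aeval_eq_sum_range, map_sum]
      refine Finset.sum_congr rfl fun n _ => ?_
      rw [Algebra.smul_def, Algebra.smul_def, map_mul, map_pow, map_div₀, C'.x, C'.const,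
        C'.const, map_div₀]
      congr 2
      ring
  obtain ⟨f, g, hg, e⟩ := id hl
  obtain ⟨f', h1, h2⟩ := hpoly f
  obtain ⟨g', h3, h4⟩ := hpoly g
  have e2 : l = aeval (x / algebraMap κ L ϖ) f / aeval (x / algebraMap κ L ϖ) g := by
    apply ι.injective
    rw [e, map_div₀, h1, h3]
  rw [e2, map_div₀, h2, h4]
  exact div_mem (aeval_mem_KY hG _) (aeval_mem_KY hG _)

end Circ

end Theta

section Core

universe u

variable {κ E : Type u} [NontriviallyNormedField κ] [CompleteSpace κ] [IsUltrametricDist κ]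
  [NormedField E] [NormedAlgebra κ E] [IsUltrametricDist E] [CompleteSpace E]
  {y : E} (hG : IsGauss κ y) {π₀ : κ} (hπ : IsUnif π₀) (hd : DenseRat κ y)

/-- The data of a re-patched class. -/
structure Patched {L M : Type u} [Field L] [Algebra κ L] [Field M] [Algebra L M] [Algebra κ M]
    (hG : IsGauss κ y) (ι1 : L →+* E) (x : L) (ρ1 : κ) (N : ℕ) (h h' : M) : Prop where
  ne : h' ≠ 0
  ex : ∃ (d : ℕ) (c : Fin d → RU κ y) (m : Fin d → M),
    ∀ (T : Type u) (_ : CommRing T) (ρ : RU κ y →+* T) (κ' : M →+* T),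
      (∀ (l : L) (hl : ι1 l ∈ KY hG), ρ ⟨ι1 l, KY_le_RU hG hl⟩ = κ' (algebraMap L M l)) →
      (∑ i, ρ (c i) * κ' (m i)) ^ N = κ' h'
  val : ∀ w : Valuation M ℝ≥0, ((∀ a : κ, w (algebraMap κ M a) = ‖a‖₊) ∨ IsPlace κ w) →
    ∃ g : M, g ≠ 0 ∧ (w (h' / g ^ N - 1) < 1 ∨ w (h' / (h * g ^ N) - 1) < 1)
  inside : ∀ w : Valuation M ℝ≥0, (∀ a : κ, w (algebraMap κ M a) = ‖a‖₊) →
    w (algebraMap L M x) < ‖ρ1‖₊ → ∃ g : M, g ≠ 0 ∧ w (h' / (h * g ^ N) - 1) < 1

variable {L M : Type u} [Field L] [Algebra κ L] [Field M] [Algebra L M] [FiniteDimensional L M]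
  [Algebra κ M] [IsScalarTower κ L M] {ι1 : L →+* E} {x : L} {ρ1 : κ} (C1 : Circ κ y ι1 x ρ1)

include hπ hd C1 in
/-- **Re-patching at the circle `|x| = |ρ₁|`.** -/
theorem exists_patched [CharZero κ] {F0 : Type*} [Field F0] [Algebra F0 L] [FiniteDimensional F0 L]
    (hF0 : ∀ z : F0, ι1 (algebraMap F0 L z) ∈ KY hG) {N : ℕ} (hN : ‖(N : κ)‖ = 1) (h : M)
    (h0 : h ≠ 0)
    (hf : ∀ w : Valuation M ℝ≥0, (∀ l : L, ι1 l ∈ KY hG → w (algebraMap L M l) = ‖ι1 l‖₊) →
      ∃ g : M, w (h - g ^ N) < w h) :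
    ∃ h' : M, Patched hG ι1 x ρ1 N h h' := by
  classical
  letI iE : NontriviallyNormedField E :=
    { (inferInstance : NormedField E) with
      non_trivial := by
        obtain ⟨a, ha⟩ := NontriviallyNormedField.non_trivial (α := κ)
        exact ⟨algebraMap κ E a, by rw [norm_algebraMap']; exact ha⟩ }
  obtain ⟨θ, hθ, hθ'⟩ := C1.exists_theta hG
  letI a1 : Algebra (KY hG) L := θ.toAlgebra
  letI a2 : Algebra (KY hG) M := ((algebraMap L M).comp θ).toAlgebra
  haveI : IsScalarTower (KY hG) L M := IsScalarTower.of_algebraMap_eq fun _ => rfl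
  letI a3 : Algebra F0 (KY hG) :=
    ((ι1.comp (algebraMap F0 L)).codRestrict (KY hG) hF0).toAlgebra
  haveI : IsScalarTower F0 (KY hG) L := IsScalarTower.of_algebraMap_eq fun z =>
    (hθ' (algebraMap F0 L z) (hF0 z)).symm
  haveI : FiniteDimensional (KY hG) L := Module.Finite.of_restrictScalars_finite F0 _ _
  haveI : FiniteDimensional (KY hG) M := FiniteDimensional.trans (KY hG) L M
  haveI : CharZero (KY hG) := by
    haveI : CharZero E := charZero_of_injective_algebraMap (algebraMap κ E).injective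
    infer_instance
  have hθc : ∀ a : κ, θ ⟨algebraMap κ E a, const_mem_KY hG a⟩ = algebraMap κ L a := by
    intro a
    have e : (⟨algebraMap κ E a, const_mem_KY hG a⟩ : KY hG) =
        ⟨ι1 (algebraMap κ L a), by rw [C1.const]; exact const_mem_KY hG a⟩ :=
      Subtype.ext (C1.const a).symm
    rw [e, hθ']
  have hρE : algebraMap κ L ρ1 ≠ 0 := (_root_.map_ne_zero _).2 C1.ne
  have hθy : θ ⟨y, y_mem_KY hG⟩ = x / algebraMap κ L ρ1 := by
    have e : (⟨y, y_mem_KY hG⟩ : KY hG) =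
        ⟨ι1 (x / algebraMap κ L ρ1), by rw [C1.y_eq]; exact y_mem_KY hG⟩ :=
      Subtype.ext C1.y_eq.symm
    rw [e, hθ']
  obtain ⟨h', h1, ⟨d, c, m, h2⟩, h3, h4⟩ := repatch (K := M) hG hπ hd
    (fun a => by
      change algebraMap L M (θ ⟨algebraMap κ E a, const_mem_KY hG a⟩) = _
      rw [hθc, ← IsScalarTower.algebraMap_apply κ L M])
    N (by rw [← map_natCast (algebraMap κ E), norm_algebraMap', hN]) h h0
    (fun w hw => hf w fun l hl => by
      have := hw ⟨ι1 l, hl⟩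
      change w (algebraMap L M (θ ⟨ι1 l, hl⟩)) = _ at this
      rwa [hθ'] at this)
  refine ⟨h', h1, ⟨d, c, m, ?_⟩, h3, ?_⟩
  · intro T _ ρ κ' hρκ
    refine h2 T _ ρ κ' fun z => ?_
    change _ = κ' (algebraMap L M (θ z))
    have hz : ι1 (θ z) ∈ KY hG := by rw [hθ]; exact z.2
    rw [← hρκ (θ z) hz]
    congr 1
    exact Subtype.ext (hθ z).symm
  · intro w hw hwx
    refine h4 w hw ?_
    change w (algebraMap L M (θ ⟨y, y_mem_KY hG⟩)) < 1
    rw [hθy, map_div₀, ← IsScalarTower.algebraMap_apply κ L M, map_div₀, hw]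
    rw [div_lt_one (by
      have : (0 : ℝ) < ‖ρ1‖ := norm_pos_iff.2 C1.ne
      exact_mod_cast this)]
    exact hwx

end Core

section Core2

universe u

variable {κ E : Type u} [NontriviallyNormedField κ] [CompleteSpace κ] [IsUltrametricDist κ]
  [CharZero κ] [NormedField E] [NormedAlgebra κ E] [IsUltrametricDist E] [CompleteSpace E]
  {y : E} (hG : IsGauss κ y) {π₀ : κ} (hπ : IsUnif π₀) (hd : DenseRat κ y) {s : ℝ≥0} (hs : 1 < s)

/-- **B-NB for abstract fields** `L ⊆ M ⊆ Kh`: `ι` the circle `|x| = |ϖ|`, `ι1` the circle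
`|x| = |ρ₁|`, `‖ρ₁‖ s ≤ ‖ϖ‖`. -/
theorem exists_nbout2 {L M Kh : Type u} [Field L] [Algebra κ L] [Field M] [Algebra L M]
    [Algebra κ M] [Field Kh] [Algebra L Kh] [Algebra M Kh] [IsScalarTower L M Kh]
    [FiniteDimensional L Kh] [IsGalois L Kh] {ι ι1 : L →+* E} {x : L} {ϖ ρ1 : κ}
    (C : Circ κ y ι x ϖ) (C1 : Circ κ y ι1 x ρ1) (hρ : ‖ρ1‖₊ * s ≤ ‖ϖ‖₊)
    {F0 : Type*} [Field F0] [Algebra F0 L] [FiniteDimensional F0 L]
    (hF0 : ∀ z : F0, ι (algebraMap F0 L z) ∈ KY hG)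
    (hιP : ∀ l, ι l ∈ FP hG hπ hd) (hιM : ∀ l, ι l ∈ MN hG hs)
    -- class 1
    {n : ℕ} (hn : 0 < n) {ζ : κ} (hζ : IsPrimitiveRoot ζ n) {h h' : M}
    (hP : Patched hG ι1 x ρ1 n h h') (y1 : Kh) (hy1 : y1 ^ n = algebraMap M Kh h')
    {Ω : Type*} [Field Ω] [CharZero Ω] (φ : FP hG hπ hd →+* Ω) (κ' : M →+* Ω)
    (hφκ : ∀ l : L, φ ⟨ι l, hιP l⟩ = κ' (algebraMap L M l))
    (hno : ∀ w ∈ Subring.closure (Set.range φ ∪ Set.range κ'), w ^ n ≠ κ' h')
    -- class 2
    {n' : ℕ} (hn' : 0 < n') {ζ' : κ} (hζ' : IsPrimitiveRoot ζ' n')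
    (h2 : L) (y2 : Kh) (hy : y2 ^ n' = algebraMap L Kh h2) (hy' : y2 ∉ Set.range (algebraMap L Kh))
    (g2 : E) (hg2P : g2 ∈ FP hG hπ hd) (hg2M : g2 ∈ MN hG hs) (hg : g2 ^ n' = ι h2) :
    ∃ (U : IntermediateField L Kh) (V : Type u) (_ : CommRing V) (_ : Algebra E V) (d : ℕ)
      (X : Edge (gaussDatum hG hπ hd) V d) (j : U →+* V) (σ : V →ₐ[E] E),
      NBOut (gaussDatum hG hπ hd) (Am hG hπ hd hs) (Ap hG hπ hd hs) U V d X j σ ∧
        ∀ l : L, σ (j (algebraMap L U l)) = ι l := by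
  classical
  letI iE : NontriviallyNormedField E :=
    { (inferInstance : NormedField E) with
      non_trivial := by
        obtain ⟨a, ha⟩ := NontriviallyNormedField.non_trivial (α := κ)
        exact ⟨algebraMap κ E a, by rw [norm_algebraMap']; exact ha⟩ }
  haveI : CharZero E := charZero_of_injective_algebraMap (algebraMap κ E).injective
  obtain ⟨θ, hθ, hθ'⟩ := C.exists_theta hG
  obtain ⟨θ1, hθ1, hθ1'⟩ := C1.exists_theta hG
  have hfin : letI := θ.toAlgebra; FiniteDimensional (KY hG) L := by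
    letI a1 : Algebra (KY hG) L := θ.toAlgebra
    letI a3 : Algebra F0 (KY hG) :=
      ((ι.comp (algebraMap F0 L)).codRestrict (KY hG) hF0).toAlgebra
    haveI : IsScalarTower F0 (KY hG) L := IsScalarTower.of_algebraMap_eq fun z =>
      (hθ' (algebraMap F0 L z) (hF0 z)).symm
    exact Module.Finite.of_restrictScalars_finite F0 _ _
  have hρE : algebraMap κ L ρ1 ≠ 0 := (_root_.map_ne_zero _).2 C1.ne
  have hθ1c : ∀ a : κ, θ1 ⟨algebraMap κ E a, const_mem_KY hG a⟩ = algebraMap κ L a := by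
    intro a
    have e : (⟨algebraMap κ E a, const_mem_KY hG a⟩ : KY hG) =
        ⟨ι1 (algebraMap κ L a), by rw [C1.const]; exact const_mem_KY hG a⟩ :=
      Subtype.ext (C1.const a).symm
    rw [e, hθ1']
  have hθ1y : θ1 ⟨y, y_mem_KY hG⟩ = x / algebraMap κ L ρ1 := by
    have e : (⟨y, y_mem_KY hG⟩ : KY hG) =
        ⟨ι1 (x / algebraMap κ L ρ1), by rw [C1.y_eq]; exact y_mem_KY hG⟩ :=
      Subtype.ext C1.y_eq.symm
    rw [e, hθ1']
  have hϖn : (0 : ℝ≥0) < ‖ϖ‖₊ := by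
    have : (0 : ℝ) < ‖ϖ‖ := norm_pos_iff.2 C.ne
    exact_mod_cast this
  obtain ⟨res, hres, hresM⟩ := Half_930.exists_resU hG hG hs (ι.comp θ1)
    (fun a => by rw [RingHom.comp_apply, hθ1c, C.const]) (ρ1 / ϖ) (by
      rw [nnnorm_div, div_mul_eq_mul_div, div_le_one hϖn]; exact hρ) (by
      have e : (⟨y⁻¹, yinv_mem_KY hG⟩ : KY hG) = (⟨y, y_mem_KY hG⟩ : KY hG)⁻¹ := rfl
      have hϖE : algebraMap κ E ϖ ≠ 0 := (_root_.map_ne_zero _).2 C.ne
      rw [e, map_inv₀, RingHom.comp_apply, hθ1y, map_div₀, C.x, C.const, map_div₀]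
      field_simp)
  let fM : M →ₐ[L] Kh := IsScalarTower.toAlgHom L M Kh
  let M' : IntermediateField L Kh := fM.fieldRange
  let eM : M ≃+* M' := RingEquiv.ofBijective (fM.toRingHom.codRestrict M' fun a => ⟨a, rfl⟩)
    ⟨fun a b hab => fM.toRingHom.injective (congrArg Subtype.val hab), by
      rintro ⟨_, a, rfl⟩; exact ⟨a, rfl⟩⟩
  have heM : ∀ a, (eM a : Kh) = algebraMap M Kh a := fun _ => rfl
  have heL : ∀ l : L, eM (algebraMap L M l) = algebraMap L M' l := by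
    intro l
    apply Subtype.ext
    rw [heM, ← IsScalarTower.algebraMap_apply L M Kh]
    rfl
  have heL' : ∀ l : L, eM.symm (algebraMap L M' l) = algebraMap L M l := by
    intro l
    rw [← heL, RingEquiv.symm_apply_apply]
  have hyM : y1 ^ n ∈ M' := ⟨h', by rw [hy1]; rfl⟩
  have hyM' : (⟨y1 ^ n, hyM⟩ : M') = eM h' := Subtype.ext (hy1.trans (heM h').symm)
  obtain ⟨d, c, m, hcm⟩ := hP.ex
  refine exists_nbout hG hπ hd ι θ hθ hfin (Am hG hπ hd hs) (Ap hG hπ hd hs)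
    (Half_930.FP_le_Am hG hπ hd hs) (Half_930.RU_le_Ap hG hπ hd hs) hιP
    (fun l => Half_930.MN_le_Ap hG hπ hd hs (hιM l)) hn (ζ := algebraMap κ E ζ)
    (hζ.map_of_injective (algebraMap κ E).injective) (const_mem_KY hG ζ) M' y1 hyM θ1
    (fun z => ?_) res (fun z => ?_) (fun z => Half_930.MN_le_Am hG hπ hd hs (hresM z))
    (fun z => Half_930.MN_le_Ap hG hπ hd hs (hresM z)) c (fun i => eM (m i)) ?_ φ
    (κ'.comp eM.symm.toRingHom) ?_ ?_ hn' (ζ' := algebraMap κ E ζ')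
    (hζ'.map_of_injective (algebraMap κ E).injective) (const_mem_KY hG ζ') h2 y2 hy hy' g2 hg2P
    (Half_930.MN_le_Ap hG hπ hd hs hg2M) hg
  · -- `θ z = θ1 x`
    have h1 : ι1 (θ1 z) ∈ KY hG := by rw [hθ1]; exact z.2
    have h3 := C1.aeval_mem hG C h1
    exact ⟨⟨ι (θ1 z), h3⟩, hθ' _ h3⟩
  · have := hres z z.2
    exact this
  · intro T _ ρ κ'' hρκ
    have := hcm T _ ρ (κ''.comp eM.toRingHom) (fun l hl => by
      have h3 := hρκ ⟨ι1 l, hl⟩
      rw [hθ1' l hl] at h3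
      rw [h3, RingHom.comp_apply]
      congr 1
      exact (heL l).symm)
    rw [hyM']
    exact this
  · intro l
    rw [hφκ, RingHom.comp_apply]
    congr 1
    exact (heL' l).symm
  · intro w hw
    have e1 : Set.range (κ'.comp eM.symm.toRingHom) = Set.range κ' := by
      ext z
      constructor
      · rintro ⟨a, rfl⟩; exact ⟨eM.symm a, rfl⟩
      · rintro ⟨a, rfl⟩
        refine ⟨eM a, ?_⟩
        change κ' (eM.symm (eM a)) = κ' a
        rw [RingEquiv.symm_apply_apply]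
    rw [e1] at hw
    have h3 := hno w hw
    rw [hyM']
    change w ^ n ≠ κ' (eM.symm (eM h'))
    rwa [RingEquiv.symm_apply_apply]

end Core2

end Crest.Agent.R013.NB_92
end

-- ▼ part R013/NB7_92
section

/-!
# B-NB, part 7: functions on a disc at an inner circle; the second class
-/

set_option autoImplicit false
set_option linter.unusedSectionVars false
set_option linter.style.haveILetI false

namespace Crest.Agent.R013.NB_92

open Module Crest.Agent.R013.Gl946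
open Crest.Agent.R013.KAS1_940 Crest.Agent.R013.KAS3_940
open Crest.Agent.R013.Good1_940 Crest.Agent.R013.Good3_940
open Crest.Agent.R013.Annu_930 (AN MN)
open Crest.Agent.R013.BTor3_914 Crest.Agent.R013.BTor4_914
open scoped NNReal

variable {κ E : Type*} [NontriviallyNormedField κ] [CompleteSpace κ] [IsUltrametricDist κ]
  [NormedField E] [NormedAlgebra κ E] [IsUltrametricDist E] [CompleteSpace E]
  {y : E} (hG : IsGauss κ y)

theorem pt_zero (ϖ : κ) : pt (k := κ) (0 : κ) ϖ y = algebraMap κ E ϖ * y := by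
  rw [pt, map_zero, zero_add]

theorem evq_mem_AP {R : ℝ} (hR : 0 < R) {ϖ : κ} (h0 : ‖(0 : κ)‖ < R) (hϖ : ‖ϖ‖ < R)
    (f : bsub (K := κ) R hR) : evq hR hG h0 hϖ f ∈ AP hG := by
  have hc : IsClosed ((AP hG : Subalgebra κ E) : Set E) := isClosed_AP hG
  refine hc.mem_of_tendsto (Set_803.tendsto_ev f) (Filter.Eventually.of_forall fun n => ?_)
  have := Set_803.psum_mem_AP hG f.1 ϖ n
  rw [← pt_zero] at this
  exact this

theorem evq_mem_AN {s : ℝ≥0} (hs : 1 < s) {R : ℝ} (hR : 0 < R) {ϖ : κ} (h0 : ‖(0 : κ)‖ < R)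
    (hϖ : ‖ϖ‖ < R) (hϖ0 : ϖ ≠ 0) (hsR : s * ‖ϖ‖ < R) (f : bsub (K := κ) R hR) :
    evq hR hG h0 hϖ f ∈ AN hG hs := by
  obtain ⟨B, hB⟩ := id f.2
  have hB0 : 0 ≤ B := hB.nonneg
  have hϖn : 0 < ‖ϖ‖ := norm_pos_iff.2 hϖ0
  refine Annu_930.hasSum_mem_AN_of_bounded hG hs (fun n => PowerSeries.coeff n f.1 * ϖ ^ n)
    (R := ⟨R / ‖ϖ‖, by positivity⟩) (C := ⟨B, hB0⟩) ?_ (fun n => ?_) ?_
  · rw [← NNReal.coe_lt_coe]
    change (s : ℝ) < R / ‖ϖ‖
    rwa [lt_div_iff₀ hϖn]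
  · rw [← NNReal.coe_le_coe]
    change ‖PowerSeries.coeff n f.1 * ϖ ^ n‖ * (R / ‖ϖ‖) ^ n ≤ B
    rw [norm_mul, norm_pow, mul_assoc, ← mul_pow, mul_div_cancel₀ _ hϖn.ne']
    exact hB n
  · have := Set_803.hasSum_ev (x := pt (k := κ) (0 : κ) ϖ y) (hx := norm_pt_lt hG h0 hϖ) f
    have e : (fun n => (PowerSeries.coeff n f.1 * ϖ ^ n) • y ^ n) =
        fun n => algebraMap κ E (PowerSeries.coeff n f.1) * pt (k := κ) (0 : κ) ϖ y ^ n := by
      funext n
      rw [pt_zero, Algebra.smul_def, map_mul, map_pow]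
      ring
    rw [e]
    exact this

theorem frq_mem_FP {π : κ} (hπ : IsUnif π) (hd : DenseRat κ y) {R : ℝ} (hR : 0 < R) {ϖ : κ}
    (h0 : ‖(0 : κ)‖ < R) (hϖ : ‖ϖ‖ < R) (hϖ0 : ϖ ≠ 0) (f : FDisc κ R hR) :
    frq hR hG h0 hϖ hϖ0 f ∈ FP hG hπ hd := by
  obtain ⟨a, b, hb, rfl⟩ := IsFractionRing.div_surjective (A := bsub (K := κ) R hR) f
  rw [map_div₀, frq_algebraMap, frq_algebraMap]
  exact div_mem (Set_803.AP_le_FP hG hπ hd (evq_mem_AP hG hR h0 hϖ a))
    (Set_803.AP_le_FP hG hπ hd (evq_mem_AP hG hR h0 hϖ b))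

theorem frq_mem_MN {s : ℝ≥0} (hs : 1 < s) {R : ℝ} (hR : 0 < R) {ϖ : κ}
    (h0 : ‖(0 : κ)‖ < R) (hϖ : ‖ϖ‖ < R) (hϖ0 : ϖ ≠ 0) (hsR : s * ‖ϖ‖ < R) (f : FDisc κ R hR) :
    frq hR hG h0 hϖ hϖ0 f ∈ MN hG hs := by
  obtain ⟨a, b, hb, rfl⟩ := IsFractionRing.div_surjective (A := bsub (K := κ) R hR) f
  rw [map_div₀, frq_algebraMap, frq_algebraMap]
  exact div_mem (Annu_930.AN_le_MN hG hs (evq_mem_AN hG hs hR h0 hϖ hϖ0 hsR a))
    (Annu_930.AN_le_MN hG hs (evq_mem_AN hG hs hR h0 hϖ hϖ0 hsR b))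

theorem frq_resF' {R r : ℝ} (hR : 0 < R) (hr : 0 < r) (hrR : r ≤ R)
    {q c : κ} (hq : ‖q‖ < r) (hc : ‖c‖ < r) (hc0 : c ≠ 0) (f : FDisc κ R hR) :
    frq hr hG hq hc hc0 (resF hR hr hrR f) =
      frq hR hG (hq.trans_le hrR) (hc.trans_le hrR) hc0 f := by
  obtain ⟨a, b, hb, rfl⟩ := IsFractionRing.div_surjective (A := bsub (K := κ) R hR) f
  rw [map_div₀, map_div₀, map_div₀, resF_algebraMap, resF_algebraMap, frq_algebraMap,
    frq_algebraMap, frq_algebraMap, frq_algebraMap]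
  rfl

/-- **The second class at the circle**: `h` with all values `l`-th powers, up to a constant. -/
theorem exists_g2 {π : κ} (hπ : IsUnif π) (hd : DenseRat κ y) {s : ℝ≥0} (hs : 1 < s)
    {L : Type*} [Field L] [Algebra κ L] {R : ℝ} (hR : 0 < R) (kap : L →+* FDisc κ R hR)
    (hk : ∀ c : κ, kap (algebraMap κ L c) = cF hR c) {ϖ ρ : κ} (h0 : ‖(0 : κ)‖ < R)
    (hϖ : ‖ϖ‖ < R) (hϖ0 : ϖ ≠ 0) (hρ0 : ρ ≠ 0) (hρ : ‖ρ‖ ≤ R) (hsρ : s * ‖ϖ‖ < ‖ρ‖)
    {l : ℕ} (hl : ‖(l : κ)‖ = 1) {h : L} (hh : h ≠ 0) (hdiv : LDiv κ l h) :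
    ∃ c : κ, c ≠ 0 ∧ ∃ g2 : E, g2 ∈ FP hG hπ hd ∧ g2 ∈ MN hG hs ∧
      g2 ^ l = frq hR hG h0 hϖ hϖ0 (kap (algebraMap κ L c * h)) := by
  obtain ⟨c, hc, g, -, hg⟩ := exists_root_FDisc hπ hR hρ0 hρ kap hk hl hh hdiv
  have hρn : 0 < ‖ρ‖ := norm_pos_iff.2 hρ0
  have hϖρ : ‖ϖ‖ < ‖ρ‖ := by
    refine lt_of_le_of_lt ?_ hsρ
    have : (1 : ℝ) ≤ s := by exact_mod_cast hs.le
    nlinarith [norm_nonneg ϖ]
  have h0ρ : ‖(0 : κ)‖ < ‖ρ‖ := by rw [norm_zero]; exact hρn
  refine ⟨c, hc, frq (norm_pos_iff.mpr hρ0) hG h0ρ hϖρ hϖ0 g,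
    frq_mem_FP hG hπ hd _ _ _ hϖ0 g, frq_mem_MN hG hs _ _ _ hϖ0 hsρ g, ?_⟩
  rw [← map_pow, ← hg, frq_resF']

end Crest.Agent.R013.NB_92
end

-- ▼ part R013/NB8_92
section

/-!
# B-NB, part 8: the theorem inside `Ω = AlgebraicClosure K`, constants `κ → Ω`
-/

set_option autoImplicit false
set_option linter.unusedSectionVars false
set_option linter.style.haveILetI false

namespace Crest.Agent.R013.NB_92

open Module Crest.Agent.R013.Gl946 Crest.Agent.R013.CutCov_92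
open Crest.Agent.R013.Annu_930 (MN)
open Crest.Agent.R013.Half_930 (Am Ap)
open Crest.Agent.R013.A2a_275 (Cpl toCpl norm_toCpl)
open Crest.Agent.R013.BTor4_914 (LDiv)
open Crest.NumberTheoryR.Sect
open scoped NNReal

section Alg

variable {K : Type*} [Field K] {Ω : Type*} [Field Ω] [Algebra K Ω]

/-- constants in a subfield -/
@[reducible] def algC {κ : Type*} [Field κ] [Algebra κ Ω] (S : IntermediateField K Ω)
    (h : ∀ a : κ, algebraMap κ Ω a ∈ S) : Algebra κ S :=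
  ((algebraMap κ Ω).codRestrict S h).toAlgebra

/-- inclusions -/
@[reducible] def algS (S T : IntermediateField K Ω) (h : S ≤ T) : Algebra S T :=
  (IntermediateField.inclusion h).toRingHom.toAlgebra

end Alg

section LD

/-- `LDiv` for a re-patched class -/
theorem ldiv_of_patched {κ E : Type} [NontriviallyNormedField κ] [NormedField E]
    [NormedAlgebra κ E] [IsUltrametricDist E] [CompleteSpace E] {y : E} {L M : Type} [Field L]
    [Algebra κ L] [Field M] [Algebra L M] [Algebra κ M] {hG : IsGauss κ y} {ι1 : L →+* E} {x : L}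
    {ρ1 : κ} {N : ℕ} {h h' : M} (hP : Patched hG ι1 x ρ1 N h h') (h0 : h ≠ 0)
    (hh : LDiv κ N h) :
    LDiv κ N h' := by
  have key : ∀ (w : Valuation M ℝ≥0) (b : M), b ≠ 0 → w (h' / b - 1) < 1 → w h' = w b := by
    intro w b hb hw
    have h1 : w (h' / b) = 1 := by
      have : h' / b = 1 + (h' / b - 1) := by ring
      rw [this, Valuation.map_add_eq_of_lt_left w (by rw [map_one]; exact hw), map_one]
    rw [map_div₀] at h1
    exact (div_eq_one_iff_eq ((w.ne_zero_iff).2 hb)).1 h1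
  intro w hw
  obtain ⟨g, hg, h1 | h1⟩ := hP.val w (Or.inr hw)
  · exact ⟨g, by rw [key w _ (pow_ne_zero _ hg) h1, map_pow]⟩
  · obtain ⟨a, ha⟩ := hh w hw
    refine ⟨a * g, ?_⟩
    rw [key w _ (mul_ne_zero h0 (pow_ne_zero _ hg)) h1, map_mul, map_pow, ha, map_mul, mul_pow]

end LD

section Main

variable {k : Type} [Field k] [CharZero k] {K : Type} [Field K] [Algebra k K]
  [Algebra (RatFunc k) K] [IsScalarTower k (RatFunc k) K] [FiniteDimensional (RatFunc k) K]
  {κ E : Type} [NontriviallyNormedField κ] [CompleteSpace κ] [IsUltrametricDist κ]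
  [CharZero κ] [NormedField E] [NormedAlgebra κ E] [IsUltrametricDist E] [CompleteSpace E]
  {y : E} (hG : IsGauss κ y) {π₀ : κ} (hπ : IsUnif π₀) (hd : DenseRat κ y) {s : ℝ≥0} (hs : 1 < s)
  [Algebra k κ] [Algebra κ (AlgebraicClosure K)] [IsScalarTower k κ (AlgebraicClosure K)]
  [Algebra.IsAlgebraic k κ]

/-- **B-NB** inside `Ω = AlgebraicClosure K`. -/
theorem exists_nb (v : Valuation (AlgebraicClosure K) ℝ≥0)
    (hv : ∀ a : κ, v (algebraMap κ (AlgebraicClosure K) a) = ‖a‖₊)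
    (S : Subfield (AlgebraicClosure K)) (i i1 : S →+* E)
    (L M : IntermediateField K (AlgebraicClosure K))
    (hκL : ∀ a : κ, algebraMap κ (AlgebraicClosure K) a ∈ L) (hLM : L ≤ M)
    (fM : FiniteDimensional K M) (hMU : M ≤ maxUnramified k K) (hLS : ∀ a ∈ L, a ∈ S)
    {x : K} (hx : Transcendental k x) {ϖ ρ1 : κ} (hϖ0 : ϖ ≠ 0) (hρ0 : ρ1 ≠ 0)
    (hi : ∀ (a : κ) (h : algebraMap κ (AlgebraicClosure K) a ∈ S),
      i ⟨algebraMap κ (AlgebraicClosure K) a, h⟩ = algebraMap κ E a)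
    (hix : ∀ h : algebraMap K (AlgebraicClosure K) x ∈ S,
      i ⟨algebraMap K (AlgebraicClosure K) x, h⟩ = algebraMap κ E ϖ * y)
    (hi1 : ∀ (a : κ) (h : algebraMap κ (AlgebraicClosure K) a ∈ S),
      i1 ⟨algebraMap κ (AlgebraicClosure K) a, h⟩ = algebraMap κ E a)
    (hi1x : ∀ h : algebraMap K (AlgebraicClosure K) x ∈ S,
      i1 ⟨algebraMap K (AlgebraicClosure K) x, h⟩ = algebraMap κ E ρ1 * y)
    (hρ : ‖ρ1‖₊ * s ≤ ‖ϖ‖₊) (hiP : ∀ a, i a ∈ FP hG hπ hd) (hiM : ∀ a, i a ∈ MN hG hs)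
    -- class 1
    {l : ℕ} (hl0 : 0 < l) (hl : ‖(l : κ)‖ = 1) {ζ : κ} (hζ : IsPrimitiveRoot ζ l)
    (h : AlgebraicClosure K) (hM : h ∈ M) (h0 : h ≠ 0) (hLD : LDiv k l (⟨h, hM⟩ : M))
    (hgt : ∀ w : Valuation (AlgebraicClosure K) ℝ≥0,
      (∀ a : κ, w (algebraMap κ (AlgebraicClosure K) a) = ‖a‖₊) →
      w (algebraMap K (AlgebraicClosure K) x) = ‖ρ1‖₊ → ∃ g ∈ M, w (h - g ^ l) < w h)
    (hnp : ∀ g ∈ M, ¬ v (h - g ^ l) < v h)
    (hvx : v (algebraMap K (AlgebraicClosure K) x) < ‖ρ1‖₊)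
    (Φ : FP hG hπ hd →+* Cpl v) (hΦ : ∀ a : S, Φ ⟨i a, hiP a⟩ = toCpl v a)
    (hΦb : ∀ z (_ : z ∈ AP hG) (hz' : z ∈ FP hG hπ hd), ‖Φ ⟨z, hz'⟩‖ ≤ ‖z‖)
    -- class 2
    {l' : ℕ} (hl'0 : 0 < l') {ζ' : κ} (hζ' : IsPrimitiveRoot ζ' l')
    (h2 : AlgebraicClosure K) (h2L : h2 ∈ L)
    (hLD2 : LDiv k l' (⟨h2, h2L⟩ : L)) (hnp2 : ∀ g ∈ L, g ^ l' ≠ h2)
    (g2 : E) (hg2P : g2 ∈ FP hG hπ hd) (hg2M : g2 ∈ MN hG hs) (hg2 : g2 ^ l' = i ⟨h2, hLS _ h2L⟩) :
    ∃ (U : IntermediateField K (AlgebraicClosure K)) (V : Type) (_ : CommRing V) (_ : Algebra E V)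
      (d : ℕ) (X : Edge (gaussDatum hG hπ hd) V d) (j : U →+* V) (σ : V →ₐ[E] E),
      FiniteDimensional K U ∧ U ≤ maxUnramified k K ∧ L ≤ U ∧
      NBOut (gaussDatum hG hπ hd) (Am hG hπ hd hs) (Ap hG hπ hd hs) U V d X j σ ∧
      ∀ (a : AlgebraicClosure K) (hL : a ∈ L) (hU : a ∈ U), σ (j ⟨a, hU⟩) = i ⟨a, hLS a hL⟩ := by
  classical
  -- the fields
  have hκM : ∀ a : κ, algebraMap κ (AlgebraicClosure K) a ∈ M := fun a => hLM (hκL a)
  letI aL : Algebra κ L := algC L hκL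
  letI aM : Algebra κ M := algC M hκM
  letI aLM : Algebra L M := algS L M hLM
  haveI : IsScalarTower κ L M := IsScalarTower.of_algebraMap_eq fun _ => rfl
  haveI : IsScalarTower K L M := IsScalarTower.of_algebraMap_eq fun _ => rfl
  haveI : FiniteDimensional L M := Module.Finite.of_restrictScalars_finite K L M
  haveI fL : FiniteDimensional K L := by
    have hinj : Function.Injective (IntermediateField.inclusion hLM).toLinearMap :=
      (IntermediateField.inclusion hLM).toRingHom.injective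
    exact FiniteDimensional.of_injective (IntermediateField.inclusion hLM).toLinearMap hinj
  haveI : IsScalarTower k κ M := IsScalarTower.of_algebraMap_eq fun a => Subtype.ext
    (IsScalarTower.algebraMap_apply k κ (AlgebraicClosure K) a)
  -- the circles
  have hKS : ∀ a : K, algebraMap K (AlgebraicClosure K) a ∈ S := fun a => hLS _ (L.algebraMap_mem a)
  let inS : L →+* S := (algebraMap L (AlgebraicClosure K)).codRestrict S fun a => hLS a a.2
  let ι : L →+* E := i.comp inS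
  let ι1 : L →+* E := i1.comp inS
  let xL : L := algebraMap K L x
  have C : Circ κ y ι xL ϖ := ⟨hϖ0, fun a => hi a (hLS _ (hκL a)), hix (hKS x)⟩
  have C1 : Circ κ y ι1 xL ρ1 := ⟨hρ0, fun a => hi1 a (hLS _ (hκL a)), hi1x (hKS x)⟩
  -- finiteness over `k(x)`
  haveI : FiniteDimensional (IntermediateField.adjoin k {x}) K := One_622.finite_adjoin x hx
  haveI : IsScalarTower (IntermediateField.adjoin k {x}) K L := inferInstance
  haveI : FiniteDimensional (IntermediateField.adjoin k {x}) L :=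
    FiniteDimensional.trans (IntermediateField.adjoin k {x}) K L
  have hkk : ∀ a : k, algebraMap K L (algebraMap k K a) = algebraMap κ L (algebraMap k κ a) := by
    intro a
    apply Subtype.ext
    change algebraMap K (AlgebraicClosure K) (algebraMap k K a) =
      algebraMap κ (AlgebraicClosure K) (algebraMap k κ a)
    rw [← IsScalarTower.algebraMap_apply k κ, ← IsScalarTower.algebraMap_apply k K]
  have hadj : ∀ {ι' : L →+* E} {ρ : κ}, Circ κ y ι' xL ρ →
      ∀ z : IntermediateField.adjoin k {x}, ι' (algebraMap (IntermediateField.adjoin k {x}) L z) ∈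
        KY hG := by
    intro ι' ρ C' z
    let T : IntermediateField k K :=
      { ((KY hG).comap (ι'.comp (algebraMap K L))) with
        algebraMap_mem' := fun a => by
          change ι' (algebraMap K L (algebraMap k K a)) ∈ KY hG
          rw [hkk, C'.const]
          exact const_mem_KY hG _ }
    have hT : IntermediateField.adjoin k {x} ≤ T := by
      rw [IntermediateField.adjoin_le_iff, Set.singleton_subset_iff]
      change ι' xL ∈ KY hG
      rw [C'.x]
      exact mul_mem (const_mem_KY hG _) (y_mem_KY hG)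
    exact hT z.2
  -- re-patching
  have hl00 : l ≠ 0 := hl0.ne'
  obtain ⟨h', hP⟩ := exists_patched (M := M) hG hπ hd C1 (hadj C1) hl ⟨h, hM⟩
    (fun e => h0 (congrArg Subtype.val e)) (by
      intro w hw
      obtain ⟨W, hW⟩ := RZ_365.exists_ext_val (K := AlgebraicClosure K) w
      have hW' : ∀ (a : AlgebraicClosure K) (ha : a ∈ M), W a = w ⟨a, ha⟩ := fun a ha => hW ⟨a, ha⟩
      have h1 : ∀ a : κ, W (algebraMap κ (AlgebraicClosure K) a) = ‖a‖₊ := by
        intro a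
        rw [hW' _ (hκM a)]
        have := hw (algebraMap κ L a) (by rw [C1.const]; exact const_mem_KY hG a)
        rw [C1.const] at this
        rw [← nnnorm_algebraMap' E a, ← this]
        rfl
      have h2 : W (algebraMap K (AlgebraicClosure K) x) = ‖ρ1‖₊ := by
        rw [hW' _ (M.algebraMap_mem x)]
        have := hw xL (by rw [C1.x]; exact mul_mem (const_mem_KY hG _) (y_mem_KY hG))
        rw [C1.x, nnnorm_mul, nnnorm_algebraMap'] at this
        have hy1 : ‖y‖₊ = 1 := NNReal.eq hG.norm_eq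
        rw [hy1, mul_one] at this
        rw [← this]
        rfl
      obtain ⟨g, hg, h3⟩ := hgt W h1 h2
      refine ⟨⟨g, hg⟩, ?_⟩
      rw [hW' _ (sub_mem hM (pow_mem hg l)), hW' _ hM] at h3
      exact h3)
  have hM0 : (⟨h, hM⟩ : M) ≠ 0 := fun e => h0 (congrArg Subtype.val e)
  have hLD' : LDiv k l h' := by
    refine BTor6_914.LDiv.of_alg (k' := κ) ?_
    exact ldiv_of_patched hP hM0 (BTor6_914.LDiv.mono (k' := κ) hLD)
  -- the roots
  have hMunr : IsUnramifiedEverywhere k K M := Unr5_957.le_maxUnramified_iff.mp hMU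
  have hLunr : IsUnramifiedEverywhere k K L := Unr5_957.le_maxUnramified_iff.mp (hLM.trans hMU)
  obtain ⟨y1, hy1⟩ := IsAlgClosed.exists_pow_nat_eq (h' : AlgebraicClosure K) hl0
  obtain ⟨y2, hy2⟩ := IsAlgClosed.exists_pow_nat_eq h2 hl'0
  have hy1U : y1 ∈ maxUnramified k K :=
    Unr10_957.kummer_mem_maxUnramified hMunr hl00 (h := h') hLD' hy1
  have hy2U : y2 ∈ maxUnramified k K :=
    Unr10_957.kummer_mem_maxUnramified hLunr hl'0.ne' (h := ⟨h2, h2L⟩) hLD2 hy2
  -- the Galois closure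
  let A0 : IntermediateField K (AlgebraicClosure K) := M ⊔ IntermediateField.adjoin K {y1, y2}
  haveI : FiniteDimensional K (IntermediateField.adjoin K {y1, y2}) :=
    IntermediateField.finiteDimensional_adjoin fun z _ => Algebra.IsIntegral.isIntegral z
  haveI : FiniteDimensional K A0 := by
    change FiniteDimensional K (M ⊔ IntermediateField.adjoin K {y1, y2} : IntermediateField K _)
    infer_instance
  let Kh : IntermediateField K (AlgebraicClosure K) := IntermediateField.normalClosure K A0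
    (AlgebraicClosure K)
  haveI fKh : FiniteDimensional K Kh := by
    change FiniteDimensional K (IntermediateField.normalClosure K A0 (AlgebraicClosure K))
    infer_instance
  haveI nKh : Normal K Kh := by
    change Normal K (IntermediateField.normalClosure K A0 (AlgebraicClosure K))
    infer_instance
  have hA0 : A0 ≤ Kh := A0.le_normalClosure
  have hKhU : Kh ≤ maxUnramified k K := by
    haveI : Normal K (maxUnramified k K) := Unr5_957.normal_maxUnramified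
    have hA0U : A0 ≤ maxUnramified k K := by
      refine sup_le hMU ?_
      rw [IntermediateField.adjoin_le_iff]
      rintro z (rfl | hz)
      · exact hy1U
      · rw [Set.mem_singleton_iff] at hz; rw [hz]; exact hy2U
    exact IntermediateField.normalClosure_le_iff_of_normal.2 hA0U
  have hMKh : M ≤ Kh := le_sup_left.trans hA0
  have hy1K : y1 ∈ Kh := hA0 ((le_sup_right : _ ≤ A0)
    (IntermediateField.subset_adjoin _ _ (Set.mem_insert _ _)))
  have hy2K : y2 ∈ Kh := hA0 ((le_sup_right : _ ≤ A0)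
    (IntermediateField.subset_adjoin _ _ (Set.mem_insert_of_mem _ rfl)))
  letI aMK : Algebra M Kh := algS M Kh hMKh
  letI aLK : Algebra L Kh := algS L Kh (hLM.trans hMKh)
  haveI : IsScalarTower L M Kh := IsScalarTower.of_algebraMap_eq fun _ => rfl
  haveI : IsScalarTower K L Kh := IsScalarTower.of_algebraMap_eq fun _ => rfl
  haveI : FiniteDimensional L Kh := Module.Finite.of_restrictScalars_finite K L Kh
  haveI : CharZero K := charZero_of_injective_algebraMap (algebraMap k K).injective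
  haveI : CharZero (AlgebraicClosure K) :=
    charZero_of_injective_algebraMap (algebraMap K (AlgebraicClosure K)).injective
  haveI : CharZero (Cpl v) := charZero_of_injective_ringHom (toCpl v).injective
  haveI : IsGalois K Kh := { to_isSeparable := inferInstance, to_normal := inferInstance }
  haveI : IsGalois L Kh := IsGalois.tower_top_of_isGalois K L Kh
  -- no root at `v`
  let κ' : M →+* Cpl v := (toCpl v).comp (algebraMap M (AlgebraicClosure K))
  have hΦKY : ∀ z (hz : z ∈ KY hG), Φ ⟨z, KY_le_FP hG hπ hd hz⟩ ∈ clS v M.toSubfield := by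
    intro z hz
    obtain ⟨θ, hθ, -⟩ := C.exists_theta hG
    have e : (⟨z, KY_le_FP hG hπ hd hz⟩ : FP hG hπ hd) = ⟨i (inS (θ ⟨z, hz⟩)), hiP _⟩ :=
      Subtype.ext (hθ ⟨z, hz⟩).symm
    rw [e, hΦ]
    exact toCpl_mem_clS v _ (hLM (θ ⟨z, hz⟩).2)
  have hno : ∀ w ∈ Subring.closure (Set.range Φ ∪ Set.range κ'), w ^ l ≠ κ' h' := by
    intro w hw hwl
    have hwc : w ∈ clS v M.toSubfield := by
      have : Subring.closure (Set.range Φ ∪ Set.range κ') ≤ (clS v M.toSubfield).toSubring := by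
        rw [Subring.closure_le]
        rintro _ (⟨z, rfl⟩ | ⟨z, rfl⟩)
        · exact Phi_mem_clS hG hπ hd v _ Φ hΦKY hΦb z
        · exact toCpl_mem_clS v _ z.2
      exact this hw
    have hh'0 : ((h' : M) : AlgebraicClosure K) ≠ 0 := fun e => hP.ne (Subtype.ext e)
    obtain ⟨g, hg, h3⟩ := exists_pow_lt v M.toSubfield hwc hh'0 hl00 hwl
    obtain ⟨g1, hg1, h4⟩ := hP.inside (v.comap (algebraMap M (AlgebraicClosure K)))
      (fun a => hv a) hvx
    have h5 := pow_transfer (v.comap (algebraMap M (AlgebraicClosure K))) (h := ⟨h, hM⟩) (h' := h')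
      (g := ⟨g, hg⟩) (g1 := g1) hM0 hg1 h3 h4
    exact hnp _ (((⟨g, hg⟩ : M) / g1).2) h5
  obtain ⟨U, V, iV1, iV2, d, X, j, σ, hO, hι⟩ := exists_nbout2 (Kh := Kh) hG hπ hd hs C C1 hρ
    (hadj C) (fun a => hiP _) (fun a => hiM _) hl0 hζ hP ⟨y1, hy1K⟩ (Subtype.ext hy1) Φ κ'
    (fun a => hΦ _) hno hl'0 hζ' (⟨h2, h2L⟩ : L) ⟨y2, hy2K⟩ (Subtype.ext hy2) (by
      rintro ⟨a, ha⟩
      refine hnp2 a a.2 ?_
      rw [← hy2]
      exact congrArg (fun z : Kh => (z : AlgebraicClosure K) ^ l') ha) g2 hg2P hg2M hg2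
  -- the field `U`
  let gU : U →+* AlgebraicClosure K := (algebraMap Kh (AlgebraicClosure K)).comp (algebraMap U Kh)
  have hgL : ∀ a : L, gU (algebraMap L U a) = a := fun a => rfl
  let U' : IntermediateField K (AlgebraicClosure K) :=
    gU.fieldRange.toIntermediateField fun a => ⟨algebraMap L U (algebraMap K L a), rfl⟩
  let f : U' ≃+* U := (RingEquiv.ofBijective (gU.codRestrict U' fun a => ⟨a, rfl⟩)
    ⟨fun a b hab => gU.injective (congrArg (fun z : U' => (z : AlgebraicClosure K)) hab), by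
      rintro ⟨_, a, rfl⟩; exact ⟨a, rfl⟩⟩).symm
  have hf : ∀ (a : L) (hU : (a : AlgebraicClosure K) ∈ U'), f ⟨a, hU⟩ = algebraMap L U a := by
    intro a hU
    rw [RingEquiv.symm_apply_eq]
    exact Subtype.ext (hgL a).symm
  have hU'Kh : U' ≤ Kh := by
    rintro _ ⟨a, rfl⟩
    exact (algebraMap U Kh a).2
  refine ⟨U', V, iV1, iV2, d, X, j.comp f.toRingHom, σ, ?_, hU'Kh.trans hKhU, ?_, hO.congr f, ?_⟩
  · have hinj : Function.Injective (IntermediateField.inclusion hU'Kh).toLinearMap :=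
      (IntermediateField.inclusion hU'Kh).toRingHom.injective
    exact FiniteDimensional.of_injective (IntermediateField.inclusion hU'Kh).toLinearMap hinj
  · intro a ha
    exact ⟨algebraMap L U ⟨a, ha⟩, rfl⟩
  · intro a ha hU
    have h3 := hι ⟨a, ha⟩
    rw [← hf ⟨a, ha⟩ hU] at h3
    exact h3

end Main

end Crest.Agent.R013.NB_92
end

-- ▼ part R013/BTor7_914
section

/-!
# R013 / BTor7: nontrivial `l`-torsion over `L k̄` (the hypothesis `htors` of BTor6) from the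
existence of `l`-torsion over algebraically closed constants (TORS, 235) (helper914)
-/

set_option autoImplicit false
set_option linter.all false

universe u v w

namespace Crest.Agent.R013.BTor7_914

open WithZero Module
open scoped NNReal IntermediateField
open Crest.NumberTheoryR.Sect
open Crest.Agent.R013.RR7_948 Crest.Agent.R013.RR8_948 Crest.Agent.R013.RR11_948
open Crest.Agent.R013.RR13_948
open Crest.Agent.R013.Desc_372 Crest.Agent.R013.Desc_372.CE
open Crest.Agent.R013.BTor4_914 Crest.Agent.R013.BTor6_914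

section one

variable {F : Type*} [Field F] [CharZero F] {L : Type*} [Field L] [Algebra F L]
  [Algebra (RatFunc F) L] [IsScalarTower F (RatFunc F) L] [FiniteDimensional (RatFunc F) L]

/-- `l | div f` in the form `LDiv` -/
theorem ldiv_of_divf {l : ℕ} {f : L} (h0 : f ≠ 0) {D : Pl F L →₀ ℤ}
    (hD : divf (k := F) f = (l : ℤ) • D) : LDiv F l f := by
  intro u hu
  obtain ⟨P, hP⟩ := exists_place (k := F) u hu.1 hu.2
  obtain ⟨t, ht⟩ := P.surj (exp (-1))
  have h1 : P.v f = exp (-(l * D P)) := by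
    rw [v_eq h0, hD]
    simp
  have h2 := eq_zpow_of_isEquiv hP ht h1
  rw [neg_neg] at h2
  refine ⟨t ^ (D P), ?_⟩
  rw [h2, map_zpow₀, ← zpow_natCast, ← zpow_mul, mul_comm]

theorem divf_pow {f : L} (h0 : f ≠ 0) (n : ℕ) :
    divf (k := F) (f ^ n) = (n : ℤ) • divf (k := F) f := by
  induction n with
  | zero => simp [divf_one]
  | succ n ih =>
    rw [pow_succ, divf_mul (pow_ne_zero _ h0) h0, ih]
    push_cast
    rw [add_smul, one_smul]

theorem no_root {l : ℕ} (hl : l ≠ 0) {f : L} (h0 : f ≠ 0) {D : Pl F L →₀ ℤ}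
    (hD : divf (k := F) f = (l : ℤ) • D) (hn : ∀ g : L, g ≠ 0 → divf (k := F) g ≠ D) (g : L) :
    g ^ l ≠ f := by
  intro hg
  have hg0 : g ≠ 0 := by
    rintro rfl
    rw [zero_pow hl] at hg
    exact h0 hg.symm
  apply hn g hg0
  have h2 := divf_pow (F := F) hg0 l
  rw [hg, hD] at h2
  have hl' : (l : ℤ) ≠ 0 := by exact_mod_cast hl
  exact (smul_right_injective _ hl' h2).symm

end one

/-- existence of `l`-torsion (235) -/
def TORS : Prop := ∀ (F : Type u) (L : Type v) [Field F] [CharZero F] [IsAlgClosed F] [Field L]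
  [Algebra F L] [Algebra (RatFunc F) L] [IsScalarTower F (RatFunc F) L]
  [FiniteDimensional (RatFunc F) L], 1 ≤ gen F L → ∀ l : ℕ, l.Prime →
    ∃ (D : Pl F L →₀ ℤ) (f : L), f ≠ 0 ∧ divf (k := F) f = (l : ℤ) • D ∧
      ∀ g : L, g ≠ 0 → divf (k := F) g ≠ D

section abs

theorem algebraicClosure_eq_bot' {F L : Type*} [Field F] [IsAlgClosed F] [Field L] [Algebra F L] :
    algebraicClosure F L = ⊥ := CE5_280.algebraicClosure_eq_bot

/-- the context of 948 on `M / F` and the genus -/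
theorem exists_ctx (k F K Kb M : Type*) [Field k] [CharZero k] [Field F] [CharZero F]
    [IsAlgClosed F] [Field K] [Field Kb] [Field M] [Algebra k F] [Algebra k K] [Algebra F Kb]
    [Algebra K Kb] [Algebra k Kb] [IsScalarTower k F Kb] [IsScalarTower k K Kb] [CE k F K Kb]
    [Algebra Kb M] [FiniteDimensional Kb M] [Algebra F M] [IsScalarTower F Kb M]
    [Algebra (RatFunc k) K] [IsScalarTower k (RatFunc k) K] [FiniteDimensional (RatFunc k) K]
    (hc : algebraicClosure k K = ⊥) :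
    ∃ (_ : Algebra (RatFunc F) M) (_ : IsScalarTower F (RatFunc F) M)
      (_ : FiniteDimensional (RatFunc F) M), gen k K ≤ gen F M := by
  haveI : CharZero K := charZero_of_injective_algebraMap (algebraMap k K).injective
  haveI : CharZero Kb := charZero_of_injective_algebraMap (algebraMap k Kb).injective
  have halg : Algebra.IsAlgebraic k F := (‹CE k F K Kb› : CE k F K Kb).alg
  haveI : IsGalois k F := by
    haveI : IsAlgClosure k F := ⟨inferInstance, halg⟩
    haveI : Normal k F := IsAlgClosure.normal k F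
    exact {}
  haveI : Algebra.IsAlgebraic K Kb := isAlgebraic k F K Kb
  letI i1 : Algebra (RatFunc F) Kb := ratCE k F K Kb
  haveI i2 : IsScalarTower F (RatFunc F) Kb := ratCE_tower k F K Kb
  haveI i3 : FiniteDimensional (RatFunc F) Kb := finite_rat k F K Kb (ratCE_xK k F K Kb)
  letI j1 : Algebra (RatFunc F) M :=
    ((algebraMap Kb M).comp (algebraMap (RatFunc F) Kb)).toAlgebra
  haveI j0 : IsScalarTower (RatFunc F) Kb M := IsScalarTower.of_algebraMap_eq fun _ => rfl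
  haveI j2 : IsScalarTower F (RatFunc F) M := IsScalarTower.of_algebraMap_eq fun x => by
    rw [IsScalarTower.algebraMap_apply F Kb M, IsScalarTower.algebraMap_apply F (RatFunc F) Kb]
    rfl
  haveI j3 : FiniteDimensional (RatFunc F) M := FiniteDimensional.trans (RatFunc F) Kb M
  refine ⟨j1, j2, j3, ?_⟩
  rw [← gen_eqC (k := k) (C := F) (K₀ := K) (K := Kb) hc]
  exact RHP_240.gen_le algebraicClosure_eq_bot' algebraicClosure_eq_bot'

theorem exists_abs (tors : TORS.{u, v}) (k : Type*) (F : Type u) (K Kb : Type*) (M : Type v)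
    [Field k] [CharZero k] [Field F]
    [IsAlgClosed F] [Field K] [Field Kb] [Field M] [Algebra k F] [Algebra k K] [Algebra F Kb]
    [Algebra K Kb] [Algebra k Kb] [IsScalarTower k F Kb] [IsScalarTower k K Kb] [CE k F K Kb]
    [Algebra Kb M] [FiniteDimensional Kb M] [Algebra F M] [IsScalarTower F Kb M]
    [Algebra (RatFunc k) K] [IsScalarTower k (RatFunc k) K] [FiniteDimensional (RatFunc k) K]
    (hc : algebraicClosure k K = ⊥) (hg : 1 ≤ gen k K) {l : ℕ} (hl : l.Prime) :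
    ∃ f : M, f ≠ 0 ∧ LDiv F l f ∧ ∀ g : M, g ^ l ≠ f := by
  haveI : CharZero F := charZero_of_injective_algebraMap (algebraMap k F).injective
  obtain ⟨i1, i2, i3, h⟩ := exists_ctx k F K Kb M hc
  obtain ⟨D, f, hf, hD, hn⟩ := tors F M (hg.trans h) l hl
  exact ⟨f, hf, ldiv_of_divf hf hD, no_root hl.ne_zero hf hD hn⟩

end abs

section omega

variable {k : Type u} [Field k] [CharZero k] {K : Type u} [Field K] [Algebra k K]
  [Algebra (RatFunc k) K] [IsScalarTower k (RatFunc k) K] [FiniteDimensional (RatFunc k) K]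

theorem lev_le_Lbar (L : IntermediateField K (AlgebraicClosure K)) :
    lev K (AlgebraicClosure K) (algebraicClosure k (AlgebraicClosure K)) ≤ Lbar k L := by
  rw [lev_eq_adjoin]
  unfold Lbar
  refine le_trans ?_ le_sup_right
  refine IntermediateField.adjoin.mono _ _ _ ?_
  intro x hx
  exact (mem_algebraicClosure_iff.mp hx).isIntegral

theorem Lbar_eq (L : IntermediateField K (AlgebraicClosure K)) :
    Lbar k L = L ⊔ lev K (AlgebraicClosure K) (algebraicClosure k (AlgebraicClosure K)) := by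
  rw [lev_eq_adjoin]
  unfold Lbar
  congr 2

/-- **`htors` from TORS** -/
theorem exists_htors (tors : TORS.{u, u}) (hc : algebraicClosure k K = ⊥) (hg : 1 ≤ gen k K)
    (L : IntermediateField K (AlgebraicClosure K)) [FiniteDimensional K L] {l : ℕ}
    (hl : l.Prime) :
    ∃ f : Lbar k L, f ≠ 0 ∧ LDiv k l f ∧ ∀ g : Lbar k L, g ^ l ≠ f := by
  let Ω := AlgebraicClosure K
  let F : IntermediateField k Ω := algebraicClosure k Ω
  let Kb : IntermediateField K Ω := lev K Ω F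
  haveI hce : CE k F K Kb := ce_closure k K hc
  haveI : IsAlgClosure k F := algebraicClosure.isAlgClosure k Ω
  haveI : IsAlgClosed F := IsAlgClosure.isAlgClosed k
  have hle : Kb ≤ Lbar k L := lev_le_Lbar L
  let M : IntermediateField Kb Ω := IntermediateField.extendScalars hle
  haveI : FiniteDimensional Kb M := by
    obtain ⟨s, hs⟩ : ∃ s : Finset Ω, IntermediateField.adjoin K (s : Set Ω) = L := by
      have h1 : Algebra.EssFiniteType K L := inferInstance
      exact IntermediateField.essFiniteType_iff.mp h1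
    have h2 : M = IntermediateField.adjoin Kb (s : Set Ω) := by
      apply le_antisymm
      · intro x hx
        have hx' : x ∈ Lbar k L := hx
        rw [Lbar_eq] at hx'
        have h3 : L ⊔ Kb ≤ (IntermediateField.adjoin Kb (s : Set Ω)).restrictScalars K := by
          refine sup_le ?_ ?_
          · rw [← hs, IntermediateField.adjoin_le_iff]
            exact IntermediateField.subset_adjoin Kb _
          · intro y hy
            exact (IntermediateField.adjoin Kb (s : Set Ω)).algebraMap_mem ⟨y, hy⟩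
        exact h3 hx'
      · rw [IntermediateField.adjoin_le_iff]
        intro y hy
        have h3 : L ≤ Lbar k L := le_sup_left
        refine h3 ?_
        rw [← hs]
        exact IntermediateField.subset_adjoin _ _ hy
    rw [h2]
    exact IntermediateField.finiteDimensional_adjoin fun x hx => Algebra.IsIntegral.isIntegral x
  letI : Algebra F M := ((algebraMap Kb M).comp (algebraMap F Kb)).toAlgebra
  haveI : IsScalarTower F Kb M := IsScalarTower.of_algebraMap_eq fun _ => rfl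
  obtain ⟨f, hf, hdiv, hn⟩ := exists_abs tors k F K Kb M hc hg hl
  haveI : IsScalarTower k F M := IsScalarTower.of_algebraMap_eq fun _ => rfl
  have h1 : LDiv k l f := LDiv.of_alg (k' := F) hdiv
  exact ⟨⟨f.1, f.2⟩, fun h => hf (Subtype.ext (congrArg Subtype.val h)),
    h1, fun g hgl => hn ⟨g.1, g.2⟩ (Subtype.ext (congrArg Subtype.val hgl))⟩

end omega

end Crest.Agent.R013.BTor7_914
end

-- ▼ part R013/BTor8_914
section

/-!
# R013 / BTor8: (OUT): the `l`-torsion datum in the language of B-SET (803) (helper914)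
-/

set_option autoImplicit false
set_option linter.all false

noncomputable section

namespace Crest.Agent.R013.BTor8_914

open scoped NNReal Topology IntermediateField
open Filter PowerSeries Crest.NumberTheoryR.Sect Crest.Agent.R013.A2a_275 Crest.Agent.R013.Gl946
  Crest.Agent.R013.SE_669 Crest.Agent.R013.KAS1_940 Crest.Agent.R013.KAS2_940
  Crest.Agent.R013.KAS3_940
  Crest.Agent.R013.Good1_940 Crest.Agent.R013.Good3_940 Crest.Agent.R013.CGood_588
  Crest.Agent.R013.Set_803 Crest.Agent.R013.BTor3_914 Crest.Agent.R013.BTor4_914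

section place

variable {k : Type*} [Field k] {Ω : Type*} [Field Ω] [Algebra k Ω] {P : Valuation Ω ℝ≥0}
  {C : IntermediateField k Ω}

theorem place_one (hP : ∀ a : C, P (a : Ω) ≤ 1) {a : C} (ha : a ≠ 0) : P (a : Ω) = 1 := by
  apply le_antisymm (hP a)
  have h1 := hP a⁻¹
  have h2 : ((a⁻¹ : C) : Ω) = (a : Ω)⁻¹ := by push_cast; rfl
  have ha' : (a : Ω) ≠ 0 := by simpa using ha
  rw [h2, map_inv₀] at h1
  exact (inv_le_one₀ (zero_lt_iff.mpr ((Valuation.ne_zero_iff P).mpr ha'))).mp h1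

theorem norm_evW_le (hP : ∀ a : C, P (a : Ω) ≤ 1) {x : Ω} (hx : P x < 1) (G : C⟦X⟧) :
    ‖evW P C 1 one_pos x hx ⟨G, mem_BS_place hP G⟩‖ ≤ 1 := by
  letI := nfld P C
  haveI := ultra_nfld P C
  letI := nalg0 P C
  refine norm_ev_le (k := C) (E := Cpl P) (r1 := ((1 : ℝ≥0) : ℝ)) _ ?_
  intro n
  have h1 : ‖coeff n G‖ = P (coeff n G : C) := nfld_norm P C _
  show ‖coeff n G‖ * _ ≤ 1
  rw [h1, norm_toCpl]
  have h2 : P (coeff n G : C) ≤ 1 := hP _
  have h3 : (P x) ^ n ≤ 1 := pow_le_one₀ zero_le hx.le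
  exact_mod_cast mul_le_one' h2 h3

theorem evW_place_injective (hP : ∀ a : C, P (a : Ω) ≤ 1) {x : Ω} (hx : P x < 1) (hx0 : x ≠ 0)
    {H : C⟦X⟧} (hH : H ≠ 0) : evW P C 1 one_pos x hx ⟨H, mem_BS_place hP H⟩ ≠ 0 := by
  obtain ⟨H₁, hH₁⟩ : X ^ H.order.toNat ∣ H := X_pow_order_dvd
  set n := H.order.toNat with hn
  have hc : constantCoeff H₁ ≠ 0 := by
    have h1 : coeff n H ≠ 0 := coeff_order hH
    rw [hH₁, show n = 0 + n by omega, coeff_X_pow_mul', if_pos (by omega)] at h1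
    simpa using h1
  obtain ⟨H₂, hH₂⟩ : X ∣ H₁ - PowerSeries.C (constantCoeff H₁) := by
    rw [X_dvd_iff]; simp
  have e1 : (⟨H, mem_BS_place hP H⟩ : BS P C 1 one_pos) =
      ⟨PowerSeries.X, X_mem_BS P 1 one_pos⟩ ^ n * (⟨PowerSeries.C (constantCoeff H₁),
        C_mem_BS P 1 one_pos _⟩ + ⟨PowerSeries.X, X_mem_BS P 1 one_pos⟩ *
        ⟨H₂, mem_BS_place hP H₂⟩) := by
    apply Subtype.ext
    show H = X ^ n * (PowerSeries.C (constantCoeff H₁) + X * H₂)
    rw [← hH₂, add_sub_cancel, ← hH₁]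
  rw [e1, map_mul, map_pow, map_add, map_mul, evW_X, evW_C]
  have hx' : toCpl P x ≠ 0 := (map_ne_zero _).2 hx0
  refine mul_ne_zero (pow_ne_zero _ hx') ?_
  intro h0
  have h1 : toCpl P ((constantCoeff H₁ : C) : Ω) =
      -(toCpl P x * evW P C 1 one_pos x hx ⟨H₂, mem_BS_place hP H₂⟩) := by
    rw [eq_neg_iff_add_eq_zero]; exact h0
  have h2 := congrArg (fun z => ‖z‖) h1
  simp only [norm_neg, norm_mul, norm_toCpl] at h2
  rw [place_one hP hc] at h2
  have h3 := norm_evW_le hP hx H₂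
  have h4 : (P x : ℝ) < 1 := by exact_mod_cast hx
  have h5 : (P x : ℝ) * ‖evW P C 1 one_pos x hx ⟨H₂, mem_BS_place hP H₂⟩‖ < 1 :=
    (mul_le_of_le_one_right (NNReal.coe_nonneg _) h3).trans_lt h4
  rw [← h2] at h5
  norm_num at h5

end place

section out

variable {k : Type*} [Field k] {Ω : Type*} [Field Ω] [Algebra k Ω]
variable {p : ℕ} [hp : Fact p.Prime] [Algebra ℚ_[p] k] {v P : Valuation Ω ℝ≥0}
  {C : IntermediateField k Ω} {R : ℝ≥0} {x q c : Ω}

theorem x_ne_zero (D : DiscData p v P C R x q c) : x ≠ 0 := by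
  rintro rfl
  have h := D.gauss 2 (fun i => if i = 0 then q / c else if i = 1 then 1 else 0) (fun i => by
    split_ifs
    · exact C.div_mem D.qC D.cC
    · exact one_mem _
    · exact zero_mem _)
  have h1 : psum (fun i => if i = 0 then q / c else if i = 1 then (1 : Ω) else 0)
      ((0 - q) / c) 2 = 0 := by
    simp [psum, Finset.sum_range_succ]
    ring
  rw [h1, map_zero] at h
  have h2 := Finset.le_sup (f := fun i => v (if i = 0 then q / c else if i = 1 then (1 : Ω) else 0))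
    (s := Finset.range 2) (b := 1) (by simp)
  rw [← h] at h2
  simp at h2

variable [FiniteDimensional ℚ_[p] k] [FiniteDimensional k C]

/-- the structure map `C → FD` -/
theorem kap_algebraMap (D : DiscData p v P C R x q c) (a : C) (ha : (a : Ω) ∈ D.SD) :
    letI := nC D.hv C; haveI := ultra_nC D.hv C
    D.kap ⟨a, ha⟩ = cF (k := C) (R := (R : ℝ)) (by exact_mod_cast D.hR) a := D.kap_const a ha

/-- **(OUT), disc field form**: `U` any field with an embedding in `SD`, linear over `C` -/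
theorem out_FDisc (D : DiscData p v P C R x q c) {U : Type*} [Field U] [Algebra C U]
    (j : U →+* D.SD) (hj : ∀ a : C, (j (algebraMap C U a) : Ω) = a) {l : ℕ} (hl : v (l : Ω) = 1)
    {h : U} (h0 : h ≠ 0) (hdiv : LDiv C l h) {ρ : C} (hρ0 : ρ ≠ 0) (hρ : v (ρ : Ω) ≤ R) :
    letI := nC D.hv C; haveI := ultra_nC D.hv C
    ∃ a : C, a ≠ 0 ∧ ∃ g : FDisc C ‖ρ‖ (norm_pos_iff.mpr hρ0), g ≠ 0 ∧
      resF (k := C) (R := (R : ℝ)) (by exact_mod_cast D.hR) (norm_pos_iff.mpr hρ0)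
        (by rw [norm_nC]; exact_mod_cast hρ) (D.kap (j (algebraMap C U a * h))) = g ^ l := by
  letI := nC D.hv C
  haveI := ultra_nC D.hv C
  obtain ⟨π, hπ⟩ := exists_unif D.hv C
  refine exists_root_FDisc (π := π) hπ (by exact_mod_cast D.hR) hρ0
    (by rw [norm_nC]; exact_mod_cast hρ) (D.kap.comp j) ?_ ?_ h0 hdiv
  · intro a
    have h1 : j (algebraMap C U a) = ⟨(a : Ω), D.C_le_SD a⟩ := Subtype.ext (hj a)
    show D.kap (j (algebraMap C U a)) = _
    rw [h1]
    exact kap_algebraMap D a _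
  · rw [norm_nC]
    push_cast
    rw [hl]
    rfl

/-- from the disc field form to the series form -/
theorem rep_of_FDisc (D : DiscData p v P C R x q c) {l : ℕ} {ρ : C} (hρ0 : ρ ≠ 0)
    (hρ : v (ρ : Ω) ≤ R) (hxρ : v x < v (ρ : Ω)) (f : D.SD)
    (hf : letI := nC D.hv C; haveI := ultra_nC D.hv C
      ∃ g : FDisc C ‖ρ‖ (norm_pos_iff.mpr hρ0), g ≠ 0 ∧
        resF (k := C) (R := (R : ℝ)) (by exact_mod_cast D.hR) (norm_pos_iff.mpr hρ0)
          (by rw [norm_nC]; exact_mod_cast hρ) (D.kap f) = g ^ l) :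
    ∃ G H : C⟦X⟧, G ≠ 0 ∧ H ≠ 0 ∧
      (∃ B : ℝ≥0, ∀ i, v (cf G i) * v (ρ : Ω) ^ i ≤ B) ∧
      (∃ B : ℝ≥0, ∀ i, v (cf H i) * v (ρ : Ω) ^ i ≤ B) ∧
      IsRep v P C (v (ρ : Ω)) x (f : Ω) (G ^ l) (H ^ l) := by
  letI := nC D.hv C
  haveI := ultra_nC D.hv C
  have hρn : ‖ρ‖ = v (ρ : Ω) := norm_nC D.hv C ρ
  have hρ1 : 0 < v (ρ : Ω) := lt_of_le_of_lt zero_le hxρ
  obtain ⟨g, hg, hgl⟩ := hf
  obtain ⟨G, H, hH, rfl⟩ := IsFractionRing.div_surjective
    (A := bsub (K := C) ‖ρ‖ (norm_pos_iff.mpr hρ0)) g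
  have hH0 : (H : C⟦X⟧) ≠ 0 := fun h => nonZeroDivisors.ne_zero hH (Subtype.ext h)
  have hG0 : (G : C⟦X⟧) ≠ 0 := by
    intro h
    apply hg
    have : G = 0 := Subtype.ext h
    rw [this, map_zero, zero_div]
  obtain ⟨f, G₀, H₀, hrep⟩ := f
  have bGR : G₀ ∈ BS v C R D.hR := mem_BS.2 hrep.bG
  have bHR : H₀ ∈ BS v C R D.hR := mem_BS.2 hrep.bH
  have hk' : D.kap ⟨f, G₀, H₀, hrep⟩ =
      algebraMap (BS v C R D.hR) D.FD ⟨G₀, bGR⟩ /
        algebraMap (BS v C R D.hR) D.FD ⟨H₀, bHR⟩ :=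
    D.kap_rep hrep ⟨G₀, H₀, hrep⟩
  rw [hk'] at hgl
  -- cross multiplication
  have hR' : (0 : ℝ) < (R : ℝ) := by exact_mod_cast D.hR
  have hρR' : ‖ρ‖ ≤ (R : ℝ) := by rw [hρn]; exact_mod_cast hρ
  have e1 : resF (k := C) (R := (R : ℝ)) hR' (norm_pos_iff.mpr hρ0) hρR'
      (algebraMap (bsub (K := C) (R : ℝ) hR') (FDisc C (R : ℝ) hR') ⟨G₀, bGR⟩ /
        algebraMap (bsub (K := C) (R : ℝ) hR') (FDisc C (R : ℝ) hR') ⟨H₀, bHR⟩) =
      (algebraMap (bsub (K := C) ‖ρ‖ (norm_pos_iff.mpr hρ0))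
          (FDisc C ‖ρ‖ (norm_pos_iff.mpr hρ0)) G /
        algebraMap (bsub (K := C) ‖ρ‖ (norm_pos_iff.mpr hρ0))
          (FDisc C ‖ρ‖ (norm_pos_iff.mpr hρ0)) H) ^ l := hgl
  rw [map_div₀, resF_algebraMap, resF_algebraMap, div_pow] at e1
  have hne1 : algebraMap (bsub (K := C) ‖ρ‖ (norm_pos_iff.mpr hρ0))
      (FDisc C ‖ρ‖ (norm_pos_iff.mpr hρ0)) (resB hR' (norm_pos_iff.mpr hρ0) hρR'
        ⟨H₀, bHR⟩) ≠ 0 := by
    intro h0
    have h1 := IsFractionRing.injective (bsub (K := C) ‖ρ‖ (norm_pos_iff.mpr hρ0))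
      (FDisc C ‖ρ‖ (norm_pos_iff.mpr hρ0)) (h0.trans (map_zero _).symm)
    exact hrep.ne (congrArg Subtype.val h1)
  have hne2 : algebraMap (bsub (K := C) ‖ρ‖ (norm_pos_iff.mpr hρ0))
      (FDisc C ‖ρ‖ (norm_pos_iff.mpr hρ0)) H ^ l ≠ 0 := by
    refine pow_ne_zero _ fun h0 => ?_
    have h1 := IsFractionRing.injective (bsub (K := C) ‖ρ‖ (norm_pos_iff.mpr hρ0))
      (FDisc C ‖ρ‖ (norm_pos_iff.mpr hρ0)) (h0.trans (map_zero _).symm)
    exact hH0 (congrArg Subtype.val h1)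
  rw [div_eq_div_iff hne1 hne2, ← map_pow, ← map_pow, ← map_mul, ← map_mul] at e1
  have e2 := IsFractionRing.injective (bsub (K := C) ‖ρ‖ (norm_pos_iff.mpr hρ0))
    (FDisc C ‖ρ‖ (norm_pos_iff.mpr hρ0)) e1
  have e3 : G₀ * (H : C⟦X⟧) ^ l = (G : C⟦X⟧) ^ l * H₀ := congrArg Subtype.val e2
  -- bounds
  have mem_of : ∀ F : bsub (K := C) ‖ρ‖ (norm_pos_iff.mpr hρ0), (F : C⟦X⟧) ∈ BS v C (v (ρ : Ω)) hρ1 := by
    intro F
    obtain ⟨F, B, hB⟩ := F
    refine ⟨B, fun n => ?_⟩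
    have h1 : ‖coeff n F‖ * ‖ρ‖ ^ n ≤ B := hB n
    rw [hρn] at h1
    exact h1
  have mG := mem_of G
  have mH := mem_of H
  refine ⟨(G : C⟦X⟧), (H : C⟦X⟧), hG0, hH0, mem_BS.1 mG, mem_BS.1 mH, ?_⟩
  have hev : ∀ (F : C⟦X⟧) (h1 : F ∈ BS v C R D.hR) (h2 : F ∈ BS v C (v (ρ : Ω)) hρ1),
      evW v C (v (ρ : Ω)) hρ1 x hxρ ⟨F, h2⟩ = evW v C R D.hR x D.hx ⟨F, h1⟩ := fun F h1 h2 => rfl
  have bG₀ : G₀ ∈ BS v C (v (ρ : Ω)) hρ1 := by
    obtain ⟨B, hB⟩ := hrep.bG
    exact mem_BS.2 ⟨B, fun i => (mul_le_mul_right (pow_le_pow_left₀ zero_le hρ i) _).trans (hB i)⟩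
  have bH₀ : H₀ ∈ BS v C (v (ρ : Ω)) hρ1 := by
    obtain ⟨B, hB⟩ := hrep.bH
    exact mem_BS.2 ⟨B, fun i => (mul_le_mul_right (pow_le_pow_left₀ zero_le hρ i) _).trans (hB i)⟩
  refine isRep_of hρ1 hxρ D.hP D.hPx (pow_ne_zero _ hH0) (pow_mem mG l) (pow_mem mH l) ?_ ?_
  · have f1 := hrep.v_eq (hR := D.hR) (hx := D.hx)
    rw [← hev _ bGR bG₀, ← hev _ bHR bH₀] at f1
    have f2 : evW v C (v (ρ : Ω)) hρ1 x hxρ ⟨G₀, bG₀⟩ *
        evW v C (v (ρ : Ω)) hρ1 x hxρ ⟨(H : C⟦X⟧) ^ l, pow_mem mH l⟩ =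
        evW v C (v (ρ : Ω)) hρ1 x hxρ ⟨(G : C⟦X⟧) ^ l, pow_mem mG l⟩ *
        evW v C (v (ρ : Ω)) hρ1 x hxρ ⟨H₀, bH₀⟩ := by
      rw [← map_mul, ← map_mul]
      congr 1
      exact Subtype.ext e3
    rw [← f1] at f2
    have f3 : evW v C (v (ρ : Ω)) hρ1 x hxρ ⟨H₀, bH₀⟩ ≠ 0 := by
      rw [hev _ bHR bH₀]
      intro h0
      have h1 := D.evW_injective (h0.trans (map_zero _).symm)
      exact hrep.ne (congrArg Subtype.val h1)
    apply mul_right_cancel₀ f3
    rw [← f2]; ring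
  · have f1 := hrep.P_eq D.hP (hx := D.hPx)
    have f2 : evW P C 1 one_pos x D.hPx ⟨G₀, mem_BS_place D.hP _⟩ *
        evW P C 1 one_pos x D.hPx ⟨(H : C⟦X⟧) ^ l, mem_BS_place D.hP _⟩ =
        evW P C 1 one_pos x D.hPx ⟨(G : C⟦X⟧) ^ l, mem_BS_place D.hP _⟩ *
        evW P C 1 one_pos x D.hPx ⟨H₀, mem_BS_place D.hP _⟩ := by
      rw [← map_mul, ← map_mul]
      congr 1
      exact Subtype.ext e3
    rw [← f1] at f2
    have f3 := evW_place_injective D.hP D.hPx (x_ne_zero D) hrep.ne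
    apply mul_right_cancel₀ f3
    rw [← f2]; ring


end out

end Crest.Agent.R013.BTor8_914
end
end

-- ▼ part R013/SetMN_930
section

/-!
# Row 13: the disc embedding `iota` of 803 lands in the functions of the annulus `1/s ≤ |y| ≤ s`
-/

set_option autoImplicit false
set_option linter.unusedSectionVars false
set_option linter.style.haveILetI false

noncomputable section

namespace Crest.Agent.R013.Set_803

open scoped NNReal Topology
open Filter PowerSeries Crest.NumberTheoryR.Sect Crest.Agent.R013.A2a_275 Crest.Agent.R013.Gl946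
  Crest.Agent.R013.SE_669 Crest.Agent.R013.KAS2_940 Crest.Agent.R013.KAS3_940
  Crest.Agent.R013.Good1_940 Crest.Agent.R013.Good3_940 Crest.Agent.R013.CGood_588
  Crest.Agent.R013.Annu_930

section Gen

variable {k E : Type*} [NontriviallyNormedField k] [IsUltrametricDist k] [CompleteSpace k]
  [NormedField E] [NormedAlgebra k E] [IsUltrametricDist E] [CompleteSpace E]

/-- A series bounded at radius `R` evaluated at `ρ y`, `|ρ| s < R`, is a function on the closed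
annulus. -/
theorem ev_mem_AN {y : E} (hG : IsGauss k y) {s : ℝ≥0} (hs : 1 < s) {r1 : ℝ} {hr1 : 0 < r1} (ρ : k)
    (hρ : ‖ρ‖ * s < r1) {hx : ‖algebraMap k E ρ * y‖ < r1} (f : bsub (K := k) r1 hr1) :
    ev hr1 (algebraMap k E ρ * y) hx f ∈ AN hG hs := by
  obtain ⟨B, hB⟩ := f.2
  rcases eq_or_ne ρ 0 with h0 | h0
  · have h := hasSum_ev (hx := hx) f
    have h1 : ∀ n, n ≠ 0 → algebraMap k E (coeff n f.1) * (algebraMap k E ρ * y) ^ n = 0 := by
      intro n hn
      rw [h0, map_zero, zero_mul, zero_pow hn, mul_zero]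
    have h2 := h.unique (hasSum_single 0 h1)
    rw [h2, pow_zero, mul_one]
    exact (AN hG hs).algebraMap_mem _
  · have hρ0 : 0 < ‖ρ‖ := norm_pos_iff.2 h0
    set R : ℝ≥0 := ⟨r1 / ‖ρ‖, by positivity⟩ with hR
    have hsR : s < R := by
      rw [← NNReal.coe_lt_coe, hR]
      change (s : ℝ) < r1 / ‖ρ‖
      rwa [lt_div_iff₀ hρ0, mul_comm]
    refine hasSum_mem_AN_of_bounded hG hs (fun n => coeff n f.1 * ρ ^ n) (R := R)
      (C := Real.toNNReal B) hsR ?_ ?_
    · intro n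
      have h1 := hB n
      have h2 : (‖coeff n f.1 * ρ ^ n‖₊ * R ^ n : ℝ≥0) ≤ Real.toNNReal B := by
        rw [← NNReal.coe_le_coe]
        refine le_trans (le_of_eq ?_) (h1.trans (Real.le_coe_toNNReal B))
        push_cast
        rw [norm_mul, norm_pow, mul_assoc, ← mul_pow]
        congr 2
        change ‖ρ‖ * (r1 / ‖ρ‖) = r1
        field_simp
      exact h2
    · have h := hasSum_ev (hx := hx) f
      have e : (fun n => (coeff n f.1 * ρ ^ n) • y ^ n) = fun n =>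
          algebraMap k E (coeff n f.1) * (algebraMap k E ρ * y) ^ n := by
        funext n
        rw [Algebra.smul_def, map_mul, map_pow, mul_pow, mul_assoc]
      rw [e]
      exact h

end Gen

variable {k : Type*} [Field k] {Ω : Type*} [Field Ω] [Algebra k Ω]
variable {p : ℕ} [hp : Fact p.Prime] [Algebra ℚ_[p] k] {v P : Valuation Ω ℝ≥0}
  {C : IntermediateField k Ω}

namespace DiscData

variable {R : ℝ≥0} {x q c : Ω} (D : DiscData p v P C R x q c)
  [FiniteDimensional ℚ_[p] k] [FiniteDimensional k C]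
  {E : Type*} [NormedField E] [IsUltrametricDist E] [CompleteSpace E]
  (A : NAlg D.hv C E) {y : E} (hy : IsG D.hv C A y)

theorem evE_mem_AN (ρ : C) (hρ : v ρ < R) {s : ℝ≥0} (hs : 1 < s) (hρs : v ρ * s < R)
    (F : BS v C R D.hR) :
    letI := nC D.hv C; letI := A
    haveI := ultra_nC D.hv C
    D.evE A hy ρ hρ F ∈ AN hy hs := by
  letI := nC D.hv C
  haveI := ultra_nC D.hv C
  haveI := complete_nC D.hv C
  letI := A
  have hn : ‖ρ‖ = v (ρ : Ω) := norm_nC D.hv C ρ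
  have h1 : pt (k := C) (0 : C) ρ y = algebraMap C E ρ * y := by
    rw [pt, map_zero, zero_add]
  have h2 : ‖pt (k := C) (0 : C) ρ y‖ < (R : ℝ) :=
    norm_pt_lt hy (by rw [norm_zero]; exact_mod_cast D.hR) (by rw [hn]; exact_mod_cast hρ)
  have hx : ‖algebraMap C E ρ * y‖ < (R : ℝ) := h1 ▸ h2
  have h3 : D.evE A hy ρ hρ F = ev (k := C) (E := E) (r1 := (R : ℝ)) (by exact_mod_cast D.hR)
      (algebraMap C E ρ * y) hx F := by
    rw [D.evE_apply A hy ρ hρ F]; rfl
  rw [h3]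
  exact ev_mem_AN hy hs ρ (by rw [hn]; exact_mod_cast hρs) F

/-- **`iota f` is a meromorphic function on the closed annulus `|ρ| / s ≤ |x| ≤ |ρ| s`**. -/
theorem iota_mem_MN (ρ : C) (hρ : v ρ < R) (h0 : ρ ≠ 0) {s : ℝ≥0} (hs : 1 < s)
    (hρs : v ρ * s < R) (f : D.SD) :
    letI := nC D.hv C; letI := A
    haveI := ultra_nC D.hv C
    D.iota A hy ρ hρ h0 f ∈ MN hy hs := by
  letI := nC D.hv C
  haveI := ultra_nC D.hv C
  haveI := complete_nC D.hv C
  letI := A
  obtain ⟨f, hf⟩ := f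
  obtain ⟨G, H, h⟩ := D.mem_SD.1 hf
  exact ⟨_, D.evE_mem_AN A hy ρ hρ hs hρs ⟨G, mem_BS.2 h.bG⟩, _,
    D.evE_mem_AN A hy ρ hρ hs hρs ⟨H, mem_BS.2 h.bH⟩, D.evE_ne_zero A hy ρ hρ h0 h.ne _,
    D.iota_rep A hy ρ hρ h0 h hf⟩

end DiscData

end Crest.Agent.R013.Set_803
end
end

-- ▼ part R013/Cls2_914
section

/-!
# R013 / Cls2: the second class (split over the disc) at a circle inside the disc: the root `g2 ∈ E`
in `FP`, `MN`, `Ap` (helper914)
-/

set_option autoImplicit false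
set_option linter.all false

noncomputable section

namespace Crest.Agent.R013.Cls2_914

open scoped NNReal Topology
open Filter PowerSeries Crest.NumberTheoryR.Sect Crest.Agent.R013.A2a_275 Crest.Agent.R013.Gl946
  Crest.Agent.R013.SE_669 Crest.Agent.R013.KAS2_940 Crest.Agent.R013.KAS3_940
  Crest.Agent.R013.Good1_940 Crest.Agent.R013.Good3_940 Crest.Agent.R013.CGood_588
  Crest.Agent.R013.Annu_930 Crest.Agent.R013.Set_803 Crest.Agent.R013.BTor3_914
  Crest.Agent.R013.BTor8_914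

variable {k : Type*} [Field k] {Ω : Type*} [Field Ω] [Algebra k Ω]
variable {p : ℕ} [hp : Fact p.Prime] [Algebra ℚ_[p] k] {v P : Valuation Ω ℝ≥0}
  {C : IntermediateField k Ω} {R R' : ℝ≥0} {x q c : Ω}
  [FiniteDimensional ℚ_[p] k] [FiniteDimensional k C]
  {E : Type*} [NormedField E] [IsUltrametricDist E] [CompleteSpace E]

/-- `iota` does not depend on the radius of the disc -/
theorem iota_res (D : DiscData p v P C R x q c) (D' : DiscData p v P C R' x q c)
    (A : NAlg D.hv C E) {y : E} (hy : IsG D.hv C A y) (hR : R' ≤ R) (ρ : C) (hρ : v ρ < R')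
    (h0 : ρ ≠ 0) {f : Ω} {G H : C⟦X⟧} (h : IsRep v P C R x f G H) (hf : f ∈ D.SD)
    (hf' : f ∈ D'.SD) :
    D.iota A hy ρ (hρ.trans_le hR) h0 ⟨f, hf⟩ = D'.iota A hy ρ hρ h0 ⟨f, hf'⟩ := by
  rw [D.iota_rep A hy ρ (hρ.trans_le hR) h0 h hf, D'.iota_rep A hy ρ hρ h0 (h.res hR) hf',
    D.evE_apply, D.evE_apply, D'.evE_apply, D'.evE_apply]

/-- **The second class at the circle `|x| = |π|`.** -/
theorem exists_g2 (D : DiscData p v P C R x q c) (A : NAlg D.hv C E) {y : E}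
    (hy : IsG D.hv C A y) {l : ℕ} {ρ : C} (hρ0 : ρ ≠ 0) (hρ : v (ρ : Ω) ≤ R)
    (hqρ : v q < v (ρ : Ω)) (hcρ : v c < v (ρ : Ω)) (π : C) (hπ0 : π ≠ 0)
    (hπρ : v (π : Ω) < v (ρ : Ω)) (f : D.SD)
    (hf : letI := nC D.hv C; haveI := ultra_nC D.hv C
      ∃ g : FDisc C ‖ρ‖ (norm_pos_iff.mpr hρ0), g ≠ 0 ∧
        resF (k := C) (R := (R : ℝ)) (by exact_mod_cast D.hR) (norm_pos_iff.mpr hρ0)
          (by rw [norm_nC]; exact_mod_cast hρ) (D.kap f) = g ^ l) :
    ∃ g2 : E, g2 ≠ 0 ∧ g2 ^ l = D.iota A hy π (hπρ.trans_le hρ) hπ0 f ∧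
      (∀ (ϖ : C) (hϖ : @IsUnif C (nC D.hv C).toNormedField ϖ) (hd : DenseR D.hv C A y),
        letI := nC D.hv C
        haveI := complete_nC D.hv C
        letI := A
        g2 ∈ FP hy hϖ hd) ∧
      ∀ (s : ℝ≥0) (hs : 1 < s), v (π : Ω) * s < v (ρ : Ω) →
        letI := nC D.hv C; letI := A
        haveI := ultra_nC D.hv C
        g2 ∈ MN hy hs := by
  have D' : DiscData p v P C (v (ρ : Ω)) x q c := D.res hqρ hcρ
  obtain ⟨G, H, hG0, hH0, hG, hH, hrep⟩ := rep_of_FDisc D hρ0 hρ D'.hx f hf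
  have bG : G ∈ BS v C (v (ρ : Ω)) D'.hR := mem_BS.2 hG
  have bH : H ∈ BS v C (v (ρ : Ω)) D'.hR := mem_BS.2 hH
  have hf' : (f : Ω) ∈ D'.SD := ⟨_, _, hrep⟩
  obtain ⟨f, G₀, H₀, h₀⟩ := f
  have hG1 := D'.evE_ne_zero A hy π hπρ hπ0 hG0 bG
  have hH1 := D'.evE_ne_zero A hy π hπρ hπ0 hH0 bH
  refine ⟨D'.evE A hy π hπρ ⟨G, bG⟩ / D'.evE A hy π hπρ ⟨H, bH⟩, div_ne_zero hG1 hH1, ?_, ?_, ?_⟩
  · rw [iota_res D D' A hy hρ π hπρ hπ0 h₀ ⟨G₀, H₀, h₀⟩ hf', D'.iota_rep A hy π hπρ hπ0 hrep hf',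
      div_pow, ← map_pow, ← map_pow]
    rfl
  · intro ϖ hϖ hd
    letI := nC D.hv C
    haveI := ultra_nC D.hv C
    haveI := complete_nC D.hv C
    letI := A
    exact div_mem (AP_le_FP hy hϖ hd (D'.evE_mem_AP A hy π hπρ _))
      (AP_le_FP hy hϖ hd (D'.evE_mem_AP A hy π hπρ _))
  · intro s hs hs'
    letI := nC D.hv C
    haveI := ultra_nC D.hv C
    haveI := complete_nC D.hv C
    letI := A
    exact ⟨_, D'.evE_mem_AN A hy π hπρ hs hs' ⟨G, bG⟩, _,
      D'.evE_mem_AN A hy π hπρ hs hs' ⟨H, bH⟩, hH1, rfl⟩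

end Crest.Agent.R013.Cls2_914
end
end

-- ▼ part R013/BTor9_914
section

/-!
# R013 / BTor9: B-TOR, final form (helper914)
-/

set_option autoImplicit false
set_option linter.all false

universe u

noncomputable section

namespace Crest.Agent.R013.BTor9_914

open scoped NNReal Topology IntermediateField
open Filter PowerSeries Crest.NumberTheoryR.Sect Crest.Agent.R013.A2a_275 Crest.Agent.R013.Gl946
  Crest.Agent.R013.SE_669 Crest.Agent.R013.KAS1_940 Crest.Agent.R013.KAS2_940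
  Crest.Agent.R013.KAS3_940 Crest.Agent.R013.RR11_948
  Crest.Agent.R013.Good1_940 Crest.Agent.R013.Good3_940 Crest.Agent.R013.CGood_588
  Crest.Agent.R013.Set_803 Crest.Agent.R013.BTor3_914 Crest.Agent.R013.BTor4_914
  Crest.Agent.R013.BTor6_914 Crest.Agent.R013.BTor7_914 Crest.Agent.R013.BTor8_914

section props

variable {k : Type*} [Field k] [CharZero k] {K : Type*} [Field K] [Algebra k K]
  [Algebra (RatFunc k) K] [IsScalarTower k (RatFunc k) K] [FiniteDimensional (RatFunc k) K]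

theorem mem_unr {C : IntermediateField k (AlgebraicClosure K)} [FiniteDimensional k C]
    {x : AlgebraicClosure K} (hx : x ∈ C) : x ∈ maxUnramified k K := by
  have h1 : IsIntegral k (⟨x, hx⟩ : C) := (Algebra.IsIntegral.isIntegral (R := k) (A := C) _)
  have h2 : IsIntegral k x := h1.map C.val
  exact MaxUnr_97.mem_maxUnramified_of_isIntegral _ h2

/-- `L C / K` is finite -/
theorem finite_LC {L : IntermediateField K (AlgebraicClosure K)} [FiniteDimensional K L]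
    (C : IntermediateField k (AlgebraicClosure K)) [FiniteDimensional k C] :
    FiniteDimensional K (LC L C) := by
  haveI : FiniteDimensional K (IntermediateField.adjoin K (C : Set (AlgebraicClosure K))) := by
    obtain ⟨s, hs⟩ : ∃ s : Finset (AlgebraicClosure K), IntermediateField.adjoin k
        (s : Set (AlgebraicClosure K)) = C := by
      have h1 : Algebra.EssFiniteType k C := inferInstance
      exact IntermediateField.essFiniteType_iff.mp h1
    have h1 : IntermediateField.adjoin K (C : Set (AlgebraicClosure K)) =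
        IntermediateField.adjoin K (s : Set (AlgebraicClosure K)) := by
      apply le_antisymm
      · rw [IntermediateField.adjoin_le_iff]
        intro x hx
        have hx' : x ∈ C := hx
        rw [← hs] at hx'
        have h3 : IntermediateField.adjoin k (s : Set (AlgebraicClosure K)) ≤
            (IntermediateField.adjoin K (s : Set (AlgebraicClosure K))).restrictScalars k := by
          rw [IntermediateField.adjoin_le_iff]
          exact IntermediateField.subset_adjoin K _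
        exact h3 hx'
      · refine IntermediateField.adjoin.mono _ _ _ ?_
        rw [← hs]
        exact IntermediateField.subset_adjoin _ _
    rw [h1]
    exact IntermediateField.finiteDimensional_adjoin fun x hx => Algebra.IsIntegral.isIntegral x
  unfold LC
  infer_instance

/-- `L C / K` is unramified -/
theorem unr_LC {L : IntermediateField K (AlgebraicClosure K)} (hL : IsUnramifiedEverywhere k K L)
    (C : IntermediateField k (AlgebraicClosure K)) [FiniteDimensional k C] :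
    IsUnramifiedEverywhere k K (LC L C) := by
  haveI := hL.1
  haveI := finite_LC (L := L) C
  refine Unr5_957.le_maxUnramified_iff.mp ?_
  unfold LC
  refine sup_le (Unr5_957.le_maxUnramified_iff.mpr hL) ?_
  rw [IntermediateField.adjoin_le_iff]
  intro x hx
  exact mem_unr (C := C) hx

/-- multiplication by constants -/
theorem ldiv_mul {F M : Type*} [Field F] [Field M] [Algebra F M] {l : ℕ} {f : M}
    (h : LDiv F l f) {a : F} (ha : a ≠ 0) : LDiv F l (algebraMap F M a * f) := by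
  intro u hu
  obtain ⟨b, hb⟩ := h u hu
  exact ⟨b, by rw [map_mul, hu.1 a ha, one_mul, hb]⟩

end props

theorem v_nat {k : Type*} [Field k] {Ω : Type*} [Field Ω] [Algebra k Ω] {p : ℕ} [Fact p.Prime]
    [Algebra ℚ_[p] k] {v : Valuation Ω ℝ≥0} (hv : ExtendsPadicNorm k Ω p v) {l : ℕ}
    (hl : l.Prime) (hlp : l ≠ p) : v (l : Ω) = 1 := by
  have h1 := hv (l : ℚ_[p])
  rw [map_natCast, map_natCast] at h1
  rw [h1]
  have h2 : ‖(l : ℚ_[p])‖ = 1 := by
    rw [Padic.norm_natCast_eq_one_iff]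
    exact (Nat.coprime_primes (Fact.out) hl).2 (Ne.symm hlp)
  exact NNReal.eq h2

section pieces

variable {k : Type*} [Field k] {Ω : Type*} [Field Ω] [Algebra k Ω]
variable {p : ℕ} [hp : Fact p.Prime] [Algebra ℚ_[p] k] {v P : Valuation Ω ℝ≥0}
  {C : IntermediateField k Ω} {R : ℝ≥0} {x q c : Ω}
  [FiniteDimensional ℚ_[p] k] [FiniteDimensional k C]

/-- the root over the disc, for an intermediate field -/
theorem out_IF {K : Type*} [Field K] [Algebra k K] [Algebra K Ω] [IsScalarTower k K Ω]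
    (D : DiscData p v P C R x q c) (U : IntermediateField K Ω)
    (hU : ∀ f ∈ U, f ∈ D.SD) (hCU : ∀ a ∈ C, a ∈ U) {l : ℕ} (hl : v (l : Ω) = 1)
    {f : Ω} (hfU : f ∈ U) (hf0 : f ≠ 0) (hdiv : LDiv k l (⟨f, hfU⟩ : U)) {ρ : C} (hρ0 : ρ ≠ 0)
    (hρ : v (ρ : Ω) ≤ R) :
    ∃ a : C, a ≠ 0 ∧ ∀ (hh : (a : Ω) * f ∈ D.SD),
      letI := nC D.hv C; haveI := ultra_nC D.hv C
      ∃ g : FDisc C ‖ρ‖ (norm_pos_iff.mpr hρ0), g ≠ 0 ∧
        resF (k := C) (R := (R : ℝ)) (by exact_mod_cast D.hR) (norm_pos_iff.mpr hρ0)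
          (by rw [norm_nC]; exact_mod_cast hρ) (D.kap ⟨(a : Ω) * f, hh⟩) = g ^ l := by
  letI algU : Algebra C U :=
    ((algebraMap C Ω).codRestrict U.toSubring fun a => hCU a a.2).toAlgebra
  haveI : IsScalarTower k C U := IsScalarTower.of_algebraMap_eq fun a => by
    apply Subtype.ext
    rfl
  have hdU : LDiv C l (⟨f, hfU⟩ : U) := LDiv.mono hdiv
  have hfU0 : (⟨f, hfU⟩ : U) ≠ 0 := fun h => hf0 (congrArg (fun z : U => (z : Ω)) h)
  let j : U →+* D.SD := (algebraMap U Ω).codRestrict D.SD fun f => hU f f.2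
  have hj : ∀ a : C, (j (algebraMap C U a) : Ω) = a := fun a => rfl
  obtain ⟨a, ha, hroot⟩ := out_FDisc D j hj hl hfU0 hdU hρ0 hρ
  refine ⟨a, ha, fun hm => ?_⟩
  have e : j (algebraMap C U a * ⟨f, hfU⟩) = ⟨(a : Ω) * f, hm⟩ := Subtype.ext rfl
  rw [e] at hroot
  exact hroot

end pieces

section bar

variable {k K : Type u} [Field k] [CharZero k] [Field K] [Algebra k K]
  [Algebra (RatFunc k) K] [IsScalarTower k (RatFunc k) K] [FiniteDimensional (RatFunc k) K]

theorem mem_Lbar_of_integral {L : IntermediateField K (AlgebraicClosure K)}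
    {a : AlgebraicClosure K} (ha : IsIntegral k a) : a ∈ Lbar k L :=
  (le_sup_right : IntermediateField.adjoin K _ ≤ Lbar k L)
    (IntermediateField.subset_adjoin _ _ ha)

theorem ldiv_bar_mul {L : IntermediateField K (AlgebraicClosure K)}
    {C : IntermediateField k (AlgebraicClosure K)} [FiniteDimensional k C] (a : C) (ha : a ≠ 0)
    {l : ℕ} {f : AlgebraicClosure K} (hf : f ∈ Lbar k L)
    (hd : LDiv k l (⟨f, hf⟩ : Lbar k L)) (hm : (a : AlgebraicClosure K) * f ∈ Lbar k L) :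
    LDiv k l (⟨(a : AlgebraicClosure K) * f, hm⟩ : Lbar k L) := by
  have hI : ∀ a : C, IsIntegral k (a : AlgebraicClosure K) := fun a =>
    (Algebra.IsIntegral.isIntegral (R := k) (A := C) a).map C.val
  letI algB : Algebra C (Lbar k L) :=
    ((algebraMap C (AlgebraicClosure K)).codRestrict (Lbar k L).toSubring
      fun a => mem_Lbar_of_integral (hI a)).toAlgebra
  haveI : IsScalarTower k C (Lbar k L) := IsScalarTower.of_algebraMap_eq fun a => by
    apply Subtype.ext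
    rfl
  have h1 : LDiv C l (⟨f, hf⟩ : Lbar k L) := LDiv.mono hd
  have h2 : LDiv C l (algebraMap C (Lbar k L) a * ⟨f, hf⟩) := ldiv_mul h1 ha
  have h3 : LDiv k l (algebraMap C (Lbar k L) a * ⟨f, hf⟩) := LDiv.of_alg (k' := C) h2
  have e : (⟨(a : AlgebraicClosure K) * f, hm⟩ : Lbar k L) =
      algebraMap C (Lbar k L) a * ⟨f, hf⟩ := Subtype.ext rfl
  rw [e]
  exact h3

theorem no_root_mul {L : IntermediateField K (AlgebraicClosure K)}
    {a : AlgebraicClosure K} (ha : IsIntegral k a) (ha0 : a ≠ 0) {l : ℕ} (hl : 0 < l)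
    {f : AlgebraicClosure K} (hf : ∀ g ∈ Lbar k L, g ^ l ≠ f) : ∀ g ∈ Lbar k L, g ^ l ≠ a * f := by
  intro g hg hgl
  obtain ⟨α, hα⟩ := IsAlgClosed.exists_pow_nat_eq a hl
  have hα0 : α ≠ 0 := by
    rintro rfl
    rw [zero_pow hl.ne'] at hα
    exact ha0 hα.symm
  have hαI : IsIntegral k α := by
    refine IsIntegral.of_pow hl ?_
    rw [hα]; exact ha
  have hαL : α ∈ Lbar k L := mem_Lbar_of_integral hαI
  refine hf (g / α) (div_mem hg hαL) ?_
  rw [div_pow, hgl, hα, mul_div_cancel_left₀ _ ha0]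

end bar

section main

variable {k K : Type u} [Field k] [CharZero k] [Field K] [Algebra k K]
  [Algebra (RatFunc k) K] [IsScalarTower k (RatFunc k) K] [FiniteDimensional (RatFunc k) K]
  {p : ℕ} [Fact p.Prime] [Algebra ℚ_[p] k] [FiniteDimensional ℚ_[p] k]
  {v P : Valuation (AlgebraicClosure K) ℝ≥0}
  {C : IntermediateField k (AlgebraicClosure K)} [FiniteDimensional k C] {R : ℝ≥0}
  {x q c : AlgebraicClosure K}

/-- **B-TOR.** `D`: the disc data of GOOD for the constants `C` (B-SET), `L/K` finite, unramified,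
expanded on the disc; `C₁ ≥ C` any larger constants, `ρ ∈ C₁`, `|x|_v < |ρ| ≤ R`.  There are
constants `C₂ ≥ C₁` and `h ∈ L C₂` such that `h` is not an `l`-th power in `L k̄`, the `l`-th roots
of `h` lie in `maxUnramified k K`, and the expansion of `h` on the disc `|x| < |ρ|` is an `l`-th
power. -/
theorem exists_out (tors : TORS.{u, u}) (hc : algebraicClosure k K = ⊥) (hg : 1 ≤ gen k K)
    (D : DiscData p v P C R x q c) {L : IntermediateField K (AlgebraicClosure K)}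
    (hL : IsUnramifiedEverywhere k K L) (hLD : ∀ f ∈ L, f ∈ D.SD) {l : ℕ} (hl : l.Prime)
    (hlp : l ≠ p) (C₁ : IntermediateField k (AlgebraicClosure K)) [FiniteDimensional k C₁]
    (hC₁ : C ≤ C₁) {ρ : AlgebraicClosure K} (hρ : ρ ∈ C₁) (hρv : ρ ≠ 0) (hρR : v ρ ≤ R) :
    ∃ (C₂ : IntermediateField k (AlgebraicClosure K)) (_ : FiniteDimensional k C₂)
      (hC₂ : C₁ ≤ C₂) (D₂ : DiscData p v P C₂ R x q c) (h : AlgebraicClosure K)
      (hρ0 : (⟨ρ, hC₂ hρ⟩ : C₂) ≠ 0),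
      (∀ f ∈ LC L C₂, f ∈ D₂.SD) ∧ h ∈ LC L C₂ ∧ h ≠ 0 ∧ (∀ g ∈ Lbar k L, g ^ l ≠ h) ∧
      (∀ y : AlgebraicClosure K, y ^ l = h → y ∈ maxUnramified k K) ∧
      (∀ U : IntermediateField K (AlgebraicClosure K), FiniteDimensional K U → L ≤ U →
        U ≤ Lbar k L → ∀ hf : h ∈ U, LDiv k l (⟨h, hf⟩ : U)) ∧
      ∀ (hh : h ∈ D₂.SD),
        letI := nC D₂.hv C₂; haveI := ultra_nC D₂.hv C₂
        ∃ g : FDisc C₂ ‖(⟨ρ, hC₂ hρ⟩ : C₂)‖ (norm_pos_iff.mpr hρ0), g ≠ 0 ∧
          resF (k := C₂) (R := (R : ℝ)) (by exact_mod_cast D₂.hR) (norm_pos_iff.mpr hρ0)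
            (by rw [norm_nC]; exact_mod_cast hρR) (D₂.kap ⟨h, hh⟩) = g ^ l := by
  haveI := hL.1
  obtain ⟨⟨f, hfm⟩, hf0, hfd, hfn⟩ := exists_htors tors hc hg L hl
  have hfne : f ≠ 0 := fun h => hf0 (Subtype.ext h)
  have hfn' : ∀ g ∈ Lbar k L, g ^ l ≠ f := fun g hg hgl => hfn ⟨g, hg⟩ (Subtype.ext hgl)
  clear hfn hf0
  obtain ⟨C', hC', hfC'⟩ := exists_LC hfm
  haveI := hC'
  obtain ⟨C₂, i₂, hC₂, hC'₂⟩ : ∃ (C₂ : IntermediateField k (AlgebraicClosure K))
      (_ : FiniteDimensional k C₂), C₁ ≤ C₂ ∧ C' ≤ C₂ :=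
    ⟨C₁ ⊔ C', IntermediateField.finiteDimensional_sup C₁ C', le_sup_left, le_sup_right⟩
  have D₂ : DiscData p v P C₂ R x q c := D.mono (hC₁.trans hC₂)
  have hLC₂ : ∀ f ∈ LC L C₂, f ∈ D₂.SD :=
    D₂.sup_le_SDK (fun f hf => D.SD_mono (hC₁.trans hC₂) (hLD f hf)) (C₂ : Set (AlgebraicClosure K))
      fun a ha => D₂.C_le_SD ⟨a, ha⟩
  have hfC : f ∈ LC L C₂ := LC_mono hC'₂ hfC'
  have hρ0 : (⟨ρ, hC₂ hρ⟩ : C₂) ≠ 0 := fun h => hρv (congrArg Subtype.val h)
  have hCU : ∀ a ∈ C₂, a ∈ LC L C₂ := fun a ha =>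
    (le_sup_right : IntermediateField.adjoin K _ ≤ LC L C₂)
      (IntermediateField.subset_adjoin _ _ ha)
  have hUbar : LC L C₂ ≤ Lbar k L := LC_le_Lbar
  haveI hfin : FiniteDimensional K (LC L C₂) := finite_LC C₂
  have hLU : L ≤ LC L C₂ := le_sup_left
  have hdU : LDiv k l (⟨f, hfC⟩ : LC L C₂) := ldiv_of_bar (U := LC L C₂) hLU hUbar hfC hfd
  obtain ⟨a, ha, hroot⟩ := out_IF D₂ (LC L C₂) hLC₂ hCU (v_nat D.hv hl hlp) hfC hfne hdU hρ0 hρR
  have ha0 : (a : AlgebraicClosure K) ≠ 0 := fun h => ha (Subtype.ext h)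
  have haI : IsIntegral k (a : AlgebraicClosure K) :=
    (Algebra.IsIntegral.isIntegral (R := k) (A := C₂) a).map C₂.val
  have hU : (a : AlgebraicClosure K) * f ∈ LC L C₂ := mul_mem (hCU a a.2) hfC
  have hdB := ldiv_bar_mul a ha hfm hfd (hUbar hU)
  have key : ∀ V : IntermediateField K (AlgebraicClosure K), FiniteDimensional K V → L ≤ V →
      V ≤ Lbar k L → ∀ hf : (a : AlgebraicClosure K) * f ∈ V,
      LDiv k l (⟨(a : AlgebraicClosure K) * f, hf⟩ : V) := by
    intro V hVf hLV hV hf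
    exact ldiv_of_bar hLV hV hf hdB
  exact ⟨C₂, i₂, hC₂, D₂, (a : AlgebraicClosure K) * f, hρ0, hLC₂, hU, mul_ne_zero ha0 hfne,
    no_root_mul haI ha0 hl.pos hfn',
    fun y hy => Unr10_957.kummer_mem_maxUnramified (unr_LC hL C₂) hl.ne_zero
      (h := ⟨(a : AlgebraicClosure K) * f, hU⟩) (key (LC L C₂) hfin hLU hUbar hU) hy,
    key, hroot⟩

end main

end Crest.Agent.R013.BTor9_914
end
end

-- ▼ part R013/BTor10_914

/-!
# R013 / BTor10: B-TOR, unconditional (TORS of 235) (helper914)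
-/

set_option autoImplicit false
set_option linter.all false

universe u v

noncomputable section

namespace Crest.Agent.R013.BTor10_914

open scoped NNReal Topology IntermediateField
open Crest.NumberTheoryR.Sect Crest.Agent.R013.Gl946 Crest.Agent.R013.RR11_948
  Crest.Agent.R013.Good1_940 Crest.Agent.R013.Good3_940 Crest.Agent.R013.CGood_588
  Crest.Agent.R013.Set_803 Crest.Agent.R013.BTor3_914 Crest.Agent.R013.BTor4_914
  Crest.Agent.R013.BTor6_914 Crest.Agent.R013.BTor7_914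

theorem tors : TORS.{u, v} := by
  intro F L _ _ _ _ _ _ _ _ hg l hl
  obtain ⟨D, f, hf, hD, hn⟩ := Tors15_235.tors (F := F) (K := L) hg hl
  exact ⟨D, f, hf, by rw [← hD, natCast_zsmul], fun g hg h => hn g hg h.symm⟩

section main

variable {k K : Type u} [Field k] [CharZero k] [Field K] [Algebra k K]
  [Algebra (RatFunc k) K] [IsScalarTower k (RatFunc k) K] [FiniteDimensional (RatFunc k) K]


variable {p : ℕ} [Fact p.Prime] [Algebra ℚ_[p] k] [FiniteDimensional ℚ_[p] k]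
  {v P : Valuation (AlgebraicClosure K) ℝ≥0}
  {C : IntermediateField k (AlgebraicClosure K)} [FiniteDimensional k C] {R : ℝ≥0}
  {x q c : AlgebraicClosure K}

/-- **B-TOR, unconditional.** -/
theorem exists_out (hc : algebraicClosure k K = ⊥) (hg : 1 ≤ gen k K)
    (D : DiscData p v P C R x q c) {L : IntermediateField K (AlgebraicClosure K)}
    (hL : IsUnramifiedEverywhere k K L) (hLD : ∀ f ∈ L, f ∈ D.SD) {l : ℕ} (hl : l.Prime)
    (hlp : l ≠ p) (C₁ : IntermediateField k (AlgebraicClosure K)) [FiniteDimensional k C₁]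
    (hC₁ : C ≤ C₁) {ρ : AlgebraicClosure K} (hρ : ρ ∈ C₁) (hρv : ρ ≠ 0) (hρR : v ρ ≤ R) :
    ∃ (C₂ : IntermediateField k (AlgebraicClosure K)) (_ : FiniteDimensional k C₂)
      (hC₂ : C₁ ≤ C₂) (D₂ : DiscData p v P C₂ R x q c) (h : AlgebraicClosure K)
      (hρ0 : (⟨ρ, hC₂ hρ⟩ : C₂) ≠ 0),
      (∀ f ∈ LC L C₂, f ∈ D₂.SD) ∧ h ∈ LC L C₂ ∧ h ≠ 0 ∧ (∀ g ∈ Lbar k L, g ^ l ≠ h) ∧
      (∀ y : AlgebraicClosure K, y ^ l = h → y ∈ maxUnramified k K) ∧
      (∀ U : IntermediateField K (AlgebraicClosure K), FiniteDimensional K U → L ≤ U →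
        U ≤ Lbar k L → ∀ hf : h ∈ U, LDiv k l (⟨h, hf⟩ : U)) ∧
      ∀ (hh : h ∈ D₂.SD),
        letI := nC D₂.hv C₂; haveI := ultra_nC D₂.hv C₂
        ∃ g : FDisc C₂ ‖(⟨ρ, hC₂ hρ⟩ : C₂)‖ (norm_pos_iff.mpr hρ0), g ≠ 0 ∧
          resF (k := C₂) (R := (R : ℝ)) (by exact_mod_cast D₂.hR) (norm_pos_iff.mpr hρ0)
            (by rw [norm_nC]; exact_mod_cast hρR) (D₂.kap ⟨h, hh⟩) = g ^ l :=
  BTor9_914.exists_out tors hc hg D hL hLD hl hlp C₁ hC₁ hρ hρv hρR

/-- **B-TOR for the base field `K` itself** (`L = ⊥`, as in `VData_803`) -/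
theorem exists_out_bot (hc : algebraicClosure k K = ⊥) (hg : 1 ≤ gen k K)
    (D : DiscData p v P C R x q c)
    (hK : ∀ f : K, algebraMap K (AlgebraicClosure K) f ∈ D.SD) {l : ℕ} (hl : l.Prime)
    (hlp : l ≠ p) (C₁ : IntermediateField k (AlgebraicClosure K)) [FiniteDimensional k C₁]
    (hC₁ : C ≤ C₁) {ρ : AlgebraicClosure K} (hρ : ρ ∈ C₁) (hρv : ρ ≠ 0) (hρR : v ρ ≤ R) :
    ∃ (C₂ : IntermediateField k (AlgebraicClosure K)) (_ : FiniteDimensional k C₂)
      (hC₂ : C₁ ≤ C₂) (D₂ : DiscData p v P C₂ R x q c) (h : AlgebraicClosure K)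
      (hρ0 : (⟨ρ, hC₂ hρ⟩ : C₂) ≠ 0),
      (∀ f ∈ LC (⊥ : IntermediateField K (AlgebraicClosure K)) C₂, f ∈ D₂.SD) ∧
      h ∈ LC (⊥ : IntermediateField K (AlgebraicClosure K)) C₂ ∧ h ≠ 0 ∧
      (∀ g ∈ Lbar k (⊥ : IntermediateField K (AlgebraicClosure K)), g ^ l ≠ h) ∧
      (∀ y : AlgebraicClosure K, y ^ l = h → y ∈ maxUnramified k K) ∧
      (∀ U : IntermediateField K (AlgebraicClosure K), FiniteDimensional K U →
        U ≤ Lbar k (⊥ : IntermediateField K (AlgebraicClosure K)) →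
        ∀ hf : h ∈ U, LDiv k l (⟨h, hf⟩ : U)) ∧
      ∀ (hh : h ∈ D₂.SD),
        letI := nC D₂.hv C₂; haveI := ultra_nC D₂.hv C₂
        ∃ g : FDisc C₂ ‖(⟨ρ, hC₂ hρ⟩ : C₂)‖ (norm_pos_iff.mpr hρ0), g ≠ 0 ∧
          resF (k := C₂) (R := (R : ℝ)) (by exact_mod_cast D₂.hR) (norm_pos_iff.mpr hρ0)
            (by rw [norm_nC]; exact_mod_cast hρR) (D₂.kap ⟨h, hh⟩) = g ^ l := by
  obtain ⟨C₂, i₂, hC₂, D₂, h, hρ0, h1, h2, h3, h4, h5, h6, h7⟩ :=
    exists_out hc hg D (L := ⊥) (Unr5_957.le_maxUnramified_iff.mp bot_le) (by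
      intro f hf
      obtain ⟨a, rfl⟩ := IntermediateField.mem_bot.1 hf
      exact hK a) hl hlp C₁ hC₁ hρ hρv hρR
  exact ⟨C₂, i₂, hC₂, D₂, h, hρ0, h1, h2, h3, h4, h5, fun U hU hU' hf => h6 U hU bot_le hU' hf, h7⟩

end main

end Crest.Agent.R013.BTor10_914
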