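import Crest.Agent.R013.EE4_809
import Crest.Agent.R013.Pow1_931

-- ▼ part R013/CAn1_243
section

/-!
# Row 13, leaf COMP-AN (helper243), file 1: composition `g ↦ g ∘ f = ∑ g_n f^n` in `EE k C`

`f ≠ 0` in the field `EE k C`.  `Adm f g`: the family `g_n (f^n)_j` is bounded, small for
`j → -∞` uniformly in `n`, and for `j ≤ J` only finitely many `n` are large.  Then `g ∘ f` is
defined and `g ↦ g ∘ f` is additive, multiplicative and associative.
-/

set_option autoImplicit false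
set_option linter.unusedSectionVars false
open Filter Topology
open Crest.Agent.R013.Cell_408 (FinDef DiscNorm exists_max)
open Crest.Agent.R013.EE809

namespace Crest.Agent.R013.CAn_243

variable {k : Type*} [NontriviallyNormedField k] [CompleteSpace k]
variable {C : Type*} [NormedField C] [IsUltrametricDist C] [NormedAlgebra k C]

/-! ### sums over products -/

section Sums

omit [IsUltrametricDist C] in
theorem hasSum_fib {ι κ : Type*} {F : ι × κ → C} {s : C} (hF : HasSum F s) {G : ι → C}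
    (hG : ∀ i, HasSum (fun q => F (i, q)) (G i)) : HasSum G s :=
  hF.prod_fiberwise hG

omit [IsUltrametricDist C] in
theorem hasSum_swap {ι κ : Type*} {F : ι × κ → C} {s : C} (hF : HasSum F s) {G : κ → C}
    (hG : ∀ q, HasSum (fun i => F (i, q)) (G q)) : HasSum G s := by
  have h : HasSum (fun p : κ × ι => F (p.2, p.1)) s :=
    (Equiv.prodComm κ ι).hasSum_iff.2 hF
  exact h.prod_fiberwise hG

theorem hasSum_mul_aux {ι κ : Type*} {a : ι → C} {b : κ → C} {x y : C} (ha : HasSum a x)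
    (hb : HasSum b y) : HasSum (fun q : ι × κ => a q.1 * b q.2) (x * y) :=
  haveI : NonarchimedeanRing C :=
    { is_nonarchimedean := NonarchimedeanAddGroup.is_nonarchimedean }
  ha.mul_of_nonarchimedean hb

end Sums

variable [Algebra.IsAlgebraic k C] [IsUltrametricDist k] [IsAlgClosed C] [hk : Fact (DiscNorm k)]

/-- the coefficients of the powers `f ^ n`, `n ∈ ℤ` -/
noncomputable def pc (f : EE k C) (n j : ℤ) : C := (f ^ n).co j

theorem pc_add {f : EE k C} (hf : f ≠ 0) (a b j : ℤ) :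
    pc f (a + b) j = ∑' i, pc f a i * pc f b (j - i) := by
  unfold pc
  rw [zpow_add₀ hf, co_mul]

theorem hasSum_pc {f : EE k C} (hf : f ≠ 0) (a b j : ℤ) :
    HasSum (fun i => pc f a i * pc f b (j - i)) (pc f (a + b) j) := by
  rw [pc_add hf]
  exact (summable_conv (f ^ a) (f ^ b) j).hasSum


theorem pc_one (f : EE k C) (j : ℤ) : pc f 1 j = f.co j := by
  unfold pc
  rw [zpow_one]

theorem InL.zpow {L : IntermediateField k C} [FiniteDimensional k L] {f : EE k C}
    (h : InL L f) (n : ℤ) : InL L (f ^ n) := by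
  cases n with
  | ofNat n =>
    rw [Int.ofNat_eq_natCast, zpow_natCast]
    exact h.pow n
  | negSucc n =>
    rw [zpow_negSucc]
    exact inL_inv (h.pow _)

theorem exists_L (f : EE k C) : ∃ L : IntermediateField k C, FiniteDimensional k L ∧
    ∀ n j, pc f n j ∈ L := by
  obtain ⟨L, hL, h1⟩ := f.exists_inL
  exact ⟨L, hL, fun n j => InL.zpow h1 n j⟩

theorem exists_L2 (f : EE k C) (g : EE k C) : ∃ L : IntermediateField k C,
    FiniteDimensional k L ∧ InL L g ∧ ∀ n j, pc f n j ∈ L := by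
  obtain ⟨L, hL, h1⟩ := exists_L f
  obtain ⟨L', hL', h2⟩ := g.exists_inL
  exact ⟨L ⊔ L', IntermediateField.finiteDimensional_sup L L', fun n => (le_sup_right : L' ≤ L ⊔ L') (h2 n),
    fun n j => (le_sup_left : L ≤ L ⊔ L') (h1 n j)⟩

/-- admissible pairs: `g ∘ f = ∑ g_n f^n` makes sense -/
structure Adm (f : EE k C) (g : EE k C) : Prop where
  ne : f ≠ 0
  bd : ∃ M : ℝ, 0 < M ∧ ∀ n j : ℤ, ‖g.co n * pc f n j‖ ≤ M
  low : ∀ ε : ℝ, 0 < ε → ∃ J : ℤ, ∀ n j : ℤ, j < J → ‖g.co n * pc f n j‖ < ε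
  fin : ∀ ε : ℝ, 0 < ε → ∀ J : ℤ, {n : ℤ | ∃ j ≤ J, ε ≤ ‖g.co n * pc f n j‖}.Finite

variable {f : EE k C}

theorem Adm.tendsto {g : EE k C} (h : Adm f g) (j : ℤ) :
    Tendsto (fun n => g.co n * pc f n j) cofinite (𝓝 0) := by
  rw [Metric.tendsto_nhds]
  intro ε hε
  rw [eventually_cofinite]
  refine (h.fin ε hε j).subset fun n hn => ?_
  simp only [dist_zero_right, not_lt, Set.mem_ofPred_eq] at hn
  exact ⟨j, le_rfl, hn⟩

theorem Adm.summable {g : EE k C} (h : Adm f g) (j : ℤ) :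
    Summable (fun n => g.co n * pc f n j) := by
  obtain ⟨L, hL, h1, h2⟩ := exists_L2 f g
  exact summable_of L (fun n => mul_mem (h1 n) (h2 n j)) (h.tendsto j)

/-- the coefficients of `g ∘ f` -/
noncomputable def cc (f : EE k C) (g : EE k C) (j : ℤ) : C := ∑' n, g.co n * pc f n j

theorem cc_mem (L : IntermediateField k C) [FiniteDimensional k L] {g : EE k C} (hg : InL L g)
    (hf : ∀ n j, pc f n j ∈ L) (j : ℤ) : cc f g j ∈ L :=
  tsum_mem_of L fun n => mul_mem (hg n) (hf n j)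

theorem Adm.norm_cc_le {g : EE k C} {M : ℝ} (hM0 : 0 ≤ M)
    (hM : ∀ n j : ℤ, ‖g.co n * pc f n j‖ ≤ M) (j : ℤ) : ‖cc f g j‖ ≤ M :=
  IsUltrametricDist.norm_tsum_le_of_forall_le_of_nonneg hM0 fun n => hM n j

theorem Adm.cc_E0 {g : EE k C} (h : Adm f g) : cc f g ∈ E0 k C := by
  obtain ⟨L, hL, h1, h2⟩ := exists_L2 f g
  obtain ⟨M, hM0, hM⟩ := h.bd
  refine ⟨⟨L, hL, cc_mem L h1 h2⟩, ⟨M, Adm.norm_cc_le hM0.le hM⟩, ?_⟩
  rw [Metric.tendsto_nhds]
  intro ε hε
  obtain ⟨J, hJ⟩ := h.low (ε / 2) (by positivity)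
  rw [eventually_atBot]
  refine ⟨J - 1, fun j hj => ?_⟩
  rw [dist_zero_right]
  refine lt_of_le_of_lt (b := ε / 2) ?_ (by linarith)
  exact IsUltrametricDist.norm_tsum_le_of_forall_le_of_nonneg (by positivity) fun n =>
    (hJ n j (by omega)).le

/-- `g ∘ f` (junk `0` if the pair is not admissible) -/
noncomputable def co' (f : EE k C) (g : EE k C) : EE k C :=
  open Classical in
  if h : Adm f g then mk' (cc f g) h.cc_E0.1 h.cc_E0.2.1 h.cc_E0.2.2 else 0

theorem Adm.co_co' {g : EE k C} (h : Adm f g) (j : ℤ) :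
    (co' f g).co j = ∑' n, g.co n * pc f n j := by
  unfold co'
  rw [dif_pos h]
  rfl

theorem Adm.hasSum {g : EE k C} (h : Adm f g) (j : ℤ) :
    HasSum (fun n => g.co n * pc f n j) ((co' f g).co j) := by
  rw [h.co_co']
  exact (h.summable j).hasSum

theorem Adm.gn_le {g : EE k C} (h : Adm f g) {M : ℝ} (hM0 : 0 ≤ M)
    (hM : ∀ n j : ℤ, ‖g.co n * pc f n j‖ ≤ M) : gn (co' f g) ≤ M :=
  EE809.gn_le fun j => by rw [h.co_co']; exact Adm.norm_cc_le hM0 hM j

theorem Adm.add {g h : EE k C} (hg : Adm f g) (hh : Adm f h) : Adm f (g + h) := by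
  obtain ⟨M, hM0, hM⟩ := hg.bd
  obtain ⟨N, hN0, hN⟩ := hh.bd
  have key : ∀ n j, ‖(g + h).co n * pc f n j‖ ≤ max ‖g.co n * pc f n j‖ ‖h.co n * pc f n j‖ := by
    intro n j
    rw [co_add, add_mul]
    exact IsUltrametricDist.norm_add_le_max _ _
  refine ⟨hg.ne, ⟨max M N, lt_max_of_lt_left hM0, fun n j => (key n j).trans (max_le_max (hM n j) (hN n j))⟩,
    fun ε hε => ?_, fun ε hε J => ?_⟩
  · obtain ⟨J, hJ⟩ := hg.low ε hε
    obtain ⟨J', hJ'⟩ := hh.low ε hε
    refine ⟨min J J', fun n j hj => lt_of_le_of_lt (key n j) (max_lt (hJ n j ?_) (hJ' n j ?_))⟩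
    · exact lt_of_lt_of_le hj (min_le_left _ _)
    · exact lt_of_lt_of_le hj (min_le_right _ _)
  · refine ((hg.fin ε hε J).union (hh.fin ε hε J)).subset ?_
    rintro n ⟨j, hj, hn⟩
    rcases le_max_iff.1 (hn.trans (key n j)) with h1 | h1
    · exact Or.inl ⟨j, hj, h1⟩
    · exact Or.inr ⟨j, hj, h1⟩

theorem Adm.neg {g : EE k C} (hg : Adm f g) : Adm f (-g) := by
  have key : ∀ n j, ‖(-g).co n * pc f n j‖ = ‖g.co n * pc f n j‖ := by
    intro n j
    rw [co_neg, neg_mul, norm_neg]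
  exact ⟨hg.ne, by simpa only [key] using hg.bd, by simpa only [key] using hg.low,
    by simpa only [key] using hg.fin⟩

theorem co'_add {g h : EE k C} (hg : Adm f g) (hh : Adm f h) :
    co' f (g + h) = co' f g + co' f h := by
  ext j
  rw [co_add]
  refine ((hg.add hh).hasSum j).unique (((hg.hasSum j).add (hh.hasSum j)).congr_fun fun n => ?_)
  rw [co_add, add_mul]


theorem Adm.mono (hf : f ≠ 0) (n : ℤ) (c : C) (hc : FinDef k (fun _ : Unit => c)) : Adm f (mono n c hc) := by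
  have key : ∀ i j, (EE809.mono n c hc : EE k C).co i * pc f i j = if i = n then c * pc f n j else 0 := by
    intro i j
    rw [co_mono]
    split_ifs with h
    · rw [h]
    · rw [zero_mul]
  obtain ⟨M, hM0, hM⟩ := (f ^ n).bd'
  refine ⟨hf, ⟨(‖c‖ + 1) * M, by positivity, fun i j => ?_⟩, fun ε hε => ?_, fun ε hε J => ?_⟩
  · rw [key]
    split_ifs
    · rw [norm_mul]
      exact mul_le_mul (by linarith) (hM j) (norm_nonneg _) (by positivity)
    · rw [norm_zero]; positivity
  · obtain ⟨K, hK, h1⟩ := (f ^ n).small (ε := ε / (‖c‖ + 1)) (by positivity)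
    refine ⟨-K, fun i j hj => ?_⟩
    rw [key]
    split_ifs
    · rw [norm_mul]
      have h2 := h1 j hj
      rw [lt_div_iff₀ (by positivity)] at h2
      change ‖pc f n j‖ * (‖c‖ + 1) < ε at h2
      nlinarith [norm_nonneg (pc f n j), norm_nonneg c]
    · rw [norm_zero]; exact hε
  · refine (Set.finite_singleton n).subset ?_
    rintro i ⟨j, -, hi⟩
    rw [key] at hi
    by_contra hne
    rw [if_neg (show ¬ i = n from hne), norm_zero] at hi
    exact absurd hi (not_le.2 hε)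

theorem co'_mono (hf : f ≠ 0) (n : ℤ) (c : C) (hc : FinDef k (fun _ : Unit => c)) :
    co' f (mono n c hc) = EE809.mono 0 c hc * (f ^ n) := by
  ext j
  rw [(Adm.mono hf n c hc).co_co', co_mono_mul, tsum_eq_single n, co_mono, if_pos rfl, sub_zero]
  · rfl
  · intro i hi
    rw [co_mono, if_neg hi, zero_mul]

theorem Adm.one (hf : f ≠ 0) : Adm f (1 : EE k C) := by
  rw [one_def]; exact Adm.mono hf _ _ _

theorem Adm.zero (hf : f ≠ 0) : Adm f (0 : EE k C) := by
  have h := (Adm.one hf).add (Adm.one hf).neg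
  rwa [add_neg_cancel] at h

theorem co'_one (hf : f ≠ 0) : co' f (1 : EE k C) = 1 := by
  rw [one_def, co'_mono hf, zpow_zero, mul_one]

theorem co'_zero (hf : f ≠ 0) : co' f (0 : EE k C) = 0 := by
  have h := co'_add (Adm.zero hf) (Adm.zero hf)
  rw [add_zero] at h
  exact left_eq_add.1 h

/-! ### multiplicativity -/

theorem tendsto_triple' {g h : EE k C} (hg : Adm f g) (hh : Adm f h) (j : ℤ) :
    Tendsto (fun p : ℤ × ℤ × ℤ => (g.co p.2.1 * pc f p.2.1 p.1) * (h.co p.2.2 * pc f p.2.2 (j - p.1)))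
      cofinite (𝓝 0) := by
  obtain ⟨M, hM0, hM⟩ := hg.bd
  obtain ⟨N, hN0, hN⟩ := hh.bd
  rw [Metric.tendsto_nhds]
  intro ε hε
  obtain ⟨J, hJ⟩ := hg.low (ε / N) (by positivity)
  obtain ⟨J', hJ'⟩ := hh.low (ε / M) (by positivity)
  have F1 := hg.fin (ε / N) (by positivity) (j - J')
  have F2 := hh.fin (ε / M) (by positivity) (j - J)
  rw [eventually_cofinite]
  refine ((Set.finite_Icc J (j - J')).prod (F1.prod F2)).subset ?_
  rintro ⟨i, a, b⟩ hi
  simp only [dist_zero_right, norm_mul (g.co a * pc f a i), not_lt, Set.mem_ofPred_eq] at hi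
  have h1 : ε / N ≤ ‖g.co a * pc f a i‖ := by
    rw [div_le_iff₀ hN0]
    exact hi.trans (mul_le_mul_of_nonneg_left (hN _ _) (norm_nonneg _))
  have h2 : ε / M ≤ ‖h.co b * pc f b (j - i)‖ := by
    rw [div_le_iff₀ hM0, mul_comm]
    exact hi.trans (mul_le_mul_of_nonneg_right (hM _ _) (norm_nonneg _))
  have h3 : J ≤ i := by
    by_contra hc
    exact absurd (hJ a i (not_le.1 hc)) (not_lt.2 h1)
  have h4 : J' ≤ j - i := by
    by_contra hc
    exact absurd (hJ' b (j - i) (not_le.1 hc)) (not_lt.2 h2)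
  exact ⟨⟨h3, show i ≤ j - J' by omega⟩, ⟨i, show i ≤ j - J' by omega, h1⟩,
    ⟨j - i, show j - i ≤ j - J by omega, h2⟩⟩

theorem summable_triple' {g h : EE k C} (hg : Adm f g) (hh : Adm f h) (j : ℤ) :
    Summable (fun p : ℤ × ℤ × ℤ =>
      (g.co p.2.1 * pc f p.2.1 p.1) * (h.co p.2.2 * pc f p.2.2 (j - p.1))) := by
  obtain ⟨L, hL, h1, h2⟩ := exists_L2 f g
  obtain ⟨L', hL', h3⟩ := h.exists_inL
  have : FiniteDimensional k (L ⊔ L' : IntermediateField k C) :=
    IntermediateField.finiteDimensional_sup L L'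
  exact summable_of (L ⊔ L') (fun p => mul_mem
    (mul_mem ((le_sup_left : L ≤ L ⊔ L') (h1 _)) ((le_sup_left : L ≤ L ⊔ L') (h2 _ _)))
    (mul_mem ((le_sup_right : L' ≤ L ⊔ L') (h3 _)) ((le_sup_left : L ≤ L ⊔ L') (h2 _ _))))
    (tendsto_triple' hg hh j)

theorem hasSum_prod_aux {g h : EE k C} (hg : Adm f g) (hh : Adm f h) (j i : ℤ) :
    HasSum (fun q : ℤ × ℤ => (g.co q.1 * pc f q.1 i) * (h.co q.2 * pc f q.2 (j - i)))
      ((co' f g).co i * (co' f h).co (j - i)) :=
  hasSum_mul_aux (a := fun n => g.co n * pc f n i) (b := fun n => h.co n * pc f n (j - i))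
    (hg.hasSum i) (hh.hasSum (j - i))

/-- the sum over all pairs -/
theorem hasSum_pairs {g h : EE k C} (hg : Adm f g) (hh : Adm f h) (j : ℤ) :
    HasSum (fun q : ℤ × ℤ => g.co q.1 * h.co q.2 * pc f (q.1 + q.2) j)
      ((co' f g * co' f h).co j) := by
  obtain ⟨s, hs⟩ := summable_triple' hg hh j
  have h1 : HasSum (fun i => (co' f g).co i * (co' f h).co (j - i)) s :=
    hasSum_fib hs (hasSum_prod_aux hg hh j)
  have h2 : (co' f g * co' f h).co j = s := h1.tsum_eq
  rw [h2]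
  refine hasSum_swap hs fun q => ?_
  have h3 := (hasSum_pc hg.ne q.1 q.2 j).mul_left (g.co q.1 * h.co q.2)
  refine h3.congr_fun fun i => ?_
  ring

theorem Adm.mul {g h : EE k C} (hg : Adm f g) (hh : Adm f h) : Adm f (g * h) := by
  obtain ⟨M, hM0, hM⟩ := hg.bd
  obtain ⟨N, hN0, hN⟩ := hh.bd
  -- single products
  have t1 : ∀ a b j : ℤ, ∀ B : ℝ, 0 ≤ B →
      (∀ i, ‖(g.co a * pc f a i) * (h.co b * pc f b (j - i))‖ ≤ B) →
      ‖g.co a * h.co b * pc f (a + b) j‖ ≤ B := by
    intro a b j B hB hi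
    rw [pc_add hg.ne, ← tsum_mul_left]
    refine IsUltrametricDist.norm_tsum_le_of_forall_le_of_nonneg hB fun i => ?_
    have h1 := hi i
    rwa [show g.co a * pc f a i * (h.co b * pc f b (j - i))
      = g.co a * h.co b * (pc f a i * pc f b (j - i)) by ring] at h1
  have t2 : ∀ n j : ℤ, ∀ B : ℝ, 0 ≤ B → (∀ a, ‖g.co a * h.co (n - a) * pc f n j‖ ≤ B) →
      ‖(g * h).co n * pc f n j‖ ≤ B := by
    intro n j B hB hi
    rw [co_mul, ← tsum_mul_right]
    exact IsUltrametricDist.norm_tsum_le_of_forall_le_of_nonneg hB hi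
  have t3 : ∀ a b j : ℤ, ‖g.co a * h.co b * pc f (a + b) j‖ ≤ M * N := fun a b j =>
    t1 a b j _ (by positivity) fun i => by
      rw [norm_mul]; exact mul_le_mul (hM _ _) (hN _ _) (norm_nonneg _) hM0.le
  refine ⟨hg.ne, ⟨M * N, by positivity, fun n j => t2 n j _ (by positivity) fun a => ?_⟩,
    fun ε hε => ?_, fun ε hε J => ?_⟩
  · have := t3 a (n - a) j
    rwa [add_sub_cancel] at this
  · obtain ⟨J, hJ⟩ := hg.low (ε / 2 / N) (by positivity)
    obtain ⟨J', hJ'⟩ := hh.low (ε / 2 / M) (by positivity)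
    refine ⟨J + J', fun n j hj => lt_of_le_of_lt (b := ε / 2)
      (t2 n j _ (by positivity) fun a => ?_) (by linarith)⟩
    have h1 := t1 a (n - a) j (ε / 2) (by positivity) fun i => by
      rw [norm_mul]
      by_cases hi : i < J
      · calc _ ≤ ε / 2 / N * N := mul_le_mul (hJ a i hi).le (hN _ _) (norm_nonneg _) (by positivity)
          _ = ε / 2 := by field_simp
      · calc _ ≤ M * (ε / 2 / M) := mul_le_mul (hM _ _) (hJ' _ _ (by omega)).le (norm_nonneg _)
              (by positivity)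
          _ = ε / 2 := by field_simp
    rwa [add_sub_cancel] at h1
  · -- finitely many `n`
    obtain ⟨J1, hJ1⟩ := hg.low (ε / 2 / N) (by positivity)
    obtain ⟨J2, hJ2⟩ := hh.low (ε / 2 / M) (by positivity)
    have F1 := hg.fin (ε / 2 / N) (by positivity) (J - J2)
    have F2 := hh.fin (ε / 2 / M) (by positivity) (J - J1)
    refine ((F1.prod F2).image fun q : ℤ × ℤ => q.1 + q.2).subset ?_
    rintro n ⟨j, hj, hn⟩
    by_contra hc
    have h2 : ‖(g * h).co n * pc f n j‖ ≤ ε / 2 := t2 n j _ (by positivity) fun a => by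
      have h1 := t1 a (n - a) j (ε / 2) (by positivity) fun i => by
        by_contra hlt
        rw [not_le, norm_mul] at hlt
        have h3 : ε / 2 / N ≤ ‖g.co a * pc f a i‖ := by
          rw [div_le_iff₀ hN0]
          exact hlt.le.trans (mul_le_mul_of_nonneg_left (hN _ _) (norm_nonneg _))
        have h4 : ε / 2 / M ≤ ‖h.co (n - a) * pc f (n - a) (j - i)‖ := by
          rw [div_le_iff₀ hM0, mul_comm]
          exact hlt.le.trans (mul_le_mul_of_nonneg_right (hM _ _) (norm_nonneg _))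
        have h5 : J1 ≤ i := by
          by_contra hc'
          exact absurd (hJ1 a i (not_le.1 hc')) (not_lt.2 h3)
        have h6 : J2 ≤ j - i := by
          by_contra hc'
          exact absurd (hJ2 _ (j - i) (not_le.1 hc')) (not_lt.2 h4)
        exact hc ⟨(a, n - a), ⟨⟨i, by omega, h3⟩, ⟨j - i, by omega, h4⟩⟩, by simp⟩
      rwa [add_sub_cancel] at h1
    linarith

theorem co'_mul {g h : EE k C} (hg : Adm f g) (hh : Adm f h) :
    co' f (g * h) = co' f g * co' f h := by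
  ext j
  have h1 := hasSum_pairs hg hh j
  rw [← (shearEquiv.symm).hasSum_iff] at h1
  have h2 : HasSum (fun n => (g * h).co n * pc f n j) ((co' f g * co' f h).co j) := by
    refine hasSum_fib h1 fun n => ?_
    have h3 : HasSum (fun a => g.co a * h.co (n - a)) ((g * h).co n) := (summable_conv g h n).hasSum
    refine (h3.mul_right (pc f n j)).congr_fun fun a => ?_
    simp only [Function.comp_apply, shearEquiv, Equiv.coe_fn_symm_mk]
    rw [add_sub_cancel]
  exact ((hg.mul hh).hasSum j).unique h2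

end Crest.Agent.R013.CAn_243
end

-- ▼ part R013/CAn2_243

/-!
# Row 13, leaf COMP-AN (helper243), file 2: `compE f : EE k C →ₐ[C] EE k C`, `T ↦ f`, for
`f = T^m u`, `m ≥ 1`, `|u_0| = 1`, `|u_n| ≤ 1`, `|u_n| < 1` for `n < 0`
-/

set_option autoImplicit false
set_option linter.unusedSectionVars false
open Filter Topology
open Crest.Agent.R013.Cell_408 (FinDef DiscNorm exists_max BD)
open Crest.Agent.R013.EE809
open Crest.Agent.R013.Pow1_931 (Pos fac exists_inv_pos)

namespace Crest.Agent.R013.CAn_243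

variable {k : Type*} [NontriviallyNormedField k] [CompleteSpace k]
variable {C : Type*} [NormedField C] [IsUltrametricDist C] [NormedAlgebra k C]

theorem co_nsmul (n : ℕ) (a : EE k C) (j : ℤ) : ((n : EE k C) * a).co j = (n : C) * a.co j := by
  induction n with
  | zero => rw [Nat.cast_zero, Nat.cast_zero, zero_mul, zero_mul, co_zero]
  | succ n ih => rw [Nat.cast_succ, Nat.cast_succ, add_mul, add_mul, co_add, ih, one_mul, one_mul]

theorem co_finset_sum {ι : Type*} (s : Finset ι) (f : ι → EE k C) (j : ℤ) :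
    (∑ i ∈ s, f i).co j = ∑ i ∈ s, (f i).co j := by
  classical
  induction s using Finset.induction_on with
  | empty => rw [Finset.sum_empty, Finset.sum_empty, co_zero]
  | insert i s hi ih => rw [Finset.sum_insert hi, Finset.sum_insert hi, co_add, ih]

/-- uniform smallness of the powers of `1 + x`, `gn x < 1` -/
theorem one_add_pow_small {x : EE k C} (hx : gn x < 1) {ε : ℝ} (hε : 0 < ε) :
    ∃ K : ℤ, 0 ≤ K ∧ ∀ n : ℕ, ∀ l : ℤ, l < -K → ‖((1 + x) ^ n).co l‖ < ε := by
  obtain ⟨I, hI⟩ := exists_pow_lt_of_lt_one (x := ε / 2) (y := gn x) (by positivity) hx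
  have h1 : ∀ i : ℕ, ∃ K : ℤ, 0 ≤ K ∧ ∀ n, n < -K → ‖(x ^ i).co n‖ < ε / 2 :=
    fun i => (x ^ i).small (by positivity)
  choose K hK0 hK using h1
  have hsum : 0 ≤ ∑ i ∈ Finset.range I, K i := Finset.sum_nonneg fun i _ => hK0 i
  refine ⟨∑ i ∈ Finset.range I, K i, hsum, fun n l hl => ?_⟩
  refine lt_of_le_of_lt (b := ε / 2) ?_ (by linarith)
  rw [add_comm, add_pow, co_finset_sum]
  refine IsUltrametricDist.norm_sum_le_of_forall_le_of_nonneg (by positivity) fun i _ => ?_
  rw [one_pow, mul_one, mul_comm, co_nsmul, norm_mul]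
  have h2 : ‖((n.choose i : ℕ) : C)‖ ≤ 1 := IsUltrametricDist.norm_natCast_le_one C _
  refine (mul_le_of_le_one_left (norm_nonneg _) h2).trans ?_
  by_cases hi : i < I
  · have h3 : K i ≤ ∑ i ∈ Finset.range I, K i :=
      Finset.single_le_sum (fun i _ => hK0 i) (Finset.mem_range.2 hi)
    exact (hK i l (by omega)).le
  · refine (le_gn _ _).trans ((gn_pow_le x i).trans ?_)
    exact (pow_le_pow_of_le_one (gn_nonneg x) hx.le (not_lt.1 hi)).trans hI.le

variable [Algebra.IsAlgebraic k C] [IsUltrametricDist k] [IsAlgClosed C] [hk : Fact (DiscNorm k)]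

theorem one_add_zpow_small {x : EE k C} (hx : gn x < 1) {ε : ℝ} (hε : 0 < ε) :
    ∃ K : ℤ, 0 ≤ K ∧ ∀ n : ℤ, ∀ l : ℤ, l < -K → ‖((1 + x) ^ n).co l‖ < ε := by
  obtain ⟨L, hL, hxL⟩ := x.exists_inL
  obtain ⟨y, -, hy1, hy2⟩ := exists_inv_one_sub (x := -x) L hxL.neg (by rwa [gn_neg])
  rw [gn_neg] at hy2
  rw [sub_neg_eq_add] at hy1
  obtain ⟨K, hK0, hK⟩ := one_add_pow_small hx hε
  obtain ⟨K', hK0', hK'⟩ := one_add_pow_small (x := y - 1) (hy2.trans_lt hx) hε
  rw [add_sub_cancel] at hK'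
  refine ⟨max K K', le_max_of_le_left hK0, fun n l hl => ?_⟩
  have h1 : l < -K := by have := le_max_left K K'; omega
  have h2 : l < -K' := by have := le_max_right K K'; omega
  cases n with
  | ofNat n =>
    rw [Int.ofNat_eq_natCast, zpow_natCast]
    exact hK n l h1
  | negSucc n =>
    rw [zpow_negSucc, ← inv_pow, ← eq_inv_of_mul_eq_one_right hy1]
    exact hK' _ l h2

theorem Pos.zpow {a : EE k C} (ha : Pos a) (h1 : gn a ≤ 1) (h0 : ‖a.co 0‖ = 1) (n : ℤ) :
    Pos (a ^ n) := by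
  obtain ⟨b, hb, -, -, hab⟩ := exists_inv_pos ha h1 h0
  cases n with
  | ofNat n =>
    rw [Int.ofNat_eq_natCast, zpow_natCast]
    exact ha.pow n
  | negSucc n =>
    rw [zpow_negSucc, ← inv_pow, ← eq_inv_of_mul_eq_one_right hab]
    exact hb.pow _

/-- **Uniform smallness** of all integer powers. -/
theorem zpow_small {u : EE k C} (h1 : gn u ≤ 1) (h0 : ‖u.co 0‖ = 1)
    (hn : ∀ n : ℤ, n < 0 → ‖u.co n‖ < 1) {ε : ℝ} (hε : 0 < ε) :
    ∃ K : ℤ, 0 ≤ K ∧ ∀ n : ℤ, ∀ l : ℤ, l < -K → ‖(u ^ n).co l‖ < ε := by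
  obtain ⟨a, b, hab, ha, ha1, ha0, -, -, hb⟩ := fac h1 h0 hn
  obtain ⟨K, hK0, hK⟩ := one_add_zpow_small hb (ε := ε / 2) (by positivity)
  rw [add_sub_cancel] at hK
  have hga : gn a = 1 := le_antisymm ha1 (by rw [← ha0]; exact le_gn a 0)
  refine ⟨K, hK0, fun n l hl => ?_⟩
  refine lt_of_le_of_lt (b := ε / 2) ?_ (by linarith)
  rw [hab, mul_zpow, co_mul]
  refine IsUltrametricDist.norm_tsum_le_of_forall_le_of_nonneg (by positivity) fun i => ?_
  rcases lt_or_ge i 0 with hi | hi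
  · rw [Pos.zpow ha ha1 ha0 n i hi, zero_mul, norm_zero]; positivity
  · rw [norm_mul]
    have h2 : ‖(a ^ n).co i‖ ≤ 1 := by
      have := le_gn (a ^ n) i
      rwa [gn_zpow, hga, one_zpow] at this
    calc ‖(a ^ n).co i‖ * ‖(b ^ n).co (l - i)‖ ≤ 1 * (ε / 2) :=
          mul_le_mul h2 (hK n (l - i) (by omega)).le (norm_nonneg _) zero_le_one
      _ = ε / 2 := one_mul _

/-- `f = T^m u` with `|u_0| = 1`, `|u_n| ≤ 1`, `|u_n| < 1` for `n < 0` -/
structure WE (f : EE k C) (m : ℕ) : Prop where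
  le : ∀ n, ‖f.co n‖ ≤ 1
  one : ‖f.co m‖ = 1
  lt : ∀ n : ℤ, n < m → ‖f.co n‖ < 1

theorem WE.gn {f : EE k C} {m : ℕ} (h : WE f m) : gn f = 1 :=
  le_antisymm (gn_le h.le) (by rw [← h.one]; exact le_gn f _)

theorem WE.od {f : EE k C} {m : ℕ} (h : WE f m) : od f = m :=
  od_eq_of (by rw [h.gn]; exact h.one) (by rw [h.gn]; exact h.lt)

theorem WE.ne_zero {f : EE k C} {m : ℕ} (h : WE f m) : f ≠ 0 := by
  intro h0
  have := h.gn
  rw [h0, gn_zero] at this
  exact zero_ne_one this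

theorem WE.of {f : EE k C} {m : ℕ} (h : EE809.gn f = 1) (h' : EE809.od f = m) : WE f m := by
  have h0 : f ≠ 0 := by
    intro h0
    rw [h0, gn_zero] at h
    exact zero_ne_one h
  refine ⟨fun n => h ▸ le_gn f n, ?_, fun n hn => ?_⟩
  · rw [← h', norm_co_od hk.out h0, h]
  · rw [← h]; exact norm_lt_of_lt_od h0 (by rw [h']; exact hn)

/-- the unit part -/
theorem unit_eq (f : EE k C) (m : ℕ) : f = T m * (T (-m) * f) := by
  rw [← mul_assoc, T_mul_T, add_neg_cancel, T_zero, one_mul]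

theorem pc_eq (f : EE k C) (m : ℕ) (n j : ℤ) :
    pc f n j = ((T (-m) * f) ^ n).co (j - m * n) := by
  have h1 : f ^ n = T (m * n) * (T (-m) * f) ^ n := by
    conv_lhs => rw [unit_eq f m, mul_zpow, T_eq_zpow, ← zpow_mul, ← T_eq_zpow]
  rw [pc, h1, co_T_mul]

theorem co_unit {f : EE k C} {m : ℕ} (n : ℤ) : (T (-m) * f).co n = f.co (n + m) := by
  rw [co_T_mul, sub_neg_eq_add]

theorem WE.pc_small {f : EE k C} {m : ℕ} (h : WE f m) {ε : ℝ} (hε : 0 < ε) :
    ∃ K : ℤ, 0 ≤ K ∧ ∀ n j : ℤ, j < m * n - K → ‖pc f n j‖ < ε := by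
  obtain ⟨K, hK0, hK⟩ := zpow_small (u := T (-m) * f)
    (gn_le fun n => by rw [co_unit]; exact h.le _)
    (by rw [co_unit, zero_add]; exact h.one)
    (fun n hn => by rw [co_unit]; exact h.lt _ (by omega)) hε
  refine ⟨K, hK0, fun n j hj => ?_⟩
  rw [pc_eq f m]
  exact hK n _ (by omega)

theorem WE.pc_le {f : EE k C} {m : ℕ} (h : WE f m) (n j : ℤ) : ‖pc f n j‖ ≤ 1 := by
  have := le_gn (f ^ n) j
  rwa [gn_zpow, h.gn, one_zpow] at this

theorem WE.od_zpow {f : EE k C} {m : ℕ} (h : WE f m) (n : ℤ) : EE809.od (f ^ n) = m * n := by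
  cases n with
  | ofNat n =>
    rw [Int.ofNat_eq_natCast, zpow_natCast, od_pow h.ne_zero, h.od]; ring
  | negSucc n =>
    rw [zpow_negSucc, od_inv (pow_ne_zero _ h.ne_zero), od_pow h.ne_zero, h.od, Int.negSucc_eq]
    push_cast; ring

theorem WE.gn_zpow {f : EE k C} {m : ℕ} (h : WE f m) (n : ℤ) : EE809.gn (f ^ n) = 1 := by
  rw [EE809.gn_zpow, h.gn, one_zpow]

theorem WE.pc_one {f : EE k C} {m : ℕ} (h : WE f m) (n : ℤ) : ‖pc f n (m * n)‖ = 1 := by
  have h1 := norm_co_od hk.out (zpow_ne_zero n h.ne_zero)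
  rwa [h.od_zpow, h.gn_zpow] at h1

theorem WE.pc_lt {f : EE k C} {m : ℕ} (h : WE f m) {n j : ℤ} (hj : j < m * n) : ‖pc f n j‖ < 1 := by
  have h1 := norm_lt_of_lt_od (zpow_ne_zero n h.ne_zero) (n := j) (by rw [h.od_zpow]; exact hj)
  rwa [h.gn_zpow] at h1

/-- every `g` is admissible -/
theorem WE.adm {f : EE k C} {m : ℕ} (h : WE f m) (hm : m ≠ 0) (g : EE k C) : Adm f g := by
  obtain ⟨G, hG0, hG⟩ := g.bd'
  refine ⟨h.ne_zero, ⟨G, hG0, fun n j => ?_⟩, fun ε hε => ?_, fun ε hε J => ?_⟩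
  · rw [norm_mul]
    calc ‖g.co n‖ * ‖pc f n j‖ ≤ G * 1 := mul_le_mul (hG n) (h.pc_le n j) (norm_nonneg _) hG0.le
      _ = G := mul_one _
  · obtain ⟨N, hN0, hN⟩ := g.small hε
    obtain ⟨K, hK0, hK⟩ := h.pc_small (ε := ε / G) (by positivity)
    refine ⟨-(m * N) - K, fun n j hj => ?_⟩
    rw [norm_mul]
    by_cases hn : n < -N
    · exact lt_of_le_of_lt (mul_le_of_le_one_right (norm_nonneg _) (h.pc_le n j)) (hN n hn)
    · have h1 : (m : ℤ) * (-N) ≤ m * n := mul_le_mul_of_nonneg_left (by omega) (by positivity)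
      have h2 := hK n j (by rw [mul_neg] at h1; omega)
      calc ‖g.co n‖ * ‖pc f n j‖ ≤ G * ‖pc f n j‖ := mul_le_mul_of_nonneg_right (hG n) (norm_nonneg _)
        _ < G * (ε / G) := mul_lt_mul_of_pos_left h2 hG0
        _ = ε := by field_simp
  · obtain ⟨N, hN0, hN⟩ := g.small hε
    obtain ⟨K, hK0, hK⟩ := h.pc_small (ε := ε / G) (by positivity)
    refine (Set.finite_Icc (-N) (|J| + K)).subset ?_
    rintro n ⟨j, hj, hn⟩
    rw [norm_mul] at hn
    rw [Set.mem_Icc]
    constructor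
    · by_contra hlt
      have h1 := hN n (by omega)
      have h2 := mul_le_of_le_one_right (norm_nonneg (g.co n)) (h.pc_le n j)
      linarith
    · by_contra hlt
      have hJ := le_abs_self J
      have hJ0 := abs_nonneg J
      have h3 : n ≤ m * n := by
        have : (1 : ℤ) ≤ m := by exact_mod_cast Nat.one_le_iff_ne_zero.2 hm
        nlinarith
      have h2 := hK n j (by omega)
      have : ‖g.co n‖ * ‖pc f n j‖ < ε :=
        calc ‖g.co n‖ * ‖pc f n j‖ ≤ G * ‖pc f n j‖ := mul_le_mul_of_nonneg_right (hG n) (norm_nonneg _)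
          _ < G * (ε / G) := mul_lt_mul_of_pos_left h2 hG0
          _ = ε := by field_simp
      linarith

/-- **Composition** `g ↦ g ∘ f` on the field `EE k C`. -/
noncomputable def compE (f : EE k C) {m : ℕ} (h : WE f m) (hm : m ≠ 0) : EE k C →ₐ[C] EE k C where
  toFun := co' f
  map_one' := co'_one h.ne_zero
  map_mul' a b := co'_mul (h.adm hm a) (h.adm hm b)
  map_zero' := co'_zero h.ne_zero
  map_add' a b := co'_add (h.adm hm a) (h.adm hm b)
  commutes' c := by
    rw [algebraMap_eq]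
    show co' f (mono 0 c _) = mono 0 c _
    rw [co'_mono h.ne_zero, zpow_zero, mul_one]

variable {f : EE k C} {m : ℕ} (h : WE f m) (hm : m ≠ 0)

theorem compE_apply (g : EE k C) : compE f h hm g = co' f g := rfl

theorem co_compE (g : EE k C) (j : ℤ) : (compE f h hm g).co j = ∑' n, g.co n * (f ^ n).co j :=
  (h.adm hm g).co_co' j

theorem hasSum_compE (g : EE k C) (j : ℤ) :
    HasSum (fun n => g.co n * (f ^ n).co j) ((compE f h hm g).co j) :=
  (h.adm hm g).hasSum j

theorem compE_mo (n : ℤ) (c : C) : compE f h hm (mo n c) = algebraMap C (EE k C) c * f ^ n := by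
  rw [mo_eq, map_mul, AlgHom.commutes]
  congr 1
  rw [compE_apply]
  show co' f (mono n 1 (finDef_const 1)) = _
  rw [co'_mono h.ne_zero n 1 (finDef_const 1)]
  exact one_mul _

@[simp] theorem compE_T (n : ℤ) : compE f h hm (T n) = f ^ n := by
  rw [T, compE_mo, map_one, one_mul]

theorem compE_T_one : compE f h hm (T 1) = f := by rw [compE_T, zpow_one]

theorem compE_lead (g : EE k C) (hg : g ≠ 0) :
    ‖(compE f h hm g).co (m * od g)‖ = gn g ∧ ∀ j < m * od g, ‖(compE f h hm g).co j‖ < gn g := by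
  have hG : 0 < gn g := gn_pos hg
  have hm' : (0 : ℤ) < m := by exact_mod_cast Nat.pos_of_ne_zero hm
  have hlt : ∀ n j : ℤ, (n < od g ∨ j < m * n) → ‖g.co n * pc f n j‖ < gn g := by
    intro n j hh
    rw [norm_mul]
    rcases hh with hh | hh
    · exact lt_of_le_of_lt (mul_le_of_le_one_right (norm_nonneg _) (h.pc_le n j))
        (norm_lt_of_lt_od hg hh)
    · rcases eq_or_lt_of_le (norm_nonneg (g.co n)) with h0 | h0
      · rw [← h0, zero_mul]; exact hG
      · calc ‖g.co n‖ * ‖pc f n j‖ < ‖g.co n‖ * 1 := mul_lt_mul_of_pos_left (h.pc_lt hh) h0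
          _ ≤ gn g := by rw [mul_one]; exact le_gn g n
  have ht := fun j => (h.adm hm g).tendsto j
  constructor
  · have hs := (h.adm hm g).summable (m * od g)
    rw [co_compE]
    change ‖∑' n, g.co n * pc f n (m * od g)‖ = gn g
    rw [hs.tsum_eq_add_tsum_ite (od g)]
    have h1 : ‖g.co (od g) * pc f (od g) (m * od g)‖ = gn g := by
      rw [norm_mul, h.pc_one, mul_one, norm_co_od hk.out hg]
    have h2 : ‖∑' n, (if n = od g then 0 else g.co n * pc f n (m * od g))‖ < gn g := by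
      refine norm_tsum_lt hG ?_ fun i => ?_
      · refine (ht (m * od g)).congr' ?_
        rw [EventuallyEq, eventually_cofinite]
        refine (Set.finite_singleton (od g)).subset fun i hi => ?_
        by_contra hne
        apply hi
        rw [if_neg (show ¬ i = od g from hne)]
      · by_cases hi : i = od g
        · rw [if_pos hi, norm_zero]; exact hG
        · rw [if_neg hi]
          refine hlt _ _ ?_
          rcases lt_or_gt_of_ne hi with h3 | h3
          · exact Or.inl h3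
          · exact Or.inr (mul_lt_mul_of_pos_left h3 hm')
    rw [add_comm, IsUltrametricDist.norm_add_eq_max_of_norm_ne_norm (by rw [h1]; exact h2.ne), h1,
      max_eq_right h2.le]
  · intro j hj
    rw [co_compE]
    refine norm_tsum_lt hG (ht j) fun i => hlt _ _ ?_
    rcases lt_or_ge i (od g) with h3 | h3
    · exact Or.inl h3
    · exact Or.inr (lt_of_lt_of_le hj (mul_le_mul_of_nonneg_left h3 hm'.le))

@[simp] theorem gn_compE (g : EE k C) : gn (compE f h hm g) = gn g := by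
  by_cases hg : g = 0
  · rw [hg, map_zero]
  refine le_antisymm (gn_le fun j => ?_) ?_
  · rw [co_compE]
    refine IsUltrametricDist.norm_tsum_le_of_forall_le_of_nonneg (gn_nonneg g) fun n => ?_
    rw [norm_mul]
    exact (mul_le_of_le_one_right (norm_nonneg _) (h.pc_le n j)).trans (le_gn g n)
  · rw [← (compE_lead h hm g hg).1]
    exact le_gn _ _

theorem compE_injective : Function.Injective (compE f h hm) := (compE f h hm).toRingHom.injective

theorem compE_ne_zero {g : EE k C} (hg : g ≠ 0) : compE f h hm g ≠ 0 :=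
  (map_ne_zero_iff _ (compE_injective h hm)).2 hg

@[simp] theorem od_compE (g : EE k C) : od (compE f h hm g) = m * od g := by
  by_cases hg : g = 0
  · rw [hg, map_zero]
    have h0 : od (0 : EE k C) = 0 := by
      unfold od
      have : {n : ℤ | ‖(0 : EE k C).co n‖ = gn (0 : EE k C)} = Set.univ := by
        ext n; simp
      rw [this, csInf_of_not_bddBelow (not_bddBelow_univ (α := ℤ))]
      exact Int.csInf_empty
    rw [h0, mul_zero]
  exact od_eq_of (by rw [gn_compE]; exact (compE_lead h hm g hg).1)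
    (by rw [gn_compE]; exact (compE_lead h hm g hg).2)

theorem WE.compE {g : EE k C} {s : ℕ} (hg : WE g s) : WE (compE f h hm g) (m * s) :=
  WE.of (by rw [gn_compE, hg.gn]) (by rw [od_compE, hg.od]; push_cast; rfl)

theorem WE.T {n : ℕ} : WE (T n : EE k C) n :=
  WE.of (by rw [EE809.T, gn_mo, norm_one]) (by rw [EE809.T, mo, od_mono _ _ one_ne_zero])

/-! ### composition of compositions -/



end Crest.Agent.R013.CAn_243
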