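import Mathlib
import Crest.Agent.R013.Cell4_408
import Crest.Agent.R013.Comp1_267

-- ▼ part R013/Clu1_270
section

/-! # R013 / Clu1_270 : clusters of zeros in an ultrametric field.

`S` a finite multiset of points of the closed unit disc, `r` with `0 < ‖r‖ ≤ 1`.  The set
`{t | ∏_{τ ∈ S} ‖t - τ‖ < ‖r‖}` is a disjoint union of open discs `ball α_i ‖b_i‖` (`α_i ∈ S`), with
`∏_{τ ∈ S} max ‖b_i‖ ‖α_i - τ‖ = ‖r‖`; every point of `S` lies in exactly one of them. -/

set_option autoImplicit false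

noncomputable section

namespace Crest.Agent.R013.Clu_270

open Topology

section

variable {C : Type*} [NormedField C] [IsUltrametricDist C]

/-- the value at radius `ρ` of the norm of `∏ (T - τ)` on the closed disc of radius `ρ` around `c` -/
def phi (S : Multiset C) (c : C) (ρ : ℝ) : ℝ := (S.map fun τ => max ρ ‖c - τ‖).prod

omit [IsUltrametricDist C] in
theorem phi_zero (c : C) (ρ : ℝ) : phi (0 : Multiset C) c ρ = 1 := by simp [phi]

omit [IsUltrametricDist C] in
theorem phi_cons (a : C) (S : Multiset C) (c : C) (ρ : ℝ) :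
    phi (a ::ₘ S) c ρ = max ρ ‖c - a‖ * phi S c ρ := by
  simp [phi]

omit [IsUltrametricDist C] in
theorem phi_pos (S : Multiset C) (c : C) {ρ : ℝ} (hρ : 0 < ρ) : 0 < phi S c ρ := by
  induction S using Multiset.induction_on with
  | empty => rw [phi_zero]; exact one_pos
  | cons a S ih => rw [phi_cons]; exact mul_pos (lt_max_of_lt_left hρ) ih

omit [IsUltrametricDist C] in
theorem phi_nonneg (S : Multiset C) (c : C) {ρ : ℝ} (hρ : 0 ≤ ρ) : 0 ≤ phi S c ρ := by
  induction S using Multiset.induction_on with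
  | empty => rw [phi_zero]; exact zero_le_one
  | cons a S ih => rw [phi_cons]; exact mul_nonneg (le_max_of_le_left hρ) ih

omit [IsUltrametricDist C] in
theorem continuous_phi (S : Multiset C) (c : C) : Continuous fun ρ : ℝ => phi S c ρ := by
  induction S using Multiset.induction_on with
  | empty => simp only [phi_zero]; exact continuous_const
  | cons a S ih =>
    simp only [phi_cons]
    exact (continuous_id.max continuous_const).mul ih

omit [IsUltrametricDist C] in
theorem phi_mono (S : Multiset C) (c : C) {ρ σ : ℝ} (hρ : 0 ≤ ρ) (h : ρ ≤ σ) :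
    phi S c ρ ≤ phi S c σ := by
  induction S using Multiset.induction_on with
  | empty => rw [phi_zero, phi_zero]
  | cons a S ih =>
    rw [phi_cons, phi_cons]
    exact mul_le_mul (max_le_max_right _ h) ih (phi_nonneg S c hρ)
      (le_max_of_le_left (hρ.trans h))

omit [IsUltrametricDist C] in
theorem phi_zero_of_mem {S : Multiset C} {α : C} (hα : α ∈ S) : phi S α 0 = 0 := by
  rw [phi, Multiset.prod_eq_zero_iff, Multiset.mem_map]
  exact ⟨α, hα, by simp⟩

omit [IsUltrametricDist C] in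
theorem phi_strictMono {S : Multiset C} {α : C} (hα : α ∈ S) {ρ σ : ℝ} (hρ : 0 ≤ ρ) (h : ρ < σ) :
    phi S α ρ < phi S α σ := by
  obtain ⟨S', rfl⟩ := Multiset.exists_cons_of_mem hα
  rw [phi_cons, phi_cons, sub_self, norm_zero, max_eq_left hρ, max_eq_left (hρ.trans h.le)]
  have h1 := phi_mono S' α hρ h.le
  have h2 := phi_pos S' α (hρ.trans_lt h)
  have h3 := phi_nonneg S' α hρ
  nlinarith

omit [IsUltrametricDist C] in
theorem phi_one {S : Multiset C} {c : C} (h : ∀ τ ∈ S, ‖c - τ‖ ≤ 1) : phi S c 1 = 1 := by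
  induction S using Multiset.induction_on with
  | empty => rw [phi_zero]
  | cons a S ih =>
    rw [phi_cons, ih fun τ hτ => h τ (Multiset.mem_cons_of_mem hτ),
      max_eq_left (h a (Multiset.mem_cons_self a S)), one_mul]

/-- changing the centre inside the disc does not change `phi` -/
theorem phi_congr (S : Multiset C) {c c' : C} {ρ : ℝ} (h : ‖c - c'‖ ≤ ρ) :
    phi S c ρ = phi S c' ρ := by
  have key : ∀ a b τ : C, ‖a - b‖ ≤ ρ → max ρ ‖a - τ‖ ≤ max ρ ‖b - τ‖ := by
    intro a b τ hab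
    refine max_le (le_max_left _ _) ?_
    have e : a - τ = (a - b) + (b - τ) := by ring
    rw [e]
    exact (IsUltrametricDist.norm_add_le_max _ _).trans (max_le_max_right _ hab)
  unfold phi
  congr 1
  refine Multiset.map_congr rfl fun τ _ => ?_
  exact le_antisymm (key _ _ _ h) (key _ _ _ (by rwa [norm_sub_rev]))

omit [IsUltrametricDist C] in
/-- `phi` is a power of `ρ` times the distances of the far points -/
theorem phi_eq (S : Multiset C) (c : C) {ρ : ℝ} (hρ : 0 ≤ ρ) :
    ∃ (n : ℕ) (b : C), (∀ τ ∈ S, ‖c - τ‖ ≤ ρ → 0 < n) ∧ phi S c ρ = ρ ^ n * ‖b‖ ∧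
      (0 < ρ → b ≠ 0) := by
  induction S using Multiset.induction_on with
  | empty => exact ⟨0, 1, by simp, by simp [phi_zero], fun _ => one_ne_zero⟩
  | cons a S ih =>
    obtain ⟨n, b, h1, h2, h3⟩ := ih
    rcases le_or_gt ‖c - a‖ ρ with h | h
    · refine ⟨n + 1, b, fun _ _ _ => n.succ_pos, ?_, h3⟩
      rw [phi_cons, h2, max_eq_left h]; ring
    · refine ⟨n, (c - a) * b, fun τ hτ hle => ?_, ?_, fun hρ' => ?_⟩
      · rcases Multiset.mem_cons.1 hτ with rfl | hτ'
        · exact absurd hle (not_le.2 h)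
        · exact h1 τ hτ' hle
      · rw [phi_cons, h2, max_eq_right h.le, norm_mul]; ring
      · refine mul_ne_zero ?_ (h3 hρ')
        intro h0
        rw [h0, norm_zero] at h
        exact absurd h (not_lt.2 hρ)

/-- the radius of the cluster of `α` -/
theorem exists_radius [IsAlgClosed C] {S : Multiset C} {α : C} (hα : α ∈ S)
    (hS : ∀ τ ∈ S, ‖τ‖ ≤ 1) {r : C} (hr0 : r ≠ 0) (hr : ‖r‖ ≤ 1) :
    ∃ b : C, b ≠ 0 ∧ ‖b‖ ≤ 1 ∧ phi S α ‖b‖ = ‖r‖ := by
  have h1 : phi S α 1 = 1 := phi_one fun τ hτ => by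
    have e : α - τ = α + -τ := by ring
    rw [e]
    refine (IsUltrametricDist.norm_add_le_max _ _).trans (max_le (hS α hα) ?_)
    rw [norm_neg]; exact hS τ hτ
  have h0 := phi_zero_of_mem hα
  have hr' : 0 < ‖r‖ := norm_pos_iff.2 hr0
  obtain ⟨ρ, ⟨hρ0, hρ1⟩, hρ⟩ := intermediate_value_Icc (zero_le_one' ℝ)
    (continuous_phi S α).continuousOn (show ‖r‖ ∈ Set.Icc (phi S α 0) (phi S α 1) by
      rw [h0, h1]; exact ⟨hr'.le, hr⟩)
  simp only at hρ
  have hρpos : 0 < ρ := by
    rcases hρ0.lt_or_eq with h | h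
    · exact h
    · rw [← h, h0] at hρ; exact absurd hρ hr'.ne
  obtain ⟨n, b, hn, hphi, hb⟩ := phi_eq S α hρ0
  have hn0 : 0 < n := hn α hα (by rw [sub_self, norm_zero]; exact hρ0)
  have hb0 : b ≠ 0 := hb hρpos
  obtain ⟨z, hz⟩ := IsAlgClosed.exists_pow_nat_eq (r / b) hn0
  have hz1 : ‖z‖ ^ n = ρ ^ n := by
    rw [← norm_pow, hz, norm_div, ← hρ, hphi]
    exact mul_div_cancel_right₀ _ (norm_ne_zero_iff.2 hb0)
  have hz2 : ‖z‖ = ρ := (pow_left_inj₀ (norm_nonneg _) hρ0 hn0.ne').1 hz1
  refine ⟨z, ?_, ?_, ?_⟩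
  · rintro rfl
    rw [norm_zero] at hz2
    exact hρpos.ne hz2
  · rw [hz2]; exact hρ1
  · rw [hz2]; exact hρ

/-- the radius is the same for all points of the open disc -/
theorem radius_eq {S : Multiset C} {α β b b' : C} (hβ : β ∈ S)
    (hb : phi S α ‖b‖ = phi S β ‖b'‖) (h : ‖α - β‖ ≤ ‖b‖) : ‖b‖ = ‖b'‖ := by
  have h1 : phi S β ‖b‖ = phi S β ‖b'‖ := by rw [← hb, phi_congr S h]
  rcases lt_trichotomy ‖b‖ ‖b'‖ with h2 | h2 | h2
  · exact absurd h1 (phi_strictMono hβ (norm_nonneg _) h2).ne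
  · exact h2
  · exact absurd h1 (phi_strictMono hβ (norm_nonneg _) h2).ne'

/-- **Clusters.** The zeros fall into finitely many disjoint open discs. -/
theorem exists_clusters [IsAlgClosed C] (S : Multiset C) (hS : ∀ τ ∈ S, ‖τ‖ ≤ 1) {r : C}
    (hr0 : r ≠ 0) (hr : ‖r‖ ≤ 1) :
    ∃ (n : ℕ) (α b : Fin n → C), (∀ i, α i ∈ S) ∧ (∀ i, b i ≠ 0) ∧ (∀ i, ‖b i‖ ≤ 1) ∧
      (∀ i, phi S (α i) ‖b i‖ = ‖r‖) ∧
      (∀ i j, i ≠ j → max ‖b i‖ ‖b j‖ ≤ ‖α i - α j‖) ∧
      (∀ τ ∈ S, ∃ i, ‖τ - α i‖ < ‖b i‖) ∧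
      ∑ i, (S.countP fun τ => ‖τ - α i‖ < ‖b i‖) = S.card := by
  classical
  choose! R hR0 hR1 hR using fun α (hα : α ∈ S) => exists_radius hα hS hr0 hr
  -- representatives of the balls
  let B : C → Set C := fun α => Metric.ball α ‖R α‖
  have hBmem : ∀ α ∈ S, α ∈ B α := fun α hα => Metric.mem_ball_self (norm_pos_iff.2 (hR0 α hα))
  have hBeq : ∀ α ∈ S, ∀ β ∈ S, β ∈ B α → B β = B α := by
    intro α hα β hβ h
    have h1 : ‖α - β‖ < ‖R α‖ := by
      rw [norm_sub_rev, ← dist_eq_norm]; exact h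
    have h2 : ‖R α‖ = ‖R β‖ := radius_eq hβ (by rw [hR α hα, hR β hβ]) h1.le
    change Metric.ball β ‖R β‖ = Metric.ball α ‖R α‖
    rw [← h2]
    exact IsUltrametricDist.ball_eq_of_mem (Metric.mem_ball'.1 (by
      rw [Metric.mem_ball'] ; exact h)) |>.symm
  let 𝓑 : Finset (Set C) := S.toFinset.image B
  have h𝓑 : ∀ U : 𝓑, ∃ α ∈ S, B α = U := fun U => by
    obtain ⟨α, hα, h⟩ := Finset.mem_image.1 U.2
    exact ⟨α, Multiset.mem_toFinset.1 hα, h⟩
  choose a ha haB using h𝓑
  let e : Fin (Fintype.card 𝓑) ≃ 𝓑 := (Fintype.equivFin 𝓑).symm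
  refine ⟨Fintype.card 𝓑, fun i => a (e i), fun i => R (a (e i)), fun i => ha _,
    fun i => hR0 _ (ha _), fun i => hR1 _ (ha _), fun i => hR _ (ha _), ?_, ?_, ?_⟩
  · intro i j hij
    by_contra hlt
    push Not at hlt
    have hne : (e i : Set C) ≠ e j := fun h => hij (e.injective (Subtype.ext h))
    apply hne
    rw [← haB (e i), ← haB (e j)]
    rcases lt_max_iff.1 hlt with h | h
    · refine (hBeq _ (ha _) _ (ha _) ?_).symm
      change dist _ _ < _
      rw [dist_eq_norm, norm_sub_rev]; exact h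
    · refine hBeq _ (ha _) _ (ha _) ?_
      change dist _ _ < _
      rw [dist_eq_norm]; exact h
  · intro τ hτ
    refine ⟨e.symm ⟨B τ, Finset.mem_image_of_mem _ (Multiset.mem_toFinset.2 hτ)⟩, ?_⟩
    rw [← dist_eq_norm]
    change τ ∈ B _
    rw [haB, Equiv.apply_symm_apply]
    exact hBmem τ hτ
  · have hone : ∀ τ ∈ S, ∑ i : Fin (Fintype.card 𝓑),
        (if ‖τ - a (e i)‖ < ‖R (a (e i))‖ then 1 else 0) = 1 := by
      intro τ hτ
      rw [Finset.sum_eq_single (e.symm ⟨B τ, Finset.mem_image_of_mem _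
        (Multiset.mem_toFinset.2 hτ)⟩)]
      · rw [if_pos]
        rw [← dist_eq_norm]
        change τ ∈ B _
        rw [haB, Equiv.apply_symm_apply]
        exact hBmem τ hτ
      · intro i _ hi
        rw [if_neg]
        intro hlt
        apply hi
        rw [Equiv.eq_symm_apply]
        apply Subtype.ext
        rw [← haB (e i)]
        refine (hBeq _ (ha _) _ hτ ?_).symm
        change dist _ _ < _
        rw [dist_eq_norm]; exact hlt
      · intro h; exact absurd (Finset.mem_univ _) h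
    have hgen : ∀ S' : Multiset C, S' ≤ S → ∑ i : Fin (Fintype.card 𝓑),
        (S'.countP fun τ => ‖τ - a (e i)‖ < ‖R (a (e i))‖) = S'.card := by
      intro S' hS'
      induction S' using Multiset.induction_on with
      | empty => simp
      | cons x S' ih =>
        have hx : x ∈ S := Multiset.mem_of_le hS' (Multiset.mem_cons_self x S')
        rw [Multiset.card_cons, ← ih ((Multiset.le_cons_self S' x).trans hS'), ← hone x hx,
          ← Finset.sum_add_distrib]
        exact Finset.sum_congr rfl fun i _ => by rw [Multiset.countP_cons]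
    exact hgen S le_rfl

end

end Crest.Agent.R013.Clu_270
end
end

-- ▼ part R013/Sub1_270

/-! # R013 / Sub1_270 : restriction of a Weierstrass series to the clusters of its zeros.

For `f` with `WD k f m`, `1 ≤ m`, `‖c‖ < 1`, `0 < ‖r‖ ≤ 1` the preimage of the disc `|y - c| < |r|` is
the disjoint union of the discs `α_i + b_i T` (`i : Fin n`); there `f = c + r g_i` with
`WD k g_i m_i`, `1 ≤ m_i`, `∑ m_i = m` (`exists_sub`), and `1, T, .., T^(m-1)` restricted to these discs
are independent over the series in `y` (last clause). -/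

set_option autoImplicit false
set_option linter.unusedSectionVars false
set_option linter.style.haveILetI false

noncomputable section

namespace Crest.Agent.R013.Sub_270

open Topology Crest.Agent.R013.Cell_408 Crest.Agent.R013.Clu_270 Crest.Agent.R013.Comp_267

section Norm

variable {C : Type*} [NormedField C] [IsUltrametricDist C]

/-- the affine series `α + b T` -/
def aff (α b : C) : PowerSeries C := PowerSeries.C α + PowerSeries.C b * PowerSeries.X

omit [IsUltrametricDist C] in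
theorem coeff_zero_aff (α b : C) : PowerSeries.coeff 0 (aff α b) = α := by
  simp [aff]

omit [IsUltrametricDist C] in
theorem coeff_one_aff (α b : C) : PowerSeries.coeff 1 (aff α b) = b := by
  rw [aff, map_add, PowerSeries.coeff_C, if_neg one_ne_zero, PowerSeries.coeff_C_mul,
    PowerSeries.coeff_X, if_pos rfl, zero_add, mul_one]

omit [IsUltrametricDist C] in
theorem coeff_aff (α b : C) {n : ℕ} (hn : 2 ≤ n) : PowerSeries.coeff n (aff α b) = 0 := by
  rw [aff, map_add, PowerSeries.coeff_C, if_neg (by omega), PowerSeries.coeff_C_mul,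
    PowerSeries.coeff_X, if_neg (by omega), zero_add, mul_zero]

omit [IsUltrametricDist C] in
theorem hasW_aff_near {α b : C} (h : ‖α‖ < ‖b‖) : HasW (aff α b) ‖b‖ 1 := by
  refine ⟨fun n => ?_, ?_, fun n hn => ?_⟩
  · rcases n with _ | _ | n
    · rw [coeff_zero_aff]; exact h.le
    · rw [coeff_one_aff]
    · rw [coeff_aff α b (by omega), norm_zero]; exact norm_nonneg _
  · rw [coeff_one_aff]
  · obtain rfl : n = 0 := by omega
    rw [coeff_zero_aff]; exact h

omit [IsUltrametricDist C] in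
theorem hasW_aff_far {α b : C} (h : ‖b‖ ≤ ‖α‖) : HasW (aff α b) ‖α‖ 0 := by
  refine ⟨fun n => ?_, ?_, fun n hn => absurd hn (Nat.not_lt_zero n)⟩
  · rcases n with _ | _ | n
    · rw [coeff_zero_aff]
    · rw [coeff_one_aff]; exact h
    · rw [coeff_aff α b (by omega), norm_zero]; exact norm_nonneg _
  · rw [coeff_zero_aff]

theorem norm_sub_lt_one {a b : C} (ha : ‖a‖ < 1) (hb : ‖b‖ < 1) : ‖a - b‖ < 1 := by
  rw [sub_eq_add_neg]
  refine (IsUltrametricDist.norm_add_le_max _ _).trans_lt (max_lt ha ?_)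
  rwa [norm_neg]

end Norm

section Main

variable {k C : Type*} [NontriviallyNormedField k] [CompleteSpace k] [IsUltrametricDist k]
  [NormedField C] [IsUltrametricDist C] [NormedAlgebra k C] [Algebra.IsAlgebraic k C] [IsAlgClosed C]

theorem co_aff {α b : C} (hα : ‖α‖ < 1) (hb : ‖b‖ ≤ 1) : Co k (aff α b) := by
  obtain ⟨L, hL, hmem⟩ := finDef_finite (k := k) ![α, b]
  refine ⟨⟨L, hL, fun n => ?_⟩, fun n => ?_, ?_⟩
  · dsimp only
    rcases n with _ | _ | n
    · rw [coeff_zero_aff]; exact hmem 0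
    · rw [coeff_one_aff]; exact hmem 1
    · rw [coeff_aff α b (by omega)]; exact zero_mem L
  · rcases n with _ | _ | n
    · rw [coeff_zero_aff]; exact hα.le
    · rw [coeff_one_aff]; exact hb
    · rw [coeff_aff α b (by omega), norm_zero]; exact zero_le_one
  · rw [coeff_zero_aff]; exact hα

/-- the coordinate as an element of `BD` -/
def bX : BD k C := ⟨PowerSeries.X, X_mem_BD⟩

theorem coe_aeval_bX (P : Polynomial C) :
    ((Polynomial.aeval (bX : BD k C) P : BD k C) : PowerSeries C) = (P : PowerSeries C) := by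
  have h : (BD k C).val (Polynomial.aeval (bX : BD k C) P) =
      Polynomial.aeval (PowerSeries.X : PowerSeries C) P :=
    (Polynomial.aeval_algHom_apply (BD k C).val (bX : BD k C) P).symm
  change (BD k C).val (Polynomial.aeval (bX : BD k C) P) = _
  rw [h, Polynomial.aeval_def, ← Polynomial.eval₂_C_X_eq_coe]
  rfl

/-- `comp (aff α b)` on polynomials, evaluated -/
theorem ev_comp_aff {α b t : C} (hα : ‖α‖ < 1) (hb : ‖b‖ ≤ 1) (ht : ‖t‖ < 1) (P : Polynomial C) :
    ev t ht (comp (aff α b) (co_aff (k := k) hα hb) (Polynomial.aeval bX P)) =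
      P.eval (α + b * t) := by
  rw [← Polynomial.aeval_algHom_apply, ← Polynomial.aeval_algHom_apply, ← Polynomial.coe_aeval_eq_eval]
  congr 2
  change evp t (compS (aff α b) PowerSeries.X) = _
  rw [compS_X]
  have h : aff α b = ((Polynomial.C α + Polynomial.C b * Polynomial.X : Polynomial C) :
      PowerSeries C) := by
    rw [Polynomial.coe_add, Polynomial.coe_mul, Polynomial.coe_C, Polynomial.coe_C,
      Polynomial.coe_X]; rfl
  rw [h, evp_coe]; simp

/-- divisibility in the small disc comes from divisibility of polynomials -/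
theorem pow_dvd {α b τ : C} (hα : ‖α‖ < 1) (hb0 : b ≠ 0) (hb : ‖b‖ ≤ 1) (hτ : ‖τ - α‖ < ‖b‖)
    (n : ℕ) (P : Polynomial C)
    (h : (comp (aff α b) (co_aff (k := k) hα hb) (Polynomial.aeval bX (Polynomial.X - Polynomial.C τ))) ^ n ∣
      comp (aff α b) (co_aff (k := k) hα hb) (Polynomial.aeval bX P)) :
    (Polynomial.X - Polynomial.C τ) ^ n ∣ P := by
  induction n generalizing P with
  | zero => simp
  | succ n ih =>
    set φ := comp (aff α b) (co_aff (k := k) hα hb) with hφ
    have hb' : 0 < ‖b‖ := norm_pos_iff.2 hb0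
    have ht : ‖(τ - α) / b‖ < 1 := by rw [norm_div]; exact (div_lt_one hb').2 hτ
    have hpt : α + b * ((τ - α) / b) = τ := by field_simp; ring
    have h1 : P.eval τ = 0 := by
      obtain ⟨w, hw⟩ := h
      have := congrArg (ev ((τ - α) / b) ht) hw
      rw [ev_comp_aff hα hb ht, map_mul, pow_succ, map_mul, ev_comp_aff hα hb ht, hpt] at this
      rw [this]
      simp
    obtain ⟨P', rfl⟩ := Polynomial.dvd_iff_isRoot.2 h1
    have hne : φ (Polynomial.aeval bX (Polynomial.X - Polynomial.C τ)) ≠ 0 := by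
      intro h0
      have hx : ‖(0 : C)‖ < 1 := by simp
      rcases eq_or_ne τ α with h2 | h2
      · obtain ⟨y, hy0, hy1⟩ := NormedField.exists_norm_lt_one k
        have hy : ‖algebraMap k C y‖ < 1 := by rwa [norm_algebraMap']
        have := congrArg (ev (algebraMap k C y) hy) h0
        rw [hφ, ev_comp_aff hα hb hy, map_zero] at this
        simp only [Polynomial.eval_sub, Polynomial.eval_X, Polynomial.eval_C, h2,
          add_sub_cancel_left, mul_eq_zero, hb0, false_or] at this
        rw [map_eq_zero] at this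
        rw [this, norm_zero] at hy0
        exact lt_irrefl _ hy0
      · have := congrArg (ev (0 : C) hx) h0
        rw [hφ, ev_comp_aff hα hb hx, map_zero] at this
        simp only [Polynomial.eval_sub, Polynomial.eval_X, Polynomial.eval_C, mul_zero,
          add_zero] at this
        exact h2 (sub_eq_zero.1 this).symm
    rw [pow_succ']
    refine mul_dvd_mul_left _ (ih P' ?_)
    rw [pow_succ', map_mul, map_mul] at h
    exact (mul_dvd_mul_iff_left hne).1 h

theorem hasW_comp_unit {f u : PowerSeries C} (hf : Co k f) (hu : IsU k u) :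
    HasW (compS f u) 1 0 := by
  obtain ⟨v, hv, huv⟩ := hu.inv
  have h1 := compS_le hf hu.mem hu.le
  have h2 := compS_le hf hv.mem hv.le
  refine ⟨h1, ?_, fun n hn => absurd hn (Nat.not_lt_zero n)⟩
  have h3 : compS f u * compS f v = 1 := by
    rw [← compS_mul hf hu.mem hv.mem, huv, ← map_one (PowerSeries.C (R := C)), compS_C]
  have h4 := congrArg (PowerSeries.coeff 0) h3
  simp only [PowerSeries.coeff_zero_eq_constantCoeff_apply, map_mul, map_one] at h4 ⊢
  have h5 := congrArg norm h4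
  rw [norm_mul, norm_one] at h5
  have h1' := h1 0
  have h2' := h2 0
  rw [PowerSeries.coeff_zero_eq_constantCoeff_apply] at h1' h2'
  nlinarith [norm_nonneg (PowerSeries.constantCoeff (compS f u)),
    norm_nonneg (PowerSeries.constantCoeff (compS f v))]

theorem compS_sub {f g h : PowerSeries C} (hf : Co k f) (hg : g ∈ BD k C) (hh : h ∈ BD k C) :
    compS f (g - h) = compS f g - compS f h := by
  rw [eq_sub_iff_add_eq, ← compS_add hf (sub_mem hg hh) hh, sub_add_cancel]

variable (k) in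
include k in
theorem compS_aff_lin {α b : C} (τ : C) (hα : ‖α‖ < 1) (hb : ‖b‖ ≤ 1) :
    compS (aff α b) ((Polynomial.X - Polynomial.C τ : Polynomial C) : PowerSeries C) =
      aff (α - τ) b := by
  rw [Polynomial.coe_sub, Polynomial.coe_X, Polynomial.coe_C,
    compS_sub (k := k) (co_aff hα hb) X_mem_BD (C_mem_BD τ), compS_X, compS_C]
  unfold aff
  rw [map_sub]; ring

variable (k) in
include k in
theorem hasW_comp_roots {α b : C} (hα : ‖α‖ < 1) (hb0 : b ≠ 0) (hb : ‖b‖ ≤ 1) (S : Multiset C) :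
    HasW (compS (aff α b) (rootPoly S : PowerSeries C)) (phi S α ‖b‖)
      (S.countP fun τ => ‖τ - α‖ < ‖b‖) := by
  have hb' : 0 < ‖b‖ := norm_pos_iff.2 hb0
  induction S using Multiset.induction_on with
  | empty =>
    rw [phi_zero, Multiset.countP_zero]
    have : (rootPoly (0 : Multiset C) : PowerSeries C) = PowerSeries.C 1 := by
      simp [rootPoly]
    rw [this, compS_C, map_one]
    exact hasW_one
  | cons a S ih =>
    have h1 : (rootPoly (a ::ₘ S) : PowerSeries C) =
        ((Polynomial.X - Polynomial.C a : Polynomial C) : PowerSeries C) * (rootPoly S : PowerSeries C) := by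
      rw [← Polynomial.coe_mul]
      simp [rootPoly]
    rw [h1, compS_mul (k := k) (co_aff hα hb) (coe_mem_BD _) (coe_mem_BD _),
      compS_aff_lin k a hα hb, phi_cons, Multiset.countP_cons, add_comm (Multiset.countP _ S)]
    have hpos := phi_pos S α hb'
    rcases lt_or_ge ‖α - a‖ ‖b‖ with h | h
    · rw [max_eq_left h.le, if_pos (by rwa [norm_sub_rev])]
      exact (hasW_aff_near h).mul ih hb' hpos
    · rw [max_eq_right h, if_neg (by rw [norm_sub_rev]; exact not_lt.2 h)]
      exact (hasW_aff_far h).mul ih (hb'.trans_le h) hpos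

/-- the shifted series -/
def shiftB (e : BD k C) : BD k C :=
  ⟨PowerSeries.mk fun n => PowerSeries.coeff (n + 1) (e : PowerSeries C), by
    obtain ⟨h1, M, h2⟩ := e.2
    refine ⟨?_, M, fun n => ?_⟩
    · obtain ⟨L, hL, h3⟩ := h1
      exact ⟨L, hL, fun n => by dsimp only; rw [PowerSeries.coeff_mk]; exact h3 (n + 1)⟩
    · rw [PowerSeries.coeff_mk]; exact h2 (n + 1)⟩

/-- constants in `BD` -/
def bC (c : C) : BD k C := ⟨PowerSeries.C c, C_mem_BD c⟩

theorem bC_eq (c : C) : (bC c : BD k C) = algebraMap C (BD k C) c := rfl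

theorem eq_const_add (e : BD k C) :
    e = bC (PowerSeries.coeff 0 (e : PowerSeries C)) + bX * shiftB e := by
  apply Subtype.ext
  have := PowerSeries.sub_const_eq_X_mul_shift (e : PowerSeries C)
  rw [sub_eq_iff_eq_add'] at this
  rw [PowerSeries.coeff_zero_eq_constantCoeff_apply]
  exact this

theorem coeff_shiftB (e : BD k C) (n : ℕ) :
    PowerSeries.coeff n (shiftB e : PowerSeries C) = PowerSeries.coeff (n + 1) (e : PowerSeries C) := by
  exact PowerSeries.coeff_mk n fun n => PowerSeries.coeff (n + 1) (e : PowerSeries C)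

theorem comp_bC {f : PowerSeries C} (hf : Co k f) (c : C) : comp f hf (bC c) = bC c :=
  (comp f hf).commutes c


theorem coeff_zero_of_rel {m : ℕ} {S : Multiset C} (hcard : S.card = m)
    {n : ℕ} (α b : Fin n → C) (hα : ∀ i, ‖α i‖ < 1) (hb : ∀ i, ‖b i‖ ≤ 1) (hb0 : ∀ i, b i ≠ 0)
    (hcov : ∀ τ ∈ S, ∃ i, ‖τ - α i‖ < ‖b i‖) (g : Fin n → PowerSeries C) (hgc : ∀ i, Co k (g i))
    (hdvd : ∀ i, comp (aff (α i) (b i)) (co_aff (hα i) (hb i)) (Polynomial.aeval bX (rootPoly S)) ∣
      (⟨g i, (hgc i).mem⟩ : BD k C))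
    (e : Fin m → BD k C) (he : ∀ i, ∑ s, comp (g i) (hgc i) (e s) *
        (comp (aff (α i) (b i)) (co_aff (hα i) (hb i)) bX) ^ (s : ℕ) = 0) (s : Fin m) :
    PowerSeries.coeff 0 (e s : PowerSeries C) = 0 := by
  classical
  let q : Fin m → C := fun s => PowerSeries.coeff 0 (e s : PowerSeries C)
  let Q : Polynomial C := ∑ s : Fin m, Polynomial.C (q s) * Polynomial.X ^ (s : ℕ)
  let A : ∀ i, BD k C →ₐ[C] BD k C := fun i => comp (aff (α i) (b i)) (co_aff (hα i) (hb i))
  let G : Fin n → BD k C := fun i => ⟨g i, (hgc i).mem⟩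
  have hG : ∀ i, comp (g i) (hgc i) bX = G i := fun i => Subtype.ext (compS_X _)
  have hQ : ∀ i, G i ∣ A i (Polynomial.aeval bX Q) := by
    intro i
    have h1 : A i (Polynomial.aeval bX Q) = ∑ s : Fin m, bC (q s) * (A i bX) ^ (s : ℕ) := by
      rw [← Polynomial.aeval_algHom_apply, map_sum]
      refine Finset.sum_congr rfl fun s _ => ?_
      rw [map_mul, map_pow, Polynomial.aeval_C, Polynomial.aeval_X, ← bC_eq]
    have h2 : ∑ s : Fin m, comp (g i) (hgc i) (e s) * (A i bX) ^ (s : ℕ) =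
        ∑ s : Fin m, bC (q s) * (A i bX) ^ (s : ℕ) +
          G i * ∑ s : Fin m, comp (g i) (hgc i) (shiftB (e s)) * (A i bX) ^ (s : ℕ) := by
      rw [Finset.mul_sum, ← Finset.sum_add_distrib]
      refine Finset.sum_congr rfl fun s _ => ?_
      conv_lhs => rw [eq_const_add (e s)]
      rw [map_add, map_mul, hG, comp_bC]
      ring
    rw [h1]
    have h3 := he i
    change ∑ s : Fin m, comp (g i) (hgc i) (e s) * (A i bX) ^ (s : ℕ) = 0 at h3
    rw [h2] at h3
    rw [eq_neg_of_add_eq_zero_left h3]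
    exact (dvd_neg (α := BD k C)).2 (dvd_mul_right _ _)
  -- divisibility by the root factors
  have hpow : ∀ τ ∈ S, (Polynomial.X - Polynomial.C τ) ^ S.count τ ∣ Q := by
    intro τ hτ
    obtain ⟨i, hi⟩ := hcov τ hτ
    refine pow_dvd (k := k) (hα i) (hb0 i) (hb i) hi _ _ (dvd_trans ?_ (hQ i))
    have h1 : (Polynomial.X - Polynomial.C τ) ^ S.count τ ∣ rootPoly S := by
      unfold rootPoly
      rw [← Multiset.prod_replicate, ← Multiset.map_replicate (fun τ => Polynomial.X - Polynomial.C τ)]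
      exact Multiset.prod_dvd_prod_of_le (Multiset.map_le_map (Multiset.le_count_iff_replicate_le.1 le_rfl))
    have h2 : (A i (Polynomial.aeval bX (Polynomial.X - Polynomial.C τ))) ^ S.count τ ∣
        A i (Polynomial.aeval bX (rootPoly S)) := by
      rw [← map_pow, ← map_pow]
      exact map_dvd (A i) (map_dvd (Polynomial.aeval bX) h1)
    exact h2.trans (hdvd i)
  have hQdeg : Q.degree < m := by
    refine (Polynomial.degree_sum_fin_lt q).trans_le le_rfl
  have hQ0 : Q = 0 := by
    by_contra hne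
    have h1 : S ≤ Q.roots := by
      rw [Multiset.le_iff_count]
      intro τ
      by_cases hτ : τ ∈ S
      · rw [Polynomial.count_roots]
        exact (Polynomial.le_rootMultiplicity_iff hne).2 (hpow τ hτ)
      · rw [Multiset.count_eq_zero_of_notMem hτ]; exact Nat.zero_le _
    have h2 := (Multiset.card_le_card h1).trans (Polynomial.card_roots' Q)
    rw [hcard] at h2
    have h3 : Q.natDegree < m := (Polynomial.natDegree_lt_iff_degree_lt hne).2 hQdeg
    omega
  have h4 : Q.coeff (s : ℕ) = q s := by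
    simp only [Q, Polynomial.finsetSum_coeff, Polynomial.coeff_C_mul, Polynomial.coeff_X_pow]
    rw [Finset.sum_eq_single s]
    · simp
    · intro t _ hts
      rw [if_neg, mul_zero]
      intro h; exact hts (Fin.ext h.symm)
    · intro h; exact absurd (Finset.mem_univ _) h
  rw [hQ0, Polynomial.coeff_zero] at h4
  exact h4.symm

/-- **Independence** over the series in `y`, from the divisibility of the root polynomial. -/
theorem indep_of_dvd {m : ℕ} {S : Multiset C} (hcard : S.card = m)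
    {n : ℕ} (α b : Fin n → C) (hα : ∀ i, ‖α i‖ < 1) (hb : ∀ i, ‖b i‖ ≤ 1) (hb0 : ∀ i, b i ≠ 0)
    (hcov : ∀ τ ∈ S, ∃ i, ‖τ - α i‖ < ‖b i‖) (g : Fin n → PowerSeries C) (hgc : ∀ i, Co k (g i))
    (hg0 : ∀ i, g i ≠ 0)
    (hdvd : ∀ i, comp (aff (α i) (b i)) (co_aff (hα i) (hb i)) (Polynomial.aeval bX (rootPoly S)) ∣
      (⟨g i, (hgc i).mem⟩ : BD k C))
    (e : Fin m → BD k C) (he : ∀ i, ∑ s, comp (g i) (hgc i) (e s) *
        (comp (aff (α i) (b i)) (co_aff (hα i) (hb i)) bX) ^ (s : ℕ) = 0) : e = 0 := by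
  have hGne : ∀ i, (⟨g i, (hgc i).mem⟩ : BD k C) ≠ 0 := fun i h0 =>
    hg0 i (congrArg Subtype.val h0)
  have key : ∀ (N : ℕ) (e : Fin m → BD k C), (∀ i, ∑ s, comp (g i) (hgc i) (e s) *
      (comp (aff (α i) (b i)) (co_aff (hα i) (hb i)) bX) ^ (s : ℕ) = 0) →
      ∀ s, PowerSeries.coeff N (e s : PowerSeries C) = 0 := by
    intro N
    induction N with
    | zero =>
      intro e he s
      exact coeff_zero_of_rel hcard α b hα hb hb0 hcov g hgc hdvd e he s
    | succ N ih =>
      intro e he s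
      rw [← coeff_shiftB]
      refine ih (fun s => shiftB (e s)) (fun i => ?_) s
      have h0 := fun s => coeff_zero_of_rel hcard α b hα hb hb0 hcov g hgc hdvd e he s
      have h1 : ∀ s, e s = bX * shiftB (e s) := fun s => by
        conv_lhs => rw [eq_const_add (e s), h0 s]
        have : (bC 0 : BD k C) = 0 := by rw [bC_eq, map_zero]
        rw [this, zero_add]
      have h2 := he i
      have h3 : ∑ s, comp (g i) (hgc i) (e s) *
          (comp (aff (α i) (b i)) (co_aff (hα i) (hb i)) bX) ^ (s : ℕ) =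
          (⟨g i, (hgc i).mem⟩ : BD k C) * ∑ s, comp (g i) (hgc i) (shiftB (e s)) *
          (comp (aff (α i) (b i)) (co_aff (hα i) (hb i)) bX) ^ (s : ℕ) := by
        rw [Finset.mul_sum]
        refine Finset.sum_congr rfl fun s _ => ?_
        conv_lhs => rw [h1 s]
        rw [map_mul, show comp (g i) (hgc i) bX = (⟨g i, (hgc i).mem⟩ : BD k C) from
          Subtype.ext (compS_X _), mul_assoc]
      rw [h3] at h2
      exact (mul_eq_zero.1 h2).resolve_left (hGne i)
  funext s
  apply Subtype.ext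
  ext N
  rw [key N e he s]
  simp

/-- **Restriction to the preimage of a disc.** -/
theorem exists_sub {f : PowerSeries C} {m : ℕ} (hm : 1 ≤ m) (hf : WD k f m) {c r : C}
    (hc : ‖c‖ < 1) (hr0 : r ≠ 0) (hr : ‖r‖ ≤ 1) :
    ∃ (n : ℕ) (α b : Fin n → C) (hα : ∀ i, ‖α i‖ < 1) (hb : ∀ i, ‖b i‖ ≤ 1) (mm : Fin n → ℕ)
      (g : Fin n → PowerSeries C) (_ : ∀ i, WD k (g i) (mm i)) (hgc : ∀ i, Co k (g i)),
      (∀ i, b i ≠ 0) ∧ (∀ i, 1 ≤ mm i) ∧ ∑ i, mm i = m ∧
      (∀ i, compS (aff (α i) (b i)) f = compS (g i) (aff c r)) ∧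
      ∀ (e : Fin m → BD k C), (∀ i, ∑ s, comp (g i) (hgc i) (e s) *
        (comp (aff (α i) (b i)) (co_aff (hα i) (hb i)) bX) ^ (s : ℕ) = 0) → e = 0 := by
  classical
  -- the zeros of `f - c`
  have hfc : WD k (f - PowerSeries.C c) m := by
    have hco : ∀ n, n ≠ 0 → PowerSeries.coeff n (f - PowerSeries.C c) = PowerSeries.coeff n f := by
      intro n hn
      rw [map_sub, PowerSeries.coeff_C, if_neg hn, sub_zero]
    have h0 : ‖PowerSeries.coeff 0 (f - PowerSeries.C c)‖ < 1 := by
      rw [map_sub, PowerSeries.coeff_C, if_pos rfl]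
      exact norm_sub_lt_one (hf.lt 0 (by omega)) hc
    refine ⟨(sub_mem hf.mem (C_mem_BD c)).1, fun n => ?_, ?_, fun n hn => ?_⟩
    · rcases Nat.eq_zero_or_pos n with rfl | hn
      · exact h0.le
      · rw [hco n hn.ne']; exact hf.le n
    · rw [hco m (by omega)]; exact hf.eq
    · rcases Nat.eq_zero_or_pos n with rfl | hn'
      · exact h0
      · rw [hco n hn'.ne']; exact hf.lt n hn
  obtain ⟨u, S, hu, hcard, hS, hfu⟩ := hfc.exists_roots
  obtain ⟨n, α, b, hαS, hb0, hb, hphi, -, hcov, hsum⟩ :=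
    exists_clusters S (fun τ hτ => (hS τ hτ).le) hr0 hr
  have hα : ∀ i, ‖α i‖ < 1 := fun i => hS _ (hαS i)
  let A : ∀ i, Co k (aff (α i) (b i)) := fun i => co_aff (hα i) (hb i)
  let mm : Fin n → ℕ := fun i => S.countP fun τ => ‖τ - α i‖ < ‖b i‖
  let g : Fin n → PowerSeries C := fun i =>
    PowerSeries.C r⁻¹ * compS (aff (α i) (b i)) (f - PowerSeries.C c)
  have hmm : ∀ i, 1 ≤ mm i := fun i => by
    refine Multiset.countP_pos.2 ⟨α i, hαS i, ?_⟩
    rw [sub_self, norm_zero]; exact norm_pos_iff.2 (hb0 i)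
  have hgW : ∀ i, HasW (g i) 1 (mm i) := by
    intro i
    have h1 : HasW (compS (aff (α i) (b i)) (f - PowerSeries.C c)) ‖r‖ (mm i) := by
      rw [hfu, compS_mul (A i) hu.mem (coe_mem_BD _)]
      have := (hasW_comp_unit (A i) hu).mul (hasW_comp_roots k (hα i) (hb0 i) (hb i) S) one_pos
        (phi_pos S _ (norm_pos_iff.2 (hb0 i)))
      rw [one_mul, zero_add, hphi i] at this
      exact this
    have h2 := h1.smul (inv_ne_zero hr0)
    rwa [norm_inv, inv_mul_cancel₀ (norm_ne_zero_iff.2 hr0)] at h2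
  have hgB : ∀ i, g i ∈ BD k C := fun i =>
    mul_mem (C_mem_BD _) (compS_mem (A i) hfc.mem)
  have hg : ∀ i, WD k (g i) (mm i) := fun i => ⟨(hgB i).1, (hgW i).le, (hgW i).eq, (hgW i).lt⟩
  have hgc : ∀ i, Co k (g i) := fun i => ⟨(hgB i).1, (hgW i).le, (hgW i).lt 0 (hmm i)⟩
  have hrel : ∀ i, compS (aff (α i) (b i)) (f - PowerSeries.C c) = PowerSeries.C r * g i := by
    intro i
    change _ = PowerSeries.C r * (PowerSeries.C r⁻¹ * _)
    rw [← mul_assoc, ← map_mul, mul_inv_cancel₀ hr0, map_one, one_mul]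
  refine ⟨n, α, b, hα, hb, mm, g, hg, hgc, hb0, hmm, hsum.trans hcard, ?_, ?_⟩
  · intro i
    have h1 : compS (g i) (aff c r) = PowerSeries.C c + PowerSeries.C r * g i := by
      unfold aff
      rw [compS_add (hgc i) (C_mem_BD c) (mul_mem (C_mem_BD r) X_mem_BD),
        compS_mul (hgc i) (C_mem_BD r) X_mem_BD, compS_C, compS_C, compS_X]
    rw [h1, ← hrel i, compS_sub (A i) hf.mem (C_mem_BD c), compS_C]
    ring
  · -- independence
    intro e he
    refine indep_of_dvd hcard α b hα hb hb0 hcov g hgc (fun i => (hgW i).ne_zero one_pos)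
      (fun i => ?_) e he
    have h3 : comp (aff (α i) (b i)) (A i) (⟨u, hu.mem⟩ * Polynomial.aeval bX (rootPoly S)) =
        bC r * (⟨g i, (hgc i).mem⟩ : BD k C) := by
      apply Subtype.ext
      change compS (aff (α i) (b i))
        (u * ((Polynomial.aeval bX (rootPoly S) : BD k C) : PowerSeries C)) = _
      rw [coe_aeval_bX, ← hfu, hrel i]
      rfl
    have h4 : comp (aff (α i) (b i)) (A i) (Polynomial.aeval bX (rootPoly S)) ∣
        bC r * (⟨g i, (hgc i).mem⟩ : BD k C) := by
      rw [← h3, map_mul]; exact dvd_mul_left _ _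
    refine h4.trans ⟨bC r⁻¹, ?_⟩
    have h5 : (bC r : BD k C) * bC r⁻¹ = 1 := by
      rw [bC_eq, bC_eq, ← map_mul, mul_inv_cancel₀ hr0, map_one]
    calc (⟨g i, (hgc i).mem⟩ : BD k C) = (bC r * bC r⁻¹) * (⟨g i, (hgc i).mem⟩ : BD k C) := by
          rw [h5, one_mul]
      _ = bC r * (⟨g i, (hgc i).mem⟩ : BD k C) * bC r⁻¹ := by ring

end Main

end Crest.Agent.R013.Sub_270
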