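import Crest.Agent.R013.AnW3_201
import Crest.Agent.R013.Good0_408
import Crest.Agent.R013.Sub1_270
import Crest.Agent.R013.Comp4_267
import Crest.Agent.R013.AN1_243
import Crest.Agent.R013.AnW2_201
import Crest.Agent.R013.CAn3_243
import Crest.Agent.R013.Good1_408
import Crest.Agent.R013.CAn4_243
import Crest.Agent.R013.Good4_408

-- ▼ part R013/AnW4_201
section

/-!
# Row 13, leaf SS-ANW (helper201): Weierstrass theory on open annuli, part 4

`Fac c a` : the data of a factorisation `a = A T^N ∏ (T - τ) u`; the numbers: `od`, `gn` at both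
ends, values, number of zeros (`Fac.card`), zeros and orders at a point (`zr`).
-/

set_option autoImplicit false
set_option linter.unusedSectionVars false
set_option linter.unusedVariables false
set_option linter.style.haveILetI false

noncomputable section

open Filter Topology
open Crest.Agent.R013.Cell_408 Crest.Agent.R013.EE809

namespace Crest.Agent.R013.AnW_201

variable {k C : Type*} [NontriviallyNormedField k] [NormedField C]
  [IsUltrametricDist C] [NormedAlgebra k C] [CompleteSpace k] [Algebra.IsAlgebraic k C]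
  [IsUltrametricDist k] [IsAlgClosed C]
variable {c : C}

/-- the data of a factorisation `a = A T^N ∏ (T - τ) u` -/
structure Fac (c : C) (a : EE k C) where
  A : C
  N : ℤ
  S : Multiset C
  u : EE k C
  v : EE k C
  hA : A ≠ 0
  hS : ∀ τ ∈ S, ‖c‖ < ‖τ‖ ∧ ‖τ‖ < 1
  hu : IsUA c u
  hv : IsUA c v
  huv : u * v = 1
  eq : a = mo N A * (S.map lin).prod * u

theorem exists_fac (hk : DiscNorm k) (hc0 : c ≠ 0) (hc1 : ‖c‖ < 1) {a : EE k C} (ha : InA c a)
    (h0 : a ≠ 0) : Nonempty (Fac c a) := by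
  obtain ⟨A, N, S, u, v, h1, h2, h3, h4, h5, h6⟩ := exists_W hk hc0 hc1 ha h0
  exact ⟨⟨A, N, S, u, v, h1, h2, h3, h4, h5, h6⟩⟩

theorem inA_prod_lin (c : C) (S : Multiset C) : InA c ((S.map lin).prod : EE k C) := by
  rw [← val_prod_linA (c := c)]; exact Subtype.property _

theorem prod_lin_ne_zero (hk : DiscNorm k) (S : Multiset C) : (S.map lin).prod ≠ (0 : EE k C) :=
  multiset_prod_ne_zero hk S lin fun τ _ => lin_ne_zero τ

theorem od_prod_lin (hk : DiscNorm k) {S : Multiset C} (hS : ∀ τ ∈ S, ‖τ‖ < 1) :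
    od ((S.map lin).prod : EE k C) = S.card := by
  rw [od_multiset_prod hk S lin fun τ _ => lin_ne_zero τ]
  have h1 : (S.map fun τ => od (lin τ : EE k C)) = S.map fun _ => (1 : ℤ) :=
    Multiset.map_congr rfl fun τ hτ => od_lin (hS τ hτ)
  rw [h1, Multiset.map_const', Multiset.sum_replicate, nsmul_eq_mul, mul_one]

theorem gn_prod_lin (hk : DiscNorm k) {S : Multiset C} (hS : ∀ τ ∈ S, ‖τ‖ < 1) :
    gn ((S.map lin).prod : EE k C) = 1 := by
  rw [gn_multiset_prod hk S lin]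
  have h1 : (S.map fun τ => gn (lin τ : EE k C)) = S.map fun _ => (1 : ℝ) :=
    Multiset.map_congr rfl fun τ hτ => gn_lin (hS τ hτ).le
  rw [h1, Multiset.map_const', Multiset.prod_replicate, one_pow]

theorem evE_prod_lin {t : C} (hc0 : c ≠ 0) (hct : ‖c‖ < ‖t‖) (ht : ‖t‖ < 1) (S : Multiset C) :
    evE t ((S.map lin).prod : EE k C) = (S.map fun τ => t - τ).prod := by
  have h1 := map_multiset_prod (evA (k := k) hc0 t hct ht) (S.map (linA k c))
  rw [Multiset.map_map] at h1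
  have h2 : evA (k := k) hc0 t hct ht (S.map (linA k c)).prod =
      evE t ((S.map (linA k c)).prod : AN k C c).1 := rfl
  rw [h2, val_prod_linA] at h1
  rw [h1]
  congr 1
  exact Multiset.map_congr rfl fun τ _ => evE_lin hct ht hc0 τ

theorem norm_evE_unit {t : C} (hc0 : c ≠ 0) (hct : ‖c‖ < ‖t‖) (ht : ‖t‖ < 1) {u v : EE k C}
    (hu : IsUA c u) (hv : IsUA c v) (huv : u * v = 1) : ‖evE t u‖ = 1 := by
  have hc' : 0 < ‖c‖ := norm_pos_iff.2 hc0
  have key : ∀ w : EE k C, IsUA c w → ‖evE t w‖ ≤ 1 := fun w hw =>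
    norm_evE_le (Bdd.interp hc' hct.le ht.le hw.le' fun n => by
      rw [one_zpow, mul_one]; exact hw.le n)
  have h1 := key u hu
  have h2 := key v hv
  have h3 : evE t u * evE t v = 1 := by
    rw [← evE_mul hct ht hc0 hu.inA hv.inA, huv]
    have := evE_mo (k := k) t 0 1
    rwa [zpow_zero, mul_one] at this
  have h4 := congrArg norm h3
  rw [norm_mul, norm_one] at h4
  nlinarith [norm_nonneg (evE t u), norm_nonneg (evE t v)]

theorem prod_lin_count [DecidableEq C] (S : Multiset C) (t : C) :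
    ((S.map lin).prod : EE k C) =
      lin t ^ (S.count t) * ((S.filter fun τ => ¬ τ = t).map lin).prod := by
  conv_lhs => rw [← Multiset.filter_add_not (fun τ => τ = t) S]
  rw [Multiset.map_add, Multiset.prod_add, Multiset.filter_eq', Multiset.map_replicate,
    Multiset.prod_replicate]


namespace Fac

variable {a b : EE k C}

theorem inA (F : Fac c a) : InA c a := by
  rw [F.eq]; exact ((inA_mo c _ _).mul (inA_prod_lin c F.S)).mul F.hu.inA

theorem ne_zero (hk : DiscNorm k) (F : Fac c a) : a ≠ 0 := by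
  rw [F.eq]
  exact mul_ne_zero' hk (mul_ne_zero' hk (mo_ne_zero _ F.hA) (prod_lin_ne_zero hk F.S)) F.hu.ne_zero

theorem od_eq (hk : DiscNorm k) (hc0 : c ≠ 0) (hc1 : ‖c‖ < 1) (F : Fac c a) :
    od a = F.N + F.S.card := by
  conv_lhs => rw [F.eq]
  rw [od_mul hk (mul_ne_zero' hk (mo_ne_zero _ F.hA) (prod_lin_ne_zero hk F.S)) F.hu.ne_zero,
    od_mul hk (mo_ne_zero _ F.hA) (prod_lin_ne_zero hk F.S), od_mo _ F.hA,
    od_prod_lin hk fun τ hτ => (F.hS τ hτ).2, F.hu.od hc0 hc1, add_zero]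

theorem gn_eq (hk : DiscNorm k) (F : Fac c a) : gn a = ‖F.A‖ := by
  conv_lhs => rw [F.eq]
  rw [gn_mul hk, gn_mul hk, gn_mo, gn_prod_lin hk fun τ hτ => (F.hS τ hτ).2, F.hu.gn, mul_one,
    mul_one]

/-- the other end -/
theorem flip_eq (hc0 : c ≠ 0) (hc1 : ‖c‖ < 1) (F : Fac c a) :
    flip c hc0 hc1 a F.inA = mo (-F.N) (F.A * c ^ F.N) *
      (F.S.map fun ζ => (flipA hc0 hc1 (linA k c ζ)).1).prod * flip c hc0 hc1 F.u F.hu.inA := by
  have h3 : (⟨a, F.inA⟩ : AN k C c) =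
      moA k c F.N F.A * (F.S.map (linA k c)).prod * ⟨F.u, F.hu.inA⟩ := by
    apply Subtype.ext
    show a = mo F.N F.A * ((F.S.map (linA k c)).prod : AN k C c).1 * F.u
    rw [val_prod_linA]; exact F.eq
  have h4 := congrArg (fun x => (flipA hc0 hc1 x).1) h3
  rw [map_mul, map_mul, flipA_moA, map_multiset_prod, Multiset.map_map] at h4
  have h5 : (F.S.map (⇑(flipA hc0 hc1) ∘ linA k c)).prod.1 =
      (F.S.map fun ζ => (flipA hc0 hc1 (linA k c ζ)).1).prod := by
    have := map_multiset_prod (AN k C c).val (F.S.map (⇑(flipA hc0 hc1) ∘ linA k c))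
    rw [Multiset.map_map] at this
    exact this
  rw [← h5]; exact h4

theorem od_flip (hk : DiscNorm k) (hc0 : c ≠ 0) (hc1 : ‖c‖ < 1) (F : Fac c a) :
    od (flip c hc0 hc1 a F.inA) = -F.N := by
  have hne : ∀ ζ ∈ F.S, (flipA hc0 hc1 (linA k c ζ)).1 ≠ 0 := fun ζ _ => flip_lin_ne_zero hc0 hc1 ζ
  have hprod := multiset_prod_ne_zero hk F.S (fun ζ => (flipA hc0 hc1 (linA k c ζ)).1) hne
  have hAc : F.A * c ^ F.N ≠ 0 := mul_ne_zero F.hA (zpow_ne_zero _ hc0)
  have h7 : (F.S.map fun ζ => od (flipA hc0 hc1 (linA k c ζ)).1) = F.S.map fun _ => (0 : ℤ) :=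
    Multiset.map_congr rfl fun τ hτ => od_flip_lin hc0 hc1 (F.hS τ hτ).1
  rw [F.flip_eq hc0 hc1, od_mul hk (mul_ne_zero' hk (mo_ne_zero _ hAc) hprod)
    (F.hu.flip hc0 hc1).ne_zero, od_mul hk (mo_ne_zero _ hAc) hprod, od_mo _ hAc,
    (F.hu.flip hc0 hc1).od hc0 hc1, od_multiset_prod hk F.S _ hne, h7, Multiset.map_const',
    Multiset.sum_replicate, smul_zero, add_zero, add_zero]


/-- **number of zeros** = sum of the orders at the two ends -/
theorem card (hk : DiscNorm k) (hc0 : c ≠ 0) (hc1 : ‖c‖ < 1) (F : Fac c a) :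
    (F.S.card : ℤ) = od a + od (flip c hc0 hc1 a F.inA) := by
  rw [F.od_eq hk hc0 hc1, F.od_flip hk hc0 hc1]; ring

/-- the value at a point -/
theorem evE_eq {t : C} (hc0 : c ≠ 0) (hct : ‖c‖ < ‖t‖) (ht : ‖t‖ < 1) (F : Fac c a) :
    evE t a = F.A * t ^ F.N * (F.S.map fun τ => t - τ).prod * evE t F.u := by
  conv_lhs => rw [F.eq]
  rw [evE_mul hct ht hc0 ((inA_mo c _ _).mul (inA_prod_lin c F.S)) F.hu.inA,
    evE_mul hct ht hc0 (inA_mo c _ _) (inA_prod_lin c F.S), evE_mo, evE_prod_lin hc0 hct ht]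

theorem norm_evE {t : C} (hc0 : c ≠ 0) (hct : ‖c‖ < ‖t‖) (ht : ‖t‖ < 1) (F : Fac c a) :
    ‖evE t a‖ = ‖F.A‖ * ‖t‖ ^ F.N * (F.S.map fun τ => ‖t - τ‖).prod := by
  rw [F.evE_eq hc0 hct ht, norm_mul, norm_mul, norm_mul, norm_zpow,
    norm_evE_unit hc0 hct ht F.hu F.hv F.huv, mul_one]
  congr 1
  have := map_multiset_prod (normHom : C →*₀ ℝ) (F.S.map fun τ => t - τ)
  simpa [Multiset.map_map, Function.comp_def] using this

theorem evE_eq_zero {t : C} (hc0 : c ≠ 0) (hct : ‖c‖ < ‖t‖) (ht : ‖t‖ < 1) (F : Fac c a) :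
    evE t a = 0 ↔ t ∈ F.S := by
  have ht0 : t ≠ 0 := by
    rintro rfl
    rw [norm_zero] at hct
    exact absurd (norm_nonneg c) (not_le.2 hct)
  rw [← norm_eq_zero, F.norm_evE hc0 hct ht, mul_eq_zero, or_iff_right, Multiset.prod_eq_zero_iff,
    Multiset.mem_map]
  · constructor
    · rintro ⟨τ, hτ, h0⟩
      rw [norm_eq_zero, sub_eq_zero] at h0
      rwa [h0]
    · intro h
      exact ⟨t, h, by simp⟩
  · exact mul_ne_zero (norm_ne_zero_iff.2 F.hA) (zpow_ne_zero _ (norm_ne_zero_iff.2 ht0))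

open Classical in
/-- splitting off the zeros at `t` -/
theorem order {t : C} (hc0 : c ≠ 0) (hct : ‖c‖ < ‖t‖) (ht : ‖t‖ < 1) (F : Fac c a) :
    ∃ g : EE k C, InA c g ∧ evE t g ≠ 0 ∧ a = lin t ^ (F.S.count t) * g := by
  have ht0 : t ≠ 0 := by
    rintro rfl
    rw [norm_zero] at hct
    exact absurd (norm_nonneg c) (not_le.2 hct)
  refine ⟨mo F.N F.A * ((F.S.filter fun τ => ¬ τ = t).map lin).prod * F.u,
    ((inA_mo c _ _).mul (inA_prod_lin c _)).mul F.hu.inA, ?_, ?_⟩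
  · rw [evE_mul hct ht hc0 ((inA_mo c _ _).mul (inA_prod_lin c _)) F.hu.inA,
      evE_mul hct ht hc0 (inA_mo c _ _) (inA_prod_lin c _), evE_mo, evE_prod_lin hc0 hct ht]
    refine mul_ne_zero (mul_ne_zero (mul_ne_zero F.hA (zpow_ne_zero _ ht0)) ?_) ?_
    · rw [Ne, Multiset.prod_eq_zero_iff, Multiset.mem_map]
      rintro ⟨τ, hτ, h0⟩
      exact (Multiset.mem_filter.1 hτ).2 (sub_eq_zero.1 h0).symm
    · rw [← norm_ne_zero_iff, norm_evE_unit hc0 hct ht F.hu F.hv F.huv]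
      exact one_ne_zero
  · conv_lhs => rw [F.eq, prod_lin_count F.S t]
    ring

/-- products -/
def mul (hk : DiscNorm k) (hc0 : c ≠ 0) (hc1 : ‖c‖ < 1) (F : Fac c a) (F' : Fac c b) :
    Fac c (a * b) where
  A := F.A * F'.A
  N := F.N + F'.N
  S := F.S + F'.S
  u := F.u * F'.u
  v := F.v * F'.v
  hA := mul_ne_zero F.hA F'.hA
  hS τ hτ := by
    rcases Multiset.mem_add.1 hτ with h | h
    · exact F.hS τ h
    · exact F'.hS τ h
  hu := F.hu.mul hk hc0 hc1 F'.hu
  hv := F.hv.mul hk hc0 hc1 F'.hv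
  huv := by
    calc F.u * F'.u * (F.v * F'.v) = (F.u * F.v) * (F'.u * F'.v) := by ring
      _ = 1 := by rw [F.huv, F'.huv, one_mul]
  eq := by
    conv_lhs => rw [F.eq, F'.eq]
    rw [Multiset.map_add, Multiset.prod_add, ← mo_mul_mo]
    ring

end Fac

/-! ### uniqueness -/





open Classical in
/-- the multiset of zeros of `a` on the annulus `|c| < |T| < 1` -/
def zr (c : C) (a : EE k C) : Multiset C := if h : Nonempty (Fac c a) then h.some.S else 0


section zr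

variable (hk : DiscNorm k) (hc0 : c ≠ 0) (hc1 : ‖c‖ < 1)
include hk hc0 hc1











end zr

end Crest.Agent.R013.AnW_201
end
end

-- ▼ part R013/Sub2_270
section

/-! # R013 / Sub2_270 : base change of good cells, abstract core.

`Inj φ ι b` for a cell passes to a subcell: `R : Fc → Fc'` restriction of functions of the cell of the
line, `ρ j i : E j → E' j i` restriction to the components of the preimage of the subcell, `φ' j i`. -/

set_option autoImplicit false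

namespace Crest.Agent.R013.Good_408

variable {Fc Fc' K : Type*} [Field Fc] [Field Fc'] [Field K]
variable {J : Type*} {E : J → Type*} [∀ j, Field (E j)]
variable {φ : ∀ j, Fc →+* E j} {ι : ∀ j, K →+* E j}

/-- `Inj` passes to subcells. -/
theorem Inj.sub [Fintype J] {I : Type*} [Fintype I] {b : I → K} (hb : Inj φ ι b)
    (m : J → ℕ) (hm : ∑ j, m j ≤ Fintype.card I) (β : ∀ j, Fin (m j) → E j)
    (hβ : ∀ j z, ∃ e : Fin (m j) → Fc, z = ∑ l, φ j (e l) * β j l)
    (R : Fc →+* Fc') {N : J → Type*} {E' : ∀ j, N j → Type*} [∀ j i, Field (E' j i)]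
    (ρ : ∀ j i, E j →+* E' j i) (φ' : ∀ j i, Fc' →+* E' j i)
    (hcomp : ∀ j i a, φ' j i (R a) = ρ j i (φ j a))
    (hli : ∀ j (e : Fin (m j) → Fc'), (∀ i, ∑ l, φ' j i (e l) * ρ j i (β j l) = 0) → e = 0) :
    Inj (J := Σ j, N j) (E := fun p => E' p.1 p.2) (fun p => φ' p.1 p.2)
      (fun p => (ρ p.1 p.2).comp (ι p.1)) b := by
  classical
  have hs := hb.surj m hm (fun j => ⟨β j, hβ j⟩)
  -- the matrix `X`
  choose X hX using fun p : (Σ j, Fin (m j)) => hs (fun j' =>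
    if h : p.1 = j' then h ▸ β p.1 p.2 else 0)
  -- the matrix `Y`
  choose Y hY using fun (i : I) (j : J) => hβ j (ι j (b i))
  have hYX : ∀ i0 i, ∑ p : (Σ j, Fin (m j)), Y i0 p.1 p.2 * X p i = if i = i0 then 1 else 0 := by
    intro i0
    have h1 : (fun i => (∑ p : (Σ j, Fin (m j)), Y i0 p.1 p.2 * X p i) -
        if i = i0 then (1 : Fc) else 0) = 0 := by
      refine hb _ fun j' => ?_
      simp only [map_sub, sub_mul, Finset.sum_sub_distrib]
      rw [sub_eq_zero]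
      have h2 : ∑ i, φ j' (if i = i0 then (1 : Fc) else 0) * ι j' (b i) = ι j' (b i0) := by
        rw [Finset.sum_eq_single i0]
        · simp
        · intro i _ hi; simp [hi]
        · intro h; exact absurd (Finset.mem_univ _) h
      rw [h2]
      have h3 : ∀ i, φ j' (∑ p : (Σ j, Fin (m j)), Y i0 p.1 p.2 * X p i) * ι j' (b i) =
          ∑ p : (Σ j, Fin (m j)), φ j' (Y i0 p.1 p.2) * (φ j' (X p i) * ι j' (b i)) := by
        intro i
        rw [map_sum, Finset.sum_mul]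
        refine Finset.sum_congr rfl fun p _ => ?_
        rw [map_mul, mul_assoc]
      simp only [h3]
      rw [Finset.sum_comm]
      simp only [← Finset.mul_sum, hX]
      rw [Fintype.sum_sigma, Finset.sum_eq_single j']
      · simp only [dif_pos]
        exact (hY i0 j').symm
      · intro j _ hj
        refine Finset.sum_eq_zero fun l _ => ?_
        rw [dif_neg hj, mul_zero]
      · intro h; exact absurd (Finset.mem_univ _) h
    intro i
    have := congrFun h1 i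
    simpa [sub_eq_zero] using this
  intro e he
  have h4 : ∀ p : (Σ j, Fin (m j)), ∑ i, e i * R (Y i p.1 p.2) = 0 := by
    rintro ⟨j, l⟩
    have h5 : (fun l => ∑ i, e i * R (Y i j l)) = 0 := by
      refine hli j _ fun i' => ?_
      have h6 := he ⟨j, i'⟩
      simp only [RingHom.comp_apply] at h6
      rw [← h6]
      have h7 : ∀ i, φ' j i' (e i) * ρ j i' (ι j (b i)) =
          ∑ l, φ' j i' (e i * R (Y i j l)) * ρ j i' (β j l) := by
        intro i
        conv_lhs => rw [hY i j, map_sum, Finset.mul_sum]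
        refine Finset.sum_congr rfl fun l _ => ?_
        rw [map_mul, map_mul, hcomp]; ring
      simp only [h7]
      rw [Finset.sum_comm]
      refine Finset.sum_congr rfl fun l _ => ?_
      rw [map_sum, Finset.sum_mul]
    exact congrFun h5 l
  funext i
  have h8 : e i = ∑ i0, e i0 * R (∑ p : (Σ j, Fin (m j)), Y i0 p.1 p.2 * X p i) := by
    simp only [hYX]
    rw [Finset.sum_eq_single i]
    · simp
    · intro i0 _ hi0; simp [Ne.symm hi0]
    · intro h; exact absurd (Finset.mem_univ _) h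
  rw [h8]
  simp only [map_sum, map_mul, Finset.mul_sum]
  rw [Finset.sum_comm]
  refine Finset.sum_eq_zero fun p _ => ?_
  have h9 : ∀ i0, e i0 * (R (Y i0 p.1 p.2) * R (X p i)) = (e i0 * R (Y i0 p.1 p.2)) * R (X p i) :=
    fun i0 => (mul_assoc _ _ _).symm
  simp only [h9]
  rw [← Finset.sum_mul, h4 p, zero_mul]

end Crest.Agent.R013.Good_408
end

-- ▼ part R013/Sub3_270
section

/-! # R013 / Sub3_270 : restriction homs `resF α b : FD → FD` (`T ↦ α + b T`) and (S1) in unbundled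
form: a good disc restricts to good subdiscs. -/

set_option autoImplicit false
set_option linter.unusedSectionVars false
set_option linter.style.haveILetI false

noncomputable section

namespace Crest.Agent.R013.Sub_270

open Topology Crest.Agent.R013.Cell_408 Crest.Agent.R013.Clu_270 Crest.Agent.R013.Comp_267
  Crest.Agent.R013.Good_408

variable {k C : Type*} [NontriviallyNormedField k] [CompleteSpace k] [IsUltrametricDist k]
  [NormedField C] [IsUltrametricDist C] [NormedAlgebra k C] [Algebra.IsAlgebraic k C] [IsAlgClosed C]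

theorem evp_aff (α b t : C) : evp t (aff α b) = α + b * t := by
  have h : aff α b = ((Polynomial.C α + Polynomial.C b * Polynomial.X : Polynomial C) :
      PowerSeries C) := by
    rw [Polynomial.coe_add, Polynomial.coe_mul, Polynomial.coe_C, Polynomial.coe_C,
      Polynomial.coe_X]; rfl
  rw [h, evp_coe]; simp

theorem comp_aff_injective (hk : DiscNorm k) {α b : C} (hα : ‖α‖ < 1) (hb0 : b ≠ 0) (hb : ‖b‖ ≤ 1) :
    Function.Injective (comp (aff α b) (co_aff (k := k) hα hb)) := by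
  intro g h hgh
  apply Subtype.ext
  refine evp_ext hk g.2 h.2 ?_
  have hinj : Function.Injective fun t : C => α + b * t := fun x y hxy =>
    mul_left_cancel₀ hb0 (add_left_cancel hxy)
  refine (((infinite_disc k C).image hinj.injOn).mono ?_)
  rintro _ ⟨t, ht, rfl⟩
  have ht' : ‖t‖ < 1 := ht
  have h1 := congrArg (ev (k := k) t ht') hgh
  rw [ev_comp hk, ev_comp hk] at h1
  have h2 : evp t (aff α b) = α + b * t := evp_aff α b t
  refine ⟨?_, ?_⟩
  · have := (co_aff (k := k) hα hb).norm_evp ht'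
    rwa [h2] at this
  · change evp (evp t (aff α b)) (g : PowerSeries C) = evp (evp t (aff α b)) (h : PowerSeries C) at h1
    rwa [h2] at h1

/-- `BD → FD`, `g ↦ g(α + b T)` -/
def resBF {α b : C} (hα : ‖α‖ < 1) (hb : ‖b‖ ≤ 1) : BD k C →ₐ[C] FD k C :=
  (IsScalarTower.toAlgHom C (BD k C) (FD k C)).comp (comp (aff α b) (co_aff hα hb))

theorem resBF_apply {α b : C} (hα : ‖α‖ < 1) (hb : ‖b‖ ≤ 1) (g : BD k C) :
    resBF hα hb g = algebraMap (BD k C) (FD k C) (comp (aff α b) (co_aff hα hb) g) := rfl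

theorem resBF_injective (hk : DiscNorm k) {α b : C} (hα : ‖α‖ < 1) (hb0 : b ≠ 0) (hb : ‖b‖ ≤ 1) :
    Function.Injective (resBF (k := k) hα hb) := fun _ _ h =>
  comp_aff_injective hk hα hb0 hb (IsFractionRing.injective (BD k C) (FD k C) h)

/-- restriction to the disc `α + b T` on `FD` -/
def resF (hk : DiscNorm k) {α b : C} (hα : ‖α‖ < 1) (hb0 : b ≠ 0) (hb : ‖b‖ ≤ 1) :
    FD k C →ₐ[C] FD k C :=
  IsFractionRing.liftAlgHom (K := FD k C) (g := resBF hα hb) (resBF_injective hk hα hb0 hb)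

theorem resF_algebraMap (hk : DiscNorm k) {α b : C} (hα : ‖α‖ < 1) (hb0 : b ≠ 0) (hb : ‖b‖ ≤ 1)
    (g : BD k C) : resF hk hα hb0 hb (algebraMap (BD k C) (FD k C) g) =
      algebraMap (BD k C) (FD k C) (comp (aff α b) (co_aff hα hb) g) := by
  unfold resF
  rw [IsFractionRing.liftAlgHom_apply, IsFractionRing.lift_algebraMap]
  exact resBF_apply hα hb g

theorem resF_TF (hk : DiscNorm k) {α b : C} (hα : ‖α‖ < 1) (hb0 : b ≠ 0) (hb : ‖b‖ ≤ 1) :
    resF hk hα hb0 hb (TF k C) = algebraMap C (FD k C) α + algebraMap C (FD k C) b * TF k C := by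
  have h : comp (aff α b) (co_aff (k := k) hα hb) XB =
      algebraMap C (BD k C) α + algebraMap C (BD k C) b * XB := by
    rw [comp_X]; rfl
  rw [TF, resF_algebraMap, h, map_add, map_mul, ← IsScalarTower.algebraMap_apply,
    ← IsScalarTower.algebraMap_apply]

/-- `resF` commutes with `compF` along a relation of series -/
theorem resF_compF (hk : DiscNorm k) {α b c r : C} (hα : ‖α‖ < 1) (hb0 : b ≠ 0) (hb : ‖b‖ ≤ 1)
    (hc : ‖c‖ < 1) (hr0 : r ≠ 0) (hr : ‖r‖ ≤ 1) {f g : PowerSeries C} {m n : ℕ} (hf : WD k f m)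
    (hm : m ≠ 0) (hg : WD k g n) (hn : n ≠ 0) (h : compS (aff α b) f = compS g (aff c r))
    (G : FD k C) : resF hk hα hb0 hb (compF hk hf hm G) = compF hk hg hn (resF hk hc hr0 hr G) := by
  have key : (resF hk hα hb0 hb).comp (compF hk hf hm) =
      (compF hk hg hn).comp (resF hk hc hr0 hr) := by
    refine AlgHom.coe_ringHom_injective (IsFractionRing.ringHom_ext (A := BD k C) fun a => ?_)
    change resF hk hα hb0 hb (compF hk hf hm (algebraMap (BD k C) (FD k C) a)) =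
      compF hk hg hn (resF hk hc hr0 hr (algebraMap (BD k C) (FD k C) a))
    rw [compF_algebraMap, resF_algebraMap, resF_algebraMap, compF_algebraMap]
    congr 1
    apply Subtype.ext
    change compS (aff α b) (compS f (a : PowerSeries C)) = compS g (compS (aff c r) (a : PowerSeries C))
    rw [compS_compS hk (co_aff (k := k) hα hb) (WD.co hf hm) a.2,
      compS_compS hk (WD.co hg hn) (co_aff (k := k) hc hr) a.2, h]
  exact DFunLike.congr_fun key G

/-- independence on the level of `FD` -/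
theorem indep_FD (hk : DiscNorm k) {m n : ℕ} (α b : Fin n → C) (hα : ∀ i, ‖α i‖ < 1)
    (hb0 : ∀ i, b i ≠ 0) (hb : ∀ i, ‖b i‖ ≤ 1) (mm : Fin n → ℕ) (g : Fin n → PowerSeries C)
    (hg : ∀ i, WD k (g i) (mm i)) (hmm : ∀ i, mm i ≠ 0)
    (hind : ∀ (e : Fin m → BD k C), (∀ i, ∑ s, comp (g i) (WD.co (hg i) (hmm i)) (e s) *
        (comp (aff (α i) (b i)) (co_aff (hα i) (hb i)) XB) ^ (s : ℕ) = 0) → e = 0)
    (e : Fin m → FD k C) (he : ∀ i, ∑ s, compF hk (hg i) (hmm i) (e s) *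
        resF hk (hα i) (hb0 i) (hb i) (TF k C ^ (s : ℕ)) = 0) : e = 0 := by
  classical
  obtain ⟨d, hd⟩ := IsLocalization.exist_integer_multiples_of_finite (nonZeroDivisors (BD k C)) e
  choose A hA using hd
  have hinj := IsFractionRing.injective (BD k C) (FD k C)
  have hd0 : (d : BD k C) ≠ 0 := nonZeroDivisors.ne_zero d.2
  have hd1 : algebraMap (BD k C) (FD k C) (d : BD k C) ≠ 0 := fun h =>
    hd0 (hinj (h.trans (map_zero _).symm))
  have hA' : ∀ i, algebraMap (BD k C) (FD k C) (A i) =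
      algebraMap (BD k C) (FD k C) (d : BD k C) * e i := by
    intro i
    rw [hA i, Algebra.smul_def]
  have h1 : A = 0 := by
    refine hind A fun i => ?_
    apply hinj
    rw [map_sum, map_zero]
    have h3 : ∀ s : Fin m, algebraMap (BD k C) (FD k C)
        (comp (g i) (WD.co (hg i) (hmm i)) (A s) *
          (comp (aff (α i) (b i)) (co_aff (hα i) (hb i)) XB) ^ (s : ℕ)) =
        compF hk (hg i) (hmm i) (algebraMap (BD k C) (FD k C) (d : BD k C)) *
          (compF hk (hg i) (hmm i) (e s) * resF hk (hα i) (hb0 i) (hb i) (TF k C ^ (s : ℕ))) := by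
      intro s
      rw [map_mul, map_pow, ← compF_algebraMap hk (hg i) (hmm i), hA', map_mul, map_pow, TF,
        resF_algebraMap]
      ring
    simp only [h3]
    rw [← Finset.mul_sum, he i, mul_zero]
  funext i
  have h5 := hA' i
  rw [h1, Pi.zero_apply, map_zero] at h5
  exact (mul_eq_zero.1 h5.symm).resolve_left hd1

/-- **(S1)**, unbundled: restriction of a good disc to the subdisc `c + r T`. -/
theorem sub_disc (hk : DiscNorm k) {K : Type*} [Field K] {J : Type} [Fintype J] {I : Type*} [Fintype I]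
    (b : I → K) (m : J → ℕ) (hm : ∀ j, m j ≠ 0) (f : J → PowerSeries C) (hf : ∀ j, WD k (f j) (m j))
    (ι : J → (K →+* FD k C)) (hsum : ∑ j, m j = Fintype.card I)
    (hinj : Inj (fun j => (compF hk (hf j) (hm j)).toRingHom) ι b)
    {c r : C} (hc : ‖c‖ < 1) (hr0 : r ≠ 0) (hr : ‖r‖ ≤ 1) :
    ∃ (J' : Type) (_ : Fintype J') (p : J' → J) (m' : J' → ℕ) (hm' : ∀ j, m' j ≠ 0)
      (f' : J' → PowerSeries C) (hf' : ∀ j, WD k (f' j) (m' j)) (α β : J' → C)
      (hα : ∀ j, ‖α j‖ < 1) (hβ0 : ∀ j, β j ≠ 0) (hβ : ∀ j, ‖β j‖ ≤ 1),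
      ∑ j, m' j = Fintype.card I ∧
      (∀ j, compS (aff (α j) (β j)) (f (p j)) = compS (f' j) (aff c r)) ∧
      (∀ j G, resF hk (hα j) (hβ0 j) (hβ j) (compF hk (hf (p j)) (hm (p j)) G) =
        compF hk (hf' j) (hm' j) (resF hk hc hr0 hr G)) ∧
      Inj (fun j => (compF hk (hf' j) (hm' j)).toRingHom)
        (fun j => (resF hk (hα j) (hβ0 j) (hβ j)).toRingHom.comp (ι (p j))) b := by
  classical
  choose n α β hα hβ mm g hg hgc hβ0 hmm hs hrel hind using fun j =>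
    exists_sub (Nat.one_le_iff_ne_zero.2 (hm j)) (hf j) hc hr0 hr
  have hmm' : ∀ j i, mm j i ≠ 0 := fun j i => Nat.one_le_iff_ne_zero.1 (hmm j i)
  refine ⟨Σ j, Fin (n j), inferInstance, fun p => p.1, fun p => mm p.1 p.2, fun p => hmm' _ _,
    fun p => g p.1 p.2, fun p => hg _ _, fun p => α p.1 p.2, fun p => β p.1 p.2, fun p => hα _ _,
    fun p => hβ0 _ _, fun p => hβ _ _, ?_, fun p => hrel _ _, fun p G => ?_, ?_⟩
  · rw [Fintype.sum_sigma, ← hsum]
    exact Finset.sum_congr rfl fun j _ => hs j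
  · exact resF_compF hk _ _ _ hc hr0 hr _ _ _ _ (hrel p.1 p.2) G
  · refine Inj.sub hinj m hsum.le (fun j l => TF k C ^ (l : ℕ))
      (fun j z => compF_repr hk (hf j) (hm j) z) (resF hk hc hr0 hr).toRingHom
      (E' := fun _ _ => FD k C)
      (fun j i => (resF hk (hα j i) (hβ0 j i) (hβ j i)).toRingHom)
      (fun j i => (compF hk (hg j i) (hmm' j i)).toRingHom) (fun j i a => ?_) (fun j e he => ?_)
    · exact (resF_compF hk _ _ _ hc hr0 hr _ _ _ _ (hrel j i) a).symm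
    · exact indep_FD hk (α j) (β j) (hα j) (hβ0 j) (hβ j) (mm j) (g j) (hg j) (hmm' j)
        (fun e he => hind j e he) e he

end Crest.Agent.R013.Sub_270
end
end

-- ▼ part R013/ResA1_270
section

/-! # R013 / ResA1_270 : restriction of functions of an annulus `|c| < |T| < 1` to the discs
`α + b T` (`|c| < |α| < 1`, `|b| ≤ |α|`) inside it. -/

set_option autoImplicit false
set_option linter.unusedSectionVars false
set_option linter.style.haveILetI false

noncomputable section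

namespace Crest.Agent.R013.Sub_270

open Filter Topology Crest.Agent.R013.Cell_408 Crest.Agent.R013.Clu_270 Crest.Agent.R013.Comp_267
  Crest.Agent.R013.Good_408 Crest.Agent.R013.EE809 Crest.Agent.R013.CAn_243
open Crest.Agent.R013.AnW_201 (evE InA evE_add evE_mul evE_mo summable_evE)

variable {k C : Type*} [NontriviallyNormedField k] [CompleteSpace k] [IsUltrametricDist k]
  [NormedField C] [IsUltrametricDist C] [NormedAlgebra k C] [Algebra.IsAlgebraic k C] [IsAlgClosed C]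

/-- the series of `c / (α + b T)` -/
def iaff (c α b : C) : PowerSeries C := PowerSeries.mk fun n => (c / α) * (-(b / α)) ^ n

theorem coeff_iaff (c α b : C) (n : ℕ) :
    PowerSeries.coeff n (iaff c α b) = (c / α) * (-(b / α)) ^ n := PowerSeries.coeff_mk _ _

theorem co_iaff {c α b : C} (hα0 : α ≠ 0) (hcα : ‖c‖ < ‖α‖) (hb : ‖b‖ ≤ ‖α‖) :
    Co k (iaff c α b) := by
  have hα' : 0 < ‖α‖ := norm_pos_iff.2 hα0
  have h1 : ‖c / α‖ < 1 := by rw [norm_div]; exact (div_lt_one hα').2 hcα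
  have h2 : ‖-(b / α)‖ ≤ 1 := by rw [norm_neg, norm_div]; exact (div_le_one hα').2 hb
  obtain ⟨L, hL, hmem⟩ := finDef_finite (k := k) ![c / α, -(b / α)]
  refine ⟨⟨L, hL, fun n => ?_⟩, fun n => ?_, ?_⟩
  · dsimp only
    rw [coeff_iaff]
    exact mul_mem (hmem 0) (pow_mem (hmem 1) n)
  · rw [coeff_iaff, norm_mul, norm_pow]
    exact mul_le_one₀ h1.le (pow_nonneg (norm_nonneg _) _) (pow_le_one₀ (norm_nonneg _) h2)
  · rw [coeff_iaff, pow_zero, mul_one]; exact h1

theorem norm_aff_eq {α b t : C} (hα0 : α ≠ 0) (hb : ‖b‖ ≤ ‖α‖) (ht : ‖t‖ < 1) :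
    ‖α + b * t‖ = ‖α‖ := by
  have hα' : 0 < ‖α‖ := norm_pos_iff.2 hα0
  have h1 : ‖b * t‖ < ‖α‖ := by
    rw [norm_mul]
    calc ‖b‖ * ‖t‖ ≤ ‖α‖ * ‖t‖ := mul_le_mul_of_nonneg_right hb (norm_nonneg _)
      _ < ‖α‖ * 1 := mul_lt_mul_of_pos_left ht hα'
      _ = ‖α‖ := mul_one _
  rw [IsUltrametricDist.norm_add_eq_max_of_norm_ne_norm h1.ne', max_eq_left h1.le]

theorem evp_iaff {c α b t : C} (hα0 : α ≠ 0) (hb : ‖b‖ ≤ ‖α‖) (ht : ‖t‖ < 1) :
    evp t (iaff c α b) = c / (α + b * t) := by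
  have hα' : 0 < ‖α‖ := norm_pos_iff.2 hα0
  have h1 : ‖-(b / α) * t‖ < 1 := by
    rw [norm_mul, norm_neg, norm_div]
    calc ‖b‖ / ‖α‖ * ‖t‖ ≤ 1 * ‖t‖ :=
          mul_le_mul_of_nonneg_right ((div_le_one hα').2 hb) (norm_nonneg _)
      _ < 1 := by rw [one_mul]; exact ht
  have h2 := (hasSum_geometric_of_norm_lt_one h1).mul_left (c / α)
  have h3 : evp t (iaff c α b) = c / α * (1 - -(b / α) * t)⁻¹ := by
    unfold evp
    rw [← h2.tsum_eq]
    refine tsum_congr fun n => ?_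
    rw [coeff_iaff, mul_pow]; ring
  have h4 : α + b * t ≠ 0 := by
    rw [← norm_pos_iff, norm_aff_eq hα0 hb ht]; exact hα'
  have h5 : 1 - -(b / α) * t = (α + b * t) / α := by field_simp; ring
  rw [h3, h5, inv_div]
  field_simp

section resA

variable {c α b : C}

/-- the restriction, as a function -/
def resAfun (hc0 : c ≠ 0) (hc1 : ‖c‖ < 1) (hα0 : α ≠ 0) (hcα : ‖c‖ < ‖α‖) (hα : ‖α‖ < 1)
    (hb : ‖b‖ ≤ ‖α‖) (g : AN k c) : BD k C :=
  comp (aff α b) (co_aff hα (hb.trans hα.le)) (EE809.posPart g.1) +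
    comp (iaff c α b) (co_iaff hα0 hcα hb) (EE809.posPart (CAn_243.flip c hc0 hc1 g).1) -
    bC (g.1.co 0)

theorem evp_posPart' {s : C} (g : EE k C) :
    evp s (EE809.posPart g : PowerSeries C) = ∑' n : ℕ, g.co n * s ^ n := by
  unfold evp
  refine tsum_congr fun n => ?_
  rw [EE809.coeff_posPart]

theorem evp_resAfun (hk : DiscNorm k) (hc0 : c ≠ 0) (hc1 : ‖c‖ < 1) (hα0 : α ≠ 0)
    (hcα : ‖c‖ < ‖α‖) (hα : ‖α‖ < 1) (hb : ‖b‖ ≤ ‖α‖) (g : AN k c) {t : C} (ht : ‖t‖ < 1) :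
    evp t (resAfun hc0 hc1 hα0 hcα hα hb g : PowerSeries C) = evE (α + b * t) g.1 := by
  set s := α + b * t with hs
  have hsn : ‖s‖ = ‖α‖ := norm_aff_eq hα0 hb ht
  have hα' : 0 < ‖α‖ := norm_pos_iff.2 hα0
  have hs0 : s ≠ 0 := by rw [← norm_pos_iff, hsn]; exact hα'
  have hcs : ‖c‖ < ‖s‖ := by rw [hsn]; exact hcα
  have hs1 : ‖s‖ < 1 := by rw [hsn]; exact hα
  have h1 : ev (k := k) t ht (resAfun hc0 hc1 hα0 hcα hα hb g) =
      evp s (EE809.posPart g.1 : PowerSeries C) +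
        evp (c / s) (EE809.posPart (CAn_243.flip c hc0 hc1 g).1 : PowerSeries C) - g.1.co 0 := by
    unfold resAfun
    rw [map_sub, map_add, bC_eq, AlgHom.commutes]
    congr 1
    congr 1
    · refine (evp_comp hk (co_aff hα (hb.trans hα.le)) (EE809.posPart g.1) ht).trans ?_
      rw [evp_aff]
    · refine (evp_comp hk (co_iaff hα0 hcα hb) (EE809.posPart (CAn_243.flip c hc0 hc1 g).1) ht).trans ?_
      rw [evp_iaff hα0 hb ht]
  change ev (k := k) t ht (resAfun hc0 hc1 hα0 hcα hα hb g) = _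
  rw [h1, evp_posPart', evp_posPart']
  have hcs1 : ‖c / s‖ < 1 := by
    rw [norm_div]; exact (div_lt_one (norm_pos_iff.2 hs0)).2 hcs
  have hneg : ∀ n : ℕ, PowerSeries.coeff n
      (EE809.posPart (CAn_243.flip c hc0 hc1 g).1 : PowerSeries C) * (c / s) ^ n =
      g.1.co (-(n : ℤ)) * s ^ (-(n : ℤ)) := by
    intro n
    rw [EE809.coeff_posPart, CAn_243.co_flip, div_pow, zpow_neg, zpow_neg, zpow_natCast,
      zpow_natCast]
    have := pow_ne_zero n hc0
    have := pow_ne_zero n hs0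
    field_simp
  have hsum : Summable fun n : ℕ => g.1.co (n : ℤ) * s ^ (n : ℤ) := by
    refine (summable_ev (k := k) (EE809.posPart g.1).2 hs1).congr fun n => ?_
    rw [EE809.coeff_posPart, zpow_natCast]
  have hsum2 : Summable fun n : ℕ => g.1.co (-(n : ℤ)) * s ^ (-(n : ℤ)) :=
    (summable_ev (k := k) (EE809.posPart (CAn_243.flip c hc0 hc1 g).1).2 hcs1).congr hneg
  have h3 : evE s g.1 = ∑' n : ℕ, g.1.co (n : ℤ) * s ^ (n : ℤ) +
      ∑' n : ℕ, g.1.co (-(n : ℤ)) * s ^ (-(n : ℤ)) - g.1.co 0 * s ^ (0 : ℤ) := by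
    unfold evE
    exact Summable.tsum_of_nat_of_neg (f := fun n : ℤ => g.1.co n * s ^ n) hsum hsum2
  rw [h3, zpow_zero, mul_one]
  congr 1
  congr 1
  · refine tsum_congr fun n => ?_
    rw [zpow_natCast]
  · refine tsum_congr fun n => ?_
    rw [← hneg n, EE809.coeff_posPart]

/-- **Restriction to a disc in the annulus**: `T ↦ α + b T`. -/
def resA (hk : DiscNorm k) (hc0 : c ≠ 0) (hc1 : ‖c‖ < 1) (hα0 : α ≠ 0) (hcα : ‖c‖ < ‖α‖)
    (hα : ‖α‖ < 1) (hb : ‖b‖ ≤ ‖α‖) : AN k c →ₐ[C] BD k C where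
  toFun := resAfun hc0 hc1 hα0 hcα hα hb
  map_one' := by
    refine Subtype.ext (evp_ext' hk (Subtype.mem _) (Subtype.mem _) fun t ht => ?_)
    rw [evp_resAfun hk hc0 hc1 hα0 hcα hα hb _ ht]
    have h1 := evE_mo (k := k) (α + b * t) 0 1
    rw [zpow_zero, mul_one] at h1
    have h2 := evp_C t (1 : C)
    rw [map_one] at h2
    exact h1.trans h2.symm
  map_mul' g h := by
    refine Subtype.ext (evp_ext' hk (Subtype.mem _) (Subtype.mem _) fun t ht => ?_)
    have hsn : ‖α + b * t‖ = ‖α‖ := norm_aff_eq hα0 hb ht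
    rw [evp_resAfun hk hc0 hc1 hα0 hcα hα hb _ ht]
    have h1 := evE_mul (k := k) (c := c) (t := α + b * t) (by rw [hsn]; exact hcα)
      (by rw [hsn]; exact hα) hc0 g.2 h.2
    have h2 := evp_mul (k := k) (resAfun hc0 hc1 hα0 hcα hα hb g).2
      (resAfun hc0 hc1 hα0 hcα hα hb h).2 ht
    rw [evp_resAfun hk hc0 hc1 hα0 hcα hα hb _ ht, evp_resAfun hk hc0 hc1 hα0 hcα hα hb _ ht] at h2
    exact h1.trans h2.symm
  map_zero' := by
    refine Subtype.ext (evp_ext' hk (Subtype.mem _) (Subtype.mem _) fun t ht => ?_)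
    rw [evp_resAfun hk hc0 hc1 hα0 hcα hα hb _ ht]
    have h1 := evE_mo (k := k) (α + b * t) 0 0
    rw [zero_mul, mo_zero] at h1
    have h2 := evp_C t (0 : C)
    rw [map_zero] at h2
    exact h1.trans h2.symm
  map_add' g h := by
    refine Subtype.ext (evp_ext' hk (Subtype.mem _) (Subtype.mem _) fun t ht => ?_)
    have hsn : ‖α + b * t‖ = ‖α‖ := norm_aff_eq hα0 hb ht
    rw [evp_resAfun hk hc0 hc1 hα0 hcα hα hb _ ht]
    have h1 := evE_add (k := k) (c := c) (t := α + b * t) (by rw [hsn]; exact hcα)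
      (by rw [hsn]; exact hα) hc0 g.2 h.2
    have h2 := evp_add (k := k) (resAfun hc0 hc1 hα0 hcα hα hb g).2
      (resAfun hc0 hc1 hα0 hcα hα hb h).2 ht
    rw [evp_resAfun hk hc0 hc1 hα0 hcα hα hb _ ht, evp_resAfun hk hc0 hc1 hα0 hcα hα hb _ ht] at h2
    exact h1.trans h2.symm
  commutes' x := by
    refine Subtype.ext (evp_ext' hk (Subtype.mem _) (Subtype.mem _) fun t ht => ?_)
    rw [evp_resAfun hk hc0 hc1 hα0 hcα hα hb _ ht]
    have h1 := evE_mo (k := k) (α + b * t) 0 x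
    rw [zpow_zero, mul_one] at h1
    exact h1.trans (evp_C t x).symm

variable (hk : DiscNorm k) (hc0 : c ≠ 0) (hc1 : ‖c‖ < 1) (hα0 : α ≠ 0) (hcα : ‖c‖ < ‖α‖)
    (hα : ‖α‖ < 1) (hb : ‖b‖ ≤ ‖α‖)

theorem evp_resA (g : AN k c) {t : C} (ht : ‖t‖ < 1) :
    evp t (resA hk hc0 hc1 hα0 hcα hα hb g : PowerSeries C) = evE (α + b * t) g.1 :=
  evp_resAfun hk hc0 hc1 hα0 hcα hα hb g ht

/-- the coordinate `T` -/
def tA (c : C) : AN k c := ⟨EE809.T 1, T_mem_AN c 1⟩

theorem evE_T (s : C) (n : ℤ) : evE s (EE809.T n : EE k C) = s ^ n := by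
  have := evE_mo (k := k) s n 1
  rw [one_mul] at this
  exact this

theorem resA_tA : resA hk hc0 hc1 hα0 hcα hα hb (tA c) = ⟨aff α b, (co_aff hα (hb.trans hα.le)).mem⟩ := by
  refine Subtype.ext (evp_ext' hk (Subtype.mem _) (Subtype.mem _) fun t ht => ?_)
  rw [evp_resA hk hc0 hc1 hα0 hcα hα hb _ ht]
  change evE (α + b * t) (EE809.T 1 : EE k C) = evp t (aff α b)
  rw [evE_T, zpow_one, evp_aff]


/-- bounds -/
theorem norm_coeff_resA_le {g : AN k c} {M : ℝ} (h1 : ∀ n, 0 ≤ n → ‖g.1.co n‖ ≤ M)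
    (h2 : ∀ n, n ≤ 0 → ‖g.1.co n‖ * ‖c‖ ^ n ≤ M) (n : ℕ) :
    ‖PowerSeries.coeff n (resA hk hc0 hc1 hα0 hcα hα hb g : PowerSeries C)‖ ≤ M := by
  have hM : 0 ≤ M := (norm_nonneg _).trans (h1 0 le_rfl)
  have e : PowerSeries.coeff n (resA hk hc0 hc1 hα0 hcα hα hb g : PowerSeries C) =
      PowerSeries.coeff n (compS (aff α b) (EE809.posPart g.1 : PowerSeries C)) +
        PowerSeries.coeff n (compS (iaff c α b)
          (EE809.posPart (CAn_243.flip c hc0 hc1 g).1 : PowerSeries C)) -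
        PowerSeries.coeff n (PowerSeries.C (g.1.co 0)) := rfl
  rw [e, sub_eq_add_neg]
  have a1 : ‖PowerSeries.coeff n (compS (aff α b) (EE809.posPart g.1 : PowerSeries C))‖ ≤ M :=
    compS_le (co_aff (k := k) hα (hb.trans hα.le)) (EE809.posPart g.1).2 (fun n => by
      rw [EE809.coeff_posPart]; exact h1 n (Int.natCast_nonneg n)) n
  have a2 : ‖PowerSeries.coeff n (compS (iaff c α b)
      (EE809.posPart (CAn_243.flip c hc0 hc1 g).1 : PowerSeries C))‖ ≤ M :=
    compS_le (co_iaff (k := k) hα0 hcα hb) (EE809.posPart (CAn_243.flip c hc0 hc1 g).1).2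
      (fun n => by
        rw [EE809.coeff_posPart, CAn_243.norm_co_flip]
        exact h2 _ (by omega)) n
  have a3 : ‖-PowerSeries.coeff n (PowerSeries.C (g.1.co 0))‖ ≤ M := by
    rw [norm_neg, PowerSeries.coeff_C]
    split_ifs
    · exact h1 0 le_rfl
    · rw [norm_zero]; exact hM
  exact (IsUltrametricDist.norm_add_le_max _ _).trans
    (max_le ((IsUltrametricDist.norm_add_le_max _ _).trans (max_le a1 a2)) a3)

/-- a unit of norm one on the annulus restricts to a unit of norm one -/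
theorem isU_resA {u : AN k c} (h0 : ‖u.1.co 0‖ = 1) (h1 : ∀ n, ‖u.1.co n‖ ≤ 1)
    (h2 : ∀ n, ‖u.1.co n‖ * ‖c‖ ^ n ≤ 1) :
    IsU k (resA hk hc0 hc1 hα0 hcα hα hb u : PowerSeries C) := by
  have hα' : 0 < ‖α‖ := norm_pos_iff.2 hα0
  have hc' : 0 < ‖c‖ := norm_pos_iff.2 hc0
  refine ⟨(resA hk hc0 hc1 hα0 hcα hα hb u).2.1,
    norm_coeff_resA_le hk hc0 hc1 hα0 hcα hα hb (fun n _ => h1 n) (fun n _ => h2 n), ?_⟩
  have hz : ‖(0 : C)‖ < 1 := by rw [norm_zero]; exact one_pos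
  have e1 : PowerSeries.coeff 0 (resA hk hc0 hc1 hα0 hcα hα hb u : PowerSeries C) = evE α u.1 := by
    have h3 := evp_resA hk hc0 hc1 hα0 hcα hα hb u hz
    rw [mul_zero, add_zero] at h3
    rw [← h3]
    unfold evp
    rw [tsum_eq_single 0]
    · rw [pow_zero, mul_one]
    · intro n hn
      rw [zero_pow hn, mul_zero]
  set θ := max ‖α‖ (‖c‖ / ‖α‖) with hθ
  have hθ1 : θ < 1 := max_lt hα ((div_lt_one hα').2 hcα)
  have hθ0 : 0 ≤ θ := (norm_nonneg α).trans (le_max_left _ _)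
  have h4 : u.1 = (mo 0 (u.1.co 0) : EE k C) + (u.1 - mo 0 (u.1.co 0)) := by ring
  have hmo : InA c (mo 0 (u.1.co 0) : EE k C) := mo_mem_AN c 0 _
  have hsub : (u.1 - mo 0 (u.1.co 0) : EE k C) ∈ AN k c := sub_mem u.2 (mo_mem_AN c 0 _)
  have h5 : evE α u.1 = u.1.co 0 + evE α (u.1 - mo 0 (u.1.co 0) : EE k C) := by
    conv_lhs => rw [h4]
    rw [evE_add hcα hα hc0 hmo hsub, evE_mo, zpow_zero, mul_one]
  have h6 : ‖evE α (u.1 - mo 0 (u.1.co 0) : EE k C)‖ ≤ θ := by
    refine AnW_201.norm_evE_le fun n => ?_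
    rw [co_sub, co_mo]
    rcases lt_trichotomy n 0 with hn | rfl | hn
    · rw [if_neg hn.ne, sub_zero]
      have e2 : ‖u.1.co n‖ * ‖α‖ ^ n = (‖u.1.co n‖ * ‖c‖ ^ n) * (‖c‖ / ‖α‖) ^ (-n) := by
        rw [div_zpow, zpow_neg, zpow_neg]
        have := (zpow_pos hα' n).ne'
        have := (zpow_pos hc' n).ne'
        field_simp
      rw [e2]
      have h7 : (‖c‖ / ‖α‖) ^ (-n) ≤ ‖c‖ / ‖α‖ := by
        obtain ⟨m, hm⟩ : ∃ m : ℕ, -n = (m + 1 : ℕ) := ⟨(-n - 1).toNat, by omega⟩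
        rw [hm, zpow_natCast]
        exact pow_le_of_le_one (by positivity) ((div_lt_one hα').2 hcα).le (by omega)
      calc _ ≤ 1 * (‖c‖ / ‖α‖) := mul_le_mul (h2 n) h7 (zpow_nonneg (by positivity) _) zero_le_one
        _ = ‖c‖ / ‖α‖ := one_mul _
        _ ≤ θ := le_max_right _ _
    · rw [if_pos rfl, sub_self, norm_zero, zero_mul]; exact hθ0
    · rw [if_neg hn.ne', sub_zero]
      have h7 : ‖α‖ ^ n ≤ ‖α‖ := by
        obtain ⟨m, hm⟩ : ∃ m : ℕ, n = (m + 1 : ℕ) := ⟨(n - 1).toNat, by omega⟩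
        rw [hm, zpow_natCast]
        exact pow_le_of_le_one (norm_nonneg _) hα.le (by omega)
      calc _ ≤ 1 * ‖α‖ := mul_le_mul (h1 n) h7 (zpow_nonneg (norm_nonneg _) _) zero_le_one
        _ = ‖α‖ := one_mul _
        _ ≤ θ := le_max_left _ _
  rw [e1, h5]
  have h8 : ‖u.1.co 0‖ ≠ ‖evE α (u.1 - mo 0 (u.1.co 0) : EE k C)‖ := by
    rw [h0]; exact (h6.trans_lt hθ1).ne'
  rw [IsUltrametricDist.norm_add_eq_max_of_norm_ne_norm h8, h0, max_eq_left (h6.trans hθ1.le)]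

end resA

end Crest.Agent.R013.Sub_270
end
end

-- ▼ part R013/ResA2_270
section

/-! # R013 / ResA2_270 : restriction to a concentric sub-annulus, `T ↦ r T` : `AN c → AN c'`
(`|c| ≤ |r c'|`, `|r| ≤ 1`, `0 < |c'| < 1`). -/

set_option autoImplicit false
set_option linter.unusedSectionVars false
set_option linter.style.haveILetI false

noncomputable section

namespace Crest.Agent.R013.Sub_270

open Filter Topology Crest.Agent.R013.Cell_408 Crest.Agent.R013.EE809 Crest.Agent.R013.CAn_243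
open Crest.Agent.R013.AnW_201 (evE InA)

variable {k C : Type*} [NontriviallyNormedField k] [CompleteSpace k] [IsUltrametricDist k]
  [NormedField C] [IsUltrametricDist C] [NormedAlgebra k C] [Algebra.IsAlgebraic k C] [IsAlgClosed C]

/-- the conditions on a concentric restriction -/
structure Cc (c c' r : C) : Prop where
  c0 : c ≠ 0
  c'0 : c' ≠ 0
  c'1 : ‖c'‖ < 1
  r1 : ‖r‖ ≤ 1
  le : ‖c‖ ≤ ‖r * c'‖

namespace Cc

variable {c c' r : C}

theorem r0 (h : Cc c c' r) : r ≠ 0 := by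
  rintro rfl
  have := h.le
  rw [zero_mul, norm_zero] at this
  exact h.c0 (norm_le_zero_iff.1 this)

theorem lt (h : Cc c c' r) : ‖c‖ < ‖r‖ := by
  refine h.le.trans_lt ?_
  rw [norm_mul]
  calc ‖r‖ * ‖c'‖ < ‖r‖ * 1 := mul_lt_mul_of_pos_left h.c'1 (norm_pos_iff.2 h.r0)
    _ = ‖r‖ := mul_one _

theorem c1 (h : Cc c c' r) : ‖c‖ < 1 := h.lt.trans_le h.r1

/-- the series of `a (r T)` -/
def fn (h : Cc c c' r) (a : AN k c) : AN k c' :=
  ⟨mk' (fun n => a.1.co n * r ^ n)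
    (by
      obtain ⟨L, hL, h1, h2⟩ := a.1.fd.common (EE809.finDef_const (k := k) r)
      exact ⟨L, hL, fun n => mul_mem (h1 _) (zpow_mem (h2 ()) _)⟩)
    (by
      obtain ⟨M, hM, h2, h3⟩ := AN.bd2 a.2
      have h4 : Bdd ‖r‖ M a.1 := Bdd.interp (norm_pos_iff.2 h.c0) h.lt.le h.r1 h3 (fun n => by
        rw [one_zpow, mul_one]; exact h2 n)
      exact ⟨M, fun n => by rw [norm_mul, norm_zpow]; exact h4 n⟩)
    (by
      obtain ⟨M, hM⟩ := a.2
      have hc : 0 < ‖c‖ := norm_pos_iff.2 h.c0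
      have hr : 0 < ‖r‖ := norm_pos_iff.2 h.r0
      have h1 : Tendsto (fun n : ℤ => M * (‖c‖ / ‖r‖) ^ (-n)) atBot (𝓝 0) := by
        have h2 : Tendsto (fun n : ℕ => M * (‖c‖ / ‖r‖) ^ n) atTop (𝓝 (M * 0)) :=
          (tendsto_pow_atTop_nhds_zero_of_lt_one (by positivity)
            ((div_lt_one hr).2 h.lt)).const_mul M
        rw [mul_zero] at h2
        rw [Metric.tendsto_nhds] at h2 ⊢
        intro ε hε
        obtain ⟨N, hN⟩ := eventually_atTop.1 (h2 ε hε)
        rw [eventually_atBot]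
        refine ⟨-N, fun n hn => ?_⟩
        have h3 := hN (-n).toNat (by omega)
        have h4 : (((-n).toNat : ℕ) : ℤ) = -n := Int.toNat_of_nonneg (by omega)
        rw [← zpow_natCast, h4] at h3
        exact h3
      refine squeeze_zero_norm (fun n => ?_) h1
      rw [norm_mul, norm_zpow]
      have e2 : ‖a.1.co n‖ * ‖r‖ ^ n = (‖a.1.co n‖ * ‖c‖ ^ n) * (‖c‖ / ‖r‖) ^ (-n) := by
        rw [div_zpow, zpow_neg, zpow_neg]
        have := (zpow_pos hr n).ne'
        have := (zpow_pos hc n).ne'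
        field_simp
      rw [e2]
      exact mul_le_mul_of_nonneg_right (hM _) (zpow_nonneg (by positivity) _)),
   by
    obtain ⟨M, hM, h2, h3⟩ := AN.bd2 a.2
    have hle : ‖r * c'‖ ≤ 1 := by
      rw [norm_mul]; exact mul_le_one₀ h.r1 (norm_nonneg _) h.c'1.le
    have h4 : Bdd ‖r * c'‖ M a.1 := Bdd.interp (norm_pos_iff.2 h.c0) h.le hle h3 (fun n => by
      rw [one_zpow, mul_one]; exact h2 n)
    refine ⟨M, fun n => ?_⟩
    have := h4 n
    rw [norm_mul, mul_zpow] at this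
    rw [co_mk', norm_mul, norm_zpow, mul_assoc]
    exact this⟩

theorem co_fn (h : Cc c c' r) (a : AN k c) (n : ℤ) : (h.fn a).1.co n = a.1.co n * r ^ n := rfl

end Cc

variable {c c' r : C}

/-- **Restriction to a concentric sub-annulus** `T ↦ r T`. -/
def resAA (h : Cc c c' r) : AN k c →ₐ[C] AN k c' where
  toFun := h.fn
  map_one' := by
    apply Subtype.ext
    ext n
    rw [Cc.co_fn]
    change (1 : EE k C).co n * r ^ n = (1 : EE k C).co n
    rw [co_one]
    split_ifs with hn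
    · rw [hn]; simp
    · rw [zero_mul]
  map_mul' a b := by
    apply Subtype.ext
    ext n
    rw [MulMemClass.coe_mul, co_mul, Cc.co_fn, MulMemClass.coe_mul, co_mul, ← tsum_mul_right]
    refine tsum_congr fun i => ?_
    have e : r ^ n = r ^ i * r ^ (n - i) := by rw [← zpow_add₀ h.r0]; congr 1; ring
    rw [Cc.co_fn, Cc.co_fn, e]
    ring
  map_zero' := by
    apply Subtype.ext
    ext n
    rw [Cc.co_fn]
    change (0 : EE k C).co n * r ^ n = (0 : EE k C).co n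
    rw [co_zero, zero_mul]
  map_add' a b := by
    apply Subtype.ext
    ext n
    rw [AddMemClass.coe_add, co_add, Cc.co_fn, AddMemClass.coe_add, co_add, Cc.co_fn, Cc.co_fn,
      add_mul]
  commutes' x := by
    apply Subtype.ext
    ext n
    rw [Cc.co_fn]
    change (algebraMap C (EE k C) x).co n * r ^ n = (algebraMap C (EE k C) x).co n
    rw [co_algebraMap]
    split_ifs with hn
    · rw [hn]; simp
    · rw [zero_mul]

theorem co_resAA (h : Cc c c' r) (a : AN k c) (n : ℤ) : (resAA h a).1.co n = a.1.co n * r ^ n := rfl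

theorem evE_resAA (h : Cc c c' r) (a : AN k c) (t : C) : evE t (resAA h a).1 = evE (r * t) a.1 := by
  unfold evE
  refine tsum_congr fun n => ?_
  rw [co_resAA, mul_zpow]; ring

theorem resAA_mo (h : Cc c c' r) (n : ℤ) (x : C) :
    resAA h (⟨mo n x, mo_mem_AN c n x⟩ : AN k c) =
      (⟨mo n (x * r ^ n), mo_mem_AN c' _ _⟩ : AN k c') := by
  apply Subtype.ext
  ext m
  rw [co_resAA]
  change (mo n x : EE k C).co m * r ^ m = (mo n (x * r ^ n) : EE k C).co m
  rw [co_mo, co_mo]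
  by_cases hm : m = n
  · rw [if_pos hm, if_pos hm, hm]
  · rw [if_neg hm, if_neg hm, zero_mul]

theorem resAA_injective (h : Cc c c' r) : Function.Injective (resAA (k := k) h) := by
  intro a b hab
  apply Subtype.ext
  ext n
  have h1 := congrArg (fun x : AN k c' => x.1.co n) hab
  change (resAA h a).1.co n = (resAA h b).1.co n at h1
  rw [co_resAA, co_resAA] at h1
  exact mul_right_cancel₀ (zpow_ne_zero n h.r0) h1


section field

variable [hk : Fact (DiscNorm k)]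

/-- the restriction on `FA` -/
def resFAA (h : Cc c c' r) : FA k c →ₐ[C] FA k c' :=
  liftFA ((IsScalarTower.toAlgHom C (AN k c') (FA k c')).comp (resAA h))
    (fun _ _ hxy => resAA_injective h (algebraMap_FA_injective c' hxy))

theorem resFAA_algebraMap (h : Cc c c' r) (a : AN k c) :
    resFAA h (algebraMap (AN k c) (FA k c) a) = algebraMap (AN k c') (FA k c') (resAA h a) :=
  liftFA_algebraMap _ _ _

end field

end Crest.Agent.R013.Sub_270
end
end

-- ▼ part R013/ResA3_270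
section

/-! # R013 / ResA3_270 : points of annuli; injectivity of the restriction to discs -/

set_option autoImplicit false
set_option linter.unusedSectionVars false
set_option linter.style.haveILetI false

noncomputable section

namespace Crest.Agent.R013.Sub_270

open Filter Topology Crest.Agent.R013.Cell_408 Crest.Agent.R013.Clu_270 Crest.Agent.R013.Comp_267
  Crest.Agent.R013.Good_408 Crest.Agent.R013.EE809 Crest.Agent.R013.CAn_243
open Crest.Agent.R013.AnW_201 (evE InA evE_add evE_mul evE_mo summable_evE lin Fac exists_fac inA_lin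
  evE_lin IsUA)

variable {k C : Type*} [NontriviallyNormedField k] [CompleteSpace k] [IsUltrametricDist k]
  [NormedField C] [IsUltrametricDist C] [NormedAlgebra k C] [Algebra.IsAlgebraic k C] [IsAlgClosed C]

variable {c : C}

/-- finitely many zeros -/
theorem finite_zerosA (hk : DiscNorm k) (hc0 : c ≠ 0) (hc1 : ‖c‖ < 1) {a : EE k C} (ha : InA c a)
    (h0 : a ≠ 0) : {t : C | ‖c‖ < ‖t‖ ∧ ‖t‖ < 1 ∧ evE t a = 0}.Finite := by
  classical
  obtain ⟨F⟩ := exists_fac hk hc0 hc1 ha h0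
  refine (F.S.toFinset.finite_toSet).subset ?_
  rintro t ⟨h1, h2, h3⟩
  rw [Finset.mem_coe, Multiset.mem_toFinset]
  exact (F.evE_eq_zero hc0 h1 h2).1 h3

/-- a point of the annulus -/
theorem exists_mid (hc0 : c ≠ 0) (hc1 : ‖c‖ < 1) : ∃ α : C, ‖c‖ < ‖α‖ ∧ ‖α‖ < 1 := by
  obtain ⟨α, hα⟩ := IsAlgClosed.exists_pow_nat_eq c (n := 2) two_pos
  have hc' : 0 < ‖c‖ := norm_pos_iff.2 hc0
  have h1 : ‖α‖ ^ 2 = ‖c‖ := by rw [← norm_pow, hα]
  have h2 : ‖α‖ < 1 := by
    by_contra h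
    have : 1 ≤ ‖α‖ ^ 2 := one_le_pow₀ (not_lt.1 h)
    linarith
  have h3 : 0 < ‖α‖ := by
    rcases (norm_nonneg α).eq_or_lt with h | h
    · rw [← h] at h1; norm_num at h1; exact absurd h1.symm hc'.ne'
    · exact h
  exact ⟨α, by nlinarith, h2⟩

theorem infinite_image_disc {α b : C} (hb0 : b ≠ 0) {P : C → Prop}
    (h : ∀ t : C, ‖t‖ < 1 → P (α + b * t)) (k : Type*) [NontriviallyNormedField k] [NormedAlgebra k C] :
    {t : C | P t}.Infinite := by
  have hinj : Function.Injective fun t : C => α + b * t := fun x y hxy =>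
    mul_left_cancel₀ hb0 (add_left_cancel hxy)
  refine (((infinite_disc k C).image hinj.injOn).mono ?_)
  rintro _ ⟨t, ht, rfl⟩
  exact h t ht

/-- an element of `AN c` vanishing on a disc is zero -/
theorem eq_zero_of_disc (hk : DiscNorm k) (hc0 : c ≠ 0) (hc1 : ‖c‖ < 1) {α b : C} (hα0 : α ≠ 0)
    (hcα : ‖c‖ < ‖α‖) (hα : ‖α‖ < 1) (hb0 : b ≠ 0) (hb : ‖b‖ ≤ ‖α‖) {a : EE k C} (ha : InA c a)
    (h : ∀ t : C, ‖t‖ < 1 → evE (α + b * t) a = 0) : a = 0 := by
  by_contra h0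
  refine absurd (finite_zerosA hk hc0 hc1 ha h0) (Set.not_finite.2 ?_)
  refine infinite_image_disc (α := α) (b := b) hb0 (fun t ht => ?_) k
  have hsn : ‖α + b * t‖ = ‖α‖ := norm_aff_eq hα0 hb ht
  exact ⟨by rw [hsn]; exact hcα, by rw [hsn]; exact hα, h t ht⟩


theorem evE_const (t x : C) : evE t (algebraMap C (EE k C) x) = x := by
  have h1 := evE_mo (k := k) t 0 x
  rwa [zpow_zero, mul_one] at h1

theorem evE_sub {t : C} (hct : ‖c‖ < ‖t‖) (ht : ‖t‖ < 1) (hc0 : c ≠ 0) {a b : EE k C}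
    (ha : InA c a) (hb : InA c b) : evE t (a - b) = evE t a - evE t b := by
  have h := evE_add hct ht hc0 (ha.sub hb) hb
  rw [sub_add_cancel] at h
  rw [h, add_sub_cancel_right]

/-- elements of `AN c` are determined by their values -/
theorem evE_ext (hk : DiscNorm k) (hc0 : c ≠ 0) (hc1 : ‖c‖ < 1) {a b : AN k c}
    (h : ∀ t : C, ‖c‖ < ‖t‖ → ‖t‖ < 1 → evE t a.1 = evE t b.1) : a = b := by
  obtain ⟨α, h1, h2⟩ := exists_mid hc0 hc1
  have hα0 : α ≠ 0 := norm_pos_iff.1 ((norm_nonneg c).trans_lt h1)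
  have h3 : a.1 - b.1 = 0 := by
    refine eq_zero_of_disc hk hc0 hc1 hα0 h1 h2 hα0 le_rfl (InA.sub a.2 b.2) fun t ht => ?_
    have hsn : ‖α + α * t‖ = ‖α‖ := norm_aff_eq hα0 le_rfl ht
    rw [evE_sub (by rw [hsn]; exact h1) (by rw [hsn]; exact h2) hc0 a.2 b.2,
      h _ (by rw [hsn]; exact h1) (by rw [hsn]; exact h2), sub_self]
  exact Subtype.ext (sub_eq_zero.1 h3)

theorem lin_mem (c τ : C) : (lin τ : EE k C) ∈ AN k c := inA_lin c τ

/-- `C`-algebra homomorphisms `AN c → C` are evaluations -/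
theorem algHom_eq_evE (hk : DiscNorm k) (hc0 : c ≠ 0) (hc1 : ‖c‖ < 1) (φ : AN k c →ₐ[C] C)
    {s : C} (hs : φ (tA c) = s) (hcs : ‖c‖ < ‖s‖) (hs1 : ‖s‖ < 1) (g : AN k c) :
    φ g = evE s g.1 := by
  set x := evE s g.1 with hx
  by_cases h0 : g.1 - algebraMap C (EE k C) x = 0
  · have : g = algebraMap C (AN k c) x := Subtype.ext (sub_eq_zero.1 h0)
    rw [this, AlgHom.commutes]; rfl
  · have hc : InA c (algebraMap C (EE k C) x) := (AN k c).algebraMap_mem x
    have hg0 : InA c (g.1 - algebraMap C (EE k C) x) := InA.sub g.2 hc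
    obtain ⟨F⟩ := exists_fac hk hc0 hc1 hg0 h0
    obtain ⟨g', hg', hg'0, e⟩ := F.order hc0 hcs hs1
    have hev : evE s (g.1 - algebraMap C (EE k C) x) = 0 := by
      rw [evE_sub hcs hs1 hc0 g.2 hc, evE_const, hx, sub_self]
    set n := @Multiset.count _ (fun a b => Classical.propDecidable (a = b)) s F.S with hn
    rcases Nat.eq_zero_or_pos n with h1 | h1
    · rw [h1, pow_zero, one_mul] at e
      rw [e] at hev
      exact absurd hev hg'0
    · obtain ⟨m, hm⟩ : ∃ m, n = m + 1 := ⟨n - 1, by omega⟩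
      rw [hm, pow_succ'] at e
      have h2 : g = algebraMap C (AN k c) x +
          (tA c - algebraMap C (AN k c) s) *
            (⟨lin s, lin_mem c s⟩ ^ m * ⟨g', hg'⟩ : AN k c) := by
        apply Subtype.ext
        change g.1 = algebraMap C (EE k C) x + (lin s : EE k C) * (lin s ^ m * g')
        rw [← mul_assoc, ← e]; ring
      rw [h2, map_add, AlgHom.commutes, map_mul, map_sub, hs, AlgHom.commutes]
      change x + (s - s) * _ = x
      rw [sub_self, zero_mul, add_zero]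

section resA

variable {α b : C} (hk : DiscNorm k) (hc0 : c ≠ 0) (hc1 : ‖c‖ < 1) (hα0 : α ≠ 0) (hcα : ‖c‖ < ‖α‖)
    (hα : ‖α‖ < 1) (hb : ‖b‖ ≤ ‖α‖)

theorem resA_injective (hb0 : b ≠ 0) : Function.Injective (resA (k := k) hk hc0 hc1 hα0 hcα hα hb) := by
  rw [injective_iff_map_eq_zero]
  intro g hg
  refine Subtype.ext (eq_zero_of_disc hk hc0 hc1 hα0 hcα hα hb0 hb g.2 fun t ht => ?_)
  rw [← evp_resA hk hc0 hc1 hα0 hcα hα hb g ht, hg]
  exact (ev (k := k) t ht).map_zero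

end resA

section resFA

variable [hk : Fact (DiscNorm k)] {α b : C} (hc0 : c ≠ 0) (hc1 : ‖c‖ < 1) (hα0 : α ≠ 0)
    (hcα : ‖c‖ < ‖α‖) (hα : ‖α‖ < 1) (hb0 : b ≠ 0) (hb : ‖b‖ ≤ ‖α‖)

/-- restriction to the disc `α + b T` on `FA c` -/
def resFA : FA k c →ₐ[C] FD k C :=
  liftFA ((IsScalarTower.toAlgHom C (BD k C) (FD k C)).comp (resA hk.out hc0 hc1 hα0 hcα hα hb))
    (fun _ _ hxy => resA_injective hk.out hc0 hc1 hα0 hcα hα hb hb0
      (IsFractionRing.injective (BD k C) (FD k C) hxy))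

theorem resFA_algebraMap (a : AN k c) : resFA hc0 hc1 hα0 hcα hα hb0 hb (algebraMap (AN k c) (FA k c) a) =
    algebraMap (BD k C) (FD k C) (resA hk.out hc0 hc1 hα0 hcα hα hb a) :=
  liftFA_algebraMap _ _ _

end resFA

end Crest.Agent.R013.Sub_270
end
end

-- ▼ part R013/Sub5_270
section

/-! # R013 / Sub5_270 : the preimage of a disc in an annulus (S2), core.

`f = T^m u` maps `|c| < |T| < 1` onto `|c|^m < |y| < 1`; for a disc `y = al + r T`
(`|c|^m < |al| < 1`, `0 < |r| ≤ |al|`) the preimage is a disjoint union of discs `α_i + b_i T`. -/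

set_option autoImplicit false
set_option linter.unusedSectionVars false
set_option linter.style.haveILetI false

noncomputable section

namespace Crest.Agent.R013.Sub_270

open Filter Topology Crest.Agent.R013.Cell_408 Crest.Agent.R013.Clu_270 Crest.Agent.R013.Comp_267
  Crest.Agent.R013.Good_408 Crest.Agent.R013.EE809 Crest.Agent.R013.CAn_243
open Crest.Agent.R013.AnW_201 (evE InA evE_add evE_mul evE_mo summable_evE lin Fac exists_fac inA_lin
  evE_lin IsUA)

section clusters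

variable {C : Type*} [NormedField C] [IsUltrametricDist C] [IsAlgClosed C]

omit [IsUltrametricDist C] [IsAlgClosed C] in
theorem phi_scale (S : Multiset C) {t : C} (ht : t ≠ 0) (α : C) (ρ : ℝ) :
    phi S (t * α) (‖t‖ * ρ) = ‖t‖ ^ S.card * phi (S.map fun τ => τ / t) α ρ := by
  induction S using Multiset.induction_on with
  | empty => simp [phi_zero]
  | cons a S ih =>
    rw [phi_cons, ih, Multiset.map_cons, phi_cons, Multiset.card_cons, pow_succ]
    have e : t * α - a = t * (α - a / t) := by field_simp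
    rw [e, norm_mul, ← mul_max_of_nonneg _ _ (norm_nonneg t)]
    ring

/-- clusters for zeros of norm `≤ |t|` -/
theorem exists_clusters' (S : Multiset C) {t : C} (ht : t ≠ 0) (hS : ∀ τ ∈ S, ‖τ‖ ≤ ‖t‖) {r : C}
    (hr0 : r ≠ 0) (hr : ‖r‖ ≤ ‖t‖ ^ S.card) :
    ∃ (n : ℕ) (α b : Fin n → C), (∀ i, α i ∈ S) ∧ (∀ i, b i ≠ 0) ∧ (∀ i, ‖b i‖ ≤ ‖t‖) ∧
      (∀ i, phi S (α i) ‖b i‖ = ‖r‖) ∧
      (∀ τ ∈ S, ∃ i, ‖τ - α i‖ < ‖b i‖) ∧
      ∑ i, (S.countP fun τ => ‖τ - α i‖ < ‖b i‖) = S.card := by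
  classical
  have ht' : 0 < ‖t‖ := norm_pos_iff.2 ht
  have hr' : ‖r / t ^ S.card‖ ≤ 1 := by
    rw [norm_div, norm_pow]; exact (div_le_one (pow_pos ht' _)).2 hr
  obtain ⟨n, α, b, h1, h2, h3, h4, -, h6, h7⟩ := exists_clusters (S.map fun τ => τ / t)
    (fun τ hτ => by
      obtain ⟨σ, hσ, rfl⟩ := Multiset.mem_map.1 hτ
      rw [norm_div]; exact (div_le_one ht').2 (hS σ hσ))
    (div_ne_zero hr0 (pow_ne_zero S.card ht)) hr'
  have hiff : ∀ i τ, ‖τ - t * α i‖ < ‖t * b i‖ ↔ ‖τ / t - α i‖ < ‖b i‖ := by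
    intro i τ
    have e : τ - t * α i = t * (τ / t - α i) := by field_simp
    rw [e, norm_mul, norm_mul]
    exact mul_lt_mul_iff_right₀ ht'
  refine ⟨n, fun i => t * α i, fun i => t * b i, fun i => ?_, fun i => mul_ne_zero ht (h2 i),
    fun i => ?_, fun i => ?_, fun τ hτ => ?_, ?_⟩
  · obtain ⟨σ, hσ, h⟩ := Multiset.mem_map.1 (h1 i)
    have : t * α i = σ := by rw [← h]; field_simp
    change t * α i ∈ S
    rw [this]; exact hσ
  · rw [norm_mul]
    exact mul_le_of_le_one_right ht'.le (h3 i)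
  · rw [norm_mul, phi_scale S ht, h4 i, norm_div, norm_pow]
    field_simp
  · obtain ⟨i, hi⟩ := h6 (τ / t) (Multiset.mem_map.2 ⟨τ, hτ, rfl⟩)
    exact ⟨i, (hiff i τ).2 hi⟩
  · rw [Multiset.card_map] at h7
    rw [← h7]
    refine Finset.sum_congr rfl fun i _ => ?_
    rw [Multiset.countP_map, Multiset.countP_eq_card_filter]
    congr 1
    refine Multiset.filter_congr fun τ _ => ?_
    exact hiff i τ

end clusters

variable {k C : Type*} [NontriviallyNormedField k] [CompleteSpace k] [IsUltrametricDist k]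
  [NormedField C] [IsUltrametricDist C] [NormedAlgebra k C] [Algebra.IsAlgebraic k C] [IsAlgClosed C]

variable {c : C}

theorem tA_poly (P : Polynomial C) {α b : C} (hk : DiscNorm k) (hc0 : c ≠ 0) (hc1 : ‖c‖ < 1)
    (hα0 : α ≠ 0) (hcα : ‖c‖ < ‖α‖) (hα : ‖α‖ < 1) (hb : ‖b‖ ≤ ‖α‖) :
    resA hk hc0 hc1 hα0 hcα hα hb (Polynomial.aeval (tA c) P) =
      comp (aff α b) (co_aff (k := k) hα (hb.trans hα.le)) (Polynomial.aeval bX P) := by
  rw [← Polynomial.aeval_algHom_apply, ← Polynomial.aeval_algHom_apply, resA_tA]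
  congr 2
  exact (comp_X (aff α b) (co_aff (k := k) hα (hb.trans hα.le))).symm

theorem aeval_tA_rootPoly (S : Multiset C) :
    ((Polynomial.aeval (tA c : AN k c) (rootPoly S) : AN k c) : EE k C) = (S.map lin).prod := by
  unfold rootPoly
  rw [map_multiset_prod, Multiset.map_map]
  have h2 := map_multiset_prod (AN k c).val
    (S.map (Polynomial.aeval (tA c : AN k c) ∘ fun τ => Polynomial.X - Polynomial.C τ))
  rw [Multiset.map_map] at h2
  refine h2.trans ?_
  congr 1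
  refine Multiset.map_congr rfl fun τ _ => ?_
  simp only [Function.comp_apply, map_sub, Polynomial.aeval_X, Polynomial.aeval_C]
  rfl

section WAf

variable [hk : Fact (DiscNorm k)]

/-- the value of `f = T^m u` -/
theorem norm_evE_WA (hc0 : c ≠ 0) (hc1 : ‖c‖ < 1) {f : EE k C} {m : ℤ} (hf : WA c f m) {s : C}
    (hcs : ‖c‖ < ‖s‖) (hs : ‖s‖ < 1) : ‖evE s f‖ = ‖s‖ ^ m := by
  obtain ⟨u, v, hu, hv, huv, e, -⟩ := hf.dvd hc0 hc1
  have hu' : IsUA c u := ⟨hu.le, fun n => by simpa using hu.leA n, hu.one⟩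
  have hv' : IsUA c v := ⟨hv.le, fun n => by simpa using hv.leA n, hv.one⟩
  rw [e, evE_mul hcs hs hc0 (T_mem_AN c m) hu'.inA, evE_T, norm_mul, norm_zpow,
    AnW_201.norm_evE_unit hc0 hcs hs hu' hv' huv, mul_one]

/-- the zeros of `f - al` -/
theorem exists_fac_sub (hc0 : c ≠ 0) (hc1 : ‖c‖ < 1) {f : EE k C} {m : ℕ} (hm : m ≠ 0)
    (hf : WA c f m) {al : C} (hal : ‖c‖ ^ m < ‖al‖) (hal1 : ‖al‖ < 1) :
    ∃ F : Fac c (f - algebraMap C (EE k C) al), F.N = 0 ∧ F.S.card = m ∧ ‖F.A‖ = 1 ∧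
      ∀ τ ∈ F.S, ‖τ‖ ^ m = ‖al‖ := by
  have hc' : 0 < ‖c‖ := norm_pos_iff.2 hc0
  have hmZ : (m : ℤ) ≠ 0 := by exact_mod_cast hm
  have hmpos : (0 : ℤ) < m := by exact_mod_cast Nat.pos_of_ne_zero hm
  set f0 : EE k C := f - algebraMap C (EE k C) al with hf0
  have hco : ∀ n, n ≠ 0 → f0.co n = f.co n := by
    intro n hn
    rw [hf0, co_sub, co_algebraMap, if_neg hn, sub_zero]
  have hf00 : ‖f.co 0‖ < ‖al‖ := by
    have := hf.leA 0
    rw [zpow_zero, mul_one, zpow_natCast] at this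
    exact this.trans_lt hal
  have hco0 : ‖f0.co 0‖ = ‖al‖ := by
    rw [hf0, co_sub, co_algebraMap, if_pos rfl, sub_eq_add_neg,
      IsUltrametricDist.norm_add_eq_max_of_norm_ne_norm (by rw [norm_neg]; exact hf00.ne), norm_neg,
      max_eq_right hf00.le]
  have hle : ∀ n, ‖f0.co n‖ ≤ 1 := by
    intro n
    by_cases hn : n = 0
    · rw [hn, hco0]; exact hal1.le
    · rw [hco n hn]; exact hf.le n
  have hone : ‖f0.co m‖ = 1 := by rw [hco m hmZ]; exact hf.one
  have hlt : ∀ n : ℤ, n < m → ‖f0.co n‖ < 1 := by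
    intro n hn
    by_cases hn0 : n = 0
    · rw [hn0, hco0]; exact hal1
    · rw [hco n hn0]; exact hf.lt hc0 hc1 hn
  have hgn : gn f0 = 1 := le_antisymm (gn_le hle) (by rw [← hone]; exact le_gn f0 _)
  have hod : od f0 = m := od_eq_of (by rw [hgn]; exact hone) (by rw [hgn]; exact hlt)
  have hin : InA c f0 := InA.sub hf.mem_AN ((AN k c).algebraMap_mem al)
  have hne : f0 ≠ 0 := by
    intro h
    rw [h, gn_zero] at hgn
    exact zero_ne_one hgn
  obtain ⟨F⟩ := exists_fac hk.out hc0 hc1 hin hne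
  have hfl : ∀ n, ‖(AnW_201.flip c hc0 hc1 f0 F.inA).co n‖ = ‖f0.co (-n)‖ * ‖c‖ ^ (-n) := by
    intro n
    rw [AnW_201.co_flip, norm_mul, norm_zpow]
  have hfl0 : ‖(AnW_201.flip c hc0 hc1 f0 F.inA).co 0‖ = ‖al‖ := by
    rw [hfl, neg_zero, zpow_zero, mul_one, hco0]
  have hfln : ∀ n, n ≠ 0 → ‖(AnW_201.flip c hc0 hc1 f0 F.inA).co n‖ < ‖al‖ := by
    intro n hn
    rw [hfl, hco _ (by omega)]
    have := hf.leA (-n)
    rw [zpow_natCast] at this
    exact this.trans_lt hal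
  have hgnf : gn (AnW_201.flip c hc0 hc1 f0 F.inA) = ‖al‖ := by
    refine le_antisymm (gn_le fun n => ?_) (by rw [← hfl0]; exact le_gn _ _)
    by_cases hn : n = 0
    · rw [hn, hfl0]
    · exact (hfln n hn).le
  have hodf : od (AnW_201.flip c hc0 hc1 f0 F.inA) = 0 :=
    od_eq_of (by rw [hgnf]; exact hfl0) (fun n hn => by rw [hgnf]; exact hfln n hn.ne)
  have hN : F.N = 0 := by
    have := F.od_flip hk.out hc0 hc1
    rw [hodf] at this
    omega
  have hcard : F.S.card = m := by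
    have := F.od_eq hk.out hc0 hc1
    rw [hod, hN, zero_add] at this
    exact_mod_cast this.symm
  refine ⟨F, hN, hcard, ?_, fun τ hτ => ?_⟩
  · rw [← F.gn_eq hk.out, hgn]
  · obtain ⟨h1, h2⟩ := F.hS τ hτ
    have h3 := (F.evE_eq_zero hc0 h1 h2).2 hτ
    rw [hf0, evE_sub h1 h2 hc0 hf.mem_AN ((AN k c).algebraMap_mem al), evE_const, sub_eq_zero] at h3
    have h4 := norm_evE_WA hc0 hc1 hf h1 h2
    rw [h3, zpow_natCast] at h4
    exact h4.symm

end WAf

/-- the disc `α + b T` lies in the annulus `|c| < |T| < 1` -/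
structure Dc (c α b : C) : Prop where
  c0 : c ≠ 0
  c1 : ‖c‖ < 1
  cα : ‖c‖ < ‖α‖
  α1 : ‖α‖ < 1
  b0 : b ≠ 0
  bα : ‖b‖ ≤ ‖α‖

namespace Dc

variable {α b : C}

theorem α0 (h : Dc c α b) : α ≠ 0 := norm_pos_iff.1 ((norm_nonneg c).trans_lt h.cα)

theorem b1 (h : Dc c α b) : ‖b‖ ≤ 1 := h.bα.trans h.α1.le

theorem norm_pt (h : Dc c α b) {t : C} (ht : ‖t‖ < 1) : ‖α + b * t‖ = ‖α‖ :=
  norm_aff_eq h.α0 h.bα ht

theorem lt_pt (h : Dc c α b) {t : C} (ht : ‖t‖ < 1) : ‖c‖ < ‖α + b * t‖ := by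
  rw [h.norm_pt ht]; exact h.cα

theorem pt_lt (h : Dc c α b) {t : C} (ht : ‖t‖ < 1) : ‖α + b * t‖ < 1 := by
  rw [h.norm_pt ht]; exact h.α1

end Dc

/-- restriction to the disc -/
def resD (hk : DiscNorm k) {α b : C} (h : Dc c α b) : AN k c →ₐ[C] BD k C :=
  resA hk h.c0 h.c1 h.α0 h.cα h.α1 h.bα

theorem evp_resD (hk : DiscNorm k) {α b : C} (h : Dc c α b) (g : AN k c) {t : C} (ht : ‖t‖ < 1) :
    evp t (resD hk h g : PowerSeries C) = evE (α + b * t) g.1 :=
  evp_resA hk h.c0 h.c1 h.α0 h.cα h.α1 h.bα g ht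

theorem hasW_isU {u : PowerSeries C} (hu : IsU k u) : HasW u 1 0 :=
  ⟨hu.le, hu.zero, fun n hn => absurd hn (Nat.not_lt_zero n)⟩

theorem hasW_C {x : C} (hx : ‖x‖ = 1) : HasW (PowerSeries.C x) 1 0 := by
  refine ⟨fun n => ?_, ?_, fun n hn => absurd hn (Nat.not_lt_zero n)⟩
  · rw [PowerSeries.coeff_C]
    split_ifs
    · exact hx.le
    · rw [norm_zero]; exact zero_le_one
  · rw [PowerSeries.coeff_C, if_pos rfl, hx]

/-- **The preimage of a disc** in an annulus. -/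
theorem exists_subA [hk : Fact (DiscNorm k)] (hc0 : c ≠ 0) (hc1 : ‖c‖ < 1) {f : EE k C} {m : ℕ}
    (hm : m ≠ 0) (hf : WA c f m) {al r : C} (hal : ‖c‖ ^ m < ‖al‖) (hal1 : ‖al‖ < 1) (hr0 : r ≠ 0)
    (hr : ‖r‖ ≤ ‖al‖) :
    ∃ (n : ℕ) (α b : Fin n → C) (hD : ∀ i, Dc c (α i) (b i)) (mm : Fin n → ℕ)
      (g : Fin n → PowerSeries C) (hg : ∀ i, WD k (g i) (mm i)) (hmm : ∀ i, mm i ≠ 0),
      ∑ i, mm i = m ∧ (∀ i, ‖α i‖ ^ m = ‖al‖) ∧
      (∀ i, (resD hk.out (hD i) ⟨f, hf.mem_AN⟩ : PowerSeries C) =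
        PowerSeries.C al + PowerSeries.C r * g i) ∧
      ∀ (e : Fin m → BD k C), (∀ i, ∑ s, comp (g i) (WD.co (hg i) (hmm i)) (e s) *
        (comp (aff (α i) (b i)) (co_aff (hD i).α1 (hD i).b1) bX) ^ (s : ℕ) = 0) → e = 0 := by
  classical
  obtain ⟨F, hN, hcard, hA, hroot⟩ := exists_fac_sub hc0 hc1 hm hf hal hal1
  obtain ⟨t0, ht0⟩ := IsAlgClosed.exists_pow_nat_eq al (n := m) (Nat.pos_of_ne_zero hm)
  have hal0 : al ≠ 0 := norm_pos_iff.1 ((pow_nonneg (norm_nonneg c) m).trans_lt hal)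
  have ht00 : t0 ≠ 0 := by
    rintro rfl
    rw [zero_pow hm] at ht0
    exact hal0 ht0.symm
  have hnt0 : ‖t0‖ ^ m = ‖al‖ := by rw [← norm_pow, ht0]
  have hrt : ∀ τ ∈ F.S, ‖τ‖ = ‖t0‖ := fun τ hτ =>
    (pow_left_inj₀ (norm_nonneg _) (norm_nonneg _) hm).1 ((hroot τ hτ).trans hnt0.symm)
  obtain ⟨n, α, b, hαS, hb0, hb, hphi, hcov, hsum⟩ := exists_clusters' F.S ht00
    (fun τ hτ => (hrt τ hτ).le) hr0 (by rw [hcard, hnt0]; exact hr)
  have hαn : ∀ i, ‖α i‖ = ‖t0‖ := fun i => hrt _ (hαS i)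
  have hD : ∀ i, Dc c (α i) (b i) := fun i =>
    ⟨hc0, hc1, (F.hS _ (hαS i)).1, (F.hS _ (hαS i)).2, hb0 i, by rw [hαn i]; exact hb i⟩
  let mm : Fin n → ℕ := fun i => F.S.countP fun τ => ‖τ - α i‖ < ‖b i‖
  have hmm : ∀ i, mm i ≠ 0 := fun i => by
    refine (Multiset.countP_pos.2 ⟨α i, hαS i, ?_⟩).ne'
    rw [sub_self, norm_zero]; exact norm_pos_iff.2 (hb0 i)
  -- `f - al` on the discs
  let f0 : AN k c := ⟨f, hf.mem_AN⟩ - algebraMap C (AN k c) al
  let uA : AN k c := ⟨F.u, F.hu.inA⟩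
  have hf0 : f0 = algebraMap C (AN k c) F.A * Polynomial.aeval (tA c) (rootPoly F.S) * uA := by
    apply Subtype.ext
    change f - algebraMap C (EE k C) al = algebraMap C (EE k C) F.A *
      ((Polynomial.aeval (tA c : AN k c) (rootPoly F.S) : AN k c) : EE k C) * F.u
    rw [aeval_tA_rootPoly]
    conv_lhs => rw [F.eq, hN]
    rfl
  let A : ∀ i, Co k (aff (α i) (b i)) := fun i => co_aff (hD i).α1 (hD i).b1
  have hres : ∀ i, resD hk.out (hD i) f0 = algebraMap C (BD k C) F.A *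
      comp (aff (α i) (b i)) (A i) (Polynomial.aeval bX (rootPoly F.S)) * resD hk.out (hD i) uA := by
    intro i
    rw [hf0, map_mul, map_mul, AlgHom.commutes]
    congr 2
    exact tA_poly _ hk.out (hD i).c0 (hD i).c1 (hD i).α0 (hD i).cα (hD i).α1 (hD i).bα
  have hU : ∀ i, IsU k (resD hk.out (hD i) uA : PowerSeries C) := fun i =>
    isU_resA hk.out (hD i).c0 (hD i).c1 (hD i).α0 (hD i).cα (hD i).α1 (hD i).bα F.hu.zero F.hu.le
      F.hu.le'
  have hW : ∀ i, HasW (resD hk.out (hD i) f0 : PowerSeries C) ‖r‖ (mm i) := by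
    intro i
    have e1 : (resD hk.out (hD i) f0 : PowerSeries C) = PowerSeries.C F.A *
        compS (aff (α i) (b i)) (rootPoly F.S : PowerSeries C) *
          (resD hk.out (hD i) uA : PowerSeries C) := by
      rw [hres i]
      change PowerSeries.C F.A * compS (aff (α i) (b i))
        ((Polynomial.aeval bX (rootPoly F.S) : BD k C) : PowerSeries C) * _ = _
      rw [coe_aeval_bX]
    rw [e1]
    have h1 := ((hasW_C hA).mul (hasW_comp_roots k (hD i).α1 (hb0 i) (hD i).b1 F.S) one_pos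
      (phi_pos F.S _ (norm_pos_iff.2 (hb0 i)))).mul (hasW_isU (hU i))
      (by rw [one_mul]; exact phi_pos F.S _ (norm_pos_iff.2 (hb0 i))) one_pos
    rw [one_mul, mul_one, zero_add, add_zero, hphi i] at h1
    exact h1
  let g : Fin n → PowerSeries C := fun i =>
    PowerSeries.C r⁻¹ * (resD hk.out (hD i) f0 : PowerSeries C)
  have hgW : ∀ i, HasW (g i) 1 (mm i) := by
    intro i
    have h2 := (hW i).smul (inv_ne_zero hr0)
    rwa [norm_inv, inv_mul_cancel₀ (norm_ne_zero_iff.2 hr0)] at h2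
  have hgB : ∀ i, g i ∈ BD k C := fun i =>
    mul_mem (C_mem_BD _) (resD hk.out (hD i) f0).2
  have hg : ∀ i, WD k (g i) (mm i) := fun i => ⟨(hgB i).1, (hgW i).le, (hgW i).eq, (hgW i).lt⟩
  have hrel : ∀ i, (resD hk.out (hD i) f0 : PowerSeries C) = PowerSeries.C r * g i := by
    intro i
    change _ = PowerSeries.C r * (PowerSeries.C r⁻¹ * _)
    rw [← mul_assoc, ← map_mul, mul_inv_cancel₀ hr0, map_one, one_mul]
  refine ⟨n, α, b, hD, mm, g, hg, hmm, hsum.trans hcard, fun i => by rw [hαn i, hnt0], ?_, ?_⟩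
  · intro i
    rw [← hrel i]
    have h1 : resD hk.out (hD i) f0 = resD hk.out (hD i) ⟨f, hf.mem_AN⟩ -
        algebraMap C (BD k C) al := by
      change resD hk.out (hD i) (⟨f, hf.mem_AN⟩ - algebraMap C (AN k c) al) = _
      rw [map_sub, AlgHom.commutes]
    rw [h1]
    change _ = PowerSeries.C al + ((resD hk.out (hD i) ⟨f, hf.mem_AN⟩ : PowerSeries C) -
      PowerSeries.C al)
    ring
  · intro e he
    refine indep_of_dvd hcard α b (fun i => (hD i).α1) (fun i => (hD i).b1) hb0 hcov g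
      (fun i => WD.co (hg i) (hmm i)) (fun i => (hgW i).ne_zero one_pos) (fun i => ?_) e he
    have h4 : comp (aff (α i) (b i)) (A i) (Polynomial.aeval bX (rootPoly F.S)) ∣
        bC r * (⟨g i, (WD.co (hg i) (hmm i)).mem⟩ : BD k C) := by
      have h5 : bC r * (⟨g i, (WD.co (hg i) (hmm i)).mem⟩ : BD k C) = resD hk.out (hD i) f0 :=
        Subtype.ext (hrel i).symm
      rw [h5, hres i, mul_assoc, mul_comm (algebraMap C (BD k C) F.A), mul_assoc]
      exact dvd_mul_right _ _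
    refine h4.trans ⟨bC r⁻¹, ?_⟩
    have h5 : (bC r : BD k C) * bC r⁻¹ = 1 := by
      rw [bC_eq, bC_eq, ← map_mul, mul_inv_cancel₀ hr0, map_one]
    calc (⟨g i, (WD.co (hg i) (hmm i)).mem⟩ : BD k C) =
          (bC r * bC r⁻¹) * (⟨g i, (WD.co (hg i) (hmm i)).mem⟩ : BD k C) := by rw [h5, one_mul]
      _ = bC r * (⟨g i, (WD.co (hg i) (hmm i)).mem⟩ : BD k C) * bC r⁻¹ := by ring

/-- compatibility with the composition -/
theorem resD_comp [hk : Fact (DiscNorm k)] {c' : C} (hc0 : c ≠ 0) (hc1 : ‖c‖ < 1) {f : EE k C} {m : ℕ}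
    (hf : WA c' f m) (Φ : AN k c →ₐ[C] AN k c') (hΦ : Φ (tA c) = ⟨f, hf.mem_AN⟩)
    {al r : C} (hD0 : Dc c al r) {α b : C} (hD : Dc c' α b)
    {g : PowerSeries C} {mm : ℕ} (hg : WD k g mm) (hmm : mm ≠ 0)
    (hrel : (resD hk.out hD ⟨f, hf.mem_AN⟩ : PowerSeries C) =
        PowerSeries.C al + PowerSeries.C r * g) (x : AN k c) :
    resD hk.out hD (Φ x) = comp g (WD.co hg hmm) (resD hk.out hD0 x) := by
  refine Subtype.ext (evp_ext' hk.out (Subtype.mem _) (Subtype.mem _) fun t ht => ?_)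
  have hgt : ‖evp t g‖ < 1 := (WD.co hg hmm).norm_evp ht
  have h0 : evE (α + b * t) f = al + r * evp t g := by
    have h1 := evp_resD hk.out hD ⟨f, hf.mem_AN⟩ ht
    rw [hrel, evp_add (k := k) (C_mem_BD al) (mul_mem (C_mem_BD r) (WD.co hg hmm).mem) ht,
      evp_mul (k := k) (C_mem_BD r) (WD.co hg hmm).mem ht, evp_C, evp_C] at h1
    exact h1.symm
  have h2 := algHom_eq_evE hk.out hc0 hc1 (((AnW_201.evA (k := k) hD.c0 (α + b * t) (hD.lt_pt ht)
    (hD.pt_lt ht)).comp (Subalgebra.inclusion (fun _ h => h : AN k c' ≤ AnW_201.AN k C c'))).comp Φ)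
    (s := al + r * evp t g) (by
      rw [AlgHom.comp_apply, hΦ]
      exact h0) (hD0.lt_pt hgt) (hD0.pt_lt hgt) x
  rw [evp_resD hk.out hD _ ht, evp_comp hk.out (WD.co hg hmm) _ ht, evp_resD hk.out hD0 _ hgt]
  exact h2

end Crest.Agent.R013.Sub_270
end
end

-- ▼ part R013/Sub4_270
section

/-! # R013 / Sub4_270 : heredity of good discs (S1), (SInf). -/

set_option autoImplicit false
set_option linter.unusedSectionVars false
set_option linter.style.haveILetI false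

noncomputable section

namespace Crest.Agent.R013.Sub_270

open Module Topology Crest.Agent.R013.Cell_408 Crest.Agent.R013.Clu_270 Crest.Agent.R013.Comp_267
  Crest.Agent.R013.Good_408

theorem transc_map {C A B : Type*} [Field C] [Field A] [Field B] [Algebra C A] [Algebra C B]
    (f : A →ₐ[C] B) {y : A} (h : Transcendental C y) : Transcendental C (f y) := fun hy =>
  h ((isAlgebraic_algHom_iff f (RingHom.injective f.toRingHom)).1 hy)

variable (k C : Type*) [NontriviallyNormedField k] [CompleteSpace k] [IsUltrametricDist k]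
  [NormedField C] [IsUltrametricDist C] [NormedAlgebra k C] [Algebra.IsAlgebraic k C]
  [IsAlgClosed C] [hk : Fact (DiscNorm k)]
variable (K : Type*) [Field K] [Algebra C K] [Algebra (RatFunc C) K]
    [IsScalarTower C (RatFunc C) K] [FiniteDimensional (RatFunc C) K]

variable {k C K} in
/-- a good disc restricts to the subdisc `c + r T` -/
theorem GoodD.sub {y : FD k C} (h : GoodD k C K y) {c r : C} (hc : ‖c‖ < 1) (hr0 : r ≠ 0)
    (hr : ‖r‖ ≤ 1) : GoodD k C K (resF hk.out hc hr0 hr y) := by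
  obtain ⟨D⟩ := h
  have hcard : Fintype.card (Fin (finrank (RatFunc C) K)) = finrank (RatFunc C) K := Fintype.card_fin _
  let b := Module.finBasis (RatFunc C) K
  have hinj := D.inj _ b b.linearIndependent
  obtain ⟨J', hJ', p, m', hm', f', hf', α, β, hα, hβ0, hβ, hsum, hrel, hcomp, hinj'⟩ :=
    sub_disc hk.out b D.m D.m_ne D.f D.wd (fun j => (D.io j).toRingHom)
      (by rw [D.sum_m, hcard]) hinj hc hr0 hr
  have ht : Transcendental C (resF hk.out hc hr0 hr y) := transc_map _ D.transc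
  have hx : ∀ j, ((resF hk.out (hα j) (hβ0 j) (hβ j)).comp (D.io (p j)))
      (algebraMap (RatFunc C) K RatFunc.X) =
      compF hk.out (hf' j) (hm' j) (resF hk.out hc hr0 hr y) := by
    intro j
    rw [AlgHom.comp_apply, D.hx, hcomp]
  exact GoodD.mk' _ ht J' m' f' hf' hm'
    (fun j => (resF hk.out (hα j) (hβ0 j) (hβ j)).comp (D.io (p j))) hx
    (by rw [hsum, hcard]) b b.linearIndependent hcard hinj'

variable {C} in
theorem resF_discY (a ρ : C) {c r : C} (hc : ‖c‖ < 1) (hr0 : r ≠ 0) (hr : ‖r‖ ≤ 1) :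
    resF hk.out hc hr0 hr (discY k C a ρ) = discY k C (a + ρ * c) (ρ * r) := by
  rw [discY, discY, map_add, map_mul, AlgHom.commutes, AlgHom.commutes, resF_TF, map_add, map_mul,
    map_mul]
  ring

variable {C} in
theorem resF_infY (ρ : C) {r : C} (hr0 : r ≠ 0) (hr : ‖r‖ ≤ 1) :
    resF hk.out (by rw [norm_zero]; exact one_pos) hr0 hr (infY k C ρ) = infY k C (ρ / r) := by
  rw [infY, infY, map_mul, map_inv₀, AlgHom.commutes, resF_TF, map_zero, zero_add, map_div₀,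
    mul_inv]
  ring

variable {C}

/-- **(S1)** -/
theorem goodDisc_sub {a ρ a' ρ' : C} (h : GoodDisc k C K a ρ) (ha : ‖a' - a‖ < ‖ρ‖) (h0 : ρ' ≠ 0)
    (hρ : ‖ρ'‖ ≤ ‖ρ‖) : GoodDisc k C K a' ρ' := by
  have hρ0 : ρ ≠ 0 := by
    rintro rfl
    rw [norm_zero] at ha
    exact absurd ha (not_lt.2 (norm_nonneg _))
  have hpos : 0 < ‖ρ‖ := norm_pos_iff.2 hρ0
  have hc : ‖(a' - a) / ρ‖ < 1 := by rw [norm_div, div_lt_one hpos]; exact ha
  have hr : ‖ρ' / ρ‖ ≤ 1 := by rw [norm_div, div_le_one hpos]; exact hρ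
  have h1 := GoodD.sub h hc (div_ne_zero h0 hρ0) hr
  rw [resF_discY] at h1
  have e1 : a + ρ * ((a' - a) / ρ) = a' := by field_simp; ring
  have e2 : ρ * (ρ' / ρ) = ρ' := by field_simp
  rw [e1, e2] at h1
  exact h1

/-- **(SInf)** -/
theorem goodInf_sub {ρ ρ' : C} (h : GoodInf k C K ρ) (hρ : ‖ρ‖ ≤ ‖ρ'‖) : GoodInf k C K ρ' := by
  have hρ0 : ρ ≠ 0 := by
    rintro rfl
    obtain ⟨D⟩ := h
    apply D.transc
    rw [infY, map_zero, zero_mul]
    exact isAlgebraic_zero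
  have hpos : 0 < ‖ρ‖ := norm_pos_iff.2 hρ0
  have hpos' : 0 < ‖ρ'‖ := hpos.trans_le hρ
  have hρ0' : ρ' ≠ 0 := norm_pos_iff.1 hpos'
  have hr : ‖ρ / ρ'‖ ≤ 1 := by rw [norm_div, div_le_one hpos']; exact hρ
  have h1 := GoodD.sub h (by rw [norm_zero]; exact one_pos) (div_ne_zero hρ0 hρ0') hr
  rw [resF_infY] at h1
  have e1 : ρ / (ρ / ρ') = ρ' := by field_simp
  rw [e1] at h1
  exact h1

end Crest.Agent.R013.Sub_270
end
end

-- ▼ part R013/Sub6_270
section

/-! # R013 / Sub6_270 : heredity of good annuli, preparations: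
values of composites, independence of `1, T, .., T^(m-1)` over `compE`, compatibilities on `FA`. -/

set_option autoImplicit false
set_option linter.unusedSectionVars false
set_option linter.style.haveILetI false

noncomputable section

namespace Crest.Agent.R013.Sub_270

open Module Filter Topology Crest.Agent.R013.Cell_408 Crest.Agent.R013.Clu_270
  Crest.Agent.R013.Comp_267 Crest.Agent.R013.Good_408 Crest.Agent.R013.EE809 Crest.Agent.R013.CAn_243
open Crest.Agent.R013.AnW_201 (evE InA evE_add evE_mul evE_mo summable_evE lin Fac exists_fac inA_lin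
  evE_lin IsUA)

variable {k C : Type*} [NontriviallyNormedField k] [CompleteSpace k] [IsUltrametricDist k]
  [NormedField C] [IsUltrametricDist C] [NormedAlgebra k C] [Algebra.IsAlgebraic k C] [IsAlgClosed C]
  [hk : Fact (DiscNorm k)]

variable {c c' : C}

section comp

variable {f : EE k C} {m : ℕ} (hc0 : c ≠ 0) (hc1 : ‖c‖ < 1) (hc0' : c' ≠ 0) (hc1' : ‖c'‖ < 1)
  (hf : WA c' f m) (hm : m ≠ 0) (hcc : ‖c'‖ ^ m = ‖c‖)

theorem compA_tA : compA hc0' hc1' hf hm hcc (tA c) = ⟨f, hf.mem_AN⟩ := by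
  apply Subtype.ext
  rw [coe_compA]
  exact compE_T_one _ _

include hc0 hc1 in
/-- the value of a composite -/
theorem evE_compA {s : C} (hcs : ‖c'‖ < ‖s‖) (hs : ‖s‖ < 1) (g : AN k c) :
    evE s (compA hc0' hc1' hf hm hcc g).1 = evE (evE s f) g.1 := by
  have hn : ‖evE s f‖ = ‖s‖ ^ m := by
    rw [norm_evE_WA hc0' hc1' hf hcs hs, zpow_natCast]
  have hc'' : 0 ≤ ‖c'‖ := norm_nonneg _
  have h1 : ‖c‖ < ‖evE s f‖ := by
    rw [hn, ← hcc]; exact pow_lt_pow_left₀ hcs hc'' hm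
  have h2 : ‖evE s f‖ < 1 := by
    rw [hn]; exact pow_lt_one₀ (norm_nonneg _) hs hm
  have h3 := algHom_eq_evE hk.out hc0 hc1 (((AnW_201.evA (k := k) hc0' s hcs hs).comp
    (Subalgebra.inclusion (fun _ h => h : AN k c' ≤ AnW_201.AN k C c'))).comp
      (compA hc0' hc1' hf hm hcc)) (s := evE s f) (by
      rw [AlgHom.comp_apply, compA_tA]
      rfl) h1 h2 g
  exact h3

end comp

/-! ### independence over `compE` -/

theorem norm_sum_lt' {C : Type*} [NormedField C] [IsUltrametricDist C] {ι : Type*} (s : Finset ι)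
    (x : ι → C) {M : ℝ} (hM : 0 < M) (h : ∀ i ∈ s, ‖x i‖ < M) : ‖∑ i ∈ s, x i‖ < M := by
  classical
  induction s using Finset.induction_on with
  | empty => rw [Finset.sum_empty, norm_zero]; exact hM
  | insert i s hi ih =>
    rw [Finset.sum_insert hi]
    exact (IsUltrametricDist.norm_add_le_max _ _).trans_lt (max_lt (h i (Finset.mem_insert_self _ _))
      (ih fun j hj => h j (Finset.mem_insert_of_mem hj)))

theorem indep_compE {f : EE k C} {m : ℕ} (h : WE f m) (hm : m ≠ 0) (A : Fin m → EE k C)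
    (h0 : ∑ i, compE f h hm (A i) * T (i : ℕ) = 0) : A = 0 := by
  classical
  by_contra hne
  have hne' : ∃ i, A i ≠ 0 := by
    by_contra hcon
    push Not at hcon
    exact hne (funext hcon)
  obtain ⟨i1, hi1⟩ := hne'
  -- the maximal norm
  obtain ⟨i2, -, hmax⟩ := Finset.exists_max_image (Finset.univ : Finset (Fin m)) (fun i => gn (A i))
    ⟨i1, Finset.mem_univ _⟩
  set M := gn (A i2) with hM
  have hMpos : 0 < M := (gn_pos hi1).trans_le (hmax i1 (Finset.mem_univ _))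
  let X : Fin m → EE k C := fun i => compE f h hm (A i) * T (i : ℕ)
  have hTne : ∀ n : ℤ, (T n : EE k C) ≠ 0 := fun n hT => by
    have := congrArg (fun z : EE k C => z.co n) hT
    simp only [EE809.T, co_mo, if_pos, co_zero] at this
    exact one_ne_zero this
  have hgT : ∀ n : ℤ, gn (T n : EE k C) = 1 := fun n => by rw [EE809.T, gn_mo, norm_one]
  have hoT : ∀ n : ℤ, od (T n : EE k C) = n := fun n => by
    rw [EE809.T, mo, od_mono _ _ one_ne_zero]
  have hgX : ∀ i, gn (X i) = gn (A i) := fun i => by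
    change gn (compE f h hm (A i) * T (i : ℕ)) = _
    rw [gn_mul hk.out, gn_compE, hgT, mul_one]
  have hoX : ∀ i, A i ≠ 0 → od (X i) = m * od (A i) + i := fun i hi => by
    change od (compE f h hm (A i) * T (i : ℕ)) = _
    rw [od_mul hk.out (compE_ne_zero h hm hi) (hTne _), od_compE, hoT]
  have hXne : ∀ i, A i ≠ 0 → X i ≠ 0 := fun i hi h' => by
    have := hgX i
    rw [h', gn_zero] at this
    exact hi (gn_eq_zero.1 this.symm)
  let B : Finset (Fin m) := Finset.univ.filter fun i => gn (A i) = M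
  have hBne : B.Nonempty := ⟨i2, by simp [B, hM]⟩
  obtain ⟨i0, hi0B, hmin⟩ := Finset.exists_min_image B (fun i => od (X i)) hBne
  have hi0 : gn (A i0) = M := (Finset.mem_filter.1 hi0B).2
  have hAne : ∀ i, gn (A i) = M → A i ≠ 0 := fun i hi h' => by
    rw [h', gn_zero] at hi; exact hMpos.ne hi
  set n0 := od (X i0) with hn0
  have h1 : ‖(X i0).co n0‖ = M := by
    rw [hn0, norm_co_od hk.out (hXne i0 (hAne i0 hi0)), hgX, hi0]
  have h2 : ∀ i, i ≠ i0 → ‖(X i).co n0‖ < M := by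
    intro i hi
    rcases (hmax i (Finset.mem_univ _)).eq_or_lt with h3 | h3
    · have hAi := hAne i h3
      have hle := hmin i (Finset.mem_filter.2 ⟨Finset.mem_univ _, h3⟩)
      have hneq : od (X i) ≠ od (X i0) := by
        rw [hoX i hAi, hoX i0 (hAne i0 hi0)]
        intro heq
        apply hi
        have h4 : ((i : ℕ) : ℤ) % m = ((i0 : ℕ) : ℤ) % m := by
          have e1 : ((i : ℕ) : ℤ) = (i0 : ℕ) + m * (od (A i0) - od (A i)) := by linarith
          rw [e1, Int.add_mul_emod_self_left]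
        rw [Int.emod_eq_of_lt (by positivity) (by exact_mod_cast i.2),
          Int.emod_eq_of_lt (by positivity) (by exact_mod_cast i0.2)] at h4
        exact Fin.ext (by exact_mod_cast h4)
      have hlt : n0 < od (X i) := lt_of_le_of_ne hle (fun h' => hneq h'.symm)
      have := norm_lt_of_lt_od (hXne i hAi) hlt
      rwa [hgX, h3] at this
    · exact (le_gn (X i) n0).trans_lt (by rw [hgX]; exact h3)
  have h3 : ∑ i, (X i).co n0 = 0 := by
    have := congrArg (fun z : EE k C => z.co n0) h0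
    simp only [co_finset_sum, co_zero] at this
    exact this
  rw [← Finset.add_sum_erase _ _ (Finset.mem_univ i0)] at h3
  have h4 : ‖∑ i ∈ Finset.univ.erase i0, (X i).co n0‖ < M :=
    norm_sum_lt' _ _ hMpos fun i hi => h2 i (Finset.ne_of_mem_erase hi)
  rw [eq_neg_of_add_eq_zero_left h3, norm_neg] at h1
  exact h4.ne h1

end Crest.Agent.R013.Sub_270
end
end

-- ▼ part R013/CAn8_243
section

/-!
# Row 13, leaf COMP-AN (helper243), file 8: `AN c'` is spanned by `1, T, …, T^(m-1)` over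
`compE f (AN c)` (`WA c' f m`, `|c'|^m = |c|`)
-/

set_option autoImplicit false
set_option linter.unusedSectionVars false
open Filter Topology
open Crest.Agent.R013.Cell_408 (FinDef DiscNorm exists_max BD)
open Crest.Agent.R013.EE809

namespace Crest.Agent.R013.CAn_243

variable {k : Type*} [NontriviallyNormedField k] [CompleteSpace k]
variable {C : Type*} [NormedField C] [IsUltrametricDist C] [NormedAlgebra k C]

/-- bounds pass to limits taken at another radius -/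
theorem Bdd.limit_of {ρ ρ' M : ℝ} (hρ : 0 < ρ) (hρ' : 0 < ρ') {S : EE k C} {s : ℕ → EE k C}
    {r : ℕ → ℝ} (hr : Tendsto r atTop (𝓝 0)) (h1 : ∀ t, Bdd ρ (r t) (S - s t))
    (h2 : ∀ t, Bdd ρ' M (s t)) : Bdd ρ' M S := by
  intro n
  have hM := (h2 0).nonneg hρ'
  have h3 : Tendsto (fun t => max (r t * (ρ ^ n)⁻¹ * ρ' ^ n) M) atTop
      (𝓝 (max (0 * (ρ ^ n)⁻¹ * ρ' ^ n) M)) :=
    ((hr.mul_const _).mul_const _).max tendsto_const_nhds
  rw [zero_mul, zero_mul, max_eq_right hM] at h3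
  refine ge_of_tendsto' h3 fun t => ?_
  have h0 : 0 ≤ ρ' ^ n := zpow_nonneg hρ'.le n
  have h4 : S.co n = (S - s t).co n + (s t).co n := by rw [co_sub]; ring
  have h5 : ‖(S - s t).co n‖ ≤ r t * (ρ ^ n)⁻¹ := by
    rw [← div_eq_mul_inv, le_div_iff₀ (zpow_pos hρ n)]
    exact h1 t n
  rw [h4]
  calc ‖(S - s t).co n + (s t).co n‖ * ρ' ^ n
      ≤ max ‖(S - s t).co n‖ ‖(s t).co n‖ * ρ' ^ n :=
        mul_le_mul_of_nonneg_right (IsUltrametricDist.norm_add_le_max _ _) h0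
    _ = max (‖(S - s t).co n‖ * ρ' ^ n) (‖(s t).co n‖ * ρ' ^ n) := max_mul_of_nonneg _ _ h0
    _ ≤ max (r t * (ρ ^ n)⁻¹ * ρ' ^ n) M :=
        max_le_max (mul_le_mul_of_nonneg_right h5 h0) (h2 t n)

variable [Algebra.IsAlgebraic k C] [IsUltrametricDist k] [IsAlgClosed C] [hk : Fact (DiscNorm k)]

/-- `compE` and the finite level -/
theorem InL.compE {L : IntermediateField k C} [FiniteDimensional k L] {f g : EE k C} {m : ℕ}
    (hf : InL L f) (hg : InL L g) (h : WE f m) (hm : m ≠ 0) : InL L (compE f h hm g) := fun j => by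
  rw [co_compE]
  exact tsum_mem_of L fun n => mul_mem (hg n) (InL.zpow hf n j)

section one

variable {c : C} {U : EE k C}

theorem one_add_zpow_bdd (hc0 : c ≠ 0) (hc1 : ‖c‖ < 1) (hU : WA c U 0) {ρ θ : ℝ} (hρ1 : ‖c‖ ≤ ρ)
    (hρ2 : ρ ≤ 1) (hθ : 0 ≤ θ) (h : Bdd ρ θ (U - 1)) (q : ℤ) : Bdd ρ θ (U ^ q - 1) := by
  have hρ : 0 < ρ := (norm_pos_iff.2 hc0).trans_le hρ1
  have b1 : ∀ q : ℤ, Bdd ρ 1 (U ^ q) := fun q => by
    have := (hU.zpow hc0 hc1 q).bdd hc0 hρ1 hρ2
    rwa [zero_mul, zpow_zero] at this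
  have hn : ∀ n : ℕ, Bdd ρ θ (U ^ n - 1) := by
    intro n
    induction n with
    | zero => rw [pow_zero, sub_self]; exact Bdd.zero hθ
    | succ n ih =>
      have e : U ^ (n + 1) - 1 = U ^ n * (U - 1) + (U ^ n - 1) := by ring
      rw [e]
      refine Bdd.add hρ ?_ ih
      have := (b1 n).mul hρ h
      rwa [one_mul, zpow_natCast] at this
  cases q with
  | ofNat n => rw [Int.ofNat_eq_natCast, zpow_natCast]; exact hn n
  | negSucc n =>
    have e : U ^ (Int.negSucc n) - 1 = -(U ^ (Int.negSucc n) * (U ^ (n + 1) - 1)) := by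
      rw [mul_sub, mul_one, zpow_negSucc, inv_mul_cancel₀ (pow_ne_zero _ hU.ne_zero)]
      ring
    rw [e]
    have := (b1 (Int.negSucc n)).mul hρ (hn (n + 1))
    rw [one_mul] at this
    exact this.neg

/-- the unit part is close to its constant term at interior radii -/
theorem WA.bdd_sub_one (hc0 : c ≠ 0) (hU : WA c U 0) (hU0 : U.co 0 = 1) {ρ : ℝ}
    (hρ1 : ‖c‖ < ρ) (hρ2 : ρ < 1) : Bdd ρ (max ρ (‖c‖ / ρ)) (U - 1) := by
  have hc : 0 < ‖c‖ := norm_pos_iff.2 hc0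
  have hρ : 0 < ρ := hc.trans hρ1
  have hyn : ∀ n, (U - 1).co n = if n = 0 then 0 else U.co n := by
    intro n
    rw [co_sub, co_one]
    split_ifs with hn
    · rw [hn, hU0, sub_self]
    · rw [sub_zero]
  intro n
  rw [hyn]
  rcases lt_trichotomy n 0 with hn | hn | hn
  · rw [if_neg hn.ne]
    have e1 := hU.leA n
    rw [zpow_zero] at e1
    obtain ⟨i, hi⟩ := Int.eq_ofNat_of_zero_le (show 0 ≤ -n - 1 by omega)
    have hn' : n = -((i : ℤ) + 1) := by omega
    have e2 : ρ ^ n = ‖c‖ ^ n * (‖c‖ / ρ) ^ (i + 1) := by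
      have e3 : (‖c‖ / ρ) ^ (i + 1) = (ρ ^ n) * (‖c‖ ^ n)⁻¹ := by
        rw [← zpow_natCast, ← zpow_neg, div_zpow, hn']
        push_cast
        rw [neg_neg, zpow_neg, div_eq_mul_inv, mul_comm]
      rw [e3, mul_comm, mul_assoc, inv_mul_cancel₀ (zpow_pos hc n).ne', mul_one]
    rw [e2, ← mul_assoc]
    have e4 : (‖c‖ / ρ) ^ (i + 1) ≤ ‖c‖ / ρ :=
      pow_le_of_le_one (by positivity) ((div_lt_one hρ).2 hρ1).le (by omega)
    calc ‖U.co n‖ * ‖c‖ ^ n * (‖c‖ / ρ) ^ (i + 1) ≤ 1 * (‖c‖ / ρ) :=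
          mul_le_mul e1 e4 (by positivity) zero_le_one
      _ ≤ _ := by rw [one_mul]; exact le_max_right _ _
  · rw [if_pos hn, norm_zero, zero_mul]
    exact le_max_of_le_left hρ.le
  · rw [if_neg hn.ne']
    obtain ⟨i, hi⟩ := Int.eq_ofNat_of_zero_le (show 0 ≤ n - 1 by omega)
    have hn' : n = ((i + 1 : ℕ) : ℤ) := by push_cast; omega
    rw [hn', zpow_natCast, ← hn']
    calc ‖U.co n‖ * ρ ^ (i + 1) ≤ 1 * ρ :=
          mul_le_mul (hU.le n) (pow_le_of_le_one hρ.le hρ2.le (by omega)) (by positivity) zero_le_one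
      _ ≤ _ := by rw [one_mul]; exact le_max_left _ _

end one

variable {c c' : C} {f : EE k C} {m : ℕ}

/-- `v T^m` -/
noncomputable def lead (f : EE k C) (m : ℕ) : EE k C := mo m (f.co m)

theorem lead_wa (h : WA c' f m) : WA c' (lead f m) m := by
  have := (WA.T (k := k) c' m).smul h.one
  rwa [← mo_eq] at this

theorem lead_zpow (f : EE k C) (m : ℕ) (n : ℤ) : (lead f m) ^ n = mo (m * n) (f.co m ^ n) := by
  rw [lead, mo_eq, mul_zpow, T_eq_zpow, ← zpow_mul, ← T_eq_zpow, ← map_zpow₀, mo_eq]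

/-- the difference `f^n - (v T^m)^n` at an interior radius -/
theorem zpow_sub_lead (hc0 : c' ≠ 0) (hc1 : ‖c'‖ < 1) (h : WA c' f m) {ρ : ℝ}
    (hρ1 : ‖c'‖ < ρ) (hρ2 : ρ < 1) (n : ℤ) :
    Bdd ρ (max ρ (‖c'‖ / ρ) * ρ ^ ((m : ℤ) * n)) ((lead f m) ^ n - f ^ n) := by
  have hc : 0 < ‖c'‖ := norm_pos_iff.2 hc0
  have hρ : 0 < ρ := hc.trans hρ1
  have hl := lead_wa h
  set U : EE k C := f * (lead f m)⁻¹ with hU
  have hUw : WA c' U 0 := by
    have := h.mul hc0 hc1 (hl.inv hc0 hc1)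
    rwa [add_neg_cancel] at this
  have hv : f.co m ≠ 0 := by rw [← norm_pos_iff, h.one]; exact one_pos
  have hU0 : U.co 0 = 1 := by
    have e : (lead f m)⁻¹ = mo (-m) (f.co m)⁻¹ := by
      have := lead_zpow f m (-1)
      rwa [zpow_neg_one, mul_neg_one, zpow_neg_one] at this
    rw [hU, e, mul_comm, co_mo_mul, zero_sub, neg_neg, inv_mul_cancel₀ hv]
  have h1 := one_add_zpow_bdd hc0 hc1 hUw hρ1.le hρ2.le (le_max_of_le_left hρ.le)
    (WA.bdd_sub_one hc0 hUw hU0 hρ1 hρ2) n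
  have h2 := (hl.zpow hc0 hc1 n).bdd hc0 hρ1.le hρ2.le
  have e : (lead f m) ^ n - f ^ n = -((U ^ n - 1) * (lead f m) ^ n) := by
    rw [hU, mul_zpow, inv_zpow, sub_mul, inv_mul_cancel_right₀ (zpow_ne_zero n hl.ne_zero)]
    ring
  rw [e]
  exact (h1.mul hρ h2).neg

/-- comparison of the compositions -/
theorem compE_sub_lead (hc0 : c' ≠ 0) (hc1 : ‖c'‖ < 1) (h : WA c' f m) (hm : m ≠ 0) {ρ N : ℝ}
    (hρ1 : ‖c'‖ < ρ) (hρ2 : ρ < 1) {a : EE k C} (ha : Bdd (ρ ^ m) N a) :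
    Bdd ρ (max ρ (‖c'‖ / ρ) * N)
      (compE (lead f m) ((lead_wa h).we hc0 hc1) hm a - compE f (h.we hc0 hc1) hm a) := by
  have hc : 0 < ‖c'‖ := norm_pos_iff.2 hc0
  have hρ : 0 < ρ := hc.trans hρ1
  have hN : 0 ≤ N := ha.nonneg (pow_pos hρ m)
  have hθ : 0 ≤ max ρ (‖c'‖ / ρ) := le_max_of_le_left hρ.le
  intro j
  have h0 : 0 < ρ ^ j := zpow_pos hρ j
  rw [← le_div_iff₀ h0, co_sub, co_compE, co_compE,
    ← ((hasSum_compE ((lead_wa h).we hc0 hc1) hm a j).summable.tsum_sub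
      (hasSum_compE (h.we hc0 hc1) hm a j).summable)]
  refine IsUltrametricDist.norm_tsum_le_of_forall_le_of_nonneg (by positivity) fun n => ?_
  rw [le_div_iff₀ h0, ← mul_sub, norm_mul]
  have h3 := zpow_sub_lead hc0 hc1 h hρ1 hρ2 n j
  rw [co_sub] at h3
  have h4 : (ρ : ℝ) ^ ((m : ℤ) * n) = (ρ ^ m) ^ n := by rw [zpow_mul, zpow_natCast]
  rw [h4] at h3
  calc ‖a.co n‖ * ‖(lead f m ^ n).co j - (f ^ n).co j‖ * ρ ^ j
      = ‖a.co n‖ * (‖(lead f m ^ n).co j - (f ^ n).co j‖ * ρ ^ j) := by ring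
    _ ≤ ‖a.co n‖ * (max ρ (‖c'‖ / ρ) * (ρ ^ m) ^ n) := mul_le_mul_of_nonneg_left h3 (norm_nonneg _)
    _ = max ρ (‖c'‖ / ρ) * (‖a.co n‖ * (ρ ^ m) ^ n) := by ring
    _ ≤ max ρ (‖c'‖ / ρ) * N := mul_le_mul_of_nonneg_left (ha n) hθ

/-- the components of `g` with respect to `v T^m` -/
noncomputable def cmp (f : EE k C) {m : ℕ} (hm : m ≠ 0) (hv : ‖f.co m‖ = 1) (i : ℕ) (g : EE k C) :
    EE k C :=
  mk' (fun q => g.co (i + m * q) * (f.co m) ^ (-q))
    (by
      obtain ⟨L, hL, h1, h2⟩ := g.fd.common f.fd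
      exact ⟨L, hL, fun q => mul_mem (h1 _) (zpow_mem (h2 _) _)⟩)
    (by
      obtain ⟨M, hM⟩ := g.bd
      exact ⟨M, fun q => by rw [norm_mul, norm_zpow, hv, one_zpow, mul_one]; exact hM _⟩)
    (by
      rw [Metric.tendsto_nhds]
      intro ε hε
      obtain ⟨K, hK0, hK⟩ := g.small hε
      rw [eventually_atBot]
      refine ⟨-K - i - 1, fun q hq => ?_⟩
      rw [dist_zero_right, norm_mul, norm_zpow, hv, one_zpow, mul_one]
      apply hK
      have h1 : (1 : ℤ) ≤ m := by exact_mod_cast Nat.one_le_iff_ne_zero.2 hm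
      have h2 : (m : ℤ) * q ≤ q := by nlinarith
      omega)

section cmp

variable (hm : m ≠ 0) (hv : ‖f.co m‖ = 1)

theorem co_cmp (i : ℕ) (g : EE k C) (q : ℤ) :
    (cmp f hm hv i g).co q = g.co (i + m * q) * (f.co m) ^ (-q) := rfl

theorem cmp_L {L : IntermediateField k C} (hf : InL L f) {g : EE k C} (hg : InL L g) (i : ℕ) :
    InL L (cmp f hm hv i g) := fun q => by
  rw [co_cmp]; exact mul_mem (hg _) (zpow_mem (hf _) _)

theorem cmp_bdd1 {M : ℝ} {g : EE k C} (hg : Bdd 1 M g) (i : ℕ) : Bdd 1 M (cmp f hm hv i g) := by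
  intro q
  rw [co_cmp, norm_mul, norm_zpow, hv, one_zpow, mul_one, one_zpow, mul_one]
  have := hg (i + m * q)
  rwa [one_zpow, mul_one] at this

theorem cmp_bdd {ρ N : ℝ} (hρ : 0 < ρ) {g : EE k C} (hg : Bdd ρ N g) (i : ℕ) :
    Bdd (ρ ^ m) (N * (ρ ^ i)⁻¹) (cmp f hm hv i g) := by
  intro q
  rw [co_cmp, norm_mul, norm_zpow, hv, one_zpow, mul_one, ← div_eq_mul_inv, le_div_iff₀ (pow_pos hρ i)]
  have h1 := hg (i + m * q)
  rw [zpow_add₀ hρ.ne', zpow_natCast, zpow_mul, zpow_natCast] at h1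
  calc ‖g.co (i + m * q)‖ * (ρ ^ m) ^ q * ρ ^ i = ‖g.co (i + m * q)‖ * (ρ ^ i * (ρ ^ m) ^ q) := by ring
    _ ≤ N := h1

/-- the model: `g = ∑ T^i (cmp i g)(v T^m)` -/
theorem sum_cmp (hc0 : c' ≠ 0) (hc1 : ‖c'‖ < 1) (h : WA c' f m) (g : EE k C) :
    ∑ i ∈ Finset.range m, T i * compE (lead f m) ((lead_wa h).we hc0 hc1) hm (cmp f hm hv i g) = g := by
  ext l
  have hm' : (0 : ℤ) < m := by exact_mod_cast Nat.pos_of_ne_zero hm
  have hv0 : f.co m ≠ 0 := by rw [← norm_pos_iff, hv]; exact one_pos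
  -- the coefficient of one summand
  have key : ∀ i : ℕ, (T (i : ℤ) * compE (lead f m) ((lead_wa h).we hc0 hc1) hm
      (cmp f hm hv i g)).co l = if (m : ℤ) ∣ (l - i) then g.co l else 0 := by
    intro i
    rw [co_T_mul, co_compE]
    have e1 : ∀ n : ℤ, (cmp f hm hv i g).co n * (lead f m ^ n).co (l - i) =
        if l - i = m * n then g.co l else 0 := by
      intro n
      rw [lead_zpow f m, co_mo, co_cmp]
      split_ifs with h1
      · rw [mul_assoc, ← zpow_add₀ hv0, neg_add_cancel, zpow_zero, mul_one]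
        congr 1
        omega
      · rw [mul_zero]
    simp only [e1]
    split_ifs with h1
    · obtain ⟨q, hq⟩ := h1
      rw [tsum_eq_single q]
      · rw [if_pos hq]
      · intro n hn
        rw [if_neg]
        rw [hq]
        intro h2
        exact hn (mul_left_cancel₀ hm'.ne' h2).symm
    · have e2 : ∀ n : ℤ, (if l - i = m * n then g.co l else 0) = 0 := fun n =>
        if_neg fun h2 => h1 ⟨n, h2⟩
      simp only [e2, tsum_zero]
  rw [co_finset_sum]
  simp only [key]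
  -- the unique index
  have hi0 : 0 ≤ l % m := Int.emod_nonneg l hm'.ne'
  have hi1 : l % m < m := Int.emod_lt_of_pos l hm'
  rw [Finset.sum_eq_single (l % m).toNat]
  · rw [if_pos]
    rw [Int.toNat_of_nonneg hi0]
    exact Int.dvd_self_sub_emod
  · intro i hi hne
    rw [if_neg]
    intro hd
    apply hne
    rw [Finset.mem_range] at hi
    have h3 : (m : ℤ) ∣ (l % m - i) := by
      have := Int.dvd_self_sub_emod (x := l) (m := m)
      have h4 := dvd_sub hd this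
      have h5 : l - ↑i - (l - l % ↑m) = l % m - i := by ring
      rwa [h5] at h4
    have h6 : l % m - i = 0 := by
      refine Int.eq_zero_of_abs_lt_dvd h3 ?_
      rw [abs_lt]
      constructor <;> omega
    omega
  · intro hni
    exfalso
    apply hni
    rw [Finset.mem_range]
    omega

end cmp

/-- the remainder -/
noncomputable def rem (hc0 : c' ≠ 0) (hc1 : ‖c'‖ < 1) (h : WA c' f m) (hm : m ≠ 0) (g : EE k C) :
    EE k C :=
  g - ∑ i ∈ Finset.range m, T i * compE f (h.we hc0 hc1) hm (cmp f hm h.one i g)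

theorem rem_L (hc0 : c' ≠ 0) (hc1 : ‖c'‖ < 1) (h : WA c' f m) (hm : m ≠ 0)
    {L : IntermediateField k C} [FiniteDimensional k L] (hf : InL L f) {g : EE k C}
    (hg : InL L g) : InL L (rem hc0 hc1 h hm g) :=
  hg.sub (InL.sum _ fun i _ => (InL.T L _).mul
    (CAn_243.InL.compE hf (cmp_L hm h.one hf hg i) _ hm))

theorem rem_bdd (hc0 : c' ≠ 0) (hc1 : ‖c'‖ < 1) (h : WA c' f m) (hm : m ≠ 0) {ρ N : ℝ}
    (hρ1 : ‖c'‖ ≤ ρ) (hρ2 : ρ ≤ 1) {g : EE k C} (hg : Bdd ρ N g) :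
    Bdd ρ N (rem hc0 hc1 h hm g) := by
  have hρ : 0 < ρ := (norm_pos_iff.2 hc0).trans_le hρ1
  have hN := hg.nonneg hρ
  refine hg.sub hρ (Bdd.sum hρ hN _ fun i _ => ?_)
  have h1 := compE_bdd hm (h.we hc0 hc1) h hc0 hc1 hρ1 hρ2 (cmp_bdd hm h.one hρ hg i)
  have h2 := (Bdd.mo hρ (i : ℤ) (1 : C) (k := k)).mul hρ h1
  rw [norm_one, one_mul, zpow_natCast, mul_comm N, mul_inv_cancel_left₀ (pow_pos hρ i).ne'] at h2
  exact h2

theorem rem_small (hc0 : c' ≠ 0) (hc1 : ‖c'‖ < 1) (h : WA c' f m) (hm : m ≠ 0) {ρ N : ℝ}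
    (hρ1 : ‖c'‖ < ρ) (hρ2 : ρ < 1) {g : EE k C} (hg : Bdd ρ N g) :
    Bdd ρ (max ρ (‖c'‖ / ρ) * N) (rem hc0 hc1 h hm g) := by
  have hρ : 0 < ρ := (norm_pos_iff.2 hc0).trans hρ1
  have hN := hg.nonneg hρ
  have hθ : 0 ≤ max ρ (‖c'‖ / ρ) := le_max_of_le_left hρ.le
  have e : rem hc0 hc1 h hm g = ∑ i ∈ Finset.range m, T i *
      (compE (lead f m) ((lead_wa h).we hc0 hc1) hm (cmp f hm h.one i g) -
        compE f (h.we hc0 hc1) hm (cmp f hm h.one i g)) := by
    have hs := sum_cmp hm h.one hc0 hc1 h g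
    simp only [mul_sub]
    rw [Finset.sum_sub_distrib, hs, rem]
  rw [e]
  refine Bdd.sum hρ (mul_nonneg hθ hN) _ fun i _ => ?_
  have h1 := compE_sub_lead hc0 hc1 h hm hρ1 hρ2 (cmp_bdd hm h.one hρ hg i)
  have h2 := (Bdd.mo hρ (i : ℤ) (1 : C) (k := k)).mul hρ h1
  rw [norm_one, one_mul, zpow_natCast] at h2
  have e2 : ρ ^ i * (max ρ (‖c'‖ / ρ) * (N * (ρ ^ i)⁻¹)) = max ρ (‖c'‖ / ρ) * N := by
    have := (pow_pos hρ i).ne'
    field_simp
  rw [e2] at h2
  exact h2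

/-! ### the iteration -/

section iter

variable (hc0 : c' ≠ 0) (hc1 : ‖c'‖ < 1) (h : WA c' f m) (hm : m ≠ 0)

/-- the iterated remainders -/
noncomputable def rems (g : EE k C) : ℕ → EE k C
  | 0 => g
  | t + 1 => rem hc0 hc1 h hm (rems g t)

/-- partial sums of the components -/
noncomputable def psum (g : EE k C) (i : ℕ) (t : ℕ) : EE k C :=
  ∑ s ∈ Finset.range t, cmp f hm h.one i (rems hc0 hc1 h hm g s)

theorem rems_L {L : IntermediateField k C} [FiniteDimensional k L] (hf : InL L f) {g : EE k C}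
    (hg : InL L g) (t : ℕ) : InL L (rems hc0 hc1 h hm g t) := by
  induction t with
  | zero => exact hg
  | succ t ih => exact rem_L hc0 hc1 h hm hf ih

theorem rems_bdd {ρ N : ℝ} (hρ1 : ‖c'‖ ≤ ρ) (hρ2 : ρ ≤ 1) {g : EE k C} (hg : Bdd ρ N g) (t : ℕ) :
    Bdd ρ N (rems hc0 hc1 h hm g t) := by
  induction t with
  | zero => exact hg
  | succ t ih => exact rem_bdd hc0 hc1 h hm hρ1 hρ2 ih

theorem rems_small {ρ N : ℝ} (hρ1 : ‖c'‖ < ρ) (hρ2 : ρ < 1) {g : EE k C} (hg : Bdd ρ N g) (t : ℕ) :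
    Bdd ρ ((max ρ (‖c'‖ / ρ)) ^ t * N) (rems hc0 hc1 h hm g t) := by
  induction t with
  | zero => rw [pow_zero, one_mul]; exact hg
  | succ t ih =>
    have := rem_small hc0 hc1 h hm hρ1 hρ2 ih
    rw [← mul_assoc, ← pow_succ'] at this
    exact this

theorem rems_eq (g : EE k C) (t : ℕ) :
    g = ∑ i ∈ Finset.range m, T i * compE f (h.we hc0 hc1) hm (psum hc0 hc1 h hm g i t) +
      rems hc0 hc1 h hm g t := by
  induction t with
  | zero =>
    have : ∀ i : ℕ, psum hc0 hc1 h hm g i 0 = 0 := fun i => by rw [psum, Finset.sum_range_zero]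
    simp only [this, map_zero, mul_zero, Finset.sum_const_zero, zero_add]
    rfl
  | succ t ih =>
    have e1 : ∀ i : ℕ, psum hc0 hc1 h hm g i (t + 1) =
        psum hc0 hc1 h hm g i t + cmp f hm h.one i (rems hc0 hc1 h hm g t) := fun i => by
      rw [psum, Finset.sum_range_succ]; rfl
    have e2 : rems hc0 hc1 h hm g (t + 1) = rem hc0 hc1 h hm (rems hc0 hc1 h hm g t) := rfl
    simp only [e1, map_add, mul_add]
    rw [Finset.sum_add_distrib, e2, rem]
    conv_lhs => rw [ih]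
    ring

/-- **representation** on the annulus -/
theorem exists_repr_AN (hcc : ‖c'‖ ^ m = ‖c‖) (L : IntermediateField k C) [FiniteDimensional k L]
    (hf : InL L f) {g : EE k C} (hg : InL L g) {M M' : ℝ} (h1 : Bdd 1 M g) (h2 : Bdd ‖c'‖ M' g) :
    ∃ A : ℕ → EE k C, (∀ i, InL L (A i)) ∧ (∀ i, Bdd 1 M (A i)) ∧
      (∀ i, Bdd ‖c‖ (M' * (‖c'‖ ^ i)⁻¹) (A i)) ∧
      g = ∑ i ∈ Finset.range m, T i * compE f (h.we hc0 hc1) hm (A i) := by
  have hc : 0 < ‖c'‖ := norm_pos_iff.2 hc0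
  have hb0 : c ≠ 0 := by
    intro h0
    rw [h0, norm_zero] at hcc
    exact pow_ne_zero _ hc.ne' hcc
  have hb1 : ‖c‖ < 1 := by rw [← hcc]; exact pow_lt_one₀ (norm_nonneg _) hc1 hm
  have hb : 0 < ‖c‖ := norm_pos_iff.2 hb0
  have hM0 : 0 ≤ M := h1.nonneg one_pos
  have hM0' : 0 ≤ M' := h2.nonneg hc
  obtain ⟨ρ, hρ1, hρ2⟩ := exists_between hc1
  have hρ : 0 < ρ := hc.trans hρ1
  set θ : ℝ := max ρ (‖c'‖ / ρ) with hθ
  have hθ0 : 0 ≤ θ := le_max_of_le_left hρ.le
  have hθ1 : θ < 1 := max_lt hρ2 ((div_lt_one hρ).2 hρ1)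
  set N : ℝ := max M M' with hN
  have hgN : Bdd ρ N g := Bdd.interp hc hρ1.le hρ2.le (h2.le (le_max_right _ _))
    (h1.le (le_max_left _ _))
  have hN0 : 0 ≤ N := hM0.trans (le_max_left _ _)
  have hρm : 0 < ρ ^ m := pow_pos hρ m
  have htend : Tendsto (fun t : ℕ => θ ^ t) atTop (𝓝 0) :=
    tendsto_pow_atTop_nhds_zero_of_lt_one hθ0 hθ1
  -- bounds of the partial sums
  have b1 : ∀ i t, Bdd 1 M (psum hc0 hc1 h hm g i t) := fun i t =>
    Bdd.sum one_pos hM0 _ fun s _ => cmp_bdd1 hm h.one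
      (rems_bdd hc0 hc1 h hm hc1.le le_rfl h1 s) i
  have b2 : ∀ i t, Bdd ‖c‖ (M' * (‖c'‖ ^ i)⁻¹) (psum hc0 hc1 h hm g i t) := fun i t =>
    Bdd.sum hb (by positivity) _ fun s _ => by
      rw [← hcc]
      exact cmp_bdd hm h.one hc (rems_bdd hc0 hc1 h hm le_rfl hc1.le h2 s) i
  have b3 : ∀ i t, InL L (psum hc0 hc1 h hm g i t) := fun i t =>
    InL.sum _ fun s _ => cmp_L hm h.one hf (rems_L hc0 hc1 h hm hf hg s) i
  have b4 : ∀ i t n, t ≤ n → Bdd (ρ ^ m) (θ ^ t * N * (ρ ^ i)⁻¹)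
      (psum hc0 hc1 h hm g i n - psum hc0 hc1 h hm g i t) := by
    intro i t n htn
    rw [psum, psum, ← Finset.sum_sdiff (Finset.range_mono htn), add_sub_cancel_right]
    refine Bdd.sum hρm (by positivity) _ fun s hs => ?_
    have h3 := cmp_bdd hm h.one hρ (rems_small hc0 hc1 h hm hρ1 hρ2 hgN s) i
    refine h3.le ?_
    simp only [Finset.mem_sdiff, Finset.mem_range, not_lt] at hs
    have h4 : θ ^ s ≤ θ ^ t := pow_le_pow_of_le_one hθ0 hθ1.le hs.2
    gcongr
  have b5 : ∀ i : ℕ, ∃ S : EE k C, InL L S ∧ Bdd 1 M S ∧ Bdd ‖c‖ (M' * (‖c'‖ ^ i)⁻¹) S ∧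
      ∀ t, Bdd (ρ ^ m) (θ ^ t * N * (ρ ^ i)⁻¹) (S - psum hc0 hc1 h hm g i t) := by
    intro i
    have htend' : Tendsto (fun t : ℕ => θ ^ t * N * (ρ ^ i)⁻¹) atTop (𝓝 0) := by
      have := (htend.mul_const N).mul_const (ρ ^ i)⁻¹
      rwa [zero_mul, zero_mul] at this
    obtain ⟨S, hS1, -, -, hS4⟩ := complete_AN L hb0 hb1 hρm (fun t => psum hc0 hc1 h hm g i t)
      (b3 i) (M := max M (M' * (‖c'‖ ^ i)⁻¹)) (fun t => (b1 i t).le (le_max_left _ _))
      (fun t => (b2 i t).le (le_max_right _ _)) _ htend' (b4 i)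
    exact ⟨S, hS1, Bdd.limit_of hρm one_pos htend' hS4 (b1 i),
      Bdd.limit_of hρm hb htend' hS4 (b2 i), hS4⟩
  choose A a1 a2 a3 a4 using b5
  refine ⟨A, a1, a2, a3, ?_⟩
  have htend2 : Tendsto (fun t : ℕ => θ ^ t * N) atTop (𝓝 0) := by
    have := htend.mul_const N
    rwa [zero_mul] at this
  rw [← sub_eq_zero]
  refine Bdd.eq_zero hρ htend2 fun t => ?_
  have e : g - ∑ i ∈ Finset.range m, T i * compE f (h.we hc0 hc1) hm (A i) =
      rems hc0 hc1 h hm g t - ∑ i ∈ Finset.range m, T i * compE f (h.we hc0 hc1) hm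
        (A i - psum hc0 hc1 h hm g i t) := by
    simp only [map_sub, mul_sub]
    rw [Finset.sum_sub_distrib]
    conv_lhs => rw [rems_eq hc0 hc1 h hm g t]
    ring
  rw [e]
  refine (rems_small hc0 hc1 h hm hρ1 hρ2 hgN t).sub hρ (Bdd.sum hρ (by positivity) _ fun i _ => ?_)
  have h5 := compE_bdd hm (h.we hc0 hc1) h hc0 hc1 hρ1.le hρ2.le (a4 i t)
  have h6 := (Bdd.mo hρ (i : ℤ) (1 : C) (k := k)).mul hρ h5
  rw [norm_one, one_mul, zpow_natCast] at h6
  have e2 : ρ ^ i * (θ ^ t * N * (ρ ^ i)⁻¹) = θ ^ t * N := by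
    have := (pow_pos hρ i).ne'
    field_simp
  rw [e2] at h6
  exact h6

end iter

end Crest.Agent.R013.CAn_243
end

-- ▼ part R013/CAn9_243

/-!
# Row 13, leaf COMP-AN (helper243), file 9: `1, T, …, T^(m-1)` is a basis of `AN c'` over
`compA f (AN c)`, of `FA c'` over `compFA f (FA c)` and of `EE` over `compE f EE`
-/

set_option autoImplicit false
set_option linter.unusedSectionVars false
open Filter Topology
open Crest.Agent.R013.Cell_408 (FinDef DiscNorm exists_max BD)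
open Crest.Agent.R013.EE809

namespace Crest.Agent.R013.CAn_243

variable {k : Type*} [NontriviallyNormedField k] [CompleteSpace k]
variable {C : Type*} [NormedField C] [IsUltrametricDist C] [NormedAlgebra k C]
variable [Algebra.IsAlgebraic k C] [IsUltrametricDist k] [IsAlgClosed C] [hk : Fact (DiscNorm k)]

/-! ### independence -/


section basis

variable {f : EE k C} {m : ℕ} (h : WE f m) (hm : m ≠ 0)






end basis

/-! ### `AN` -/

section an

variable {c c' : C} {f : EE k C} {m : ℕ} (hc0 : c' ≠ 0) (hc1 : ‖c'‖ < 1) (h : WA c' f m)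
  (hm : m ≠ 0) (hcc : ‖c'‖ ^ m = ‖c‖)

include hcc in
/-- **(SPAN-AN)** -/
theorem span_AN {b : EE k C} (hb : b ∈ AN k c') : ∃ A : Fin m → EE k C, (∀ i, A i ∈ AN k c) ∧
    b = ∑ i, compE f (h.we hc0 hc1) hm (A i) * T (i : ℕ) := by
  obtain ⟨M, hM0, hM1, hM2⟩ := AN.bd2 hb
  obtain ⟨L, hL, h1, h2⟩ := b.fd.common f.fd
  obtain ⟨A, -, -, a3, a4⟩ := exists_repr_AN hc0 hc1 h hm hcc L h2 h1
    (fun n => by rw [one_zpow, mul_one]; exact hM1 n) hM2
  refine ⟨fun i => A i, fun i => ⟨_, a3 i⟩, ?_⟩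
  rw [← Finset.sum_range (fun i => compE f (h.we hc0 hc1) hm (A i) * T (i : ℤ)), a4]
  exact Finset.sum_congr rfl fun i _ => mul_comm _ _

/-- the same in the algebra `AN k c'` -/
theorem span_AN' (b : AN k c') : ∃ A : Fin m → AN k c,
    b = ∑ i, compA hc0 hc1 h hm hcc (A i) * ⟨T (i : ℕ), T_mem_AN c' _⟩ := by
  obtain ⟨A, hA, e⟩ := span_AN hc0 hc1 h hm hcc b.2
  refine ⟨fun i => ⟨A i, hA i⟩, Subtype.ext ?_⟩
  rw [AddSubmonoidClass.coe_finsetSum, e]
  rfl


/-- `AN c'` is a finite module over `compA f (AN c)` -/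
theorem finite_range_AN : Module.Finite (compA hc0 hc1 h hm hcc).range (AN k c') := by
  classical
  refine ⟨⟨Finset.univ.image fun i : Fin m => (⟨T ((i : ℕ) : ℤ), T_mem_AN c' _⟩ : AN k c'), ?_⟩⟩
  rw [eq_top_iff]
  intro g _
  obtain ⟨A, hA⟩ := span_AN' hc0 hc1 h hm hcc g
  rw [hA]
  refine Submodule.sum_mem _ fun i _ => ?_
  exact Submodule.smul_mem (Submodule.span (compA hc0 hc1 h hm hcc).range
    ((Finset.univ.image fun i : Fin m => (⟨T ((i : ℕ) : ℤ), T_mem_AN c' _⟩ : AN k c') :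
      Finset (AN k c')) : Set (AN k c')))
    (⟨compA hc0 hc1 h hm hcc (A i), ⟨A i, rfl⟩⟩ : (compA hc0 hc1 h hm hcc).range)
    (Submodule.subset_span (Finset.mem_coe.2 (Finset.mem_image_of_mem _ (Finset.mem_univ i))))

/-- every nonzero `b ∈ AN c'` divides some nonzero `compA B` -/
theorem exists_dvd_compA {b : AN k c'} (hb : b ≠ 0) :
    ∃ B : AN k c, B ≠ 0 ∧ b ∣ compA hc0 hc1 h hm hcc B := by
  have := finite_range_AN hc0 hc1 h hm hcc
  have h1 : IsAlgebraic (compA hc0 hc1 h hm hcc).range b :=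
    (Algebra.IsIntegral.isIntegral (R := (compA hc0 hc1 h hm hcc).range) b).isAlgebraic
  obtain ⟨⟨r, B, rfl⟩, hr, hd⟩ := h1.exists_nonzero_dvd (mem_nonZeroDivisors_of_ne_zero hb)
  refine ⟨B, ?_, hd⟩
  rintro rfl
  exact hr (Subtype.ext (map_zero _))

include hcc in
/-- **(SPAN-FA)** -/
theorem span_FA {x : EE k C} (hx : x ∈ FA k c') : ∃ e : Fin m → EE k C, (∀ i, e i ∈ FA k c) ∧
    x = ∑ i, compE f (h.we hc0 hc1) hm (e i) * T (i : ℕ) := by
  obtain ⟨a, ha, b, hb, hb0, e⟩ := hx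
  obtain ⟨B, hB, ⟨w, hw⟩, hBw⟩ := exists_dvd_compA hc0 hc1 h hm hcc
    (b := ⟨b, hb⟩) (fun h0 => hb0 (congrArg Subtype.val h0))
  have hBw' : compE f (h.we hc0 hc1) hm B.1 = b * w := congrArg Subtype.val hBw
  obtain ⟨A, hA, eA⟩ := span_AN hc0 hc1 h hm hcc (mul_mem ha hw)
  have hB0 : B.1 ≠ 0 := fun h0 => hB (Subtype.ext h0)
  have hcB : compE f (h.we hc0 hc1) hm B.1 ≠ 0 := compE_ne_zero _ hm hB0
  refine ⟨fun i => A i / B.1, fun i => div_mem (AN_le_FA c (hA i)) (AN_le_FA c B.2), ?_⟩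
  have h1 : ∀ i : Fin m, compE f (h.we hc0 hc1) hm (A i / B.1) * T ((i : ℕ) : ℤ) =
      (compE f (h.we hc0 hc1) hm (A i) * T ((i : ℕ) : ℤ)) / compE f (h.we hc0 hc1) hm B.1 := by
    intro i
    rw [map_div₀]; ring
  simp only [h1]
  rw [← Finset.sum_div, ← eA, eq_div_iff hcB, hBw', ← e]
  ring


end an

end Crest.Agent.R013.CAn_243
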