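import Crest.Agent.R013.EE1_809
import Crest.Agent.R013.CAn4_243
import Crest.Agent.R013.Comp1_267

-- ▼ part R013/CAnR1_109
section

/-!
# Row 13, annuli (helper109): an infinite linear system over a complete non archimedean field

`E : ι → ι → C` a matrix with entries in a finite extension `L` of `k`, `w`, `v` two weights:
bounded for `w`, unit diagonal dominant for `v`.  Then `∑ n, E k n * b n = g k` has a solution
with the same `w`-bound (`exists_sol`).
-/

set_option autoImplicit false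
set_option linter.unusedSectionVars false

open Filter Topology
open Crest.Agent.R013.Cell_408 Crest.Agent.R013.EE809

namespace Crest.Agent.R013.CAnR_109

variable {k : Type*} [NontriviallyNormedField k] [CompleteSpace k]
variable {C : Type*} [NormedField C] [IsUltrametricDist C] [NormedAlgebra k C]

/-- data of the linear system -/
structure Sys {ι : Type*} (L : IntermediateField k C) (E : ι → ι → C) (w v : ι → ℝ) (μ : ℝ) :
    Prop where
  mem : ∀ k n, E k n ∈ L
  w_pos : ∀ n, 0 < w n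
  v_pos : ∀ n, 0 < v n
  μ0 : 0 ≤ μ
  μ1 : μ < 1
  bd : ∀ k n, ‖E k n‖ * w k ≤ w n
  sm : ∀ k n, k ≠ n → ‖E k n‖ * v k ≤ μ * v n
  dg : ∀ n, ‖E n n‖ = 1
  vw : ∀ n, v n ≤ w n
  lim : Tendsto (fun n => v n / w n) cofinite (𝓝 0)

variable {ι : Type*} {L : IntermediateField k C} [FiniteDimensional k L] {E : ι → ι → C}
  {w v : ι → ℝ} {μ : ℝ}

/-- bounded sequences -/
def Bd (L : IntermediateField k C) (w : ι → ℝ) (M : ℝ) (b : ι → C) : Prop :=
  (∀ n, b n ∈ L) ∧ ∀ n, ‖b n‖ * w n ≤ M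

theorem Bd.sub {M : ℝ} {b b' : ι → C} (hw : ∀ n, 0 < w n) (h : Bd L w M b) (h' : Bd L w M b') :
    Bd L w M (fun n => b n - b' n) := by
  refine ⟨fun n => sub_mem (h.1 n) (h'.1 n), fun n => ?_⟩
  have h1 : ‖b n - b' n‖ ≤ max ‖b n‖ ‖b' n‖ := by
    simpa [sub_eq_add_neg] using IsUltrametricDist.norm_add_le_max (b n) (-b' n)
  refine (mul_le_mul_of_nonneg_right h1 (hw n).le).trans ?_
  rw [max_mul_of_nonneg _ _ (hw n).le]
  exact max_le (h.2 n) (h'.2 n)

theorem Bd.add {M : ℝ} {b b' : ι → C} (hw : ∀ n, 0 < w n) (h : Bd L w M b) (h' : Bd L w M b') :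
    Bd L w M (fun n => b n + b' n) := by
  refine ⟨fun n => add_mem (h.1 n) (h'.1 n), fun n => ?_⟩
  have h1 : ‖b n + b' n‖ ≤ max ‖b n‖ ‖b' n‖ := IsUltrametricDist.norm_add_le_max (b n) (b' n)
  refine (mul_le_mul_of_nonneg_right h1 (hw n).le).trans ?_
  rw [max_mul_of_nonneg _ _ (hw n).le]
  exact max_le (h.2 n) (h'.2 n)

namespace Sys

variable (S : Sys L E w v μ)
include S

theorem summable {M : ℝ} {b : ι → C} (hb : Bd L w M b) (k : ι) :
    Summable fun n => E k n * b n := by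
  refine summable_of L (fun n => mul_mem (S.mem k n) (hb.1 n)) ?_
  have h1 : Tendsto (fun n => (|M| * μ / v k) * (v n / w n)) cofinite (𝓝 0) := by
    have := S.lim.const_mul (|M| * μ / v k)
    rwa [mul_zero] at this
  rw [tendsto_zero_iff_norm_tendsto_zero]
  refine squeeze_zero' (Eventually.of_forall fun n => norm_nonneg _) ?_ h1
  have h2 : ∀ᶠ n in cofinite, n ≠ k := by
    rw [eventually_cofinite]
    refine (Set.finite_singleton k).subset fun n hn => ?_
    simpa using hn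
  filter_upwards [h2] with n hn
  have hv := S.v_pos k
  have hw := S.w_pos n
  rw [norm_mul]
  have h3 : ‖E k n‖ ≤ μ * v n / v k := by
    rw [le_div_iff₀ hv]; exact S.sm k n hn.symm
  have h4 : ‖b n‖ ≤ |M| / w n := by
    rw [le_div_iff₀ hw]; exact (hb.2 n).trans (le_abs_self M)
  calc ‖E k n‖ * ‖b n‖ ≤ (μ * v n / v k) * (|M| / w n) :=
        mul_le_mul h3 h4 (norm_nonneg _) (div_nonneg (mul_nonneg S.μ0 (S.v_pos n).le) hv.le)
    _ = (|M| * μ / v k) * (v n / w n) := by ring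

theorem tsum_mem {M : ℝ} {b : ι → C} (hb : Bd L w M b) (k : ι) : ∑' n, E k n * b n ∈ L :=
  tsum_mem_of L fun n => mul_mem (S.mem k n) (hb.1 n)

theorem tsum_le {M : ℝ} (hM : 0 ≤ M) {b : ι → C} (hb : Bd L w M b) (k : ι) :
    ‖∑' n, E k n * b n‖ * w k ≤ M := by
  rw [← le_div_iff₀ (S.w_pos k)]
  refine IsUltrametricDist.norm_tsum_le_of_forall_le_of_nonneg
    (div_nonneg hM (S.w_pos k).le) fun n => ?_
  rw [le_div_iff₀ (S.w_pos k), norm_mul]
  calc ‖E k n‖ * ‖b n‖ * w k = ‖b n‖ * (‖E k n‖ * w k) := by ring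
    _ ≤ ‖b n‖ * w n := mul_le_mul_of_nonneg_left (S.bd k n) (norm_nonneg _)
    _ ≤ M := hb.2 n

theorem tsum_sub_le {M ε : ℝ} (hε : 0 ≤ ε) {b : ι → C} (hb : Bd L w M b)
    (hbε : ∀ n, ‖b n‖ * v n ≤ ε) (k : ι) :
    ‖(∑' n, E k n * b n) - E k k * b k‖ * v k ≤ μ * ε := by
  classical
  rw [← le_div_iff₀ (S.v_pos k)]
  have h1 := hasSum_ite_sub_hasSum (S.summable hb k).hasSum k
  rw [← h1.tsum_eq]
  refine IsUltrametricDist.norm_tsum_le_of_forall_le_of_nonneg
    (div_nonneg (mul_nonneg S.μ0 hε) (S.v_pos k).le) fun n => ?_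
  split_ifs with hn
  · rw [norm_zero]; exact div_nonneg (mul_nonneg S.μ0 hε) (S.v_pos k).le
  rw [le_div_iff₀ (S.v_pos k), norm_mul]
  calc ‖E k n‖ * ‖b n‖ * v k = ‖b n‖ * (‖E k n‖ * v k) := by ring
    _ ≤ ‖b n‖ * (μ * v n) := mul_le_mul_of_nonneg_left (S.sm k n (Ne.symm hn)) (norm_nonneg _)
    _ = μ * (‖b n‖ * v n) := by ring
    _ ≤ μ * ε := mul_le_mul_of_nonneg_left (hbε n) S.μ0

theorem tsum_le' {M ε : ℝ} (hε : 0 ≤ ε) {b : ι → C} (hb : Bd L w M b)
    (hbε : ∀ n, ‖b n‖ * v n ≤ ε) (k : ι) : ‖∑' n, E k n * b n‖ * v k ≤ ε := by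
  have h1 := S.tsum_sub_le hε hb hbε k
  have h2 : ‖E k k * b k‖ * v k ≤ ε := by rw [norm_mul, S.dg, one_mul]; exact hbε k
  have e : (∑' n, E k n * b n) = ((∑' n, E k n * b n) - E k k * b k) + E k k * b k := by ring
  rw [e]
  refine (mul_le_mul_of_nonneg_right (IsUltrametricDist.norm_add_le_max _ _) (S.v_pos k).le).trans ?_
  rw [max_mul_of_nonneg _ _ (S.v_pos k).le]
  refine max_le (h1.trans ?_) h2
  calc μ * ε ≤ 1 * ε := mul_le_mul_of_nonneg_right S.μ1.le hε
    _ = ε := one_mul ε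

/-- **solution of the system** -/
theorem exists_sol {M : ℝ} (hM : 0 ≤ M) {g : ι → C} (hg : Bd L w M g) :
    ∃ b : ι → C, Bd L w M b ∧ ∀ k, HasSum (fun n => E k n * b n) (g k) := by
  have hE0 : ∀ n, E n n ≠ 0 := fun n h => by
    have := S.dg n
    rw [h, norm_zero] at this
    exact zero_ne_one this
  let Ψ : (ι → C) → ι → C := fun b k => b k + (g k - ∑' n, E k n * b n) / E k k
  have hΨ : ∀ b, Bd L w M b → Bd L w M (Ψ b) := by
    intro b hb
    have h1 : Bd L w M fun k => (∑' n, E k n * b n) := ⟨S.tsum_mem hb, S.tsum_le hM hb⟩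
    have h2 := hg.sub S.w_pos h1
    have h3 : Bd L w M fun k => (g k - ∑' n, E k n * b n) / E k k :=
      ⟨fun n => div_mem (h2.1 n) (S.mem n n), fun n => by
        rw [norm_div, S.dg, div_one]; exact h2.2 n⟩
    exact hb.add S.w_pos h3
  let B : ℕ → ι → C := fun s => Ψ^[s] 0
  have hB0 : B 0 = 0 := rfl
  have hBs : ∀ s, B (s + 1) = Ψ (B s) := fun s => Function.iterate_succ_apply' Ψ s 0
  have hBd : ∀ s, Bd L w M (B s) := by
    intro s
    induction s with
    | zero =>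
      rw [hB0]
      exact ⟨fun n => zero_mem L, fun n => by rw [Pi.zero_apply, norm_zero, zero_mul]; exact hM⟩
    | succ s ih => rw [hBs]; exact hΨ _ ih
  let δ : ℕ → ι → C := fun s k => B (s + 1) k - B s k
  have hδd : ∀ s, Bd L w M (δ s) := fun s => (hBd (s + 1)).sub S.w_pos (hBd s)
  have hδ' : ∀ s k, E k k * δ s k = g k - ∑' n, E k n * B s n := by
    intro s k
    show E k k * (B (s + 1) k - B s k) = _
    rw [hBs]
    show E k k * (B s k + (g k - ∑' n, E k n * B s n) / E k k - B s k) = _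
    rw [add_sub_cancel_left, mul_div_cancel₀ _ (hE0 k)]
  have hδs : ∀ s k, E k k * δ (s + 1) k = -((∑' n, E k n * δ s n) - E k k * δ s k) := by
    intro s k
    rw [hδ', hδ']
    have h1 : (∑' n, E k n * δ s n) = (∑' n, E k n * B (s + 1) n) - ∑' n, E k n * B s n := by
      rw [← (S.summable (hBd (s + 1)) k).tsum_sub (S.summable (hBd s) k)]
      exact tsum_congr fun n => by
        show E k n * (B (s + 1) n - B s n) = _
        ring
    rw [h1]
    ring
  have hδv : ∀ s k, ‖δ s k‖ * v k ≤ μ ^ s * M := by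
    intro s
    induction s with
    | zero =>
      intro k
      rw [pow_zero, one_mul]
      have h1 := hδ' 0 k
      have h2 : ∑' n, E k n * B 0 n = 0 := by
        rw [hB0]; simp
      rw [h2, sub_zero] at h1
      have h3 : ‖δ 0 k‖ = ‖g k‖ := by rw [← h1, norm_mul, S.dg, one_mul]
      rw [h3]
      exact (mul_le_mul_of_nonneg_left (S.vw k) (norm_nonneg _)).trans (hg.2 k)
    | succ s ih =>
      intro k
      have h1 := S.tsum_sub_le (mul_nonneg (pow_nonneg S.μ0 s) hM) (hδd s) ih k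
      have h2 : ‖δ (s + 1) k‖ = ‖(∑' n, E k n * δ s n) - E k k * δ s k‖ := by
        rw [← norm_neg ((∑' n, E k n * δ s n) - E k k * δ s k), ← hδs, norm_mul, S.dg, one_mul]
      rw [h2, pow_succ']
      calc _ ≤ _ := h1
        _ = μ * μ ^ s * M := by ring
  have hμ : Tendsto (fun s : ℕ => μ ^ s * M) atTop (𝓝 0) := by
    have := (tendsto_pow_atTop_nhds_zero_of_lt_one S.μ0 S.μ1).mul_const M
    rwa [zero_mul] at this
  have hsum : ∀ k, Summable fun s => δ s k := by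
    intro k
    refine summable_of L (fun s => (hδd s).1 k) ?_
    rw [Nat.cofinite_eq_atTop, tendsto_zero_iff_norm_tendsto_zero]
    have h1 : Tendsto (fun s : ℕ => μ ^ s * M / v k) atTop (𝓝 0) := by
      have := hμ.div_const (v k)
      rwa [zero_div] at this
    refine squeeze_zero (fun s => norm_nonneg _) (fun s => ?_) h1
    rw [le_div_iff₀ (S.v_pos k)]
    exact hδv s k
  have hpart : ∀ s k, ∑ t ∈ Finset.range s, δ t k = B s k := by
    intro s k
    have := Finset.sum_range_sub (fun t => B t k) s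
    rw [hB0, Pi.zero_apply, sub_zero] at this
    exact this
  let b : ι → C := fun k => ∑' s, δ s k
  have hlim : ∀ k, Tendsto (fun s => B s k) atTop (𝓝 (b k)) := by
    intro k
    have := (hsum k).hasSum.tendsto_sum_nat
    simpa only [hpart] using this
  have hb : Bd L w M b := by
    refine ⟨fun k => tsum_mem_of L fun s => (hδd s).1 k, fun k => ?_⟩
    refine le_of_tendsto ((hlim k).norm.mul_const (w k)) (Eventually.of_forall fun s => ?_)
    exact (hBd s).2 k
  have htail : ∀ s k, ‖b k - B s k‖ * v k ≤ μ ^ s * M := by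
    intro s k
    have h1 : ∀ t, ‖B (s + t) k - B s k‖ * v k ≤ μ ^ s * M := by
      intro t
      induction t with
      | zero =>
        rw [add_zero, sub_self, norm_zero, zero_mul]
        exact mul_nonneg (pow_nonneg S.μ0 s) hM
      | succ t ih =>
        have e : B (s + (t + 1)) k - B s k = δ (s + t) k + (B (s + t) k - B s k) := by
          show _ = (B (s + t + 1) k - B (s + t) k) + _
          rw [← add_assoc]; ring
        rw [e]
        refine (mul_le_mul_of_nonneg_right (IsUltrametricDist.norm_add_le_max _ _)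
          (S.v_pos k).le).trans ?_
        rw [max_mul_of_nonneg _ _ (S.v_pos k).le]
        refine max_le ((hδv (s + t) k).trans ?_) ih
        refine mul_le_mul_of_nonneg_right ?_ hM
        exact pow_le_pow_of_le_one S.μ0 S.μ1.le (Nat.le_add_right s t)
    have h2 : Tendsto (fun t => ‖B (s + t) k - B s k‖ * v k) atTop (𝓝 (‖b k - B s k‖ * v k)) := by
      have h3 : Tendsto (fun t => B (s + t) k) atTop (𝓝 (b k)) := by
        have := (tendsto_add_atTop_iff_nat s).2 (hlim k)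
        simpa only [add_comm] using this
      exact ((h3.sub_const _).norm).mul_const _
    exact le_of_tendsto h2 (Eventually.of_forall h1)
  refine ⟨b, hb, fun k => ?_⟩
  have hfin : ∑' n, E k n * b n = g k := by
    have h1 : ∀ s, ‖(∑' n, E k n * b n) - g k‖ * v k ≤ μ ^ s * M := by
      intro s
      have h2 : Bd L w M fun n => b n - B s n := hb.sub S.w_pos (hBd s)
      have h3 := S.tsum_le' (mul_nonneg (pow_nonneg S.μ0 s) hM) h2 (htail s) k
      have h4 : (∑' n, E k n * (b n - B s n)) = (∑' n, E k n * b n) - ∑' n, E k n * B s n := by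
        rw [← (S.summable hb k).tsum_sub (S.summable (hBd s) k)]
        exact tsum_congr fun n => by ring
      rw [h4] at h3
      have h5 := hδv s k
      have h6 : ‖δ s k‖ = ‖g k - ∑' n, E k n * B s n‖ := by
        rw [← hδ', norm_mul, S.dg, one_mul]
      rw [h6] at h5
      have e : (∑' n, E k n * b n) - g k =
          ((∑' n, E k n * b n) - ∑' n, E k n * B s n) + -(g k - ∑' n, E k n * B s n) := by ring
      rw [e]
      refine (mul_le_mul_of_nonneg_right (IsUltrametricDist.norm_add_le_max _ _)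
        (S.v_pos k).le).trans ?_
      rw [max_mul_of_nonneg _ _ (S.v_pos k).le, norm_neg]
      exact max_le h3 h5
    have h2 : ‖(∑' n, E k n * b n) - g k‖ * v k ≤ 0 := ge_of_tendsto hμ (Eventually.of_forall h1)
    have h3 : ‖(∑' n, E k n * b n) - g k‖ ≤ 0 := by
      by_contra h
      push Not at h
      exact absurd h2 (not_le.2 (mul_pos h (S.v_pos k)))
    exact sub_eq_zero.1 (norm_le_zero_iff.1 h3)
  rw [← hfin]
  exact (S.summable hb k).hasSum

end Sys

end Crest.Agent.R013.CAnR_109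
end

-- ▼ part R013/CAnR2_109

/-!
# Row 13, annuli (helper109): representation of functions of an annulus

`f` a map of degree `m` of the annulus `|c'| < |T| < 1` onto `|c| < |T| < 1`.  Every `G ∈ AN k c'`
is `∑_{i<m} T^i compE f (e i)` with `e i ∈ AN k c` (`repr_AN`), the same for `FA` (`repr_FA`);
uniqueness in `EE` (`compE_indep`).
-/

set_option autoImplicit false
set_option linter.unusedSectionVars false

open Filter Topology
open Crest.Agent.R013.Cell_408 (FinDef DiscNorm exists_max BD)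
open Crest.Agent.R013.EE809 Crest.Agent.R013.CAn_243

namespace Crest.Agent.R013.CAnR_109

section lim

theorem tendsto_natAbs_cofinite : Tendsto Int.natAbs cofinite atTop := by
  rw [← Nat.cofinite_eq_atTop]
  refine Filter.Tendsto.cofinite_of_finite_preimage_singleton fun a => ?_
  refine (Set.finite_Icc (-(a : ℤ)) a).subset fun n hn => ?_
  have h : n.natAbs = a := hn
  rw [Set.mem_Icc]
  omega

theorem tendsto_pow_natAbs {ρ : ℝ} (h0 : 0 ≤ ρ) (h1 : ρ < 1) :
    Tendsto (fun n : ℤ => ρ ^ n.natAbs) cofinite (𝓝 0) :=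
  (tendsto_pow_atTop_nhds_zero_of_lt_one h0 h1).comp tendsto_natAbs_cofinite

theorem zpow_div_max {ρ : ℝ} (h0 : 0 < ρ) (n : ℤ) :
    ρ ^ n / max 1 ((ρ ^ 2) ^ n) ≤ ρ ^ n.natAbs := by
  have hw : 0 < max 1 ((ρ ^ 2) ^ n) := lt_max_of_lt_left one_pos
  rw [div_le_iff₀ hw]
  rcases le_or_gt 0 n with hn | hn
  · obtain ⟨i, rfl⟩ := Int.eq_ofNat_of_zero_le hn
    rw [Int.natAbs_natCast, zpow_natCast]
    exact le_mul_of_one_le_right (by positivity) (le_max_left _ _)
  · obtain ⟨i, hi⟩ := Int.eq_ofNat_of_zero_le (show 0 ≤ -n by omega)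
    have hn' : n = -(i : ℤ) := by omega
    rw [hn', Int.natAbs_neg, Int.natAbs_natCast]
    refine le_trans (le_of_eq ?_) (mul_le_mul_of_nonneg_left (le_max_right _ _) (by positivity))
    rw [zpow_neg, zpow_neg, zpow_natCast, zpow_natCast, ← pow_mul, mul_comm 2 i, pow_mul]
    field_simp

end lim

variable {k : Type*} [NontriviallyNormedField k] [CompleteSpace k]
variable {C : Type*} [NormedField C] [IsUltrametricDist C] [NormedAlgebra k C]
variable [Algebra.IsAlgebraic k C]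

section mkAN

/-- elements of `AN k c` from two bounds -/
noncomputable def mkAN {c : C} (hc0 : c ≠ 0) (hc1 : ‖c‖ < 1) (a : ℤ → C) (h1 : FinDef k a) {M M' : ℝ}
    (h2 : ∀ n, ‖a n‖ ≤ M) (h3 : ∀ n, ‖a n‖ * ‖c‖ ^ n ≤ M') : EE k C :=
  mk' a h1 ⟨M, h2⟩ (by
    have hc : 0 < ‖c‖ := norm_pos_iff.2 hc0
    have g1 : Tendsto (fun n : ℤ => M' * ‖c‖ ^ (-n)) atBot (𝓝 0) := by
      have g2 : Tendsto (fun n : ℕ => M' * ‖c‖ ^ n) atTop (𝓝 (M' * 0)) :=
        (tendsto_pow_atTop_nhds_zero_of_lt_one (norm_nonneg _) hc1).const_mul M'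
      rw [mul_zero] at g2
      rw [Metric.tendsto_nhds] at g2 ⊢
      intro ε hε
      obtain ⟨N, hN⟩ := eventually_atTop.1 (g2 ε hε)
      rw [eventually_atBot]
      refine ⟨-N, fun n hn => ?_⟩
      have g3 := hN (-n).toNat (by omega)
      have g4 : (((-n).toNat : ℕ) : ℤ) = -n := Int.toNat_of_nonneg (by omega)
      rw [← zpow_natCast, g4] at g3
      exact g3
    refine squeeze_zero_norm (fun n => ?_) g1
    have g5 := h3 n
    rw [zpow_neg, ← div_eq_mul_inv, le_div_iff₀ (zpow_pos hc n)]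
    exact g5)


theorem mkAN_mem {c : C} (hc0 : c ≠ 0) (hc1 : ‖c‖ < 1) (a : ℤ → C) (h1 : FinDef k a) {M M' : ℝ}
    (h2 : ∀ n, ‖a n‖ ≤ M) (h3 : ∀ n, ‖a n‖ * ‖c‖ ^ n ≤ M') : mkAN hc0 hc1 a h1 h2 h3 ∈ AN k c :=
  ⟨M', h3⟩

end mkAN

variable [IsUltrametricDist k] [IsAlgClosed C] [hk : Fact (DiscNorm k)]

variable {c c' : C} {f : EE k C} {m : ℕ}

/-- the matrix of the representation problem -/
noncomputable def EM (f : EE k C) (m : ℕ) (i n : ℤ) : C := (f ^ (n / m)).co (i - n % m)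

theorem norm_EM_le (hc0 : c' ≠ 0) (hc1 : ‖c'‖ < 1) (h : WA c' f m) (i n : ℤ) :
    ‖EM f m i n‖ ≤ 1 := (h.zpow hc0 hc1 _).le _

theorem norm_EM_le' (hc0 : c' ≠ 0) (hc1 : ‖c'‖ < 1) (h : WA c' f m) (i n : ℤ) :
    ‖EM f m i n‖ * ‖c'‖ ^ i ≤ ‖c'‖ ^ n := by
  have hc : 0 < ‖c'‖ := norm_pos_iff.2 hc0
  have h1 := (h.zpow hc0 hc1 (n / m)).leA (i - n % m)
  rw [zpow_sub₀ hc.ne', mul_div_assoc', div_le_iff₀ (zpow_pos hc _), ← zpow_add₀ hc.ne',
    Int.mul_ediv_add_emod] at h1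
  exact h1

theorem norm_EM_self (hc0 : c' ≠ 0) (hc1 : ‖c'‖ < 1) (h : WA c' f m) (n : ℤ) :
    ‖EM f m n n‖ = 1 := by
  have h1 := (h.zpow hc0 hc1 (n / m)).one
  have e : n - n % m = m * (n / m) := by
    have := Int.mul_ediv_add_emod n m
    omega
  rw [EM, e]
  exact h1

theorem sys (hc0 : c' ≠ 0) (hc1 : ‖c'‖ < 1) (h : WA c' f m) (L : IntermediateField k C)
    (hL : ∀ n j, pc f n j ∈ L) :
    Sys L (EM f m) (fun n => max 1 (‖c'‖ ^ n)) (fun n => (Real.sqrt ‖c'‖) ^ n) (Real.sqrt ‖c'‖) := by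
  have hc : 0 < ‖c'‖ := norm_pos_iff.2 hc0
  set ρ := Real.sqrt ‖c'‖ with hρd
  have hρ : 0 < ρ := Real.sqrt_pos.2 hc
  have hρ1 : ρ < 1 := by
    rw [hρd, Real.sqrt_lt' one_pos, one_pow]; exact hc1
  have hρ2 : ‖c'‖ = ρ ^ 2 := (Real.sq_sqrt hc.le).symm
  refine ⟨fun i n => hL _ _, fun n => lt_max_of_lt_left one_pos, fun n => zpow_pos hρ n, hρ.le, hρ1,
    fun i n => ?_, fun i n hin => ?_, norm_EM_self hc0 hc1 h, fun n => ?_, ?_⟩
  · rw [mul_max_of_nonneg _ _ (norm_nonneg _), mul_one]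
    exact max_le_max (norm_EM_le hc0 hc1 h i n) (norm_EM_le' hc0 hc1 h i n)
  · have e : ρ * ρ ^ n = ρ ^ (n + 1) := by rw [zpow_add₀ hρ.ne', zpow_one, mul_comm]
    rw [e]
    rcases lt_or_gt_of_ne hin with hlt | hlt
    · have h1 := norm_EM_le' hc0 hc1 h i n
      rw [hρ2, ← le_div_iff₀ (zpow_pos (by positivity) _), ← zpow_sub₀ (by positivity)] at h1
      calc ‖EM f m i n‖ * ρ ^ i ≤ (ρ ^ 2) ^ (n - i) * ρ ^ i :=
            mul_le_mul_of_nonneg_right h1 (zpow_nonneg hρ.le _)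
        _ = ρ ^ (2 * (n - i) + i) := by
            rw [zpow_add₀ hρ.ne', zpow_mul]; norm_cast
        _ ≤ ρ ^ (n + 1) := zpow_le_zpow_right_of_le_one₀ hρ hρ1.le (by omega)
    · calc ‖EM f m i n‖ * ρ ^ i ≤ 1 * ρ ^ i :=
            mul_le_mul_of_nonneg_right (norm_EM_le hc0 hc1 h i n) (zpow_nonneg hρ.le _)
        _ = ρ ^ i := one_mul _
        _ ≤ ρ ^ (n + 1) := zpow_le_zpow_right_of_le_one₀ hρ hρ1.le (by omega)
  · rw [hρ2]
    rcases le_or_gt 0 n with hn | hn
    · refine le_max_of_le_left ?_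
      obtain ⟨i, rfl⟩ := Int.eq_ofNat_of_zero_le hn
      rw [zpow_natCast]
      exact pow_le_one₀ hρ.le hρ1.le
    · refine le_max_of_le_right ?_
      have : (ρ ^ 2) ^ n = ρ ^ (2 * n) := by rw [zpow_mul]; norm_cast
      rw [this]
      exact zpow_le_zpow_right_of_le_one₀ hρ hρ1.le (by omega)
  · rw [hρ2]
    refine squeeze_zero (fun n => ?_) (zpow_div_max hρ) (tendsto_pow_natAbs hρ.le hρ1)
    exact div_nonneg (zpow_nonneg hρ.le _) (le_max_of_le_left zero_le_one)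

/-- **representation** of the functions of an annulus -/
theorem repr_AN (hc0 : c' ≠ 0) (hc1 : ‖c'‖ < 1) (hw : WE f m) (h : WA c' f m) (hm : m ≠ 0)
    (hcc : ‖c'‖ ^ m = ‖c‖) {G : EE k C} (hG : G ∈ AN k c') :
    ∃ e : Fin m → EE k C, (∀ i, e i ∈ AN k c) ∧ G = ∑ i : Fin m, T i * compE f hw hm (e i) := by
  have hc : 0 < ‖c'‖ := norm_pos_iff.2 hc0
  have hcpos : 0 < ‖c‖ := by rw [← hcc]; positivity
  have hcn0 : c ≠ 0 := norm_pos_iff.1 hcpos
  have hcn1 : ‖c‖ < 1 := by rw [← hcc]; exact pow_lt_one₀ hc.le hc1 hm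
  obtain ⟨L, hL, hGL, hfL⟩ := exists_L2 f G
  obtain ⟨M, hM0, hM1, hM2⟩ := AN.bd2 hG
  have hg : Bd L (fun n : ℤ => max 1 (‖c'‖ ^ n)) M G.co := by
    refine ⟨hGL, fun n => ?_⟩
    rw [mul_max_of_nonneg _ _ (norm_nonneg _), mul_one]
    exact max_le (hM1 n) (hM2 n)
  obtain ⟨b, hb, hsum⟩ := (sys hc0 hc1 h L hfL).exists_sol hM0.le hg
  have hb1 : ∀ n, ‖b n‖ ≤ M := fun n =>
    (le_mul_of_one_le_right (norm_nonneg _) (le_max_left _ _)).trans (hb.2 n)
  have hb2 : ∀ n, ‖b n‖ * ‖c'‖ ^ n ≤ M := fun n =>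
    (mul_le_mul_of_nonneg_left (le_max_right _ _) (norm_nonneg _)).trans (hb.2 n)
  have hmem : ∀ (i : Fin m) (q : ℤ), ‖b (q * m + i)‖ * ‖c‖ ^ q ≤ M * ‖c'‖ ^ (-(i : ℤ)) := by
    intro i q
    have h1 := hb2 (q * m + i)
    rw [← hcc, ← zpow_natCast, ← zpow_mul]
    have h2 : ‖c'‖ ^ ((m : ℤ) * q) = ‖c'‖ ^ (q * m + (i : ℤ)) * ‖c'‖ ^ (-(i : ℤ)) := by
      rw [← zpow_add₀ hc.ne']; congr 1; ring
    rw [h2, ← mul_assoc]
    exact mul_le_mul_of_nonneg_right h1 (zpow_nonneg hc.le _)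
  let A : Fin m → EE k C := fun i => mkAN hcn0 hcn1 (fun q => b (q * m + i))
    ⟨L, hL, fun q => hb.1 _⟩ (fun q => hb1 _) (hmem i)
  have hA : ∀ i q, (A i).co q = b (q * m + i) := fun i q => rfl
  refine ⟨A, fun i => mkAN_mem hcn0 hcn1 _ _ _ _, ?_⟩
  ext j
  rw [co_finset_sum]
  simp only [co_T_mul]
  have : NeZero m := ⟨hm⟩
  have s1 : HasSum (fun p : ℤ × Fin m => EM f m j (p.1 * m + p.2) * b (p.1 * m + p.2)) (G.co j) := by
    have := (Int.divModEquiv m).symm.hasSum_iff.2 (hsum j)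
    exact this
  have e1 : ∀ (q : ℤ) (i : Fin m), EM f m j (q * m + i) = (f ^ q).co (j - i) := by
    intro q i
    have h1 : (q * m + (i : ℤ)) / m = q := by
      rw [Int.add_comm, Int.add_mul_ediv_right _ _ (Int.natCast_ne_zero.2 hm),
        Int.ediv_eq_zero_of_lt (Int.natCast_nonneg _) (Int.ofNat_lt.2 i.2), zero_add]
    have h2 : (q * m + (i : ℤ)) % m = i := by
      rw [Int.add_comm, Int.add_mul_emod_self_right,
        Int.emod_eq_of_lt (Int.natCast_nonneg _) (Int.ofNat_lt.2 i.2)]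
    rw [EM, h1, h2]
  have s2 : HasSum (fun q : ℤ => ∑ i : Fin m, EM f m j (q * m + i) * b (q * m + i)) (G.co j) :=
    s1.prod_fiberwise fun q => hasSum_fintype _
  have s3 : HasSum (fun q : ℤ => ∑ i : Fin m, (A i).co q * (f ^ q).co (j - i))
      (∑ i : Fin m, (compE f hw hm (A i)).co (j - i)) :=
    hasSum_sum fun i _ => hasSum_compE hw hm (A i) (j - i)
  refine s2.unique ?_
  convert s3 using 1
  funext q
  refine Finset.sum_congr rfl fun i _ => ?_
  rw [e1, hA, mul_comm]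

/-! ### uniqueness -/




/-! ### finiteness of `compA` -/

theorem finite_compA (hc0 : c' ≠ 0) (hc1 : ‖c'‖ < 1) (h : WA c' f m) (hm : m ≠ 0)
    (hcc : ‖c'‖ ^ m = ‖c‖) : (compA hc0 hc1 h hm hcc).toRingHom.Finite := by
  classical
  let _ : Algebra (AN k c) (AN k c') := (compA hc0 hc1 h hm hcc).toRingHom.toAlgebra
  have hsm : ∀ (a : AN k c) (x : AN k c'), a • x = compA hc0 hc1 h hm hcc a * x := fun a x => rfl
  show Module.Finite (AN k c) (AN k c')
  refine ⟨⟨Finset.univ.image fun i : Fin m => (⟨T i, T_mem_AN c' i⟩ : AN k c'), ?_⟩⟩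
  rw [eq_top_iff]
  rintro ⟨G, hG⟩ -
  obtain ⟨e, he, hGe⟩ := repr_AN hc0 hc1 (h.we hc0 hc1) h hm hcc hG
  have e1 : (⟨G, hG⟩ : AN k c') = ∑ i : Fin m, (⟨e i, he i⟩ : AN k c) •
      (⟨T i, T_mem_AN c' i⟩ : AN k c') := by
    apply Subtype.ext
    rw [AddSubmonoidClass.coe_finsetSum]
    show G = _
    rw [hGe]
    refine Finset.sum_congr rfl fun i _ => ?_
    rw [hsm, MulMemClass.coe_mul, coe_compA, mul_comm]
  rw [e1]
  refine Submodule.sum_mem _ fun i _ => Submodule.smul_mem _ _ (Submodule.subset_span ?_)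
  exact Finset.mem_coe.2 (Finset.mem_image_of_mem _ (Finset.mem_univ i))

theorem integral_compA (hc0 : c' ≠ 0) (hc1 : ‖c'‖ < 1) (h : WA c' f m) (hm : m ≠ 0)
    (hcc : ‖c'‖ ^ m = ‖c‖) (b : AN k c') :
    (compA hc0 hc1 h hm hcc).toRingHom.IsIntegralElem b :=
  (finite_compA hc0 hc1 h hm hcc).to_isIntegral b

/-- every non-zero element divides an element of the base ring -/
theorem exists_dvd_compA (hc0 : c' ≠ 0) (hc1 : ‖c'‖ < 1) (h : WA c' f m) (hm : m ≠ 0)
    (hcc : ‖c'‖ ^ m = ‖c‖) {b : AN k c'} (hb : b ≠ 0) :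
    ∃ a : AN k c, a ≠ 0 ∧ b ∣ compA hc0 hc1 h hm hcc a := by
  let _ : Algebra (AN k c) (AN k c') := (compA hc0 hc1 h hm hcc).toRingHom.toAlgebra
  have h1 : IsIntegral (AN k c) b := integral_compA hc0 hc1 h hm hcc b
  have h2 := Ideal.comap_ne_bot_of_integral_mem (R := AN k c) (I := Ideal.span {b}) hb
    (Ideal.mem_span_singleton_self b) h1
  obtain ⟨a, ha, ha0⟩ := Submodule.exists_mem_ne_zero_of_ne_bot h2
  exact ⟨a, ha0, Ideal.mem_span_singleton.1 ha⟩

/-- **representation** of the meromorphic functions of an annulus -/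
theorem repr_FA (hc0 : c' ≠ 0) (hc1 : ‖c'‖ < 1) (hw : WE f m) (h : WA c' f m) (hm : m ≠ 0)
    (hcc : ‖c'‖ ^ m = ‖c‖) {G : EE k C} (hG : G ∈ FA k c') :
    ∃ e : Fin m → EE k C, (∀ i, e i ∈ FA k c) ∧ G = ∑ i : Fin m, T i * compE f hw hm (e i) := by
  obtain ⟨g, hg, b, hb, hb0, e0⟩ := hG
  obtain ⟨a, ha0, q, hq⟩ := exists_dvd_compA hc0 hc1 h hm hcc (b := ⟨b, hb⟩)
    (fun h' => hb0 (congrArg Subtype.val h'))
  have hq' : compE f hw hm (a : EE k C) = b * (q : EE k C) := congrArg Subtype.val hq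
  have hane : (a : EE k C) ≠ 0 := fun h' => ha0 (Subtype.ext h')
  have hca : compE f hw hm (a : EE k C) ≠ 0 := compE_ne_zero hw hm hane
  obtain ⟨e, he, hge⟩ := repr_AN hc0 hc1 hw h hm hcc (mul_mem hg q.2)
  refine ⟨fun i => e i * (a : EE k C)⁻¹, fun i => mul_mem (AN_le_FA c (he i))
    (inv_mem (AN_le_FA c a.2)), ?_⟩
  have h1 : G * compE f hw hm (a : EE k C) = g * (q : EE k C) := by
    rw [hq', ← mul_assoc, e0]
  have h2 : G = g * (q : EE k C) * (compE f hw hm (a : EE k C))⁻¹ := by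
    rw [← h1, mul_inv_cancel_right₀ hca]
  rw [h2, hge, Finset.sum_mul]
  refine Finset.sum_congr rfl fun i _ => ?_
  rw [map_mul, map_inv₀, mul_assoc]

end Crest.Agent.R013.CAnR_109
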