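import Mathlib
import Crest.Agent.R013.Desc2_372
import Crest.Agent.R013.Unr11_957
import Crest.Agent.R013.RR19_948

-- ▼ part R013/DescC1_116
section

/-!
# R013 / DescC1 (helper116): descent of a finite extension along a basis

`F ⊆ K ⊆ L` fields, `b` a basis of `L/K` whose `F`-span contains `1` and the products `b i * b j`
(`Clo F b`).  Then `mdl F b h` (the `F`-span of `b`) is a field with `L = K ⊗_F mdl`.
-/

set_option autoImplicit false
set_option linter.all false

namespace Crest.Agent.R013.DescC_116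

open Module TensorProduct Crest.Agent.R013.Desc_372

section

variable (F : Type*) {K L : Type*} [Field F] [Field K] [Field L] [Algebra F K] [Algebra K L]
  [Algebra F L] [IsScalarTower F K L] {ι : Type*}

/-- the `F`-span of the basis `b` of `L/K` is closed under multiplication and contains `1` -/
structure Clo (b : Basis ι K L) : Prop where
  one : (1 : L) ∈ Submodule.span F (Set.range b)
  mul : ∀ i j, b i * b j ∈ Submodule.span F (Set.range b)

theorem mem_span_range_iff (b : Basis ι K L) {x : L} :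
    x ∈ Submodule.span F (Set.range b) ↔ ∀ i, b.repr x i ∈ Set.range (algebraMap F K) :=
  b.mem_span_iff_repr_mem F x

variable {F}

theorem Clo.mul_mem {b : Basis ι K L} (h : Clo F b) {x y : L}
    (hx : x ∈ Submodule.span F (Set.range b)) (hy : y ∈ Submodule.span F (Set.range b)) :
    x * y ∈ Submodule.span F (Set.range b) := by
  have h1 : Submodule.span F (Set.range b) * Submodule.span F (Set.range b) ≤
      Submodule.span F (Set.range b) := by
    rw [Submodule.span_mul_span, Submodule.span_le]
    rintro _ ⟨_, ⟨i, rfl⟩, _, ⟨j, rfl⟩, rfl⟩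
    exact h.mul i j
  exact h1 (Submodule.mul_mem_mul hx hy)

/-- the model as a subalgebra -/
noncomputable def subalg {b : Basis ι K L} (h : Clo F b) : Subalgebra F L :=
  (Submodule.span F (Set.range b)).toSubalgebra h.one fun _ _ hx hy => h.mul_mem hx hy


theorem finite_subalg [Finite ι] {b : Basis ι K L} (h : Clo F b) :
    FiniteDimensional F (subalg h) := by
  have h1 : FiniteDimensional F (Submodule.span F (Set.range b)) :=
    FiniteDimensional.span_of_finite F (Set.finite_range b)
  exact h1

/-- the model `L₀` as a field -/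
noncomputable def mdl [Finite ι] {b : Basis ι K L} (h : Clo F b) : IntermediateField F L :=
  (subalg h).toIntermediateField fun x hx => by
    have := finite_subalg h
    have h1 : IsAlgebraic F x := by
      have h2 : IsAlgebraic F (⟨x, hx⟩ : subalg h) := Algebra.IsAlgebraic.isAlgebraic _
      exact h2.algHom (subalg h).val
    exact (subalg h).inv_mem_of_algebraic (x := ⟨x, hx⟩) h1

theorem mem_mdl_iff_span [Finite ι] {b : Basis ι K L} (h : Clo F b) {x : L} :
    x ∈ mdl h ↔ x ∈ Submodule.span F (Set.range b) := Iff.rfl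

theorem mem_mdl_iff [Finite ι] {b : Basis ι K L} (h : Clo F b) {x : L} :
    x ∈ mdl h ↔ ∀ i, b.repr x i ∈ Set.range (algebraMap F K) :=
  b.mem_span_iff_repr_mem F x


/-- the basis of the model over `F` -/
noncomputable def mbasis [Finite ι] {b : Basis ι K L} (h : Clo F b) : Basis ι F (mdl h) :=
  (b.restrictScalars F : Basis ι F (Submodule.span F (Set.range b)))

@[simp] theorem mbasis_apply [Finite ι] {b : Basis ι K L} (h : Clo F b) (i : ι) :
    ((mbasis h i : mdl h) : L) = b i :=
  b.restrictScalars_apply F i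


theorem finrank_mdl [Finite ι] {b : Basis ι K L} (h : Clo F b) :
    finrank F (mdl h) = finrank K L := by
  rw [finrank_eq_nat_card_basis (mbasis h), finrank_eq_nat_card_basis b]

theorem finite_mdl [Finite ι] {b : Basis ι K L} (h : Clo F b) : FiniteDimensional F (mdl h) :=
  (mbasis h).finiteDimensional_of_finite

theorem isPushout_mdl [Finite ι] {b : Basis ι K L} (h : Clo F b) :
    Algebra.IsPushout F K (mdl h) L :=
  CE.isPushout_of_basis (mbasis h) b fun i => (mbasis_apply h i).symm


/-- a `K`-homomorphism of covers respects the models as soon as the images of the basis do -/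
theorem map_mem_mdl [Finite ι] {b : Basis ι K L} (h : Clo F b) {L' : Type*} [Field L']
    [Algebra K L'] [Algebra F L'] [IsScalarTower F K L'] (φ : L →ₐ[K] L')
    (M : IntermediateField F L') (hφ : ∀ i, φ (b i) ∈ M) {x : L} (hx : x ∈ mdl h) : φ x ∈ M := by
  rw [mem_mdl_iff_span] at hx
  have : Submodule.span F (Set.range b) ≤
      (M.toSubalgebra.toSubmodule).comap (φ.restrictScalars F).toLinearMap := by
    rw [Submodule.span_le]
    rintro _ ⟨i, rfl⟩
    exact hφ i
  exact this hx

end

section galois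

variable {F K L : Type*} [Field F] [Field K] [Field L] [Algebra F K] [Algebra K L]
  [Algebra F L] [IsScalarTower F K L] {ι : Type*} [Finite ι] {b : Basis ι K L}

/-- restriction of an automorphism which preserves the model -/
noncomputable def resMdl (h : Clo F b) (hs : ∀ (s : L ≃ₐ[K] L) i, s (b i) ∈ mdl h) :
    (L ≃ₐ[K] L) →* (mdl h ≃ₐ[F] mdl h) where
  toFun s := AlgEquiv.ofAlgHom
    (((s : L →ₐ[K] L).restrictScalars F).comp (mdl h).val |>.codRestrict (mdl h).toSubalgebra
      fun x => map_mem_mdl h (s : L →ₐ[K] L) (mdl h) (hs s) x.2)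
    ((((s⁻¹ : L ≃ₐ[K] L) : L →ₐ[K] L).restrictScalars F).comp (mdl h).val |>.codRestrict
      (mdl h).toSubalgebra fun x => map_mem_mdl h ((s⁻¹ : L ≃ₐ[K] L) : L →ₐ[K] L) (mdl h)
        (hs s⁻¹) x.2)
    (by ext x; exact s.apply_symm_apply x) (by ext x; exact s.symm_apply_apply x)
  map_one' := by ext x; rfl
  map_mul' s t := by ext x; rfl

@[simp] theorem resMdl_apply (h : Clo F b) (hs : ∀ (s : L ≃ₐ[K] L) i, s (b i) ∈ mdl h)
    (s : L ≃ₐ[K] L) (x : mdl h) : ((resMdl h hs s x : mdl h) : L) = s x := rfl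

theorem resMdl_injective (h : Clo F b) (hs : ∀ (s : L ≃ₐ[K] L) i, s (b i) ∈ mdl h) :
    Function.Injective (resMdl h hs) := by
  intro s t hst
  have h1 : (s : L →ₐ[K] L).toLinearMap = (t : L →ₐ[K] L).toLinearMap := by
    refine b.ext fun i => ?_
    have h2 := congrArg (fun f : mdl h ≃ₐ[F] mdl h => ((f (mbasis h i) : mdl h) : L)) hst
    simpa using h2
  ext x
  exact LinearMap.congr_fun h1 x

/-- `L/K` Galois ==> the model is Galois over `F` with the same group -/
theorem isGalois_mdl [IsGalois K L] (h : Clo F b) (hs : ∀ (s : L ≃ₐ[K] L) i, s (b i) ∈ mdl h) :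
    IsGalois F (mdl h) ∧ Function.Bijective (resMdl h hs) := by
  have := finite_mdl h
  have hK : FiniteDimensional K L := b.finiteDimensional_of_finite
  have h1 : Nat.card (L ≃ₐ[K] L) ≤ Nat.card (mdl h ≃ₐ[F] mdl h) :=
    Nat.card_le_card_of_injective _ (resMdl_injective h hs)
  have h2 : Nat.card (L ≃ₐ[K] L) = finrank K L := IsGalois.card_aut_eq_finrank K L
  have h3 : Nat.card (mdl h ≃ₐ[F] mdl h) ≤ finrank F (mdl h) := by
    rw [Nat.card_eq_fintype_card]
    exact AlgEquiv.card_le
  rw [h2] at h1
  rw [finrank_mdl] at h3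
  have h4 : Nat.card (mdl h ≃ₐ[F] mdl h) = finrank K L := le_antisymm h3 h1
  refine ⟨?_, ?_⟩
  · refine IsGalois.of_card_aut_eq_finrank F (mdl h) ?_
    rw [h4, finrank_mdl]
  · refine (Nat.bijective_iff_injective_and_card _).mpr ⟨resMdl_injective h hs, ?_⟩
    rw [h2, h4]

end galois

end Crest.Agent.R013.DescC_116
end

-- ▼ part R013/DescC2_116
section

/-!
# R013 / DescC2 (helper116): models of covers over a finite level of the constants

`CE k C K₀ K` (helper372's constant extension), `L/K` finite.  For `k'` large (finite over `k`),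
`mdl h` is a field `L₀ ⊇ K₀[k']` with `CE k' C L₀ L` and `[L₀ : K₀[k']] = [L : K]`.
-/

set_option autoImplicit false
set_option linter.all false

namespace Crest.Agent.R013.DescC_116

open Module TensorProduct Crest.Agent.R013.Desc_372 Crest.Agent.R013.Desc_372.CE

instance tower_mid (R : Type*) {F L : Type*} [Field F] [Field L] [Algebra F L] [CommSemiring R]
    [SMul R F] [Algebra R L] [IsScalarTower R F L] (M : IntermediateField F L) :
    IsScalarTower R M L := ⟨fun r m x => by
  have h1 : ((r • m : M) : L) = r • (m : L) := IntermediateField.coe_smul M r m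
  change ((r • m : M) : L) * x = r • ((m : L) * x)
  rw [h1, smul_mul_assoc]⟩

section abs

variable (k C K₀ K M L : Type*) [Field k] [Field C] [Field K₀] [Field K] [Field M] [Field L]
  [Algebra k C] [Algebra k K₀] [Algebra C K] [Algebra K₀ K] [Algebra k K] [IsScalarTower k C K]
  [IsScalarTower k K₀ K] [Algebra K L] [Algebra K₀ L] [Algebra C L] [Algebra k L]
  [IsScalarTower K₀ K L] [IsScalarTower C K L] [IsScalarTower k C L] [IsScalarTower k K₀ L]
  [IsScalarTower k K L]
  [Algebra K₀ M] [Algebra M L] [IsScalarTower K₀ M L] [Algebra k M] [IsScalarTower k K₀ M]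
  [IsScalarTower k M L]

/-- `M` is a `k`-form of `L` iff it is a `K₀`-form of `L/K` -/
theorem ce_iff_isPushout [h : CE k C K₀ K] : CE k C M L ↔ Algebra.IsPushout K₀ K M L := by
  have h1 := h.po.symm
  have h2 : Algebra.IsPushout k M C L ↔ Algebra.IsPushout K₀ M K L :=
    Algebra.IsPushout.comp_iff k K₀ C (S' := K) (T := M) (T' := L)
  constructor
  · intro h3
    exact (h2.1 h3.po.symm).symm
  · intro h3
    exact ⟨h.alg, (h2.2 h3.symm).symm⟩

end abs

section ctx

variable {k C K₀ K L : Type*} [Field k] [Field C] [Field K₀] [Field K] [Field L]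
  [Algebra k C] [Algebra k K₀] [Algebra C K] [Algebra K₀ K] [Algebra k K] [IsScalarTower k C K]
  [IsScalarTower k K₀ K] [Algebra K L] [Algebra K₀ L] [Algebra C L]
  [IsScalarTower K₀ K L] [IsScalarTower C K L]

instance tower_lev_L (k' : IntermediateField k C) : IsScalarTower k' (lev K₀ K k') L :=
  IsScalarTower.of_algebraMap_eq fun c => by
    change algebraMap C L c = algebraMap K L (algebraMap C K c)
    exact IsScalarTower.algebraMap_apply C K L c

instance tower_K₀_lev_L (k' : IntermediateField k C) : IsScalarTower K₀ (lev K₀ K k') L :=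
  IsScalarTower.of_algebraMap_eq fun c => by
    change algebraMap K₀ L c = algebraMap K L (algebraMap K₀ K c)
    exact IsScalarTower.algebraMap_apply K₀ K L c


/-- a model of `L/K` over the level `k'` is a `k'`-form of `L` -/
theorem ce_iff [CE k C K₀ K] (k' : IntermediateField k C) (M : IntermediateField (lev K₀ K k') L) :
    CE k' C M L ↔ Algebra.IsPushout (lev K₀ K k') K M L :=
  ce_iff_isPushout k' C (lev K₀ K k') K M L

variable {ι : Type*} [Finite ι] {b : Basis ι K L}

theorem ce_mdl [CE k C K₀ K] {k' : IntermediateField k C} (h : Clo (lev K₀ K k') b) :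
    CE k' C (mdl h) L :=
  (ce_iff k' (mdl h)).2 (isPushout_mdl h)

theorem mem_mdl_lev {k' : IntermediateField k C} (h : Clo (lev K₀ K k') b) {x : L} :
    x ∈ mdl h ↔ ∀ i, b.repr x i ∈ lev K₀ K k' := by
  rw [mem_mdl_iff]
  exact forall_congr' fun i => by
    rw [show Set.range (algebraMap (lev K₀ K k') K) = (lev K₀ K k' : Set K) from
      Subtype.range_coe]
    rfl

theorem mem_span_lev {k' : IntermediateField k C} (b : Basis ι K L) {x : L} :
    x ∈ Submodule.span (lev K₀ K k') (Set.range b) ↔ ∀ i, b.repr x i ∈ lev K₀ K k' := by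
  refine (mem_span_range_iff (lev K₀ K k') b).trans (forall_congr' fun i => ?_)
  rw [show Set.range (algebraMap (lev K₀ K k') K) = (lev K₀ K k' : Set K) from
    Subtype.range_coe]
  rfl

theorem Clo.mono {k' k'' : IntermediateField k C} (hk : k' ≤ k'') (h : Clo (lev K₀ K k') b) :
    Clo (lev K₀ K k'') b where
  one := (mem_span_lev b).2 fun i => lev_mono K₀ K hk ((mem_span_lev b).1 h.one i)
  mul i j := (mem_span_lev b).2 fun l => lev_mono K₀ K hk ((mem_span_lev b).1 (h.mul i j) l)


variable (b) in
/-- **models exist**: for all `k''` above some finite `k'`, the `K₀[k'']`-span of the basis `b`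
is a field containing the given finite set -/
theorem exists_clo [CE k C K₀ K] (S : Set L) (hS : S.Finite) :
    ∃ k' : IntermediateField k C, FiniteDimensional k k' ∧ ∀ k'' : IntermediateField k C,
      k' ≤ k'' → ∃ h : Clo (lev K₀ K k'') b, S ⊆ (mdl h : Set L) := by
  let A : Set L := {1} ∪ S ∪ Set.range (fun p : ι × ι => b p.1 * b p.2)
  have hA : A.Finite := ((Set.finite_singleton _).union hS).union (Set.finite_range _)
  let T : Set K := ⋃ x ∈ A, Set.range (b.repr x)
  have hT : T.Finite := hA.biUnion fun x _ => Set.finite_range _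
  obtain ⟨k', h1, h2⟩ := exists_lev (k := k) (C := C) K₀ K T hT
  have h3 : ∀ x ∈ A, ∀ i, b.repr x i ∈ lev K₀ K k' := fun x hx i =>
    h2 (Set.mem_biUnion hx ⟨i, rfl⟩)
  refine ⟨k', h1, fun k'' hk => ?_⟩
  have h4 : ∀ x ∈ A, ∀ i, b.repr x i ∈ lev K₀ K k'' := fun x hx i =>
    lev_mono K₀ K hk (h3 x hx i)
  have hc : Clo (lev K₀ K k'') b :=
    ⟨(mem_span_lev b).2 (h4 _ (Or.inl (Or.inl rfl))),
      fun i j => (mem_span_lev b).2 (h4 _ (Or.inr ⟨(i, j), rfl⟩))⟩
  exact ⟨hc, fun x hx => (mem_mdl_lev hc).2 (h4 x (Or.inl (Or.inr hx)))⟩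












end ctx

section statements

variable (k C K₀ K L : Type*) [Field k] [Field C] [Field K₀] [Field K] [Field L]
  [Algebra k C] [Algebra k K₀] [Algebra C K] [Algebra K₀ K] [Algebra k K] [IsScalarTower k C K]
  [IsScalarTower k K₀ K] [Algebra K L] [Algebra K₀ L] [Algebra C L]
  [IsScalarTower K₀ K L] [IsScalarTower C K L] [FiniteDimensional K L]

/-- **(C1)** covers descend -/
theorem exists_model [CE k C K₀ K] (S : Set L) (hS : S.Finite) :
    ∃ k' : IntermediateField k C, FiniteDimensional k k' ∧ ∀ k'' : IntermediateField k C,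
      k' ≤ k'' → ∃ M : IntermediateField (lev K₀ K k'') L, S ⊆ (M : Set L) ∧
        FiniteDimensional (lev K₀ K k'') M ∧ finrank (lev K₀ K k'') M = finrank K L ∧
        CE k'' C M L := by
  obtain ⟨k', h1, h2⟩ := exists_clo (k := k) (C := C) (K₀ := K₀) (finBasis K L) S hS
  refine ⟨k', h1, fun k'' hk => ?_⟩
  obtain ⟨h, hS⟩ := h2 k'' hk
  exact ⟨mdl h, hS, finite_mdl h, finrank_mdl h, ce_mdl h⟩

/-- **(C2)** Galois covers descend with their group -/
theorem exists_galois_model [IsGalois K L] [CE k C K₀ K] (S : Set L) (hS : S.Finite) :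
    ∃ k' : IntermediateField k C, FiniteDimensional k k' ∧ ∀ k'' : IntermediateField k C,
      k' ≤ k'' → ∃ M : IntermediateField (lev K₀ K k'') L, S ⊆ (M : Set L) ∧
        FiniteDimensional (lev K₀ K k'') M ∧ finrank (lev K₀ K k'') M = finrank K L ∧
        CE k'' C M L ∧ IsGalois (lev K₀ K k'') M ∧
        ∃ e : (L ≃ₐ[K] L) ≃* (M ≃ₐ[lev K₀ K k''] M), ∀ s x, ((e s x : M) : L) = s x := by
  let b := finBasis K L
  let S' : Set L := S ∪ ⋃ s : L ≃ₐ[K] L, Set.range fun i => s (b i)
  have hS' : S'.Finite := hS.union (Set.finite_iUnion fun s => Set.finite_range _)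
  obtain ⟨k', h1, h2⟩ := exists_clo (k := k) (C := C) (K₀ := K₀) b S' hS'
  refine ⟨k', h1, fun k'' hk => ?_⟩
  obtain ⟨h, hS⟩ := h2 k'' hk
  have hs : ∀ (s : L ≃ₐ[K] L) i, s (b i) ∈ mdl h := fun s i =>
    hS (Or.inr (Set.mem_iUnion.2 ⟨s, i, rfl⟩))
  obtain ⟨h3, h4⟩ := isGalois_mdl h hs
  exact ⟨mdl h, fun x hx => hS (Or.inl hx), finite_mdl h, finrank_mdl h, ce_mdl h, h3,
    MulEquiv.ofBijective (resMdl h hs) h4, fun s x => resMdl_apply h hs s x⟩

end statements

end Crest.Agent.R013.DescC_116
end

-- ▼ part R013/DescC3_116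

/-!
# R013 / DescC3 (helper116): unramified covers descend and ascend
-/

set_option autoImplicit false
set_option linter.all false

namespace Crest.Agent.R013.DescC_116

open Module TensorProduct Crest.Agent.R013.Desc_372 Crest.Agent.R013.Desc_372.CE
open Crest.NumberTheoryR.Sect
open Crest.Agent.R013.Unr10_957 Crest.Agent.R013.Unr7_957 Crest.Agent.R013.Unr9_957
open Crest.Agent.R013.Unr11_957
open Crest.Agent.R013.Unr3_957 Crest.Agent.R013.RR7_948 Crest.Agent.R013.RR13_948
open Crest.Agent.R013.RR18_948 Crest.Agent.R013.RR19_948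
open scoped NNReal

/-- unramifiedness passes to subextensions (also of infinite extensions) -/
theorem unrEv_of_tower {k K L A : Type*} [Field k] [Field K] [Algebra k K] [Field L] [Algebra K L]
    [Field A] [Algebra K A] [Algebra A L] [IsScalarTower K A L] [Algebra.IsAlgebraic A L]
    (h : UnrEv k K L) : UnrEv k K A := by
  intro v hv w hw b
  obtain ⟨W, hW⟩ := exists_extend_alg (E := L) w
  obtain ⟨a, ha⟩ := h v hv W (by
    rw [← hw, ← hW]
    ext x
    simp only [Valuation.comap_apply]
    rw [IsScalarTower.algebraMap_apply K A L]) (algebraMap A L b)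
  refine ⟨a, ?_⟩
  rw [← ha, ← hW]
  rfl

section const

variable (k₀ k C K₀ K : Type*) [Field k₀] [Field k] [Field C] [Field K₀] [Field K]
  [Algebra k C] [Algebra k K₀] [Algebra C K] [Algebra K₀ K] [Algebra k K] [IsScalarTower k C K]
  [IsScalarTower k K₀ K]
  [Algebra k₀ k] [Algebra.IsAlgebraic k₀ k] [Algebra k₀ K₀] [IsScalarTower k₀ k K₀]
  [CharZero k₀] [Algebra (RatFunc k₀) K₀] [IsScalarTower k₀ (RatFunc k₀) K₀]
  [FiniteDimensional (RatFunc k₀) K₀]

/-- **constant extensions (also infinite ones) are unramified** -/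
theorem unrEv_ce [CE k C K₀ K] : UnrEv k₀ K₀ K := by
  letI : Algebra k₀ K := ((algebraMap K₀ K).comp (algebraMap k₀ K₀)).toAlgebra
  haveI : IsScalarTower k₀ K₀ K := IsScalarTower.of_algebraMap_eq fun _ => rfl
  intro v hv w hw b
  obtain ⟨k', h1, h2⟩ := exists_lev (k := k) (C := C) K₀ K {b} (Set.finite_singleton b)
  have hb : b ∈ lev K₀ K k' := h2 rfl
  have hfin : FiniteDimensional K₀ (lev K₀ K k') :=
    (basisR k k' K₀ (lev K₀ K k') (finBasis k k')).finiteDimensional_of_finite
  have h3 : UnrEv k₀ K₀ (lev K₀ K k') := by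
    refine unrEv_const ?_
    rw [eq_top_iff]
    have halg : Algebra.IsAlgebraic k C := CE.alg (K₀ := K₀) (K := K)
    have h4 := adjoin_lev_eq_top k C K₀ K k'
    intro x _
    have hx : x ∈ Algebra.adjoin K₀ (Set.range (algebraMap k' (lev K₀ K k'))) := by
      rw [h4]; trivial
    have h5 : Algebra.adjoin K₀ (Set.range (algebraMap k' (lev K₀ K k'))) ≤
        (IntermediateField.adjoin K₀ {x : lev K₀ K k' | IsIntegral k₀ x}).toSubalgebra := by
      rw [Algebra.adjoin_le_iff]
      rintro _ ⟨c, rfl⟩
      refine IntermediateField.subset_adjoin _ _ ?_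
      have i1 : IsScalarTower k₀ k (lev K₀ K k') := IsScalarTower.of_algebraMap_eq fun r => by
        rw [IsScalarTower.algebraMap_apply k₀ K₀ (lev K₀ K k'),
          IsScalarTower.algebraMap_apply k K₀ (lev K₀ K k'),
          ← IsScalarTower.algebraMap_apply k₀ k K₀]
      have i2 : IsIntegral k (algebraMap k' (lev K₀ K k') c) :=
        (Algebra.IsIntegral.isIntegral (R := k) c).map (IsScalarTower.toAlgHom k k' (lev K₀ K k'))
      exact isIntegral_trans (R := k₀) (A := k) _ i2
    exact h5 hx
  obtain ⟨a, ha⟩ := h3 v hv (w.comap (algebraMap (lev K₀ K k') K)) (by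
    rw [← hw]; rfl) ⟨b, hb⟩
  exact ⟨a, ha⟩

end const

section desc

variable (k₀ k C K₀ K M L : Type*) [Field k₀] [Field k] [Field C] [Field K₀] [Field K] [Field M]
  [Field L]
  [Algebra k C] [Algebra k K₀] [Algebra C K] [Algebra K₀ K] [Algebra k K] [IsScalarTower k C K]
  [IsScalarTower k K₀ K] [Algebra K L] [Algebra K₀ L] [Algebra C L] [Algebra k L]
  [IsScalarTower K₀ K L] [IsScalarTower C K L] [IsScalarTower k C L] [IsScalarTower k K₀ L]
  [IsScalarTower k K L]
  [Algebra K₀ M] [Algebra M L] [IsScalarTower K₀ M L] [Algebra k M] [IsScalarTower k K₀ M]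
  [IsScalarTower k M L]
  [Algebra k₀ k] [Algebra.IsAlgebraic k₀ k] [Algebra k₀ K₀] [IsScalarTower k₀ k K₀]
  [CharZero k₀] [Algebra (RatFunc k₀) K₀] [IsScalarTower k₀ (RatFunc k₀) K₀]
  [FiniteDimensional (RatFunc k₀) K₀] [Algebra k₀ K] [IsScalarTower k₀ K₀ K]
  [FiniteDimensional K₀ M]


end desc

section models

variable {k C K₀ K L : Type*} [Field k] [Field C] [Field K₀] [Field K] [Field L]
  [Algebra k C] [Algebra k K₀] [Algebra C K] [Algebra K₀ K] [Algebra k K] [IsScalarTower k C K]
  [IsScalarTower k K₀ K] [Algebra K L] [Algebra K₀ L] [Algebra C L]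
  [IsScalarTower K₀ K L] [IsScalarTower C K L]
  [CharZero k] [Algebra (RatFunc k) K₀] [IsScalarTower k (RatFunc k) K₀]
  [FiniteDimensional (RatFunc k) K₀] [FiniteDimensional K L]


end models

section ramification

variable {k K L : Type*} [Field k] [Field K] [Algebra k K] [Algebra (RatFunc k) K]
  [IsScalarTower k (RatFunc k) K] [FiniteDimensional (RatFunc k) K]
  [Algebra.IsSeparable (RatFunc k) K] [Field L] [Algebra k L] [Algebra K L] [IsScalarTower k K L]
  [FiniteDimensional K L] [Algebra.IsSeparable K L]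

/-- 948's ramification indices and 957's `UnrEv` -/
theorem eR_eq_one_iff_unrEv : (∀ Q : Pl k L, eR K Q = 1) ↔ UnrEv k K L := by
  letI : Algebra (RatFunc k) L := ((algebraMap K L).comp (algebraMap (RatFunc k) K)).toAlgebra
  haveI : IsScalarTower (RatFunc k) K L := IsScalarTower.of_algebraMap_eq fun _ => rfl
  haveI : IsScalarTower k (RatFunc k) L := IsScalarTower.of_algebraMap_eq fun c => by
    change _ = algebraMap K _ (algebraMap (RatFunc k) K _)
    rw [← IsScalarTower.algebraMap_apply k (RatFunc k) K, ← IsScalarTower.algebraMap_apply k K L]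
  haveI : FiniteDimensional (RatFunc k) L := FiniteDimensional.trans (RatFunc k) K L
  haveI : Algebra.IsSeparable (RatFunc k) L := Algebra.IsSeparable.trans (RatFunc k) K L
  rw [eR_eq_one_iff]
  constructor
  · intro h v hv w hw b
    have hwp : IsPlace k w := isPlace_of_comap (F := K) (by rw [hw]; exact hv)
    by_cases hb : b = 0
    · exact ⟨0, by rw [hb, map_zero, map_zero]⟩
    · obtain ⟨a, ha⟩ := h w hwp (IsPlace.exists_pl hwp) b hb
      exact ⟨a, by rw [ha, ← hw]; rfl⟩
  · intro h w hw _ b _
    obtain ⟨a, ha⟩ := h _ (isPlace_comap (F := K) hw) w rfl b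
    exact ⟨a, ha⟩

end ramification

end Crest.Agent.R013.DescC_116
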