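import Crest.Agent.R013.Puis_702
import Crest.Agent.R013.Eis_863

-- ▼ part R013/Puis2_702
section

set_option autoImplicit false

open Polynomial

namespace Crest.Agent.R013.Puis_702

section Laurent

variable {R S T : Type*} [CommRing R] [CommRing S] [CommRing T]

/-- coefficientwise map of Laurent series -/
noncomputable def mapL (φ : R →+* S) : LaurentSeries R →+* LaurentSeries S where
  toFun x := HahnSeries.map x φ
  map_one' := by
    ext i
    rw [HahnSeries.map_coeff, HahnSeries.coeff_one, HahnSeries.coeff_one]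
    split_ifs <;> simp
  map_mul' x y := by
    have := HahnSeries.map_mul (φ : R →ₙ+* S) (x := x) (y := y)
    exact this
  map_zero' := by
    ext i
    simp
  map_add' x y := by
    ext i
    simp

@[simp] theorem coeff_mapL (φ : R →+* S) (x : LaurentSeries R) (i : ℤ) :
    (mapL φ x).coeff i = φ (x.coeff i) := rfl

theorem mapL_comp (φ : R →+* S) (ψ : S →+* T) : (mapL ψ).comp (mapL φ) = mapL (ψ.comp φ) := by
  ext x i
  rfl


/-- `X ↦ X ^ e` on Laurent series -/
noncomputable def expL (e : ℕ) (he : e ≠ 0) : LaurentSeries R →+* LaurentSeries R :=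
  HahnSeries.embDomainRingHom (AddMonoidHom.mulLeft (e : ℤ))
    (fun a b h => mul_left_cancel₀ (by exact_mod_cast he : (e : ℤ) ≠ 0) h)
    (fun g g' => by
      have h : (0 : ℤ) < e := by exact_mod_cast Nat.pos_of_ne_zero he
      exact mul_le_mul_iff_right₀ h)

theorem coeff_expL_mul (e : ℕ) (he : e ≠ 0) (x : LaurentSeries R) (i : ℤ) :
    (expL e he x).coeff (e * i) = x.coeff i :=
  HahnSeries.embDomain_coeff

theorem coeff_expL_of_not_dvd (e : ℕ) (he : e ≠ 0) (x : LaurentSeries R) {i : ℤ}
    (h : ¬ (e : ℤ) ∣ i) : (expL e he x).coeff i = 0 := by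
  refine HahnSeries.embDomain_of_notMem_range ?_
  rintro ⟨j, rfl⟩
  exact h ⟨j, rfl⟩

theorem expL_mapL (φ : R →+* S) (e : ℕ) (he : e ≠ 0) :
    (expL e he).comp (mapL φ) = (mapL φ).comp (expL e he) := by
  ext x i
  simp only [RingHom.comp_apply, coeff_mapL]
  by_cases h : (e : ℤ) ∣ i
  · obtain ⟨j, rfl⟩ := h
    rw [coeff_expL_mul, coeff_expL_mul, coeff_mapL]
  · rw [coeff_expL_of_not_dvd _ _ _ h, coeff_expL_of_not_dvd _ _ _ h, map_zero]


theorem expL_ofPowerSeries (e : ℕ) (he : e ≠ 0) (f : PowerSeries R) :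
    expL e he (HahnSeries.ofPowerSeries ℤ R f) =
      HahnSeries.ofPowerSeries ℤ R (PowerSeries.expand e he f) := by
  ext i
  by_cases h : (e : ℤ) ∣ i
  · obtain ⟨j, rfl⟩ := h
    rw [coeff_expL_mul, PowerSeries.coeff_coe, PowerSeries.coeff_coe]
    have he' : (0 : ℤ) < e := by exact_mod_cast Nat.pos_of_ne_zero he
    by_cases hj : j < 0
    · rw [if_pos hj, if_pos (mul_neg_of_pos_of_neg he' hj)]
    · rw [if_neg hj, if_neg (by
        have : (0 : ℤ) ≤ e * j := by nlinarith
        omega)]
      rw [Int.natAbs_mul, Int.natAbs_natCast, PowerSeries.coeff_expand_mul]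
  · rw [coeff_expL_of_not_dvd _ _ _ h, PowerSeries.coeff_coe]
    split_ifs with hi
    · rfl
    · rw [PowerSeries.coeff_expand_of_not_dvd]
      intro h2
      exact h (Int.natCast_dvd.2 h2)

end Laurent


section CoeffField

variable {C Ω : Type*} [Field C] [Field Ω] [Algebra C Ω]

theorem mapL_injective {R S : Type*} [CommRing R] [CommRing S] {φ : R →+* S}
    (h : Function.Injective φ) : Function.Injective (mapL φ) := by
  intro x y hxy
  ext i
  apply h
  rw [← coeff_mapL, hxy, coeff_mapL]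

/-- The coefficients of a Laurent series over `Ω` algebraic over `C((X))` generate a finite
extension of `C` (`Ω/C` Galois). -/
theorem coeff_field [IsGalois C Ω] (f : (LaurentSeries C)[X]) (hf : f ≠ 0) (z : LaurentSeries Ω)
    (hz : (f.map (mapL (algebraMap C Ω))).eval z = 0) :
    FiniteDimensional C (IntermediateField.adjoin C (Set.range z.coeff)) := by
  classical
  set L := IntermediateField.adjoin C (Set.range z.coeff) with hL
  set F := f.map (mapL (algebraMap C Ω)) with hF
  have hF0 : F ≠ 0 := (Polynomial.map_ne_zero_iff (mapL_injective (algebraMap C Ω).injective)).2 hf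
  rw [← InfiniteGalois.isOpen_iff_finite]
  have hroot : ∀ σ : Ω ≃ₐ[C] Ω, mapL (σ : Ω →+* Ω) z ∈ F.roots := by
    intro σ
    rw [mem_roots hF0, IsRoot.def]
    have h1 : F.map (mapL (σ : Ω →+* Ω)) = F := by
      rw [hF, Polynomial.map_map, mapL_comp]
      congr 2
      ext c
      simp
    rw [← h1, eval_map, Polynomial.eval₂_at_apply, hz, map_zero]
  let Φ : (Ω ≃ₐ[C] Ω) ⧸ L.fixingSubgroup → F.roots.toFinset :=
    Quotient.lift (fun σ => ⟨mapL (σ : Ω →+* Ω) z, Multiset.mem_toFinset.2 (hroot σ)⟩) (by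
      intro σ τ h
      have h1 : σ⁻¹ * τ ∈ L.fixingSubgroup := QuotientGroup.leftRel_apply.1 h
      ext i
      have h2 : (σ⁻¹ * τ) (z.coeff i) = z.coeff i :=
        (IntermediateField.mem_fixingSubgroup_iff _ _).1 h1 _
          (IntermediateField.subset_adjoin C _ ⟨i, rfl⟩)
      have h3 : τ (z.coeff i) = σ (z.coeff i) := by
        have := congrArg σ h2
        rw [AlgEquiv.mul_apply] at this
        rw [← this]
        exact (AlgEquiv.apply_symm_apply σ _).symm
      exact h3.symm)
  have hΦ : Function.Injective Φ := by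
    intro a b
    refine Quotient.inductionOn₂ a b fun σ τ h => ?_
    have h0 : mapL (σ : Ω →+* Ω) z = mapL (τ : Ω →+* Ω) z := congrArg Subtype.val h
    refine Quotient.sound (QuotientGroup.leftRel_apply.2 ?_)
    rw [IntermediateField.mem_fixingSubgroup_iff]
    intro x hx
    have h1 : ∀ i, (σ⁻¹ * τ) (z.coeff i) = z.coeff i := by
      intro i
      have h2 := congrArg (fun w => w.coeff i) h0
      simp only [coeff_mapL] at h2
      rw [AlgEquiv.mul_apply]
      have h3 : τ (z.coeff i) = σ (z.coeff i) := h2.symm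
      rw [h3]
      exact AlgEquiv.symm_apply_apply σ _
    have h2 : L ≤ IntermediateField.fixedField (Subgroup.closure {σ⁻¹ * τ}) := by
      rw [hL, IntermediateField.adjoin_le_iff]
      rintro _ ⟨i, rfl⟩
      rw [SetLike.mem_coe, IntermediateField.mem_fixedField_iff]
      intro g hg
      induction hg using Subgroup.closure_induction with
      | mem g hg => rw [Set.mem_singleton_iff.1 hg]; exact h1 i
      | one => rfl
      | mul a b _ _ ha hb => rw [AlgEquiv.mul_apply, hb, ha]
      | inv a _ ha =>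
        have := congrArg (a⁻¹ : Ω ≃ₐ[C] Ω) ha
        rw [← this]
        exact (AlgEquiv.symm_apply_apply a _).symm ▸ rfl
    exact (IntermediateField.mem_fixedField_iff _ _).1 (h2 hx) _
      (Subgroup.subset_closure (Set.mem_singleton _))
  have hfin : Finite ((Ω ≃ₐ[C] Ω) ⧸ L.fixingSubgroup) := Finite.of_injective Φ hΦ
  have : L.fixingSubgroup.FiniteIndex := Subgroup.finiteIndex_of_finite_quotient
  exact Subgroup.isOpen_of_isClosed_of_finiteIndex _ (InfiniteGalois.fixingSubgroup_isClosed L)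

end CoeffField


section PuiseuxL

variable {Ω : Type*} [Field Ω]

/-- multiplication by a high power of `X` makes a Laurent series a power series -/
theorem exists_pow_mul (a : LaurentSeries Ω) : ∃ N : ℕ, ∀ M ≥ N, ∃ w : PowerSeries Ω,
    HahnSeries.ofPowerSeries ℤ Ω (PowerSeries.X ^ M) * a = HahnSeries.ofPowerSeries ℤ Ω w := by
  refine ⟨(-a.order).toNat, fun M hM => ?_⟩
  refine ⟨PowerSeries.X ^ (M + a.order).toNat * a.powerSeriesPart, ?_⟩
  have h1 := LaurentSeries.single_order_mul_powerSeriesPart a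
  conv_lhs => rw [← h1]
  rw [map_mul, map_pow, map_pow, HahnSeries.ofPowerSeries_X, HahnSeries.single_pow,
    HahnSeries.single_pow, ← mul_assoc, HahnSeries.single_mul_single]
  have h2 : (M : ℤ) • (1 : ℤ) + a.order = ((M + a.order).toNat : ℤ) • (1 : ℤ) := by
    have : (-a.order).toNat ≤ M := hM
    simp only [smul_eq_mul, mul_one]
    omega
  simp only [one_pow, mul_one]
  congr 2
  simp only [nsmul_eq_mul, smul_eq_mul, mul_one] at h2 ⊢
  rw [h2]
  rfl

theorem ofPS_injective : Function.Injective (HahnSeries.ofPowerSeries ℤ Ω) :=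
  HahnSeries.ofPowerSeries_injective

/-- a polynomial over Laurent series becomes a polynomial over power series after scaling -/
theorem exists_scale (f : (LaurentSeries Ω)[X]) (hf : f.Monic) : ∃ N : ℕ,
    ∀ i, ∃ w : PowerSeries Ω,
    (f.scaleRoots (HahnSeries.ofPowerSeries ℤ Ω (PowerSeries.X ^ N))).coeff i =
      HahnSeries.ofPowerSeries ℤ Ω w := by
  choose N hN using fun i => exists_pow_mul (f.coeff i)
  refine ⟨∑ i ∈ Finset.range (f.natDegree + 1), N i, fun i => ?_⟩
  rw [coeff_scaleRoots]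
  rcases Nat.lt_trichotomy i f.natDegree with h | h | h
  · obtain ⟨w, hw⟩ := hN i (∑ i ∈ Finset.range (f.natDegree + 1), N i)
      (Finset.single_le_sum (f := N) (fun _ _ => Nat.zero_le _) (Finset.mem_range.2 (by omega)))
    obtain ⟨m, hm⟩ : ∃ m, f.natDegree - i = m + 1 := ⟨f.natDegree - i - 1, by omega⟩
    refine ⟨w * (PowerSeries.X ^ (∑ i ∈ Finset.range (f.natDegree + 1), N i)) ^ m, ?_⟩
    rw [map_mul, ← hw, hm, pow_succ, map_pow _ _ m]
    ring
  · refine ⟨1, ?_⟩
    rw [h, coeff_natDegree, hf.leadingCoeff, Nat.sub_self, pow_zero, mul_one, map_one]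
  · refine ⟨0, ?_⟩
    rw [coeff_eq_zero_of_natDegree_lt h, zero_mul, map_zero]

/-- **Puiseux's theorem** over Laurent series. -/
theorem puiseux_L [IsAlgClosed Ω] [CharZero Ω] (f : (LaurentSeries Ω)[X]) (hf : f.Monic) :
    ∃ e, ∃ he : e ≠ 0, (f.map (expL e he)).Splits := by
  obtain ⟨N, hN⟩ := exists_scale f hf
  set s := HahnSeries.ofPowerSeries ℤ Ω (PowerSeries.X ^ N) with hs
  have hs0 : s ≠ 0 := by
    rw [hs, Ne, map_eq_zero_iff _ ofPS_injective]
    exact pow_ne_zero _ PowerSeries.X_ne_zero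
  have hsm : (f.scaleRoots s).Monic := (monic_scaleRoots_iff s).2 hf
  have hl : f.scaleRoots s ∈ lifts (HahnSeries.ofPowerSeries ℤ Ω) := by
    rw [lifts_iff_coeff_lifts]
    intro i
    obtain ⟨w, hw⟩ := hN i
    exact ⟨w, hw.symm⟩
  obtain ⟨g, hg, -, hgm⟩ := lifts_and_natDegree_eq_and_monic hl hsm
  obtain ⟨e, he, hsp⟩ := puiseux_ps g hgm
  refine ⟨e, he, ?_⟩
  have h1 : (g.map (ex e he)).map (HahnSeries.ofPowerSeries ℤ Ω) =
      (f.map (expL e he)).scaleRoots (expL e he s) := by
    rw [← map_scaleRoots _ _ _ (by rw [hf.leadingCoeff, map_one]; exact one_ne_zero), ← hg,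
      Polynomial.map_map, Polynomial.map_map]
    congr 1
    ext1 w
    exact (expL_ofPowerSeries e he w).symm
  have h2 : (f.map (expL e he)).scaleRoots (expL e he s) |>.Splits := by
    rw [← h1]
    exact hsp.map _
  have h3 := h2.scaleRoots (expL e he s)⁻¹
  have h4 : expL e he s ≠ 0 := (_root_.map_ne_zero _).2 hs0
  rwa [← scaleRoots_mul, mul_inv_cancel₀ h4, scaleRoots_one] at h3

end PuiseuxL

section General

variable {C Ω : Type*} [Field C] [Field Ω] [Algebra C Ω] [CharZero C]

/-- the case of an algebraic closure -/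
theorem puiseux_alg [IsAlgClosed Ω] [IsGalois C Ω] (f : (LaurentSeries C)[X]) (hf : f.Monic) :
    ∃ e, ∃ he : e ≠ 0, ∃ C' : IntermediateField C Ω, FiniteDimensional C C' ∧
      ∃ R : Multiset (LaurentSeries Ω), (∀ r ∈ R, ∀ i, r.coeff i ∈ C') ∧
        f.map ((expL e he).comp (mapL (algebraMap C Ω))) = (R.map fun r => X - Polynomial.C r).prod := by
  classical
  have : CharZero Ω := charZero_of_injective_algebraMap (algebraMap C Ω).injective
  obtain ⟨e, he, h⟩ := puiseux_L (f.map (mapL (algebraMap C Ω))) (hf.map _)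
  rw [Polynomial.map_map] at h
  set F := f.map ((expL e he).comp (mapL (algebraMap C Ω))) with hF
  have hFm : F.Monic := hf.map _
  have hF2 : F = (f.map (expL e he)).map (mapL (algebraMap C Ω)) := by
    rw [hF, Polynomial.map_map, expL_mapL]
  have hfd : ∀ r ∈ F.roots.toFinset,
      FiniteDimensional C (IntermediateField.adjoin C (Set.range r.coeff)) := by
    intro r hr
    refine coeff_field (f.map (expL e he)) (hf.map _).ne_zero r ?_
    rw [← hF2]
    exact (mem_roots hFm.ne_zero).1 (Multiset.mem_toFinset.1 hr)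
  refine ⟨e, he, ⨆ r ∈ F.roots.toFinset, IntermediateField.adjoin C (Set.range r.coeff),
    IntermediateField.finiteDimensional_iSup_of_finset' hfd, F.roots, ?_, ?_⟩
  · intro r hr i
    have h1 : IntermediateField.adjoin C (Set.range r.coeff) ≤
        ⨆ r ∈ F.roots.toFinset, IntermediateField.adjoin C (Set.range r.coeff) :=
      le_iSup₂_of_le r (Multiset.mem_toFinset.2 hr) le_rfl
    exact h1 (IntermediateField.subset_adjoin C _ ⟨i, rfl⟩)
  · exact h.eq_prod_roots_of_monic hFm

/-- **Puiseux's theorem.** `C` a field of characteristic zero, `Ω` an algebraically closed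
extension, `f` a monic polynomial over `C((X))`. After `X ↦ X ^ e` the polynomial `f` is a product of
linear factors `T - r`, the Laurent series `r` having their coefficients in one finite extension of
`C`. -/
theorem puiseux [IsAlgClosed Ω] (f : (LaurentSeries C)[X]) (hf : f.Monic) :
    ∃ e, ∃ he : e ≠ 0, ∃ C' : IntermediateField C Ω, FiniteDimensional C C' ∧
      ∃ R : Multiset (LaurentSeries Ω), (∀ r ∈ R, ∀ i, r.coeff i ∈ C') ∧
        f.map ((expL e he).comp (mapL (algebraMap C Ω))) = (R.map fun r => X - Polynomial.C r).prod := by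
  have hcl : IsAlgClosure C (algebraicClosure C Ω) := inferInstance
  have : IsAlgClosed (algebraicClosure C Ω) := hcl.isAlgClosed
  have : Normal C (algebraicClosure C Ω) := IsAlgClosure.normal C _
  have : IsGalois C (algebraicClosure C Ω) := ⟨⟩
  obtain ⟨e, he, C', hC', R, hR, h⟩ := puiseux_alg (Ω := algebraicClosure C Ω) f hf
  refine ⟨e, he, C'.map (algebraicClosure C Ω).val, ?_, R.map (mapL (algebraMap (algebraicClosure C Ω) Ω)), ?_, ?_⟩
  · exact (IntermediateField.equivMap C' (algebraicClosure C Ω).val).toLinearEquiv.finiteDimensional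
  · intro r hr i
    obtain ⟨r', hr', rfl⟩ := Multiset.mem_map.1 hr
    exact ⟨r'.coeff i, hR r' hr' i, rfl⟩
  · have h1 := congrArg (Polynomial.map (mapL (algebraMap (algebraicClosure C Ω) Ω))) h
    rw [Polynomial.map_map, ← RingHom.comp_assoc, ← expL_mapL, RingHom.comp_assoc, mapL_comp] at h1
    have h2 : (algebraMap (algebraicClosure C Ω) Ω).comp (algebraMap C (algebraicClosure C Ω)) =
        algebraMap C Ω := rfl
    rw [h2] at h1
    rw [h1, Polynomial.map_multiset_prod, Multiset.map_map, Multiset.map_map]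
    congr 1
    refine Multiset.map_congr rfl fun r _ => ?_
    simp

end General

end Crest.Agent.R013.Puis_702
end

-- ▼ part R013/Puis3_702

/-!
# Row 13 (helper702): convergent Laurent series are relatively algebraically closed
-/

set_option autoImplicit false

open Polynomial
open scoped NNReal

namespace Crest.Agent.R013.Puis_702

open Crest.Agent.R013.Eis_863

section Conv

variable {Ω : Type*} [Field Ω] (v : Valuation Ω ℝ≥0)

local notation "oPS" => HahnSeries.ofPowerSeries ℤ Ω

theorem hO (x : Ω) : ∃ d ∈ v.integer, d ≠ 0 ∧ d * x ∈ v.integer := by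
  by_cases h : v x ≤ 1
  · exact ⟨1, v.integer.one_mem, one_ne_zero, by rwa [one_mul]⟩
  · have hx : x ≠ 0 := by rintro rfl; simp at h
    refine ⟨x⁻¹, ?_, inv_ne_zero hx, ?_⟩
    · rw [Valuation.mem_integer_iff, map_inv₀]
      exact inv_le_one_of_one_le₀ (not_le.1 h).le
    · rw [inv_mul_cancel₀ hx]
      exact v.integer.one_mem

/-- convergent Laurent series: `X ^ N * z` is a convergent power series for some `N` -/
def CL (z : LaurentSeries Ω) : Prop :=
  ∃ (N : ℕ) (w : PowerSeries Ω), oPS (PowerSeries.X ^ N) * z = oPS w ∧ Conv v.integer w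

variable {v}

theorem conv_X_pow (n : ℕ) : Conv v.integer (PowerSeries.X ^ n : PowerSeries Ω) :=
  (convS v.integer).pow_mem (mem_convS.1 conv_X) n

theorem CL.conv {z : LaurentSeries Ω} (h : CL v z) {M : ℕ} {w : PowerSeries Ω}
    (hw : oPS (PowerSeries.X ^ M) * z = oPS w) : Conv v.integer w := by
  obtain ⟨N, w', h1, h2⟩ := h
  apply Conv.of_X_pow_mul (n := N)
  have : PowerSeries.X ^ N * w = PowerSeries.X ^ M * w' := by
    apply ofPS_injective
    rw [map_mul, map_mul, ← hw, ← h1]
    ring
  rw [this]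
  exact (conv_X_pow M).mul h2

theorem CL.of_conv {w : PowerSeries Ω} (h : Conv v.integer w) : CL v (oPS w) :=
  ⟨0, w, by rw [pow_zero, map_one, one_mul], h⟩

theorem CL.conv_ps {w : PowerSeries Ω} (h : CL v (oPS w)) : Conv v.integer w :=
  h.conv (M := 0) (by rw [pow_zero, map_one, one_mul])

theorem CL.mul {z z' : LaurentSeries Ω} (h : CL v z) (h' : CL v z') : CL v (z * z') := by
  obtain ⟨N, w, h1, h2⟩ := h
  obtain ⟨N', w', h1', h2'⟩ := h'
  refine ⟨N + N', w * w', ?_, h2.mul h2'⟩
  rw [pow_add, map_mul, map_mul, ← h1, ← h1']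
  ring

theorem CL.add {z z' : LaurentSeries Ω} (h : CL v z) (h' : CL v z') : CL v (z + z') := by
  obtain ⟨N, w, h1, h2⟩ := h
  obtain ⟨N', w', h1', h2'⟩ := h'
  refine ⟨N + N', PowerSeries.X ^ N' * w + PowerSeries.X ^ N * w', ?_,
    ((conv_X_pow N').mul h2).add ((conv_X_pow N).mul h2')⟩
  rw [pow_add, map_mul, map_add, map_mul, map_mul, ← h1, ← h1']
  ring

theorem Conv.inv {u : PowerSeries Ω} (h : Conv v.integer u)
    (hu : PowerSeries.constantCoeff u ≠ 0) : Conv v.integer u⁻¹ := by
  have h1 : u * u⁻¹ = 1 := PowerSeries.mul_inv_cancel u hu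
  have hu0 : u ≠ 0 := by rintro rfl; simp at hu
  refine conv_of_root (hO v) (P := Polynomial.C u * Polynomial.X - 1) (fun i => ?_) ?_ ?_
  · rw [coeff_sub, coeff_C_mul, coeff_X, coeff_one]
    refine (convS v.integer).sub_mem ?_ ?_
    · split_ifs
      · rw [mul_one]; exact h
      · rw [mul_zero]; exact (convS v.integer).zero_mem
    · split_ifs
      · exact (convS v.integer).one_mem
      · exact (convS v.integer).zero_mem
  · rw [eval_sub, eval_mul, eval_C, eval_X, eval_one, h1, sub_self]
  · rw [derivative_sub, derivative_one, sub_zero, derivative_C_mul, derivative_X, mul_one, eval_C]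
    exact hu0

theorem CL.inv {z : LaurentSeries Ω} (h : CL v z) : CL v z⁻¹ := by
  by_cases hz : z = 0
  · rw [hz, inv_zero]
    exact ⟨0, 0, by rw [mul_zero, map_zero], (convS v.integer).zero_mem⟩
  obtain ⟨N, w, h1, h2⟩ := h
  have hw : w ≠ 0 := by
    rintro rfl
    rw [map_zero, mul_eq_zero] at h1
    rcases h1 with h1 | h1
    · rw [map_eq_zero_iff _ ofPS_injective] at h1
      exact pow_ne_zero _ PowerSeries.X_ne_zero h1
    · exact hz h1
  obtain ⟨m, u, hu0, hu⟩ : ∃ (m : ℕ) (u : PowerSeries Ω), PowerSeries.constantCoeff u ≠ 0 ∧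
      w = PowerSeries.X ^ m * u := by
    refine ⟨w.order.toNat, _, ?_, (PowerSeries.X_pow_order_mul_divXPowOrder).symm⟩
    rwa [Ne, PowerSeries.constantCoeff_divXPowOrder_eq_zero_iff]
  have huc : Conv v.integer u := Conv.of_X_pow_mul (n := m) (hu ▸ h2)
  refine ⟨m, PowerSeries.X ^ N * u⁻¹, ?_, (conv_X_pow N).mul (Conv.inv huc hu0)⟩
  apply mul_right_cancel₀ hz
  rw [mul_assoc, inv_mul_cancel₀ hz, mul_one, map_mul]
  have h3 : oPS (PowerSeries.X ^ N) * oPS u⁻¹ * z = oPS w * oPS u⁻¹ := by
    rw [← h1]; ring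
  rw [h3, hu, ← map_mul, mul_assoc, PowerSeries.mul_inv_cancel u hu0, mul_one]

variable (v) in
/-- the field of convergent Laurent series -/
def convL : Subfield (LaurentSeries Ω) where
  carrier := {z | CL v z}
  mul_mem' h h' := h.mul h'
  one_mem' := by
    have := CL.of_conv (v := v) (w := 1) (convS v.integer).one_mem
    rwa [map_one] at this
  add_mem' h h' := h.add h'
  zero_mem' := by
    have := CL.of_conv (v := v) (w := 0) (convS v.integer).zero_mem
    rwa [map_zero] at this
  neg_mem' {z} := by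
    rintro ⟨N, w, h1, h2⟩
    exact ⟨N, -w, by rw [mul_neg, h1, map_neg], (convS v.integer).neg_mem h2⟩
  inv_mem' z h := CL.inv h


theorem scaleRoots_comp {R : Type*} [CommRing R] (p : R[X]) (s : R) :
    (p.scaleRoots s).comp (C s * X) = C (s ^ p.natDegree) * p := by
  ext i
  rw [comp_C_mul_X_coeff, coeff_scaleRoots, coeff_C_mul]
  rcases le_or_gt i p.natDegree with h | h
  · have : s ^ (p.natDegree - i) * s ^ i = s ^ p.natDegree := by
      rw [← pow_add, Nat.sub_add_cancel h]
    linear_combination (p.coeff i) * this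
  · rw [coeff_eq_zero_of_natDegree_lt h, zero_mul, zero_mul, mul_zero]

theorem derivative_scaleRoots_eval {R : Type*} [CommRing R] (p : R[X]) (s z : R) :
    (p.scaleRoots s).derivative.eval (s * z) * s = s ^ p.natDegree * p.derivative.eval z := by
  have h := congrArg (fun q => (derivative q).eval z) (scaleRoots_comp p s)
  simp only [derivative_comp, derivative_C_mul, derivative_X, mul_one, eval_mul, eval_C,
    eval_comp, eval_X] at h
  linear_combination h

/-- **Convergent Laurent series are relatively algebraically closed** (characteristic zero). -/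
theorem conv_of_alg [CharZero Ω] (z : LaurentSeries Ω) (hz : IsAlgebraic (convL v) z) :
    z ∈ convL v := by
  have hint := hz.isIntegral
  set P := minpoly (convL v) z with hP
  have hPm : P.Monic := minpoly.monic hint
  have hc1 : CharZero (LaurentSeries Ω) :=
    charZero_of_injective_ringHom (HahnSeries.C_injective : Function.Injective
      (HahnSeries.C : Ω →+* LaurentSeries Ω))
  have : CharZero (convL v) := (algebraMap (convL v) (LaurentSeries Ω)).charZero
  have hsep : P.Separable := (minpoly.irreducible hint).separable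
  set f : (LaurentSeries Ω)[X] := P.map (algebraMap (convL v) (LaurentSeries Ω)) with hf
  have hfm : f.Monic := hPm.map _
  have hfz : f.eval z = 0 := by
    rw [hf, eval_map_algebraMap]; exact minpoly.aeval _ _
  have hfz' : f.derivative.eval z ≠ 0 := by
    rw [hf, derivative_map, eval_map_algebraMap]
    exact hsep.aeval_derivative_ne_zero (minpoly.aeval _ _)
  have hfc : ∀ i, f.coeff i ∈ convL v := fun i => by rw [hf, coeff_map]; exact (P.coeff i).2
  obtain ⟨N, hN⟩ := exists_scale f hfm
  obtain ⟨N2, hN2⟩ := exists_pow_mul z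
  set s := oPS (PowerSeries.X ^ (N + N2)) with hs
  have hsc : s ∈ convL v := CL.of_conv (conv_X_pow _)
  have hs0 : s ≠ 0 := by
    rw [hs, Ne, map_eq_zero_iff _ ofPS_injective]
    exact pow_ne_zero _ PowerSeries.X_ne_zero
  obtain ⟨w, hw⟩ := hN2 (N + N2) (by omega)
  have hsm : (f.scaleRoots s).Monic := (monic_scaleRoots_iff s).2 hfm
  have hl : f.scaleRoots s ∈ lifts (HahnSeries.ofPowerSeries ℤ Ω) := by
    rw [lifts_iff_coeff_lifts]
    intro i
    obtain ⟨a, ha⟩ := hN i
    refine ⟨a * (PowerSeries.X ^ N2) ^ (f.natDegree - i), ?_⟩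
    rw [map_mul, ← ha, coeff_scaleRoots, coeff_scaleRoots, hs, pow_add, map_mul, mul_pow,
      map_pow _ _ (f.natDegree - i)]
    ring
  obtain ⟨g, hg, -, hgm⟩ := lifts_and_natDegree_eq_and_monic hl hsm
  have hgc : ∀ i, Conv v.integer (g.coeff i) := by
    intro i
    apply CL.conv_ps
    rw [← coeff_map, hg, coeff_scaleRoots]
    exact (convL v).mul_mem (hfc i) ((convL v).pow_mem hsc _)
  have hroot : g.eval w = 0 := by
    apply ofPS_injective
    rw [map_zero, ← Polynomial.eval₂_at_apply, ← eval_map, hg, ← hw, scaleRoots_eval_mul, hfz,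
      mul_zero]
  have hroot' : g.derivative.eval w ≠ 0 := by
    intro h
    have h1 := congrArg oPS h
    rw [map_zero, ← Polynomial.eval₂_at_apply, ← eval_map, ← derivative_map, hg, ← hw] at h1
    have h2 := derivative_scaleRoots_eval f s z
    rw [h1, zero_mul] at h2
    rcases mul_eq_zero.1 h2.symm with h3 | h3
    · exact pow_ne_zero _ hs0 h3
    · exact hfz' h3
  have hwc : Conv v.integer w := conv_of_root (hO v) hgc hroot hroot'
  have h3 : s * z ∈ convL v := by
    rw [hw]; exact CL.of_conv hwc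
  have h4 : z = s⁻¹ * (s * z) := by rw [← mul_assoc, inv_mul_cancel₀ hs0, one_mul]
  rw [h4]
  exact (convL v).mul_mem ((convL v).inv_mem hsc) h3

end Conv


section Bdd

variable {Ω : Type*} [Field Ω] {v : Valuation Ω ℝ≥0}

local notation "oPS" => HahnSeries.ofPowerSeries ℤ Ω

theorem coeff_shift {z : LaurentSeries Ω} {N : ℕ} {w : PowerSeries Ω}
    (h : oPS (PowerSeries.X ^ N) * z = oPS w) (i : ℤ) :
    z.coeff i = (oPS w).coeff (i + N) := by
  rw [← h, map_pow, HahnSeries.ofPowerSeries_X, HahnSeries.single_pow]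
  have h2 : (N • (1 : ℤ)) = (N : ℤ) := by simp
  rw [h2, one_pow, HahnSeries.coeff_single_mul, one_mul, add_sub_cancel_right]

theorem CL.bdd {z : LaurentSeries Ω} (h : CL v z) :
    ∃ ρ : ℝ≥0, 0 < ρ ∧ ∃ B : ℝ≥0, ∀ i : ℤ, v (z.coeff i) * ρ ^ i ≤ B := by
  obtain ⟨N, w, h1, b, hb, hb0, c, hc, hc0, h2⟩ := h
  have hb1 : 0 < v b := zero_lt_iff.2 ((Valuation.ne_zero_iff _).2 hb0)
  have hc1 : 0 < v c := zero_lt_iff.2 ((Valuation.ne_zero_iff _).2 hc0)
  refine ⟨v b, hb1, (v c)⁻¹ * (v b ^ N)⁻¹, fun i => ?_⟩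
  rw [coeff_shift h1 i, PowerSeries.coeff_coe]
  split_ifs with hi
  · rw [map_zero, zero_mul]; exact zero_le
  · obtain ⟨n, hn⟩ : ∃ n : ℕ, i + N = n := ⟨(i + N).toNat, by omega⟩
    rw [hn, Int.natAbs_natCast]
    have h3 := h2 n
    rw [PowerSeries.coeff_C_mul, PowerSeries.coeff_rescale, Valuation.mem_integer_iff, map_mul,
      map_mul, map_pow] at h3
    have h4 : (v b) ^ i = (v b) ^ n * ((v b) ^ N)⁻¹ := by
      have : i = n - N := by omega
      rw [this, zpow_sub₀ hb1.ne', zpow_natCast, zpow_natCast, div_eq_mul_inv]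
    rw [h4, ← mul_assoc]
    refine mul_le_mul' ?_ le_rfl
    calc v (PowerSeries.coeff n w) * v b ^ n
        = (v c)⁻¹ * (v c * (v b ^ n * v (PowerSeries.coeff n w))) := by
          rw [← mul_assoc, inv_mul_cancel₀ hc1.ne', one_mul, mul_comm]
      _ ≤ (v c)⁻¹ * 1 := mul_le_mul' le_rfl h3
      _ = (v c)⁻¹ := mul_one _


theorem bdd_mono {z : LaurentSeries Ω} {ρ ρ' B : ℝ≥0} (hρ' : 0 < ρ') (hle : ρ' ≤ ρ)
    (h : ∀ i : ℤ, v (z.coeff i) * ρ ^ i ≤ B) : ∃ B' : ℝ≥0, ∀ i : ℤ, v (z.coeff i) * ρ' ^ i ≤ B' := by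
  have hρ : 0 < ρ := hρ'.trans_le hle
  refine ⟨B * (ρ' / ρ) ^ (min z.order 0), fun i => ?_⟩
  by_cases hi : i < z.order
  · rw [HahnSeries.coeff_eq_zero_of_lt_order hi, map_zero, zero_mul]; exact zero_le
  · push Not at hi
    have h1 : v (z.coeff i) * ρ' ^ i = v (z.coeff i) * ρ ^ i * (ρ' / ρ) ^ i := by
      rw [div_zpow, mul_assoc, mul_div_cancel₀]
      exact zpow_ne_zero _ hρ.ne'
    rw [h1]
    have h2 : (ρ' / ρ) ^ i ≤ (ρ' / ρ) ^ (min z.order 0) :=
      zpow_le_zpow_right_of_le_one₀ (by positivity) (div_le_one_of_le₀ hle zero_le)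
        ((min_le_left _ _).trans hi)
    exact mul_le_mul' (h i) h2

theorem bdd_common (s : Finset (LaurentSeries Ω)) (h : ∀ z ∈ s, CL v z) :
    ∃ ρ : ℝ≥0, 0 < ρ ∧ ∃ B : ℝ≥0, ∀ z ∈ s, ∀ i : ℤ, v (z.coeff i) * ρ ^ i ≤ B := by
  classical
  induction s using Finset.induction_on with
  | empty => exact ⟨1, one_pos, 0, by simp⟩
  | insert a s ha ih =>
    obtain ⟨ρ, hρ, B, hB⟩ := ih fun z hz => h z (Finset.mem_insert_of_mem hz)
    obtain ⟨ρ', hρ', B', hB'⟩ := (h a (Finset.mem_insert_self a s)).bdd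
    have hm : 0 < min ρ ρ' := lt_min hρ hρ'
    obtain ⟨B1, hB1⟩ := bdd_mono hm (min_le_right _ _) hB'
    have h2 : ∀ z : s, ∃ B2 : ℝ≥0, ∀ i : ℤ, v (z.1.coeff i) * (min ρ ρ') ^ i ≤ B2 := fun z =>
      bdd_mono hm (min_le_left _ _) (hB z.1 z.2)
    choose B2 hB2 using h2
    refine ⟨min ρ ρ', hm, B1 + ∑ z : s, B2 z, fun z hz i => ?_⟩
    rcases Finset.mem_insert.1 hz with rfl | hz
    · exact (hB1 i).trans le_self_add
    · refine (hB2 ⟨z, hz⟩ i).trans (le_trans ?_ le_add_self)
      exact Finset.single_le_sum (f := B2) (fun _ _ => zero_le) (Finset.mem_univ (⟨z, hz⟩ : s))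

theorem CL.expL {z : LaurentSeries Ω} (h : CL v z) (e : ℕ) (he : e ≠ 0) : CL v (expL e he z) := by
  obtain ⟨N, w, h1, b, hb, hb0, c, hc, hc0, h2⟩ := h
  refine ⟨e * N, PowerSeries.expand e he w, ?_, b, hb, hb0, c, hc, hc0, fun n => ?_⟩
  · have h3 := congrArg (Puis_702.expL e he) h1
    rw [map_mul, expL_ofPowerSeries, expL_ofPowerSeries, map_pow, PowerSeries.expand_X,
      ← pow_mul] at h3
    exact h3
  · rw [PowerSeries.coeff_C_mul, PowerSeries.coeff_rescale, Valuation.mem_integer_iff]
    by_cases hn : e ∣ n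
    · obtain ⟨m, rfl⟩ := hn
      rw [PowerSeries.coeff_expand_mul, map_mul, map_mul, map_pow]
      have h3 := h2 m
      rw [PowerSeries.coeff_C_mul, PowerSeries.coeff_rescale, Valuation.mem_integer_iff, map_mul,
        map_mul, map_pow] at h3
      refine le_trans ?_ h3
      have : v b ^ (e * m) ≤ v b ^ m :=
        pow_le_pow_right_of_le_one' hb (Nat.le_mul_of_pos_left m (Nat.pos_of_ne_zero he))
      gcongr
    · rw [PowerSeries.coeff_expand_of_not_dvd _ _ _ hn, mul_zero, mul_zero, map_zero]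
      exact zero_le

end Bdd


section Kum

variable {C Ω : Type*} [Field C] [Field Ω] [Algebra C Ω]

/-- **(KUM)** `C` a field of characteristic zero, `Ω` an algebraically closed extension with a
valuation `v` with values in `ℝ≥0`, `f` a monic polynomial over `C((X))` with convergent
coefficients: after `X ↦ X ^ e` it is a product of linear factors `T - r`, the `r` being Laurent
series with coefficients in one finite extension `C'` of `C`, bounded on one disc. -/
theorem kum [CharZero C] [IsAlgClosed Ω] (v : Valuation Ω ℝ≥0) (f : (LaurentSeries C)[X])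
    (hf : f.Monic) (hb : ∀ i, mapL (algebraMap C Ω) (f.coeff i) ∈ convL v) :
    ∃ e, ∃ he : e ≠ 0, ∃ C' : IntermediateField C Ω, FiniteDimensional C C' ∧
      ∃ R : Multiset (LaurentSeries Ω), (∀ r ∈ R, ∀ i, r.coeff i ∈ C') ∧
        (∃ ρ : ℝ≥0, 0 < ρ ∧ ∃ B : ℝ≥0, ∀ r ∈ R, ∀ i : ℤ, v (r.coeff i) * ρ ^ i ≤ B) ∧
        f.map ((expL e he).comp (mapL (algebraMap C Ω))) =
          (R.map fun r => X - Polynomial.C r).prod := by
  classical
  have : CharZero Ω := charZero_of_injective_algebraMap (algebraMap C Ω).injective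
  obtain ⟨e, he, C', hC', R, hR, h⟩ := puiseux (Ω := Ω) f hf
  refine ⟨e, he, C', hC', R, hR, ?_, h⟩
  have hcl : ∀ r ∈ R.toFinset, CL v r := by
    intro r hr
    rw [Multiset.mem_toFinset] at hr
    refine conv_of_alg r ?_
    set F := f.map ((expL e he).comp (mapL (algebraMap C Ω))) with hF
    have hFm : F.Monic := hf.map _
    have hFr : F.eval r = 0 := by
      have hd : X - Polynomial.C r ∣ F := by
        rw [h]; exact Multiset.dvd_prod (Multiset.mem_map_of_mem _ hr)
      exact dvd_iff_isRoot.1 hd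
    have hl : F ∈ lifts (algebraMap (convL v) (LaurentSeries Ω)) := by
      rw [lifts_iff_coeff_lifts]
      intro i
      have h1 : F.coeff i ∈ convL v := by
        rw [hF, coeff_map]
        exact CL.expL (hb i) e he
      exact ⟨⟨F.coeff i, h1⟩, rfl⟩
    obtain ⟨g, hg, -, hgm⟩ := lifts_and_natDegree_eq_and_monic hl hFm
    refine ⟨g, hgm.ne_zero, ?_⟩
    rw [← eval_map_algebraMap, hg]
    exact hFr
  obtain ⟨ρ, hρ, B, hB⟩ := bdd_common R.toFinset hcl
  exact ⟨ρ, hρ, B, fun r hr i => hB r (Multiset.mem_toFinset.2 hr) i⟩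

theorem cl_C {v : Valuation Ω ℝ≥0} (c : Ω) : CL v (HahnSeries.C c) := by
  have := CL.of_conv (v := v) (w := PowerSeries.C c) (conv_C (hO v) c)
  rwa [HahnSeries.ofPowerSeries_C] at this

theorem cl_X {v : Valuation Ω ℝ≥0} : CL v (HahnSeries.single (1 : ℤ) (1 : Ω)) := by
  have := CL.of_conv (v := v) (w := PowerSeries.X) conv_X
  rwa [HahnSeries.ofPowerSeries_X] at this

/-- **(DISC)** `j : K → C((X))` with `K` algebraic over `C(x)`, `j x = X`: all `j a` converge. -/
theorem disc [CharZero Ω] {K : Type*} [Field K] [Algebra C K] (v : Valuation Ω ℝ≥0)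
    (j : K →+* LaurentSeries C) (hjC : ∀ c, j (algebraMap C K c) = HahnSeries.C c) (x : K)
    (hjx : j x = HahnSeries.single (1 : ℤ) (1 : C))
    (hx : Algebra.IsAlgebraic (IntermediateField.adjoin C {x}) K) (a : K) :
    mapL (algebraMap C Ω) (j a) ∈ convL v := by
  have key : ∀ b ∈ IntermediateField.adjoin C {x},
      mapL (algebraMap C Ω) (j b) ∈ convL v := by
    intro b hb
    induction hb using IntermediateField.adjoin_induction with
    | mem y hy =>
      rw [Set.mem_singleton_iff.1 hy, hjx]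
      have : mapL (algebraMap C Ω) (HahnSeries.single (1 : ℤ) (1 : C)) =
          HahnSeries.single (1 : ℤ) (1 : Ω) := by
        ext i
        rw [coeff_mapL, HahnSeries.coeff_single, HahnSeries.coeff_single]
        split_ifs <;> simp
      rw [this]
      exact cl_X
    | algebraMap c =>
      rw [hjC]
      have : mapL (algebraMap C Ω) (HahnSeries.C c) = HahnSeries.C (algebraMap C Ω c) := by
        ext i
        rw [coeff_mapL, HahnSeries.C_apply, HahnSeries.C_apply, HahnSeries.coeff_single,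
          HahnSeries.coeff_single]
        split_ifs <;> simp
      rw [this]
      exact cl_C _
    | add a b _ _ ha hb => rw [map_add, map_add]; exact (convL v).add_mem ha hb
    | inv a _ ha => rw [map_inv₀, map_inv₀]; exact (convL v).inv_mem ha
    | mul a b _ _ ha hb => rw [map_mul, map_mul]; exact (convL v).mul_mem ha hb
  refine conv_of_alg _ ?_
  obtain ⟨P, hP0, hP⟩ := hx.isAlgebraic a
  let φ : IntermediateField.adjoin C {x} →+* convL v :=
    { toFun := fun b => ⟨mapL (algebraMap C Ω) (j b), key b b.2⟩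
      map_one' := by ext1; simp
      map_mul' := fun a b => by ext1; simp
      map_zero' := by ext1; simp
      map_add' := fun a b => by ext1; simp }
  refine ⟨P.map φ, (Polynomial.map_ne_zero_iff φ.injective).2 hP0, ?_⟩
  rw [← eval_map_algebraMap, Polynomial.map_map]
  have h1 : (algebraMap (convL v) (LaurentSeries Ω)).comp φ =
      ((mapL (algebraMap C Ω)).comp j).comp (algebraMap (IntermediateField.adjoin C {x}) K) := rfl
  rw [h1, ← Polynomial.map_map]
  have h2 : (P.map (algebraMap (IntermediateField.adjoin C {x}) K)).eval a = 0 := by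
    rw [eval_map_algebraMap]; exact hP
  have h3 : mapL (algebraMap C Ω) (j a) = ((mapL (algebraMap C Ω)).comp j) a := rfl
  rw [h3, eval_map, Polynomial.eval₂_at_apply, h2, map_zero]

end Kum

end Crest.Agent.R013.Puis_702
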