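import Crest.Agent.R013.Good3_940
import Mathlib
import Crest.Agent.R013.Puis3_702
import Crest.Agent.R013.RR20_948
import Crest.Prelude.Def_SectConj
import Crest.Agent.R013.MaxUnr_97
import Crest.Agent.R013.Unr11_957
import Crest.Agent.R013.Good2_940
import Crest.Agent.R013.CGood_588

-- ▼ part R013/Good4_940
section

/-!
# R013 / Good4: an etale class with a form of exact order `i` at `q` gives an Artin-Schreier
residue field over small circles around `q` (helper940)
-/

set_option autoImplicit false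

namespace Crest.Agent.R013.Good4_940

open PowerSeries
open scoped NNReal
open Crest.Agent.R013.KAS2_940 (Bd bd_zero)
open Crest.Agent.R013.KAS2_940
open Crest.Agent.R013.KAS3_940 Crest.Agent.R013.Good1_940 Crest.Agent.R013.Gl946
open Crest.Agent.R013.Good3_940
open Crest.Agent.R013.LemD_323 (shift)

universe uE

variable {k : Type*} {E : Type uE} [NontriviallyNormedField k] [IsUltrametricDist k]
  [CompleteSpace k] [CharZero k] [Algebra ℚ k]

omit [CharZero k] [Algebra ℚ k] [IsUltrametricDist k] [CompleteSpace k] in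
theorem tsum_C_mul [NormedField E] [NormedAlgebra k E] (a : k) (f : k⟦X⟧) (x : E) :
    (∑' m, algebraMap k E (coeff m (C a * f)) * x ^ m) =
      algebraMap k E a * ∑' m, algebraMap k E (coeff m f) * x ^ m := by
  rw [← tsum_mul_left]
  refine tsum_congr fun m => ?_
  rw [coeff_C_mul, map_mul, mul_assoc]

/-- **(GOOD) at the level of the disc field.** -/
theorem good {p : ℕ} (hp : p.Prime) {lam : k} (hlam : lam ^ (p - 1) = -(p : k))
    (hlam1 : ‖lam‖ < 1) {R CH D : ℝ} (hR : 0 < R) {H om : k⟦X⟧} (hH : Bd R CH H)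
    (hom : Bd R D om) (hH0 : constantCoeff H ≠ 0) (hHom : d⁄dX k H = om * H) {q : k}
    (hq : ‖q‖ < R) {i : ℕ} (h0 : ∀ m < i, coeff m (shift q om) = 0)
    (hi : coeff i (shift q om) ≠ 0) {j m : ℕ} (hjm : i + 1 = p ^ j * m) :
    ∃ rs : ℝ, 0 < rs ∧ ∀ (n : ℕ) (c : k) (hc0 : c ≠ 0), ‖c‖ < rs → ∀ (hcR : ‖c‖ < R),
      coeff i (shift q om) / ((i + 1 : ℕ) : k) * c ^ (i + 1) = (p : k) ^ n * lam ^ p →
      (∃ zeta : k, IsPrimitiveRoot zeta (p ^ (n + 1))) →
      (∃ e : k, e ^ p ^ (n + 1) = constantCoeff (shift q H)) →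
      ∀ (E : Type uE) [NormedField E] [IsUltrametricDist E] [NormedAlgebra k E] [CompleteSpace E]
        (y : E) (hy : IsGauss k y) (K K1 : Type*) [Field K] [Field K1] [Algebra K K1]
        [Algebra.IsAlgebraic K K1] (iota : K →+* FDisc k R hR)
        (_ : DenseRange ((frq hR hy hq hcR hc0).comp iota)) (h : K) (g : FDisc k R hR) (_ : g ≠ 0)
        (_ : iota h = algebraMap _ _ (⟨H, mem_bsub hH⟩ : bsub (K := k) R hR) * g ^ p ^ (n + 1))
        (y1 : K1) (_ : y1 ^ p ^ (n + 1) = algebraMap K K1 h),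
        ∃ v : Valuation K1 ℝ≥0,
          (∀ a : K, v (algebraMap K K1 a) = ‖frq hR hy hq hcR hc0 (iota a)‖₊) ∧
          ∃ z : K1, v z ≤ 1 ∧ ∀ t : K, ‖frq hR hy hq hcR hc0 (iota t) - y‖ < 1 →
            v (z ^ p - z - (algebraMap K K1 t) ^ m) < 1 := by
  have homq : Bd R D (shift q om) := bd_shift' hom hq
  have hHq : Bd R CH (shift q H) := bd_shift' hH hq
  obtain ⟨rs, hrs, Hk⟩ := kas hp hlam hlam1 hR homq h0 hi hjm
  refine ⟨rs, hrs, fun n c hc0 hcrs hcR hcn hzeta he => ?_⟩
  obtain ⟨r1, hr1, hcr1, hr1s, Hk⟩ := Hk n c hc0 hcrs hcn hzeta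
  -- the normalised series
  set a0 : k := constantCoeff (shift q H) with ha0
  have hderq : d⁄dX k (shift q H) = shift q om * shift q H := by
    rw [← shift_derivative, hHom, shift_mul hR hom hH hq]
  have hH0' : H ≠ 0 := by
    rintro rfl
    exact hH0 (map_zero _)
  have ha00 : a0 ≠ 0 := by
    intro h
    have h1 : shift q H = 0 := by
      refine ode_unique (a := shift q om) hderq ?_ ?_
      · rw [map_zero, mul_zero]
      · rw [← ha0, h, map_zero]
    exact shift_ne_zero hR hH hq hH0' h1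
  set u : k⟦X⟧ := C (a0⁻¹) * shift q H with hu
  have hu0 : constantCoeff u = 1 := by
    rw [hu, map_mul, constantCoeff_C, ← ha0, inv_mul_cancel₀ ha00]
  have hud : d⁄dX k u = (shift q om + 0) * u := by
    rw [hu, Derivation.leibniz, derivative_C, smul_zero, add_zero, smul_eq_mul, hderq, add_zero]
    ring
  obtain ⟨hu', Hk⟩ := Hk 0 (bd_zero (by positivity)) u hu0 hud
  intro E _ _ _ _ y hy K K1 _ _ _ _ iota hd h g hg hh y1 hy1
  obtain ⟨e, he⟩ := he
  let nnE : NontriviallyNormedField E :=
    { ‹NormedField E› with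
      non_trivial := by
        obtain ⟨a, ha⟩ := NontriviallyNormedField.non_trivial (α := k)
        exact ⟨algebraMap k E a, by rwa [norm_algebraMap']⟩ }
  have hxc : ‖algebraMap k E c * y‖ = ‖c‖ := by
    rw [norm_mul, norm_algebraMap', hy.norm_eq, mul_one]
  have he0 : e ≠ 0 := by
    rintro rfl
    rw [zero_pow (pow_ne_zero _ hp.ne_zero)] at he
    exact ha00 (he.symm)
  have hcE : algebraMap k E c ≠ 0 := (map_ne_zero _).mpr hc0
  have hgE : algebraMap k E e * frq hR hy hq hcR hc0 g ≠ 0 :=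
    mul_ne_zero ((map_ne_zero _).mpr he0) ((map_ne_zero _).mpr hg)
  have hjh : ((frq hR hy hq hcR hc0).comp iota) h =
      ev hr1 (algebraMap k E c * y) (hxc.trans_lt hcr1) ⟨u, hu'⟩ *
        (algebraMap k E e * frq hR hy hq hcR hc0 g) ^ p ^ (n + 1) := by
    have h2 : algebraMap k E e ^ p ^ (n + 1) = algebraMap k E a0 := by rw [← map_pow, he]
    rw [RingHom.comp_apply, hh, map_mul, map_pow, frq_algebraMap, evq_eq_shift, ev_apply, ev_apply,
      mul_pow, h2]
    have h1 : (shiftB hR hq (⟨H, mem_bsub hH⟩ : bsub (K := k) R hR)).1 = C a0 * u := by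
      rw [hu, ← mul_assoc, ← map_mul, mul_inv_cancel₀ ha00, map_one, one_mul]
      rfl
    rw [h1, tsum_C_mul]
    ring
  obtain ⟨v, hv1, z, hz1, hz2⟩ := exists_val_kummer (p := p) (N := p ^ (n + 1)) (m := m) hc0 hcr1
    ⟨u, hu'⟩ (fun L _ w io hG yy b hb hyy => Hk L w io hG yy b hb hyy) hxc
    ((frq hR hy hq hcR hc0).comp iota) hd hgE hjh hy1
  refine ⟨v, hv1, z, hz1, fun t ht => hz2 t ?_⟩
  rw [mul_div_cancel_left₀ _ hcE]
  exact ht

end Crest.Agent.R013.Good4_940
end

-- ▼ part R013/Small2_940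
section

/-!
# R013 / Small2: expansions at a rational place with uniformiser `x` (helper940)

`IsExp i P x J` : `J : Y →+* LaurentSeries C` is the expansion at the place `P` in the uniformiser
`x` (`i : C →+* Y` the constants).  Uniqueness, equivariance, coefficients in subfields, order.
-/

set_option autoImplicit false
set_option linter.unusedSectionVars false

namespace Crest.Agent.R013.Small2_940

open scoped NNReal

/-- `P` is rational over `i : C →+* Y`, with uniformiser `x` -/
structure RU {C Y : Type*} [Field C] [Field Y] (i : C →+* Y) (P : Valuation Y ℝ≥0) (x : Y) : Prop where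
  rat : ∀ a, P a ≤ 1 → ∃ c, P (a - i c) < 1
  lt_one : P x < 1
  unif : ∀ a, P a < 1 → P a ≤ P x
  ne : x ≠ 0

/-- `J` is an expansion at `(P, x)` -/
structure IsExp {C Y : Type*} [Field C] [Field Y] (i : C →+* Y) (P : Valuation Y ℝ≥0) (x : Y)
    (J : Y →+* LaurentSeries C) : Prop where
  con : ∀ c, J (i c) = HahnSeries.C c
  par : J x = HahnSeries.single (1 : ℤ) (1 : C)
  nonneg : ∀ a, P a ≤ 1 → ∀ n < 0, (J a).coeff n = 0

section

variable {C Y : Type*} [Field C] [Field Y] {i : C →+* Y} {P : Valuation Y ℝ≥0} {x : Y}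

theorem RU.pos (h : RU i P x) : 0 < P x := by
  rw [Valuation.pos_iff]; exact h.ne

theorem RU.div_le (h : RU i P x) {a : Y} (ha : P a < 1) : P (a / x) ≤ 1 := by
  rw [map_div₀]
  exact div_le_one_of_le₀ (h.unif a ha) zero_le

theorem RU.exists_pow (h : RU i P x) {a : Y} (ha : a ≠ 0) : ∃ n : ℤ, P a = P x ^ n := by
  -- first the case `P a ≤ 1`
  have key : ∀ (N : ℕ) (a : Y), P x ^ N < P a → P a ≤ 1 → ∃ n : ℕ, P a = P x ^ n := by
    intro N
    induction N with
    | zero =>
      intro a h1 h2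
      rw [pow_zero] at h1
      exact absurd (h1.trans_le h2) (lt_irrefl _)
    | succ N ih =>
      intro a h1 h2
      rcases h2.lt_or_eq with h3 | h3
      · have h4 := h.div_le h3
        have h5 : P x ^ N < P (a / x) := by
          rw [map_div₀, lt_div_iff₀ h.pos, ← pow_succ]
          exact h1
        obtain ⟨n, hn⟩ := ih _ h5 h4
        refine ⟨n + 1, ?_⟩
        rw [map_div₀, div_eq_iff h.pos.ne'] at hn
        rw [hn, pow_succ]
      · exact ⟨0, by rw [h3, pow_zero]⟩
  have key' : ∀ a : Y, a ≠ 0 → P a ≤ 1 → ∃ n : ℕ, P a = P x ^ n := by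
    intro a ha h1
    obtain ⟨N, hN⟩ := exists_pow_lt_of_lt_one (show 0 < P a by rwa [Valuation.pos_iff]) h.lt_one
    exact key N a hN h1
  rcases le_total (P a) 1 with h1 | h1
  · obtain ⟨n, hn⟩ := key' a ha h1
    exact ⟨n, by rw [hn, zpow_natCast]⟩
  · obtain ⟨n, hn⟩ := key' a⁻¹ (inv_ne_zero ha) (by rw [map_inv₀]; exact inv_le_one_of_one_le₀ h1)
    refine ⟨-n, ?_⟩
    rw [map_inv₀, inv_eq_iff_eq_inv] at hn
    rw [hn, zpow_neg, zpow_natCast]

theorem RU.comap {D Z : Type*} [Field D] [Field Z] {j : D →+* Z} {f : Z →+* Y} {x : Z}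
    (h : RU i P (f x)) (hr : ∀ a : Z, P (f a) ≤ 1 → ∃ c, P (f (a - j c)) < 1) :
    RU j (P.comap f) x where
  rat := hr
  lt_one := h.lt_one
  unif a ha := h.unif _ ha
  ne := fun h0 => h.ne (by rw [h0, map_zero])

theorem coeff_T_mul (f : LaurentSeries C) (n : ℤ) :
    (HahnSeries.single (1 : ℤ) (1 : C) * f).coeff (n + 1) = f.coeff n := by
  rw [HahnSeries.coeff_single_mul_add, one_mul]

theorem coeff_T_mul' (f : LaurentSeries C) (n : ℤ) :
    (HahnSeries.single (1 : ℤ) (1 : C) * f).coeff n = f.coeff (n - 1) := by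
  have := coeff_T_mul f (n - 1)
  rwa [sub_add_cancel] at this

variable {J : Y →+* LaurentSeries C}

theorem IsExp.eq_step (hJ : IsExp i P x J) (hx : x ≠ 0) (a : Y) (c : C) :
    J a = HahnSeries.C c + HahnSeries.single (1 : ℤ) (1 : C) * J ((a - i c) / x) := by
  rw [← hJ.par, ← map_mul, ← hJ.con, ← map_add]
  congr 1
  field_simp
  ring

theorem IsExp.coeff_zero_eq (hJ : IsExp i P x J) (h : RU i P x) {a : Y} {c : C}
    (hc : P (a - i c) < 1) : (J a).coeff 0 = c := by
  rw [hJ.eq_step h.ne a c, HahnSeries.coeff_add, coeff_T_mul', HahnSeries.C_apply,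
    HahnSeries.coeff_single, if_pos rfl, hJ.nonneg _ (h.div_le hc) _ (by norm_num), add_zero]

theorem IsExp.sub_coeff_lt (hJ : IsExp i P x J) (h : RU i P x) {a : Y} (ha : P a ≤ 1) :
    P (a - i ((J a).coeff 0)) < 1 := by
  obtain ⟨c, hc⟩ := h.rat a ha
  rwa [hJ.coeff_zero_eq h hc]

theorem IsExp.coeff_succ (hJ : IsExp i P x J) (hx : x ≠ 0) (a : Y) (c : C) (n : ℕ) :
    (J a).coeff ((n + 1 : ℕ) : ℤ) = (J ((a - i c) / x)).coeff (n : ℤ) := by
  rw [hJ.eq_step hx a c, HahnSeries.coeff_add, Nat.cast_succ, coeff_T_mul, HahnSeries.C_apply,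
    HahnSeries.coeff_single, if_neg (by positivity), zero_add]

theorem IsExp.coeff_mul_pow (hJ : IsExp i P x J) (a : Y) (n : ℕ) (m : ℤ) :
    (J (x ^ n * a)).coeff (m + n) = (J a).coeff m := by
  induction n with
  | zero => rw [pow_zero, one_mul, Nat.cast_zero, add_zero]
  | succ n ih =>
    rw [← ih, pow_succ', mul_assoc, map_mul, hJ.par, Nat.cast_succ, ← add_assoc, coeff_T_mul]

/-- **equivariance / uniqueness** -/
theorem IsExp.equiv {C' Y' : Type*} [Field C'] [Field Y'] {i' : C' →+* Y'}
    {P' : Valuation Y' ℝ≥0} {x' : Y'} {J' : Y' →+* LaurentSeries C'} (hJ : IsExp i P x J)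
    (hJ' : IsExp i' P' x' J') (h : RU i P x) (hx' : x' ≠ 0) (s : Y →+* Y') (t : C →+* C')
    (hs : ∀ c, s (i c) = i' (t c)) (hsx : s x = x') (hP : ∀ a, P a ≤ 1 → P' (s a) ≤ 1) (a : Y)
    (n : ℤ) : (J' (s a)).coeff n = t ((J a).coeff n) := by
  -- nonnegative part
  have key : ∀ (n : ℕ) (a : Y), P a ≤ 1 → (J' (s a)).coeff (n : ℤ) = t ((J a).coeff (n : ℤ)) := by
    intro n
    induction n with
    | zero =>
      intro a ha
      have h1 := hJ.sub_coeff_lt h ha
      set c := (J a).coeff 0 with hc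
      have h2 := hP _ (h.div_le h1)
      rw [map_div₀, map_sub, hs, hsx] at h2
      rw [Nat.cast_zero, ← hc, hJ'.eq_step hx' (s a) (t c), HahnSeries.coeff_add, coeff_T_mul',
        HahnSeries.C_apply, HahnSeries.coeff_single, if_pos rfl, hJ'.nonneg _ h2 _ (by norm_num),
        add_zero]
    | succ n ih =>
      intro a ha
      have h1 := hJ.sub_coeff_lt h ha
      set c := (J a).coeff 0 with hc
      have h2 := ih _ (h.div_le h1)
      have h3 : s ((a - i c) / x) = (s a - i' (t c)) / x' := by rw [map_div₀, map_sub, hs, hsx]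
      rw [hJ'.coeff_succ hx' (s a) (t c), hJ.coeff_succ h.ne a c, ← h2, h3]
  -- the general case
  have key2 : ∀ (n : ℤ) (a : Y), P a ≤ 1 → (J' (s a)).coeff n = t ((J a).coeff n) := by
    intro n a ha
    rcases lt_or_ge n 0 with hn | hn
    · rw [hJ.nonneg a ha n hn, hJ'.nonneg _ (hP a ha) n hn, map_zero]
    · obtain ⟨m, rfl⟩ := Int.eq_ofNat_of_zero_le hn
      exact key m a ha
  obtain ⟨N, hN⟩ : ∃ N : ℕ, P (x ^ N * a) ≤ 1 := by
    rcases eq_or_ne a 0 with rfl | ha
    · exact ⟨0, by rw [mul_zero, map_zero]; exact zero_le⟩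
    · obtain ⟨N, hN⟩ := exists_pow_lt_of_lt_one
        (show 0 < (P a)⁻¹ by rw [inv_pos, Valuation.pos_iff]; exact ha) h.lt_one
      refine ⟨N, ?_⟩
      rw [map_mul, map_pow]
      have h1 : 0 < P a := by rwa [Valuation.pos_iff]
      rw [← inv_inv (P a), ← div_eq_mul_inv]
      exact div_le_one_of_le₀ hN.le zero_le
  have h3 := key2 (n + N) _ hN
  rw [map_mul, map_pow, hsx, hJ'.coeff_mul_pow, hJ.coeff_mul_pow] at h3
  exact h3


/-- `P a = P x ^ order` -/
theorem IsExp.val_eq (hJ : IsExp i P x J) (h : RU i P x) {a : Y} (ha : a ≠ 0) :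
    P a = P x ^ (J a).order := by
  obtain ⟨n, hn⟩ := h.exists_pow ha
  suffices h1 : (J a).order = n by rw [h1, hn]
  have hJx : ∀ m : ℤ, J (x ^ m) = HahnSeries.single m 1 := by
    have h1 : ∀ m : ℕ, J (x ^ m) = HahnSeries.single (m : ℤ) 1 := by
      intro m
      rw [map_pow, hJ.par, HahnSeries.single_pow, one_pow, nsmul_eq_mul, mul_one]
    intro m
    rcases Int.eq_nat_or_neg m with ⟨m, rfl | rfl⟩
    · rw [zpow_natCast, h1]
    · rw [zpow_neg, zpow_natCast, map_inv₀, h1, HahnSeries.inv_single, inv_one]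
  have h0 : J a ≠ 0 := (map_ne_zero J).mpr ha
  have hP : P (a * x ^ (-n)) = 1 := by
    rw [map_mul, map_zpow₀, hn, ← zpow_add₀ h.pos.ne', add_neg_cancel, zpow_zero]
  have hP' : P (a * x ^ (-n))⁻¹ = 1 := by rw [map_inv₀, hP, inv_one]
  have hne : a * x ^ (-n) ≠ 0 := mul_ne_zero ha (zpow_ne_zero _ h.ne)
  have e1 : ∀ b : Y, b ≠ 0 → P b ≤ 1 → 0 ≤ (J b).order := by
    intro b hb hb1
    by_contra hc
    push Not at hc
    have := hJ.nonneg b hb1 _ hc
    exact HahnSeries.coeff_order_eq_zero.not.2 ((map_ne_zero J).mpr hb) this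
  have e2 := e1 _ hne hP.le
  have e3 := e1 _ (inv_ne_zero hne) hP'.le
  have e4 : (J (a * x ^ (-n))).order = (J a).order - n := by
    rw [map_mul, hJx, HahnSeries.order_mul h0 (by
      rw [ne_eq, HahnSeries.single_eq_zero_iff]; exact one_ne_zero), HahnSeries.order_single one_ne_zero]
    ring
  have e5 : (J (a * x ^ (-n))⁻¹).order = -(J (a * x ^ (-n))).order := by
    have h1 : J (a * x ^ (-n)) * J (a * x ^ (-n))⁻¹ = 1 := by
      rw [← map_mul, mul_inv_cancel₀ hne, map_one]
    have h2 := congrArg HahnSeries.order h1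
    rw [HahnSeries.order_mul ((map_ne_zero J).mpr hne) ((map_ne_zero J).mpr (inv_ne_zero hne)),
      HahnSeries.order_one] at h2
    linarith
  linarith


end

end Crest.Agent.R013.Small2_940
end

-- ▼ part R013/Small3_940
section

/-!
# R013 / Small3: fields of functions on small discs inside Laurent series (helper940)

`frB D hR` : the subfield of `F((X))` of quotients of power series with coefficients in `D`,
bounded at the radius `R`.
`frL` : `FDisc F R →+* F((X))`; `lift` : a ring hom `Y → F((X))` with values in `frB ⊤ hR` lifts to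
`FDisc F R`.
-/

set_option autoImplicit false
set_option linter.unusedSectionVars false

namespace Crest.Agent.R013.Small3_940

open PowerSeries Filter
open scoped NNReal Topology
open Crest.Agent.R013.KAS2_940 (Bd bd_zero bd_one bd_C)
open Crest.Agent.R013.KAS2_940
open Crest.Agent.R013.KAS3_940 Crest.Agent.R013.Good1_940 Crest.Agent.R013.Gl946
open Crest.Agent.R013.Good3_940
open Crest.Agent.R013.Puis_702 (mapL coeff_mapL exists_pow_mul)

section frB

variable {F : Type*} [NontriviallyNormedField F] [IsUltrametricDist F]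

/-- power series as Laurent series -/
noncomputable abbrev toL (F : Type*) [Field F] : F⟦X⟧ →+* LaurentSeries F :=
  HahnSeries.ofPowerSeries ℤ F

/-- bounded power series with coefficients in `D` -/
def bsD (D : Subfield F) {R : ℝ} (hR : 0 < R) : Subring F⟦X⟧ where
  carrier := {f | (∀ n, coeff n f ∈ D) ∧ f ∈ bsub (K := F) R hR}
  mul_mem' := by
    rintro f g ⟨hf, hf'⟩ ⟨hg, hg'⟩
    refine ⟨fun n => ?_, mul_mem hf' hg'⟩
    rw [coeff_mul]
    exact sum_mem fun x _ => mul_mem (hf _) (hg _)
  one_mem' := by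
    refine ⟨fun n => ?_, one_mem _⟩
    rw [coeff_one]
    split_ifs
    · exact one_mem _
    · exact zero_mem _
  add_mem' := by
    rintro f g ⟨hf, hf'⟩ ⟨hg, hg'⟩
    exact ⟨fun n => by rw [map_add]; exact add_mem (hf n) (hg n), add_mem hf' hg'⟩
  zero_mem' := ⟨fun n => by rw [map_zero]; exact zero_mem _, zero_mem _⟩
  neg_mem' := by
    rintro f ⟨hf, hf'⟩
    exact ⟨fun n => by rw [map_neg]; exact neg_mem (hf n), neg_mem hf'⟩


/-- quotients of bounded power series with coefficients in `D` -/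
def frB (D : Subfield F) {R : ℝ} (hR : 0 < R) : Subfield (LaurentSeries F) where
  carrier := {z | ∃ a ∈ bsD D hR, ∃ b ∈ bsD D hR, b ≠ 0 ∧ z * toL F b = toL F a}
  mul_mem' := by
    rintro z z' ⟨a, ha, b, hb, hb0, h⟩ ⟨a', ha', b', hb', hb0', h'⟩
    refine ⟨a * a', mul_mem ha ha', b * b', mul_mem hb hb', mul_ne_zero hb0 hb0', ?_⟩
    rw [map_mul, map_mul, ← h, ← h']; ring
  one_mem' := ⟨1, one_mem _, 1, one_mem _, one_ne_zero, by rw [one_mul]⟩
  add_mem' := by
    rintro z z' ⟨a, ha, b, hb, hb0, h⟩ ⟨a', ha', b', hb', hb0', h'⟩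
    refine ⟨a * b' + a' * b, add_mem (mul_mem ha hb') (mul_mem ha' hb), b * b', mul_mem hb hb',
      mul_ne_zero hb0 hb0', ?_⟩
    rw [map_mul, map_add, map_mul, map_mul, ← h, ← h']; ring
  zero_mem' := ⟨0, zero_mem _, 1, one_mem _, one_ne_zero, by rw [zero_mul, map_zero]⟩
  neg_mem' := by
    rintro z ⟨a, ha, b, hb, hb0, h⟩
    exact ⟨-a, neg_mem ha, b, hb, hb0, by rw [map_neg, neg_mul, h]⟩
  inv_mem' := by
    rintro z ⟨a, ha, b, hb, hb0, h⟩
    by_cases hz : z = 0
    · subst hz
      rw [inv_zero]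
      exact ⟨0, zero_mem _, 1, one_mem _, one_ne_zero, by rw [zero_mul, map_zero]⟩
    · refine ⟨b, hb, a, ha, ?_, ?_⟩
      · rintro rfl
        rw [map_zero] at h
        rcases mul_eq_zero.mp h with h | h
        · exact hz h
        · exact hb0 (HahnSeries.ofPowerSeries_injective (by rw [h, map_zero]))
      · rw [← h, ← mul_assoc, inv_mul_cancel₀ hz, one_mul]


theorem bsD_mono {D D' : Subfield F} (h : D ≤ D') {R : ℝ} {hR : 0 < R} : bsD D hR ≤ bsD D' hR :=
  fun _ hf => ⟨fun n => h (hf.1 n), hf.2⟩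

theorem frB_mono {D D' : Subfield F} (h : D ≤ D') {R : ℝ} {hR : 0 < R} : frB D hR ≤ frB D' hR := by
  rintro z ⟨a, ha, b, hb, hb0, hz⟩
  exact ⟨a, bsD_mono h ha, b, bsD_mono h hb, hb0, hz⟩



theorem C_mem_bsD {D : Subfield F} {R : ℝ} {hR : 0 < R} {c : F} (hc : c ∈ D) :
    (C c : F⟦X⟧) ∈ bsD D hR := by
  refine ⟨fun n => ?_, C_mem c⟩
  rw [coeff_C]
  split_ifs
  · exact hc
  · exact zero_mem _

theorem X_mem_bsD {D : Subfield F} {R : ℝ} {hR : 0 < R} : (X : F⟦X⟧) ∈ bsD D hR := by
  refine ⟨fun n => ?_, X_mem⟩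
  rw [coeff_X]
  split_ifs
  · exact one_mem _
  · exact zero_mem _

theorem toL_mem_frB {D : Subfield F} {R : ℝ} {hR : 0 < R} {f : F⟦X⟧} (hf : f ∈ bsD D hR) :
    toL F f ∈ frB D hR := ⟨f, hf, 1, one_mem _, one_ne_zero, by rw [map_one, mul_one]⟩

theorem C_mem_frB {D : Subfield F} {R : ℝ} {hR : 0 < R} {c : F} (hc : c ∈ D) :
    (HahnSeries.C c : LaurentSeries F) ∈ frB D hR := by
  rw [← HahnSeries.ofPowerSeries_C]
  exact toL_mem_frB (C_mem_bsD hc)


theorem mem_frB_of_bdd {D : Subfield F} {R : ℝ} {hR : 0 < R} {z : LaurentSeries F} {B : ℝ}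
    (hD : ∀ i, z.coeff i ∈ D) (hB : ∀ i : ℤ, ‖z.coeff i‖ * R ^ i ≤ B) : z ∈ frB D hR := by
  obtain ⟨N, hN⟩ := exists_pow_mul z
  obtain ⟨w, hw⟩ := hN N le_rfl
  have hcoeff : ∀ n : ℕ, coeff n w = z.coeff ((n : ℤ) - N) := by
    intro n
    have h1 : (toL F w).coeff (n : ℤ) = coeff n w := by
      exact HahnSeries.ofPowerSeries_apply_coeff _ _
    rw [← h1, toL, ← hw, map_pow, HahnSeries.ofPowerSeries_X, HahnSeries.single_pow]
    have h2 : (N • (1 : ℤ)) = (N : ℤ) := by simp
    rw [h2, one_pow, HahnSeries.coeff_single_mul, one_mul]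
  refine ⟨w, ⟨fun n => by rw [hcoeff]; exact hD _, B * R ^ (N : ℤ), fun n => ?_⟩, X ^ N,
    pow_mem X_mem_bsD N, pow_ne_zero _ X_ne_zero, ?_⟩
  · rw [hcoeff]
    have h3 : (R : ℝ) ^ n = R ^ ((n : ℤ) - N) * R ^ (N : ℤ) := by
      rw [← zpow_add₀ hR.ne', sub_add_cancel, zpow_natCast]
    rw [h3, ← mul_assoc]
    exact mul_le_mul_of_nonneg_right (hB _) (by positivity)
  · rw [mul_comm]; exact hw

end frB

section lift

/-- factorisation of ring homs through an injective ring hom -/
noncomputable def liftInj {A B Y : Type*} [Semiring A] [Semiring B] [Semiring Y] (f : A →+* B)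
    (hf : Function.Injective f) (J : Y →+* B) (h : ∀ z, ∃ a, f a = J z) : Y →+* A where
  toFun z := (h z).choose
  map_one' := hf (by rw [(h 1).choose_spec, map_one, map_one])
  map_mul' a b := hf (by
    rw [(h (a * b)).choose_spec, map_mul, map_mul, (h a).choose_spec, (h b).choose_spec])
  map_zero' := hf (by rw [(h 0).choose_spec, map_zero, map_zero])
  map_add' a b := hf (by
    rw [(h (a + b)).choose_spec, map_add, map_add, (h a).choose_spec, (h b).choose_spec])

theorem liftInj_spec {A B Y : Type*} [Semiring A] [Semiring B] [Semiring Y] (f : A →+* B)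
    (hf : Function.Injective f) (J : Y →+* B) (h : ∀ z, ∃ a, f a = J z) (z : Y) :
    f (liftInj f hf J h z) = J z := (h z).choose_spec

end lift

section frL

variable {F : Type*} [NontriviallyNormedField F] [IsUltrametricDist F]

/-- the disc field inside the Laurent series -/
noncomputable def frL {R : ℝ} (hR : 0 < R) : FDisc F R hR →+* LaurentSeries F :=
  IsFractionRing.lift (g := (toL F).comp (bsub (K := F) R hR).subtype)
    (HahnSeries.ofPowerSeries_injective.comp Subtype.val_injective)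

theorem frL_algebraMap {R : ℝ} {hR : 0 < R} (f : bsub (K := F) R hR) :
    frL hR (algebraMap _ (FDisc F R hR) f) = toL F f.1 :=
  IsFractionRing.lift_algebraMap _ f

theorem mem_range_frL {R : ℝ} {hR : 0 < R} {z : LaurentSeries F}
    (hz : z ∈ frB (⊤ : Subfield F) hR) : ∃ w, frL (F := F) hR w = z := by
  obtain ⟨a, ha, b, hb, hb0, h⟩ := hz
  refine ⟨algebraMap _ _ (⟨a, ha.2⟩ : bsub (K := F) R hR) / algebraMap _ _ (⟨b, hb.2⟩ : bsub (K := F) R hR), ?_⟩
  rw [map_div₀, frL_algebraMap, frL_algebraMap, ← h, mul_div_cancel_right₀]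
  rw [ne_eq, map_eq_zero_iff _ HahnSeries.ofPowerSeries_injective]
  exact hb0

/-- **lifting of expansions to the disc field** -/
noncomputable def liftD {R : ℝ} (hR : 0 < R) {Y : Type*} [Field Y] (J : Y →+* LaurentSeries F)
    (h : ∀ z, J z ∈ frB (⊤ : Subfield F) hR) : Y →+* FDisc F R hR :=
  liftInj (frL hR) (frL hR).injective J fun z => mem_range_frL (h z)

theorem frL_liftD {R : ℝ} {hR : 0 < R} {Y : Type*} [Field Y] {J : Y →+* LaurentSeries F}
    {h : ∀ z, J z ∈ frB (⊤ : Subfield F) hR} (z : Y) : frL hR (liftD hR J h z) = J z :=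
  liftInj_spec _ _ _ _ z


end frL

end Crest.Agent.R013.Small3_940
end

-- ▼ part R013/Lau_702
section

/-!
# Row 13 (helper702): Laurent expansion at a rational place
-/

set_option autoImplicit false

open scoped NNReal
open Crest.NumberTheoryR.Sect Polynomial

namespace Crest.Agent.R013.Lau_702

variable {k : Type*} [Field k] {K : Type*} [Field K] [Algebra k K]

/-- `P` is a rational place with uniformiser `x` -/
structure RP (P : Valuation K ℝ≥0) (x : K) : Prop where
  triv : ∀ c : k, c ≠ 0 → P (algebraMap k K c) = 1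
  lt_one : P x < 1
  ne_zero : x ≠ 0
  res : ∀ a : K, P a ≤ 1 → ∃ c : k, P (a - algebraMap k K c) < 1
  unif : ∀ a : K, P a < 1 → P a ≤ P x

theorem RP.mk' {P : Valuation K ℝ≥0} {x : K} (hP : IsRationalPlace k K P)
    (hx : IsUniformizerAt P x) : RP (k := k) P x := by
  refine ⟨hP.1.1, hx.1, ?_, hP.2, hx.2⟩
  rintro rfl
  obtain ⟨a, ha0, ha1⟩ := hP.1.2
  have hx2 := hx.2
  simp only [map_zero, nonpos_iff_eq_zero] at hx2
  rcases lt_or_gt_of_ne ha1 with h | h
  · exact ha0 (hx2 a h)
  · have h1 : P a⁻¹ < 1 := by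
      rw [map_inv₀]; exact inv_lt_one_of_one_lt₀ h
    have h2 := hx2 _ h1
    rw [map_inv₀, inv_eq_zero] at h2
    exact ha0 h2

variable {P : Valuation K ℝ≥0} {x : K} (h : RP (k := k) P x)

namespace RP
include h

theorem pos : 0 < P x := zero_lt_iff.2 ((Valuation.ne_zero_iff _).2 h.ne_zero)

theorem triv_le (c : k) : P (algebraMap k K c) ≤ 1 := by
  by_cases hc : c = 0
  · rw [hc, map_zero, map_zero]; exact zero_le
  · exact (h.triv c hc).le

theorem aeval_le (q : k[X]) : P (aeval x q) ≤ 1 := by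
  induction q using Polynomial.induction_on' with
  | add p q hp hq =>
    rw [map_add]
    exact (P.map_add _ _).trans (max_le hp hq)
  | monomial n a =>
    rw [aeval_monomial, map_mul, map_pow]
    exact mul_le_one' (h.triv_le a) (pow_le_one₀ zero_le h.lt_one.le)

theorem aeval_le_pow {n : ℕ} {q : k[X]} (hq : ∀ i < n, q.coeff i = 0) :
    P (aeval x q) ≤ P x ^ n := by
  obtain ⟨r, rfl⟩ := X_pow_dvd_iff.2 hq
  rw [map_mul, map_pow, aeval_X, map_mul, map_pow]
  calc P x ^ n * P (aeval x r) ≤ P x ^ n * 1 := mul_le_mul' le_rfl (h.aeval_le r)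
    _ = P x ^ n := mul_one _

end RP

theorem trunc_zero' (g : PowerSeries k) : PowerSeries.trunc 0 g = 0 := by
  ext i
  rw [PowerSeries.coeff_trunc, if_neg (Nat.not_lt_zero i), Polynomial.coeff_zero]

/-- `g` is the expansion of `a` in powers of `x` -/
def Exp (P : Valuation K ℝ≥0) (x : K) (a : K) (g : PowerSeries k) : Prop :=
  ∀ n, P (a - aeval x (PowerSeries.trunc n g)) ≤ P x ^ n

theorem Exp.add {a b : K} {f g : PowerSeries k} (ha : Exp P x a f) (hb : Exp P x b g) :
    Exp P x (a + b) (f + g) := by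
  intro n
  have : a + b - aeval x (PowerSeries.trunc n (f + g)) =
      (a - aeval x (PowerSeries.trunc n f)) + (b - aeval x (PowerSeries.trunc n g)) := by
    rw [map_add, map_add]; ring
  rw [this]
  exact (P.map_add _ _).trans (max_le (ha n) (hb n))

include h in
theorem Exp.mul {a b : K} {f g : PowerSeries k} (ha : Exp P x a f) (hb : Exp P x b g) :
    Exp P x (a * b) (f * g) := by
  intro n
  set A := PowerSeries.trunc n f
  set B := PowerSeries.trunc n g
  have ha1 : P a ≤ 1 := by
    have h0 := ha 0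
    rwa [trunc_zero', map_zero, sub_zero, pow_zero] at h0
  have h1 : a * b - aeval x (PowerSeries.trunc n (f * g)) =
      a * (b - aeval x B) + (a - aeval x A) * aeval x B +
        aeval x (A * B - PowerSeries.trunc n (f * g)) := by
    rw [map_sub, map_mul (aeval x) A B]; ring
  rw [h1]
  refine (P.map_add _ _).trans (max_le ((P.map_add _ _).trans (max_le ?_ ?_)) ?_)
  · rw [map_mul]
    calc P a * P (b - aeval x B) ≤ 1 * P x ^ n := mul_le_mul' ha1 (hb n)
      _ = _ := one_mul _
  · rw [map_mul]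
    calc P (a - aeval x A) * P (aeval x B) ≤ P x ^ n * 1 := mul_le_mul' (ha n) (h.aeval_le B)
      _ = _ := mul_one _
  · refine h.aeval_le_pow fun i hi => ?_
    rw [coeff_sub, sub_eq_zero, ← PowerSeries.trunc_trunc_mul_trunc, PowerSeries.coeff_trunc,
      if_pos hi, ← Polynomial.coe_mul, Polynomial.coeff_coe]

include h in
theorem exp_C (c : k) : Exp P x (algebraMap k K c) (PowerSeries.C c) := by
  intro n
  rcases n with _ | n
  · rw [trunc_zero', map_zero, sub_zero, pow_zero]
    exact h.triv_le c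
  · rw [PowerSeries.trunc_C, aeval_C, sub_self, map_zero]; exact zero_le

include h in
theorem exp_X : Exp P x x (PowerSeries.X : PowerSeries k) := by
  intro n
  rcases n with _ | _ | n
  · rw [trunc_zero', map_zero, sub_zero, pow_zero]
    exact h.lt_one.le
  · have : PowerSeries.trunc 1 (PowerSeries.X : PowerSeries k) = 0 := by
      ext i
      rw [PowerSeries.coeff_trunc, PowerSeries.coeff_X]
      split_ifs <;> simp_all
    rw [zero_add, this, map_zero, sub_zero, pow_one]
  · rw [PowerSeries.trunc_X, aeval_X, sub_self, map_zero]; exact zero_le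

include h in
/-- the leading term -/
theorem Exp.val {a : K} {g : PowerSeries k} (ha : Exp P x a g) (hg : g ≠ 0) :
    P a = P x ^ g.order.toNat := by
  set m := g.order.toNat with hm
  have h1 := ha (m + 1)
  have hc : PowerSeries.coeff m g ≠ 0 := PowerSeries.coeff_order hg
  have ht : PowerSeries.trunc (m + 1) g = Polynomial.monomial m (PowerSeries.coeff m g) := by
    ext i
    rw [PowerSeries.coeff_trunc, coeff_monomial]
    split_ifs with h2 h3 h3
    · rw [h3]
    · exact PowerSeries.coeff_of_lt_order_toNat _ (by omega)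
    · omega
    · rfl
  rw [ht, aeval_monomial] at h1
  have h2 : P (algebraMap k K (PowerSeries.coeff m g) * x ^ m) = P x ^ m := by
    rw [map_mul, h.triv _ hc, one_mul, map_pow]
  have h3 : P (a - algebraMap k K (PowerSeries.coeff m g) * x ^ m) <
      P (algebraMap k K (PowerSeries.coeff m g) * x ^ m) := by
    rw [h2]
    refine h1.trans_lt ?_
    exact pow_lt_pow_right_of_lt_one₀ h.pos h.lt_one (Nat.lt_succ_self m)
  rw [← h2]
  exact (Valuation.map_eq_of_sub_lt P h3)

include h in
theorem Exp.zero_iff {a : K} {g : PowerSeries k} (ha : Exp P x a g) : g = 0 ↔ a = 0 := by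
  constructor
  · rintro rfl
    by_contra h0
    have h1 : 0 < P a := zero_lt_iff.2 ((Valuation.ne_zero_iff _).2 h0)
    obtain ⟨n, hn⟩ := exists_pow_lt_of_lt_one h1 h.lt_one
    have h2 := ha n
    have h3 : PowerSeries.trunc n (0 : PowerSeries k) = 0 := by simp
    rw [h3, map_zero, sub_zero] at h2
    exact absurd (h2.trans_lt hn) (lt_irrefl _)
  · rintro rfl
    by_contra hg
    have := ha.val h hg
    rw [map_zero] at this
    exact pow_ne_zero _ h.pos.ne' this.symm

include h in
theorem Exp.unique {a : K} {f g : PowerSeries k} (hf : Exp P x a f) (hg : Exp P x a g) : f = g := by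
  have h1 : Exp P x (-a) (-g) := by
    have := (exp_C h (-1)).mul h hg
    simpa using this
  have h2 := hf.add h1
  rw [add_neg_cancel] at h2
  have h3 := (h2.zero_iff h).2 rfl
  rwa [← sub_eq_add_neg, sub_eq_zero] at h3

include h in
theorem exists_exp {a : K} (ha : P a ≤ 1) : ∃ g : PowerSeries k, Exp P x a g := by
  choose c hc using h.res
  have hstep : ∀ b : {b : K // P b ≤ 1}, P ((b.1 - algebraMap k K (c b.1 b.2)) / x) ≤ 1 := by
    intro b
    rw [map_div₀]
    exact div_le_one_of_le₀ (h.unif _ (hc b.1 b.2)) zero_le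
  let r : ℕ → {b : K // P b ≤ 1} := fun n => Nat.rec ⟨a, ha⟩
    (fun _ b => ⟨(b.1 - algebraMap k K (c b.1 b.2)) / x, hstep b⟩) n
  have hr0 : (r 0).1 = a := rfl
  have hrS : ∀ n, (r (n + 1)).1 * x = (r n).1 - algebraMap k K (c (r n).1 (r n).2) := by
    intro n
    exact div_mul_cancel₀ _ h.ne_zero
  refine ⟨PowerSeries.mk fun n => c (r n).1 (r n).2, fun n => ?_⟩
  have key : ∀ n, a = aeval x (PowerSeries.trunc n (PowerSeries.mk fun n => c (r n).1 (r n).2)) +
      x ^ n * (r n).1 := by
    intro n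
    induction n with
    | zero =>
      rw [trunc_zero', map_zero, zero_add, pow_zero, one_mul, hr0]
    | succ n ih =>
      rw [PowerSeries.trunc_succ, map_add, aeval_monomial, PowerSeries.coeff_mk, pow_succ]
      have := hrS n
      conv_lhs => rw [ih]
      linear_combination (-x ^ n) * this
  have h1 : a - aeval x (PowerSeries.trunc n (PowerSeries.mk fun n => c (r n).1 (r n).2)) =
      x ^ n * (r n).1 := by
    conv_lhs => rw [key n]
    ring
  rw [h1, map_mul, map_pow]
  calc P x ^ n * P (r n).1 ≤ P x ^ n * 1 := mul_le_mul' le_rfl (r n).2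
    _ = _ := mul_one _


include h in
theorem exists_j0 : ∃ j0 : P.valuationSubring →+* PowerSeries k,
    ∀ a : P.valuationSubring, Exp P x a.1 (j0 a) := by
  have hex : ∀ a : P.valuationSubring, ∃ g : PowerSeries k, Exp P x a.1 g := fun a =>
    exists_exp h ((Valuation.mem_valuationSubring_iff P a.1).1 a.2)
  choose g hg using hex
  refine ⟨{ toFun := g, map_one' := ?_, map_mul' := ?_, map_zero' := ?_, map_add' := ?_ }, hg⟩
  · have h1 := exp_C h 1
    rw [map_one, map_one] at h1
    exact (hg 1).unique h h1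
  · intro a b
    exact (hg (a * b)).unique h ((hg a).mul h (hg b))
  · have h1 := exp_C h 0
    rw [map_zero, map_zero] at h1
    exact (hg 0).unique h h1
  · intro a b
    exact (hg (a + b)).unique h ((hg a).add (hg b))

theorem order_ofPS {g : PowerSeries k} (hg : g ≠ 0) :
    (HahnSeries.ofPowerSeries ℤ k g).order = g.order.toNat := by
  refine le_antisymm ?_ ?_
  · refine HahnSeries.order_le_of_coeff_ne_zero ?_
    rw [LaurentSeries.coeff_coe_powerSeries]
    exact PowerSeries.coeff_order hg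
  · by_contra hlt
    push Not at hlt
    have hne : HahnSeries.ofPowerSeries ℤ k g ≠ 0 := by
      rw [Ne, map_eq_zero_iff _ HahnSeries.ofPowerSeries_injective]; exact hg
    have h1 := HahnSeries.coeff_order_eq_zero.not.2 hne
    apply h1
    rw [PowerSeries.coeff_coe]
    split_ifs with h2
    · rfl
    · apply PowerSeries.coeff_of_lt_order_toNat
      omega

include h in
/-- **Laurent expansion at a rational place.** -/
theorem exists_laurent : ∃ j : K →+* LaurentSeries k,
    (∀ c, j (algebraMap k K c) = HahnSeries.C c) ∧ j x = HahnSeries.single (1 : ℤ) (1 : k) ∧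
    (∀ a, P a ≤ 1 → ∃ g : PowerSeries k, j a = HahnSeries.ofPowerSeries ℤ k g ∧ Exp P x a g) ∧
    (∀ a, a ≠ 0 → P a = P x ^ (j a).order) := by
  obtain ⟨j0, hj0⟩ := exists_j0 h
  set j1 := (HahnSeries.ofPowerSeries ℤ k).comp j0 with hj1
  have hinj : Function.Injective j1 := by
    rw [hj1, RingHom.coe_comp]
    refine HahnSeries.ofPowerSeries_injective.comp ?_
    rw [injective_iff_map_eq_zero]
    intro a ha
    have := ((hj0 a).zero_iff h).1 ha
    exact Subtype.ext this
  set j : K →+* LaurentSeries k := IsFractionRing.lift hinj with hj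
  have hja : ∀ a : P.valuationSubring, j a.1 = HahnSeries.ofPowerSeries ℤ k (j0 a) := fun a =>
    IsFractionRing.lift_algebraMap hinj a
  have h1 : ∀ a, P a ≤ 1 → ∃ g : PowerSeries k, j a = HahnSeries.ofPowerSeries ℤ k g ∧
      Exp P x a g := fun a ha =>
    ⟨j0 ⟨a, (Valuation.mem_valuationSubring_iff P a).2 ha⟩, hja ⟨a, _⟩, hj0 ⟨a, _⟩⟩
  have h2 : ∀ a, a ≠ 0 → P a ≤ 1 → P a = P x ^ (j a).order := by
    intro a ha0 ha
    obtain ⟨g, hg, he⟩ := h1 a ha
    have hg0 : g ≠ 0 := fun h0 => ha0 ((he.zero_iff h).1 h0)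
    rw [hg, order_ofPS hg0, zpow_natCast]
    exact he.val h hg0
  refine ⟨j, fun c => ?_, ?_, h1, fun a ha0 => ?_⟩
  · obtain ⟨g, hg, he⟩ := h1 _ (h.triv_le c)
    rw [hg, he.unique h (exp_C h c), HahnSeries.ofPowerSeries_C]
  · obtain ⟨g, hg, he⟩ := h1 _ h.lt_one.le
    rw [hg, he.unique h (exp_X h), HahnSeries.ofPowerSeries_X]
  · rcases le_total (P a) 1 with ha | ha
    · exact h2 a ha0 ha
    · have h3 : P a⁻¹ ≤ 1 := by
        rw [map_inv₀]; exact inv_le_one_of_one_le₀ ha
      have h4 := h2 a⁻¹ (inv_ne_zero ha0) h3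
      have h5 : (j a⁻¹).order = -(j a).order := by
        have hne : j a ≠ 0 := (map_ne_zero j).2 ha0
        have hne' : j a⁻¹ ≠ 0 := (map_ne_zero j).2 (inv_ne_zero ha0)
        have h6 : (j a * j a⁻¹).order = 0 := by
          rw [← map_mul, mul_inv_cancel₀ ha0, map_one, HahnSeries.order_one]
        rw [HahnSeries.order_mul hne hne'] at h6
        omega
      rw [h5, map_inv₀, zpow_neg, inv_inj] at h4
      exact h4

/-- for a function field everything is algebraic over `k(x)` -/
theorem isAlgebraic_adjoin [Algebra (RatFunc k) K] [IsScalarTower k (RatFunc k) K]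
    [FiniteDimensional (RatFunc k) K] (y : K) (hy : Transcendental k y) :
    Algebra.IsAlgebraic (IntermediateField.adjoin k {y}) K := by
  have hfin := RR20_948.ratAlg_finite (k := k) (K := K) y hy
  let i := RR20_948.ratAlg y hy
  have hfin' : @FiniteDimensional (RatFunc k) K _ _ i.toModule := hfin
  have halg : @Algebra.IsAlgebraic (RatFunc k) K _ _ i := by
    let _ := i
    exact Algebra.IsAlgebraic.of_finite (RatFunc k) K
  have hmem : ∀ f : RatFunc k, RR20_948.ratHom y hy f ∈ IntermediateField.adjoin k {y} := by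
    intro f
    have : (RR20_948.ratHom y hy).fieldRange ≤ IntermediateField.adjoin k {y} := by
      rintro _ ⟨f, rfl⟩
      induction f using RatFunc.induction_on with
      | f p q hq =>
        have h1 : ∀ p : k[X], RR20_948.ratHom y hy (algebraMap k[X] (RatFunc k) p) ∈
            IntermediateField.adjoin k {y} := by
          intro p
          have h2 := RatFunc.liftAlgHom_apply_div (Polynomial.aeval y)
            (nonZeroDivisors_le_comap_nonZeroDivisors_of_injective _
              (transcendental_iff_injective.mp hy)) p 1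
          simp only [map_one, div_one] at h2
          have h3 : RR20_948.ratHom y hy (algebraMap k[X] (RatFunc k) p) = aeval y p := h2
          rw [h3]
          exact (IntermediateField.algebra_adjoin_le_adjoin k {y})
            (Polynomial.aeval_mem_adjoin_singleton k y)
        have h4 := (IntermediateField.adjoin k {y}).div_mem (h1 p) (h1 q)
        rw [← map_div₀] at h4
        exact h4
    exact this ⟨f, rfl⟩
  let φ : RatFunc k →+* IntermediateField.adjoin k {y} :=
    ((RR20_948.ratHom y hy) : RatFunc k →+* K).codRestrict _ hmem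
  refine ⟨fun a => ?_⟩
  obtain ⟨p, hp0, hp⟩ := @Algebra.IsAlgebraic.isAlgebraic (RatFunc k) K _ _ i halg a
  refine ⟨p.map φ, (Polynomial.map_ne_zero_iff φ.injective).2 hp0, ?_⟩
  rw [← eval_map_algebraMap, Polynomial.map_map]
  have h5 : (algebraMap (IntermediateField.adjoin k {y}) K).comp φ = @algebraMap (RatFunc k) K _ _ i := rfl
  rw [h5]
  rw [← @eval_map_algebraMap (RatFunc k) K _ _ i] at hp
  exact hp

include h in
theorem transcendental : Transcendental k x := by
  intro halg
  have hx := h.ne_zero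
  -- the valuation is trivial on the algebraic closure of `k`
  obtain ⟨p, hp0, hp⟩ := halg
  have hc : Exp P x (aeval x p) (p : PowerSeries k) := by
    intro n
    rw [← map_sub]
    refine h.aeval_le_pow fun i hi => ?_
    rw [coeff_sub, PowerSeries.coeff_trunc, if_pos hi, Polynomial.coeff_coe, sub_self]
  rw [hp] at hc
  have := (hc.zero_iff h).2 rfl
  exact hp0 (Polynomial.coe_eq_zero_iff.1 this)


end Crest.Agent.R013.Lau_702
end

-- ▼ part R013/Small4_940
section

/-!
# R013 / Small4: the canonical expansion `J` of `maxUnramified k K` at a rational place (helper940)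
-/

set_option autoImplicit false
set_option linter.unusedSectionVars false

namespace Crest.Agent.R013.Small4_940

open scoped NNReal
open Crest.NumberTheoryR.Sect Polynomial
open Crest.Agent.R013.Small2_940 Crest.Agent.R013.Small3_940
open Crest.Agent.R013.Puis_702 (mapL coeff_mapL convL CL)
open Crest.Agent.R013.MaxUnr_97

variable {k : Type*} [Field k] [CharZero k] {K : Type*} [Field K] [Algebra k K]
  [Algebra (RatFunc k) K] [IsScalarTower k (RatFunc k) K] [FiniteDimensional (RatFunc k) K]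

variable (k K) in
/-- the field of constants -/
noncomputable abbrev Cb := algebraicClosure k (AlgebraicClosure K)

variable (k K) in
/-- constants in `maxUnramified` -/
noncomputable def iM : Cb k K →+* maxUnramified k K :=
  (algebraMap (Cb k K) (AlgebraicClosure K)).codRestrict (maxUnramified k K) fun c =>
    mem_maxUnramified_of_isIntegral c.1 (isAlgebraic_iff_isIntegral.mp (mem_algebraicClosure_iff.mp c.2))

@[simp] theorem coe_iM (c : Cb k K) : ((iM k K c : maxUnramified k K) : AlgebraicClosure K) = c := rfl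

section place

variable {P : Valuation (AlgebraicClosure K) ℝ≥0} {x : K}

theorem ru_M (hP : IsRationalPlace k K (P.comap (algebraMap K (AlgebraicClosure K))))
    (hx : IsUniformizerAt (P.comap (algebraMap K (AlgebraicClosure K))) x) :
    RU (iM k K) (P.comap (algebraMap (maxUnramified k K) (AlgebraicClosure K)))
      (algebraMap K (maxUnramified k K) x) where
  rat a ha := by
    obtain ⟨c, hc, h1⟩ := exists_const_near
      (P.comap (algebraMap (maxUnramified k K) (AlgebraicClosure K))) hP a ha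
    have hc' : IsIntegral k (c : AlgebraicClosure K) := by
      have := hc.map (IsScalarTower.toAlgHom k (maxUnramified k K) (AlgebraicClosure K))
      exact this
    refine ⟨⟨(c : AlgebraicClosure K), mem_algebraicClosure_iff.mpr
      (isAlgebraic_iff_isIntegral.mpr hc')⟩, ?_⟩
    exact h1
  lt_one := hx.1
  unif a ha := by
    rcases eq_or_ne a 0 with rfl | ha0
    · rw [map_zero]; exact zero_le
    obtain ⟨L, hL, haL⟩ := Unr5_957.mem_maxUnramified_iff.mp a.2
    have hpl : IsPlace k (P.comap (algebraMap L (AlgebraicClosure K))) := by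
      refine ⟨fun c hc => ?_, ?_⟩
      · have := hP.1.1 c hc
        exact this
      · obtain ⟨b, hb0, hb1⟩ := hP.1.2
        exact ⟨algebraMap K L b, hb0, hb1⟩
    obtain ⟨b, hb⟩ := hL.2 _ hpl ⟨a, haL⟩ (fun h => ha0 (Subtype.ext (congrArg (Subtype.val : L → AlgebraicClosure K) h)))
    have hb' : P (a : AlgebraicClosure K) = P (algebraMap K (AlgebraicClosure K) b) := hb
    have h1 : P (a : AlgebraicClosure K) < 1 := ha
    show P (a : AlgebraicClosure K) ≤ P (algebraMap K (AlgebraicClosure K) x)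
    rw [hb'] at h1 ⊢
    exact hx.2 b h1
  ne := by
    have h1 := (Lau_702.RP.mk' hP hx).ne_zero
    exact (_root_.map_ne_zero _).mpr h1

/-- **the canonical expansion** -/
theorem exists_J {C Y : Type*} [Field C] [Field Y] (i : C →+* Y) (P : Valuation Y ℝ≥0) (x : Y)
    (h : RU i P x) (ht : ∀ c, c ≠ 0 → P (i c) = 1) : ∃ J : Y →+* LaurentSeries C, IsExp i P x J := by
  let _ : Algebra C Y := i.toAlgebra
  have h' : Lau_702.RP (k := C) P x := ⟨ht, h.lt_one, h.ne, h.rat, h.unif⟩
  obtain ⟨J, h1, h2, h3, -⟩ := Lau_702.exists_laurent h'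
  refine ⟨J, h1, h2, fun a ha n hn => ?_⟩
  obtain ⟨g, hg, -⟩ := h3 a ha
  rw [hg, PowerSeries.coeff_coe, if_pos hn]

theorem triv_const (hP : IsRationalPlace k K (P.comap (algebraMap K (AlgebraicClosure K))))
    {c : AlgebraicClosure K} (hc : IsIntegral k c) (hc0 : c ≠ 0) : P c = 1 := by
  have h1 : ∀ c : AlgebraicClosure K, IsIntegral k c → P c ≤ 1 := by
    intro c hc
    have hle : (⊤ : Subring k).map (algebraMap k (AlgebraicClosure K)) ≤ P.integer := by
      rintro _ ⟨a, -, rfl⟩
      rw [Valuation.mem_integer_iff]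
      rcases eq_or_ne a 0 with rfl | ha
      · rw [map_zero, map_zero]; exact zero_le
      · exact (hP.1.1 a ha).le
    have h2 : IsIntegral P.integer c := by
      obtain ⟨f, hf, hfc⟩ := hc
      let g : k →+* P.integer := (algebraMap k (AlgebraicClosure K)).codRestrict P.integer
        fun a => hle ⟨a, trivial, rfl⟩
      refine ⟨f.map g, hf.map g, ?_⟩
      rw [eval₂_map]
      exact hfc
    have h3 := Valuation.Integers.mem_of_integral (Valuation.integer.integers P) h2
    exact h3
  refine le_antisymm (h1 c hc) ?_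
  have h2 := h1 c⁻¹ hc.inv
  rw [map_inv₀] at h2
  have h3 : 0 < P c := by rwa [Valuation.pos_iff]
  exact (inv_le_one₀ h3).mp h2

theorem exists_JM (hP : IsRationalPlace k K (P.comap (algebraMap K (AlgebraicClosure K))))
    (hx : IsUniformizerAt (P.comap (algebraMap K (AlgebraicClosure K))) x) :
    ∃ J : maxUnramified k K →+* LaurentSeries (Cb k K),
      IsExp (iM k K) (P.comap (algebraMap (maxUnramified k K) (AlgebraicClosure K)))
        (algebraMap K (maxUnramified k K) x) J := by
  refine exists_J _ _ _ (ru_M hP hx) fun c hc => ?_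
  refine triv_const hP (c := (c : AlgebraicClosure K))
    (isAlgebraic_iff_isIntegral.mp (mem_algebraicClosure_iff.mp c.2)) ?_
  exact fun h => hc (Subtype.ext h)

theorem exists_JK (hP : IsRationalPlace k K (P.comap (algebraMap K (AlgebraicClosure K))))
    (hx : IsUniformizerAt (P.comap (algebraMap K (AlgebraicClosure K))) x)
    {J : maxUnramified k K →+* LaurentSeries (Cb k K)}
    (hJ : IsExp (iM k K) (P.comap (algebraMap (maxUnramified k K) (AlgebraicClosure K)))
        (algebraMap K (maxUnramified k K) x) J) :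
    ∃ JK : K →+* LaurentSeries k, IsExp (algebraMap k K)
      (P.comap (algebraMap K (AlgebraicClosure K))) x JK ∧
      J.comp (algebraMap K (maxUnramified k K)) = (mapL (algebraMap k (Cb k K))).comp JK := by
  have h := Lau_702.RP.mk' hP hx
  have h0 : RU (algebraMap k K) (P.comap (algebraMap K (AlgebraicClosure K))) x :=
    ⟨h.res, h.lt_one, h.unif, h.ne_zero⟩
  obtain ⟨JK, hJK⟩ := exists_J (algebraMap k K) _ x h0 hP.1.1
  refine ⟨JK, hJK, ?_⟩
  refine RingHom.ext fun a => ?_
  refine HahnSeries.ext (funext fun n => ?_)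
  rw [RingHom.comp_apply, RingHom.comp_apply, coeff_mapL]
  refine hJK.equiv hJ h0 (ru_M hP hx).ne (algebraMap K (maxUnramified k K)) (algebraMap k (Cb k K))
    (fun c => ?_) rfl (fun a ha => ha) a n
  apply Subtype.ext
  rfl

instance isGalois_Cb : IsGalois k (Cb k K) := by
  have : IsAlgClosure k (Cb k K) := inferInstance
  have : Normal k (Cb k K) := IsAlgClosure.normal k _
  exact IsGalois.mk

theorem exists_fin (hP : IsRationalPlace k K (P.comap (algebraMap K (AlgebraicClosure K))))
    (hx : IsUniformizerAt (P.comap (algebraMap K (AlgebraicClosure K))) x)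
    {J : maxUnramified k K →+* LaurentSeries (Cb k K)}
    (hJ : IsExp (iM k K) (P.comap (algebraMap (maxUnramified k K) (AlgebraicClosure K)))
        (algebraMap K (maxUnramified k K) x) J) (a : maxUnramified k K) :
    FiniteDimensional k (IntermediateField.adjoin k (Set.range (J a).coeff)) := by
  obtain ⟨JK, -, h1⟩ := exists_JK hP hx hJ
  have hint : IsIntegral K a := Algebra.IsIntegral.isIntegral a
  refine Puis_702.coeff_field ((minpoly K a).map JK)
    ((Polynomial.map_ne_zero_iff JK.injective).mpr (minpoly.ne_zero hint)) (J a) ?_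
  rw [Polynomial.map_map, ← h1, Polynomial.eval_map, ← Polynomial.hom_eval₂, ← Polynomial.aeval_def,
    minpoly.aeval, map_zero]

theorem exists_conv (hP : IsRationalPlace k K (P.comap (algebraMap K (AlgebraicClosure K))))
    (hx : IsUniformizerAt (P.comap (algebraMap K (AlgebraicClosure K))) x)
    {J : maxUnramified k K →+* LaurentSeries (Cb k K)}
    (hJ : IsExp (iM k K) (P.comap (algebraMap (maxUnramified k K) (AlgebraicClosure K)))
        (algebraMap K (maxUnramified k K) x) J) (v : Valuation (Cb k K) ℝ≥0)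
    (a : maxUnramified k K) : J a ∈ convL v := by
  obtain ⟨JK, hJK, h1⟩ := exists_JK hP hx hJ
  have h := Lau_702.RP.mk' hP hx
  have hK : ∀ b : K, J (algebraMap K (maxUnramified k K) b) ∈ convL v := by
    intro b
    have h2 := Puis_702.disc v JK hJK.con x hJK.par
      (Lau_702.isAlgebraic_adjoin x (Lau_702.transcendental h)) b
    have h3 := congrArg (fun f : K →+* LaurentSeries (Cb k K) => f b) h1
    simp only [RingHom.comp_apply] at h3
    rwa [h3]
  let j : K →+* convL v := (J.comp (algebraMap K (maxUnramified k K))).codRestrict (convL v) hK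
  have hint : IsIntegral K a := Algebra.IsIntegral.isIntegral a
  refine Puis_702.conv_of_alg (J a) ⟨(minpoly K a).map j,
    (Polynomial.map_ne_zero_iff j.injective).mpr (minpoly.ne_zero hint), ?_⟩
  rw [← Polynomial.eval_map_algebraMap, Polynomial.map_map]
  have h4 : (algebraMap (convL v) (LaurentSeries (Cb k K))).comp j =
    J.comp (algebraMap K (maxUnramified k K)) := rfl
  rw [h4, Polynomial.eval_map, ← Polynomial.hom_eval₂, ← Polynomial.aeval_def, minpoly.aeval,
    map_zero]

/-- **uniform bounds and finite level for finitely many functions** -/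
theorem exists_common (hP : IsRationalPlace k K (P.comap (algebraMap K (AlgebraicClosure K))))
    (hx : IsUniformizerAt (P.comap (algebraMap K (AlgebraicClosure K))) x)
    {J : maxUnramified k K →+* LaurentSeries (Cb k K)}
    (hJ : IsExp (iM k K) (P.comap (algebraMap (maxUnramified k K) (AlgebraicClosure K)))
        (algebraMap K (maxUnramified k K) x) J) (v : Valuation (Cb k K) ℝ≥0)
    (s : Finset (maxUnramified k K)) :
    ∃ C0 : IntermediateField k (Cb k K), FiniteDimensional k C0 ∧
      (∀ z ∈ s, ∀ i, (J z).coeff i ∈ C0) ∧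
      ∃ ρ : ℝ≥0, 0 < ρ ∧ ∃ B : ℝ≥0, ∀ z ∈ s, ∀ i : ℤ, v ((J z).coeff i) * ρ ^ i ≤ B := by
  classical
  have hf := fun a => exists_fin hP hx hJ a
  refine ⟨⨆ z ∈ s, IntermediateField.adjoin k (Set.range (J z).coeff), ?_, fun z hz i => ?_, ?_⟩
  · exact IntermediateField.finiteDimensional_iSup_of_finset' fun z _ => hf z
  · exact (le_iSup₂_of_le z hz le_rfl :
      IntermediateField.adjoin k (Set.range (J z).coeff) ≤ _)
        (IntermediateField.subset_adjoin _ _ ⟨i, rfl⟩)
  · obtain ⟨ρ, hρ, B, hB⟩ := Puis_702.bdd_common (v := v) (s.image J) (by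
      intro z hz
      obtain ⟨a, -, rfl⟩ := Finset.mem_image.mp hz
      exact exists_conv hP hx hJ v a)
    exact ⟨ρ, hρ, B, fun z hz i => hB _ (Finset.mem_image_of_mem J hz) i⟩

end place

end Crest.Agent.R013.Small4_940
end

-- ▼ part R013/Small5_940
section

/-!
# R013 / Small5: generation of the fields `E1 C`, finite levels (helper940)
-/

set_option autoImplicit false
set_option linter.unusedSectionVars false

namespace Crest.Agent.R013.Small5_940

open scoped NNReal
open Crest.NumberTheoryR.Sect Polynomial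
open Crest.Agent.R013.Small2_940 Crest.Agent.R013.Small3_940 Crest.Agent.R013.Small4_940

section general

variable {k : Type*} [Field k] {K : Type*} [Field K] [Algebra k K] {Ω : Type*} [Field Ω]
  [Algebra K Ω] [Algebra k Ω] [IsScalarTower k K Ω]

/-- a finite extension of a finitely generated extension -/
theorem exists_gen [Algebra (RatFunc k) K] [IsScalarTower k (RatFunc k) K]
    [FiniteDimensional (RatFunc k) K] (E : IntermediateField K Ω) [FiniteDimensional K E] :
    ∃ S : Finset Ω, (S : Set Ω) ⊆ E ∧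
      ∀ z ∈ E, z ∈ Subfield.closure (Set.range (algebraMap k Ω) ∪ (S : Set Ω)) := by
  have h1 : Algebra.EssFiniteType k[X] (RatFunc k) :=
    Algebra.EssFiniteType.of_isLocalization _ (nonZeroDivisors k[X])
  have h2 : Algebra.EssFiniteType k (RatFunc k) := Algebra.EssFiniteType.comp k k[X] (RatFunc k)
  have h3 : Algebra.EssFiniteType k K := Algebra.EssFiniteType.comp k (RatFunc k) K
  have h4 : Algebra.EssFiniteType k E := Algebra.EssFiniteType.comp k K E
  let E' : IntermediateField k Ω := E.restrictScalars k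
  have h5 : Algebra.EssFiniteType k E' := h4
  obtain ⟨S, hS⟩ := IntermediateField.essFiniteType_iff.mp h5
  have hE : ∀ z, z ∈ E ↔ z ∈ IntermediateField.adjoin k (S : Set Ω) := by
    intro z
    rw [hS]
    rfl
  refine ⟨S, fun z hz => (hE z).mpr (IntermediateField.subset_adjoin k _ hz), fun z hz => ?_⟩
  have h6 := (hE z).mp hz
  exact h6

/-- finite support of elements of a compositum -/
theorem exists_level (E : IntermediateField K Ω) (A B : Set Ω) {z : Ω}
    (hz : z ∈ E ⊔ IntermediateField.adjoin K A ⊔ IntermediateField.adjoin K B) :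
    ∃ T : Finset Ω, (T : Set Ω) ⊆ A ∧
      z ∈ E ⊔ IntermediateField.adjoin K (T : Set Ω) ⊔ IntermediateField.adjoin K B := by
  classical
  have h1 : E ⊔ IntermediateField.adjoin K A ⊔ IntermediateField.adjoin K B =
      IntermediateField.adjoin K ((E : Set Ω) ∪ A ∪ B) := by
    rw [IntermediateField.adjoin_union, IntermediateField.adjoin_union,
      IntermediateField.adjoin_self]
  rw [h1] at hz
  obtain ⟨U, hU, hzU⟩ := IntermediateField.exists_finset_of_mem_adjoin hz
  refine ⟨U.filter (· ∈ A), fun t ht => ?_, ?_⟩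
  · exact (Finset.mem_filter.mp (Finset.mem_coe.mp ht)).2
  · have h2 : IntermediateField.adjoin K (U : Set Ω) ≤
        E ⊔ IntermediateField.adjoin K ((U.filter (· ∈ A) : Finset Ω) : Set Ω) ⊔
          IntermediateField.adjoin K B := by
      rw [IntermediateField.adjoin_le_iff]
      intro t ht
      rcases hU ht with (h3 | h3) | h3
      · exact (le_sup_left.trans le_sup_left : E ≤ _) h3
      · refine (le_sup_right.trans le_sup_left : IntermediateField.adjoin K
          ((U.filter (· ∈ A) : Finset Ω) : Set Ω) ≤ _) ?_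
        exact IntermediateField.subset_adjoin K _
          (Finset.mem_coe.mpr (Finset.mem_filter.mpr ⟨Finset.mem_coe.mp ht, h3⟩))
      · exact (le_sup_right : IntermediateField.adjoin K B ≤ _)
          (IntermediateField.subset_adjoin K _ h3)
    exact h2 hzU

/-- a finite set of algebraic elements is contained in the root set of a polynomial -/
theorem exists_poly (T : Finset Ω) (hT : ∀ t ∈ T, IsAlgebraic k t) :
    ∃ f : k[X], f ≠ 0 ∧ ∀ t ∈ T, t ∈ f.rootSet Ω := by
  classical
  refine ⟨∏ t ∈ T, minpoly k t, ?_, fun t ht => ?_⟩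
  · exact Finset.prod_ne_zero_iff.mpr fun t ht => minpoly.ne_zero (hT t ht).isIntegral
  · rw [mem_rootSet]
    refine ⟨Finset.prod_ne_zero_iff.mpr fun t ht => minpoly.ne_zero (hT t ht).isIntegral, ?_⟩
    rw [map_prod]
    exact Finset.prod_eq_zero ht (minpoly.aeval k t)

theorem finite_root (f : k[X]) : FiniteDimensional k (IntermediateField.adjoin k (f.rootSet Ω)) := by
  have : Finite (f.rootSet Ω) := (Polynomial.rootSet_finite f Ω).to_subtype
  refine IntermediateField.finiteDimensional_adjoin fun t ht => ?_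
  rw [mem_rootSet] at ht
  exact IsAlgebraic.isIntegral ⟨f, ht.1, ht.2⟩

theorem finite_rootK (f : k[X]) :
    FiniteDimensional K (IntermediateField.adjoin K (f.rootSet Ω)) := by
  have : Finite (f.rootSet Ω) := (Polynomial.rootSet_finite f Ω).to_subtype
  refine IntermediateField.finiteDimensional_adjoin fun t ht => ?_
  rw [mem_rootSet] at ht
  exact (IsAlgebraic.isIntegral ⟨f, ht.1, ht.2⟩ : IsIntegral k t).tower_top

theorem adjoin_root_le (f : k[X]) (c : Ω) (hc : c ∈ IntermediateField.adjoin k (f.rootSet Ω)) :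
    c ∈ IntermediateField.adjoin K (f.rootSet Ω) := by
  have h1 : IntermediateField.adjoin k (f.rootSet Ω) ≤
      (IntermediateField.adjoin K (f.rootSet Ω)).restrictScalars k := by
    rw [IntermediateField.adjoin_le_iff]
    exact IntermediateField.subset_adjoin K _
  exact h1 hc

/-- the compositum of a normal extension of `K` and a constant field `k(roots of f)` is normal -/
theorem normal_sup [Normal K Ω] (E : IntermediateField K Ω) [Normal K E] (f : k[X]) :
    Normal K (E ⊔ IntermediateField.adjoin K (f.rootSet Ω) : IntermediateField K Ω) := by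
  rw [IntermediateField.normal_iff_forall_map_le]
  intro σ
  rw [IntermediateField.map_sup]
  refine sup_le_sup ?_ ?_
  · exact IntermediateField.normal_iff_forall_map_le.mp inferInstance σ
  · rw [IntermediateField.adjoin_map, IntermediateField.adjoin_le_iff]
    rintro _ ⟨t, ht, rfl⟩
    refine IntermediateField.subset_adjoin K _ ?_
    rw [mem_rootSet] at ht ⊢
    refine ⟨ht.1, ?_⟩
    have h1 := Polynomial.aeval_algHom_apply (σ.restrictScalars k) t f
    rw [ht.2, map_zero] at h1
    exact h1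

end general

end Crest.Agent.R013.Small5_940
end

-- ▼ part R013/Small6_940
section

/-!
# R013 / Small6: convergence of expansions, at the place and at the circle (helper940)
-/

set_option autoImplicit false
set_option linter.unusedSectionVars false

namespace Crest.Agent.R013.Small6_940

open PowerSeries Filter
open scoped NNReal Topology
open Crest.Agent.R013.KAS2_940 (Bd bd_zero)
open Crest.Agent.R013.KAS2_940
open Crest.Agent.R013.KAS3_940 Crest.Agent.R013.Good1_940 Crest.Agent.R013.Gl946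
open Crest.Agent.R013.Good3_940 Crest.Agent.R013.Small2_940 Crest.Agent.R013.Small3_940
open Crest.Agent.R013.Puis_702 (mapL coeff_mapL exists_pow_mul)

section place

variable {C Y : Type*} [Field C] [Field Y] {i : C →+* Y} {P : Valuation Y ℝ≥0} {x : Y}
  {J : Y →+* LaurentSeries C}

theorem toL_X_pow (n : ℕ) : toL C (X ^ n) = HahnSeries.single (1 : ℤ) (1 : C) ^ n := by
  rw [map_pow, HahnSeries.ofPowerSeries_X]

theorem IsExp.val_le (hJ : IsExp i P x J) (h : RU i P x) {a : Y} {u : C⟦X⟧} (ha : J a = toL C u)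
    {n : ℕ} (hu : X ^ n ∣ u) : P a ≤ P x ^ n := by
  obtain ⟨u', rfl⟩ := hu
  set a' := a / x ^ n with ha'
  have hx := h.ne
  have h1 : J a' = toL C u' := by
    rw [ha', map_div₀, map_pow, hJ.par, ha, map_mul, toL_X_pow, mul_div_cancel_left₀]
    refine pow_ne_zero _ ?_
    rw [ne_eq, HahnSeries.single_eq_zero_iff]
    exact one_ne_zero
  have h2 : P a' ≤ 1 := by
    rcases eq_or_ne a' 0 with h0 | h0
    · rw [h0, map_zero]; exact zero_le
    rw [hJ.val_eq h h0]
    have h3 : 0 ≤ (J a').order := by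
      by_contra hc
      push Not at hc
      have h4 := HahnSeries.coeff_order_eq_zero.not.2 ((map_ne_zero J).mpr h0)
      apply h4
      rw [h1] at hc ⊢
      rw [toL, PowerSeries.coeff_coe, if_pos hc]
    obtain ⟨m, hm⟩ := Int.eq_ofNat_of_zero_le h3
    rw [hm, zpow_natCast]
    exact pow_le_one₀ zero_le h.lt_one.le
  have h3 : a = a' * x ^ n := by rw [ha']; field_simp
  rw [h3, map_mul, map_pow]
  exact mul_le_of_le_one_left' h2

theorem toL_trunc (hJ : IsExp i P x J) (f : C⟦X⟧) (n : ℕ) :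
    J (∑ l ∈ Finset.range n, i (coeff l f) * x ^ l) = toL C (trunc n f : Polynomial C) := by
  rw [map_sum]
  have h1 : ((trunc n f : Polynomial C) : C⟦X⟧) =
      ∑ l ∈ Finset.range n, PowerSeries.C (coeff l f) * X ^ l := by
    ext m
    rw [Polynomial.coeff_coe, coeff_trunc, map_sum]
    simp only [coeff_C_mul_X_pow]
    rw [Finset.sum_ite_eq]
    simp only [Finset.mem_range]
  rw [h1, map_sum]
  refine Finset.sum_congr rfl fun l _ => ?_
  rw [map_mul, map_mul, map_pow, hJ.con, hJ.par, toL_X_pow, HahnSeries.ofPowerSeries_C]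

/-- **convergence at the place** -/
theorem tendsto_place (hJ : IsExp i P x J) (h : RU i P x) {z : Y} {G H : C⟦X⟧}
    (hz : J z * toL C H = toL C G) :
    Tendsto (fun n => P (z * ∑ l ∈ Finset.range n, i (coeff l H) * x ^ l -
      ∑ l ∈ Finset.range n, i (coeff l G) * x ^ l)) atTop (𝓝 0) := by
  obtain ⟨N, hN⟩ := exists_pow_mul (J z)
  obtain ⟨w, hw⟩ := hN N le_rfl
  have hw' : toL C (X ^ N) * J z = toL C w := hw
  have hwH : w * H = X ^ N * G := by
    apply HahnSeries.ofPowerSeries_injective (Γ := ℤ)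
    show toL C (w * H) = toL C (X ^ N * G)
    rw [map_mul, map_mul, ← hw', ← hz]; ring
  have key : ∀ n, P (z * ∑ l ∈ Finset.range n, i (coeff l H) * x ^ l -
      ∑ l ∈ Finset.range n, i (coeff l G) * x ^ l) ≤ P x ^ n * (P x ^ N)⁻¹ := by
    intro n
    set g := z * ∑ l ∈ Finset.range n, i (coeff l H) * x ^ l -
      ∑ l ∈ Finset.range n, i (coeff l G) * x ^ l with hg
    have h1 : J (x ^ N * g) = toL C (w * ((trunc n H : Polynomial C) : C⟦X⟧) - X ^ N * ((trunc n G : Polynomial C) : C⟦X⟧)) := by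
      rw [hg, map_mul, map_sub, map_mul, toL_trunc hJ, toL_trunc hJ, map_sub, map_mul, map_mul,
        ← hw', map_pow, hJ.par, toL_X_pow]
      ring
    have hH : ∀ f : C⟦X⟧, X ^ n ∣ f - ((trunc n f : Polynomial C) : C⟦X⟧) := by
      intro f
      rw [X_pow_dvd_iff]
      intro m hm
      rw [map_sub, Polynomial.coeff_coe, coeff_trunc, if_pos hm, sub_self]
    have h2 : X ^ n ∣ w * ((trunc n H : Polynomial C) : C⟦X⟧) - X ^ N * ((trunc n G : Polynomial C) : C⟦X⟧) := by
      have h3 : w * ((trunc n H : Polynomial C) : C⟦X⟧) - X ^ N * ((trunc n G : Polynomial C) : C⟦X⟧) =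
          X ^ N * (G - ((trunc n G : Polynomial C) : C⟦X⟧)) - w * (H - ((trunc n H : Polynomial C) : C⟦X⟧)) := by
        linear_combination hwH
      rw [h3]
      exact dvd_sub (Dvd.dvd.mul_left (hH G) _) (Dvd.dvd.mul_left (hH H) _)
    have h3 := IsExp.val_le hJ h h1 h2
    rw [map_mul, map_pow] at h3
    rw [← div_eq_mul_inv, le_div_iff₀ (pow_pos h.pos N), mul_comm]
    exact h3
  have h4 : Tendsto (fun n => P x ^ n * (P x ^ N)⁻¹) atTop (𝓝 0) := by
    have h5 : Tendsto (fun n => P x ^ n) atTop (𝓝 0) :=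
      tendsto_pow_atTop_nhds_zero_of_lt_one (NNReal.coe_nonneg _) h.lt_one
    simpa using h5.mul_const ((P x ^ N)⁻¹)
  exact tendsto_of_tendsto_of_tendsto_of_le_of_le tendsto_const_nhds h4 (fun _ => zero_le) key

end place

section circle

variable {F E : Type*} [NontriviallyNormedField F] [IsUltrametricDist F] [CompleteSpace F]
  [NormedField E] [IsUltrametricDist E] [NormedAlgebra F E] [CompleteSpace E]

theorem tendsto_evq {r : ℝ} {hr : 0 < r} {q c : F} {y : E} {hy : IsGauss F y} {hq : ‖q‖ < r}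
    {hc : ‖c‖ < r} (f : bsub (K := F) r hr) :
    Tendsto (fun n => ∑ l ∈ Finset.range n, algebraMap F E (coeff l f.1) * (pt q c y) ^ l) atTop
      (𝓝 (evq hr hy hq hc f)) := by
  have h1 := (summable_norm f.2.choose_spec (norm_pt_lt hy hq hc)).of_norm.hasSum.tendsto_sum_nat
  exact h1

/-- **convergence at the circle** -/
theorem tendsto_circle {r : ℝ} {hr : 0 < r} {q c : F} {y : E} {hy : IsGauss F y} {hq : ‖q‖ < r}
    {hc : ‖c‖ < r} {hc0 : c ≠ 0} {w : FDisc F r hr} {a b : bsub (K := F) r hr}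
    (h : w * algebraMap _ _ b = algebraMap _ _ a) :
    Tendsto (fun n => ‖frq hr hy hq hc hc0 w *
        ∑ l ∈ Finset.range n, algebraMap F E (coeff l b.1) * (pt q c y) ^ l -
      ∑ l ∈ Finset.range n, algebraMap F E (coeff l a.1) * (pt q c y) ^ l‖₊) atTop (𝓝 0) := by
  have h1 : Tendsto (fun n => frq hr hy hq hc hc0 w *
        ∑ l ∈ Finset.range n, algebraMap F E (coeff l b.1) * (pt q c y) ^ l -
      ∑ l ∈ Finset.range n, algebraMap F E (coeff l a.1) * (pt q c y) ^ l) atTop
      (𝓝 (frq hr hy hq hc hc0 w * evq hr hy hq hc b - evq hr hy hq hc a)) :=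
    (tendsto_const_nhds.mul (tendsto_evq b)).sub (tendsto_evq a)
  have h2 : frq hr hy hq hc hc0 w * evq hr hy hq hc b - evq hr hy hq hc a = 0 := by
    rw [← frq_algebraMap (hc0 := hc0), ← frq_algebraMap (hc0 := hc0), ← map_mul, h, sub_self]
  rw [h2] at h1
  have h3 := h1.nnnorm
  rwa [nnnorm_zero] at h3

theorem gauss_sum {y : E} (hy : IsGauss F y) (n : ℕ) (c : ℕ → F) :
    ‖∑ l ∈ Finset.range n, algebraMap F E (c l) * y ^ l‖₊ = (Finset.range n).sup fun l => ‖c l‖₊ := by
  set f : Polynomial F := ∑ l ∈ Finset.range n, Polynomial.monomial l (c l) with hf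
  have h1 : Polynomial.aeval y f = ∑ l ∈ Finset.range n, algebraMap F E (c l) * y ^ l := by
    rw [hf, map_sum]
    exact Finset.sum_congr rfl fun l _ => Polynomial.aeval_monomial _
  have h2 : ∀ l ∈ Finset.range n, f.coeff l = c l := by
    intro l hl
    rw [hf, Polynomial.finsetSum_coeff]
    simp only [Polynomial.coeff_monomial]
    rw [Finset.sum_ite_eq', if_pos hl]
  refine le_antisymm ?_ ?_
  · refine ((Finset.range n).nnnorm_sum_le_sup_nnnorm _).trans ?_
    refine Finset.sup_le fun l hl => ?_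
    rw [nnnorm_mul, nnnorm_pow]
    have h3 : ‖y‖₊ ≤ 1 := hy.norm_le
    calc ‖algebraMap F E (c l)‖₊ * ‖y‖₊ ^ l ≤ ‖algebraMap F E (c l)‖₊ * 1 := by
          gcongr; exact pow_le_one₀ zero_le h3
      _ = ‖c l‖₊ := by rw [mul_one, nnnorm_algebraMap']
      _ ≤ _ := Finset.le_sup (f := fun l => ‖c l‖₊) hl
  · refine Finset.sup_le fun l hl => ?_
    have h3 := hy.coeff_le f l
    rw [h2 l hl, h1] at h3
    exact h3

end circle

end Crest.Agent.R013.Small6_940
end

-- ▼ part R013/Good5_940

/-!
# R013 / Good5: the last step of part C (helper940)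

`good_last` : an etale class with a form of exact order `i` at arbitrarily small centres gives the
conclusion of `CGood_588.GOOD` at `(P, x)`.
-/

set_option autoImplicit false
set_option linter.unusedSectionVars false

namespace Crest.Agent.R013.Good5_940

open PowerSeries Filter
open scoped NNReal Topology
open Crest.NumberTheoryR.Sect
open Crest.Agent.R013.KAS2_940 (Bd bd_zero)
open Crest.Agent.R013.KAS2_940
open Crest.Agent.R013.KAS3_940 Crest.Agent.R013.Good1_940 Crest.Agent.R013.Gl946
open Crest.Agent.R013.Good3_940 Crest.Agent.R013.Good4_940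
open Crest.Agent.R013.Small2_940 Crest.Agent.R013.Small3_940 Crest.Agent.R013.Small4_940
open Crest.Agent.R013.Small5_940 Crest.Agent.R013.Small6_940
open Crest.Agent.R013.LemD_323 (shift)
open Crest.Agent.R013.Puis_702 (mapL coeff_mapL)
open Crest.Agent.R013.SE_669 Crest.Agent.R013.CGood_588

variable {k : Type*} [Field k] [CharZero k] {K : Type*} [Field K] [Algebra k K]
  [Algebra (RatFunc k) K] [IsScalarTower k (RatFunc k) K] [FiniteDimensional (RatFunc k) K]

/-- elements generated by functions which extend to the disc extend to the disc -/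
theorem mem_frB_closure {F : Type*} [NontriviallyNormedField F] [IsUltrametricDist F]
    (JF : maxUnramified k K →+* LaurentSeries F) (D : Subfield F) {R : ℝ} (hR : 0 < R)
    (W : Set (AlgebraicClosure K))
    (hW : ∀ w ∈ W, ∃ hw : w ∈ maxUnramified k K, JF ⟨w, hw⟩ ∈ frB D hR) (z : maxUnramified k K)
    (hz : (z : AlgebraicClosure K) ∈ Subfield.closure W) : JF z ∈ frB D hR := by
  have h1 : Subfield.closure W ≤ ((frB D hR).comap JF).map
      (algebraMap (maxUnramified k K) (AlgebraicClosure K)) := by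
    rw [Subfield.closure_le]
    intro w hw
    obtain ⟨hw', h2⟩ := hW w hw
    exact ⟨⟨w, hw'⟩, h2, rfl⟩
  obtain ⟨z', hz', hzz⟩ := h1 hz
  have : z' = z := Subtype.ext hzz
  rwa [← this]

/-- the set of algebraic constants -/
def CbS (k K : Type*) [Field k] [Field K] [Algebra k K] : Set (AlgebraicClosure K) :=
  (algebraicClosure k (AlgebraicClosure K) : Set (AlgebraicClosure K))

/-- **the input of the last step** (for one `ε`) -/
def Inp (p : ℕ) {F : Type*} [NontriviallyNormedField F] [IsUltrametricDist F]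
    (jC : Cb k K →+* F) (J : maxUnramified k K →+* LaurentSeries (Cb k K))
    (E0 : IntermediateField K (AlgebraicClosure K)) (R0 ε : ℝ) : Prop :=
  ∃ (q : Cb k K) (i j m : ℕ) (om H : F⟦X⟧) (D CH : ℝ), ‖jC q‖ < ε ∧ i + 1 = p ^ j * m ∧ 2 ≤ m ∧
    ¬ p ∣ m ∧ Bd R0 D om ∧ Bd R0 CH H ∧ constantCoeff H ≠ 0 ∧ d⁄dX F H = om * H ∧
    (∀ l < i, coeff l (shift (jC q) om) = 0) ∧ coeff i (shift (jC q) om) ≠ 0 ∧
    (∃ a0 : Cb k K, jC a0 = coeff i (shift (jC q) om)) ∧
    (∃ b0 : Cb k K, jC b0 = constantCoeff (shift (jC q) H)) ∧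
    ∀ n : ℕ, ∃ h : maxUnramified k K, h ≠ 0 ∧
      (h : AlgebraicClosure K) ∈ E0 ⊔ IntermediateField.adjoin K (CbS k K) ∧
      (∀ y : AlgebraicClosure K, y ^ p ^ n = h → y ∈ maxUnramified k K) ∧
      ∃ a b : F⟦X⟧, (∃ B, Bd R0 B a) ∧ (∃ B, Bd R0 B b) ∧ a ≠ 0 ∧ b ≠ 0 ∧
        mapL jC (J h) * toL F (b ^ p ^ n) = toL F (H * a ^ p ^ n)

/-- the conclusion of `GOOD` at `(P, x, δ, η)` -/
def Concl (p : ℕ) [Fact p.Prime] (k : Type*) [Field k] [Algebra ℚ_[p] k] (K : Type*) [Field K]
    [Algebra k K] (P : Valuation (AlgebraicClosure K) ℝ≥0) (x : K) (δ η : ℝ≥0) : Prop :=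
  ∃ (C : IntermediateField k (AlgebraicClosure K)) (π q c : AlgebraicClosure K)
      (v : Valuation (AlgebraicClosure K) ℝ≥0) (L M : IntermediateField K (AlgebraicClosure K))
      (n m : ℕ) (ζ y z : AlgebraicClosure K),
      FiniteDimensional k C ∧ π ∈ C ∧ q ∈ C ∧ c ∈ C ∧ π ≠ 0 ∧ c ≠ 0 ∧
      v π < δ ∧ v q < η * v π ∧ v c < η * v π ∧
      ExtendsPadicNorm k (AlgebraicClosure K) p v ∧
      (∀ a ∈ C, a ∈ L) ∧ L ≤ M ∧ M ≤ maxUnramified k K ∧ FiniteDimensional K M ∧ Normal K L ∧
      (∃ R : ℝ≥0, v π < η * R ∧ DiscEmb L C P (algebraMap K (AlgebraicClosure K) x) R v) ∧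
      GaussAt C ((algebraMap K (AlgebraicClosure K) x - q) / c) v ∧
      ζ ∈ C ∧ IsPrimitiveRoot ζ (p ^ n) ∧ y ^ p ^ n ∈ L ∧
      M = L ⊔ IntermediateField.adjoin K {y} ∧
      z ∈ M ∧ v z ≤ 1 ∧ 2 ≤ m ∧ ¬ p ∣ m ∧
      v (z ^ p - z - ((algebraMap K (AlgebraicClosure K) x - q) / c) ^ m) < 1

theorem good_of_concl (p : ℕ) [Fact p.Prime] (k : Type*) [Field k] [Algebra ℚ_[p] k] (K : Type*)
    [Field K] [Algebra k K]
    (h : ∀ (P : Valuation (AlgebraicClosure K) ℝ≥0) (x : K),
      IsRationalPlace k K (P.comap (algebraMap K (AlgebraicClosure K))) →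
      IsUniformizerAt (P.comap (algebraMap K (AlgebraicClosure K))) x →
      ∀ δ η : ℝ≥0, 0 < δ → 0 < η → Concl p k K P x δ η) : GOOD p k K := h

section consts

variable {p : ℕ} [hpF : Fact p.Prime] [Algebra ℚ_[p] k]
  {F : Type*} [NontriviallyNormedField F] [IsUltrametricDist F] [CharZero F]
  {jC : Cb k K →+* F}

theorem norm_p (hjn : ∀ a : ℚ_[p], ‖jC (algebraMap k (Cb k K) (algebraMap ℚ_[p] k a))‖ = ‖a‖) :
    ‖(p : F)‖ = (p : ℝ)⁻¹ := by
  have h1 := hjn p
  rw [map_natCast, map_natCast, map_natCast, Padic.norm_p] at h1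
  exact h1

theorem norm_p_lt (hjn : ∀ a : ℚ_[p], ‖jC (algebraMap k (Cb k K) (algebraMap ℚ_[p] k a))‖ = ‖a‖) :
    ‖(p : F)‖ < 1 := by
  rw [norm_p hjn]
  exact inv_lt_one_of_one_lt₀ (by exact_mod_cast hpF.out.one_lt)

theorem norm_p_pos : 0 < ‖(p : F)‖ := norm_pos_iff.mpr (Nat.cast_ne_zero.mpr hpF.out.ne_zero)

instance isAlgClosed_Cb : IsAlgClosed (Cb k K) := IsAlgClosure.isAlgClosed k

/-- `lam ^ (p-1) = -p` in the constants -/
theorem exists_lam (p : ℕ) (hp : 2 ≤ p) : ∃ lam : Cb k K, lam ^ (p - 1) = -(p : Cb k K) :=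
  IsAlgClosed.exists_pow_nat_eq _ (by omega)

theorem exists_c (hp1 : ‖(p : F)‖ < 1) {a0 lam : Cb k K} (ha0 : a0 ≠ 0) (hlam0 : lam ≠ 0) (i : ℕ)
    {ε : ℝ} (hε : 0 < ε) :
    ∃ (n : ℕ) (c : Cb k K), c ≠ 0 ∧ ‖jC c‖ < ε ∧
      a0 / ((i + 1 : ℕ) : Cb k K) * c ^ (i + 1) = (p : Cb k K) ^ n * lam ^ p := by
  have hi : ((i + 1 : ℕ) : Cb k K) ≠ 0 := Nat.cast_ne_zero.mpr (Nat.succ_ne_zero i)
  have hp0 : (p : Cb k K) ≠ 0 := Nat.cast_ne_zero.mpr hpF.out.ne_zero
  set A : ℝ := ‖jC (lam ^ p * ((i + 1 : ℕ) : Cb k K) / a0)‖ with hA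
  have hA0 : 0 < A := by
    rw [hA, norm_pos_iff, _root_.map_ne_zero]
    exact div_ne_zero (mul_ne_zero (pow_ne_zero _ hlam0) hi) ha0
  obtain ⟨n, hn⟩ := exists_pow_lt_of_lt_one (show 0 < ε ^ (i + 1) / A by positivity) hp1
  obtain ⟨c, hc⟩ := IsAlgClosed.exists_pow_nat_eq
    ((p : Cb k K) ^ n * (lam ^ p * ((i + 1 : ℕ) : Cb k K) / a0)) (Nat.succ_pos i)
  have hc' : c ^ (i + 1) = (p : Cb k K) ^ n * (lam ^ p * ((i + 1 : ℕ) : Cb k K) / a0) := hc
  refine ⟨n, c, ?_, ?_, ?_⟩
  · rintro rfl
    rw [zero_pow (Nat.succ_ne_zero i)] at hc'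
    have : (p : Cb k K) ^ n * (lam ^ p * ((i + 1 : ℕ) : Cb k K) / a0) ≠ 0 :=
      mul_ne_zero (pow_ne_zero _ hp0) (div_ne_zero (mul_ne_zero (pow_ne_zero _ hlam0) hi) ha0)
    exact this hc'.symm
  · have h1 : ‖jC c‖ ^ (i + 1) < ε ^ (i + 1) := by
      rw [← norm_pow, ← map_pow, hc', map_mul, norm_mul, map_pow, map_natCast, norm_pow]
      rwa [lt_div_iff₀ hA0] at hn
    exact lt_of_pow_lt_pow_left₀ _ hε.le h1
  · rw [hc']
    field_simp

end consts

section radius

variable {F : Type*} [NontriviallyNormedField F] [IsUltrametricDist F]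

theorem mapL_C {R S : Type*} [CommRing R] [CommRing S] (f : R →+* S) (c : R) :
    mapL f (HahnSeries.C c) = HahnSeries.C (f c) := by
  refine HahnSeries.ext (funext fun i => ?_)
  rw [coeff_mapL, HahnSeries.C_apply, HahnSeries.C_apply, HahnSeries.coeff_single,
    HahnSeries.coeff_single]
  split_ifs
  · rfl
  · rw [map_zero]

theorem mapL_single {R S : Type*} [CommRing R] [CommRing S] (f : R →+* S) (n : ℤ) :
    mapL f (HahnSeries.single n 1) = HahnSeries.single n 1 := by
  refine HahnSeries.ext (funext fun i => ?_)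
  rw [coeff_mapL, HahnSeries.coeff_single, HahnSeries.coeff_single]
  split_ifs
  · rw [map_one]
  · rw [map_zero]

/-- the image in `F` of the constants in `C` -/
noncomputable def DC (jC : Cb k K →+* F) (C : IntermediateField k (AlgebraicClosure K)) : Subfield F :=
  (C.toSubfield.comap (algebraMap (Cb k K) (AlgebraicClosure K))).map jC

theorem mem_DC {jC : Cb k K →+* F} {C : IntermediateField k (AlgebraicClosure K)} {a : F} :
    a ∈ DC jC C ↔ ∃ c : Cb k K, (c : AlgebraicClosure K) ∈ C ∧ jC c = a := Iff.rfl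

theorem closure_of_mem_sup {Ω : Type*} [Field Ω] [Algebra K Ω] (E : IntermediateField K Ω)
    (A : Set Ω) {z : Ω} (hz : z ∈ E ⊔ IntermediateField.adjoin K A) :
    z ∈ Subfield.closure ((E : Set Ω) ∪ A) := by
  have h1 : E ⊔ IntermediateField.adjoin K A = IntermediateField.adjoin K ((E : Set Ω) ∪ A) := by
    rw [IntermediateField.adjoin_union, IntermediateField.adjoin_self]
  rw [h1] at hz
  have h2 : z ∈ Subfield.closure (Set.range (algebraMap K Ω) ∪ ((E : Set Ω) ∪ A)) := hz
  have h3 : Subfield.closure (Set.range (algebraMap K Ω) ∪ ((E : Set Ω) ∪ A)) ≤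
      Subfield.closure ((E : Set Ω) ∪ A) := by
    rw [Subfield.closure_le]
    rintro w (⟨a, rfl⟩ | hw)
    · exact Subfield.subset_closure (Or.inl (E.algebraMap_mem a))
    · exact Subfield.subset_closure hw
  exact h3 h2

variable {P : Valuation (AlgebraicClosure K) ℝ≥0} {x : K}

/-- **a finite extension in `maxUnramified` is split over a small disc, over every large level** -/
theorem exists_radius (hP : IsRationalPlace k K (P.comap (algebraMap K (AlgebraicClosure K))))
    (hx : IsUniformizerAt (P.comap (algebraMap K (AlgebraicClosure K))) x)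
    {J : maxUnramified k K →+* LaurentSeries (Cb k K)}
    (hJ : IsExp (iM k K) (P.comap (algebraMap (maxUnramified k K) (AlgebraicClosure K)))
        (algebraMap K (maxUnramified k K) x) J)
    (jC : Cb k K →+* F) (E1 : IntermediateField K (AlgebraicClosure K)) [FiniteDimensional K E1]
    (hE1 : E1 ≤ maxUnramified k K) :
    ∃ (T0 : Finset (Cb k K)) (ρ : ℝ), 0 < ρ ∧ ∀ (R : ℝ) (hR : 0 < R), R ≤ ρ →
      ∀ C : IntermediateField k (AlgebraicClosure K), (∀ t ∈ T0, (t : AlgebraicClosure K) ∈ C) →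
        (∀ c ∈ C, IsIntegral k c) → ∀ z : maxUnramified k K,
        (z : AlgebraicClosure K) ∈ Subfield.closure ((E1 : Set (AlgebraicClosure K)) ∪ C) →
        mapL jC (J z) ∈ frB (DC jC C) hR := by
  classical
  obtain ⟨S, hSE, hSgen⟩ := exists_gen (k := k) E1
  let S' : Finset (maxUnramified k K) := S.attach.image fun s => ⟨s.1, hE1 (hSE s.2)⟩
  let v0 : Valuation (Cb k K) ℝ≥0 := (NormedField.valuation (K := F)).comap jC
  have hv0 : ∀ c, v0 c = ‖jC c‖₊ := fun c => rfl
  obtain ⟨C0, hC0fin, hC0, ρ, hρ, B, hB⟩ := exists_common hP hx hJ v0 S'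
  obtain ⟨T0, hT0⟩ := IntermediateField.essFiniteType_iff.mp
    (inferInstance : Algebra.EssFiniteType k C0)
  refine ⟨T0, ρ, hρ, fun R hR hRρ C hTC hCint z hz => ?_⟩
  have hC0C : ∀ c ∈ C0, (c : AlgebraicClosure K) ∈ C := by
    have h1 : C0 ≤ C.comap (IsScalarTower.toAlgHom k (Cb k K) (AlgebraicClosure K)) := by
      rw [← hT0, IntermediateField.adjoin_le_iff]
      intro t ht
      exact hTC t ht
    exact fun c hc => h1 hc
  refine mem_frB_closure ((mapL jC).comp J) (DC jC C) hR ((S : Set (AlgebraicClosure K)) ∪ C) ?_ z ?_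
  · rintro w (hw | hw)
    · refine ⟨hE1 (hSE hw), ?_⟩
      have hmem : (⟨w, hE1 (hSE hw)⟩ : maxUnramified k K) ∈ S' :=
        Finset.mem_image.mpr ⟨⟨w, hw⟩, Finset.mem_attach _ _, rfl⟩
      have hRn : (0 : ℝ≥0) < ⟨R, hR.le⟩ := hR
      obtain ⟨B', hB'⟩ := Puis_702.bdd_mono (ρ' := ⟨R, hR.le⟩) hRn hRρ (hB _ hmem)
      refine mem_frB_of_bdd (B := B') (fun i => ?_) (fun i => ?_)
      · rw [RingHom.comp_apply, coeff_mapL]
        exact mem_DC.mpr ⟨_, hC0C _ (hC0 _ hmem i), rfl⟩
      · rw [RingHom.comp_apply, coeff_mapL]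
        have h2 := hB' i
        rw [hv0, ← NNReal.coe_le_coe] at h2
        exact h2
    · have hi := hCint w hw
      have hwM : w ∈ maxUnramified k K := MaxUnr_97.mem_maxUnramified_of_isIntegral w hi
      refine ⟨hwM, ?_⟩
      let c : Cb k K := ⟨w, mem_algebraicClosure_iff.mpr (isAlgebraic_iff_isIntegral.mpr hi)⟩
      have h1 : (⟨w, hwM⟩ : maxUnramified k K) = iM k K c := rfl
      rw [RingHom.comp_apply, h1, hJ.con, mapL_C]
      exact C_mem_frB (mem_DC.mpr ⟨c, hw, rfl⟩)
  · have h2 : Subfield.closure ((E1 : Set (AlgebraicClosure K)) ∪ C) ≤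
        Subfield.closure ((S : Set (AlgebraicClosure K)) ∪ C) := by
      rw [Subfield.closure_le]
      rintro w (hw | hw)
      · have h3 : Subfield.closure (Set.range (algebraMap k (AlgebraicClosure K)) ∪
            (S : Set (AlgebraicClosure K))) ≤ Subfield.closure ((S : Set (AlgebraicClosure K)) ∪ C) := by
          rw [Subfield.closure_le]
          rintro w (⟨a, rfl⟩ | hw)
          · exact Subfield.subset_closure (Or.inr (C.algebraMap_mem a))
          · exact Subfield.subset_closure (Or.inl hw)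
        exact h3 (hSgen w hw)
      · exact Subfield.subset_closure (Or.inr hw)
    exact h2 hz

end radius

end Crest.Agent.R013.Good5_940
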