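import Crest.Agent.R013.CGood_588

/-!
# Row 13: `GOOD'` (posts #3792, #3848), the weak output of part C / of the D-line

`GoodAt p k K P x δ η` : at the scale `(δ, η)` there is a vertex (the Gauss norm of a small disc
`|x - q| = |c|` well inside the disc `|x| < |π|`) whose residue field *in `maxUnramified k K`*
contains an Artin-Schreier curve `z ^ p - z = t ^ m` (resp., `p = 2`, the `ℤ/4`-curve
`w ^ 2 + w = t`, `u ^ 2 + u = w ^ 3 + w`).  Nothing is said about the degrees, Galois groups or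
splitting behaviour of the covers containing `z` (`w`, `u`).
-/

set_option autoImplicit false

namespace Crest.Agent.R013.GoodP_797

open scoped NNReal Topology
open Filter Crest.NumberTheoryR.Sect SE_669 CGood_588

/-- the residual equations of a vertex, the functions being in the set `S` -/
def VertexEq {Ω : Type*} [Field Ω] (p : ℕ) (v : Valuation Ω ℝ≥0) (S : Set Ω) (t : Ω) : Prop :=
  (∃ z ∈ S, ∃ m : ℕ, 2 ≤ m ∧ ¬ p ∣ m ∧ v z ≤ 1 ∧ v (z ^ p - z - t ^ m) < 1) ∨
  (p = 2 ∧ ∃ w ∈ S, ∃ u ∈ S, v w ≤ 1 ∧ v u ≤ 1 ∧ v (w ^ 2 + w - t) < 1 ∧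
    v (u ^ 2 + u - (w ^ 3 + w)) < 1)

/-- **(GOOD') at one place and one scale.** -/
def GoodAt (p : ℕ) [Fact p.Prime] (k : Type*) [Field k] [Algebra ℚ_[p] k] (K : Type*) [Field K]
    [Algebra k K] (P : Valuation (AlgebraicClosure K) ℝ≥0) (x : K) (δ η : ℝ≥0) : Prop :=
  ∃ (C : IntermediateField k (AlgebraicClosure K)) (π q c : AlgebraicClosure K)
    (v : Valuation (AlgebraicClosure K) ℝ≥0),
    FiniteDimensional k C ∧ π ∈ C ∧ q ∈ C ∧ c ∈ C ∧ π ≠ 0 ∧ c ≠ 0 ∧
    v π < δ ∧ v q < η * v π ∧ v c < η * v π ∧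
    ExtendsPadicNorm k (AlgebraicClosure K) p v ∧
    (∃ R : ℝ≥0, v π < η * R ∧ DiscEmb K C P (algebraMap K (AlgebraicClosure K) x) R v) ∧
    GaussAt C ((algebraMap K (AlgebraicClosure K) x - q) / c) v ∧
    VertexEq p v (maxUnramified k K : Set (AlgebraicClosure K))
      ((algebraMap K (AlgebraicClosure K) x - q) / c)

/-- **(GOOD')** at all rational places and all scales. -/
def GOODP (p : ℕ) [Fact p.Prime] (k : Type*) [Field k] [Algebra ℚ_[p] k] (K : Type*) [Field K]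
    [Algebra k K] : Prop :=
  ∀ (P : Valuation (AlgebraicClosure K) ℝ≥0) (x : K),
    IsRationalPlace k K (P.comap (algebraMap K (AlgebraicClosure K))) →
    IsUniformizerAt (P.comap (algebraMap K (AlgebraicClosure K))) x →
    ∀ δ η : ℝ≥0, 0 < δ → 0 < η → GoodAt p k K P x δ η

/-- `DiscEmb` restricts to subfields -/
theorem DiscEmb.restrict {k L Ω : Type*} [Field k] [Field L] [Field Ω] [Algebra k Ω] [Algebra L Ω]
    {C : IntermediateField k Ω} {P v : Valuation Ω ℝ≥0} {x : Ω} {R : ℝ≥0}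
    (h : DiscEmb L C P x R v) (K : Type*) [Field K] [Algebra K L] [Algebra K Ω]
    [IsScalarTower K L Ω] : DiscEmb K C P x R v := by
  intro f
  obtain ⟨G, H, h1, h2, h3, h4, h5, h6⟩ := h (algebraMap K L f)
  rw [← IsScalarTower.algebraMap_apply] at h5 h6
  exact ⟨G, H, h1, h2, h3, h4, h5, h6⟩

/-- `GOOD` (post #3169, file `CGood_588`) implies `GOOD'`. -/
theorem goodP_of_good {p : ℕ} [Fact p.Prime] {k : Type*} [Field k] [Algebra ℚ_[p] k] {K : Type*}
    [Field K] [Algebra k K] (h : GOOD p k K) : GOODP p k K := by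
  intro P x hP hx δ η hδ hη
  obtain ⟨C, π, q, c, v, L, M, n, m, ζ, y, z, hC, h1, h2, h3, h4, h5, h6, h7, h8, h9, h10, h11, h12,
    h13, h14, ⟨R, hR, hD⟩, h16, h17, h18, h19, h20, h21, h22, h23, h24, h25⟩ := h P x hP hx δ η hδ hη
  exact ⟨C, π, q, c, v, hC, h1, h2, h3, h4, h5, h6, h7, h8, h9,
    ⟨R, hR, DiscEmb.restrict hD K⟩, h16,
    Or.inl ⟨z, h12 h21, m, h23, h24, h22, h25⟩⟩


end Crest.Agent.R013.GoodP_797
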