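import Crest.Agent.R013.Desc5_372
import Crest.Agent.R013.RR17_948
import Crest.Agent.R013.GoodP_797
import Crest.Agent.R013.CE5_280
import Crest.Agent.R013.DescC3_116
import Crest.Agent.R013.Good5_940
import Crest.Agent.R013.CB1e_903

-- ▼ part R013/CAsm1_588
section

/-!
# Row 13, part C, assembly 1 (helper588): the context over the algebraic closure

`CoreG p` : `GOODP p k K` in the presence of a normed algebraic closure `C` of `ℚ_[p]` and of the
constant extension `KC = K ⊗ C`.
* `exists_CE` : the constant extension exists.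
* `goodp_of_core` : the reduction.
-/

set_option autoImplicit false
set_option linter.style.haveILetI false

namespace Crest.Agent.R013.CAsm1_588

open scoped NNReal
open Module
open Crest.NumberTheoryR.Sect
open Crest.Agent.R013.RR11_948 Crest.Agent.R013.RR14_948 Crest.Agent.R013.Desc_372
open Crest.Agent.R013.Desc_372.CE
open Crest.Agent.R013.GoodP_797

/-- the constant extension of `K` to `C` -/
theorem exists_CE (k C : Type*) (K : Type*) [Field k] [CharZero k] [Field C] [Algebra k C]
    [Algebra.IsAlgebraic k C] [Field K] [Algebra k K] (hc : algebraicClosure k K = ⊥) :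
    ∃ (KC : IntermediateField K (AlgebraicClosure K)) (_ : Algebra C KC)
      (_ : IsScalarTower k C KC), CE k C K KC := by
  let ι : C →ₐ[k] AlgebraicClosure K := IsAlgClosed.lift
  let KC : IntermediateField K (AlgebraicClosure K) := IntermediateField.adjoin K (Set.range ι)
  have hmem : ∀ c, ι c ∈ KC := fun c => IntermediateField.subset_adjoin _ _ ⟨c, rfl⟩
  letI i1 : Algebra C KC :=
    ((ι : C →+* AlgebraicClosure K).codRestrict KC hmem).toAlgebra
  have hco : ∀ c : C, ((algebraMap C KC c : KC) : AlgebraicClosure K) = ι c := fun c => rfl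
  haveI i2 : IsScalarTower k C KC := IsScalarTower.of_algebraMap_eq fun a => Subtype.ext (by
    rw [hco, ι.commutes]
    rfl)
  refine ⟨KC, i1, i2, ?_⟩
  refine of_hc k C K KC hc ?_
  rw [eq_top_iff]
  rintro ⟨f, hf⟩ _
  have h1 : KC ≤ (IntermediateField.adjoin K (Set.range (algebraMap C KC))).map KC.val := by
    refine IntermediateField.adjoin_le_iff.mpr ?_
    rintro _ ⟨c, rfl⟩
    exact ⟨algebraMap C KC c, IntermediateField.subset_adjoin _ _ ⟨c, rfl⟩, hco c⟩
  obtain ⟨g, hg, hgf⟩ := h1 hf
  have : g = ⟨f, hf⟩ := Subtype.ext hgf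
  rw [← this]
  exact hg

/-- `GOODP p k K`, given a normed algebraic closure `C` of `ℚ_[p]` containing `k` and the constant
extension `KC` of `K` to `C` -/
def CoreG (p : ℕ) [Fact p.Prime] : Prop :=
  ∀ (k : Type) [Field k] [Algebra ℚ_[p] k] [FiniteDimensional ℚ_[p] k]
    (K : Type) [Field K] [Algebra k K] [Algebra (RatFunc k) K] [IsScalarTower k (RatFunc k) K]
    [FiniteDimensional (RatFunc k) K]
    (C : Type) [NormedField C] [IsUltrametricDist C] [NormedAlgebra ℚ_[p] C]
    [Algebra.IsAlgebraic ℚ_[p] C] [IsAlgClosed C] [CharZero C] [Algebra k C]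
    [IsScalarTower ℚ_[p] k C]
    (KC : Type) [Field KC] [Algebra C KC] [Algebra K KC] [Algebra k KC] [IsScalarTower k C KC]
    [IsScalarTower k K KC] [CE k C K KC] [Algebra (RatFunc C) KC]
    [IsScalarTower C (RatFunc C) KC] [FiniteDimensional (RatFunc C) KC],
    2 ≤ gen C KC → GOODP p k K

/-- reduction to the context over `C` -/
theorem goodp_of_core {p : ℕ} [Fact p.Prime] (h : CoreG p)
    (k : Type) [Field k] [Algebra ℚ_[p] k] [FiniteDimensional ℚ_[p] k]
    (K : Type) [Field K] [Algebra k K] [Algebra (RatFunc k) K] [IsScalarTower k (RatFunc k) K]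
    [FunctionField k K] (hc : algebraicClosure k K = ⊥) (hg : 2 ≤ genus k K) : GOODP p k K := by
  haveI : FiniteDimensional (RatFunc k) K := ‹FunctionField k K›
  haveI : CharZero k := charZero_of_injective_algebraMap (algebraMap ℚ_[p] k).injective
  haveI : CharZero K := charZero_of_injective_algebraMap (algebraMap k K).injective
  let C := PadicAlgCl p
  let j : k →ₐ[ℚ_[p]] C := IsAlgClosed.lift
  letI : Algebra k C := (j : k →+* C).toAlgebra
  haveI : IsScalarTower ℚ_[p] k C := IsScalarTower.of_algebraMap_eq fun a => (j.commutes a).symm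
  haveI : Algebra.IsAlgebraic k C := Algebra.IsAlgebraic.tower_top (K := ℚ_[p]) k
  haveI : CharZero C := charZero_of_injective_algebraMap (algebraMap ℚ_[p] C).injective
  obtain ⟨KC, i1, i2, hCE⟩ := exists_CE k C K hc
  haveI := hCE
  letI i3 : Algebra (RatFunc C) KC := ratCE k C K KC
  haveI i4 : IsScalarTower C (RatFunc C) KC := ratCE_tower k C K KC
  haveI i5 : FiniteDimensional (RatFunc C) KC := finite_rat k C K KC (ratCE_xK k C K KC)
  haveI : CharZero KC := charZero_of_injective_algebraMap (algebraMap C KC).injective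
  haveI : IsGalois k C := by
    haveI : IsAlgClosure k C := ⟨inferInstance, inferInstance⟩
    haveI : Normal k C := IsAlgClosure.normal k C
    exact {}
  refine h k K C KC ?_
  rw [gen_eqC (k := k) (C := C) (K₀ := K) (K := KC) hc, ← RR17_948.genus_eq_gen]
  exact hg

end Crest.Agent.R013.CAsm1_588
end

-- ▼ part R013/CAsm2_588

/-!
# Row 13, part C, assembly 2 (helper588): covers of `KC` inside `maxUnramified k K`

`Y / KC` finite and unramified at all places, `φ : Y →ₐ[K] AlgebraicClosure K`.
* `exists_e` : the isomorphism `Cb k K ≃ C`;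
* `phi_mem` : `φ` has values in `maxUnramified k K`;
* `exists_E0` : a finite level.
-/

set_option autoImplicit false
set_option linter.style.haveILetI false
set_option linter.unusedSectionVars false

namespace Crest.Agent.R013.CAsm2_588

open scoped NNReal
open Module WithZero
open Crest.NumberTheoryR.Sect
open Crest.Agent.R013.RR7_948 Crest.Agent.R013.RR13_948 Crest.Agent.R013.RR18_948
open Crest.Agent.R013.Desc_372 Crest.Agent.R013.Desc_372.CE
open Crest.Agent.R013.Unr10_957 Crest.Agent.R013.Unr7_957
open Crest.Agent.R013.Small4_940 (Cb iM)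
open Crest.Agent.R013.Good5_940 (CbS)
open Crest.Agent.R013.CB1_903 (UnrPl)
open Crest.Agent.R013.DescC_116

/-- 903's and 957's unramifiedness -/
theorem unrPl_iff {C K L : Type*} [Field C] [Field K] [Algebra C K] [Algebra (RatFunc C) K]
    [IsScalarTower C (RatFunc C) K] [FiniteDimensional (RatFunc C) K]
    [Algebra.IsSeparable (RatFunc C) K] [Field L] [Algebra C L] [Algebra K L]
    [IsScalarTower C K L] [FiniteDimensional K L] [Algebra.IsSeparable K L] :
    UnrPl C K L ↔ UnrEv C K L := by
  rw [← eR_eq_one_iff_unrEv]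
  constructor
  · intro h Q
    obtain ⟨f, hf⟩ := h Q
    have hf0 : f ≠ 0 := by
      rintro rfl
      rw [map_zero, map_zero] at hf
      exact exp_ne_zero hf.symm
    have h1 : (under K Q).v f = exp (log ((under K Q).v f)) :=
      (exp_log ((_root_.map_ne_zero _).mpr hf0)).symm
    have h2 := v_algebraMap_exp Q h1
    rw [hf, exp_inj] at h2
    have h3 : (eR K Q : ℤ) ∣ 1 := ⟨-log ((under K Q).v f), by linarith⟩
    have h4 := Int.isUnit_iff.mp (isUnit_of_dvd_one h3)
    omega
  · intro h Q
    obtain ⟨f, hf⟩ := (under K Q).surj (exp (-1))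
    refine ⟨f, ?_⟩
    rw [v_algebraMap_exp Q hf, h Q]
    norm_num

variable {k : Type*} [Field k] [CharZero k] {K : Type*} [Field K] [Algebra k K]
  {C : Type*} [Field C] [IsAlgClosed C] [Algebra k C] [Algebra.IsAlgebraic k C]
  {Y : Type*} [Field Y] [Algebra C Y] [Algebra K Y] [Algebra k Y] [IsScalarTower k C Y]
  [IsScalarTower k K Y]

theorem exists_e (φ : Y →ₐ[K] AlgebraicClosure K) :
    ∃ e : Cb k K ≃+* C, (∀ a : k, e (algebraMap k (Cb k K) a) = algebraMap k C a) ∧
      ∀ c : C, φ (algebraMap C Y c) = (e.symm c : AlgebraicClosure K) := by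
  have hk : ∀ a : k, φ (algebraMap k Y a) = algebraMap k (AlgebraicClosure K) a := fun a => by
    rw [IsScalarTower.algebraMap_apply k K Y, φ.commutes]
    rfl
  have h0 : ∀ c : C, φ (algebraMap C Y c) ∈ algebraicClosure k (AlgebraicClosure K) := by
    intro c
    have h1 : IsAlgebraic k c := Algebra.IsAlgebraic.isAlgebraic c
    obtain ⟨f, hf, hfc⟩ := h1
    refine mem_algebraicClosure_iff.mpr ⟨f, hf, ?_⟩
    have h2 : Polynomial.aeval (φ (algebraMap C Y c)) f = φ (algebraMap C Y (Polynomial.aeval c f)) := by
      rw [Polynomial.aeval_def, Polynomial.aeval_def, Polynomial.hom_eval₂, ← RingHom.coe_coe φ,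
        Polynomial.hom_eval₂]
      congr 1
      ext a
      rw [RingHom.comp_apply, RingHom.comp_apply, ← IsScalarTower.algebraMap_apply k C Y]
      exact (hk a).symm
    rw [h2, hfc, map_zero, map_zero]
  let f : C →+* Cb k K := ((φ : Y →+* AlgebraicClosure K).comp (algebraMap C Y)).codRestrict _ h0
  have hf : ∀ c, ((f c : Cb k K) : AlgebraicClosure K) = φ (algebraMap C Y c) := fun c => rfl
  have hfk : ∀ a : k, f (algebraMap k C a) = algebraMap k (Cb k K) a := fun a => by
    apply Subtype.ext
    rw [hf, ← IsScalarTower.algebraMap_apply k C Y, hk]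
    rfl
  let fa : C →ₐ[k] Cb k K := { f with commutes' := hfk }
  have hb : Function.Bijective fa := by
    refine ⟨fa.toRingHom.injective, ?_⟩
    letI : Algebra C (Cb k K) := f.toAlgebra
    haveI : IsScalarTower k C (Cb k K) := IsScalarTower.of_algebraMap_eq fun a => (hfk a).symm
    haveI : Algebra.IsAlgebraic C (Cb k K) := Algebra.IsAlgebraic.tower_top (K := k) C
    have h1 : Function.Bijective (algebraMap C (Cb k K)) :=
      IsAlgClosed.algebraMap_bijective_of_isIntegral
    exact h1.2
  let e : C ≃+* Cb k K := RingEquiv.ofBijective f ⟨f.injective, hb.2⟩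
  refine ⟨e.symm, fun a => ?_, fun c => (hf c).symm⟩
  rw [RingEquiv.symm_apply_eq]
  exact (hfk a).symm

variable [Algebra (RatFunc k) K] [IsScalarTower k (RatFunc k) K] [FiniteDimensional (RatFunc k) K]
  {KC : Type*} [Field KC] [Algebra C KC] [Algebra K KC] [Algebra k KC]
  [IsScalarTower k C KC] [IsScalarTower k K KC] [CE k C K KC]
  [Algebra KC Y] [IsScalarTower K KC Y] [IsScalarTower C KC Y] [FiniteDimensional KC Y]

variable (k C KC) in
theorem unrEv_Y (h : UnrEv C KC Y) : UnrEv k K Y := by
  have h1 : UnrEv k K KC := unrEv_ce k k C K KC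
  haveI : IsScalarTower k KC Y := IsScalarTower.of_algebraMap_eq fun a => by
    rw [IsScalarTower.algebraMap_apply k K Y, IsScalarTower.algebraMap_apply k K KC,
      ← IsScalarTower.algebraMap_apply K KC Y]
  have h2 : UnrEv k KC Y := (unrEv_const_iff (k := k) (k₁ := C)).mpr h
  exact UnrEv.trans (L := KC) h1 h2

variable (k C KC) in
theorem phi_mem (h : UnrEv C KC Y) (φ : Y →ₐ[K] AlgebraicClosure K) (y : Y) :
    φ y ∈ maxUnramified k K := by
  have h1 := unrEv_Y (K := K) (Y := Y) k C KC h
  rw [mem_maxUnramified_iff_unrEv]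
  haveI : Algebra.IsAlgebraic K KC := isAlgebraic k C K KC
  haveI : Algebra.IsAlgebraic K Y := Algebra.IsAlgebraic.trans K KC Y
  have h2 : UnrEv k K (IntermediateField.adjoin K {y}) := unrEv_of_tower h1
  have h3 : IntermediateField.adjoin K {φ y} = (IntermediateField.adjoin K {y}).map φ := by
    rw [IntermediateField.adjoin_map, Set.image_singleton]
  rw [h3]
  exact (UnrEv.congr (IntermediateField.equivMap (IntermediateField.adjoin K {y}) φ)).mp h2

variable (k C KC) in
/-- `φ Y` lies in a finite level with all constants -/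
theorem exists_E0 (h : UnrEv C KC Y) (φ : Y →ₐ[K] AlgebraicClosure K) :
    ∃ E0 : IntermediateField K (AlgebraicClosure K), FiniteDimensional K E0 ∧
      E0 ≤ maxUnramified k K ∧
      ∀ y, φ y ∈ E0 ⊔ IntermediateField.adjoin K (CbS k K) := by
  haveI : CharZero C := charZero_of_injective_algebraMap (algebraMap k C).injective
  haveI : CharZero KC := charZero_of_injective_algebraMap (algebraMap C KC).injective
  haveI : Algebra.IsAlgebraic K KC := isAlgebraic k C K KC
  haveI : Algebra.IsAlgebraic K Y := Algebra.IsAlgebraic.trans K KC Y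
  obtain ⟨θ, hθ⟩ := Field.exists_primitive_element KC Y
  let E0 : IntermediateField K (AlgebraicClosure K) := IntermediateField.adjoin K {φ θ}
  haveI h1 : FiniteDimensional K E0 :=
    IntermediateField.adjoin.finiteDimensional (Algebra.IsIntegral.isIntegral _)
  refine ⟨E0, h1, ?_, ?_⟩
  · rw [IntermediateField.adjoin_le_iff]
    rintro _ rfl
    exact phi_mem k C KC h φ θ
  · intro y
    let M : IntermediateField K Y := (E0 ⊔ IntermediateField.adjoin K (CbS k K)).comap φ
    have hC : ∀ c : C, algebraMap C Y c ∈ M := by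
      intro c
      change φ (algebraMap C Y c) ∈ E0 ⊔ IntermediateField.adjoin K (CbS k K)
      obtain ⟨e, -, he⟩ := exists_e (k := k) (C := C) φ
      rw [he]
      exact (le_sup_right : _ ≤ E0 ⊔ IntermediateField.adjoin K (CbS k K))
        (IntermediateField.subset_adjoin K _ (e.symm c).2)
    have hKC : ∀ z : KC, algebraMap KC Y z ∈ M := by
      intro z
      obtain ⟨n, c, g, rfl⟩ := exists_sum k C K KC z
      rw [map_sum]
      refine sum_mem fun i _ => ?_
      rw [map_mul, ← IsScalarTower.algebraMap_apply C KC Y,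
        ← IsScalarTower.algebraMap_apply K KC Y]
      exact mul_mem (hC _) (M.algebraMap_mem _)
    have hθM : θ ∈ M := by
      change φ θ ∈ E0 ⊔ IntermediateField.adjoin K (CbS k K)
      exact (le_sup_left : _ ≤ E0 ⊔ IntermediateField.adjoin K (CbS k K))
        (IntermediateField.mem_adjoin_simple_self K _)
    let M' : IntermediateField KC Y :=
      { M.toSubfield with algebraMap_mem' := hKC }
    have h2 : (⊤ : IntermediateField KC Y) ≤ M' := by
      rw [← hθ, IntermediateField.adjoin_le_iff]
      rintro _ rfl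
      exact hθM
    exact h2 (IntermediateField.mem_top (x := y))

end Crest.Agent.R013.CAsm2_588
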