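import Mathlib
import Crest.Agent.R013.PC_588
import Crest.Agent.R013.HU2_522

/-!
# R013 / HU4: `H u` and `omega u` for `u ∈ PC p G` (helper522)

`phi : G →* U1 F`, `F` complete.  `Hu phi u : U1 F`, `Om phi u = dl (Hu phi u) : F⟦X⟧`.
-/

set_option autoImplicit false
set_option linter.all false

open Filter Topology PowerSeries

namespace Crest.Agent.R013.HU4_522

open Crest.Agent.R013.PC_588 Crest.Agent.R013.HU1_522 Crest.Agent.R013.HU2_522

variable {F : Type*} [NormedField F] [IsUltrametricDist F] [CharZero F] [CompleteSpace F]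
  {p : ℕ} [Fact p.Prime] {G G' : Type*} [CommGroup G] [CommGroup G']

/-- a sequence of representatives -/
noncomputable def sq (u : PC p G) (n : ℕ) : G := (exists_rep u n).choose

omit [CharZero F] [CompleteSpace F] in
theorem rep_sq (u : PC p G) (n : ℕ) : Rep u n (sq u n) := (exists_rep u n).choose_spec

/-- any sequence of representatives is compatible -/
theorem cmp_of_rep {u : PC p G} {h : ℕ → G} (hh : ∀ n, Rep u n (h n)) : Cmp p h := fun n =>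
  (hh n).eq_iff.1 ((hh (n + 1)).of_le (Nat.le_succ n))

theorem eqv_of_rep {u : PC p G} {h h' : ℕ → G} (hh : ∀ n, Rep u n (h n))
    (hh' : ∀ n, Rep u n (h' n)) : Eqv p h h' := fun n => (hh n).eq_iff.1 (hh' n)

/-- `H_u` -/
noncomputable def Hu (φ : G →* U1 F) (u : PC p G) : U1 F := limH p φ (sq u)

/-- `omega_u` -/
noncomputable def Om (φ : G →* U1 F) (u : PC p G) : F⟦X⟧ := dl (Hu φ u)

variable (hp : ‖(p : F)‖ < 1) (φ : G →* U1 F)

include hp

theorem Hu_eq {u : PC p G} {h : ℕ → G} (hh : ∀ n, Rep u n (h n)) : Hu φ u = limH p φ h :=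
  limH_congr hp φ (cmp_of_rep (rep_sq u)) (cmp_of_rep hh) (eqv_of_rep (rep_sq u) hh)

theorem Om_eq {u : PC p G} {h : ℕ → G} (hh : ∀ n, Rep u n (h n)) : Om φ u = omega p φ h := by
  rw [Om, Hu_eq hp φ hh, omega]

/-- **specification** -/
theorem Hu_spec {u : PC p G} {n : ℕ} {g : G} (hg : Rep u n g) :
    ∃ V : U1 F, Hu φ u = φ g * V ^ (p ^ n) := by
  obtain ⟨V, hV⟩ := limH_spec hp φ (cmp_of_rep (rep_sq u)) n
  obtain ⟨a, ha⟩ := hg.eq_iff.1 (rep_sq u n)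
  exact ⟨φ a * V, by rw [Hu, hV, ha, map_mul, map_pow, mul_pow, mul_assoc]⟩

theorem Hu_unique {u : PC p G} {H : U1 F}
    (h : ∀ n, ∃ g, Rep u n g ∧ ∃ V : U1 F, H = φ g * V ^ (p ^ n)) : Hu φ u = H := by
  choose g hg hV using h
  rw [Hu_eq hp φ hg]
  exact limH_unique hp φ (cmp_of_rep hg) hV

theorem Hu_add (u v : PC p G) : Hu φ (u + v) = Hu φ u * Hu φ v := by
  refine Hu_unique hp φ fun n => ⟨sq u n * sq v n, (rep_sq u n).add (rep_sq v n), ?_⟩
  obtain ⟨V, hV⟩ := Hu_spec hp φ (rep_sq u n)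
  obtain ⟨W, hW⟩ := Hu_spec hp φ (rep_sq v n)
  exact ⟨V * W, by rw [hV, hW, map_mul, mul_pow, mul_mul_mul_comm]⟩





/-- naturality: `s : G → G'`, `sigma` isometric -/
theorem Hu_map (s : G →* G') (φ' : G' →* U1 F) (σ : F →+* F)
    (hσ : ∀ a, ‖σ a‖ = ‖a‖) (hs : ∀ g, φ' (s g) = mapU σ hσ (φ g)) (u : PC p G) :
    Hu φ' (PC.map s u) = mapU σ hσ (Hu φ u) := by
  refine Hu_unique hp φ' fun n => ⟨s (sq u n), (rep_sq u n).map s, ?_⟩
  obtain ⟨V, hV⟩ := Hu_spec hp φ (rep_sq u n)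
  exact ⟨mapU σ hσ V, by rw [hV, hs, map_mul, map_pow]⟩

omit [CompleteSpace F] hp in
theorem Om_int (u : PC p G) : Int1 (Om φ u) := dl_int _

theorem Om_add (u v : PC p G) : Om φ (u + v) = Om φ u + Om φ v := by
  rw [Om, Hu_add hp, dl_mul]; rfl




theorem Om_map (s : G →* G') (φ' : G' →* U1 F) (σ : F →+* F)
    (hσ : ∀ a, ‖σ a‖ = ‖a‖) (hs : ∀ g, φ' (s g) = mapU σ hσ (φ g)) (u : PC p G) :
    Om φ' (PC.map s u) = PowerSeries.map σ (Om φ u) := by
  rw [Om, Hu_map hp φ s φ' σ hσ hs, dl_mapU]; rfl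

theorem norm_Om_sub_le {u : PC p G} {n : ℕ} {g : G} (hg : Rep u n g) (l : ℕ) :
    ‖coeff l (Om φ u) - coeff l (dl (φ g))‖ ≤ ‖(p : F)‖ ^ n := by
  obtain ⟨V, hV⟩ := Hu_spec hp φ hg
  rw [Om, hV, dl_mul, map_add, add_sub_cancel_left, ← norm_pow, ← Nat.cast_pow]
  exact coeff_dl_pow_le V _ l


theorem norm_dl_le_of_Om_eq_zero {u : PC p G} (h0 : Om φ u = 0) {n : ℕ} {g : G} (hg : Rep u n g)
    (l : ℕ) : ‖coeff l (dl (φ g))‖ ≤ ‖(p : F)‖ ^ n := by
  have := norm_Om_sub_le hp φ hg l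
  rwa [h0, map_zero, zero_sub, norm_neg] at this


omit hp in
/-- `z ≡ m mod p^n` in `ℤ_p` gives the same in `F`. -/
theorem norm_algebraMap_sub_le [Algebra ℤ_[p] F] (hZ : ∀ z : ℤ_[p], ‖algebraMap ℤ_[p] F z‖ ≤ 1)
    (z : ℤ_[p]) (m n : ℕ) (hm : PadicInt.toZModPow n z = (m : ZMod (p ^ n))) :
    ‖(m : F) - algebraMap ℤ_[p] F z‖ ≤ ‖(p : F)‖ ^ n := by
  have h1 : (m : ℤ_[p]) - z ∈ RingHom.ker (PadicInt.toZModPow (p := p) n) := by
    rw [RingHom.mem_ker, map_sub, map_natCast, hm, sub_self]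
  rw [PadicInt.ker_toZModPow, Ideal.mem_span_singleton] at h1
  obtain ⟨w, hw⟩ := h1
  have h2 : (m : F) - algebraMap ℤ_[p] F z = (p : F) ^ n * algebraMap ℤ_[p] F w := by
    rw [← map_natCast (algebraMap ℤ_[p] F) m, ← map_sub, hw, map_mul, map_pow, map_natCast]
  rw [h2, norm_mul, norm_pow]
  exact mul_le_of_le_one_right (by positivity) (hZ w)

/-- `ℤ_p`-linearity -/
theorem Om_smul [Algebra ℤ_[p] F] (hZ : ∀ z : ℤ_[p], ‖algebraMap ℤ_[p] F z‖ ≤ 1) (z : ℤ_[p])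
    (u : PC p G) : Om φ (z • u) = algebraMap ℤ_[p] F z • Om φ u := by
  choose a ha using fun n => exists_nat_rep p n z
  rw [Om_eq hp φ (rep_sq u), Om_eq hp φ (fun n => (rep_sq u n).smul z (a n) (ha n))]
  exact omega_pow hp φ (cmp_of_rep (rep_sq u))
    (cmp_of_rep (u := z • u) fun n => (rep_sq u n).smul z (a n) (ha n)) a _
    (fun n => norm_algebraMap_sub_le hZ z (a n) n (ha n)) (fun n => rfl)


end Crest.Agent.R013.HU4_522
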