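import Mathlib
import Crest.Agent.R013.RR19_948
import Crest.Agent.R013.RR17_948
import Crest.Agent.R013.CE5_280
import Crest.Agent.R013.Cell4_408
import Crest.Agent.R013.HU2_522
import Crest.Agent.R013.HU6_522
import Crest.Agent.R013.HU4_522
import Crest.Agent.R013.Good3_940
import Crest.Agent.R013.EE4_809

-- ▼ part R013/NC1_522
section

/-!
# R013 / NC1: norm comparison on finite dimensional spaces of functions (helper522)

`C` an algebraically closed valued field (rank one, NOT complete), `K / C(x)` finite, `w` a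
valuation of `K` extending the one of `C` with `inf_{a ∈ C} w (x - a) > 0` (types 2, 3, 4).
Then `w` is equivalent to the maximum norm on every finite dimensional `C`-subspace of `K`.
Proof: Nullstellensatz for the norm form.
-/

set_option autoImplicit false
set_option linter.all false

open scoped NNReal

namespace Crest.Agent.R013.NC1_522

section Bound

variable {C : Type*} [Field C] (v : Valuation C ℝ≥0)

/-- polynomials are bounded on the unit polydisc -/
theorem exists_bound_eval {ι : Type*} (P : MvPolynomial ι C) :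
    ∃ B : ℝ≥0, 0 < B ∧ ∀ a : ι → C, (∀ i, v (a i) ≤ 1) → v (MvPolynomial.eval a P) ≤ B := by
  induction P using MvPolynomial.induction_on with
  | C c =>
    refine ⟨v c + 1, by positivity, fun a _ => ?_⟩
    rw [MvPolynomial.eval_C]
    exact le_self_add
  | add p q hp hq =>
    obtain ⟨B1, h1, h1'⟩ := hp
    obtain ⟨B2, h2, h2'⟩ := hq
    refine ⟨max B1 B2, lt_max_of_lt_left h1, fun a ha => ?_⟩
    rw [map_add]
    exact (v.map_add _ _).trans (max_le_max (h1' a ha) (h2' a ha))
  | mul_X p i hp =>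
    obtain ⟨B1, h1, h1'⟩ := hp
    refine ⟨B1, h1, fun a ha => ?_⟩
    rw [map_mul, MvPolynomial.eval_X, map_mul]
    calc v (MvPolynomial.eval a p) * v (a i) ≤ B1 * 1 := mul_le_mul' (h1' a ha) (ha i)
      _ = B1 := mul_one _

/-- a system of forms without common zero is bounded below on the unit polydisc -/
theorem exists_lower [IsAlgClosed C] {ι σ : Type*} [Finite ι] [Finite σ]
    (D : σ → MvPolynomial ι C)
    (h : ∀ a : ι → C, (∀ l, MvPolynomial.eval a (D l) = 0) → a = 0) :
    ∃ ε : ℝ≥0, 0 < ε ∧ ∀ a : ι → C, (∀ i, v (a i) ≤ 1) → ∀ i, v (a i) = 1 →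
      ∃ l, ε ≤ v (MvPolynomial.eval a (D l)) := by
  classical
  cases nonempty_fintype ι
  cases nonempty_fintype σ
  have key : ∀ i : ι, ∃ ε : ℝ≥0, 0 < ε ∧ ∀ a : ι → C, (∀ i, v (a i) ≤ 1) → v (a i) = 1 →
      ∃ l, ε ≤ v (MvPolynomial.eval a (D l)) := by
    intro i
    have h1 : (MvPolynomial.X i : MvPolynomial ι C) ∈ (Ideal.span (Set.range D)).radical := by
      rw [← MvPolynomial.vanishingIdeal_zeroLocus_eq_radical (K := C) (Ideal.span (Set.range D)),
        MvPolynomial.mem_vanishingIdeal_iff]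
      intro a ha
      rw [MvPolynomial.mem_zeroLocus_iff] at ha
      have h2 : a = 0 := h a fun l => by
        have := ha (D l) (Ideal.subset_span ⟨l, rfl⟩)
        rwa [MvPolynomial.aeval_eq_eval] at this
      rw [h2]
      simp
    obtain ⟨m, hm⟩ := h1
    obtain ⟨A, hA⟩ := (Ideal.mem_span_range_iff_exists_fun).mp hm
    choose B hB hB' using fun l => exists_bound_eval v (A l)
    have hpos : 0 < (1 + ∑ l, B l) := by positivity
    refine ⟨(1 + ∑ l, B l)⁻¹, by positivity, fun a ha hai => ?_⟩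
    by_contra hcon
    push Not at hcon
    have h3 : v (∑ l, MvPolynomial.eval a (A l) * MvPolynomial.eval a (D l)) = 1 := by
      have := congrArg (MvPolynomial.eval a) hA
      rw [map_sum, map_pow, MvPolynomial.eval_X] at this
      simp only [map_mul] at this
      rw [this, map_pow, hai, one_pow]
    have h4 : v (∑ l, MvPolynomial.eval a (A l) * MvPolynomial.eval a (D l)) < 1 := by
      refine Valuation.map_sum_lt v one_ne_zero fun l _ => ?_
      rw [map_mul]
      have h5 : B l < 1 + ∑ l, B l := by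
        have : B l ≤ ∑ l, B l := Finset.single_le_sum (fun _ _ => zero_le') (Finset.mem_univ l)
        exact lt_of_le_of_lt this (by rw [add_comm]; exact lt_add_one _)
      calc v (MvPolynomial.eval a (A l)) * v (MvPolynomial.eval a (D l))
          ≤ B l * (1 + ∑ l, B l)⁻¹ := mul_le_mul' (hB' l a ha) (hcon l).le
        _ < (1 + ∑ l, B l) * (1 + ∑ l, B l)⁻¹ := by
            exact mul_lt_mul_of_pos_right h5 (by positivity)
        _ = 1 := mul_inv_cancel₀ hpos.ne'
    exact absurd h3 h4.ne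
  choose ε hε hε' using key
  by_cases hι : Nonempty ι
  · obtain ⟨i0, hi0⟩ := Finite.exists_min ε
    exact ⟨ε i0, hε i0, fun a ha i hi => by
      obtain ⟨l, hl⟩ := hε' i a ha hi
      exact ⟨l, (hi0 i).trans hl⟩⟩
  · exact ⟨1, one_pos, fun a ha i => absurd ⟨i⟩ hι⟩

end Bound

section Poly

open Polynomial

variable {C : Type*} [Field C] (v : Valuation C ℝ≥0)
  {K : Type*} [Field K] [Algebra C K] (w : Valuation K ℝ≥0) (hw : ∀ c : C, w (algebraMap C K c) = v c)
  (x : K)

include hw in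
theorem exists_lin (hx : ∃ ε : ℝ≥0, 0 < ε ∧ ∀ a : C, ε ≤ w (x - algebraMap C K a)) :
    ∃ ε : ℝ≥0, 0 < ε ∧ ∀ a : C, ε ≤ w (x - algebraMap C K a) ∧
      ε * v a ≤ w (x - algebraMap C K a) := by
  obtain ⟨ε, h0, h⟩ := hx
  have hM : (0 : ℝ≥0) < max 1 (w x) := lt_max_of_lt_left one_pos
  refine ⟨min 1 (ε / max 1 (w x)), lt_min one_pos (div_pos h0 hM), fun a => ⟨?_, ?_⟩⟩
  · refine le_trans (min_le_right _ _) (le_trans ?_ (h a))
    exact div_le_of_le_mul₀ (by positivity) (by positivity)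
      (le_mul_of_one_le_right (by positivity) (le_max_left _ _))
  · by_cases hc : w x < v a
    · have : w (x - algebraMap C K a) = v a := by
        rw [Valuation.map_sub_swap, ← hw a]
        exact Valuation.map_sub_eq_of_lt_left _ (by rwa [hw])
      rw [this]
      calc min 1 (ε / max 1 (w x)) * v a ≤ 1 * v a := mul_le_mul' (min_le_left _ _) le_rfl
        _ = v a := one_mul _
    · push Not at hc
      refine le_trans ?_ (h a)
      calc min 1 (ε / max 1 (w x)) * v a ≤ (ε / max 1 (w x)) * max 1 (w x) :=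
            mul_le_mul' (min_le_right _ _) (hc.trans (le_max_right _ _))
        _ = ε := div_mul_cancel₀ _ hM.ne'

include hw in
/-- coefficients of polynomials are controlled by the value at `x` -/
theorem poly_lb [IsAlgClosed C] (hx : ∃ ε : ℝ≥0, 0 < ε ∧ ∀ a : C, ε ≤ w (x - algebraMap C K a))
    (d : ℕ) : ∃ ε : ℝ≥0, 0 < ε ∧ ∀ P : C[X], P.natDegree ≤ d → ∀ l,
      ε * v (P.coeff l) ≤ w (aeval x P) := by
  obtain ⟨ε', h0, h'⟩ := exists_lin v w hw x hx
  induction d with
  | zero =>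
    refine ⟨1, one_pos, fun P hP l => ?_⟩
    have hP' : P = Polynomial.C (P.coeff 0) := eq_C_of_natDegree_le_zero hP
    rw [one_mul, hP', aeval_C, hw]
    by_cases hl : l = 0
    · subst hl; simp
    · rw [coeff_C_ne_zero hl]; simp
  | succ d ih =>
    obtain ⟨ε, hε, h⟩ := ih
    refine ⟨min ε (ε' * ε), lt_min hε (mul_pos h0 hε), fun P hP l => ?_⟩
    by_cases hd : P.natDegree ≤ d
    · exact le_trans (mul_le_mul' (min_le_left _ _) le_rfl) (h P hd l)
    · have hdeg : P.degree ≠ 0 := by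
        intro hz
        rw [natDegree_eq_of_degree_eq_some hz] at hd
        exact hd (Nat.zero_le _)
      obtain ⟨a, ha⟩ := IsAlgClosed.exists_root P hdeg
      obtain ⟨Q, hQ⟩ := dvd_iff_isRoot.mpr ha
      have hP0 : P ≠ 0 := by
        rintro rfl
        exact hd (by simp)
      have hQ0 : Q ≠ 0 := by
        rintro rfl
        exact hP0 (by rw [hQ, mul_zero])
      have hQd : Q.natDegree ≤ d := by
        have := congrArg natDegree hQ
        rw [natDegree_mul (X_sub_C_ne_zero a) hQ0, natDegree_X_sub_C] at this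
        omega
      have hval : w (aeval x P) = w (x - algebraMap C K a) * w (aeval x Q) := by
        rw [hQ, map_mul, map_sub, aeval_X, aeval_C, map_mul]
      rw [hval]
      refine le_trans (mul_le_mul' (min_le_right _ _) le_rfl) ?_
      have hco : P.coeff l = (X * Q).coeff l - a * Q.coeff l := by
        rw [hQ, sub_mul, coeff_sub, coeff_C_mul]
      rw [hco]
      have h1 : ε' * ε * v ((X * Q).coeff l) ≤ w (x - algebraMap C K a) * w (aeval x Q) := by
        cases l with
        | zero => simp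
        | succ l =>
          rw [coeff_X_mul, mul_assoc]
          exact mul_le_mul' (h' a).1 (h Q hQd l)
      have h2 : ε' * ε * v (a * Q.coeff l) ≤ w (x - algebraMap C K a) * w (aeval x Q) := by
        rw [map_mul]
        calc ε' * ε * (v a * v (Q.coeff l)) = (ε' * v a) * (ε * v (Q.coeff l)) := by ring
          _ ≤ _ := mul_le_mul' (h' a).2 (h Q hQd l)
      calc ε' * ε * v ((X * Q).coeff l - a * Q.coeff l)
          ≤ ε' * ε * max (v ((X * Q).coeff l)) (v (a * Q.coeff l)) :=
            mul_le_mul' le_rfl (v.map_sub _ _)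
        _ = max (ε' * ε * v ((X * Q).coeff l)) (ε' * ε * v (a * Q.coeff l)) :=
            mul_max_of_nonneg _ _ (by positivity)
        _ ≤ _ := max_le h1 h2

include hw in
/-- polynomials in `x` with coefficients polynomials are bounded on the unit polydisc -/
theorem exists_bound_eval₂ {ι : Type*} (P : (MvPolynomial ι C)[X]) :
    ∃ B : ℝ≥0, 0 < B ∧ ∀ a : ι → C, (∀ i, v (a i) ≤ 1) →
      w (aeval x (P.map (MvPolynomial.eval a))) ≤ B := by
  induction P using Polynomial.induction_on' with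
  | add p q hp hq =>
    obtain ⟨B1, h1, h1'⟩ := hp
    obtain ⟨B2, h2, h2'⟩ := hq
    refine ⟨max B1 B2, lt_max_of_lt_left h1, fun a ha => ?_⟩
    rw [Polynomial.map_add, map_add]
    exact (w.map_add _ _).trans (max_le_max (h1' a ha) (h2' a ha))
  | monomial n c =>
    obtain ⟨B, h, h'⟩ := exists_bound_eval v c
    refine ⟨B * (w x ^ n + 1), by positivity, fun a ha => ?_⟩
    rw [map_monomial, aeval_monomial, map_mul, hw, map_pow]
    exact mul_le_mul' (h' a ha) le_self_add

end Poly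

section Main

open Polynomial

variable {C : Type*} [Field C] [IsAlgClosed C] (v : Valuation C ℝ≥0)
  {K : Type*} [Field K] [Algebra C K] [Algebra (RatFunc C) K] [IsScalarTower C (RatFunc C) K]
  [FiniteDimensional (RatFunc C) K]
  (w : Valuation K ℝ≥0) (hw : ∀ c : C, w (algebraMap C K c) = v c)

include hw in
/-- **norm equivalence**: lower bound on a finite dimensional space, normalised vectors -/
theorem lower_aux
    (hx : ∃ ε : ℝ≥0, 0 < ε ∧ ∀ a : C, ε ≤ w (algebraMap (RatFunc C) K RatFunc.X - algebraMap C K a))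
    {ι : Type*} [Fintype ι] (e : ι → K) (he : LinearIndependent C e) :
    ∃ c : ℝ≥0, 0 < c ∧ ∀ a : ι → C, (∀ i, v (a i) ≤ 1) → ∀ i, v (a i) = 1 →
      c ≤ w (∑ j, algebraMap C K (a j) * e j) := by
  classical
  set F := RatFunc C with hF
  set x : K := algebraMap (RatFunc C) K RatFunc.X with hxdef
  -- basis of K over F
  let b := Module.finBasis F K
  set n := Module.finrank F K
  have hn : 0 < n := Module.finrank_pos
  -- common denominator
  obtain ⟨q, hq⟩ := IsLocalization.exist_integer_multiples_of_finset (nonZeroDivisors C[X])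
    (Finset.univ.image fun z : ι × Fin n × Fin n =>
      Algebra.leftMulMatrix b (e z.1) z.2.1 z.2.2 : Finset F)
  have hq' : ∀ j k l, ∃ r : C[X], algebraMap C[X] F r =
      (q : C[X]) • Algebra.leftMulMatrix b (e j) k l := by
    intro j k l
    exact hq _ (Finset.mem_image.mpr ⟨(j, k, l), Finset.mem_univ _, rfl⟩)
  choose A hA using hq'
  set qK : K := algebraMap F K (algebraMap C[X] F (q : C[X])) with hqK
  have hq0 : algebraMap C[X] F (q : C[X]) ≠ 0 := by
    have := nonZeroDivisors.coe_ne_zero q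
    rw [ne_eq, map_eq_zero_iff _ (IsFractionRing.injective C[X] F)]
    exact this
  have hqK0 : qK ≠ 0 := by
    rw [hqK, ne_eq, map_eq_zero]
    exact hq0
  -- the generic matrix
  let G : Matrix (Fin n) (Fin n) (MvPolynomial ι C)[X] :=
    ∑ j, (Polynomial.C (MvPolynomial.X j) : (MvPolynomial ι C)[X]) •
      (Matrix.of (A j)).map (Polynomial.map MvPolynomial.C)
  let M : (ι → C) → Matrix (Fin n) (Fin n) C[X] := fun a =>
    ∑ j, (Polynomial.C (a j) : C[X]) • Matrix.of (A j)
  have hGM : ∀ a : ι → C, (Polynomial.mapRingHom (MvPolynomial.eval a)).mapMatrix G = M a := by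
    intro a
    simp only [G, M, map_sum]
    refine Finset.sum_congr rfl fun j _ => ?_
    ext k l : 2
    simp only [RingHom.mapMatrix_apply, Matrix.map_apply, Matrix.smul_apply, smul_eq_mul,
      Polynomial.coe_mapRingHom, Polynomial.map_mul, Polynomial.map_C, MvPolynomial.eval_X,
      Polynomial.map_map, Matrix.of_apply]
    congr 1
    have : (MvPolynomial.eval a).comp (MvPolynomial.C : C →+* MvPolynomial ι C) = RingHom.id C := by
      ext c; simp
    rw [this, Polynomial.map_id]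
  have hdetM : ∀ a, (M a).det = (G.det).map (MvPolynomial.eval a) := by
    intro a
    rw [← hGM a, ← RingHom.map_det]
    rfl
  have hadjM : ∀ a k l, (M a).adjugate k l = (G.adjugate k l).map (MvPolynomial.eval a) := by
    intro a k l
    rw [← hGM a, ← RingHom.map_adjugate]
    rfl
  -- relation with multiplication by `q f`
  have hMmul : ∀ a : ι → C, (algebraMap C[X] F).mapMatrix (M a) =
      Algebra.leftMulMatrix b (qK * ∑ j, algebraMap C K (a j) * e j) := by
    intro a
    have h1 : qK * ∑ j, algebraMap C K (a j) * e j =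
        ∑ j, (algebraMap C[X] F (Polynomial.C (a j)) * algebraMap C[X] F (q : C[X])) • e j := by
      rw [Finset.mul_sum]
      refine Finset.sum_congr rfl fun j _ => ?_
      rw [Algebra.smul_def, map_mul, hqK, IsScalarTower.algebraMap_apply C F K]
      have h2 : algebraMap C F (a j) = algebraMap C[X] F (Polynomial.C (a j)) := by
        rw [IsScalarTower.algebraMap_apply C C[X] F]; rfl
      rw [h2]
      ring
    rw [h1, map_sum, map_sum]
    refine Finset.sum_congr rfl fun j _ => ?_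
    have h3 : Algebra.leftMulMatrix b
        ((algebraMap C[X] F (Polynomial.C (a j)) * algebraMap C[X] F (q : C[X])) • e j) =
        (algebraMap C[X] F (Polynomial.C (a j)) * algebraMap C[X] F (q : C[X])) •
          Algebra.leftMulMatrix b (e j) := map_smul _ _ _
    rw [h3]
    ext k l
    have h4 : algebraMap C[X] F (A j k l) =
        algebraMap C[X] F (q : C[X]) * Algebra.leftMulMatrix b (e j) k l := by
      rw [hA, Algebra.smul_def]
    simp only [RingHom.mapMatrix_apply, Matrix.map_apply, Matrix.smul_apply, smul_eq_mul,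
      Matrix.of_apply, map_mul, h4]
    ring
  -- D_l
  set d := G.det.natDegree with hd
  let D : Fin (d + 1) → MvPolynomial ι C := fun l => G.det.coeff l
  have hD : ∀ a : ι → C, (∀ l, MvPolynomial.eval a (D l) = 0) → a = 0 := by
    intro a ha
    have h1 : (M a).det = 0 := by
      rw [hdetM]
      ext l
      rw [Polynomial.coeff_map, Polynomial.coeff_zero]
      by_cases hl : l < d + 1
      · exact ha ⟨l, hl⟩
      · rw [coeff_eq_zero_of_natDegree_lt (by omega), map_zero]
    have h2 : Algebra.norm F (qK * ∑ j, algebraMap C K (a j) * e j) = 0 := by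
      rw [Algebra.norm_eq_matrix_det b, ← hMmul, ← RingHom.map_det, h1, map_zero]
    rw [Algebra.norm_eq_zero_iff] at h2
    have h3 := (mul_eq_zero.mp h2).resolve_left hqK0
    have h4 := Fintype.linearIndependent_iff.mp he a (by
      rw [← h3]
      exact Finset.sum_congr rfl fun j _ => Algebra.smul_def _ _)
    funext j
    exact h4 j
  obtain ⟨ε0, hε0, hlow⟩ := exists_lower v D hD
  obtain ⟨ε1, hε1, hpoly⟩ := poly_lb v w hw x hx d
  -- bound of the adjugate
  let i0 : Fin n := ⟨0, hn⟩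
  choose B hB hB' using fun k => exists_bound_eval₂ v w hw x (G.adjugate k i0)
  -- bound of the basis
  set S : ℝ≥0 := 1 + ∑ k, B k * w (b k) with hS
  have hSpos : 0 < S := by positivity
  have hwb : 0 < w (b i0) := by
    rw [Valuation.pos_iff]
    exact b.ne_zero i0
  have hwq : 0 < w qK := by rwa [Valuation.pos_iff]
  have hcpos : 0 < ε1 * ε0 * w (b i0) / (w qK * S) := by positivity
  refine ⟨ε1 * ε0 * w (b i0) / (w qK * S), hcpos, fun a ha i hi => ?_⟩
  set f := ∑ j, algebraMap C K (a j) * e j with hf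
  -- the cofactor
  let g : K := ∑ k, aeval x ((M a).adjugate k i0) * b k
  have haev : ∀ P : C[X], aeval x P = algebraMap F K (algebraMap C[X] F P) := by
    intro P
    have h1 : ((algebraMap F K).comp (algebraMap C[X] F)) = (aeval x : C[X] →ₐ[C] K).toRingHom := by
      refine Polynomial.ringHom_ext (fun c => ?_) ?_
      · simp only [RingHom.comp_apply, AlgHom.toRingHom_eq_coe, RingHom.coe_coe, aeval_C]
        rw [IsScalarTower.algebraMap_apply C F K, IsScalarTower.algebraMap_apply C C[X] F]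
        rfl
      · simp only [RingHom.comp_apply, AlgHom.toRingHom_eq_coe, RingHom.coe_coe, aeval_X]
        rw [hxdef, RatFunc.algebraMap_X]
    exact (RingHom.congr_fun h1 P).symm
  have hprod : qK * f * g = aeval x (M a).det * b i0 := by
    have h1 : ∀ k, qK * f * b k = ∑ l, algebraMap F K (algebraMap C[X] F (M a l k)) * b l := by
      intro k
      have h2 := b.sum_repr (qK * f * b k)
      rw [← h2]
      refine Finset.sum_congr rfl fun l _ => ?_
      rw [Algebra.smul_def]
      congr 2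
      have h3 := congrFun (congrFun (hMmul a) l) k
      rw [Algebra.leftMulMatrix_eq_repr_mul] at h3
      rw [← h3]
      rfl
    calc qK * f * g = ∑ k, aeval x ((M a).adjugate k i0) * (qK * f * b k) := by
          simp only [g, Finset.mul_sum]
          refine Finset.sum_congr rfl fun k _ => by ring
      _ = ∑ k, ∑ l, aeval x (M a l k * (M a).adjugate k i0) * b l := by
          refine Finset.sum_congr rfl fun k _ => ?_
          rw [h1, Finset.mul_sum]
          refine Finset.sum_congr rfl fun l _ => ?_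
          rw [map_mul, haev (M a l k)]
          ring
      _ = ∑ l, aeval x (((M a) * (M a).adjugate) l i0) * b l := by
          rw [Finset.sum_comm]
          refine Finset.sum_congr rfl fun l _ => ?_
          rw [Matrix.mul_apply, map_sum, Finset.sum_mul]
      _ = aeval x (M a).det * b i0 := by
          rw [Matrix.mul_adjugate]
          rw [Finset.sum_eq_single i0]
          · simp
          · intro l _ hl
            simp [Matrix.smul_apply, Matrix.one_apply_ne hl]
          · intro h; exact absurd (Finset.mem_univ _) h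
  have hg : w g ≤ S := by
    refine Valuation.map_sum_le w fun k _ => ?_
    rw [map_mul, hadjM]
    calc w (aeval x ((G.adjugate k i0).map (MvPolynomial.eval a))) * w (b k)
        ≤ B k * w (b k) := mul_le_mul' (hB' k a ha) le_rfl
      _ ≤ ∑ k, B k * w (b k) := Finset.single_le_sum (f := fun k => B k * w (b k))
          (fun _ _ => zero_le') (Finset.mem_univ k)
      _ ≤ S := by rw [hS]; exact le_add_self
  obtain ⟨l, hl⟩ := hlow a ha i hi
  have hdet : ε1 * ε0 ≤ w (aeval x (M a).det) := by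
    have h1 : (M a).det.natDegree ≤ d := by
      rw [hdetM]
      exact natDegree_map_le
    have h2 := hpoly _ h1 l
    refine le_trans (mul_le_mul' le_rfl ?_) h2
    rw [hdetM, Polynomial.coeff_map]
    exact hl
  have hfin : ε1 * ε0 * w (b i0) ≤ w f * (w qK * S) := by
    calc ε1 * ε0 * w (b i0) ≤ w (aeval x (M a).det) * w (b i0) := mul_le_mul' hdet le_rfl
      _ = w (qK * f * g) := by rw [hprod, map_mul]
      _ = w qK * w f * w g := by rw [map_mul, map_mul]
      _ ≤ w qK * w f * S := mul_le_mul' le_rfl hg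
      _ = w f * (w qK * S) := by ring
  exact div_le_of_le_mul₀ (by positivity) (by positivity) hfin

include hw in
/-- **norm equivalence**: lower bound on a finite dimensional space -/
theorem lower
    (hx : ∃ ε : ℝ≥0, 0 < ε ∧ ∀ a : C, ε ≤ w (algebraMap (RatFunc C) K RatFunc.X - algebraMap C K a))
    {ι : Type*} [Fintype ι] (e : ι → K) (he : LinearIndependent C e) :
    ∃ c : ℝ≥0, 0 < c ∧ ∀ a : ι → C, ∀ i, c * v (a i) ≤ w (∑ j, algebraMap C K (a j) * e j) := by
  classical
  obtain ⟨c, hc, h⟩ := lower_aux v w hw hx e he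
  refine ⟨c, hc, fun a i => ?_⟩
  by_cases hz : a = 0
  · subst hz; simp
  · haveI : Nonempty ι := ⟨i⟩
    obtain ⟨m, hm⟩ := Finite.exists_max fun j => v (a j)
    have ham : a m ≠ 0 := by
      intro h0
      apply hz
      funext j
      have := hm j
      rw [h0, map_zero] at this
      simpa using this
    have hvm : v (a m) ≠ 0 := (Valuation.ne_zero_iff _).mpr ham
    have h1 := h (fun j => a j / a m) (fun j => by
      rw [map_div₀]
      exact div_le_one_of_le₀ (hm j) (by positivity)) m (by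
      show v (a m / a m) = 1
      rw [div_self ham, map_one])
    have h2 : w (∑ j, algebraMap C K (a j) * e j) =
        v (a m) * w (∑ j, algebraMap C K (a j / a m) * e j) := by
      rw [← hw, ← map_mul, Finset.mul_sum]
      congr 1
      refine Finset.sum_congr rfl fun j _ => ?_
      rw [← mul_assoc, ← map_mul, mul_div_cancel₀ _ ham]
    rw [h2, mul_comm c]
    exact mul_le_mul' (hm i) h1

end Main

end Crest.Agent.R013.NC1_522
end

-- ▼ part R013/NC2_522
section

/-!
# R013 / NC2: LEMMA NC (norm comparison on functions with boundedly many poles) (helper522)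

`C` algebraically closed valued field, `K` a function field over `C` (948's context), `w1, w2`
valuations of `K` extending the one of `C`, of types 2, 3, 4 (`inf_a w (x - a) > 0`).  Then
`w1 f ≥ c w2 f` for all `f` with at most `N` poles.
-/

set_option autoImplicit false
set_option linter.all false

open scoped NNReal

namespace Crest.Agent.R013.NC2_522

open WithZero
open Crest.Agent.R013.RR7_948 Crest.Agent.R013.RR8_948 Crest.Agent.R013.RR9_948
open Crest.Agent.R013.RR11_948 Crest.Agent.R013.RR19_948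

variable {C : Type*} [Field C] [IsAlgClosed C] (v : Valuation C ℝ≥0)
  {K : Type*} [Field K] [Algebra C K] [Algebra (RatFunc C) K] [IsScalarTower C (RatFunc C) K]
  [FiniteDimensional (RatFunc C) K]

theorem algClosure_eq_bot : algebraicClosure C K = ⊥ := by
  rw [eq_bot_iff]
  intro y hy
  rw [mem_algebraicClosure_iff] at hy
  obtain ⟨c, hc⟩ := minpoly.mem_range_of_degree_eq_one C y
    (IsAlgClosed.degree_eq_one_of_irreducible C (minpoly.irreducible hy.isIntegral))
  exact ⟨c, hc⟩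

/-- a norm is equivalent to the maximum norm, two norms are equivalent on `L(D)` -/
theorem equiv_on (w1 w2 : Valuation K ℝ≥0) (h1 : ∀ c : C, w1 (algebraMap C K c) = v c)
    (h2 : ∀ c : C, w2 (algebraMap C K c) = v c)
    (hx : ∃ ε : ℝ≥0, 0 < ε ∧ ∀ a : C, ε ≤ w1 (algebraMap (RatFunc C) K RatFunc.X - algebraMap C K a))
    (V : Submodule C K) [Module.Finite C V] :
    ∃ c : ℝ≥0, 0 < c ∧ ∀ f ∈ V, c * w2 f ≤ w1 f := by
  classical
  let b := Module.finBasis C V
  have hb : LinearIndependent C (fun i => (b i : K)) :=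
    b.linearIndependent.map' V.subtype (Submodule.ker_subtype V)
  obtain ⟨c, hc, h⟩ := NC1_522.lower v w1 h1 hx (fun i => (b i : K)) hb
  set S : ℝ≥0 := 1 + ∑ i, w2 (b i) with hS
  have hSpos : 0 < S := by positivity
  refine ⟨c / S, by positivity, fun f hf => ?_⟩
  have hf' : f = ∑ j, algebraMap C K (b.repr ⟨f, hf⟩ j) * (b j : K) := by
    have h5 : f = ((∑ i, (b.repr ⟨f, hf⟩) i • b i : V) : K) :=
      (congrArg (Subtype.val) (b.sum_repr ⟨f, hf⟩)).symm
    refine h5.trans ?_
    rw [AddSubmonoidClass.coe_finset_sum]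
    refine Finset.sum_congr rfl fun j _ => ?_
    rw [Submodule.coe_smul, Algebra.smul_def]
  have hle : w2 f ≤ S * (w1 f / c) := by
    conv_lhs => rw [hf']
    refine Valuation.map_sum_le w2 fun i _ => ?_
    rw [map_mul, h2, mul_comm]
    refine mul_le_mul' ?_ ?_
    · calc w2 (b i) ≤ ∑ i, w2 (b i) := Finset.single_le_sum (f := fun i => w2 (b i))
            (fun _ _ => zero_le') (Finset.mem_univ i)
        _ ≤ S := by rw [hS]; exact le_add_self
    · rw [le_div_iff₀ hc, mul_comm]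
      have := h (fun j => b.repr ⟨f, hf⟩ j) i
      rwa [← hf'] at this
  calc c / S * w2 f ≤ c / S * (S * (w1 f / c)) := mul_le_mul' le_rfl hle
    _ = w1 f := by field_simp

variable [Algebra.IsSeparable (RatFunc C) K]

/-- **LEMMA NC** -/
theorem nc (w1 w2 : Valuation K ℝ≥0) (h1 : ∀ c : C, w1 (algebraMap C K c) = v c)
    (h2 : ∀ c : C, w2 (algebraMap C K c) = v c)
    (hx1 : ∃ ε : ℝ≥0, 0 < ε ∧ ∀ a : C, ε ≤ w1 (algebraMap (RatFunc C) K RatFunc.X - algebraMap C K a))
    (hx2 : ∃ ε : ℝ≥0, 0 < ε ∧ ∀ a : C, ε ≤ w2 (algebraMap (RatFunc C) K RatFunc.X - algebraMap C K a))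
    (N : ℤ) :
    ∃ c : ℝ≥0, 0 < c ∧ ∀ (f : K) (E : Pl C K →₀ ℤ), 0 ≤ E → degD E ≤ N → f ∈ LD E →
      c * w2 f ≤ w1 f := by
  obtain ⟨E0, hE0⟩ := exists_degD_gt (k := C) (K := K) (N + gen C K)
  haveI := LD_finite (k := C) (K := K) E0
  obtain ⟨c1, hc1, H1⟩ := equiv_on v w1 w2 h1 h2 hx1 (LD E0)
  obtain ⟨c2, hc2, H2⟩ := equiv_on v w2 w1 h2 h1 hx2 (LD E0)
  refine ⟨c1 * c2, by positivity, fun f E hE hN hf => ?_⟩
  by_cases hf0 : f = 0
  · subst hf0; simp
  -- `b`
  have hell := ell_ge (k := C) (K := K) algClosure_eq_bot (E0 - E)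
  have hdeg : degD (E0 - E) = degD E0 - degD E := by
    rw [sub_eq_add_neg, degD_add, degD_neg, sub_eq_add_neg]
  rw [hdeg] at hell
  have hpos : 0 < ell (E0 - E) := by
    have : (0 : ℤ) < ell (E0 - E) := by linarith
    exact_mod_cast this
  obtain ⟨⟨b, hb⟩, hb0⟩ : ∃ b : LD (E0 - E), b ≠ 0 := by
    haveI := LD_finite (k := C) (K := K) (E0 - E)
    haveI := Module.finrank_pos_iff.mp (show 0 < Module.finrank C (LD (E0 - E)) from hpos)
    exact exists_ne 0
  have hb0' : b ≠ 0 := by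
    rintro rfl
    exact hb0 rfl
  have hbE0 : b ∈ LD E0 := by
    rw [mem_LD] at hb ⊢
    intro P
    refine (hb P).trans (exp_le_exp.mpr ?_)
    have := hE P
    simp only [Finsupp.coe_sub, Pi.sub_apply, Finsupp.coe_zero, Pi.zero_apply] at this ⊢
    linarith
  have haE0 : f * b ∈ LD E0 := by
    rw [mem_LD] at hf hb ⊢
    intro P
    rw [map_mul]
    calc P.v f * P.v b ≤ exp (E P) * exp ((E0 - E) P) := mul_le_mul' (hf P) (hb P)
      _ = exp (E0 P) := by
        rw [← exp_add]
        congr 1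
        simp
  have e1 := H1 _ haE0
  have e2 := H2 _ hbE0
  rw [map_mul, map_mul] at e1
  have hb1 : 0 < w1 b := by rwa [Valuation.pos_iff]
  have hb2 : 0 < w2 b := by rwa [Valuation.pos_iff]
  -- c1 * (w2 f * w2 b) ≤ w1 f * w1 b,  c2 * w1 b ≤ w2 b
  have e3 : c1 * c2 * w2 f * w1 b ≤ w1 f * w1 b := by
    calc c1 * c2 * w2 f * w1 b = c1 * (w2 f * (c2 * w1 b)) := by ring
      _ ≤ c1 * (w2 f * w2 b) := mul_le_mul' le_rfl (mul_le_mul' le_rfl e2)
      _ ≤ w1 f * w1 b := e1
  exact le_of_mul_le_mul_right e3 hb1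

end Crest.Agent.R013.NC2_522
end

-- ▼ part R013/HU5_522
section

/-!
# R013 / HU5: representatives with few zeros, logarithmic derivatives (helper522)

`K` a function field over `C` algebraically closed of characteristic `0`.
* `v_dlog_le` : `dlog h = del h / h` has at most a simple pole (relative to `canD`) at the zeros and
  poles of `h`, none elsewhere.
* `exists_rep` : `div h = m D` has a representative `h f^m` with divisor `m (E - g P0)`, `E ≥ 0`.
* `exists_dlog_rep` : the logarithmic derivatives of these lie in `L(E')` with `deg E' ≤ N`.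
* `dlog_compare` : comparison of two norms on them.
-/

set_option autoImplicit false
set_option linter.all false

open scoped NNReal

namespace Crest.Agent.R013.HU5_522

open WithZero
open Crest.Agent.R013.RR7_948 Crest.Agent.R013.RR8_948 Crest.Agent.R013.RR9_948
open Crest.Agent.R013.RR11_948 Crest.Agent.R013.RR12_948 Crest.Agent.R013.RR13_948
open Crest.Agent.R013.RR14_948
open Crest.Agent.R013.RR15_948 Crest.Agent.R013.RR16_948
open Crest.Agent.R013.RR17_948
open Crest.Agent.R013.CE5_280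

variable {C : Type*} [Field C] [CharZero C]
  {K : Type*} [Field K] [Algebra C K] [Algebra (RatFunc C) K] [IsScalarTower C (RatFunc C) K]
  [FiniteDimensional (RatFunc C) K]

theorem v_dlog_le_one {P : Pl C K} {h : K} (h0 : divf (k := C) h P = 0) (hh : h ≠ 0) :
    P.v (del C K h / h) ≤ exp (canD C K P) := by
  obtain ⟨t, ht0, ht⟩ := exists_v_eq P (-1)
  have h1 : P.v h = 1 := by rw [v_eq hh P, h0, neg_zero, exp_zero]
  rw [map_div₀, h1, div_one, ← v_del_eq P ht]
  exact del_le_uniformizer P ht h1.le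

theorem v_dlog_le {P : Pl C K} {h : K} (hh : h ≠ 0) :
    P.v (del C K h / h) ≤ exp (canD C K P + 1) := by
  by_cases h0 : divf (k := C) h P = 0
  · refine (v_dlog_le_one h0 hh).trans ?_
    rw [exp_le_exp]; omega
  obtain ⟨t, ht0, ht⟩ := exists_v_eq P (-1)
  have h1 := v_del_pow P (del C K) ht (fun u hu => del_le_uniformizer P ht hu)
    (del_uniformizer_ne_zero P ht) (v_eq hh P) h0
  rw [map_div₀, h1, v_eq hh P, v_del_eq P ht, ← exp_add, ← exp_sub, exp_le_exp]
  omega

theorem dlog_mem {h : K} (hh : h ≠ 0) {E : Pl C K →₀ ℤ} (hE : 0 ≤ E)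
    (hE1 : ∀ P, divf (k := C) h P ≠ 0 → 1 ≤ E P) : del C K h / h ∈ LD (canD C K + E) := by
  rw [mem_LD]
  intro P
  rw [Finsupp.add_apply]
  by_cases h0 : divf (k := C) h P = 0
  · refine (v_dlog_le_one h0 hh).trans ?_
    rw [exp_le_exp]
    have := hE P
    rw [Finsupp.zero_apply] at this
    omega
  · refine (v_dlog_le hh).trans ?_
    rw [exp_le_exp]
    have := hE1 P h0
    omega


theorem degD_smul (m : ℤ) (E : Pl C K →₀ ℤ) : degD (m • E) = m * degD E := by
  unfold degD
  rw [Finsupp.sum_smul_index (fun P => by simp), Finsupp.mul_sum]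
  exact Finsupp.sum_congr fun P _ => by simp [mul_assoc]

theorem divf_pow {f : K} (hf : f ≠ 0) (m : ℕ) : divf (k := C) (f ^ m) = (m : ℤ) • divf f := by
  induction m with
  | zero => simp [divf_one]
  | succ m ih =>
    rw [pow_succ, divf_mul (pow_ne_zero m hf) hf, ih]
    ext P
    simp only [Finsupp.add_apply, Finsupp.smul_apply, smul_eq_mul]
    push_cast
    ring

variable [IsAlgClosed C]

/-- a representative of the class of `h` modulo `m`-th powers with divisor `m (E - g P0)` -/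
theorem exists_rep (P0 : Pl C K) {h : K} (hh : h ≠ 0) {m : ℕ} (hm : m ≠ 0)
    (hdiv : ∀ P : Pl C K, (m : ℤ) ∣ divf h P) :
    ∃ f : K, f ≠ 0 ∧ ∃ E : Pl C K →₀ ℤ, 0 ≤ E ∧ degD E = gen C K ∧
      divf (h * f ^ m) = (m : ℤ) • (E - Finsupp.single P0 (gen C K : ℤ)) := by
  have hm' : (m : ℤ) ≠ 0 := by exact_mod_cast hm
  let D : Pl C K →₀ ℤ := (divf (k := C) h).mapRange (fun z => z / m) (by simp)
  have hD : divf h = (m : ℤ) • D := by
    ext P
    rw [Finsupp.smul_apply, Finsupp.mapRange_apply, smul_eq_mul, Int.mul_ediv_cancel' (hdiv P)]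
  have hdeg : degD D = 0 := by
    have h1 := degD_divf (k := C) hh
    rw [hD, degD_smul] at h1
    exact (mul_eq_zero.mp h1).resolve_left hm'
  have hell := ell_ge (k := C) (K := K) NC2_522.algClosure_eq_bot (D + Finsupp.single P0 (gen C K : ℤ))
  rw [degD_add, hdeg, degD_single, degP_eq_one] at hell
  have h2 : LD (D + Finsupp.single P0 (gen C K : ℤ)) ≠ ⊥ := by
    intro h0
    unfold ell at hell
    rw [h0] at hell
    simp at hell
  obtain ⟨f, hf, hf0⟩ := Submodule.exists_mem_ne_zero_of_ne_bot h2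
  rw [mem_LD_iff hf0] at hf
  refine ⟨f, hf0, _, hf, ?_, ?_⟩
  · rw [degD_add, degD_add, hdeg, degD_single, degP_eq_one, degD_divf hf0]; simp
  · rw [divf_mul hh (pow_ne_zero m hf0), divf_pow hf0, hD]
    ext P
    simp only [Finsupp.add_apply, Finsupp.smul_apply, Finsupp.sub_apply, smul_eq_mul]
    ring

theorem exists_pl : Nonempty (Pl C K) := by
  obtain ⟨D, hD⟩ := RR19_948.exists_degD_gt (k := C) (K := K) 0
  by_contra hcon
  rw [not_nonempty_iff] at hcon
  have : D = 0 := by ext P; exact hcon.elim P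
  rw [this, degD_zero] at hD
  exact lt_irrefl _ hD

/-- uniform bound for the logarithmic derivatives -/
theorem exists_dlog_rep (C K : Type*) [Field C] [CharZero C] [Field K] [Algebra C K]
    [Algebra (RatFunc C) K] [IsScalarTower C (RatFunc C) K]
    [FiniteDimensional (RatFunc C) K] [IsAlgClosed C] :
    ∃ N : ℤ, ∀ (m : ℕ) (h : K), m ≠ 0 → h ≠ 0 → (∀ P : Pl C K, (m : ℤ) ∣ divf h P) →
      ∃ f : K, f ≠ 0 ∧ ∃ E : Pl C K →₀ ℤ, 0 ≤ E ∧ degD E ≤ N ∧
        del C K (h * f ^ m) / (h * f ^ m) ∈ LD E := by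
  obtain ⟨P0⟩ := exists_pl (C := C) (K := K)
  refine ⟨degD (canD C K ⊔ 0) + gen C K + 1, fun m h hm hh hdiv => ?_⟩
  obtain ⟨f, hf0, E, hE, hEdeg, hfd⟩ := exists_rep P0 hh hm hdiv
  have hne : h * f ^ m ≠ 0 := mul_ne_zero hh (pow_ne_zero m hf0)
  have hE' : 0 ≤ E + Finsupp.single P0 1 := add_nonneg hE (Finsupp.single_nonneg.mpr zero_le_one)
  have h1 : del C K (h * f ^ m) / (h * f ^ m) ∈ LD (canD C K + (E + Finsupp.single P0 1)) := by
    refine dlog_mem hne hE' fun P hP => ?_
    rw [hfd] at hP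
    have h2 := hE P
    rw [Finsupp.zero_apply] at h2
    rw [Finsupp.add_apply]
    by_cases hPP : P0 = P
    · subst hPP
      rw [Finsupp.single_eq_same]
      omega
    · rw [Finsupp.single_eq_of_ne' hPP]
      rw [Finsupp.smul_apply, Finsupp.sub_apply, Finsupp.single_eq_of_ne' hPP, sub_zero] at hP
      have h3 : E P ≠ 0 := fun h => hP (by rw [h, smul_zero])
      omega
  refine ⟨f, hf0, (canD C K ⊔ 0) + (E + Finsupp.single P0 1), add_nonneg le_sup_right hE', ?_, ?_⟩
  · rw [degD_add, degD_add, degD_single, degP_eq_one, hEdeg]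
    push_cast
    linarith
  · rw [mem_LD] at h1 ⊢
    intro P
    refine (h1 P).trans ?_
    rw [exp_le_exp, Finsupp.add_apply, Finsupp.add_apply (canD C K ⊔ 0)]
    have : (canD C K) P ≤ (canD C K ⊔ 0) P := le_sup_left (a := canD C K) (b := 0) P
    linarith

/-- **comparison of two norms on logarithmic derivatives** -/
theorem dlog_compare (v : Valuation C ℝ≥0) (w1 w2 : Valuation K ℝ≥0)
    (h1 : ∀ c : C, w1 (algebraMap C K c) = v c)
    (h2 : ∀ c : C, w2 (algebraMap C K c) = v c)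
    (hx1 : ∃ ε : ℝ≥0, 0 < ε ∧ ∀ a : C, ε ≤ w1 (algebraMap (RatFunc C) K RatFunc.X - algebraMap C K a))
    (hx2 : ∃ ε : ℝ≥0, 0 < ε ∧ ∀ a : C, ε ≤ w2 (algebraMap (RatFunc C) K RatFunc.X - algebraMap C K a)) :
    ∃ c : ℝ≥0, 0 < c ∧ ∀ (m : ℕ) (h : K), m ≠ 0 → h ≠ 0 → (∀ P : Pl C K, (m : ℤ) ∣ divf h P) →
      ∃ f : K, f ≠ 0 ∧ c * w2 (del C K (h * f ^ m) / (h * f ^ m)) ≤
        w1 (del C K (h * f ^ m) / (h * f ^ m)) := by
  obtain ⟨N, hN⟩ := exists_dlog_rep C K
  obtain ⟨c, hc, H⟩ := NC2_522.nc v w1 w2 h1 h2 hx1 hx2 N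
  refine ⟨c, hc, fun m h hm hh hdiv => ?_⟩
  obtain ⟨f, hf0, E, hE, hdeg, hmem⟩ := hN m h hm hh hdiv
  exact ⟨f, hf0, H _ E hE hdeg hmem⟩

end Crest.Agent.R013.HU5_522
end

-- ▼ part R013/HU3_522
section

/-!
# R013 / HU3: the unit part `nu : Kˣ → U1 C` of functions on a disc (helper522)

`Q` a field, `j : BD k C → Q` injective, `iota : K → Q` with image in `Frac (j (BD k C))`.
* `dec` : a nonzero `f ∈ BD` is `c * u * prod (T - tau)` with `u ∈ U1 C`, uniquely.
* `nu : Kˣ →* U1 C`.
-/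

set_option autoImplicit false
set_option linter.all false

open scoped NNReal
open PowerSeries

namespace Crest.Agent.R013.HU3_522

open Crest.Agent.R013.Cell_408 Crest.Agent.R013.HU1_522 Crest.Agent.R013.HU2_522

variable {k C : Type*} [NontriviallyNormedField k] [CompleteSpace k] [IsUltrametricDist k]
  [NormedField C] [IsUltrametricDist C] [NormedAlgebra k C] [Algebra.IsAlgebraic k C] [IsAlgClosed C]

/-- decomposition of an element of `BD` -/
structure Dec (k : Type*) {C : Type*} [NontriviallyNormedField k] [NormedField C]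
    [IsUltrametricDist C] [NormedAlgebra k C]
    (f : C⟦X⟧) (c : C) (u : U1 C) (S : Multiset C) : Prop where
  c0 : c ≠ 0
  lt : ∀ τ ∈ S, ‖τ‖ < 1
  fin : FinDef k fun n => coeff n ((u : (C⟦X⟧)ˣ) : C⟦X⟧)
  eq : f = PowerSeries.C c * ((u : (C⟦X⟧)ˣ) : C⟦X⟧) * (rootPoly S : C⟦X⟧)

theorem Dec.isU {f : C⟦X⟧} {c : C} {u : U1 C} {S : Multiset C} (h : Dec k f c u S) :
    IsU k ((u : (C⟦X⟧)ˣ) : C⟦X⟧) where
  fin := h.fin
  le := U1.int u
  zero := by rw [coeff_zero_eq_constantCoeff_apply, U1.const, norm_one]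

theorem exists_dec (hk : DiscNorm k) {f : C⟦X⟧} (hf : f ∈ BD k C) (h0 : f ≠ 0) :
    ∃ (c : C) (u : U1 C) (S : Multiset C), Dec k f c u S := by
  obtain ⟨c, g, m, hc, hg, hfg, -, -⟩ := exists_normalise hk hf h0
  obtain ⟨u, S, hu, -, hS, hgu⟩ := hg.exists_roots
  set a := coeff 0 u with ha
  have ha1 : ‖a‖ = 1 := hu.zero
  have ha0 : a ≠ 0 := norm_ne_zero_iff.mp (by rw [ha1]; exact one_ne_zero)
  let u' : U1 C := U1.mk' (PowerSeries.C a⁻¹ * u) (by
      rw [map_mul, constantCoeff_C, ← coeff_zero_eq_constantCoeff_apply, ← ha,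
        inv_mul_cancel₀ ha0]) (by
      intro n
      rw [coeff_C_mul, norm_mul, norm_inv, ha1, inv_one, one_mul]
      exact hu.le n)
  refine ⟨c * a, u', S, mul_ne_zero hc ha0, hS, ?_, ?_⟩
  · obtain ⟨L, hL, h3, h4⟩ := hu.fin.common (finDef_const (k := k) (ι := Unit) a)
    refine ⟨L, hL, fun n => ?_⟩
    show coeff n (PowerSeries.C a⁻¹ * u) ∈ L
    rw [coeff_C_mul]
    exact mul_mem (inv_mem (h4 ())) (h3 n)
  · show f = PowerSeries.C (c * a) * (PowerSeries.C a⁻¹ * u) * _
    rw [hfg, hgu, map_mul]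
    have : (PowerSeries.C a : C⟦X⟧) * PowerSeries.C a⁻¹ = 1 := by rw [← map_mul, mul_inv_cancel₀ ha0, map_one]
    linear_combination (-(PowerSeries.C c) * u * (rootPoly S : C⟦X⟧)) * this

theorem rootPoly_zero : rootPoly (0 : Multiset C) = 1 := by simp [rootPoly]

theorem rootPoly_cons (τ : C) (S : Multiset C) :
    rootPoly (τ ::ₘ S) = (Polynomial.X - Polynomial.C τ) * rootPoly S := by simp [rootPoly]

theorem rootPoly_add (S T : Multiset C) : rootPoly (S + T) = rootPoly S * rootPoly T := by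
  simp [rootPoly]

theorem rootPoly_monic (S : Multiset C) : (rootPoly S).Monic :=
  Polynomial.monic_multiset_prod_of_monic _ _ fun τ _ => Polynomial.monic_X_sub_C τ

theorem rootPoly_ne_zero (S : Multiset C) : (rootPoly S : C⟦X⟧) ≠ 0 := by
  rw [ne_eq, Polynomial.coe_eq_zero_iff]
  exact (rootPoly_monic S).ne_zero

theorem U1.coe_ne_zero (u : U1 C) : ((u : (C⟦X⟧)ˣ) : C⟦X⟧) ≠ 0 := Units.ne_zero _

theorem Dec.mul {f g : C⟦X⟧} {c d : C} {u v : U1 C} {S T : Multiset C} (hf : Dec k f c u S)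
    (hg : Dec k g d v T) : Dec k (f * g) (c * d) (u * v) (S + T) where
  c0 := mul_ne_zero hf.c0 hg.c0
  lt τ hτ := by
    rcases Multiset.mem_add.mp hτ with h | h
    · exact hf.lt _ h
    · exact hg.lt _ h
  fin := by
    obtain ⟨L, hL, h1, h2⟩ := hf.fin.common hg.fin
    refine ⟨L, hL, fun n => ?_⟩
    show coeff n (((u : (C⟦X⟧)ˣ) : C⟦X⟧) * ((v : (C⟦X⟧)ˣ) : C⟦X⟧)) ∈ L
    rw [coeff_mul]
    exact sum_mem fun x _ => mul_mem (h1 _) (h2 _)
  eq := by
    rw [hf.eq, hg.eq, rootPoly_add, Polynomial.coe_mul, Subgroup.coe_mul, Units.val_mul, map_mul]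
    ring

theorem evp_dec {f : C⟦X⟧} {c : C} {u : U1 C} {S : Multiset C} (h : Dec k f c u S) {t : C}
    (ht : ‖t‖ < 1) : evp t f = 0 ↔ t ∈ S := by
  have h1 : evp t f = c * evp t (((u : (C⟦X⟧)ˣ) : C⟦X⟧) * (rootPoly S : C⟦X⟧)) := by
    rw [h.eq, mul_assoc, evp_mul (C_mem_BD c) (mul_mem h.isU.mem (coe_mem_BD _)) ht, evp_C]
  rw [h1, mul_eq_zero, or_iff_right h.c0, evp_roots_eq_zero h.isU S ht]

theorem dec_unique_aux : ∀ (S : Multiset C) (T : Multiset C) (f : C⟦X⟧) (c d : C) (u v : U1 C),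
    Dec k f c u S → Dec k f d v T → S = T ∧ c = d ∧ u = v := by
  intro S
  induction S using Multiset.induction_on with
  | empty =>
    intro T f c d u v hf hg
    have hT : T = 0 := by
      rw [Multiset.eq_zero_iff_forall_notMem]
      intro τ hτ
      have h1 := (evp_dec hg (hg.lt τ hτ)).mpr hτ
      have h2 := (evp_dec hf (hg.lt τ hτ)).mp h1
      simp at h2
    subst hT
    have h1 := hf.eq
    rw [hg.eq] at h1
    rw [rootPoly_zero] at h1
    simp only [Polynomial.coe_one, mul_one] at h1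
    have h2 := congrArg constantCoeff h1
    rw [map_mul, map_mul, constantCoeff_C, constantCoeff_C, U1.const, U1.const, mul_one,
      mul_one] at h2
    refine ⟨rfl, h2.symm, ?_⟩
    rw [h2] at h1
    have h3 : (PowerSeries.C c : C⟦X⟧) ≠ 0 := by
      rw [ne_eq, map_eq_zero_iff _ PowerSeries.C_injective]; exact hf.c0
    exact (U1.ext' (mul_left_cancel₀ h3 h1)).symm
  | cons τ S ih =>
    intro T f c d u v hf hg
    have hτ : ‖τ‖ < 1 := hf.lt τ (Multiset.mem_cons_self τ S)
    have h1 := (evp_dec hf hτ).mpr (Multiset.mem_cons_self τ S)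
    have h2 := (evp_dec hg hτ).mp h1
    obtain ⟨T', rfl⟩ := Multiset.exists_cons_of_mem h2
    have h3 := hf.eq
    rw [hg.eq, rootPoly_cons, rootPoly_cons, Polynomial.coe_mul, Polynomial.coe_mul] at h3
    have h4 : (((Polynomial.X - Polynomial.C τ : Polynomial C)) : C⟦X⟧) ≠ 0 := by
      rw [ne_eq, Polynomial.coe_eq_zero_iff]
      exact Polynomial.X_sub_C_ne_zero τ
    have h5 : PowerSeries.C d * ((v : (C⟦X⟧)ˣ) : C⟦X⟧) * (rootPoly T' : C⟦X⟧) =
        PowerSeries.C c * ((u : (C⟦X⟧)ˣ) : C⟦X⟧) * (rootPoly S : C⟦X⟧) := by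
      apply mul_left_cancel₀ h4
      linear_combination h3
    have hf' : Dec k (PowerSeries.C c * ((u : (C⟦X⟧)ˣ) : C⟦X⟧) * (rootPoly S : C⟦X⟧)) c u S :=
      ⟨hf.c0, fun t ht => hf.lt t (Multiset.mem_cons_of_mem ht), hf.fin, rfl⟩
    have hg' : Dec k (PowerSeries.C c * ((u : (C⟦X⟧)ˣ) : C⟦X⟧) * (rootPoly S : C⟦X⟧)) d v T' :=
      ⟨hg.c0, fun t ht => hg.lt t (Multiset.mem_cons_of_mem ht), hg.fin, h5.symm⟩
    obtain ⟨e1, e2, e3⟩ := ih T' _ c d u v hf' hg'
    exact ⟨by rw [e1], e2, e3⟩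

theorem Dec.unique {f : C⟦X⟧} {c d : C} {u v : U1 C} {S T : Multiset C} (hf : Dec k f c u S)
    (hg : Dec k f d v T) : S = T ∧ c = d ∧ u = v := dec_unique_aux S T f c d u v hf hg

section Frac

variable (hk : DiscNorm k) {Q : Type*} [CommRing Q] (j : BD k C →+* Q) (hj : Function.Injective j)
  {K : Type*} [Field K] (ι : K →+* Q) (hι : ∀ z, ∃ a b : BD k C, b ≠ 0 ∧ ι z * j b = j a)

/-- a presentation of `z ∈ K` on the disc: `iota z = c * u * prod_S (T - tau) / prod_T (T - tau)` -/
structure Pres (j : BD k C →+* Q) (ι : K →+* Q) (z : K) (c : C) (u : U1 C) (S T : Multiset C) :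
    Prop where
  ex : ∃ (a b : BD k C), ι z * j b = j a ∧ Dec k (a : C⟦X⟧) c u S ∧ Dec k (b : C⟦X⟧) 1 1 T

include hk hj hι in
theorem exists_pres {z : K} (hz : z ≠ 0) : ∃ c u S T, Pres j ι z c u S T := by
  obtain ⟨a, b, hb, hab⟩ := hι z
  have hjb : j b ≠ 0 := (map_ne_zero_iff j hj).mpr hb
  have hja : j a ≠ 0 := by
    intro h0
    apply hjb
    have h1 : ι z⁻¹ * ι z = 1 := by rw [← map_mul, inv_mul_cancel₀ hz, map_one]
    calc j b = ι z⁻¹ * (ι z * j b) := by rw [← mul_assoc, h1, one_mul]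
      _ = 0 := by rw [hab, h0, mul_zero]
  have ha : a ≠ 0 := (map_ne_zero_iff j hj).mp hja
  obtain ⟨c, u, S, hS⟩ := exists_dec hk a.2 (fun h => ha (Subtype.ext h))
  obtain ⟨d, v, T, hT⟩ := exists_dec hk b.2 (fun h => hb (Subtype.ext h))
  -- multiply by the inverse of the unit part of `b`
  obtain ⟨w, hw, hvw⟩ := hT.isU.inv
  have hw' : w = (((v⁻¹ : U1 C) : (C⟦X⟧)ˣ) : C⟦X⟧) := by
    have h1 : ((v : (C⟦X⟧)ˣ) : C⟦X⟧) * (((v⁻¹ : U1 C) : (C⟦X⟧)ˣ) : C⟦X⟧) = 1 := by
      rw [← Units.val_mul, ← Subgroup.coe_mul, mul_inv_cancel]; rfl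
    exact mul_left_cancel₀ (U1.coe_ne_zero v) (hvw.trans h1.symm)
  have hW : Dec k (PowerSeries.C d⁻¹ * w) d⁻¹ v⁻¹ 0 :=
    ⟨inv_ne_zero hT.c0, fun τ h => absurd h (Multiset.notMem_zero τ), by rw [← hw']; exact hw.fin,
      by rw [rootPoly_zero, Polynomial.coe_one, mul_one, hw']⟩
  let e : BD k C := ⟨PowerSeries.C d⁻¹ * w, mul_mem (C_mem_BD _) hw.mem⟩
  refine ⟨c * d⁻¹, u * v⁻¹, S, T, ⟨a * e, b * e, ?_, ?_, ?_⟩⟩
  · rw [map_mul, map_mul, ← hab]; ring
  · have := hS.mul hW
    rwa [add_zero] at this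
  · have := hT.mul hW
    rw [add_zero, mul_inv_cancel₀ hT.c0, mul_inv_cancel] at this
    exact this

include hj in
theorem Pres.unique {z : K} {c d : C} {u v : U1 C} {S T S' T' : Multiset C}
    (h : Pres j ι z c u S T) (h' : Pres j ι z d v S' T') :
    c = d ∧ u = v ∧ S + T' = S' + T := by
  obtain ⟨a, b, hab, ha, hb⟩ := h.ex
  obtain ⟨a', b', hab', ha', hb'⟩ := h'.ex
  have h1 : a * b' = a' * b := by
    apply hj
    rw [map_mul, map_mul, ← hab, ← hab']
    ring
  have e1 := ha.mul hb'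
  have e2 := ha'.mul hb
  have h2 : (a : C⟦X⟧) * (b' : C⟦X⟧) = (a' : C⟦X⟧) * (b : C⟦X⟧) := congrArg Subtype.val h1
  rw [h2] at e1
  obtain ⟨x1, x2, x3⟩ := e1.unique e2
  rw [mul_one, mul_one] at x2 x3
  exact ⟨x2, x3, x1⟩

theorem Pres.mul {z z' : K} {c d : C} {u v : U1 C} {S T S' T' : Multiset C}
    (h : Pres j ι z c u S T) (h' : Pres j ι z' d v S' T') :
    Pres j ι (z * z') (c * d) (u * v) (S + S') (T + T') := by
  obtain ⟨a, b, hab, ha, hb⟩ := h.ex
  obtain ⟨a', b', hab', ha', hb'⟩ := h'.ex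
  refine ⟨a * a', b * b', ?_, ha.mul ha', ?_⟩
  · rw [map_mul, map_mul, map_mul, ← hab, ← hab']; ring
  · have := hb.mul hb'
    rwa [one_mul, one_mul] at this

theorem pres_one : Pres j ι (1 : K) 1 1 0 0 := by
  refine ⟨1, 1, by rw [map_one, one_mul], ?_, ?_⟩ <;>
  · refine ⟨one_ne_zero, fun τ h => absurd h (Multiset.notMem_zero τ), ?_, ?_⟩
    · refine ⟨⊥, inferInstance, fun n => ?_⟩
      show coeff n (1 : C⟦X⟧) ∈ (⊥ : IntermediateField k C)
      rw [coeff_one]
      split_ifs
      · exact one_mem _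
      · exact zero_mem _
    · rw [rootPoly_zero]; simp

/-- `iota z * j (prod_T (T - tau)) = j (c * u * prod_S (T - tau))` -/
theorem Pres.eq {z : K} {c : C} {u : U1 C} {S T : Multiset C} (h : Pres j ι z c u S T) :
    ∃ (hu : ((u : (C⟦X⟧)ˣ) : C⟦X⟧) ∈ BD k C),
      ι z * j ⟨(rootPoly T : C⟦X⟧), coe_mem_BD _⟩ =
        j ⟨PowerSeries.C c, C_mem_BD c⟩ * j ⟨((u : (C⟦X⟧)ˣ) : C⟦X⟧), hu⟩ *
          j ⟨(rootPoly S : C⟦X⟧), coe_mem_BD _⟩ := by
  obtain ⟨a, b, hab, ha, hb⟩ := h.ex
  refine ⟨ha.isU.mem, ?_⟩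
  have h1 : b = ⟨(rootPoly T : C⟦X⟧), coe_mem_BD _⟩ := by
    apply Subtype.ext
    have h2 := hb.eq
    rw [map_one, one_mul] at h2
    have h3 : (((1 : U1 C) : (C⟦X⟧)ˣ) : C⟦X⟧) = 1 := rfl
    rw [h3, one_mul] at h2
    exact h2
  have h4 : a = ⟨PowerSeries.C c, C_mem_BD c⟩ * ⟨((u : (C⟦X⟧)ˣ) : C⟦X⟧), ha.isU.mem⟩ *
      ⟨(rootPoly S : C⟦X⟧), coe_mem_BD _⟩ := Subtype.ext ha.eq
  rw [← map_mul, ← map_mul, ← h4, ← h1, hab]

/-- **the unit part** -/
noncomputable def nu : Kˣ →* U1 C where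
  toFun z := (exists_pres hk j hj ι hι z.ne_zero).choose_spec.choose
  map_one' := by
    obtain ⟨S, T, h⟩ := (exists_pres hk j hj ι hι (1 : Kˣ).ne_zero).choose_spec.choose_spec
    have := (Pres.unique j hj ι h (pres_one j ι)).2.1
    exact this
  map_mul' z z' := by
    obtain ⟨S, T, h⟩ := (exists_pres hk j hj ι hι (z * z').ne_zero).choose_spec.choose_spec
    obtain ⟨S1, T1, h1⟩ := (exists_pres hk j hj ι hι z.ne_zero).choose_spec.choose_spec
    obtain ⟨S2, T2, h2⟩ := (exists_pres hk j hj ι hι z'.ne_zero).choose_spec.choose_spec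
    exact (Pres.unique j hj ι h (Pres.mul j ι h1 h2)).2.1

theorem nu_eq {z : Kˣ} {c : C} {u : U1 C} {S T : Multiset C} (h : Pres j ι (z : K) c u S T) :
    nu hk j hj ι hι z = u := by
  obtain ⟨S', T', h'⟩ := (exists_pres hk j hj ι hι z.ne_zero).choose_spec.choose_spec
  exact (Pres.unique j hj ι h' h).2.1

theorem nu_pres (z : Kˣ) : ∃ c S T, Pres j ι (z : K) c (nu hk j hj ι hι z) S T := by
  obtain ⟨S', T', h'⟩ := (exists_pres hk j hj ι hι z.ne_zero).choose_spec.choose_spec
  exact ⟨_, S', T', h'⟩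

/-! ### multiplicities -/

include hj in
theorem Pres.count_eq {z : K} {c d : C} {u v : U1 C} {S T S' T' : Multiset C} [DecidableEq C]
    (h : Pres j ι z c u S T) (h' : Pres j ι z d v S' T') (τ : C) :
    (S.count τ : ℤ) - T.count τ = S'.count τ - T'.count τ := by
  have h1 := congrArg (Multiset.count τ) (Pres.unique j hj ι h h').2.2
  rw [Multiset.count_add, Multiset.count_add] at h1
  omega

open Classical in
/-- the order of vanishing of `iota z` at `tau` -/
noncomputable def ordp (τ : C) : Kˣ →* Multiplicative ℤ where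
  toFun z := Multiplicative.ofAdd
    (((exists_pres hk j hj ι hι z.ne_zero).choose_spec.choose_spec.choose.count τ : ℤ) -
      (exists_pres hk j hj ι hι z.ne_zero).choose_spec.choose_spec.choose_spec.choose.count τ)
  map_one' := by
    have h := (exists_pres hk j hj ι hι (1 : Kˣ).ne_zero).choose_spec.choose_spec.choose_spec.choose_spec
    rw [← ofAdd_zero]
    congr 1
    exact (Pres.count_eq j hj ι h (pres_one j ι) τ).trans (by simp)
  map_mul' z z' := by
    have h := (exists_pres hk j hj ι hι (z * z').ne_zero).choose_spec.choose_spec.choose_spec.choose_spec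
    have h1 := (exists_pres hk j hj ι hι z.ne_zero).choose_spec.choose_spec.choose_spec.choose_spec
    have h2 := (exists_pres hk j hj ι hι z'.ne_zero).choose_spec.choose_spec.choose_spec.choose_spec
    rw [← ofAdd_add]
    congr 1
    refine (Pres.count_eq j hj ι h (Pres.mul j ι h1 h2) τ).trans ?_
    rw [Multiset.count_add, Multiset.count_add]
    push_cast
    ring

theorem ordp_eq [DecidableEq C] {z : Kˣ} {c : C} {u : U1 C} {S T : Multiset C}
    (h : Pres j ι (z : K) c u S T) (τ : C) :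
    Multiplicative.toAdd (ordp hk j hj ι hι τ z) = (S.count τ : ℤ) - T.count τ := by
  classical
  have h' := (exists_pres hk j hj ι hι z.ne_zero).choose_spec.choose_spec.choose_spec.choose_spec
  have h1 := Pres.count_eq j hj ι h' h τ
  unfold ordp
  simp only [MonoidHom.coe_mk, OneHom.coe_mk, toAdd_ofAdd]
  convert h1

/-- cancel common zeros -/
theorem Pres.cancel {z : K} {c : C} {u : U1 C} {S T R : Multiset C}
    (h : Pres j ι z c u (S + R) (T + R))
    (hQ : ∀ a b : Q, a * j ⟨(rootPoly R : C⟦X⟧), coe_mem_BD _⟩ =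
      b * j ⟨(rootPoly R : C⟦X⟧), coe_mem_BD _⟩ → a = b) : Pres j ι z c u S T := by
  obtain ⟨a, b, hab, ha, hb⟩ := h.ex
  have hfa : FinDef k fun n => coeff n ((u : (C⟦X⟧)ˣ) : C⟦X⟧) := ha.fin
  obtain ⟨hu, heq⟩ := Pres.eq j ι h
  have hR : ∀ S' : Multiset C, (⟨(rootPoly (S' + R) : C⟦X⟧), coe_mem_BD _⟩ : BD k C) =
      ⟨(rootPoly S' : C⟦X⟧), coe_mem_BD _⟩ * ⟨(rootPoly R : C⟦X⟧), coe_mem_BD _⟩ := by
    intro S'
    apply Subtype.ext
    show (rootPoly (S' + R) : C⟦X⟧) = (rootPoly S' : C⟦X⟧) * (rootPoly R : C⟦X⟧)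
    rw [rootPoly_add, Polynomial.coe_mul]
  rw [hR, hR, map_mul, map_mul, ← mul_assoc, ← mul_assoc] at heq
  have h1 := hQ _ _ heq
  refine ⟨⟨⟨PowerSeries.C c, C_mem_BD c⟩ * ⟨((u : (C⟦X⟧)ˣ) : C⟦X⟧), hu⟩ *
          ⟨(rootPoly S : C⟦X⟧), coe_mem_BD _⟩, ⟨(rootPoly T : C⟦X⟧), coe_mem_BD _⟩, ?_, ?_, ?_⟩⟩
  · rw [map_mul, map_mul]; exact h1
  · exact ⟨ha.c0, fun τ hτ => ha.lt τ (Multiset.mem_add.mpr (Or.inl hτ)), hfa, rfl⟩
  · refine ⟨one_ne_zero, fun τ hτ => hb.lt τ (Multiset.mem_add.mpr (Or.inl hτ)), hb.fin, ?_⟩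
    show (rootPoly T : C⟦X⟧) = _
    rw [map_one, one_mul]
    show (rootPoly T : C⟦X⟧) = 1 * _
    rw [one_mul]

theorem exists_nsmul {m : ℕ} (hm : m ≠ 0) {S : Multiset C} [DecidableEq C]
    (h : ∀ τ, m ∣ S.count τ) : ∃ S', S = m • S' := by
  refine ⟨∑ τ ∈ S.toFinset, Multiset.replicate (S.count τ / m) τ, ?_⟩
  ext τ
  rw [Multiset.count_nsmul, Multiset.count_sum']
  simp only [Multiset.count_replicate]
  rw [Finset.sum_ite_eq' S.toFinset τ]
  split_ifs with h1
  · exact (Nat.mul_div_cancel' (h τ)).symm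
  · rw [Multiset.mem_toFinset] at h1
    rw [Multiset.count_eq_zero_of_notMem h1, mul_zero]

/-- **divisible multiplicities** -/
theorem Pres.divisible [DecidableEq C] {z : K} {c : C} {u : U1 C} {S T : Multiset C}
    (h : Pres j ι z c u S T) (hQ : ∀ a b q : Q, q ≠ 0 → a * q = b * q → a = b) (hj' : Function.Injective j)
    {m : ℕ} (hm : m ≠ 0) (hd : ∀ τ, (m : ℤ) ∣ (S.count τ : ℤ) - T.count τ) :
    ∃ S' T' : Multiset C, Pres j ι z c u (m • S') (m • T') := by
  have hS : S = (S - T) + (S ∩ T) := by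
    ext τ
    rw [Multiset.count_add, Multiset.count_sub, Multiset.count_inter]; omega
  have hT : T = (T - S) + (S ∩ T) := by
    ext τ
    rw [Multiset.count_add, Multiset.count_sub, Multiset.count_inter]; omega
  have h1 : Pres j ι z c u (S - T) (T - S) := by
    have h2 : Pres j ι z c u ((S - T) + (S ∩ T)) ((T - S) + (S ∩ T)) := by
      rw [← hS, ← hT]; exact h
    refine Pres.cancel j ι h2 fun a b hab => hQ a b _ ?_ hab
    rw [ne_eq, map_eq_zero_iff j hj']
    intro h3
    exact rootPoly_ne_zero (S ∩ T) (congrArg Subtype.val h3)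
  obtain ⟨S', hS'⟩ := exists_nsmul (S := S - T) hm (fun τ => by
    rw [Multiset.count_sub]
    have := hd τ
    rcases le_or_gt (S.count τ) (T.count τ) with h4 | h4
    · rw [Nat.sub_eq_zero_of_le h4]; exact dvd_zero _
    · have h5 : ((S.count τ - T.count τ : ℕ) : ℤ) = (S.count τ : ℤ) - T.count τ := by omega
      rw [← h5] at this
      exact_mod_cast this)
  obtain ⟨T', hT'⟩ := exists_nsmul (S := T - S) hm (fun τ => by
    rw [Multiset.count_sub]
    have := (dvd_neg.mpr (hd τ))
    rcases le_or_gt (T.count τ) (S.count τ) with h4 | h4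
    · rw [Nat.sub_eq_zero_of_le h4]; exact dvd_zero _
    · have h5 : ((T.count τ - S.count τ : ℕ) : ℤ) = -((S.count τ : ℤ) - T.count τ) := by omega
      rw [← h5] at this
      exact_mod_cast this)
  refine ⟨S', T', ?_⟩
  rw [← hS', ← hT']
  exact h1

end Frac

end Crest.Agent.R013.HU3_522
end

-- ▼ part R013/HU7_522
section

/-!
# R013 / HU7: `th (em f) = em (del f) * th (em x)`; bounds for logarithmic derivatives (helper522)

* `dlog_em` : `th (em f) * em f⁻¹ = em (del f / f) * th (em x)`;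
* `dlog_disc` : if the divisor of `z` on the disc is divisible by `m` then
  `dlog (em z) = X * dl (nu z) + m * (..)`; hence the two bounds `gn_dlog_le`, `coeff_dl_le`;
* `wE em` : the valuation `gn ∘ em`, `exists_eps` : it is not of type 1.
-/

set_option autoImplicit false
set_option linter.all false
open Filter Topology
open scoped NNReal
open Crest.Agent.R013.Cell_408

namespace Crest.Agent.R013.HU7_522

open Crest.Agent.R013.RR7_948 Crest.Agent.R013.RR8_948 Crest.Agent.R013.RR14_948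
open Crest.Agent.R013.RR13_948
open Crest.Agent.R013.EE809 Crest.Agent.R013.HU6_522 Crest.Agent.R013.HU3_522
open Crest.Agent.R013.HU1_522

section Der

variable {C : Type*} [Field C] {K : Type*} [Field K] [Algebra C K]
  [Algebra (RatFunc C) K] [IsScalarTower C (RatFunc C) K] [Algebra.IsSeparable (RatFunc C) K]
  {R : Type*} [CommRing R]

/-- a `C`-derivation `K → R` along `em : K → R` is determined by the value at `x` -/
theorem derivation_eq (em : K →+* R) (D : K → R) (hadd : ∀ a b, D (a + b) = D a + D b)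
    (hmul : ∀ a b, D (a * b) = em a * D b + em b * D a) (hc : ∀ c : C, D (algebraMap C K c) = 0)
    (f : K) : D f = em (del C K f) * D (xK C K) := by
  letI : Module K R := Module.compHom R em
  letI : Module C R := Module.compHom R (em.comp (algebraMap C K))
  have hsm : ∀ (a : K) (r : R), a • r = em a * r := fun a r => rfl
  have hsmC : ∀ (a : C) (r : R), a • r = em (algebraMap C K a) * r := fun a r => rfl
  haveI : IsScalarTower C K R := ⟨fun a b r => by
    rw [hsm, hsm, hsmC, Algebra.smul_def, map_mul, mul_assoc]⟩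
  let D' : Derivation C K R := Derivation.mk'
    { toFun := D
      map_add' := hadd
      map_smul' := fun c a => by
        rw [Algebra.smul_def, hmul, hc, mul_zero, add_zero, RingHom.id_apply, hsmC] }
    (fun a b => by
      show D (a * b) = a • D b + b • D a
      rw [hmul, hsm, hsm])
  have h1 : D f = D'.liftKaehlerDifferential (KaehlerDifferential.D C K f) :=
    (Derivation.liftKaehlerDifferential_comp_D D' f).symm
  have h2 : D (xK C K) = D'.liftKaehlerDifferential (KaehlerDifferential.D C K (xK C K)) :=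
    (Derivation.liftKaehlerDifferential_comp_D D' (xK C K)).symm
  rw [h1, D_eq, map_smul, hsm, h2]

end Der

variable {k : Type*} [NontriviallyNormedField k] [CompleteSpace k] [IsUltrametricDist k]
variable {C : Type*} [NormedField C] [IsUltrametricDist C] [NormedAlgebra k C] [CharZero C]
  [Algebra.IsAlgebraic k C] [IsAlgClosed C]
  {K : Type*} [Field K]

/-! ### generalities on embeddings -/

section Emb

variable (em : K →+* EE k C)

theorem em_mul_inv {f : K} (hf : f ≠ 0) : em f * em f⁻¹ = 1 := by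
  rw [← map_mul, mul_inv_cancel₀ hf, map_one]

theorem one_ne_zero_EE : (1 : EE k C) ≠ 0 := by
  intro h0
  have := congrArg (fun a => EE.co a 0) h0
  simp [co_one] at this

theorem em_ne_zero {f : K} (hf : f ≠ 0) : em f ≠ 0 := by
  intro h
  have h1 := em_mul_inv em hf
  rw [h, zero_mul] at h1
  exact one_ne_zero_EE h1.symm

/-- the valuation `gn ∘ em` -/
noncomputable def wE (hk : DiscNorm k) : Valuation K ℝ≥0 where
  toFun f := ⟨gn (em f), gn_nonneg _⟩
  map_zero' := by
    apply NNReal.eq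
    show gn (em 0) = 0
    rw [map_zero, gn_zero]
  map_one' := by
    apply NNReal.eq
    show gn (em 1) = 1
    rw [map_one, gn_one]
  map_mul' f g := by
    apply NNReal.eq
    show gn (em (f * g)) = gn (em f) * gn (em g)
    rw [map_mul, gn_mul hk]
  map_add_le_max' f g := by
    rw [← NNReal.coe_le_coe, NNReal.coe_max]
    show gn (em (f + g)) ≤ max (gn (em f)) (gn (em g))
    rw [map_add]
    exact gn_add_le _ _

theorem wE_apply (hk : DiscNorm k) (f : K) : ((wE em hk f : ℝ≥0) : ℝ) = gn (em f) := rfl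

/-- the order `od ∘ em` as a homomorphism -/
noncomputable def odE (hk : DiscNorm k) : Kˣ →* Multiplicative ℤ where
  toFun z := Multiplicative.ofAdd (od (em (z : K)))
  map_one' := by
    rw [Units.val_one, map_one, od_one, ofAdd_zero]
  map_mul' z z' := by
    rw [← ofAdd_add, Units.val_mul, map_mul, od_mul hk (em_ne_zero em z.ne_zero)
      (em_ne_zero em z'.ne_zero)]

theorem odE_apply (hk : DiscNorm k) (z : Kˣ) :
    Multiplicative.toAdd (odE em hk z) = od (em (z : K)) := rfl

end Emb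

/-! ### the derivation -/

section Deriv

variable [Algebra C K] [Algebra (RatFunc C) K] [IsScalarTower C (RatFunc C) K]
  [FiniteDimensional (RatFunc C) K] (em : K →+* EE k C)
  (hc : ∀ c : C, em (algebraMap C K c) = mono 0 c (EE809.finDef_const c))

include hc in
theorem th_em (f : K) : th (em f) = em (del C K f) * th (em (xK C K)) := by
  refine derivation_eq (C := C) em (fun a => th (em a)) (fun a b => ?_) (fun a b => ?_)
    (fun c => ?_) f
  · rw [map_add, th_add]
  · rw [map_mul, th_mul]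
  · rw [hc, th_const]

include hc in
theorem dlog_em (f : K) :
    th (em f) * em f⁻¹ = em (del C K f / f) * th (em (xK C K)) := by
  rw [th_em em hc f, div_eq_mul_inv, map_mul]
  ring

theorem xK_ne_algebraMap (a : C) : xK C K - algebraMap C K a ≠ 0 := by
  intro h
  rw [sub_eq_zero] at h
  have h1 : algebraMap (RatFunc C) K RatFunc.X = algebraMap (RatFunc C) K (algebraMap C (RatFunc C) a) := by
    rw [← IsScalarTower.algebraMap_apply]; exact h
  have h2 := (algebraMap (RatFunc C) K).injective h1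
  have h3 : (RatFunc.X : RatFunc C).eval (RingHom.id C) (a + 1) =
      (algebraMap C (RatFunc C) a).eval (RingHom.id C) (a + 1) := by rw [h2]
  rw [RatFunc.eval_X, RatFunc.algebraMap_eq_C, RatFunc.eval_C] at h3
  simp at h3

include hc in
/-- `em x` is not constant -/
theorem exists_co_ne_zero : ∃ n : ℤ, n ≠ 0 ∧ (em (xK C K)).co n ≠ 0 := by
  by_contra hcon
  push Not at hcon
  set a := (em (xK C K)).co 0 with ha
  apply em_ne_zero em (xK_ne_algebraMap (K := K) a)
  rw [map_sub, hc]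
  ext n
  rw [co_sub, co_mono, co_zero]
  by_cases h : n = 0
  · subst h; rw [if_pos rfl, ← ha, sub_self]
  · rw [if_neg h, hcon n h, sub_zero]

include hc in
/-- the valuation is of type 2 (not of type 1) -/
theorem exists_eps (hk : DiscNorm k) : ∃ ε : ℝ≥0, 0 < ε ∧ ∀ a : C,
    ε ≤ wE em hk (algebraMap (RatFunc C) K RatFunc.X - algebraMap C K a) := by
  obtain ⟨n, hn, hco⟩ := exists_co_ne_zero em hc
  refine ⟨‖(em (xK C K)).co n‖₊, by simpa using hco, fun a => ?_⟩
  rw [← NNReal.coe_le_coe, wE_apply, coe_nnnorm]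
  have h1 : (em (algebraMap (RatFunc C) K RatFunc.X - algebraMap C K a)).co n =
      (em (xK C K)).co n := by
    rw [map_sub, hc, co_sub, co_mono, if_neg hn, sub_zero]; rfl
  rw [← h1]
  exact le_gn _ n

include hc in
theorem th_em_x_ne_zero : th (em (xK C K)) ≠ 0 := by
  obtain ⟨n, hn, hco⟩ := exists_co_ne_zero em hc
  intro h
  have h1 := congrArg (fun a => EE.co a n) h
  simp only [co_th, co_zero] at h1
  rcases mul_eq_zero.mp h1 with h2 | h2
  · exact hn (by exact_mod_cast h2)
  · exact hco h2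

include hc in
theorem wE_algebraMap (hk : DiscNorm k) (c : C) : wE em hk (algebraMap C K c) = ‖c‖₊ := by
  apply NNReal.eq
  rw [wE_apply, hc, gn_mono, coe_nnnorm]

end Deriv

/-! ### the disc -/

section Disc

theorem co_natCast_mul (a : EE k C) (m : ℕ) (n : ℤ) : ((m : EE k C) * a).co n = (m : C) * a.co n := by
  induction m with
  | zero => simp
  | succ m ih => push_cast; rw [add_mul, add_mul, co_add, ih, one_mul, one_mul]

theorem gn_natCast_mul_le (a : EE k C) (m : ℕ) : gn ((m : EE k C) * a) ≤ ‖(m : C)‖ * gn a := gn_le fun n => by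
  rw [co_natCast_mul, norm_mul]
  exact mul_le_mul_of_nonneg_left (le_gn a n) (norm_nonneg _)

theorem gn_bdE_le {f : BD k C} {B : ℝ} (h : ∀ n, ‖PowerSeries.coeff n (f : PowerSeries C)‖ ≤ B) :
    gn (bdE f) ≤ B := gn_le fun n => by
  rw [bdE_apply, co_bdF]
  split_ifs
  · exact h _
  · rw [norm_zero]; exact (norm_nonneg _).trans (h 0)

theorem gn_rootPoly (hk : DiscNorm k) (S : Multiset C) (hS : ∀ τ ∈ S, ‖τ‖ < 1) :
    gn (bdE (⟨(rootPoly S : PowerSeries C), coe_mem_BD _⟩ : BD k C)) = 1 := by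
  induction S using Multiset.induction_on with
  | empty =>
    have : (⟨(rootPoly (0 : Multiset C) : PowerSeries C), coe_mem_BD _⟩ : BD k C) = 1 := by
      apply Subtype.ext
      show (rootPoly (0 : Multiset C) : PowerSeries C) = 1
      rw [rootPoly_zero, Polynomial.coe_one]
    rw [this, map_one, gn_one]
  | cons τ S ih =>
    have h1 : (⟨(rootPoly (τ ::ₘ S) : PowerSeries C), coe_mem_BD _⟩ : BD k C) =
        ⟨((Polynomial.X - Polynomial.C τ : Polynomial C) : PowerSeries C), coe_mem_BD _⟩ *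
          ⟨(rootPoly S : PowerSeries C), coe_mem_BD _⟩ := by
      apply Subtype.ext
      show (rootPoly (τ ::ₘ S) : PowerSeries C) =
        ((Polynomial.X - Polynomial.C τ : Polynomial C) : PowerSeries C) * (rootPoly S : PowerSeries C)
      rw [rootPoly_cons, Polynomial.coe_mul]
    rw [h1, map_mul, gn_mul hk, ih (fun t ht => hS t (Multiset.mem_cons_of_mem ht)), mul_one]
    apply le_antisymm
    · refine gn_bdE_le fun n => ?_
      show ‖PowerSeries.coeff n ((Polynomial.X - Polynomial.C τ : Polynomial C) : PowerSeries C)‖ ≤ 1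
      rw [Polynomial.coeff_coe, Polynomial.coeff_sub, Polynomial.coeff_X, Polynomial.coeff_C]
      refine (HU2_522.norm_sub_le_max522 _ _).trans (max_le ?_ ?_)
      · split_ifs <;> simp
      · split_ifs
        · exact (hS τ (Multiset.mem_cons_self τ S)).le
        · simp
    · refine le_trans ?_ (le_gn _ ((1 : ℕ) : ℤ))
      rw [bdE_apply, co_bdF_nat]
      show 1 ≤ ‖PowerSeries.coeff 1 ((Polynomial.X - Polynomial.C τ : Polynomial C) : PowerSeries C)‖
      rw [Polynomial.coeff_coe, Polynomial.coeff_sub, Polynomial.coeff_X, Polynomial.coeff_C]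
      simp


/-- the logarithmic derivative of a unit of the disc -/
theorem co_dlog_unit {u : U1 C} (U V : BD k C) (hU : (U : PowerSeries C) = ((u : (PowerSeries C)ˣ) : PowerSeries C))
    (hUV : U * V = 1) (n : ℤ) : (th (bdE U) * bdE V).co n =
      if 0 < n then PowerSeries.coeff (n - 1).toNat (dl u) else 0 := by
  have hVu : (V : PowerSeries C) = (((u : (PowerSeries C)ˣ)⁻¹ : (PowerSeries C)ˣ) : PowerSeries C) := by
    have h1 : (U : PowerSeries C) * (V : PowerSeries C) = 1 := congrArg Subtype.val hUV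
    rw [hU] at h1
    exact (Units.inv_eq_of_mul_eq_one_right h1).symm
  have hNN : NN (th (bdE U)) := fun m hm => by rw [co_th, bdE_apply, co_bdF_neg U hm, mul_zero]
  rcases lt_or_ge n 0 with h | h
  · rw [if_neg (by omega)]
    exact hNN.co_mul_neg (nn_bdF V) n h
  · obtain ⟨m, rfl⟩ := Int.eq_ofNat_of_zero_le h
    have h0 : (th (bdE U) * bdE V).co m = _ := hNN.co_mul_nat (nn_bdF V) m
    rw [h0]
    have h1 : ∑ x ∈ Finset.HasAntidiagonal.antidiagonal m, (th (bdE U)).co x.1 * (bdF V).co x.2 =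
        PowerSeries.coeff m ((PowerSeries.X * PowerSeries.derivative C (U : PowerSeries C)) *
          (V : PowerSeries C)) := by
      rw [PowerSeries.coeff_mul]
      refine Finset.sum_congr rfl fun x _ => ?_
      rw [co_th, bdE_apply, co_bdF_nat, co_bdF_nat]
      congr 1
      rcases Nat.eq_zero_or_pos x.1 with h0 | h0
      · rw [h0]; simp
      · obtain ⟨y, hy⟩ := Nat.exists_eq_succ_of_ne_zero h0.ne'
        rw [hy, Nat.succ_eq_add_one, PowerSeries.coeff_succ_X_mul]
        rw [PowerSeries.coeff_derivative]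
        push_cast
        ring
    rw [h1, mul_assoc, hU, hVu]
    have h2 : PowerSeries.derivative C ((u : (PowerSeries C)ˣ) : PowerSeries C) *
        (((u : (PowerSeries C)ˣ)⁻¹ : (PowerSeries C)ˣ) : PowerSeries C) = dl u := rfl
    rw [h2]
    rcases Nat.eq_zero_or_pos m with h0 | h0
    · subst h0; simp
    · obtain ⟨y, rfl⟩ := Nat.exists_eq_succ_of_ne_zero h0.ne'
      rw [Nat.succ_eq_add_one, PowerSeries.coeff_succ_X_mul, if_pos (by omega)]
      congr 2
      omega

/-- `dlog (em z)` for a divisor divisible by `m` on the disc -/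
theorem dlog_disc (hk : DiscNorm k) (em : K →+* EE k C) {z : K} (hz : z ≠ 0) {c : C} {u : U1 C}
    {S T : Multiset C} {m : ℕ} (hm : m ≠ 0) (h : Pres bdE em z c u (m • S) (m • T)) :
    ∃ A D U V : EE k C, gn A = 1 ∧ gn D = 1 ∧ gn (th A) ≤ 1 ∧ gn (th D) ≤ 1 ∧
      (∀ n, (th U * V).co n = if 0 < n then PowerSeries.coeff (n - 1).toNat (dl u) else 0) ∧
      (th (em z) * em z⁻¹) * (A * D) =
        (th U * V) * (A * D) + (m : EE k C) * (A * th D - D * th A) := by
  obtain ⟨a, b, hab, ha, hb⟩ := h.ex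
  obtain ⟨hu, heq⟩ := Pres.eq bdE em h
  have hpow : ∀ R : Multiset C, bdE (⟨(rootPoly (m • R) : PowerSeries C), coe_mem_BD _⟩ : BD k C) =
      bdE (⟨(rootPoly R : PowerSeries C), coe_mem_BD _⟩ : BD k C) ^ m := by
    intro R
    rw [← map_pow]
    congr 1
    apply Subtype.ext
    show (rootPoly (m • R) : PowerSeries C) = (rootPoly R : PowerSeries C) ^ m
    rw [← Polynomial.coe_pow]
    congr 1
    clear hm h ha hb heq
    induction m with
    | zero => simp [rootPoly_zero]
    | succ m ih => rw [succ_nsmul, rootPoly_add, ih, pow_succ]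
  have hS : ∀ τ ∈ S, ‖τ‖ < 1 := fun τ hτ => ha.lt τ (by
    rw [Multiset.mem_nsmul]; exact ⟨hm, hτ⟩)
  have hT : ∀ τ ∈ T, ‖τ‖ < 1 := fun τ hτ => hb.lt τ (by
    rw [Multiset.mem_nsmul]; exact ⟨hm, hτ⟩)
  rw [hpow, hpow] at heq
  set A : EE k C := bdE (⟨(rootPoly T : PowerSeries C), coe_mem_BD _⟩ : BD k C) with hA
  set D : EE k C := bdE (⟨(rootPoly S : PowerSeries C), coe_mem_BD _⟩ : BD k C) with hD
  obtain ⟨v, hv, huv⟩ := ha.isU.inv
  let U' : BD k C := ⟨((u : (PowerSeries C)ˣ) : PowerSeries C), hu⟩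
  let V' : BD k C := ⟨v, hv.mem⟩
  have hUV' : U' * V' = 1 := Subtype.ext huv
  have hUV : bdE U' * bdE V' = 1 := by rw [← map_mul, hUV', map_one]
  have hgA : gn A = 1 := gn_rootPoly hk T hT
  have hgD : gn D = 1 := gn_rootPoly hk S hS
  have hA0 : A ≠ 0 := by
    intro h0; rw [h0, gn_zero] at hgA; exact zero_ne_one hgA
  refine ⟨A, D, bdE U', bdE V', hgA, hgD, (gn_th_le _).trans hgA.le, (gn_th_le _).trans hgD.le,
    co_dlog_unit U' V' rfl hUV', ?_⟩
  set cc : EE k C := bdE (⟨PowerSeries.C c, C_mem_BD c⟩ : BD k C) with hcc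
  have hccth : th cc = 0 := by
    ext n
    rw [co_th, hcc, bdE_apply, co_bdF, co_zero]
    split_ifs with hn
    · show (n : C) * PowerSeries.coeff n.toNat (PowerSeries.C c) = 0
      rw [PowerSeries.coeff_C]
      split_ifs with h1
      · have : n = 0 := by omega
        rw [this]; simp
      · rw [mul_zero]
    · rw [mul_zero]
  have hcc0 : cc ≠ 0 := by
    intro h0
    have h1 : cc.co ((0 : ℕ) : ℤ) = (0 : EE k C).co ((0 : ℕ) : ℤ) := by rw [h0]
    rw [hcc, bdE_apply, co_bdF_nat, co_zero] at h1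
    apply ha.c0
    simpa using h1
  set U := bdE U' with hU
  set V := bdE V' with hV
  have heq' : em z * A ^ m = cc * U * D ^ m := heq
  obtain ⟨n, rfl⟩ := Nat.exists_eq_succ_of_ne_zero hm
  have hd := congrArg th heq'
  rw [th_mul, th_mul, th_mul, hccth, Nat.succ_eq_add_one, th_pow, th_pow] at hd
  have hE := em_mul_inv em hz
  -- multiply out
  have hkey : (em z * A ^ (n + 1)) * ((th (em z) * em z⁻¹) * (A * D)) =
      (em z * A ^ (n + 1)) * ((th U * V) * (A * D) + (((n + 1 : ℕ) : EE k C)) * (A * th D - D * th A)) := by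
    push_cast
    rw [Nat.succ_eq_add_one] at heq'
    linear_combination (A * D) * hd + (A ^ (n + 1) * th (em z) * A * D) * hE -
      (th U * V * A * D + ((n : EE k C) + 1) * A * th D) * heq' -
      (cc * D ^ (n + 1) * th U * A * D) * hUV
  have hne : em z * A ^ (n + 1) ≠ 0 := by
    refine mul_ne_zero' hk (em_ne_zero em hz) ?_
    clear hkey hd heq' heq hpow h ha hb hm
    induction n with
    | zero => simpa using hA0
    | succ n ih => rw [pow_succ]; exact mul_ne_zero' hk ih hA0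
  by_contra hcon
  have h1 := mul_ne_zero' hk hne (sub_ne_zero.mpr hcon)
  apply h1
  rw [mul_sub, sub_eq_zero]
  exact hkey

/-- upper bound for `dlog` by the unit part -/
theorem gn_dlog_le (hk : DiscNorm k) (em : K →+* EE k C) {z : K} (hz : z ≠ 0) {c : C} {u : U1 C}
    {S T : Multiset C} {m : ℕ} (hm : m ≠ 0) (h : Pres bdE em z c u (m • S) (m • T)) {B : ℝ}
    (hB : ∀ l, ‖PowerSeries.coeff l (dl u)‖ ≤ B) :
    gn (th (em z) * em z⁻¹) ≤ max ‖(m : C)‖ B := by
  obtain ⟨A, D, U, V, hA, hD, hA', hD', hUV, heq⟩ := dlog_disc hk em hz hm h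
  have h1 : gn (A * D) = 1 := by rw [gn_mul hk, hA, hD, one_mul]
  have h2 : gn (th (em z) * em z⁻¹) = gn ((th (em z) * em z⁻¹) * (A * D)) := by
    rw [gn_mul hk _ (A * D), h1, mul_one]
  rw [h2, heq]
  refine (gn_add_le _ _).trans (max_le ?_ ?_)
  · rw [gn_mul hk _ (A * D), h1, mul_one]
    refine le_max_of_le_right (gn_le fun n => ?_)
    rw [hUV]
    split_ifs
    · exact hB _
    · rw [norm_zero]; exact (norm_nonneg _).trans (hB 0)
  · refine le_max_of_le_left ((gn_natCast_mul_le _ _).trans ?_)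
    refine mul_le_of_le_one_right (norm_nonneg _) ((gn_sub_le _ _).trans (max_le ?_ ?_))
    · rw [gn_mul hk, hA, one_mul]; exact hD'
    · rw [gn_mul hk, hD, one_mul]; exact hA'

/-- upper bound for the unit part by `dlog` -/
theorem coeff_dl_le (hk : DiscNorm k) (em : K →+* EE k C) {z : K} (hz : z ≠ 0) {c : C} {u : U1 C}
    {S T : Multiset C} {m : ℕ} (hm : m ≠ 0) (h : Pres bdE em z c u (m • S) (m • T)) (l : ℕ) :
    ‖PowerSeries.coeff l (dl u)‖ ≤ max ‖(m : C)‖ (gn (th (em z) * em z⁻¹)) := by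
  obtain ⟨A, D, U, V, hA, hD, hA', hD', hUV, heq⟩ := dlog_disc hk em hz hm h
  have h1 : gn (A * D) = 1 := by rw [gn_mul hk, hA, hD, one_mul]
  have h2 : gn (th U * V) = gn ((th U * V) * (A * D)) := by
    rw [gn_mul hk _ (A * D), h1, mul_one]
  have h3 : (th U * V) * (A * D) = (th (em z) * em z⁻¹) * (A * D) -
      (m : EE k C) * (A * th D - D * th A) := by rw [heq]; ring
  have h4 : ‖PowerSeries.coeff l (dl u)‖ ≤ gn (th U * V) := by
    have h5 := le_gn (th U * V) ((l : ℤ) + 1)
    rw [hUV, if_pos (by omega)] at h5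
    have h6 : ((l : ℤ) + 1 - 1).toNat = l := by omega
    rwa [h6] at h5
  refine h4.trans ?_
  rw [h2, h3]
  refine (gn_sub_le _ _).trans (max_le ?_ ?_)
  · rw [gn_mul hk _ (A * D), h1, mul_one]
    exact le_max_right _ _
  · refine le_max_of_le_left ((gn_natCast_mul_le _ _).trans ?_)
    refine mul_le_of_le_one_right (norm_nonneg _) ((gn_sub_le _ _).trans (max_le ?_ ?_))
    · rw [gn_mul hk, hA, one_mul]; exact hD'
    · rw [gn_mul hk, hD, one_mul]; exact hA'

end Disc

end Crest.Agent.R013.HU7_522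
end

-- ▼ part R013/HU8_522
section

/-!
# R013 / HU8: multiplicities of functions on a disc; `ordp tau` is a valuation, a multiple of a place
(helper522)

* `mult tau f` for `0 ≠ f ∈ BD k C`, `le_mult_iff`, `mult_mul`, `mult_add`;
* `ordp_eq_mult`;  `ordv tau : Valuation K ℤᵐ⁰`;
* `ordp_eq_divf` : there are a place `P` and `e : ℤ` with `ordp tau z = e * divf z P` for all `z`.
-/

set_option autoImplicit false
set_option linter.all false

open scoped NNReal
open PowerSeries

namespace Crest.Agent.R013.HU8_522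

open Crest.Agent.R013.Cell_408 Crest.Agent.R013.HU1_522 Crest.Agent.R013.HU2_522
open Crest.Agent.R013.HU3_522

variable {k C : Type*} [NontriviallyNormedField k] [CompleteSpace k] [IsUltrametricDist k]
  [NormedField C] [IsUltrametricDist C] [NormedAlgebra k C] [Algebra.IsAlgebraic k C] [IsAlgClosed C]

theorem pow_mem_BD (τ : C) (m : ℕ) :
    (((Polynomial.X - Polynomial.C τ : Polynomial C) ^ m : Polynomial C) : C⟦X⟧) ∈ BD k C :=
  coe_mem_BD _

theorem rootPoly_replicate (τ : C) (m : ℕ) :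
    rootPoly (Multiset.replicate m τ) = (Polynomial.X - Polynomial.C τ) ^ m := by
  simp [rootPoly]

theorem Dec.le_count [DecidableEq C] {f : C⟦X⟧} {c : C} {u : U1 C} {S : Multiset C}
    (hk : DiscNorm k) (h : Dec k f c u S) {τ : C} (hτ : ‖τ‖ < 1) {m : ℕ} {g : C⟦X⟧}
    (hg : g ∈ BD k C) (hfg : f = (((Polynomial.X - Polynomial.C τ) ^ m : Polynomial C) : C⟦X⟧) * g) :
    m ≤ S.count τ := by
  have hf0 : f ≠ 0 := by
    rw [h.eq]
    refine mul_ne_zero (mul_ne_zero ?_ (U1.coe_ne_zero u)) (rootPoly_ne_zero S)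
    rw [ne_eq, map_eq_zero_iff _ PowerSeries.C_injective]; exact h.c0
  have hg0 : g ≠ 0 := by rintro rfl; rw [mul_zero] at hfg; exact hf0 hfg
  obtain ⟨d, v, T, hT⟩ := exists_dec hk hg hg0
  have h1 : Dec k (((Polynomial.X - Polynomial.C τ) ^ m : Polynomial C) : C⟦X⟧) 1 1
      (Multiset.replicate m τ) := by
    refine ⟨one_ne_zero, fun t ht => by rw [Multiset.eq_of_mem_replicate ht]; exact hτ, ?_, ?_⟩
    · refine ⟨⊥, inferInstance, fun n => ?_⟩
      show coeff n (1 : C⟦X⟧) ∈ (⊥ : IntermediateField k C)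
      rw [coeff_one]
      split_ifs
      · exact one_mem _
      · exact zero_mem _
    · rw [rootPoly_replicate, map_one, one_mul]
      show _ = 1 * _
      rw [one_mul]
  have h2 := h1.mul hT
  rw [← hfg] at h2
  have h3 := (h.unique h2).1
  rw [h3, Multiset.count_add, Multiset.count_replicate_self]
  omega

theorem Dec.exists_factor [DecidableEq C] {f : C⟦X⟧} {c : C} {u : U1 C} {S : Multiset C}
    (h : Dec k f c u S) {τ : C} {m : ℕ} (hm : m ≤ S.count τ) :
    ∃ g ∈ BD k C, f = (((Polynomial.X - Polynomial.C τ) ^ m : Polynomial C) : C⟦X⟧) * g := by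
  have h1 : Multiset.replicate m τ ≤ S := Multiset.le_count_iff_replicate_le.mp hm
  obtain ⟨T, rfl⟩ := Multiset.le_iff_exists_add.mp h1
  refine ⟨PowerSeries.C c * ((u : (C⟦X⟧)ˣ) : C⟦X⟧) * (rootPoly T : C⟦X⟧),
    mul_mem (mul_mem (C_mem_BD c) h.isU.mem) (coe_mem_BD _), ?_⟩
  rw [h.eq, rootPoly_add, rootPoly_replicate, Polynomial.coe_mul]
  ring

open Classical in
/-- the multiplicity of `tau` as a zero of `f` -/
noncomputable def mult (hk : DiscNorm k) (τ : C) (f : BD k C) : ℕ :=
  if h : (f : C⟦X⟧) = 0 then 0 else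
    (exists_dec hk f.2 h).choose_spec.choose_spec.choose.count τ

theorem mult_eq [DecidableEq C] (hk : DiscNorm k) (τ : C) {f : BD k C} {c : C} {u : U1 C}
    {S : Multiset C} (h : Dec k (f : C⟦X⟧) c u S) : mult hk τ f = S.count τ := by
  have hf0 : (f : C⟦X⟧) ≠ 0 := by
    rw [h.eq]
    refine mul_ne_zero (mul_ne_zero ?_ (U1.coe_ne_zero u)) (rootPoly_ne_zero S)
    rw [ne_eq, map_eq_zero_iff _ PowerSeries.C_injective]; exact h.c0
  unfold mult
  rw [dif_neg hf0]
  have h1 := (exists_dec hk f.2 hf0).choose_spec.choose_spec.choose_spec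
  have h2 := (h1.unique h).1
  rw [h2]
  convert rfl

theorem coe_ne_zero {f : BD k C} (hf : f ≠ 0) : (f : C⟦X⟧) ≠ 0 := fun h => hf (Subtype.ext h)

theorem mult_mul (hk : DiscNorm k) (τ : C) {f g : BD k C} (hf : f ≠ 0) (hg : g ≠ 0) :
    mult hk τ (f * g) = mult hk τ f + mult hk τ g := by
  classical
  obtain ⟨c, u, S, hS⟩ := exists_dec hk f.2 (coe_ne_zero hf)
  obtain ⟨d, v, T, hT⟩ := exists_dec hk g.2 (coe_ne_zero hg)
  rw [mult_eq hk τ hS, mult_eq hk τ hT, mult_eq (f := f * g) hk τ (hS.mul hT), Multiset.count_add]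

theorem le_mult_iff (hk : DiscNorm k) {τ : C} (hτ : ‖τ‖ < 1) {f : BD k C} (hf : f ≠ 0) {m : ℕ} :
    m ≤ mult hk τ f ↔ (⟨_, pow_mem_BD τ m⟩ : BD k C) ∣ f := by
  classical
  obtain ⟨c, u, S, hS⟩ := exists_dec hk f.2 (coe_ne_zero hf)
  rw [mult_eq hk τ hS]
  constructor
  · intro h
    obtain ⟨g, hg, hfg⟩ := Dec.exists_factor hS h
    exact ⟨⟨g, hg⟩, Subtype.ext hfg⟩
  · rintro ⟨g, hg⟩
    exact Dec.le_count hk hS hτ g.2 (congrArg Subtype.val hg)

theorem mult_add (hk : DiscNorm k) {τ : C} (hτ : ‖τ‖ < 1) {f g : BD k C} (hf : f ≠ 0) (hg : g ≠ 0)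
    (hfg : f + g ≠ 0) : min (mult hk τ f) (mult hk τ g) ≤ mult hk τ (f + g) := by
  rw [le_mult_iff hk hτ hfg]
  exact dvd_add ((le_mult_iff hk hτ hf).mp (min_le_left _ _))
    ((le_mult_iff hk hτ hg).mp (min_le_right _ _))

section Frac

variable (hk : DiscNorm k) {Q : Type*} [CommRing Q] (j : BD k C →+* Q) (hj : Function.Injective j)
  {K : Type*} [Field K] (ι : K →+* Q) (hι : ∀ z, ∃ a b : BD k C, b ≠ 0 ∧ ι z * j b = j a)

theorem BD_mul_ne_zero {a b : BD k C} (ha : a ≠ 0) (hb : b ≠ 0) : a * b ≠ 0 := by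
  intro h
  have h1 : (a : C⟦X⟧) * (b : C⟦X⟧) = 0 := congrArg Subtype.val h
  rcases mul_eq_zero.mp h1 with h2 | h2
  · exact ha (Subtype.ext h2)
  · exact hb (Subtype.ext h2)

include hj in
theorem num_ne_zero {z : K} (hz : z ≠ 0) {a b : BD k C} (hb : b ≠ 0) (hab : ι z * j b = j a) :
    a ≠ 0 := by
  have hjb : j b ≠ 0 := (map_ne_zero_iff j hj).mpr hb
  rintro rfl
  apply hjb
  have h1 : ι z⁻¹ * ι z = 1 := by rw [← map_mul, inv_mul_cancel₀ hz, map_one]
  calc j b = ι z⁻¹ * (ι z * j b) := by rw [← mul_assoc, h1, one_mul]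
    _ = 0 := by rw [hab, map_zero, mul_zero]

theorem ordp_eq_mult {z : Kˣ} {a b : BD k C} (hb : b ≠ 0) (hab : ι z * j b = j a) (τ : C) :
    Multiplicative.toAdd (ordp hk j hj ι hι τ z) = (mult hk τ a : ℤ) - mult hk τ b := by
  classical
  have ha : a ≠ 0 := num_ne_zero j hj ι z.ne_zero hb hab
  obtain ⟨c, u, S, T, hp⟩ := exists_pres hk j hj ι hι z.ne_zero
  obtain ⟨a', b', hab', ha', hb'⟩ := hp.ex
  rw [ordp_eq hk j hj ι hι hp τ, ← mult_eq hk τ ha', ← mult_eq hk τ hb']
  have hb'0 : b' ≠ 0 := by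
    rintro rfl
    have h1 := hb'.eq
    have h2 : (PowerSeries.C (1 : C) * (((1 : U1 C) : (C⟦X⟧)ˣ) : C⟦X⟧) * (rootPoly T : C⟦X⟧)) ≠ 0 := by
      refine mul_ne_zero (mul_ne_zero ?_ (U1.coe_ne_zero 1)) (rootPoly_ne_zero T)
      rw [map_one]; exact one_ne_zero
    exact h2 h1.symm
  have ha'0 : a' ≠ 0 := num_ne_zero j hj ι z.ne_zero hb'0 hab'
  have h1 : a * b' = a' * b := by
    apply hj
    rw [map_mul, map_mul, ← hab, ← hab']
    ring
  have h2 := mult_mul hk τ ha hb'0
  rw [h1, mult_mul hk τ ha'0 hb] at h2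
  omega

theorem ordp_add {τ : C} (hτ : ‖τ‖ < 1) {z z' w : Kˣ} (h : (w : K) = z + z') :
    min (Multiplicative.toAdd (ordp hk j hj ι hι τ z)) (Multiplicative.toAdd (ordp hk j hj ι hι τ z'))
      ≤ Multiplicative.toAdd (ordp hk j hj ι hι τ w) := by
  obtain ⟨a, b, hb, hab⟩ := hι z
  obtain ⟨a', b', hb', hab'⟩ := hι z'
  have ha := num_ne_zero j hj ι z.ne_zero hb hab
  have ha' := num_ne_zero j hj ι z'.ne_zero hb' hab'
  have hbb := BD_mul_ne_zero hb hb'
  have hw : ι w * j (b * b') = j (a * b' + a' * b) := by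
    rw [h, map_add, map_add, map_mul, map_mul, map_mul, ← hab, ← hab']; ring
  have hs := num_ne_zero j hj ι w.ne_zero hbb hw
  have h1 := mult_add hk hτ (BD_mul_ne_zero ha hb') (BD_mul_ne_zero ha' hb) hs
  rw [ordp_eq_mult hk j hj ι hι hb hab, ordp_eq_mult hk j hj ι hι hb' hab',
    ordp_eq_mult hk j hj ι hι hbb hw]
  rw [mult_mul hk τ ha hb', mult_mul hk τ ha' hb] at h1
  rw [mult_mul hk τ hb hb']
  push_cast
  rcases min_le_iff.mp h1 with h2 | h2
  · exact (min_le_left _ _).trans (by omega)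
  · exact (min_le_right _ _).trans (by omega)

open WithZero Classical in
/-- `ordp tau` as a valuation -/
noncomputable def ordv (τ : C) (hτ : ‖τ‖ < 1) : Valuation K ℤᵐ⁰ where
  toFun z := if h : z = 0 then 0 else
    exp (-(Multiplicative.toAdd (ordp hk j hj ι hι τ (Units.mk0 z h))))
  map_zero' := by simp
  map_one' := by
    rw [dif_neg one_ne_zero]
    have : Units.mk0 (1 : K) one_ne_zero = 1 := by ext; rfl
    rw [this, map_one]
    rfl
  map_mul' x y := by
    by_cases hx : x = 0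
    · subst hx; simp
    by_cases hy : y = 0
    · subst hy; simp
    rw [dif_neg hx, dif_neg hy, dif_neg (mul_ne_zero hx hy), ← exp_add]
    have : Units.mk0 (x * y) (mul_ne_zero hx hy) = Units.mk0 x hx * Units.mk0 y hy := by ext; rfl
    rw [this, map_mul, toAdd_mul]
    congr 1
    ring
  map_add_le_max' x y := by
    by_cases hx : x = 0
    · subst hx; simp
    by_cases hy : y = 0
    · subst hy; simp
    by_cases hxy : x + y = 0
    · rw [dif_pos hxy]; exact zero_le
    rw [dif_neg hx, dif_neg hy, dif_neg hxy, le_max_iff, exp_le_exp, exp_le_exp]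
    have h1 := ordp_add hk j hj ι hι hτ (z := Units.mk0 x hx) (z' := Units.mk0 y hy)
      (w := Units.mk0 (x + y) hxy) rfl
    rcases min_le_iff.mp h1 with h2 | h2
    · left; omega
    · right; omega

open WithZero Classical in
theorem ordv_apply {τ : C} (hτ : ‖τ‖ < 1) (z : Kˣ) :
    ordv hk j hj ι hι τ hτ (z : K) = exp (-(Multiplicative.toAdd (ordp hk j hj ι hι τ z))) := by
  show (if h : (z : K) = 0 then 0 else
    exp (-(Multiplicative.toAdd (ordp hk j hj ι hι τ (Units.mk0 (z : K) h))))) = _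
  rw [dif_neg z.ne_zero, Units.mk0_val]

end Frac

section Place

open WithZero
open Crest.Agent.R013.RR7_948 Crest.Agent.R013.RR8_948 Crest.Agent.R013.RR9_948
open Crest.Agent.R013.RR11_948 Crest.Agent.R013.RR12_948 Crest.Agent.R013.RR13_948

variable [CharZero C] (hk : DiscNorm k) {Q : Type*} [CommRing Q] (j : BD k C →+* Q)
  (hj : Function.Injective j)
  {K : Type*} [Field K] [Algebra C K] [Algebra (RatFunc C) K] [IsScalarTower C (RatFunc C) K]
  [FiniteDimensional (RatFunc C) K]
  (ι : K →+* Q) (hι : ∀ z, ∃ a b : BD k C, b ≠ 0 ∧ ι z * j b = j a)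
  (hιc : ∀ c : C, ι (algebraMap C K c) = j ⟨PowerSeries.C c, C_mem_BD c⟩)

include hιc in
theorem ordp_const {τ : C} (hτ : ‖τ‖ < 1) {c : C} (hc : c ≠ 0) :
    ordv hk j hj ι hι τ hτ (algebraMap C K c) = 1 := by
  classical
  have hc' : algebraMap C K c ≠ 0 := (map_ne_zero _).mpr hc
  have hp : Pres j ι (algebraMap C K c) c 1 0 0 := by
    refine ⟨⟨PowerSeries.C c, C_mem_BD c⟩, 1, by rw [map_one, mul_one, hιc], ?_, ?_⟩
    · refine ⟨hc, fun τ h => absurd h (Multiset.notMem_zero τ), ?_, ?_⟩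
      · refine ⟨⊥, inferInstance, fun n => ?_⟩
        show coeff n (1 : C⟦X⟧) ∈ (⊥ : IntermediateField k C)
        rw [coeff_one]
        split_ifs
        · exact one_mem _
        · exact zero_mem _
      · rw [rootPoly_zero, Polynomial.coe_one, mul_one]
        show PowerSeries.C c = PowerSeries.C c * 1
        rw [mul_one]
    · refine ⟨one_ne_zero, fun τ h => absurd h (Multiset.notMem_zero τ), ?_, ?_⟩
      · refine ⟨⊥, inferInstance, fun n => ?_⟩
        show coeff n (1 : C⟦X⟧) ∈ (⊥ : IntermediateField k C)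
        rw [coeff_one]
        split_ifs
        · exact one_mem _
        · exact zero_mem _
      · rw [rootPoly_zero, Polynomial.coe_one, mul_one, map_one, one_mul]; rfl
  have h1 := ordv_apply hk j hj ι hι hτ (Units.mk0 _ hc')
  rw [Units.val_mk0] at h1
  rw [h1, ordp_eq hk j hj ι hι (z := Units.mk0 _ hc') hp τ]
  simp

include hιc in
/-- `ordp tau` is a multiple of the order at a place -/
theorem ordp_eq_divf {τ : C} (hτ : ‖τ‖ < 1) : ∃ (P : Pl C K) (e : ℤ), ∀ z : Kˣ,
    Multiplicative.toAdd (ordp hk j hj ι hι τ z) = e * divf (k := C) (z : K) P := by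
  by_cases hnt : ∃ z : Kˣ, Multiplicative.toAdd (ordp hk j hj ι hι τ z) ≠ 0
  · obtain ⟨z0, hz0⟩ := hnt
    obtain ⟨P, hP⟩ := exists_place (k := C) (ordv hk j hj ι hι τ hτ)
      (fun c hc => ordp_const hk j hj ι hι hιc hτ hc)
      ⟨z0, by
        rw [ordv_apply]; exact exp_ne_zero, by
        rw [ordv_apply, ← exp_zero, ne_eq, exp_inj]; omega⟩
    obtain ⟨t, ht0, ht⟩ := exists_v_eq P (-1)
    refine ⟨P, Multiplicative.toAdd (ordp hk j hj ι hι τ (Units.mk0 t ht0)), fun z => ?_⟩
    have h1 := eq_zpow_of_isEquiv hP ht (v_eq z.ne_zero P)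
    have h2 := ordv_apply hk j hj ι hι hτ z
    have h3 := ordv_apply hk j hj ι hι hτ (Units.mk0 t ht0)
    rw [Units.val_mk0] at h3
    rw [h2, h3, ← exp_zsmul, exp_inj, smul_eq_mul, neg_neg] at h1
    linarith
  · push Not at hnt
    obtain ⟨P⟩ : Nonempty (Pl C K) := by
      obtain ⟨D, hD⟩ := RR19_948.exists_degD_gt (k := C) (K := K) 0
      by_contra hcon
      rw [not_nonempty_iff] at hcon
      have : D = 0 := by ext P; exact hcon.elim P
      rw [this, degD_zero] at hD
      exact lt_irrefl _ hD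
    exact ⟨P, 0, fun z => by rw [hnt z, zero_mul]⟩

include hιc in
/-- divisibility of the divisor gives divisibility of the multiplicities on the disc -/
theorem dvd_ordp {m : ℤ} {z : Kˣ} (h : ∀ P : Pl C K, m ∣ divf (k := C) (z : K) P) {τ : C}
    (hτ : ‖τ‖ < 1) : m ∣ Multiplicative.toAdd (ordp hk j hj ι hι τ z) := by
  obtain ⟨P, e, hP⟩ := ordp_eq_divf hk j hj ι hι hιc hτ
  rw [hP z]
  exact (h P).mul_left e

end Place

end Crest.Agent.R013.HU8_522
end

-- ▼ part R013/HU9_522
section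

/-!
# R013 / HU9: the differential `omega_u` of a disc cell; VANISHING and NONVANISHING (helper522)

Data: `C` algebraically closed of characteristic `0`, algebraic over the complete discretely valued
field `k`; `K` a function field over `C` (948); `em : K →+* EE k C` (809) `C`-linear; a DISC END is
an `em` with values in `Frac BD` (`hι`).  `u ∈ PC p Kˣ` with `p^n ∣ div h_n` for all representatives.

* `hu_disc` : `em h_n * (B ^ p^n) = c * nu h_n * (A ^ p^n)`, `A, B` monic polynomials with roots in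
  the open disc;
* `om_zero_of` : `gn (dlog (em h_n)) ≤ |p^n|` for all `n` implies `omega u = 0` on the disc;
* `slope_eq_zero` : **if `omega u = 0` on ONE disc end `em1`, then the slope of `u` at EVERY end `em2`
  vanishes.**
-/

set_option autoImplicit false
set_option linter.all false
open Filter Topology
open scoped NNReal
open Crest.Agent.R013.Cell_408

namespace Crest.Agent.R013.HU9_522

open Crest.Agent.R013.RR7_948 Crest.Agent.R013.RR8_948 Crest.Agent.R013.RR11_948
open Crest.Agent.R013.RR14_948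
open Crest.Agent.R013.RR13_948
open Crest.Agent.R013.EE809 Crest.Agent.R013.HU6_522 Crest.Agent.R013.HU3_522
open Crest.Agent.R013.HU1_522 Crest.Agent.R013.HU7_522 Crest.Agent.R013.PC_588
open Crest.Agent.R013.HU8_522 Crest.Agent.R013.HU4_522 Crest.Agent.R013.HU2_522

section PAdic

variable {C : Type*} [NormedField C] [IsUltrametricDist C] [CharZero C] {p : ℕ} [Fact p.Prime]

theorem norm_eq_one_of_not_dvd (hp : ‖(p : C)‖ < 1) {a : ℤ} (h : ¬ (p : ℤ) ∣ a) : ‖(a : C)‖ = 1 := by
  have h1 : IsCoprime (p : ℤ) a :=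
    (Nat.prime_iff_prime_int.mp (Fact.out : p.Prime)).coprime_iff_not_dvd.mpr h
  obtain ⟨x, y, hxy⟩ := h1
  refine le_antisymm (IsUltrametricDist.norm_intCast_le_one C a) ?_
  by_contra hlt
  rw [not_le] at hlt
  have h2 : ((1 : ℤ) : C) = (x : C) * (p : C) + (y : C) * (a : C) := by
    rw [← hxy]; push_cast; ring
  have h3 : ‖((1 : ℤ) : C)‖ < 1 := by
    rw [h2]
    refine lt_of_le_of_lt (IsUltrametricDist.norm_add_le_max _ _) (max_lt ?_ ?_)
    · rw [norm_mul]
      exact lt_of_le_of_lt (mul_le_of_le_one_left (norm_nonneg _)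
        (IsUltrametricDist.norm_intCast_le_one C x)) hp
    · rw [norm_mul]
      exact lt_of_le_of_lt (mul_le_of_le_one_left (norm_nonneg _)
        (IsUltrametricDist.norm_intCast_le_one C y)) hlt
  rw [Int.cast_one, norm_one] at h3
  exact lt_irrefl _ h3

theorem norm_p_pos : 0 < ‖(p : C)‖ := by
  rw [norm_pos_iff]
  exact_mod_cast (Fact.out : p.Prime).ne_zero

theorem dvd_of_norm_le (hp : ‖(p : C)‖ < 1) (M : ℕ) {a : ℤ} (h : ‖(a : C)‖ ≤ ‖(p : C)‖ ^ M) :
    ((p : ℤ) ^ M) ∣ a := by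
  induction M generalizing a with
  | zero => simp
  | succ M ih =>
    have h1 : (p : ℤ) ∣ a := by
      by_contra hcon
      rw [norm_eq_one_of_not_dvd hp hcon] at h
      have : ‖(p : C)‖ ^ (M + 1) < 1 := pow_lt_one₀ (norm_nonneg _) hp (Nat.succ_ne_zero M)
      exact absurd h (not_le.mpr this)
    obtain ⟨b, rfl⟩ := h1
    have h2 : ‖(b : C)‖ ≤ ‖(p : C)‖ ^ M := by
      push_cast at h
      rw [norm_mul, pow_succ, mul_comm (‖(p : C)‖ ^ M)] at h
      exact le_of_mul_le_mul_left h norm_p_pos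
    rw [pow_succ, mul_comm]
    exact mul_dvd_mul_left _ (ih h2)


end PAdic

variable {k : Type*} [NontriviallyNormedField k] [CompleteSpace k] [IsUltrametricDist k]
variable {C : Type*} [NormedField C] [IsUltrametricDist C] [NormedAlgebra k C] [CharZero C]
  [Algebra.IsAlgebraic k C] [IsAlgClosed C]
  {K : Type*} [Field K] [Algebra C K] [Algebra (RatFunc C) K] [IsScalarTower C (RatFunc C) K]
  [FiniteDimensional (RatFunc C) K]
  {p : ℕ} [Fact p.Prime]

/-- divisor condition: every representative of `u` modulo `p^n`-th powers has divisor divisible by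
`p^n` (`u ∈ T_p`) -/
def DivP (C : Type*) [Field C] {K : Type*} [Field K] [Algebra C K] [Algebra (RatFunc C) K]
    [IsScalarTower C (RatFunc C) K] [FiniteDimensional (RatFunc C) K]
    [Algebra.IsSeparable (RatFunc C) K] {p : ℕ} [Fact p.Prime] (u : PC p Kˣ) : Prop :=
  ∀ n (h : Kˣ), Rep u n h → ∀ P : Pl C K, ((p ^ n : ℕ) : ℤ) ∣ divf (k := C) (h : K) P

theorem bdE_C (hc0 : C) : (bdE ⟨PowerSeries.C hc0, C_mem_BD hc0⟩ : EE k C) =
    mono 0 hc0 (EE809.finDef_const hc0) := by
  ext n
  rw [bdE_apply, co_bdF, co_mono]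
  show (if 0 ≤ n then PowerSeries.coeff n.toNat (PowerSeries.C hc0) else 0) = _
  rw [PowerSeries.coeff_C]
  by_cases h : n = 0
  · subst h; simp
  · rw [if_neg h]
    split_ifs with h1 h2
    · exfalso; omega
    · rfl
    · rfl

section Disc

variable (hk : DiscNorm k) (em : K →+* EE k C)
  (hc : ∀ c : C, em (algebraMap C K c) = mono 0 c (EE809.finDef_const c))
  (hι : ∀ z, ∃ a b : BD k C, b ≠ 0 ∧ em z * bdE b = bdE a)

/-- the unit part on the disc end `em` -/
noncomputable def nuE : Kˣ →* U1 C := nu hk bdE bdE_injective em hι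

theorem EE_cancel (hk : DiscNorm k) (a b q : EE k C) (hq : q ≠ 0) (h : a * q = b * q) : a = b := by
  by_contra hcon
  exact mul_ne_zero' hk (sub_ne_zero.mpr hcon) hq (by rw [sub_mul, h, sub_self])

include hc in
/-- presentation with divisible divisor -/
theorem exists_pres_div {m : ℕ} (hm : m ≠ 0) {z : Kˣ}
    (hz : ∀ P : Pl C K, (m : ℤ) ∣ divf (k := C) (z : K) P) :
    ∃ c S T, Pres bdE em (z : K) c (nuE hk em hι z) (m • S) (m • T) := by
  classical
  obtain ⟨c, S, T, h⟩ := nu_pres hk bdE bdE_injective em hι z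
  have hιc : ∀ c : C, em (algebraMap C K c) = bdE ⟨PowerSeries.C c, C_mem_BD c⟩ := fun c => by
    rw [hc, bdE_C]
  have hcount : ∀ τ, (m : ℤ) ∣ (S.count τ : ℤ) - T.count τ := by
    intro τ
    by_cases hτ : ‖τ‖ < 1
    · rw [← ordp_eq hk bdE bdE_injective em hι h τ]
      exact dvd_ordp hk bdE bdE_injective em hι hιc hz hτ
    · obtain ⟨a, b, -, ha, hb⟩ := h.ex
      have h1 : τ ∉ S := fun hmem => hτ (ha.lt τ hmem)
      have h2 : τ ∉ T := fun hmem => hτ (hb.lt τ hmem)
      rw [Multiset.count_eq_zero_of_notMem h1, Multiset.count_eq_zero_of_notMem h2]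
      simp
  obtain ⟨S', T', h'⟩ := Pres.divisible bdE em h (EE_cancel hk) bdE_injective hm hcount
  exact ⟨c, S', T', h'⟩

include hc in
/-- **`h_n` on the disc**: `em z * B ^ m = c * nu z * A ^ m` with `A, B` products of `T - tau` -/
theorem hu_disc {m : ℕ} (hm : m ≠ 0) {z : Kˣ}
    (hz : ∀ P : Pl C K, (m : ℤ) ∣ divf (k := C) (z : K) P) :
    ∃ (c : C) (S T : Multiset C), c ≠ 0 ∧ (∀ τ ∈ S, ‖τ‖ < 1) ∧ (∀ τ ∈ T, ‖τ‖ < 1) ∧
      ∃ hu : ((nuE hk em hι z : (PowerSeries C)ˣ) : PowerSeries C) ∈ BD k C,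
      em z * (bdE ⟨(rootPoly T : PowerSeries C), coe_mem_BD _⟩) ^ m =
        bdE ⟨PowerSeries.C c, C_mem_BD c⟩ * bdE ⟨_, hu⟩ *
          (bdE ⟨(rootPoly S : PowerSeries C), coe_mem_BD _⟩) ^ m := by
  obtain ⟨c, S, T, h⟩ := exists_pres_div hk em hc hι hm hz
  obtain ⟨a, b, hab, ha, hb⟩ := h.ex
  obtain ⟨hu, heq⟩ := Pres.eq bdE em h
  have hpow : ∀ R : Multiset C, bdE (⟨(rootPoly (m • R) : PowerSeries C), coe_mem_BD _⟩ : BD k C) =
      bdE (⟨(rootPoly R : PowerSeries C), coe_mem_BD _⟩ : BD k C) ^ m := by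
    intro R
    rw [← map_pow]
    congr 1
    apply Subtype.ext
    show (rootPoly (m • R) : PowerSeries C) = (rootPoly R : PowerSeries C) ^ m
    rw [← Polynomial.coe_pow]
    congr 1
    clear hm hz h ha hb heq
    induction m with
    | zero => simp [rootPoly_zero]
    | succ m ih => rw [succ_nsmul, rootPoly_add, ih, pow_succ]
  rw [hpow, hpow] at heq
  exact ⟨c, S, T, ha.c0, fun τ hτ => ha.lt τ (by rw [Multiset.mem_nsmul]; exact ⟨hm, hτ⟩),
    fun τ hτ => hb.lt τ (by rw [Multiset.mem_nsmul]; exact ⟨hm, hτ⟩), hu, heq⟩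

/-! ### over a complete field `F ⊇ C` -/

variable {F : Type*} [NormedField F] [IsUltrametricDist F] [CharZero F] [CompleteSpace F]
  (σ : C →+* F) (hσ : ∀ a, ‖σ a‖ = ‖a‖)

/-- `nu` with values in `U1 F` -/
noncomputable def nuF : Kˣ →* U1 F := (mapU σ hσ).comp (nuE hk em hι)

theorem norm_coeff_dl_nuF (z : Kˣ) (l : ℕ) :
    ‖PowerSeries.coeff l (dl (nuF hk em hι σ hσ z))‖ =
      ‖PowerSeries.coeff l (dl (nuE hk em hι z))‖ := by
  show ‖PowerSeries.coeff l (dl (mapU σ hσ (nuE hk em hι z)))‖ = _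
  rw [dl_mapU, PowerSeries.coeff_map, hσ]

include hσ in
theorem norm_p_F : ‖(p : F)‖ = ‖(p : C)‖ := by rw [← hσ (p : C), map_natCast]

/-- **`H_u`** of the disc end `em` -/
noncomputable def HuE (u : PC p Kˣ) : U1 F := Hu (nuF hk em hι σ hσ) u

/-- **`omega_u`** of the disc end `em` -/
noncomputable def OmE (u : PC p Kˣ) : PowerSeries F := Om (nuF hk em hι σ hσ) u

variable (hp : ‖(p : C)‖ < 1)


include hp hc in
/-- if `omega_u = 0` then all logarithmic derivatives are small -/
theorem dlog_le_of_om_zero {u : PC p Kˣ} (hu : DivP C u) (h0 : OmE hk em hι σ hσ u = 0) {n : ℕ}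
    {z : Kˣ} (hz : Rep u n z) : gn (th (em (z : K)) * em (z : K)⁻¹) ≤ ‖(p : C)‖ ^ n := by
  have hpF : ‖(p : F)‖ < 1 := by rw [norm_p_F σ hσ]; exact hp
  have hpn : p ^ n ≠ 0 := pow_ne_zero _ (Fact.out : p.Prime).ne_zero
  obtain ⟨c, S, T, hpres⟩ := exists_pres_div hk em hc hι hpn (hu n z hz)
  refine (gn_dlog_le hk em z.ne_zero hpn hpres (B := ‖(p : C)‖ ^ n) fun l => ?_).trans
    (max_le ?_ le_rfl)
  · rw [← norm_coeff_dl_nuF hk em hι σ hσ, ← norm_p_F (p := p) σ hσ]
    exact norm_dl_le_of_Om_eq_zero hpF _ h0 hz l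
  · push_cast
    rw [norm_pow]

end Disc



end Crest.Agent.R013.HU9_522
end

-- ▼ part R013/HU10_522
section

/-!
# R013 / HU10: `iota h_n = H_u * g ^ (p^n)` in the fraction field of the bounded power series over a
complete field `F ⊇ C` (helper522)
-/

set_option autoImplicit false
set_option linter.all false
open Filter Topology
open scoped NNReal
open Crest.Agent.R013.Cell_408

namespace Crest.Agent.R013.HU10_522

open Crest.Agent.R013.RR7_948 Crest.Agent.R013.RR8_948 Crest.Agent.R013.RR11_948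
open Crest.Agent.R013.EE809 Crest.Agent.R013.HU6_522 Crest.Agent.R013.HU3_522
open Crest.Agent.R013.HU1_522 Crest.Agent.R013.HU7_522 Crest.Agent.R013.PC_588
open Crest.Agent.R013.HU8_522 Crest.Agent.R013.HU4_522 Crest.Agent.R013.HU2_522
open Crest.Agent.R013.HU9_522 Crest.Agent.R013.KAS3_940 Crest.Agent.R013.KAS2_940
open Crest.Agent.R013.KAS1_940

variable {k : Type*} [NontriviallyNormedField k] [CompleteSpace k] [IsUltrametricDist k]
variable {C : Type*} [NormedField C] [IsUltrametricDist C] [NormedAlgebra k C]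
  [Algebra.IsAlgebraic k C] [IsAlgClosed C]

section ToFrac

variable {Q : Type*} [CommRing Q] (j : BD k C →+* Q) (hj : Function.Injective j)
  {K : Type*} [Field K] (ι : K →+* Q) (hι : ∀ z, ∃ a b : BD k C, b ≠ 0 ∧ ι z * j b = j a)
  {R : Type*} [Field R] (ψ : BD k C →+* R) (hψ : Function.Injective ψ)

include hj hψ in
theorem ratio_unique {z : K} {a b a' b' : BD k C} (hb : b ≠ 0) (h : ι z * j b = j a)
    (hb' : b' ≠ 0) (h' : ι z * j b' = j a') : ψ a / ψ b = ψ a' / ψ b' := by
  have h1 : a * b' = a' * b := by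
    apply hj
    rw [map_mul, map_mul, ← h, ← h']; ring
  have hb1 : ψ b ≠ 0 := (map_ne_zero_iff ψ hψ).mpr hb
  have hb2 : ψ b' ≠ 0 := (map_ne_zero_iff ψ hψ).mpr hb'
  rw [div_eq_div_iff hb1 hb2, ← map_mul, ← map_mul, h1]

/-- a homomorphism `K → R` from an injective homomorphism `BD → R`, `R` a field -/
noncomputable def toFr : K →+* R where
  toFun z := ψ (hι z).choose / ψ (hι z).choose_spec.choose
  map_one' := by
    have h := (hι 1).choose_spec.choose_spec
    rw [ratio_unique j hj ι ψ hψ h.1 h.2 (a' := 1) (b' := 1) one_ne_zero (by simp)]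
    simp
  map_zero' := by
    have h := (hι 0).choose_spec.choose_spec
    rw [ratio_unique j hj ι ψ hψ h.1 h.2 (a' := 0) (b' := 1) one_ne_zero (by simp)]
    simp
  map_mul' x y := by
    have h := (hι (x * y)).choose_spec.choose_spec
    have h1 := (hι x).choose_spec.choose_spec
    have h2 := (hι y).choose_spec.choose_spec
    rw [ratio_unique j hj ι ψ hψ h.1 h.2 (a' := (hι x).choose * (hι y).choose)
      (b' := (hι x).choose_spec.choose * (hι y).choose_spec.choose)
      (BD_mul_ne_zero h1.1 h2.1) (by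
        rw [map_mul, map_mul, map_mul]
        linear_combination (ι y * j (hι y).choose_spec.choose) * h1.2 + (j (hι x).choose) * h2.2),
      map_mul, map_mul, mul_div_mul_comm]
  map_add' x y := by
    have h := (hι (x + y)).choose_spec.choose_spec
    have h1 := (hι x).choose_spec.choose_spec
    have h2 := (hι y).choose_spec.choose_spec
    rw [ratio_unique j hj ι ψ hψ h.1 h.2
      (a' := (hι x).choose * (hι y).choose_spec.choose + (hι x).choose_spec.choose * (hι y).choose)
      (b' := (hι x).choose_spec.choose * (hι y).choose_spec.choose)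
      (BD_mul_ne_zero h1.1 h2.1) (by
        rw [map_add, map_mul, map_add, map_mul, map_mul]
        linear_combination (j (hι y).choose_spec.choose) * h1.2 +
          (j (hι x).choose_spec.choose) * h2.2), map_mul, map_add,
      map_mul, map_mul, div_add_div _ _ ((map_ne_zero_iff ψ hψ).mpr h1.1)
        ((map_ne_zero_iff ψ hψ).mpr h2.1)]

theorem toFr_spec {z : K} {a b : BD k C} (hb : b ≠ 0) (h : ι z * j b = j a) :
    toFr j hj ι hι ψ hψ z * ψ b = ψ a := by
  have h1 := (hι z).choose_spec.choose_spec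
  have h2 : toFr j hj ι hι ψ hψ z = ψ a / ψ b := ratio_unique j hj ι ψ hψ h1.1 h1.2 hb h
  rw [h2, div_mul_cancel₀ _ ((map_ne_zero_iff ψ hψ).mpr hb)]

end ToFrac

section Complete

variable {F : Type*} [NontriviallyNormedField F] [IsUltrametricDist F]
  (σ : C →+* F) (hσ : ∀ a, ‖σ a‖ = ‖a‖)

/-- `BD k C → bsub F 1`, coefficientwise -/
noncomputable def bdMap : BD k C →+* bsub (K := F) 1 one_pos where
  toFun f := ⟨PowerSeries.map σ (f : PowerSeries C), by
    obtain ⟨M, hM⟩ := f.2.2
    refine ⟨M, fun n => ?_⟩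
    rw [PowerSeries.coeff_map, hσ, one_pow, mul_one]
    exact hM n⟩
  map_one' := Subtype.ext (map_one _)
  map_mul' f g := Subtype.ext (map_mul (PowerSeries.map σ) (f : PowerSeries C) (g : PowerSeries C))
  map_zero' := Subtype.ext (map_zero _)
  map_add' f g := Subtype.ext (map_add (PowerSeries.map σ) (f : PowerSeries C) (g : PowerSeries C))

theorem bdMap_val (f : BD k C) :
    ((bdMap σ hσ f : bsub (K := F) 1 one_pos) : PowerSeries F) = PowerSeries.map σ (f : PowerSeries C) :=
  rfl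

theorem bdMap_injective : Function.Injective (bdMap (k := k) σ hσ) := by
  intro f g h
  apply Subtype.ext
  ext n
  have h1 := congrArg (fun a : bsub (K := F) 1 one_pos => PowerSeries.coeff n (a : PowerSeries F)) h
  simp only [bdMap_val, PowerSeries.coeff_map] at h1
  exact σ.injective h1

variable [CharZero C] {K : Type*} [Field K] (hk : DiscNorm k) (em : K →+* EE k C)
  (hι : ∀ z, ∃ a b : BD k C, b ≠ 0 ∧ em z * bdE b = bdE a)

/-- `BD k C → FDisc F 1` -/
noncomputable def psi : BD k C →+* Good3_940.FDisc F 1 one_pos :=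
  (algebraMap (bsub (K := F) 1 one_pos) (Good3_940.FDisc F 1 one_pos)).comp (bdMap σ hσ)

theorem psi_injective : Function.Injective (psi (k := k) σ hσ) :=
  (IsFractionRing.injective (bsub (K := F) 1 one_pos) (Good3_940.FDisc F 1 one_pos)).comp
    (bdMap_injective σ hσ)

/-- the embedding of `K` in the field of the disc over `F`, defined by a disc end -/
noncomputable def iF : K →+* Good3_940.FDisc F 1 one_pos :=
  toFr bdE bdE_injective em hι (psi σ hσ) (psi_injective σ hσ)

theorem iF_spec {z : K} {a b : BD k C} (hb : b ≠ 0) (h : em z * bdE b = bdE a) :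
    iF σ hσ em hι z * psi σ hσ b = psi σ hσ a :=
  toFr_spec bdE bdE_injective em hι (psi σ hσ) (psi_injective σ hσ) hb h

/-- an element of `U1 F` as an element of the disc field -/
noncomputable def uF (u : U1 F) : Good3_940.FDisc F 1 one_pos :=
  algebraMap (bsub (K := F) 1 one_pos) (Good3_940.FDisc F 1 one_pos)
    ⟨((u : (PowerSeries F)ˣ) : PowerSeries F), ⟨1, int1_iff.mp (U1.int u)⟩⟩

theorem uF_mul (u v : U1 F) : uF (u * v) = uF u * uF v := by
  unfold uF
  rw [← map_mul]
  rfl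

theorem uF_one : uF (1 : U1 F) = 1 := by
  unfold uF
  rw [← map_one (algebraMap (bsub (K := F) 1 one_pos) (Good3_940.FDisc F 1 one_pos))]
  rfl

theorem uF_pow (u : U1 F) (n : ℕ) : uF (u ^ n) = uF u ^ n := by
  induction n with
  | zero => rw [pow_zero, pow_zero, uF_one]
  | succ n ih => rw [pow_succ, pow_succ, uF_mul, ih]

theorem uF_mul_inv (u : U1 F) : uF u * uF u⁻¹ = 1 := by
  rw [← uF_mul, mul_inv_cancel, uF_one]

theorem uF_ne_zero (u : U1 F) : uF u ≠ 0 := left_ne_zero_of_mul_eq_one (uF_mul_inv u)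

variable [Algebra C K] [Algebra (RatFunc C) K] [IsScalarTower C (RatFunc C) K]
  [FiniteDimensional (RatFunc C) K]
  (hc : ∀ c : C, em (algebraMap C K c) = mono 0 c (EE809.finDef_const c))
  {p : ℕ} [Fact p.Prime] (hp : ‖(p : C)‖ < 1) [CharZero F] [CompleteSpace F]

include hc hp in
/-- **the form used for (GOOD)**: `iota z = H_u * g ^ (p^n)` for every representative `z` of `u`
modulo `p^n`-th powers -/
theorem iF_eq {u : PC p Kˣ} (hu : DivP C u) {n : ℕ} {z : Kˣ} (hz : Rep u n z) :
    ∃ g : Good3_940.FDisc F 1 one_pos, g ≠ 0 ∧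
      iF σ hσ em hι (z : K) = uF (HuE hk em hι σ hσ u) * g ^ (p ^ n) := by
  have hpF : ‖(p : F)‖ < 1 := by rw [norm_p_F σ hσ]; exact hp
  have hm : p ^ n ≠ 0 := pow_ne_zero _ (Fact.out : p.Prime).ne_zero
  obtain ⟨c, S, T, hc0, hS, hT, hmem, heq⟩ := hu_disc hk em hc hι hm (hu n z hz)
  obtain ⟨V, hV⟩ := Hu_spec hpF (nuF hk em hι σ hσ) hz
  obtain ⟨d, hd⟩ := IsAlgClosed.exists_pow_nat_eq c (Nat.pos_of_ne_zero hm)
  set A : BD k C := ⟨(rootPoly S : PowerSeries C), coe_mem_BD _⟩ with hA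
  set B : BD k C := ⟨(rootPoly T : PowerSeries C), coe_mem_BD _⟩ with hB
  set N : BD k C := ⟨_, hmem⟩ with hN
  have hA0 : A ≠ 0 := fun h => rootPoly_ne_zero S (congrArg Subtype.val h)
  have hB0 : B ≠ 0 := fun h => rootPoly_ne_zero T (congrArg Subtype.val h)
  have hψA : psi σ hσ A ≠ 0 := (map_ne_zero_iff _ (psi_injective σ hσ)).mpr hA0
  have hψB : psi σ hσ B ≠ 0 := (map_ne_zero_iff _ (psi_injective σ hσ)).mpr hB0
  have h1 := iF_spec σ hσ em hι (z := (z : K)) (a := ⟨PowerSeries.C c, C_mem_BD c⟩ * N * A ^ (p ^ n))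
    (b := B ^ (p ^ n)) (pow_ne_zero _ hB0) (by
      rw [map_pow, map_mul, map_mul, map_pow]; exact heq)
  rw [map_pow, map_mul, map_mul, map_pow] at h1
  -- the unit
  have hNu : psi σ hσ N = uF (nuF hk em hι σ hσ z) := by
    unfold psi uF
    rw [RingHom.comp_apply]
    congr 1
  have hcd : psi (k := k) σ hσ ⟨PowerSeries.C c, C_mem_BD c⟩ =
      psi (k := k) σ hσ ⟨PowerSeries.C d, C_mem_BD d⟩ ^ (p ^ n) := by
    rw [← map_pow]
    congr 1
    apply Subtype.ext
    show PowerSeries.C c = (PowerSeries.C d) ^ (p ^ n)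
    rw [← map_pow, hd]
  have hd0 : psi (k := k) σ hσ ⟨PowerSeries.C d, C_mem_BD d⟩ ≠ 0 := by
    rw [map_ne_zero_iff _ (psi_injective σ hσ)]
    intro h
    have h2 : PowerSeries.C d = 0 := congrArg Subtype.val h
    rw [map_eq_zero_iff _ PowerSeries.C_injective] at h2
    rw [h2, zero_pow hm] at hd
    exact hc0 hd.symm
  refine ⟨psi (k := k) σ hσ ⟨PowerSeries.C d, C_mem_BD d⟩ * psi σ hσ A / psi σ hσ B * uF V⁻¹, ?_, ?_⟩
  · exact mul_ne_zero (div_ne_zero (mul_ne_zero hd0 hψA) hψB) (uF_ne_zero _)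
  · have h3 : uF (HuE hk em hι σ hσ u) = psi σ hσ N * uF V ^ (p ^ n) := by
      rw [hNu, ← uF_pow, ← uF_mul, HuE, hV]
    rw [hcd] at h1
    have hBp : psi σ hσ B ^ (p ^ n) ≠ 0 := pow_ne_zero _ hψB
    have h4 : uF V ^ (p ^ n) * uF V⁻¹ ^ (p ^ n) = 1 := by
      rw [← mul_pow, uF_mul_inv, one_pow]
    rw [h3, mul_pow, div_pow, mul_pow]
    rw [eq_comm]
    calc psi σ hσ N * uF V ^ p ^ n * (psi (k := k) σ hσ ⟨PowerSeries.C d, C_mem_BD d⟩ ^ p ^ n *
            psi σ hσ A ^ p ^ n / psi σ hσ B ^ p ^ n * uF V⁻¹ ^ p ^ n)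
        = (psi (k := k) σ hσ ⟨PowerSeries.C d, C_mem_BD d⟩ ^ p ^ n * psi σ hσ N *
            psi σ hσ A ^ p ^ n) / psi σ hσ B ^ p ^ n * (uF V ^ (p ^ n) * uF V⁻¹ ^ (p ^ n)) := by ring
      _ = iF σ hσ em hι (z : K) := by
          rw [h4, mul_one, ← h1, mul_div_cancel_right₀ _ hBp]

/-- properties of `H_u`: integral coefficients, constant coefficient `1`, `H' = omega H` -/
theorem HuE_props (u : PC p Kˣ) :
    PowerSeries.constantCoeff ((HuE hk em hι σ hσ u : (PowerSeries F)ˣ) : PowerSeries F) = 1 ∧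
    Bd 1 1 ((HuE hk em hι σ hσ u : (PowerSeries F)ˣ) : PowerSeries F) ∧
    Bd 1 1 (OmE hk em hι σ hσ u) ∧
    PowerSeries.derivative F ((HuE hk em hι σ hσ u : (PowerSeries F)ˣ) : PowerSeries F) =
      OmE hk em hι σ hσ u * ((HuE hk em hι σ hσ u : (PowerSeries F)ˣ) : PowerSeries F) :=
  ⟨U1.const _, int1_iff.mp (U1.int _), int1_iff.mp (dl_int _), dl_spec _⟩

end Complete

end Crest.Agent.R013.HU10_522
end

-- ▼ part R013/HU11_522
section

/-!
# R013 / HU11: equivariance of `nu`, `H_u`, `omega_u` (helper522)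

`tau : C →ₐ[k] C` isometric; `EEmap tau : EE k C →+* EE k C`, `BDmap tau : BD k C →+* BD k C`
(coefficientwise).  If `em' (s z) = EEmap tau (em z)` then `nuE em' (s z) = mapU tau (nuE em z)` and
`HuE em' (s u) = mapU tauF (HuE em u)` for an isometric extension `tauF : F → F` of `tau`.
-/

set_option autoImplicit false
set_option linter.all false
open Filter Topology
open scoped NNReal
open Crest.Agent.R013.Cell_408

namespace Crest.Agent.R013.HU11_522

open Crest.Agent.R013.EE809 Crest.Agent.R013.HU6_522 Crest.Agent.R013.HU3_522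
open Crest.Agent.R013.HU1_522 Crest.Agent.R013.HU7_522 Crest.Agent.R013.PC_588
open Crest.Agent.R013.HU8_522 Crest.Agent.R013.HU4_522 Crest.Agent.R013.HU2_522
open Crest.Agent.R013.HU9_522

variable {k : Type*} [NontriviallyNormedField k] [CompleteSpace k] [IsUltrametricDist k]
variable {C : Type*} [NormedField C] [IsUltrametricDist C] [NormedAlgebra k C]

theorem FinDef.map {ι : Type*} {a : ι → C} (h : FinDef k a) (τ : C →ₐ[k] C) :
    FinDef k fun i => τ (a i) := by
  obtain ⟨L, hL, h1⟩ := h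
  refine ⟨L.map τ, ?_, fun i => ⟨a i, h1 i, rfl⟩⟩
  exact Module.Finite.equiv (IntermediateField.equivMap L τ).toLinearEquiv

section Maps

variable (τ : C →ₐ[k] C) (hτ : ∀ a, ‖τ a‖ = ‖a‖)

theorem continuous_of_norm (hτ : ∀ a, ‖τ a‖ = ‖a‖) : Continuous τ := by
  have h : Isometry τ := AddMonoidHomClass.isometry_of_norm τ hτ
  exact h.continuous

/-- coefficientwise action on two-sided series -/
noncomputable def EEf (a : EE k C) : EE k C :=
  mk' (fun n => τ (a.co n)) (FinDef.map a.fd τ)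
    (by
      obtain ⟨M, hM⟩ := a.bd
      exact ⟨M, fun n => by rw [hτ]; exact hM n⟩)
    (by
      have h := ((continuous_of_norm τ hτ).tendsto 0).comp a.lim
      rw [map_zero] at h
      exact h)

theorem co_EEf (a : EE k C) (n : ℤ) : (EEf τ hτ a).co n = τ (a.co n) := rfl

noncomputable def EEmap : EE k C →+* EE k C where
  toFun := EEf τ hτ
  map_one' := by
    ext n
    rw [co_EEf, co_one]
    split_ifs <;> simp
  map_mul' a b := by
    ext n
    rw [co_EEf, co_mul, co_mul]
    have h := (summable_conv a b n).hasSum.map τ (continuous_of_norm τ hτ)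
    rw [← h.tsum_eq]
    refine tsum_congr fun i => ?_
    simp only [Function.comp_apply]
    rw [map_mul, co_EEf, co_EEf]
  map_zero' := by
    ext n
    rw [co_EEf, co_zero, map_zero]
  map_add' a b := by
    ext n
    rw [co_EEf, co_add, map_add, co_add, co_EEf, co_EEf]

theorem co_EEmap (a : EE k C) (n : ℤ) : (EEmap τ hτ a).co n = τ (a.co n) := rfl





variable [Algebra.IsAlgebraic k C]

/-- coefficientwise action on the functions of the disc -/
noncomputable def BDmap : BD k C →+* BD k C where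
  toFun f := ⟨PowerSeries.map (τ : C →+* C) (f : PowerSeries C), by
    obtain ⟨h1, M, hM⟩ := f.2
    refine ⟨?_, M, fun n => ?_⟩
    · exact FinDef.map h1 τ
    · rw [PowerSeries.coeff_map]
      show ‖τ _‖ ≤ M
      rw [hτ]; exact hM n⟩
  map_one' := Subtype.ext (map_one _)
  map_mul' f g := Subtype.ext
    (map_mul (PowerSeries.map (τ : C →+* C)) (f : PowerSeries C) (g : PowerSeries C))
  map_zero' := Subtype.ext (map_zero _)
  map_add' f g := Subtype.ext
    (map_add (PowerSeries.map (τ : C →+* C)) (f : PowerSeries C) (g : PowerSeries C))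

theorem BDmap_val (f : BD k C) :
    ((BDmap τ hτ f : BD k C) : PowerSeries C) = PowerSeries.map (τ : C →+* C) (f : PowerSeries C) := rfl

theorem BDmap_injective : Function.Injective (BDmap τ hτ) := by
  intro f g h
  apply Subtype.ext
  ext n
  have h1 := congrArg (fun a : BD k C => PowerSeries.coeff n (a : PowerSeries C)) h
  simp only [BDmap_val, PowerSeries.coeff_map] at h1
  exact (τ : C →+* C).injective h1

theorem EEmap_bdE (f : BD k C) : EEmap τ hτ (bdE f) = bdE (BDmap τ hτ f) := by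
  ext n
  rw [co_EEmap, bdE_apply, bdE_apply, co_bdF, co_bdF, BDmap_val]
  split_ifs
  · rw [PowerSeries.coeff_map]; rfl
  · rw [map_zero]

theorem map_rootPoly (S : Multiset C) :
    PowerSeries.map (τ : C →+* C) (rootPoly S : PowerSeries C) = (rootPoly (S.map τ) : PowerSeries C) := by
  have h1 : rootPoly (S.map τ) = (rootPoly S).map (τ : C →+* C) := by
    unfold rootPoly
    rw [Polynomial.map_multiset_prod, Multiset.map_map, Multiset.map_map]
    congr 1
    refine Multiset.map_congr rfl fun t _ => ?_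
    simp
  rw [h1]
  ext n
  rw [PowerSeries.coeff_map, Polynomial.coeff_coe, Polynomial.coeff_coe, Polynomial.coeff_map]

theorem Dec.map {f : PowerSeries C} {c : C} {u : U1 C} {S : Multiset C} (h : Dec k f c u S) :
    Dec k (PowerSeries.map (τ : C →+* C) f) (τ c) (mapU (τ : C →+* C) hτ u) (S.map τ) where
  c0 := (map_ne_zero _).mpr h.c0
  lt t ht := by
    obtain ⟨s, hs, rfl⟩ := Multiset.mem_map.mp ht
    rw [hτ]; exact h.lt s hs
  fin := by
    rw [mapU_val]
    exact FinDef.map h.fin τ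
  eq := by
    rw [h.eq, map_mul, map_mul, map_rootPoly, mapU_val, PowerSeries.map_C]
    rfl

variable [IsAlgClosed C] {K K' : Type*} [Field K] [Field K'] (em : K →+* EE k C)
  (em' : K' →+* EE k C) {z : K} {z' : K'} (hz : em' z' = EEmap τ hτ (em z))

include hz in
theorem Pres.map {c : C} {u : U1 C} {S T : Multiset C} (h : Pres bdE em z c u S T) :
    Pres bdE em' z' (τ c) (mapU (τ : C →+* C) hτ u) (S.map τ) (T.map τ) := by
  obtain ⟨a, b, hab, ha, hb⟩ := h.ex
  refine ⟨BDmap τ hτ a, BDmap τ hτ b, ?_, Dec.map τ hτ ha, ?_⟩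
  · rw [hz, ← EEmap_bdE, ← EEmap_bdE, ← map_mul, hab]
  · have := Dec.map τ hτ hb
    rw [map_one, map_one] at this
    exact this

end Maps

section Equivariance

variable [Algebra.IsAlgebraic k C] [IsAlgClosed C] [CharZero C] (hk : DiscNorm k)
  (τ : C →ₐ[k] C) (hτ : ∀ a, ‖τ a‖ = ‖a‖)
  {K K' : Type*} [Field K] [Field K'] (em : K →+* EE k C) (em' : K' →+* EE k C)
  (hι : ∀ z, ∃ a b : BD k C, b ≠ 0 ∧ em z * bdE b = bdE a)
  (hι' : ∀ z, ∃ a b : BD k C, b ≠ 0 ∧ em' z * bdE b = bdE a)
  (s : Kˣ →* K'ˣ) (hs : ∀ z : Kˣ, em' (s z : K') = EEmap τ hτ (em (z : K)))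

include hs in
theorem nuE_map (z : Kˣ) : nuE hk em' hι' (s z) = mapU (τ : C →+* C) hτ (nuE hk em hι z) := by
  obtain ⟨c, S, T, h⟩ := nu_pres hk bdE bdE_injective em hι z
  exact nu_eq hk bdE bdE_injective em' hι' (Pres.map τ hτ em em' (hs z) h)

variable {F : Type*} [NormedField F] [IsUltrametricDist F] [CharZero F] [CompleteSpace F]
  (σ : C →+* F) (hσ : ∀ a, ‖σ a‖ = ‖a‖) (τF : F →+* F) (hτF : ∀ a, ‖τF a‖ = ‖a‖)
  (hτσ : ∀ a, τF (σ a) = σ (τ a)) {p : ℕ} [Fact p.Prime] (hp : ‖(p : C)‖ < 1)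

include hs hτσ in
omit [CharZero F] [CompleteSpace F] in
theorem nuF_map (z : Kˣ) :
    nuF hk em' hι' σ hσ (s z) = mapU τF hτF (nuF hk em hι σ hσ z) := by
  show mapU σ hσ (nuE hk em' hι' (s z)) = mapU τF hτF (mapU σ hσ (nuE hk em hι z))
  rw [nuE_map hk τ hτ em em' hι hι' s hs]
  apply U1.ext'
  rw [mapU_val, mapU_val, mapU_val, mapU_val]
  ext n
  rw [PowerSeries.coeff_map, PowerSeries.coeff_map, PowerSeries.coeff_map, PowerSeries.coeff_map, hτσ]
  rfl


include hs hτσ hp hτF in
/-- **equivariance of `omega_u`** -/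
theorem OmE_map (u : PC p Kˣ) :
    OmE hk em' hι' σ hσ (PC.map s u) = PowerSeries.map τF (OmE hk em hι σ hσ u) := by
  have hpF : ‖(p : F)‖ < 1 := by rw [norm_p_F σ hσ]; exact hp
  exact Om_map hpF _ s _ τF hτF (nuF_map hk τ hτ em em' hι hι' s hs σ hσ τF hτF hτσ) u

end Equivariance

end Crest.Agent.R013.HU11_522
end

-- ▼ part R013/HU12_522
section

/-!
# R013 / HU12: small logarithmic derivatives do not depend on the end (helper522)

`Small em u` : `∃ M, ∀ n`, every representative `z` of `u_n` has `gn (dlog (em z)) ≤ M |p|^n`.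
* `small_of_exists` : one representative per level suffices;
* `Small.transfer` : independent of the end (for `DivP u`);
* `omE_eq_zero_iff` : on a disc end `omega_u = 0 ↔ Small`;
* `Small.slope` : the slope vanishes.
-/

set_option autoImplicit false
set_option linter.all false
open Filter Topology
open scoped NNReal
open Crest.Agent.R013.Cell_408

namespace Crest.Agent.R013.HU12_522

open Crest.Agent.R013.RR7_948 Crest.Agent.R013.RR8_948 Crest.Agent.R013.RR11_948
open Crest.Agent.R013.RR14_948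
open Crest.Agent.R013.RR13_948
open Crest.Agent.R013.EE809 Crest.Agent.R013.HU6_522 Crest.Agent.R013.HU3_522
open Crest.Agent.R013.HU1_522 Crest.Agent.R013.HU7_522 Crest.Agent.R013.PC_588
open Crest.Agent.R013.HU8_522 Crest.Agent.R013.HU4_522 Crest.Agent.R013.HU2_522
open Crest.Agent.R013.HU9_522

variable {k : Type*} [NontriviallyNormedField k] [CompleteSpace k] [IsUltrametricDist k]
variable {C : Type*} [NormedField C] [IsUltrametricDist C] [NormedAlgebra k C] [CharZero C]
  [Algebra.IsAlgebraic k C] [IsAlgClosed C]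
  {K : Type*} [Field K] {p : ℕ} [Fact p.Prime]

/-- the norm of the logarithmic derivative -/
noncomputable def dn (em : K →+* EE k C) (z : K) : ℝ := gn (th (em z) * em z⁻¹)

/-- small logarithmic derivatives at the end `em` -/
def Small (em : K →+* EE k C) (u : PC p Kˣ) : Prop :=
  ∃ M : ℝ, ∀ n (z : Kˣ), Rep u n z → dn em (z : K) ≤ M * ‖(p : C)‖ ^ n


section

variable (hk : DiscNorm k) (em : K →+* EE k C)

include hk in
theorem dn_le_one {z : K} (hz : z ≠ 0) : dn em z ≤ 1 := by
  have h1 : gn (em z) * gn (em z⁻¹) = 1 := by rw [← gn_mul hk, em_mul_inv em hz, gn_one]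
  unfold dn
  rw [gn_mul hk]
  calc gn (th (em z)) * gn (em z⁻¹) ≤ gn (em z) * gn (em z⁻¹) :=
        mul_le_mul_of_nonneg_right (gn_th_le _) (gn_nonneg _)
    _ = 1 := h1

theorem dlog_mul_pow {z f : K} (hz : z ≠ 0) (hf : f ≠ 0) (m : ℕ) :
    th (em (z * f ^ m)) * em (z * f ^ m)⁻¹ =
      th (em z) * em z⁻¹ + (m : EE k C) * (th (em f) * em f⁻¹) := by
  have hE := em_mul_inv em hf
  have h1 : th (em (f ^ m)) * em (f ^ m)⁻¹ = (m : EE k C) * (th (em f) * em f⁻¹) := by
    induction m with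
    | zero => simp [th_one]
    | succ m ih =>
      have h2 := dlog_mul (em_mul_inv em (pow_ne_zero m hf)) hE
      have h3 : em (f ^ (m + 1)) = em (f ^ m) * em f := by rw [pow_succ, map_mul]
      have h4 : em (f ^ (m + 1))⁻¹ = em (f ^ m)⁻¹ * em f⁻¹ := by
        rw [pow_succ, mul_inv, map_mul]
      rw [h3, h4, h2, ih]
      push_cast
      ring
  have h2 := dlog_mul (em_mul_inv em hz) (em_mul_inv em (pow_ne_zero m hf))
  have h4 : em (z * f ^ m)⁻¹ = em z⁻¹ * em (f ^ m)⁻¹ := by rw [mul_inv, map_mul]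
  rw [h4, map_mul, h2, h1]

include hk in
theorem dn_mul_pow_le {z f : K} (hz : z ≠ 0) (hf : f ≠ 0) (m : ℕ) :
    dn em (z * f ^ m) ≤ max (dn em z) ‖(m : C)‖ := by
  unfold dn
  rw [dlog_mul_pow em hz hf]
  refine (gn_add_le _ _).trans (max_le_max le_rfl ?_)
  exact (gn_natCast_mul_le _ _).trans (mul_le_of_le_one_right (norm_nonneg _) (dn_le_one hk em hf))

include hk in
/-- one representative per level suffices -/
theorem small_of_exists {u : PC p Kˣ}
    (h : ∃ M : ℝ, ∀ n, ∃ z : Kˣ, Rep u n z ∧ dn em (z : K) ≤ M * ‖(p : C)‖ ^ n) : Small em u := by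
  obtain ⟨M, hM⟩ := h
  refine ⟨max M 1, fun n z hz => ?_⟩
  obtain ⟨z', hz', hb⟩ := hM n
  obtain ⟨f, hf⟩ := hz'.eq_iff.1 hz
  have hval : (z : K) = (z' : K) * (f : K) ^ (p ^ n) := by rw [hf]; push_cast; rfl
  rw [hval]
  have hpow : 0 ≤ ‖(p : C)‖ ^ n := by positivity
  refine (dn_mul_pow_le hk em z'.ne_zero f.ne_zero _).trans (max_le ?_ ?_)
  · exact hb.trans (mul_le_mul_of_nonneg_right (le_max_left _ _) hpow)
  · push_cast
    rw [norm_pow]
    calc ‖(p : C)‖ ^ n = 1 * ‖(p : C)‖ ^ n := (one_mul _).symm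
      _ ≤ max M 1 * ‖(p : C)‖ ^ n := mul_le_mul_of_nonneg_right (le_max_right _ _) hpow

theorem Small.exists_pos {u : PC p Kˣ} (h : Small em u) : ∃ M : ℝ, 0 < M ∧ ∀ n (z : Kˣ), Rep u n z →
    dn em (z : K) ≤ M * ‖(p : C)‖ ^ n := by
  obtain ⟨M, hM⟩ := h
  refine ⟨max M 1, by positivity, fun n z hz => (hM n z hz).trans ?_⟩
  exact mul_le_mul_of_nonneg_right (le_max_left _ _) (by positivity)

include hk in
/-- the slope vanishes -/
theorem Small.slope (hp : ‖(p : C)‖ < 1) {u : PC p Kˣ} (h : Small em u) :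
    PC.toPadic (odE em hk) u = 0 := by
  obtain ⟨M, hMpos, hM⟩ := h.exists_pos
  rw [PC.toPadic_eq_zero_iff]
  intro n g hg
  have hlim : Tendsto (fun N : ℕ => M * ‖(p : C)‖ ^ N) atTop (𝓝 0) := by
    have := (tendsto_pow_atTop_nhds_zero_of_lt_one (norm_nonneg (p : C)) hp).const_mul M
    rwa [mul_zero] at this
  have hpos : 0 < ‖(p : C)‖ ^ n := pow_pos norm_p_pos n
  obtain ⟨N, hN1, hN2⟩ := (((Metric.tendsto_nhds.1 hlim) _ hpos).and
    (eventually_ge_atTop n)).exists
  obtain ⟨z, hz⟩ := exists_rep u N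
  have h1 : ‖(od (em (z : K)) : C)‖ ≤ ‖(p : C)‖ ^ n := by
    refine (norm_od_le hk (em_mul_inv em z.ne_zero)).trans ((hM N z hz).trans ?_)
    rw [Real.dist_eq, sub_zero] at hN1
    exact (le_abs_self _).trans hN1.le
  have h2 := dvd_of_norm_le hp n h1
  obtain ⟨y, hy⟩ := (hz.of_le hN2).eq_iff.1 hg
  rw [hy, map_mul, map_pow, toAdd_mul, toAdd_pow, odE_apply]
  refine dvd_add h2 ?_
  rw [nsmul_eq_mul]
  exact dvd_mul_of_dvd_left (by push_cast; exact dvd_rfl) _

end

variable [Algebra C K] [Algebra (RatFunc C) K] [IsScalarTower C (RatFunc C) K]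
  [FiniteDimensional (RatFunc C) K]

/-- **independence of the end** -/
theorem Small.transfer (hk : DiscNorm k) {em1 : K →+* EE k C} (em2 : K →+* EE k C)
    (hc1 : ∀ c : C, em1 (algebraMap C K c) = mono 0 c (EE809.finDef_const c))
    (hc2 : ∀ c : C, em2 (algebraMap C K c) = mono 0 c (EE809.finDef_const c))
    {u : PC p Kˣ} (hu : DivP C u) (h : Small em1 u) : Small em2 u := by
  obtain ⟨c, hcpos, H⟩ := HU5_522.dlog_compare ((wE em1 hk).comap (algebraMap C K))
    (wE em1 hk) (wE em2 hk) (fun a => rfl)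
    (fun a => by rw [Valuation.comap_apply, wE_algebraMap em1 hc1, wE_algebraMap em2 hc2])
    (exists_eps em1 hc1 hk) (exists_eps em2 hc2 hk)
  obtain ⟨M, hMpos, hM⟩ := Small.exists_pos em1 h
  set G1 := gn (th (em1 (xK C K))) with hG1
  set G2 := gn (th (em2 (xK C K))) with hG2
  have hG1pos : 0 < G1 := gn_pos (th_em_x_ne_zero em1 hc1)
  have hG2pos : 0 < G2 := gn_pos (th_em_x_ne_zero em2 hc2)
  have hcpos' : (0 : ℝ) < c := by exact_mod_cast hcpos
  refine small_of_exists hk em2 ⟨G2 / (c * G1) * M, fun N => ?_⟩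
  obtain ⟨z, hz⟩ := exists_rep u N
  have hpn : p ^ N ≠ 0 := pow_ne_zero _ (Fact.out : p.Prime).ne_zero
  obtain ⟨f, hf0, hf⟩ := H (p ^ N) (z : K) hpn z.ne_zero (hu N z hz)
  let z' : Kˣ := z * (Units.mk0 f hf0) ^ (p ^ N)
  have hz' : Rep u N z' := hz.eq_iff.2 ⟨_, rfl⟩
  have hval : (z' : K) = (z : K) * f ^ (p ^ N) := by
    simp only [z']; push_cast; rfl
  refine ⟨z', hz', ?_⟩
  have h1 := hM N z' hz'
  unfold dn at h1 ⊢
  rw [dlog_em em1 hc1, gn_mul hk, ← hG1] at h1
  rw [dlog_em em2 hc2, gn_mul hk, ← hG2]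
  rw [← hval] at hf
  have h3 : (c : ℝ) * gn (em2 (del C K (z' : K) / (z' : K))) ≤
      gn (em1 (del C K (z' : K) / (z' : K))) := by
    have := NNReal.coe_le_coe.mpr hf
    rwa [NNReal.coe_mul, wE_apply, wE_apply] at this
  set a := gn (em1 (del C K (z' : K) / (z' : K)))
  set b := gn (em2 (del C K (z' : K) / (z' : K)))
  have h4 : b ≤ a / c := by rw [le_div_iff₀ hcpos', mul_comm]; exact h3
  have h5 : a ≤ M * ‖(p : C)‖ ^ N / G1 := by rw [le_div_iff₀ hG1pos]; exact h1
  calc b * G2 ≤ (M * ‖(p : C)‖ ^ N / G1 / c) * G2 := by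
        refine mul_le_mul_of_nonneg_right (h4.trans ?_) hG2pos.le
        exact div_le_div_of_nonneg_right h5 hcpos'.le
    _ = G2 / (c * G1) * M * ‖(p : C)‖ ^ N := by field_simp

section Disc

variable (hk : DiscNorm k) (em : K →+* EE k C)
  (hc : ∀ c : C, em (algebraMap C K c) = mono 0 c (EE809.finDef_const c))
  (hι : ∀ z, ∃ a b : BD k C, b ≠ 0 ∧ em z * bdE b = bdE a)
  {F : Type*} [NormedField F] [IsUltrametricDist F] [CharZero F] [CompleteSpace F]
  (σ : C →+* F) (hσ : ∀ a, ‖σ a‖ = ‖a‖) (hp : ‖(p : C)‖ < 1)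

include hp hc in
/-- on a disc end: `omega_u = 0 ↔ Small` -/
theorem omE_eq_zero_iff {u : PC p Kˣ} (hu : DivP C u) :
    OmE hk em hι σ hσ u = 0 ↔ Small em u := by
  constructor
  · intro h
    exact ⟨1, fun n z hz => by rw [one_mul]; exact dlog_le_of_om_zero hk em hc hι σ hσ hp hu h hz⟩
  · intro h
    obtain ⟨M, hMpos, hM⟩ := Small.exists_pos em h
    have hpF : ‖(p : F)‖ < 1 := by rw [norm_p_F σ hσ]; exact hp
    ext l
    have key : ∀ n : ℕ, ‖PowerSeries.coeff l (OmE hk em hι σ hσ u)‖ ≤ max 1 M * ‖(p : C)‖ ^ n := by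
      intro n
      obtain ⟨z, hz⟩ := exists_rep u n
      have hpn : p ^ n ≠ 0 := pow_ne_zero _ (Fact.out : p.Prime).ne_zero
      obtain ⟨c, S, T, hpres⟩ := exists_pres_div hk em hc hι hpn (hu n z hz)
      have h1 := norm_Om_sub_le hpF (nuF hk em hι σ hσ) hz l
      rw [norm_p_F σ hσ] at h1
      have h2 : ‖PowerSeries.coeff l (dl (nuF hk em hι σ hσ z))‖ ≤ max 1 M * ‖(p : C)‖ ^ n := by
        rw [norm_coeff_dl_nuF]
        refine (coeff_dl_le hk em z.ne_zero hpn hpres l).trans (max_le ?_ ?_)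
        · push_cast
          rw [norm_pow]
          calc ‖(p : C)‖ ^ n = 1 * ‖(p : C)‖ ^ n := (one_mul _).symm
            _ ≤ max 1 M * ‖(p : C)‖ ^ n :=
              mul_le_mul_of_nonneg_right (le_max_left _ _) (by positivity)
        · exact (hM n z hz).trans (mul_le_mul_of_nonneg_right (le_max_right _ _) (by positivity))
      have h3 : PowerSeries.coeff l (OmE hk em hι σ hσ u) =
          (PowerSeries.coeff l (Om (nuF hk em hι σ hσ) u) -
            PowerSeries.coeff l (dl (nuF hk em hι σ hσ z))) +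
          PowerSeries.coeff l (dl (nuF hk em hι σ hσ z)) := by
        unfold OmE; ring
      rw [h3]
      refine (IsUltrametricDist.norm_add_le_max _ _).trans (max_le (h1.trans ?_) h2)
      calc ‖(p : C)‖ ^ n = 1 * ‖(p : C)‖ ^ n := (one_mul _).symm
        _ ≤ max 1 M * ‖(p : C)‖ ^ n := mul_le_mul_of_nonneg_right (le_max_left _ _) (by positivity)
    have hlim : Tendsto (fun N : ℕ => max 1 M * ‖(p : C)‖ ^ N) atTop (𝓝 0) := by
      have := (tendsto_pow_atTop_nhds_zero_of_lt_one (norm_nonneg (p : C)) hp).const_mul (max 1 M)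
      rwa [mul_zero] at this
    have h2 : ‖PowerSeries.coeff l (OmE hk em hι σ hσ u)‖ ≤ 0 := ge_of_tendsto' hlim key
    rw [norm_le_zero_iff.mp h2]; simp

end Disc

end Crest.Agent.R013.HU12_522
end

-- ▼ part R013/HU13_522

/-!
# R013 / HU13: disc ends from a map `K → Q ⊇ BD` (e.g. `Q` = Laurent series at a place) (helper522)

`j : BD k C →+* Q` injective, `iota : K →+* Q`, every `iota z` a quotient of elements of `j (BD)`.
* `ofQ : K →+* EE k C`, `ofQ_spec : iota z * j b = j a → ofQ z * bdE b = bdE a`;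
* `nuE_ofQ`, `ofQ_hc`, `ofQ_map` (equivariance).
-/

set_option autoImplicit false
set_option linter.all false
open Filter Topology
open scoped NNReal
open Crest.Agent.R013.Cell_408

namespace Crest.Agent.R013.HU13_522

open Crest.Agent.R013.EE809 Crest.Agent.R013.HU6_522 Crest.Agent.R013.HU3_522
open Crest.Agent.R013.HU1_522 Crest.Agent.R013.HU7_522 Crest.Agent.R013.PC_588
open Crest.Agent.R013.HU8_522 Crest.Agent.R013.HU4_522 Crest.Agent.R013.HU2_522
open Crest.Agent.R013.HU9_522 Crest.Agent.R013.HU10_522 Crest.Agent.R013.HU11_522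

variable {k : Type*} [NontriviallyNormedField k] [CompleteSpace k] [IsUltrametricDist k]
variable {C : Type*} [NormedField C] [IsUltrametricDist C] [NormedAlgebra k C]
  [CharZero C] [Algebra.IsAlgebraic k C] [IsAlgClosed C] [hk : Fact (DiscNorm k)]

variable {Q : Type*} [CommRing Q] (j : BD k C →+* Q) (hj : Function.Injective j)
  {K : Type*} [Field K] (ι : K →+* Q) (hι : ∀ z, ∃ a b : BD k C, b ≠ 0 ∧ ι z * j b = j a)

/-- the disc end defined by `iota` -/
noncomputable def ofQ : K →+* EE k C := toFr j hj ι hι bdE bdE_injective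

theorem ofQ_spec {z : K} {a b : BD k C} (hb : b ≠ 0) (h : ι z * j b = j a) :
    ofQ j hj ι hι z * bdE b = bdE a :=
  toFr_spec j hj ι hι bdE bdE_injective hb h

theorem ofQ_hι : ∀ z, ∃ a b : BD k C, b ≠ 0 ∧ ofQ j hj ι hι z * bdE b = bdE a := fun z => by
  obtain ⟨a, b, hb, h⟩ := hι z
  exact ⟨a, b, hb, ofQ_spec j hj ι hι hb h⟩

theorem ofQ_hc [Algebra C K] (hιc : ∀ c : C, ι (algebraMap C K c) = j ⟨PowerSeries.C c, C_mem_BD c⟩)
    (c : C) : ofQ j hj ι hι (algebraMap C K c) = mono 0 c (EE809.finDef_const c) := by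
  have h := ofQ_spec j hj ι hι (z := algebraMap C K c) (a := ⟨PowerSeries.C c, C_mem_BD c⟩) (b := 1)
    one_ne_zero (by rw [map_one, mul_one, hιc])
  rw [map_one, mul_one, bdE_C] at h
  exact h



section equivariance

variable (τ : C →ₐ[k] C) (hτ : ∀ a, ‖τ a‖ = ‖a‖)
  {Q' : Type*} [CommRing Q'] (j' : BD k C →+* Q') (hj' : Function.Injective j')
  {K' : Type*} [Field K'] (ι' : K' →+* Q') (hι' : ∀ z, ∃ a b : BD k C, b ≠ 0 ∧ ι' z * j' b = j' a)

/-- equivariance: if the relation `iota z * j b = j a` implies `iota' z' * j' (tau b) = j' (tau a)`,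
then `ofQ' z' = EEmap tau (ofQ z)` -/
theorem ofQ_map {z : K} {z' : K'}
    (h : ∀ a b : BD k C, b ≠ 0 → ι z * j b = j a →
      ι' z' * j' (BDmap τ hτ b) = j' (BDmap τ hτ a)) :
    ofQ j' hj' ι' hι' z' = EEmap τ hτ (ofQ j hj ι hι z) := by
  obtain ⟨a, b, hb, hab⟩ := hι z
  have hb' : BDmap τ hτ b ≠ 0 := (map_ne_zero_iff _ (BDmap_injective τ hτ)).mpr hb
  have h1 := ofQ_spec j' hj' ι' hι' hb' (h a b hb hab)
  have h2 := congrArg (EEmap τ hτ) (ofQ_spec j hj ι hι hb hab)
  rw [map_mul, EEmap_bdE, EEmap_bdE] at h2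
  have h3 : (bdE (BDmap τ hτ b) : EE k C) ≠ 0 := (map_ne_zero_iff _ bdE_injective).mpr hb'
  exact mul_right_cancel₀ h3 (h1.trans h2.symm)

/-- the same with a ring homomorphism `Tau : Q → Q'` compatible with `j` and `iota` -/
theorem ofQ_map' (s : K →+* K') (Tau : Q →+* Q') (hTj : ∀ a, Tau (j a) = j' (BDmap τ hτ a))
    (hTι : ∀ z, Tau (ι z) = ι' (s z)) (z : K) :
    ofQ j' hj' ι' hι' (s z) = EEmap τ hτ (ofQ j hj ι hι z) :=
  ofQ_map j hj ι hι τ hτ j' hj' ι' hι' fun a b _ hab => by
    rw [← hTι, ← hTj, ← hTj, ← map_mul, hab]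

end equivariance

end Crest.Agent.R013.HU13_522
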