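import Crest.Agent.R013.CAsm2_588
import Crest.Agent.R013.SD2_940
import Crest.Agent.R013.DEm1_719

-- ▼ part R013/CAsm3_588
section

/-!
# Row 13, part C, assembly 3 (helper588): the place of `Y` and the equivariance of the end `emP`

`Y / KC` finite, unramified, `φ : Y →ₐ[K] AlgebraicClosure K`.
* `phM` : `φ` with values in `maxUnramified k K`; `exists_PH` : 940's `PH`;
* `ru_Y` : the place `P.comap φ` is rational over `C` with uniformiser `x`;
* `rat_of_fixed` : a place fixed by `Gal(Y/Y0)` is rational over `κ` on `Y0`;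
* `emP_gal` : equivariance of the end under `Gal(Y/Y0)`;
* `exists_extend_phi` : extension of embeddings.
-/

set_option autoImplicit false
set_option linter.style.haveILetI false
set_option linter.unusedSectionVars false

namespace Crest.Agent.R013.CAsm3_588

open scoped NNReal
open Module WithZero
open Crest.NumberTheoryR.Sect
open Crest.Agent.R013.RR7_948 Crest.Agent.R013.RR13_948 Crest.Agent.R013.RR18_948
open Crest.Agent.R013.Desc_372 Crest.Agent.R013.Desc_372.CE
open Crest.Agent.R013.Unr10_957 Crest.Agent.R013.Unr7_957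
open Crest.Agent.R013.Small2_940 Crest.Agent.R013.Small4_940
open Crest.Agent.R013.Good5_940 (CbS)
open Crest.Agent.R013.DescC_116 Crest.Agent.R013.CAsm2_588
open Crest.Agent.R013.Puis_702 (mapL coeff_mapL)
open Crest.Agent.R013.SD1_940 Crest.Agent.R013.SD2_940 Crest.Agent.R013.DEm_719
open Crest.Agent.R013.Cell_408 Crest.Agent.R013.EE809 Crest.Agent.R013.HU11_522

/-! ### rationality over `κ` -/

section fixed

variable {κ C Y0 Y : Type*} [Field κ] [Field C] [Field Y0] [Field Y] [Algebra κ C] [Algebra κ Y0]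
  [Algebra C Y] [Algebra Y0 Y] [Algebra κ Y] [IsScalarTower κ C Y] [IsScalarTower κ Y0 Y]
  [CE κ C Y0 Y] [IsGalois κ C]


end fixed

section Y

variable {p : ℕ} [hpF : Fact p.Prime] {k : Type*} [Field k] [CharZero k] [Algebra ℚ_[p] k]
  [FiniteDimensional ℚ_[p] k]
  {K : Type*} [Field K] [Algebra k K]
  [Algebra (RatFunc k) K] [IsScalarTower k (RatFunc k) K] [FiniteDimensional (RatFunc k) K]
  {P : Valuation (AlgebraicClosure K) ℝ≥0} {x : K}
  {C : Type*} [NormedField C] [IsUltrametricDist C] [NormedAlgebra ℚ_[p] C]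
  [Algebra.IsAlgebraic ℚ_[p] C] [IsAlgClosed C] [Algebra k C] [IsScalarTower ℚ_[p] k C]
  {KC : Type*} [Field KC] [Algebra C KC] [Algebra K KC] [Algebra k KC]
  [IsScalarTower k C KC] [IsScalarTower k K KC] [CE k C K KC]
  {Y : Type*} [Field Y] [Algebra C Y] [Algebra K Y] [Algebra k Y] [IsScalarTower k C Y]
  [IsScalarTower k K Y]
  [Algebra KC Y] [IsScalarTower K KC Y] [IsScalarTower C KC Y] [FiniteDimensional KC Y]

variable (k C KC) in
/-- `φ` with values in `maxUnramified k K` -/
noncomputable def phM (h : UnrEv C KC Y) (φ : Y →ₐ[K] AlgebraicClosure K) :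
    Y →+* maxUnramified k K :=
  haveI : Algebra.IsAlgebraic k C := Algebra.IsAlgebraic.tower_top (K := ℚ_[p]) k
  (φ : Y →+* AlgebraicClosure K).codRestrict (maxUnramified k K) (phi_mem k C KC h φ)

theorem coe_phM (h : UnrEv C KC Y) (φ : Y →ₐ[K] AlgebraicClosure K) (z : Y) :
    (phM (p := p) k C KC h φ z : AlgebraicClosure K) = φ z := rfl

theorem phM_K (h : UnrEv C KC Y) (φ : Y →ₐ[K] AlgebraicClosure K) (z : K) :
    phM (p := p) k C KC h φ (algebraMap K Y z) = algebraMap K (maxUnramified k K) z :=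
  Subtype.ext (φ.commutes z)

/-- **the embedding in 940's form** -/
theorem exists_PH (h : UnrEv C KC Y) (φ : Y →ₐ[K] AlgebraicClosure K) :
    ∃ (e : Cb k K ≃+* C) (E0 : IntermediateField K (AlgebraicClosure K)),
      FiniteDimensional K E0 ∧ E0 ≤ maxUnramified k K ∧ PH e E0 (phM (p := p) k C KC h φ) ∧
      ∀ a : ℚ_[p], e (algebraMap k (Cb k K) (algebraMap ℚ_[p] k a)) = algebraMap ℚ_[p] C a := by
  haveI : Algebra.IsAlgebraic k C := Algebra.IsAlgebraic.tower_top (K := ℚ_[p]) k
  obtain ⟨e, he, heC⟩ := exists_e (k := k) (C := C) φ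
  obtain ⟨E0, h1, h2, h3⟩ := exists_E0 k C KC h φ
  refine ⟨e, E0, h1, h2, ⟨fun c => Subtype.ext ?_, fun z => h3 z⟩, fun a => ?_⟩
  · exact heC c
  · rw [he, ← IsScalarTower.algebraMap_apply]

variable {e : Cb k K ≃+* C} {E0 : IntermediateField K (AlgebraicClosure K)}

/-- the place of `Y` is rational over `C`, with uniformiser `x` -/
theorem ru_Y (hP : IsRationalPlace k K (P.comap (algebraMap K (AlgebraicClosure K))))
    (hx : IsUniformizerAt (P.comap (algebraMap K (AlgebraicClosure K))) x)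
    (h : UnrEv C KC Y) (φ : Y →ₐ[K] AlgebraicClosure K) (he : PH e E0 (phM (p := p) k C KC h φ)) :
    RU (algebraMap C Y) (P.comap (φ : Y →+* AlgebraicClosure K)) (algebraMap K Y x) where
  rat a ha := by
    obtain ⟨c, hc⟩ := (ru_M hP hx).rat (phM (p := p) k C KC h φ a) ha
    refine ⟨e c, ?_⟩
    have h1 : iM k K c = phM (p := p) k C KC h φ (algebraMap C Y (e c)) := by
      rw [he.con, RingEquiv.symm_apply_apply]
    rw [h1, ← map_sub] at hc
    exact hc
  lt_one := by
    have h1 := (ru_M hP hx).lt_one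
    rw [← phM_K (p := p) h φ] at h1
    exact h1
  unif a ha := by
    have h1 := (ru_M hP hx).unif (phM (p := p) k C KC h φ a) ha
    rw [← phM_K (p := p) h φ] at h1
    exact h1
  ne := by
    have h1 := (ru_M hP hx).ne
    intro h0
    apply h1
    rw [← phM_K (p := p) h φ, h0, map_zero]

theorem triv_Y (hP : IsRationalPlace k K (P.comap (algebraMap K (AlgebraicClosure K))))
    (h : UnrEv C KC Y) (φ : Y →ₐ[K] AlgebraicClosure K) (he : PH e E0 (phM (p := p) k C KC h φ))
    (c : C) (hc : c ≠ 0) : (P.comap (φ : Y →+* AlgebraicClosure K)) (algebraMap C Y c) = 1 := by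
  have h1 := he.con c
  have h2 : φ (algebraMap C Y c) = ((e.symm c : Cb k K) : AlgebraicClosure K) :=
    congrArg (fun z : maxUnramified k K => (z : AlgebraicClosure K)) h1
  show P (φ (algebraMap C Y c)) = 1
  rw [h2]
  refine triv_const hP (isAlgebraic_iff_isIntegral.mp (mem_algebraicClosure_iff.mp (e.symm c).2)) ?_
  intro h0
  apply hc
  have h3 : e.symm c = 0 := Subtype.ext h0
  simpa using h3

theorem isPlace_Y (hP : IsRationalPlace k K (P.comap (algebraMap K (AlgebraicClosure K))))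
    (hx : IsUniformizerAt (P.comap (algebraMap K (AlgebraicClosure K))) x)
    (h : UnrEv C KC Y) (φ : Y →ₐ[K] AlgebraicClosure K) (he : PH e E0 (phM (p := p) k C KC h φ)) :
    IsPlace C (P.comap (φ : Y →+* AlgebraicClosure K)) := by
  refine ⟨triv_Y hP h φ he, algebraMap K Y x, ?_, (ru_Y hP hx h φ he).lt_one.ne⟩
  exact (Valuation.ne_zero_iff _).mpr (ru_Y hP hx h φ he).ne

/-! ### equivariance -/

section equiv

variable {κ Y0 : Type*} [Field κ] [Field Y0] [Algebra κ C] [Algebra κ Y0]
  [Algebra Y0 Y] [Algebra κ Y] [IsScalarTower κ C Y] [IsScalarTower κ Y0 Y] [CE κ C Y0 Y]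
  [Algebra ℚ_[p] κ] [IsScalarTower ℚ_[p] κ C] [IsGalois κ C]
  {J : maxUnramified k K →+* LaurentSeries (Cb k K)}



variable [CharZero C] [hk : Fact (DiscNorm ℚ_[p])] {N : ℕ}


end equiv

end Y

/-! ### extension of embeddings -/

/-- an embedding extends to an algebraic extension -/
theorem exists_extend_phi {K K' Y Ω : Type*} [Field K] [Field K'] [Field Y] [Field Ω]
    [IsAlgClosed Ω] [Algebra K K'] [Algebra K' Y] [Algebra K Y] [IsScalarTower K K' Y]
    [Algebra.IsAlgebraic K' Y] [Algebra K Ω] (φ' : K' →ₐ[K] Ω) :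
    ∃ φ : Y →ₐ[K] Ω, ∀ z, φ (algebraMap K' Y z) = φ' z := by
  letI : Algebra K' Ω := (φ' : K' →+* Ω).toAlgebra
  haveI : IsScalarTower K K' Ω := IsScalarTower.of_algebraMap_eq fun a => (φ'.commutes a).symm
  let ψ : Y →ₐ[K'] Ω := IsAlgClosed.lift
  exact ⟨ψ.restrictScalars K, fun z => ψ.commutes z⟩

end Crest.Agent.R013.CAsm3_588
end

-- ▼ part R013/CAsm5_588

/-!
# Row 13, part C, assembly 5 (helper588): the place of `Y` as an element of `Pl C Y`

* `exists_plY` : `Q : Pl C Y` equivalent to `P.comap φ`;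
* `hrat_of_fixed` : if `Q` is fixed by `Gal(Y/Y0)`, then `P ∘ φ` is rational over `κ` on `Y0`;
* `v_algebraMap_of_ext` : `Q` lies over the place of `K'` given by the restriction of `φ`.
-/

set_option autoImplicit false
set_option linter.style.haveILetI false
set_option linter.unusedSectionVars false

namespace Crest.Agent.R013.CAsm5_588

open scoped NNReal
open Module WithZero
open Crest.NumberTheoryR.Sect
open Crest.Agent.R013.RR7_948 Crest.Agent.R013.RR13_948 Crest.Agent.R013.RR18_948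
open Crest.Agent.R013.Desc_372 Crest.Agent.R013.Desc_372.CE
open Crest.Agent.R013.Unr10_957 Crest.Agent.R013.Unr7_957
open Crest.Agent.R013.Small2_940 Crest.Agent.R013.Small4_940
open Crest.Agent.R013.DescC_116 Crest.Agent.R013.CAsm2_588 Crest.Agent.R013.CAsm3_588
open Crest.Agent.R013.SD2_940

section ov

variable {C K' Y : Type*} [Field C] [Field K'] [Field Y] [Algebra C K'] [Algebra C Y]
  [Algebra K' Y] [IsScalarTower C K' Y]
  [Algebra (RatFunc C) K'] [IsScalarTower C (RatFunc C) K'] [FiniteDimensional (RatFunc C) K']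
  [Algebra.IsSeparable (RatFunc C) K'] [FiniteDimensional K' Y] [Algebra.IsSeparable K' Y]

/-- `Q` lies over `Q'`, with ramification index `1` -/
theorem v_algebraMap_of_ext {v : Valuation Y ℝ≥0} {Q : Pl C Y} {Q' : Pl C K'}
    (hQ : Q.v.IsEquiv v) (hQ' : Q'.v.IsEquiv (v.comap (algebraMap K' Y))) (hU : UnrEv C K' Y)
    (z : K') : Q.v (algebraMap K' Y z) = Q'.v z := by
  have h1 : Q'.v.IsEquiv (Q.v.comap (algebraMap K' Y)) :=
    hQ'.trans (hQ.comap (algebraMap K' Y)).symm
  have h2 : under K' Q = Q' := under_eq_of_isEquiv h1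
  rw [v_algebraMap, h2, (eR_eq_one_iff_unrEv.mpr hU) Q, pow_one]

end ov

section Y

variable {p : ℕ} [hpF : Fact p.Prime] {k : Type*} [Field k] [CharZero k] [Algebra ℚ_[p] k]
  [FiniteDimensional ℚ_[p] k]
  {K : Type*} [Field K] [Algebra k K]
  [Algebra (RatFunc k) K] [IsScalarTower k (RatFunc k) K] [FiniteDimensional (RatFunc k) K]
  {P : Valuation (AlgebraicClosure K) ℝ≥0} {x : K}
  {C : Type*} [NormedField C] [IsUltrametricDist C] [NormedAlgebra ℚ_[p] C]
  [Algebra.IsAlgebraic ℚ_[p] C] [IsAlgClosed C] [Algebra k C] [IsScalarTower ℚ_[p] k C]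
  {KC : Type*} [Field KC] [Algebra C KC] [Algebra K KC] [Algebra k KC]
  [IsScalarTower k C KC] [IsScalarTower k K KC] [CE k C K KC]
  {Y : Type*} [Field Y] [Algebra C Y] [Algebra K Y] [Algebra k Y] [IsScalarTower k C Y]
  [IsScalarTower k K Y]
  [Algebra KC Y] [IsScalarTower K KC Y] [IsScalarTower C KC Y] [FiniteDimensional KC Y]

include p in
/-- the place of `Y` given by `P` and `φ` -/
theorem exists_plY [Algebra (RatFunc C) Y] [IsScalarTower C (RatFunc C) Y]
    [FiniteDimensional (RatFunc C) Y] [Algebra.IsSeparable (RatFunc C) Y]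
    (hP : IsRationalPlace k K (P.comap (algebraMap K (AlgebraicClosure K))))
    (hx : IsUniformizerAt (P.comap (algebraMap K (AlgebraicClosure K))) x)
    (h : UnrEv C KC Y) (φ : Y →ₐ[K] AlgebraicClosure K) :
    ∃ Q : Pl C Y, Q.v.IsEquiv (P.comap (φ : Y →+* AlgebraicClosure K)) := by
  obtain ⟨e, E0, -, -, he, -⟩ := exists_PH (p := p) (k := k) (KC := KC) h φ
  exact IsPlace.exists_pl (isPlace_Y hP hx h φ he)

variable {κ Y0 : Type*} [Field κ] [Field Y0] [Algebra κ C] [Algebra κ Y0]
  [Algebra Y0 Y] [Algebra κ Y] [IsScalarTower κ C Y] [IsScalarTower κ Y0 Y] [CE κ C Y0 Y]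
  [IsGalois κ C]


end Y

end Crest.Agent.R013.CAsm5_588
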