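import Mathlib
import Crest.Agent.R013.LiftA_168
import Crest.Agent.R013.Hens3_899
import Crest.Agent.R013.SSDefs_332
import Crest.Agent.R013.CLiftN2_903
import Crest.Agent.R013.CntF7_398
import Crest.Agent.R013.GR3_921

-- ▼ part R013/CB1a_903
section

/-!
# C-B1, part a: counting the norms over a norm in a finite Galois extension

`L/K` finite Galois, `v` a non-trivial real valued norm of `K`: at most `[L : K]` extensions, and at
most `[L : K]/2` if `K` is not dense in `L` (for instance if `y ∈ L`, `y^N = h ∈ K` and `h` is not an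
`N`-th power times a `1`-unit at `v`).
-/

set_option autoImplicit false
set_option linter.unusedSectionVars false

namespace Crest.Agent.R013.CB1_903

open scoped NNReal

variable {K L : Type*} [Field K] [Field L] [Algebra K L]

/-- The extensions of `v`. -/
def Ext (L : Type*) [Field L] [Algebra K L] (v : Valuation K ℝ≥0) : Type _ :=
  {w : Valuation L ℝ≥0 // ∀ c, w (algebraMap K L c) = v c}

/-- Equality of two extensions. -/
theorem eq_of_le_one_iff {v : Valuation K ℝ≥0} (hv : ∃ c, v c ≠ 0 ∧ v c ≠ 1)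
    {w w' : Valuation L ℝ≥0} (hw : ∀ c, w (algebraMap K L c) = v c)
    (hw' : ∀ c, w' (algebraMap K L c) = v c) (h : ∀ x, w x ≤ 1 ↔ w' x ≤ 1) : w = w' := by
  refine LiftA_168.eq_of_isEquiv hv hw hw' ?_
  have h1 : w.IsEquiv w' := (Valuation.isEquiv_iff_val_le_one).2 (fun {x} => h x)
  intro x y
  rw [LiftA_168.abv_apply, LiftA_168.abv_apply, LiftA_168.abv_apply, LiftA_168.abv_apply]
  rw [NNReal.coe_le_coe, NNReal.coe_le_coe]
  exact h1 x y

/-- Galois action on the extensions. -/
noncomputable instance (v : Valuation K ℝ≥0) : MulAction (L ≃ₐ[K] L) (Ext L v) where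
  smul σ w := ⟨w.1.comap (σ.symm : L →+* L), fun c => by
    change w.1 (σ.symm (algebraMap K L c)) = v c
    rw [AlgEquiv.commutes]
    exact w.2 c⟩
  one_smul w := Subtype.ext (Valuation.ext fun x => rfl)
  mul_smul σ τ w := Subtype.ext (Valuation.ext fun x => rfl)

theorem smul_apply {v : Valuation K ℝ≥0} (σ : L ≃ₐ[K] L) (w : Ext L v) (x : L) :
    (σ • w).1 x = w.1 (σ.symm x) := rfl

section Galois

variable [FiniteDimensional K L] [IsGalois K L] {v : Valuation K ℝ≥0}
  (hv : ∃ c, v c ≠ 0 ∧ v c ≠ 1)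

include hv

/-- transitivity -/
theorem exists_smul_eq (w w' : Ext L v) : ∃ σ : L ≃ₐ[K] L, σ • w = w' := by
  obtain ⟨σ, hσ⟩ := Hens_899.exists_conj (K := K) w.1 w'.1 (fun a => by rw [w.2, w'.2])
  refine ⟨σ⁻¹, Subtype.ext ?_⟩
  refine eq_of_le_one_iff hv (σ⁻¹ • w).2 w'.2 fun x => ?_
  rw [smul_apply]
  exact hσ x

theorem card_mul_card (w : Ext L v) :
    Nat.card (Ext L v) * Nat.card (MulAction.stabilizer (L ≃ₐ[K] L) w) = Module.finrank K L := by
  classical
  have h1 : MulAction.orbit (L ≃ₐ[K] L) w = Set.univ :=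
    Set.eq_univ_of_forall fun w' => by
      obtain ⟨σ, hσ⟩ := exists_smul_eq hv w w'
      exact ⟨σ, hσ⟩
  have h2 := Nat.card_congr (MulAction.orbitProdStabilizerEquivGroup (L ≃ₐ[K] L) w)
  rw [Nat.card_prod, h1, Nat.card_univ, IsGalois.card_aut_eq_finrank] at h2
  exact h2

theorem finite_ext : Finite (Ext L v) := by
  rcases isEmpty_or_nonempty (Ext L v) with h | ⟨⟨w⟩⟩
  · infer_instance
  · have h1 := card_mul_card hv w
    refine Nat.finite_of_card_ne_zero fun h0 => ?_
    rw [h0, zero_mul] at h1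
    exact (Module.finrank_pos (R := K) (M := L)).ne h1

theorem card_le : Nat.card (Ext L v) ≤ Module.finrank K L := by
  rcases isEmpty_or_nonempty (Ext L v) with h | ⟨⟨w⟩⟩
  · rw [Nat.card_of_isEmpty]; exact Nat.zero_le _
  · rw [← card_mul_card hv w]
    refine Nat.le_mul_of_pos_right _ (Nat.card_pos)

/-- If the stabilizer is non-trivial, there are at most `n/2` extensions. -/
theorem two_mul_card_le_of (h : ∀ w : Ext L v, MulAction.stabilizer (L ≃ₐ[K] L) w ≠ ⊥) :
    2 * Nat.card (Ext L v) ≤ Module.finrank K L := by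
  rcases isEmpty_or_nonempty (Ext L v) with h' | ⟨⟨w⟩⟩
  · rw [Nat.card_of_isEmpty, mul_zero]; exact Nat.zero_le _
  · rw [← card_mul_card hv w, mul_comm]
    refine Nat.mul_le_mul_left _ ?_
    have h1 : 1 < Nat.card (MulAction.stabilizer (L ≃ₐ[K] L) w) := by
      rw [Subgroup.one_lt_card_iff_ne_bot]
      exact h w
    exact h1

/-- Trivial stabilizer: `K` is dense in `L` for `w`. -/
theorem dense_of_stabilizer (w : Ext L v)
    (h : MulAction.stabilizer (L ≃ₐ[K] L) w = ⊥) (y : L) (ε : ℝ≥0) (hε : 0 < ε) :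
    ∃ g : K, w.1 (algebraMap K L g - y) < ε := by
  classical
  have hinj : Function.Injective fun σ : L ≃ₐ[K] L => (σ • w).1 := by
    intro σ τ hστ
    have h1 : σ • w = τ • w := Subtype.ext hστ
    have h2 : τ⁻¹ * σ ∈ MulAction.stabilizer (L ≃ₐ[K] L) w := by
      rw [MulAction.mem_stabilizer_iff, mul_smul, h1, inv_smul_smul]
    rw [h, Subgroup.mem_bot] at h2
    exact (inv_mul_eq_one.1 h2).symm
  obtain ⟨z, hz⟩ := LiftA_168.weak_approx (k := K) hv (fun σ : L ≃ₐ[K] L => (σ • w).1) hinj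
    (fun σ c => (σ • w).2 c) (fun σ => if σ = 1 then y else 0) ε hε
  have htr : algebraMap K L (Algebra.trace K L z) = ∑ σ : L ≃ₐ[K] L, σ z :=
    trace_eq_sum_automorphisms z
  refine ⟨Algebra.trace K L z, ?_⟩
  rw [htr, ← Finset.add_sum_erase _ _ (Finset.mem_univ (1 : L ≃ₐ[K] L))]
  have e1 : (1 : L ≃ₐ[K] L) z + ∑ σ ∈ Finset.univ.erase (1 : L ≃ₐ[K] L), σ z - y =
      (z - y) + ∑ σ ∈ Finset.univ.erase (1 : L ≃ₐ[K] L), σ z := by
    rw [AlgEquiv.one_apply]; ring
  rw [e1]
  have h1 : w.1 (z - y) < ε := by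
    have := hz 1
    rw [if_pos rfl] at this
    exact this
  refine Valuation.map_add_lt _ h1 ?_
  refine Valuation.map_sum_lt _ hε.ne' fun σ hσ => ?_
  have h2 := hz σ⁻¹
  have h3 : σ⁻¹ ≠ 1 := fun h0 => Finset.ne_of_mem_erase hσ (inv_eq_one.1 h0)
  rw [if_neg h3, sub_zero] at h2
  exact h2

/-- `y^N = h ∈ K`, `h` not an `N`-th power times a `1`-unit at `v`: at most `n/2` extensions. -/
theorem two_mul_card_le (N : ℕ) (hf : K) (h0 : hf ≠ 0) (y : L) (hy : y ^ N = algebraMap K L hf)
    (hno : ∀ g : K, g ≠ 0 → ¬ v (hf / g ^ N - 1) < 1) :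
    2 * Nat.card (Ext L v) ≤ Module.finrank K L := by
  refine two_mul_card_le_of hv fun w hst => ?_
  rcases Nat.eq_zero_or_pos N with rfl | hN
  · refine hno 1 one_ne_zero ?_
    have : hf = 1 := by
      rw [pow_zero] at hy
      exact ((map_eq_one_iff (algebraMap K L) (algebraMap K L).injective).1 hy.symm)
    rw [this, one_pow, div_one, sub_self, map_zero]
    exact one_pos
  have hy0 : y ≠ 0 := by
    rintro rfl
    rw [zero_pow hN.ne'] at hy
    exact h0 ((map_eq_zero _).1 hy.symm)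
  have hwy : 0 < w.1 y := zero_lt_iff.2 ((Valuation.ne_zero_iff _).2 hy0)
  obtain ⟨g, hg⟩ := dense_of_stabilizer hv w hst y (w.1 y) hwy
  have hg0 : g ≠ 0 := by
    rintro rfl
    rw [map_zero, zero_sub, Valuation.map_neg] at hg
    exact lt_irrefl _ hg
  have hg1 : algebraMap K L g ≠ 0 := (map_ne_zero _).2 hg0
  refine hno g hg0 ?_
  rw [← w.2]
  have e : algebraMap K L (hf / g ^ N - 1) = (y / algebraMap K L g) ^ N - 1 := by
    rw [map_sub, map_div₀, ← hy, map_pow, map_one, div_pow]
  rw [e]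
  set x : L := y / algebraMap K L g with hx
  have h1 : w.1 (algebraMap K L g) = w.1 y := by
    have : algebraMap K L g = y + (algebraMap K L g - y) := by ring
    rw [this]
    exact Valuation.map_add_eq_of_lt_left _ hg
  have h2 : w.1 (x - 1) < 1 := by
    have : x - 1 = -(algebraMap K L g - y) / algebraMap K L g := by
      rw [hx]; field_simp; ring
    rw [this, map_div₀, Valuation.map_neg, h1]
    exact (div_lt_one₀ hwy).2 hg
  have hx1 : w.1 x ≤ 1 := by
    have : x = (x - 1) + 1 := by ring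
    rw [this]
    exact (w.1.map_add _ _).trans (max_le h2.le (by rw [map_one]))
  clear_value x
  clear e hN hy hno
  induction N with
  | zero => simp
  | succ n ih =>
    have : x ^ (n + 1) - 1 = (x ^ n - 1) * x + (x - 1) := by ring
    rw [this]
    refine Valuation.map_add_lt _ ?_ h2
    rw [map_mul]
    calc w.1 (x ^ n - 1) * w.1 x ≤ w.1 (x ^ n - 1) * 1 := mul_le_mul_right hx1 _
      _ < 1 := by rw [mul_one]; exact ih

end Galois

end Crest.Agent.R013.CB1_903
end

-- ▼ part R013/CB1b_903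
section

/-!
# C-B1, part b: the graph of a semistable structure; counting
-/

set_option autoImplicit false

namespace Crest.Agent.R013.CB1_903

open scoped NNReal
open Crest.Agent.R013.RR7_948 Crest.Agent.R013.Red332 Crest.Agent.R013.SSK_332

section Count

variable {V Ed VL EdL : Type*} [Fintype V] [Fintype Ed] [Fintype VL] [Fintype EdL]

/-- two vertices which are not totally split force a loop -/
theorem card_le_card (n : ℕ) (f : VL → V) (hE : Fintype.card EdL = n * Fintype.card Ed)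
    (hf : ∀ v, Nat.card {w // f w = v} ≤ n) (v1 v2 : V) (h12 : v1 ≠ v2)
    (h1 : 2 * Nat.card {w // f w = v1} ≤ n) (h2 : 2 * Nat.card {w // f w = v2} ≤ n)
    (hconn : Fintype.card V ≤ Fintype.card Ed + 1) : Fintype.card VL ≤ Fintype.card EdL := by
  classical
  have e1 : Fintype.card VL = ∑ v, Nat.card {w // f w = v} := by
    rw [← Fintype.card_congr (Equiv.sigmaFiberEquiv f), Fintype.card_sigma]
    refine Finset.sum_congr rfl fun v _ => ?_
    rw [Nat.card_eq_fintype_card]
  have e2 : ∑ v, Nat.card {w // f w = v} = Nat.card {w // f w = v1} + (Nat.card {w // f w = v2} +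
      ∑ v ∈ (Finset.univ.erase v1).erase v2, Nat.card {w // f w = v}) := by
    rw [Finset.add_sum_erase _ (fun v => Nat.card {w // f w = v})
      (Finset.mem_erase.2 ⟨h12.symm, Finset.mem_univ _⟩),
      Finset.add_sum_erase _ (fun v => Nat.card {w // f w = v}) (Finset.mem_univ _)]
  have e3 : ∑ v ∈ (Finset.univ.erase v1).erase v2, Nat.card {w // f w = v} ≤
      (Fintype.card V - 2) * n := by
    refine (Finset.sum_le_card_nsmul _ _ n fun v _ => hf v).trans ?_
    rw [smul_eq_mul, Finset.card_erase_of_mem (Finset.mem_erase.2 ⟨h12.symm, Finset.mem_univ _⟩),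
      Finset.card_erase_of_mem (Finset.mem_univ _), Finset.card_univ, Nat.sub_sub]
  have h3 : 2 ≤ Fintype.card V := by
    have := Fintype.one_lt_card_iff.2 ⟨v1, v2, h12⟩
    omega
  obtain ⟨m, hm⟩ := Nat.exists_eq_add_of_le h3
  rw [hm] at e3 hconn
  have e4 : 2 + m - 2 = m := by omega
  rw [e4] at e3
  rw [e1, e2, hE]
  have e5 : n * (m + 1) ≤ n * Fintype.card Ed := Nat.mul_le_mul_left _ (by omega)
  have e6 : n * (m + 1) = m * n + n := by ring
  omega

end Count

section Graph

variable {k C K : Type*} [NontriviallyNormedField k] [CompleteSpace k]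
    [NormedField C] [IsUltrametricDist C] [NormedAlgebra k C] [Algebra.IsAlgebraic k C]
    [Field K] [Algebra C K] (S : SSK k C K)

/-- number of vertices -/
noncomputable def nV : ℕ := @Fintype.card S.V S.fV

/-- number of edges -/
noncomputable def nE : ℕ := @Fintype.card S.Ed S.fEd

/-- a connected graph has at most `#Ed + 1` vertices -/
theorem nV_le (h : S.Conn) : nV S ≤ nE S + 1 := by
  classical
  let i1 := S.fV
  let i2 := S.fEd
  let G : SimpleGraph S.V := SimpleGraph.fromRel S.Adj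
  have hne : Nonempty S.V := h.1
  have hG : G.Connected := by
    refine { preconnected := fun v w => ?_, nonempty := hne }
    have := h.2 v w
    induction this with
    | refl => exact SimpleGraph.Reachable.refl _
    | tail _ hbc ih =>
      rename_i b c _
      by_cases hbc' : b = c
      · rw [← hbc']; exact ih
      · refine ih.trans (SimpleGraph.Adj.reachable ?_)
        rw [SimpleGraph.fromRel_adj]
        exact ⟨hbc', Or.inl hbc⟩
  have h1 := hG.card_vert_le_card_edgeSet_add_one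
  have h2 : Nat.card G.edgeSet ≤ Nat.card S.Ed := by
    let φ : S.Ed → Sym2 S.V := fun e => s((S.e0 e).1, (S.e1 e).1)
    have h3 : G.edgeSet ⊆ Set.range φ := by
      intro a ha
      induction a using Sym2.ind with
      | _ a b =>
        rw [SimpleGraph.mem_edgeSet, SimpleGraph.fromRel_adj] at ha
        rcases ha with ⟨-, ⟨e, h4⟩ | ⟨e, h4⟩⟩
        · rcases h4 with ⟨h5, h6⟩ | ⟨h5, h6⟩
          · exact ⟨e, by simp [φ, h5, h6]⟩
          · exact ⟨e, by simp [φ, h5, h6, Sym2.eq_swap]⟩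
        · rcases h4 with ⟨h5, h6⟩ | ⟨h5, h6⟩
          · exact ⟨e, by simp [φ, h5, h6, Sym2.eq_swap]⟩
          · exact ⟨e, by simp [φ, h5, h6]⟩
    calc Nat.card G.edgeSet ≤ Nat.card (Set.range φ) := Nat.card_mono (Set.finite_range φ) h3
      _ ≤ Nat.card S.Ed := by
          exact Nat.card_le_card_of_surjective _ Set.rangeFactorization_surjective
  rw [Nat.card_eq_fintype_card (α := S.V)] at h1
  rw [Nat.card_eq_fintype_card (α := S.Ed)] at h2
  unfold nV nE
  omega

end Graph

end Crest.Agent.R013.CB1_903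
end

-- ▼ part R013/CB1c_903
section

/-!
# C-B1, part c: an unramified class which is non-trivial at two vertices of positive genus
-/

set_option autoImplicit false
set_option linter.unusedSectionVars false

namespace Crest.Agent.R013.CB1_903

open scoped NNReal
open WithZero Polynomial
open Crest.Agent.R013.RR7_948 Crest.Agent.R013.RR9_948 Crest.Agent.R013.RR11_948
open Crest.Agent.R013.RR12_948 Crest.Agent.R013.PicD_398
open Crest.Agent.R013.Red332 Crest.Agent.R013.SSK_332
open Crest.Agent.R013.CLiftN_903 Crest.Agent.R013.GR3_921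

section Class

variable {F κ : Type*} [Field F] [Field κ] [Algebra F κ]

/-- a root of unity is a constant -/
theorem exists_const_of_pow_eq_one [IsAlgClosed F] (M : ℕ) (hM : M ≠ 0) (a : κ) (ha : a ^ M = 1) :
    ∃ c : F, algebraMap F κ c = a := by
  have hs : (X ^ M - 1 : F[X]).Splits := IsAlgClosed.splits _
  have hne : (X ^ M - 1 : F[X]) ≠ 0 := X_pow_sub_C_ne_zero (Nat.pos_of_ne_zero hM) 1
  have h1 : ((X ^ M - 1 : F[X]).map (algebraMap F κ)).IsRoot a := by
    rw [IsRoot, Polynomial.map_sub, Polynomial.map_pow, map_X, Polynomial.map_one, eval_sub,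
      eval_pow, eval_X, eval_one, ha, sub_self]
  have h2 : a ∈ ((X ^ M - 1 : F[X]).map (algebraMap F κ)).roots := by
    rw [mem_roots (Polynomial.map_ne_zero hne)]
    exact h1
  rw [hs.roots_map, Multiset.mem_map] at h2
  obtain ⟨c, -, hc⟩ := h2
  exact ⟨c, hc⟩

/-- the class of the count, in the form used below -/
theorem exists_class (p : ℕ) [Fact p.Prime] [Algebra (ZMod p) F] [Algebra.IsAlgebraic (ZMod p) F]
    [IsAlgClosed F] {g : ℕ} (hgen : HasGen F κ g) (hg : 1 ≤ g) :
    ∃ (N : ℕ) (u : κ), 2 ≤ N ∧ N.Coprime p ∧ u ≠ 0 ∧ (∀ x : Pl F κ, ∃ m : ℤ, x.v u = exp (N * m)) ∧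
      ∀ M : ℕ, M ≠ 0 → ∀ a : κ, u ^ M ≠ a ^ (N * M) := by
  obtain ⟨i, j, f, s, hgg⟩ := hgen
  let _ := i
  have _ := j
  have _ := f
  have _ := s
  obtain ⟨N, E, u, hN2, hNp, hu, hdiv, hex, -⟩ := CntF7_398.count p (FF := F) (C := κ)
    (by rw [hgg]; exact hg)
  have hN0 : N ≠ 0 := by omega
  refine ⟨N, u, hN2, hNp, hu, fun x => ⟨-E x, ?_⟩, fun M hM a ha => ?_⟩
  · rw [v_eq hu x, hdiv]
    congr 1
    rw [Finsupp.smul_apply, nsmul_eq_mul]
    ring
  · have ha0 : a ≠ 0 := by
      rintro rfl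
      rw [zero_pow (Nat.mul_ne_zero hN0 hM)] at ha
      exact pow_ne_zero _ hu ha
    have h1 : (u / a ^ N) ^ M = 1 := by
      rw [div_pow, ← pow_mul, ha, div_self (pow_ne_zero _ ha0)]
    obtain ⟨c, hc⟩ := exists_const_of_pow_eq_one (F := F) M hM _ h1
    have hc0 : c ≠ 0 := by
      rintro rfl
      rw [map_zero] at hc
      exact div_ne_zero hu (pow_ne_zero _ ha0) hc.symm
    obtain ⟨d, hd⟩ := IsAlgClosed.exists_pow_nat_eq c (Nat.pos_of_ne_zero hN0)
    have hd0 : d ≠ 0 := by
      rintro rfl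
      rw [zero_pow hN0] at hd
      exact hc0 hd.symm
    have h2 : u = (algebraMap F κ d * a) ^ N := by
      rw [mul_pow, ← map_pow, hd, hc, div_mul_cancel₀ _ (pow_ne_zero _ ha0)]
    set b : κ := algebraMap F κ d * a with hb
    have hb0 : b ≠ 0 := mul_ne_zero ((_root_.map_ne_zero _).2 hd0) ha0
    have h3 : E = divf (k := F) b := by
      ext P
      have h4 := v_eq (k := F) hu P
      rw [hdiv, h2, map_pow, v_eq (k := F) hb0 P, ← exp_nsmul, exp_inj, Finsupp.smul_apply,
        nsmul_eq_mul, nsmul_eq_mul] at h4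
      have h5 : (N : ℤ) ≠ 0 := by exact_mod_cast hN0
      have h6 : (N : ℤ) * (E P - divf b P) = 0 := by linarith
      rcases mul_eq_zero.1 h6 with h7 | h7
      · exact absurd h7 h5
      · linarith
    have h4 : cls (1 • E) = 0 := by
      rw [one_smul, cls_eq_zero_iff]
      exact ⟨b, hb0, h3.symm⟩
    have h5 := hex 1 h4
    have h6 := Nat.le_of_dvd one_pos h5
    omega

end Class

section Structure

variable {k C K : Type*} [NontriviallyNormedField k] [CompleteSpace k]
  [NormedField C] [IsUltrametricDist C] [NormedAlgebra k C] [Algebra.IsAlgebraic k C]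
  [Field K] [Algebra C K] (S : SSK k C K)

theorem exists_transc (v : S.V) :
    ∃ T : K, (S.nm v).v T ≤ 1 ∧ Transcendental (Ct C) (red (S.nm v) T) := by
  obtain ⟨i, j, f, s⟩ := S.ff v
  obtain ⟨T, hT, hT'⟩ := red_surj (S.nm v) (algebraMap (RatFunc (Ct C)) (kap (S.nm v)) RatFunc.X)
  refine ⟨T, hT, ?_⟩
  rw [hT']
  exact RR20_948.transcendental_xK

include k in
theorem exists_small : ∃ π : C, π ≠ 0 ∧ ‖π‖ < 1 := by
  obtain ⟨π, h1, h2⟩ := NormedField.exists_norm_lt_one k
  refine ⟨algebraMap k C π, ?_, ?_⟩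
  · rw [Ne, map_eq_zero]
    exact norm_pos_iff.1 h1
  · rw [norm_algebraMap']; exact h2

section FF

variable [IsAlgClosed C] [Algebra (RatFunc C) K]
  [IsScalarTower C (RatFunc C) K] [FiniteDimensional (RatFunc C) K]
  [Algebra.IsSeparable (RatFunc C) K]

/-- **C-LIFTN** for a semistable structure -/
theorem cliftn_ssk (N : ℕ) (LC : LiftC C K N) (u : ∀ v, kap (S.nm v)) (hu : ∀ v, u v ≠ 0)
    (hdiv : ∀ v, ∀ x : Pl (Ct C) (kap (S.nm v)), ∃ m : ℤ, x.v (u v) = exp (N * m)) :
    ∃ h : K, h ≠ 0 ∧ (∀ P : Pl C K, ∃ m : ℤ, P.v h = exp (N * m)) ∧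
      (∀ v x, (N : ℤ) ∣ Red332.od (S.nm v) x h) ∧
      ∀ v, ∃ g : K, g ≠ 0 ∧ (S.nm v).v (h / g ^ N) = 1 ∧ red (S.nm v) (h / g ^ N) = u v := by
  have hfin : Finite S.V := by
    have := S.fV
    exact Finite.of_fintype S.V
  choose T hT htr using exists_transc S
  obtain ⟨h, h0, h1, h2⟩ := cliftn (fun v => S.nm v) S.nm_inj (exists_small (k := k)) T hT htr N LC u
    hu (fun v Q hQ => by
      obtain ⟨i, j, f, s⟩ := S.ff v
      exact hdiv_of_pl N (u v) (hu v) (hdiv v) Q hQ)
  refine ⟨h, h0, h1, fun v x => ?_, h2⟩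
  obtain ⟨g, hg0, hg1, hg2⟩ := h2 v
  obtain ⟨m, hm⟩ := hdiv v x
  have e : h = (h / g ^ N) * g ^ N := by rw [div_mul_cancel₀ _ (pow_ne_zero _ hg0)]
  have hne : h / g ^ N ≠ 0 := div_ne_zero h0 (pow_ne_zero _ hg0)
  rw [e, Red332.od_mul x hne (pow_ne_zero _ hg0), Red332.od_pow x hg0,
    Red332.od_of_one x hg1, hg2, hm, log_exp]
  exact ⟨-m + Red332.od (S.nm v) x g, by ring⟩

/-- a class which is non-trivial at two vertices of positive genus -/
theorem exists_two_class (p : ℕ) [Fact p.Prime] [Algebra (ZMod p) (Ct C)]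
    [Algebra.IsAlgebraic (ZMod p) (Ct C)] [IsAlgClosed (Ct C)]
    (LC : ∀ N : ℕ, N.Coprime p → LiftC C K N) (v1 v2 : S.V) (h12 : v1 ≠ v2) {g1 g2 : ℕ}
    (hg1 : HasGen (Ct C) (kap (S.nm v1)) g1) (h1 : 1 ≤ g1)
    (hg2 : HasGen (Ct C) (kap (S.nm v2)) g2) (h2 : 1 ≤ g2) :
    ∃ (N : ℕ) (h : K), 2 ≤ N ∧ N.Coprime p ∧ h ≠ 0 ∧
      (∀ P : Pl C K, ∃ m : ℤ, P.v h = exp (N * m)) ∧
      (∀ v x, (N : ℤ) ∣ Red332.od (S.nm v) x h) ∧
      (∀ g : K, g ≠ 0 → ¬ (S.nm v1).v (h / g ^ N - 1) < 1) ∧
      (∀ g : K, g ≠ 0 → ¬ (S.nm v2).v (h / g ^ N - 1) < 1) := by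
  classical
  obtain ⟨N1, u1, hN1, hp1, hu1, hd1, hn1⟩ := exists_class p hg1 h1
  obtain ⟨N2, u2, hN2, hp2, hu2, hd2, hn2⟩ := exists_class p hg2 h2
  set u : ∀ v, kap (S.nm v) :=
    Function.update (Function.update (fun _ => 1) v2 (u2 ^ N1)) v1 (u1 ^ N2) with hu
  have e1 : u v1 = u1 ^ N2 := by rw [hu, Function.update_self]
  have e2 : u v2 = u2 ^ N1 := by
    rw [hu, Function.update_of_ne h12.symm, Function.update_self]
  have e3 : ∀ v, v ≠ v1 → v ≠ v2 → u v = 1 := fun v h h' => by
    rw [hu, Function.update_of_ne h, Function.update_of_ne h']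
  have hu0 : ∀ v, u v ≠ 0 := by
    intro v
    by_cases h : v = v1
    · subst h; rw [e1]; exact pow_ne_zero _ hu1
    · by_cases h' : v = v2
      · subst h'; rw [e2]; exact pow_ne_zero _ hu2
      · rw [e3 v h h']; exact one_ne_zero
  obtain ⟨h, h0, hP, hod, hv⟩ := cliftn_ssk S (N1 * N2) (LC _ (Nat.Coprime.mul_left hp1 hp2)) u hu0
    (by
      intro v x
      by_cases h : v = v1
      · subst h
        obtain ⟨m, hm⟩ := hd1 x
        refine ⟨m, ?_⟩
        rw [e1, map_pow, hm, ← exp_nsmul]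
        congr 1
        rw [nsmul_eq_mul]; push_cast; ring
      · by_cases h' : v = v2
        · subst h'
          obtain ⟨m, hm⟩ := hd2 x
          refine ⟨m, ?_⟩
          rw [e2, map_pow, hm, ← exp_nsmul]
          congr 1
          rw [nsmul_eq_mul]; push_cast; ring
        · refine ⟨0, ?_⟩
          rw [e3 v h h', map_one, mul_zero, exp_zero])
  have key : ∀ (v : S.V) (M M' : ℕ) (a : kap (S.nm v)), N1 * N2 = M * M' → M' ≠ 0 →
      u v = a ^ M' → (∀ b : kap (S.nm v), a ^ M' ≠ b ^ (M * M')) →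
      ∀ g : K, g ≠ 0 → ¬ (S.nm v).v (h / g ^ (N1 * N2) - 1) < 1 := by
    intro v M M' a hMM hM' hua hno g hg0 hlt
    obtain ⟨g', hg'0, hg'1, hg'2⟩ := hv v
    have hN : N1 * N2 ≠ 0 := Nat.mul_ne_zero (by omega) (by omega)
    have hone : (S.nm v).v (h / g ^ (N1 * N2)) = 1 := by
      have : h / g ^ (N1 * N2) = 1 + (h / g ^ (N1 * N2) - 1) := by ring
      rw [this, Valuation.map_add_eq_of_lt_left _ (by rw [map_one]; exact hlt), map_one]
    have hratio : (S.nm v).v (g / g') = 1 := by
      have h3 : (g / g') ^ (N1 * N2) = (h / g' ^ (N1 * N2)) / (h / g ^ (N1 * N2)) := by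
        rw [div_pow]; field_simp
      have h4 : (S.nm v).v (g / g') ^ (N1 * N2) = 1 := by
        rw [← map_pow, h3, map_div₀, hg'1, hone, div_one]
      exact (pow_eq_one_iff_of_nonneg zero_le hN).1 h4
    have hred : red (S.nm v) (h / g ^ (N1 * N2)) = 1 := by
      rw [← red_one (S.nm v), red_eq_iff (S.nm v) hone.le (by rw [map_one])]
      exact hlt
    have h5 : h / g' ^ (N1 * N2) = (h / g ^ (N1 * N2)) * (g / g') ^ (N1 * N2) := by
      rw [div_pow]; field_simp
    have h6 : u v = red (S.nm v) (g / g') ^ (N1 * N2) := by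
      rw [← hg'2, h5, red_mul (S.nm v) hone.le (by rw [map_pow, hratio, one_pow]), hred, one_mul,
        red_pow (S.nm v) hratio.le]
    rw [hMM, hua] at h6
    exact hno _ h6
  refine ⟨N1 * N2, h, ?_, Nat.Coprime.mul_left hp1 hp2, h0, hP, hod, ?_, ?_⟩
  · calc 2 ≤ N1 := hN1
      _ ≤ N1 * N2 := Nat.le_mul_of_pos_right _ (by omega)
  · exact key v1 N1 N2 u1 rfl (by omega) e1 (fun b => hn1 N2 (by omega) b)
  · exact key v2 N2 N1 u2 (mul_comm _ _) (by omega) e2 (fun b => hn2 N1 (by omega) b)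

end FF

/-- the graph of a cover split over all cells, with two non-split vertices, has a loop -/
theorem b1_of_cover {L : Type*} [Field L] [Algebra C L] [Algebra K L] [FiniteDimensional K L]
    [IsGalois K L] (SL : SSK k C L) (f : SL.V → S.V)
    (hf : ∀ w c, (SL.nm w).v (algebraMap K L c) = (S.nm (f w)).v c)
    (hE : nE SL = Module.finrank K L * nE S) (hconn : S.Conn)
    (N : ℕ) (h : K) (h0 : h ≠ 0) (y : L) (hy : y ^ N = algebraMap K L h)
    (v1 v2 : S.V) (h12 : v1 ≠ v2) (h1 : ∀ g : K, g ≠ 0 → ¬ (S.nm v1).v (h / g ^ N - 1) < 1)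
    (h2 : ∀ g : K, g ≠ 0 → ¬ (S.nm v2).v (h / g ^ N - 1) < 1) : nV SL ≤ nE SL := by
  classical
  let i1 := S.fV
  let i2 := S.fEd
  let i3 := SL.fV
  let i4 := SL.fEd
  have hnt : ∀ v : S.V, ∃ c, (S.nm v).v c ≠ 0 ∧ (S.nm v).v c ≠ 1 := by
    intro v
    obtain ⟨π, hπ0, hπ1⟩ := exists_small (k := k) (C := C)
    refine ⟨algebraMap C K π, ?_, ?_⟩
    · rw [(S.nm v).hC]
      exact nnnorm_ne_zero_iff.2 hπ0
    · rw [(S.nm v).hC]
      intro h
      exact hπ1.ne (by rw [← coe_nnnorm, h]; rfl)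
  -- fibres inject into the extensions
  have hinj : ∀ v : S.V, Nat.card {w // f w = v} ≤ Nat.card (Ext L (S.nm v).v) := by
    intro v
    have := finite_ext (L := L) (hnt v)
    refine Nat.card_le_card_of_injective
      (fun w : {w // f w = v} => (⟨(SL.nm w.1).v, fun c => by rw [hf, w.2]⟩ : Ext L (S.nm v).v)) ?_
    intro w w' hww
    have h3 : (SL.nm w.1).v = (SL.nm w'.1).v := congrArg Subtype.val hww
    exact Subtype.ext (SL.nm_inj (Nm.ext' fun a => by rw [h3]))
  exact card_le_card (Module.finrank K L) f hE (fun v => (hinj v).trans (card_le (hnt v))) v1 v2 h12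
    ((Nat.mul_le_mul_left 2 (hinj v1)).trans (two_mul_card_le (hnt v1) N h h0 y hy h1))
    ((Nat.mul_le_mul_left 2 (hinj v2)).trans (two_mul_card_le (hnt v2) N h h0 y hy h2))
    (nV_le S hconn)

end Structure

end Crest.Agent.R013.CB1_903
end

-- ▼ part R013/CB1d_903

/-!
# C-B1, part d: Kummer covers with divisible divisor are unramified
-/

set_option autoImplicit false
set_option linter.unusedSectionVars false

namespace Crest.Agent.R013.CB1_903

open scoped NNReal
open WithZero Polynomial IntermediateField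
open Crest.Agent.R013.RR7_948 Crest.Agent.R013.RR9_948 Crest.Agent.R013.RR11_948
open Crest.Agent.R013.RR12_948 Crest.Agent.R013.PicD_398
open Crest.Agent.R013.RR18_948 Crest.Agent.R013.GR2_921

/-- `L/K` is unramified at every place -/
def UnrPl (C K L : Type*) [Field C] [Field K] [Field L] [Algebra C L] [Algebra K L] : Prop :=
  ∀ Q : Pl C L, ∃ f : K, Q.v (algebraMap K L f) = exp (-1)

section Tower

variable {C K L M : Type*} [Field C] [Field K] [Field L] [Field M] [Algebra C K] [Algebra C L]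
  [Algebra C M] [Algebra K L] [Algebra K M] [Algebra L M] [IsScalarTower C K L]
  [IsScalarTower C L M] [IsScalarTower K L M]

theorem UnrPl.refl : UnrPl C K K := fun Q => by
  obtain ⟨f, hf⟩ := Q.surj (exp (-1))
  exact ⟨f, hf⟩

omit [Algebra C K] [IsScalarTower C K L] in
theorem UnrPl.trans (h1 : UnrPl C K L) (h2 : UnrPl C L M) : UnrPl C K M := by
  intro R
  obtain ⟨f, hf⟩ := h2 R
  have hconst : ∀ c : C, c ≠ 0 → (R.v.comap (algebraMap L M)) (algebraMap C L c) = 1 := by
    intro c hc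
    rw [Valuation.comap_apply, ← IsScalarTower.algebraMap_apply]
    exact R.const c hc
  have hsurj : Function.Surjective (R.v.comap (algebraMap L M)) := by
    intro y
    by_cases hy : y = 0
    · exact ⟨0, by rw [map_zero, hy]⟩
    · refine ⟨f ^ (-(log y)), ?_⟩
      rw [Valuation.comap_apply, map_zpow₀, map_zpow₀, hf, ← exp_zsmul, smul_eq_mul, neg_mul_neg,
        mul_one, exp_log hy]
  obtain ⟨g, hg⟩ := h1 ⟨R.v.comap (algebraMap L M), hconst, hsurj⟩
  refine ⟨g, ?_⟩
  rw [IsScalarTower.algebraMap_apply K L M]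
  exact hg

end Tower

section Kummer

variable {C K L : Type*} [Field C] [IsAlgClosed C] [CharZero C] [Field K] [Algebra C K]
  [Algebra (RatFunc C) K] [IsScalarTower C (RatFunc C) K] [FiniteDimensional (RatFunc C) K]
  [Algebra.IsSeparable (RatFunc C) K]
  [Field L] [Algebra C L] [Algebra K L] [IsScalarTower C K L] [FiniteDimensional K L]

theorem lt_one_iff' {x : ℤᵐ⁰} : x < 1 ↔ x ≤ exp (-1) := RR2_948.lt_one_iff x

/-- a root of a `1`-unit is approximable by the base -/
theorem approx (Q : Pl C L) (N : ℕ) (hN : N ≠ 0) (y : L) (a : K)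
    (hy : y ^ N = algebraMap K L a) (h1 : Q.v (y - 1) < 1) (n : ℕ) :
    ∃ g : K, Q.v (y - algebraMap K L g) ≤ exp (-((n : ℤ) + 1)) := by
  have hNv : Q.v (N : L) = 1 := by
    have := Q.const (N : C) (Nat.cast_ne_zero.2 hN)
    rwa [map_natCast] at this
  have hN0 : (N : K) ≠ 0 := by
    intro h
    rw [← map_natCast (algebraMap K L), h, map_zero, map_zero] at hNv
    exact zero_ne_one hNv
  induction n with
  | zero =>
    refine ⟨1, ?_⟩
    rw [map_one, Nat.cast_zero, zero_add]
    exact lt_one_iff'.1 h1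
  | succ n ih =>
    obtain ⟨g, hg⟩ := ih
    have hg1 : Q.v (y - algebraMap K L g) < 1 :=
      lt_one_iff'.2 (hg.trans (exp_le_exp.2 (by omega)))
    have hgy : Q.v (algebraMap K L g - 1) < 1 := by
      have : algebraMap K L g - 1 = (y - 1) - (y - algebraMap K L g) := by ring
      rw [this]
      exact (Valuation.map_sub _ _ _).trans_lt (max_lt h1 hg1)
    refine ⟨g + (a - g ^ N) / N, ?_⟩
    set G := algebraMap K L g with hG
    set S : L := ∑ i ∈ Finset.range N, y ^ i * G ^ (N - 1 - i) with hS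
    have h2 : y ^ N - G ^ N = (y - G) * S := by
      rw [hS, mul_comm]
      exact (Commute.all y G).geom_sum₂_mul N |>.symm
    have h3 : y - algebraMap K L (g + (a - g ^ N) / N) = (y - G) * ((N - S) / N) := by
      rw [map_add, map_div₀, map_sub, ← hy, map_pow, map_natCast, ← hG, h2]
      have : (N : L) ≠ 0 := by
        rw [← map_natCast (algebraMap K L)]
        exact (_root_.map_ne_zero _).2 hN0
      field_simp
      ring
    have h4 : Q.v ((N - S) / N : L) < 1 := by
      rw [map_div₀, hNv, div_one]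
      have h5 : (N : L) - S = ∑ i ∈ Finset.range N, (1 - y ^ i * G ^ (N - 1 - i)) := by
        rw [Finset.sum_sub_distrib, Finset.sum_const, Finset.card_range, nsmul_eq_mul, mul_one]
      rw [h5]
      refine Valuation.map_sum_lt _ one_ne_zero fun i _ => ?_
      have aux : ∀ (x : L) (m : ℕ), Q.v (x - 1) < 1 → Q.v (x ^ m - 1) < 1 := by
        intro x m hx
        rw [← mul_geom_sum, map_mul]
        have hx1 : Q.v x ≤ 1 := by
          have : x = (x - 1) + 1 := by ring
          rw [this]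
          exact (Valuation.map_add _ _ _).trans (max_le hx.le (by rw [map_one]))
        refine mul_lt_one_of_lt_of_le hx (Valuation.map_sum_le _ fun j _ => ?_)
        rw [map_pow]
        exact pow_le_one' hx1 j
      have e : (1 : L) - y ^ i * G ^ (N - 1 - i) =
          -((y ^ i - 1) * G ^ (N - 1 - i)) - (G ^ (N - 1 - i) - 1) := by ring
      rw [e]
      refine (Valuation.map_sub _ _ _).trans_lt (max_lt ?_ (aux _ _ hgy))
      rw [Valuation.map_neg, map_mul]
      refine mul_lt_one_of_lt_of_le (aux _ _ h1) ?_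
      have : G ^ (N - 1 - i) = (G ^ (N - 1 - i) - 1) + 1 := by ring
      rw [this]
      exact (Valuation.map_add _ _ _).trans (max_le (aux _ _ hgy).le (by rw [map_one]))
    rw [h3, map_mul]
    calc Q.v (y - G) * Q.v ((N - S) / N : L) ≤ exp (-((n : ℤ) + 1)) * exp (-1) :=
          mul_le_mul' hg (lt_one_iff'.1 h4)
      _ = exp (-(((n + 1 : ℕ) : ℤ) + 1)) := by
        rw [← exp_add, exp_inj]; push_cast; ring

/-- the subalgebra of elements which are approximable by the base -/
def apprx (Q : Pl C L) : Subalgebra K L where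
  carrier := {z | ∀ n : ℕ, ∃ g : K, Q.v (z - algebraMap K L g) ≤ exp (-(n : ℤ))}
  algebraMap_mem' r n := ⟨r, by rw [sub_self, map_zero]; exact zero_le⟩
  add_mem' := by
    intro a b ha hb n
    obtain ⟨g, hg⟩ := ha n
    obtain ⟨g', hg'⟩ := hb n
    refine ⟨g + g', ?_⟩
    rw [map_add, add_sub_add_comm]
    exact (Valuation.map_add _ _ _).trans (max_le hg hg')
  mul_mem' := by
    intro a b ha hb n
    -- bounds
    have bd : ∀ x : L, ∃ m : ℕ, Q.v x ≤ exp (m : ℤ) := by
      intro x
      by_cases hx : Q.v x = 0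
      · exact ⟨0, by rw [hx]; exact zero_le⟩
      · refine ⟨(log (Q.v x)).toNat, ?_⟩
        rw [← exp_log hx, exp_le_exp, log_exp]
        exact Int.self_le_toNat _
    obtain ⟨m, hm⟩ := bd a
    obtain ⟨m', hm'⟩ := bd b
    obtain ⟨g, hg⟩ := ha (n + m')
    obtain ⟨g', hg'⟩ := hb (n + m)
    refine ⟨g * g', ?_⟩
    have e : a * b - algebraMap K L (g * g') =
        a * (b - algebraMap K L g') + (a - algebraMap K L g) * algebraMap K L g' := by
      rw [map_mul]; ring
    have h3 : Q.v (algebraMap K L g') ≤ exp (m' : ℤ) := by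
      have : algebraMap K L g' = b - (b - algebraMap K L g') := by ring
      rw [this]
      exact (Valuation.map_sub _ _ _).trans (max_le hm' (hg'.trans (exp_le_exp.2 (by omega))))
    rw [e]
    refine (Valuation.map_add _ _ _).trans (max_le ?_ ?_)
    · rw [map_mul]
      refine (mul_le_mul' hm hg').trans ?_
      rw [← exp_add, exp_le_exp]
      push_cast; omega
    · rw [map_mul]
      refine (mul_le_mul' hg h3).trans ?_
      rw [← exp_add, exp_le_exp]
      push_cast; omega

/-- **Kummer covers with divisible divisor are unramified.** -/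
theorem unrPl_of_kummer (N : ℕ) (hN : N ≠ 0) (h : K)
    (hdiv : ∀ P : Pl C K, ∃ m : ℤ, P.v h = exp (N * m)) (y : L) (hy : y ^ N = algebraMap K L h)
    (htop : K⟮y⟯ = ⊤) : UnrPl C K L := by
  intro Q
  obtain ⟨m, hm⟩ := hdiv (under K Q)
  obtain ⟨t, ht0, ht⟩ := exists_v_eq (under K Q) m
  have hu : (under K Q).v (h / t ^ N) = 1 := by
    rw [map_div₀, map_pow, hm, ht, ← exp_nsmul, nsmul_eq_mul, div_self exp_ne_zero]
  obtain ⟨c, hc⟩ := exists_const (under K Q) hu.le
  have hc0 : c ≠ 0 := by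
    rintro rfl
    rw [map_zero, sub_zero, hu] at hc
    exact lt_irrefl _ hc
  obtain ⟨d, hd⟩ := IsAlgClosed.exists_pow_nat_eq c (Nat.pos_of_ne_zero hN)
  have hd0 : d ≠ 0 := by
    rintro rfl
    rw [zero_pow hN] at hd
    exact hc0 hd.symm
  -- `y1 ^ N = h / (t d)^N` is a one-unit
  set s : K := t * algebraMap C K d with hs
  have hs0 : s ≠ 0 := mul_ne_zero ht0 ((_root_.map_ne_zero _).2 hd0)
  have h1 : Q.v ((y / algebraMap K L s) ^ N - 1) < 1 := by
    have e : (y / algebraMap K L s) ^ N - 1 = algebraMap K L (h / s ^ N - 1) := by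
      rw [div_pow, hy, ← map_pow, ← map_div₀, map_sub, map_one]
    have e2 : h / s ^ N - 1 = (h / t ^ N - algebraMap C K c) / algebraMap C K c := by
      rw [hs, mul_pow, ← map_pow, hd]
      have : algebraMap C K c ≠ 0 := (_root_.map_ne_zero _).2 hc0
      field_simp
    rw [e, ← under_lt_one_iff, e2, map_div₀, (under K Q).const c hc0, div_one]
    exact hc
  -- one of the roots of unity
  obtain ⟨ζ, hζ, hζ1⟩ : ∃ ζ : C, ζ ^ N = 1 ∧
      Q.v (y / algebraMap K L s - algebraMap C L ζ) < 1 := by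
    have hsp : (X ^ N - 1 : C[X]).Splits := IsAlgClosed.splits _
    have hmon : (X ^ N - 1 : C[X]).Monic := monic_X_pow_sub_C 1 hN
    have e := hsp.eq_prod_roots
    rw [hmon.leadingCoeff, map_one, one_mul] at e
    have e2 : (y / algebraMap K L s) ^ N - 1 =
        ((X ^ N - 1 : C[X]).roots.map fun ζ => y / algebraMap K L s - algebraMap C L ζ).prod := by
      have e3 := congrArg (aeval (y / algebraMap K L s)) e
      rw [map_multiset_prod, Multiset.map_map] at e3
      simp only [map_sub, map_pow, aeval_X, map_one, Function.comp_def, aeval_C] at e3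
      exact e3
    by_contra hcon
    push Not at hcon
    rw [e2, map_multiset_prod, Multiset.map_map] at h1
    refine absurd h1 (not_lt.2 ?_)
    apply Multiset.one_le_prod_of_one_le
    intro x hx
    rw [Multiset.mem_map] at hx
    obtain ⟨ζ, hζ, rfl⟩ := hx
    refine hcon ζ ?_
    have h5 := isRoot_of_mem_roots hζ
    rw [IsRoot, eval_sub, eval_pow, eval_X, eval_one, sub_eq_zero] at h5
    exact h5
  have hζ0 : ζ ≠ 0 := by
    rintro rfl
    rw [zero_pow hN] at hζ
    exact zero_ne_one hζ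
  set s' : K := s * algebraMap C K ζ with hs'
  have hs'0 : s' ≠ 0 := mul_ne_zero hs0 ((_root_.map_ne_zero _).2 hζ0)
  have hz : (y / algebraMap K L s') ^ N = algebraMap K L (h / s' ^ N) := by
    rw [div_pow, hy, ← map_pow, ← map_div₀]
  have hz1 : Q.v (y / algebraMap K L s' - 1) < 1 := by
    have hζL : algebraMap C L ζ ≠ 0 := (_root_.map_ne_zero _).2 hζ0
    have e : y / algebraMap K L s' - 1 =
        (y / algebraMap K L s - algebraMap C L ζ) / algebraMap C L ζ := by
      rw [hs', map_mul, ← IsScalarTower.algebraMap_apply, ← div_div, sub_div, div_self hζL]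
    rw [e, map_div₀, Q.const ζ hζ0, div_one]
    exact hζ1
  have hmem : y ∈ apprx (K := K) Q := by
    have h2 : y / algebraMap K L s' ∈ apprx (K := K) Q := by
      intro n
      obtain ⟨g, hg⟩ := approx Q N hN _ _ hz hz1 n
      exact ⟨g, hg.trans (exp_le_exp.2 (by omega))⟩
    have e : y = (y / algebraMap K L s') * algebraMap K L s' := by
      rw [div_mul_cancel₀ _ ((_root_.map_ne_zero _).2 hs'0)]
    rw [e]
    exact mul_mem h2 ((apprx (K := K) Q).algebraMap_mem s')
  have hall : ∀ z : L, z ∈ apprx (K := K) Q := by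
    intro z
    have h2 : z ∈ K⟮y⟯ := by rw [htop]; exact IntermediateField.mem_top
    have h3 : K⟮y⟯.toSubalgebra = Algebra.adjoin K {y} :=
      IntermediateField.adjoin_simple_toSubalgebra_of_isAlgebraic (Algebra.IsAlgebraic.isAlgebraic y)
    have h4 : z ∈ Algebra.adjoin K {y} := by
      rw [← h3]; exact h2
    exact (Algebra.adjoin_le (S := apprx (K := K) Q) (by
      rintro _ rfl; exact hmem)) h4
  obtain ⟨z, hz⟩ := Q.surj (exp (-1))
  obtain ⟨g, hg⟩ := hall z 2
  refine ⟨g, ?_⟩
  have e : algebraMap K L g = z - (z - algebraMap K L g) := by ring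
  rw [e, Valuation.map_sub_eq_of_lt_left, hz]
  rw [hz]
  exact hg.trans_lt (exp_lt_exp.2 (by norm_num))

end Kummer

section Exists

universe u

theorem splitting_top {C K L : Type*} [Field C] [IsAlgClosed C] [Field K] [Field L]
    [Algebra C L] [Algebra K L] (N : ℕ) (hN : N ≠ 0) (h : K) (h0 : h ≠ 0)
    [hs : IsSplittingField K L (X ^ N - Polynomial.C h : K[X])] (hC : ∀ c : C, ∃ a : K,
      algebraMap K L a = algebraMap C L c) :
    ∃ y : L, y ^ N = algebraMap K L h ∧ K⟮y⟯ = ⊤ := by
  have hne : (X ^ N - Polynomial.C h : K[X]) ≠ 0 := X_pow_sub_C_ne_zero (Nat.pos_of_ne_zero hN) h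
  have hspl : ((X ^ N - Polynomial.C h : K[X]).map (algebraMap K L)).Splits :=
    IsSplittingField.splits L _
  have hroot : ∀ z : L, z ∈ (X ^ N - Polynomial.C h : K[X]).rootSet L →
      z ^ N = algebraMap K L h := by
    intro z hz
    rw [mem_rootSet_of_ne hne, map_sub, map_pow, aeval_X, aeval_C, sub_eq_zero] at hz
    exact hz
  obtain ⟨y, hy⟩ : ∃ y : L, y ^ N = algebraMap K L h := by
    have hdeg : ((X ^ N - Polynomial.C h : K[X]).map (algebraMap K L)).degree ≠ 0 := by
      rw [degree_map, degree_X_pow_sub_C (Nat.pos_of_ne_zero hN)]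
      exact_mod_cast hN
    obtain ⟨y, hy⟩ := hspl.exists_eval_eq_zero hdeg
    refine ⟨y, ?_⟩
    rw [eval_map_algebraMap, map_sub, map_pow, aeval_X, aeval_C, sub_eq_zero] at hy
    exact hy
  have hy0 : y ≠ 0 := by
    rintro rfl
    rw [zero_pow hN] at hy
    exact h0 ((_root_.map_eq_zero _).1 hy.symm)
  refine ⟨y, hy, ?_⟩
  have h1 : (⊤ : Subalgebra K L) ≤ K⟮y⟯.toSubalgebra := by
    rw [← IsSplittingField.adjoin_rootSet L (X ^ N - Polynomial.C h : K[X])]
    refine Algebra.adjoin_le fun z hz => ?_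
    have h2 : (z / y) ^ N = 1 := by
      rw [div_pow, hroot z hz, hy, div_self ((_root_.map_ne_zero _).2 h0)]
    obtain ⟨c, hc⟩ := exists_const_of_pow_eq_one (F := C) N hN _ h2
    obtain ⟨a, ha⟩ := hC c
    have h3 : z = algebraMap K L a * y := by rw [ha, hc, div_mul_cancel₀ _ hy0]
    rw [h3]
    exact mul_mem (K⟮y⟯.algebraMap_mem a) (IntermediateField.mem_adjoin_simple_self K y)
  exact IntermediateField.toSubalgebra_injective (le_antisymm le_top h1)

/-- the Kummer cover `K(h^(1/N))` -/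
theorem exists_kummer {C : Type*} {K : Type u} [Field C] [IsAlgClosed C] [CharZero C] [Field K]
    [Algebra C K] (N : ℕ) (hN : N ≠ 0) (h : K) (h0 : h ≠ 0) :
    ∃ (L : Type u) (_ : Field L) (_ : Algebra C L) (_ : Algebra K L) (_ : IsScalarTower C K L)
      (_ : FiniteDimensional K L) (_ : IsGalois K L) (y : L), y ^ N = algebraMap K L h ∧
        K⟮y⟯ = ⊤ := by
  have : CharZero K := charZero_of_injective_algebraMap (algebraMap C K).injective
  have hN0 : (N : K) ≠ 0 := Nat.cast_ne_zero.2 hN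
  have hsep : (X ^ N - Polynomial.C h : K[X]).Separable := separable_X_pow_sub_C h hN0 h0
  have hgal : IsGalois K (X ^ N - Polynomial.C h : K[X]).SplittingField :=
    IsGalois.of_separable_splitting_field hsep
  obtain ⟨y, hy, htop⟩ := splitting_top (C := C)
    (L := (X ^ N - Polynomial.C h : K[X]).SplittingField) N hN h h0
    (fun c => ⟨algebraMap C K c, (IsScalarTower.algebraMap_apply _ _ _ _).symm⟩)
  exact ⟨(X ^ N - Polynomial.C h : K[X]).SplittingField, inferInstance, inferInstance,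
    inferInstance, inferInstance, inferInstance, hgal, y, hy, htop⟩

end Exists

end Crest.Agent.R013.CB1_903
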