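import Mathlib
import Crest.Agent.R013.CE5_280

-- ▼ part R013/CE6_280
section

/-!
# R013 / CE6: derivations of `Ω` and of `L = K_Ω` (helper280)
-/

set_option autoImplicit false
set_option linter.all false

namespace Crest.Agent.R013.CE6_280

open WithZero Module TensorProduct nonZeroDivisors
open Crest.Agent.R013.RR7_948 Crest.Agent.R013.RR8_948 Crest.Agent.R013.RR9_948
open Crest.Agent.R013.RR11_948 Crest.Agent.R013.RR13_948 Crest.Agent.R013.CE1_280
open Crest.Agent.R013.CE2_280 Crest.Agent.R013.CE3_280 Crest.Agent.R013.CE5_280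

section Extend

variable {R A B : Type*} [CommRing R] [CommRing A] [CommRing B] [Algebra R A] [Algebra R B]
  [Algebra A B] [IsScalarTower R A B]

/-- extension of derivations along formally smooth maps -/
theorem exists_extend [hsm : Algebra.FormallySmooth A B] (δ : Derivation R A B) :
    ∃ D : Derivation R B B, ∀ a, D (algebraMap A B a) = δ a := by
  let τ : A →+* TrivSqZeroExt B B :=
    { toFun := fun a => TrivSqZeroExt.inl (algebraMap A B a) + TrivSqZeroExt.inr (δ a)
      map_one' := by ext <;> simp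
      map_zero' := by ext <;> simp
      map_add' := by intro a b; ext <;> simp
      map_mul' := by
        intro a b
        ext
        · simp
        · simp only [map_mul, TrivSqZeroExt.snd_add, TrivSqZeroExt.snd_inl,
            TrivSqZeroExt.snd_inr, zero_add, TrivSqZeroExt.snd_mul, TrivSqZeroExt.fst_add,
            TrivSqZeroExt.fst_inl, TrivSqZeroExt.fst_inr, add_zero, Derivation.leibniz,
            Algebra.smul_def, smul_eq_mul, op_smul_eq_smul]
          simp only [Algebra.algebraMap_self, RingHom.id_apply] }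
  letI algτ : Algebra A (TrivSqZeroExt B B) := τ.toAlgebra
  let g : TrivSqZeroExt B B →ₐ[A] B :=
    { toRingHom := (TrivSqZeroExt.fstHom B B B : TrivSqZeroExt B B →+* B)
      commutes' := by
        intro a
        show TrivSqZeroExt.fst (τ a) = _
        simp [τ] }
  have hg : Function.Surjective g := fun b => ⟨TrivSqZeroExt.inl b,
    TrivSqZeroExt.fst_inl B b⟩
  have hk : IsNilpotent (RingHom.ker g) := by
    refine ⟨2, ?_⟩
    rw [Ideal.zero_eq_bot, eq_bot_iff]
    refine (le_of_eq (pow_two (RingHom.ker g))).trans ?_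
    rw [Ideal.mul_le]
    intro a ha b hb
    have ha' : TrivSqZeroExt.fst a = 0 := ha
    have hb' : TrivSqZeroExt.fst b = 0 := hb
    rw [Ideal.mem_bot]
    ext
    · simp [ha']
    · simp [ha', hb']
  let l : B →ₐ[A] TrivSqZeroExt B B :=
    Algebra.FormallySmooth.liftOfSurjective (AlgHom.id A B) g hg hk
  have hl : ∀ b, TrivSqZeroExt.fst (l b) = b := fun b =>
    Algebra.FormallySmooth.liftOfSurjective_apply (AlgHom.id A B) g hg hk b
  have hla : ∀ a, l (algebraMap A B a) = τ a := fun a => l.commutes a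
  refine ⟨Derivation.mk'
    { toFun := fun b => TrivSqZeroExt.snd (l b)
      map_add' := by intro a b; simp
      map_smul' := by
        intro r b
        have h1 : l (algebraMap R B r) = TrivSqZeroExt.inl (algebraMap R B r) := by
          rw [IsScalarTower.algebraMap_apply R A B, hla]
          ext <;> simp [τ]
        rw [Algebra.smul_def, map_mul, h1]
        simp [Algebra.smul_def] } ?_, ?_⟩
  · intro a b
    show TrivSqZeroExt.snd (l (a * b)) = a • TrivSqZeroExt.snd (l b) + b • TrivSqZeroExt.snd (l a)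
    rw [map_mul, TrivSqZeroExt.snd_mul, hl, hl, op_smul_eq_smul]
  · intro a
    show TrivSqZeroExt.snd (l (algebraMap A B a)) = _
    rw [hla]
    simp [τ]

end Extend

section OnOmega

variable {M Ω : Type*} [Field M] [Field Ω] [Algebra M Ω] [CharZero M]

/-- a transcendental element is moved by some derivation -/
theorem exists_derivation {z : Ω} (hz : Transcendental M z) :
    ∃ d : Derivation M Ω Ω, d z = 1 := by
  classical
  have h1 : AlgebraicIndepOn M id ({z} : Set Ω) :=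
    (algebraicIndependent_singleton_iff (x := fun i : ({z} : Set Ω) => (id (i : Ω)))
      (⟨z, rfl⟩ : ({z} : Set Ω))).mpr hz
  obtain ⟨s, hs, hs'⟩ := exists_isTranscendenceBasis_superset h1
  let A := MvPolynomial s M
  letI algA : Algebra A Ω := (MvPolynomial.aeval (R := M) ((↑) : s → Ω)).toRingHom.toAlgebra
  haveI : IsScalarTower M A Ω := IsScalarTower.of_algebraMap_eq fun c => by
    show _ = MvPolynomial.aeval (R := M) ((↑) : s → Ω) (MvPolynomial.C c)
    simp
  have hinj : Function.Injective (algebraMap A Ω) := hs'.1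
  haveI : FaithfulSMul A Ω := (faithfulSMul_iff_algebraMap_injective A Ω).mpr hinj
  letI algF : Algebra (FractionRing A) Ω := FractionRing.liftAlgebra A Ω
  haveI : IsScalarTower A (FractionRing A) Ω := FractionRing.isScalarTower_liftAlgebra A Ω
  haveI : Algebra.FormallyEtale A (FractionRing A) := Algebra.FormallyEtale.of_isLocalization A⁰
  haveI halg0 : Algebra.IsAlgebraic A Ω := by
    have h2 := hs'.isAlgebraic
    refine Algebra.IsAlgebraic.of_ringHom_of_comp_eq (hs'.1.aevalEquiv : _ ≃ₐ[M] _).toRingEquiv.toRingHom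
      (RingHom.id Ω) (hs'.1.aevalEquiv).surjective Function.injective_id ?_
    exact RingHom.ext fun p => hs'.1.algebraMap_aevalEquiv p
  haveI halg : Algebra.IsAlgebraic (FractionRing A) Ω :=
    (IsFractionRing.comap_isAlgebraic_iff (A := A) (K := FractionRing A) (C := Ω)).mp halg0
  haveI : CharZero (FractionRing A) := charZero_of_injective_algebraMap
    (algebraMap M (FractionRing A)).injective
  haveI : Algebra.FormallyEtale (FractionRing A) Ω := Algebra.FormallyEtale.of_isSeparable _ _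
  haveI : Algebra.FormallyEtale A Ω := Algebra.FormallyEtale.comp A (FractionRing A) Ω
  have hzs : z ∈ s := hs rfl
  let δ : Derivation M A Ω := MvPolynomial.mkDerivation M
    (fun i : s => if i = ⟨z, hzs⟩ then (1 : Ω) else 0)
  obtain ⟨d, hd⟩ := exists_extend δ
  refine ⟨d, ?_⟩
  have h2 := hd (MvPolynomial.X ⟨z, hzs⟩)
  have h3 : algebraMap A Ω (MvPolynomial.X ⟨z, hzs⟩) = z := by
    show MvPolynomial.aeval (R := M) ((↑) : s → Ω) (MvPolynomial.X ⟨z, hzs⟩) = z
    simp
  rw [h3] at h2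
  rw [h2, MvPolynomial.mkDerivation_X, if_pos rfl]

end OnOmega

end Crest.Agent.R013.CE6_280
end

-- ▼ part R013/CE7_280

/-!
# R013 / CE7: derivations of `L = K_Ω` trivial on `K`, logarithmic derivatives at places (helper280)
-/

set_option autoImplicit false
set_option linter.all false

namespace Crest.Agent.R013.CE7_280

open WithZero Module TensorProduct nonZeroDivisors
open Crest.Agent.R013.RR7_948 Crest.Agent.R013.RR8_948 Crest.Agent.R013.RR9_948
open Crest.Agent.R013.RR11_948 Crest.Agent.R013.RR13_948 Crest.Agent.R013.CE1_280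
open Crest.Agent.R013.CE2_280 Crest.Agent.R013.CE3_280 Crest.Agent.R013.CE5_280
open Crest.Agent.R013.CE6_280

section Defs

variable {F K Ω L : Type*} [Field F] [Field K] [Algebra F K]
  [Field Ω] [Algebra F Ω] [Field L] [Algebra Ω L] [Algebra F L] [IsScalarTower F Ω L]

/-- `D` extends `d` and kills `K` -/
structure IsExt (ι : K →ₐ[F] L) (d : Derivation F Ω Ω) (D : Derivation F L L) : Prop where
  const : ∀ c : Ω, D (algebraMap Ω L c) = algebraMap Ω L (d c)
  iota : ∀ f : K, D (ι f) = 0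

variable {ι : K →ₐ[F] L} {d : Derivation F Ω Ω} {D : Derivation F L L}

theorem IsExt.mu_tmul (h : IsExt ι d D) (c : Ω) (f : K) :
    D (mu ι (c ⊗ₜ f)) = mu ι (d c ⊗ₜ f) := by
  rw [CE3_280.mu_tmul, CE3_280.mu_tmul, D.leibniz, h.const, h.iota]
  simp [mul_comm]

/-- `D` preserves `Ω ⊗ K` -/
theorem IsExt.mu (h : IsExt ι d D) (t : Ω ⊗[F] K) :
    ∃ s : Ω ⊗[F] K, D (CE3_280.mu ι t) = CE3_280.mu ι s := by
  induction t with
  | zero => exact ⟨0, by simp⟩
  | add t t' h h' =>
    obtain ⟨s, hs⟩ := h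
    obtain ⟨s', hs'⟩ := h'
    exact ⟨s + s', by rw [map_add, map_add, map_add, hs, hs']⟩
  | tmul c f => exact ⟨_, h.mu_tmul c f⟩

end Defs

section Exist

variable {F K Ω L : Type*} [Field F] [IsAlgClosed F] [Field K] [Algebra F K]
  [Field Ω] [Algebra F Ω] [Field L] [Algebra Ω L] [Algebra F L] [IsScalarTower F Ω L]
  {ι : K →ₐ[F] L}

theorem exists_ext (hι : IsCE Ω ι) (d : Derivation F Ω Ω) : ∃ D : Derivation F L L,
    IsExt ι d D := by
  letI : Algebra (Ω ⊗[F] K) L := (CE3_280.mu (Ω := Ω) ι).toRingHom.toAlgebra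
  have halg : ∀ t : Ω ⊗[F] K, algebraMap (Ω ⊗[F] K) L t = CE3_280.mu ι t := fun t => rfl
  haveI : FaithfulSMul (Ω ⊗[F] K) L := (faithfulSMul_iff_algebraMap_injective _ _).mpr hι.inj
  haveI : IsScalarTower F (Ω ⊗[F] K) L := IsScalarTower.of_algebraMap_eq fun c => by
    rw [halg, IsScalarTower.algebraMap_apply F Ω (Ω ⊗[F] K), AlgHom.commutes,
      ← IsScalarTower.algebraMap_apply]
  haveI : IsFractionRing (Ω ⊗[F] K) L := IsFractionRing.of_field _ _ fun z => by
    obtain ⟨a, b, hb, hab⟩ := hι.frac z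
    exact ⟨a, b, by
      rw [halg, halg, eq_div_iff (hι.ne_zero hb)]
      exact hab⟩
  haveI : Algebra.FormallyEtale (Ω ⊗[F] K) L :=
    Algebra.FormallyEtale.of_isLocalization (nonZeroDivisors (Ω ⊗[F] K))
  let δ₀ : Ω ⊗[F] K →ₗ[F] Ω ⊗[F] K := (d : Ω →ₗ[F] Ω).rTensor K
  have hδ₀ : ∀ a b : Ω ⊗[F] K, δ₀ (a * b) = a * δ₀ b + b * δ₀ a := by
    intro a b
    induction a with
    | zero => simp
    | add a a' h h' => rw [add_mul, map_add, h, h', map_add]; ring
    | tmul c f =>
      induction b with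
      | zero => simp
      | add b b' h h' => rw [mul_add, map_add, h, h', map_add]; ring
      | tmul c' f' =>
        simp only [δ₀, Algebra.TensorProduct.tmul_mul_tmul, LinearMap.rTensor_tmul,
          Derivation.coeFn_coe, Derivation.leibniz, smul_eq_mul, TensorProduct.add_tmul]
        rw [mul_comm f' f]
  let δ : Derivation F (Ω ⊗[F] K) L := Derivation.mk'
    (((CE3_280.mu (Ω := Ω) ι).toLinearMap.restrictScalars F).comp δ₀) (by
      intro a b
      simp only [LinearMap.comp_apply, LinearMap.restrictScalars_apply, AlgHom.toLinearMap_apply,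
        hδ₀, map_add, map_mul, Algebra.smul_def, halg])
  obtain ⟨D, hD⟩ := exists_extend δ
  have hδ : ∀ c f, δ (c ⊗ₜ f) = CE3_280.mu ι (d c ⊗ₜ f) := by
    intro c f
    simp [δ, δ₀]
  refine ⟨D, ?_, ?_⟩
  · intro c
    have h1 := hD (c ⊗ₜ 1)
    rw [hδ, halg, CE3_280.mu_tmul, CE3_280.mu_tmul, map_one, mul_one, mul_one] at h1
    exact h1
  · intro f
    have h1 := hD (1 ⊗ₜ f)
    rw [hδ, halg, CE3_280.mu_tmul, CE3_280.mu_tmul, map_one, one_mul] at h1
    rw [h1]; simp

end Exist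

section DLog

variable {R L : Type*} [CommRing R] [Field L] [Algebra R L] (D : Derivation R L L)

theorem dlog_mul {x y : L} (hx : x ≠ 0) (hy : y ≠ 0) :
    D (x * y) / (x * y) = D x / x + D y / y := by
  rw [D.leibniz, smul_eq_mul, smul_eq_mul]
  field_simp
  ring

theorem dlog_zpow {x : L} (hx : x ≠ 0) (n : ℤ) : D (x ^ n) / x ^ n = n * (D x / x) := by
  rw [Derivation.leibniz_zpow, zpow_sub_one₀ hx]
  simp only [zsmul_eq_mul, smul_eq_mul]
  have : x ^ n ≠ 0 := zpow_ne_zero _ hx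
  field_simp

end DLog

section Points

variable {F K Ω L : Type*} [Field F] [IsAlgClosed F] [Field K] [Algebra F K]
  [Algebra (RatFunc F) K] [IsScalarTower F (RatFunc F) K] [FiniteDimensional (RatFunc F) K]
  [Algebra.IsSeparable (RatFunc F) K]
  [Field Ω] [Algebra F Ω] [IsAlgClosed Ω]
  [Field L] [Algebra Ω L] [Algebra F L] [IsScalarTower F Ω L]
  {ι : K →ₐ[F] L} {w : Pl Ω L} {Q : K →ₐ[F] Ω} {P : Pl F K}
  {d : Derivation F Ω Ω} {D : Derivation F L L}

omit [IsAlgClosed F] [IsScalarTower F (RatFunc F) K] [FiniteDimensional (RatFunc F) K]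
  [Algebra.IsSeparable (RatFunc F) K] [IsAlgClosed Ω] in
theorem IsExt.pi (hD : IsExt ι d D) (a : Ω) :
    D (CE3_280.mu ι (piT F K a)) = - algebraMap Ω L (d a) := by
  rw [piT, map_sub, map_sub, hD.mu_tmul, hD.mu_tmul]
  simp

omit [IsAlgClosed F] [IsScalarTower F (RatFunc F) K] [FiniteDimensional (RatFunc F) K]
  [Algebra.IsSeparable (RatFunc F) K] [IsAlgClosed Ω] [Algebra (RatFunc F) K] in
theorem dlog_unit (hD : IsExt ι d D) (h : At ι w Q) {u : Ω ⊗[F] K} (hu : ev Q u ≠ 0) :
    w.v (D (CE3_280.mu ι u) / CE3_280.mu ι u) ≤ 1 := by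
  obtain ⟨s, hs⟩ := hD.mu u
  rw [hs, map_div₀, h.eq_one hu, div_one]
  exact h.le_one s

theorem int_le_one (w : Pl Ω L) (k : ℤ) : w.v (k : L) ≤ 1 := by
  have : (k : L) = algebraMap Ω L (k : Ω) := by simp
  rw [this]
  exact v_algebraMap_le w _

/-- the logarithmic derivative at a point -/
theorem dlog_At (hι : IsCE Ω ι) (hD : IsExt ι d D) (h : At ι w Q) {f : L} (hf : f ≠ 0) {k : ℤ}
    (hk : w.v f = exp (-k)) :
    w.v (D f / f - k * (D (CE3_280.mu ι (piT F K (Q (xK F K)))) /
      CE3_280.mu ι (piT F K (Q (xK F K))))) ≤ 1 := by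
  obtain ⟨k', u₁, u₂, h₁, h₂, heq⟩ := h.exists_form hι hf
  have h3 := h.v_eq hι h₁ h₂ heq
  rw [hk, exp_inj] at h3
  have hkk : k = k' := by omega
  subst hkk
  have hpi : CE3_280.mu ι (piT F K (Q (xK F K))) ≠ 0 := hι.ne_zero (piT_ne_zero _)
  have hu₁ : CE3_280.mu ι u₁ ≠ 0 := hι.ne_zero (by rintro rfl; simp at h₁)
  have hu₂ : CE3_280.mu ι u₂ ≠ 0 := hι.ne_zero (by rintro rfl; simp at h₂)
  have h4 : D (f * CE3_280.mu ι u₂) / (f * CE3_280.mu ι u₂) =
      D (CE3_280.mu ι (piT F K (Q (xK F K))) ^ k * CE3_280.mu ι u₁) /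
        (CE3_280.mu ι (piT F K (Q (xK F K))) ^ k * CE3_280.mu ι u₁) := by rw [heq]
  rw [dlog_mul D hf hu₂, dlog_mul D (zpow_ne_zero _ hpi) hu₁, dlog_zpow D hpi] at h4
  have h5 : D f / f - k * (D (CE3_280.mu ι (piT F K (Q (xK F K)))) /
      CE3_280.mu ι (piT F K (Q (xK F K)))) =
      D (CE3_280.mu ι u₁) / CE3_280.mu ι u₁ - D (CE3_280.mu ι u₂) / CE3_280.mu ι u₂ := by
    linear_combination h4
  rw [h5]
  exact (Valuation.map_sub _ _ _).trans (max_le (dlog_unit hD h h₁) (dlog_unit hD h h₂))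

theorem dlog_pi (hι : IsCE Ω ι) (hD : IsExt ι d D) (h : At ι w Q) (hd : d (Q (xK F K)) ≠ 0) :
    w.v (D (CE3_280.mu ι (piT F K (Q (xK F K)))) / CE3_280.mu ι (piT F K (Q (xK F K)))) =
      exp 1 := by
  rw [hD.pi, map_div₀, Valuation.map_neg, w.const _ hd, h.v_pi hι, one_div, ← exp_neg]
  simp

theorem dlog_At_le (hι : IsCE Ω ι) (hD : IsExt ι d D) (h : At ι w Q) {f : L} (hf : f ≠ 0) :
    w.v (D f / f) ≤ exp 1 := by
  obtain ⟨k, hk⟩ : ∃ k : ℤ, w.v f = exp (-k) :=
    ⟨-log (w.v f), by rw [neg_neg, exp_log ((Valuation.ne_zero_iff _).mpr hf)]⟩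
  have h1 := dlog_At hι hD h hf hk
  have h2 : D f / f = (D f / f - k * (D (CE3_280.mu ι (piT F K (Q (xK F K)))) /
      CE3_280.mu ι (piT F K (Q (xK F K))))) + k * (D (CE3_280.mu ι (piT F K (Q (xK F K)))) /
      CE3_280.mu ι (piT F K (Q (xK F K)))) := by ring
  have hle : (1 : ℤᵐ⁰) ≤ exp 1 := by rw [← exp_zero, exp_le_exp]; norm_num
  rw [h2]
  refine (Valuation.map_add _ _ _).trans (max_le (h1.trans hle) ?_)
  rw [map_mul]
  by_cases hd : d (Q (xK F K)) = 0
  · rw [hD.pi, hd, map_zero, neg_zero, zero_div, map_zero, mul_zero]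
    exact zero_le
  · rw [dlog_pi hι hD h hd]
    calc _ ≤ 1 * exp 1 := mul_le_mul_left (int_le_one w k) _
      _ = exp 1 := one_mul _

theorem dlog_At_le_one (hι : IsCE Ω ι) (hD : IsExt ι d D) (h : At ι w Q) {f : L} (hf : f ≠ 0)
    (hc : w.v f = 1 ∨ d (Q (xK F K)) = 0) : w.v (D f / f) ≤ 1 := by
  obtain ⟨k, hk⟩ : ∃ k : ℤ, w.v f = exp (-k) :=
    ⟨-log (w.v f), by rw [neg_neg, exp_log ((Valuation.ne_zero_iff _).mpr hf)]⟩
  have h1 := dlog_At hι hD h hf hk
  have h2 : (k : L) * (D (CE3_280.mu ι (piT F K (Q (xK F K)))) /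
      CE3_280.mu ι (piT F K (Q (xK F K)))) = 0 := by
    rcases hc with hc | hc
    · rw [hc, ← exp_zero, exp_inj] at hk
      have : k = 0 := by omega
      rw [this]; simp
    · rw [hD.pi, hc]; simp
  rwa [h2, sub_zero] at h1

theorem dlog_At_ne_zero [CharZero Ω] (hι : IsCE Ω ι) (hD : IsExt ι d D) (h : At ι w Q) {f : L}
    (hf : f ≠ 0) (h1 : w.v f ≠ 1) (hd : d (Q (xK F K)) ≠ 0) : D f ≠ 0 := by
  obtain ⟨k, hk⟩ : ∃ k : ℤ, w.v f = exp (-k) :=
    ⟨-log (w.v f), by rw [neg_neg, exp_log ((Valuation.ne_zero_iff _).mpr hf)]⟩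
  have h2 := dlog_At hι hD h hf hk
  intro h0
  rw [h0, zero_div, zero_sub, Valuation.map_neg, map_mul, dlog_pi hι hD h hd] at h2
  have hk0 : k ≠ 0 := by
    rintro rfl
    exact h1 (by rw [hk]; simp)
  have h3 : w.v (k : L) = 1 := by
    have : (k : L) = algebraMap Ω L (k : Ω) := by simp
    rw [this]
    exact w.const _ (by exact_mod_cast hk0)
  rw [h3, one_mul, ← exp_zero, exp_le_exp] at h2
  omega

/-- the logarithmic derivative at a place over `K` -/
theorem dlog_Over_T (hι : IsCE Ω ι) (hD : IsExt ι d D) (h : Over ι w P) (t : Ω ⊗[F] K) :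
    w.v (D (CE3_280.mu ι t)) ≤ w.v (CE3_280.mu ι t) := by
  classical
  by_cases ht : t = 0
  · simp [ht]
  let b := Basis.ofVectorSpace F Ω
  obtain ⟨c, rfl⟩ := TensorProduct.eq_repr_basis_left b t
  obtain ⟨n, i₀, hi₀, hle⟩ := exists_max P (c := c) (by
    rintro rfl; exact ht (by simp))
  rw [h.v_sum_eq hι b c n hle hi₀, Finsupp.sum, map_sum, map_sum]
  refine Valuation.map_sum_le _ fun i _ => ?_
  rw [hD.mu_tmul, CE3_280.mu_tmul, map_mul, h.v_iota hι]
  calc _ ≤ 1 * exp n := mul_le_mul' (v_algebraMap_le w _) (hle i)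
    _ = exp n := one_mul _

theorem dlog_Over (hι : IsCE Ω ι) (hD : IsExt ι d D) (h : Over ι w P) {f : L} (hf : f ≠ 0) :
    w.v (D f / f) ≤ 1 := by
  obtain ⟨a, b, hb, hab⟩ := hι.frac f
  have ha : a ≠ 0 := by
    rintro rfl
    rw [map_zero] at hab
    exact (mul_ne_zero hf (hι.ne_zero hb)) hab
  have h4 : D (f * CE3_280.mu ι b) / (f * CE3_280.mu ι b) =
      D (CE3_280.mu ι a) / CE3_280.mu ι a := by rw [hab]
  rw [dlog_mul D hf (hι.ne_zero hb)] at h4
  have h5 : D f / f = D (CE3_280.mu ι a) / CE3_280.mu ι a -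
      D (CE3_280.mu ι b) / CE3_280.mu ι b := by linear_combination h4
  have key : ∀ t : Ω ⊗[F] K, t ≠ 0 → w.v (D (CE3_280.mu ι t) / CE3_280.mu ι t) ≤ 1 := by
    intro t ht
    rw [map_div₀]
    exact div_le_one_of_le₀ (dlog_Over_T hι hD h t) zero_le
  rw [h5]
  exact (Valuation.map_sub _ _ _).trans (max_le (key a ha) (key b hb))

end Points

end Crest.Agent.R013.CE7_280
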