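import Crest.Agent.R013.Desc2_372
import Crest.Agent.R013.DEm1_719

/-!
# R013 / DEm2 (helper719), SS-DESC part D4, file 2: descent and equivariance, abstract form

`GalAct k C E`: a ring `E` with constants `C` and a semilinear action of `C ≃ₐ[k] C`, every element
being fixed by the stabiliser of a finite extension of `k`.  (`BD k C`, its fraction fields, `EE k C`.)

* `exists_equiv`: a `C`-linear `ι : K →+* E`, `K = K₀ ⊗ C` with `K₀/k₁` finitely generated, is equivariant
  over a finite extension `k'` of `k₁`.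
* `Rat L x`: `x` is fixed by the stabiliser of `L`; `exists_frac`: a rational quotient is a quotient of
  rational elements.
-/

set_option autoImplicit false
set_option linter.all false

open Filter Topology

namespace Crest.Agent.R013.DEm_719

open Crest.Agent.R013.Cell_408 Crest.Agent.R013.EE809 Crest.Agent.R013.Desc_372

/-- a ring `E` with constants `C` and a semilinear, discretely continuous action of `C ≃ₐ[k] C` -/
structure GalAct (k C E : Type*) [Field k] [Field C] [Algebra k C] [CommRing E] where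
  /-- constants -/
  j : C →+* E
  /-- the action -/
  act : (C ≃ₐ[k] C) →* (E ≃+* E)
  act_j : ∀ s c, act s (j c) = j (s c)
  fix : ∀ x : E, ∃ L : IntermediateField k C, FiniteDimensional k L ∧
    ∀ s : C ≃ₐ[k] C, (∀ c ∈ L, s c = c) → act s x = x

section inst

variable (k C : Type*) [NontriviallyNormedField k] [CompleteSpace k] [IsUltrametricDist k]
  [NormedField C] [IsUltrametricDist C] [NormedAlgebra k C] [Algebra.IsAlgebraic k C]




end inst

section core

variable {k C : Type*} [Field k] [Field C] [Algebra k C]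
variable {E : Type*} [CommRing E] (A : GalAct k C E)

namespace GalAct



/-- finitely many elements have a common field of definition -/
theorem fix_finite {ι : Type*} [Finite ι] (x : ι → E) : ∃ L : IntermediateField k C,
    FiniteDimensional k L ∧ ∀ s : C ≃ₐ[k] C, (∀ c ∈ L, s c = c) → ∀ i, A.act s (x i) = x i := by
  classical
  choose L hL h using fun i => A.fix (x i)
  refine ⟨⨆ i, L i, IntermediateField.finiteDimensional_iSup_of_finite, fun s hs i => ?_⟩
  exact h i s fun c hc => hs c ((le_iSup L i) hc)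

/-- `x` is rational over `L` -/
def Rat (L : IntermediateField k C) (x : E) : Prop :=
  ∀ s : C ≃ₐ[k] C, (∀ c ∈ L, s c = c) → A.act s x = x

variable {A}

theorem Rat.mono {L L' : IntermediateField k C} (h : L ≤ L') {x : E} (hx : A.Rat L x) : A.Rat L' x :=
  fun s hs => hx s fun c hc => hs c (h hc)

theorem Rat.add {L : IntermediateField k C} {x y : E} (hx : A.Rat L x) (hy : A.Rat L y) :
    A.Rat L (x + y) := fun s hs => by rw [map_add, hx s hs, hy s hs]

theorem Rat.mul {L : IntermediateField k C} {x y : E} (hx : A.Rat L x) (hy : A.Rat L y) :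
    A.Rat L (x * y) := fun s hs => by rw [map_mul, hx s hs, hy s hs]

theorem Rat.neg {L : IntermediateField k C} {x : E} (hx : A.Rat L x) :
    A.Rat L (-x) := fun s hs => by rw [map_neg, hx s hs]

theorem Rat.zero (L : IntermediateField k C) : A.Rat L 0 := fun s hs => map_zero _

theorem Rat.one (L : IntermediateField k C) : A.Rat L 1 := fun s hs => map_one _

theorem Rat.const {L : IntermediateField k C} {c : C} (hc : c ∈ L) : A.Rat L (A.j c) :=
  fun s hs => by rw [A.act_j, hs c hc]


variable (A)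






end GalAct

end core

/-! ### equivariance of `ι : K → E` -/

section equiv

variable {k k₁ C : Type*} [Field k] [Field k₁] [Field C] [Algebra k k₁] [Algebra k C] [Algebra k₁ C]
  [IsScalarTower k k₁ C]
variable {K₀ K : Type*} [Field K₀] [Field K] [Algebra k₁ K₀] [Algebra C K] [Algebra K₀ K]
  [Algebra k₁ K] [IsScalarTower k₁ C K] [IsScalarTower k₁ K₀ K]
variable {E : Type*} [CommRing E]

/-- enlarge the base of a finite level -/
theorem exists_level_tower (L : IntermediateField k C) [FiniteDimensional k L] :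
    ∃ k' : IntermediateField k₁ C, FiniteDimensional k₁ k' ∧ ∀ c ∈ L, c ∈ k' := by
  obtain ⟨S, hS⟩ : L.FG := IntermediateField.essFiniteType_iff.1 inferInstance
  refine ⟨IntermediateField.adjoin k₁ (S : Set C), ?_, ?_⟩
  · refine IntermediateField.finiteDimensional_adjoin fun x hx => ?_
    have hxL : x ∈ L := hS ▸ IntermediateField.subset_adjoin _ _ hx
    have h1 : IsIntegral k (⟨x, hxL⟩ : L) := IsIntegral.of_finite k _
    have h2 : IsIntegral k x := h1.map L.val
    exact h2.tower_top
  · have h1 : L ≤ (IntermediateField.adjoin k₁ (S : Set C)).restrictScalars k := by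
      rw [← hS, IntermediateField.adjoin_le_iff]
      exact IntermediateField.subset_adjoin _ _
    exact fun c hc => h1 hc

variable (k k₁ C K₀ K) in
/-- `ι` is equivariant over `k'` -/
def EqAt (A : GalAct k C E) (ι : K →+* E) [CE k₁ C K₀ K] (k' : IntermediateField k₁ C) : Prop :=
  ∀ s : C ≃ₐ[k₁] C, (∀ c ∈ k', s c = c) →
    ∀ f, A.act (s.restrictScalars k) (ι f) = ι (CE.lift k₁ C K₀ K s f)

theorem EqAt.mono {A : GalAct k C E} {ι : K →+* E} [CE k₁ C K₀ K] {k' k'' : IntermediateField k₁ C}
    (h : k' ≤ k'') (H : EqAt k k₁ C K₀ K A ι k') : EqAt k k₁ C K₀ K A ι k'' :=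
  fun s hs => H s fun c hc => hs c (h hc)

/-- criterion: equivariance on generators -/
theorem eqAt_of_gen (A : GalAct k C E) (ι : K →+* E) (hι : ∀ c, ι (algebraMap C K c) = A.j c)
    [CE k₁ C K₀ K] (S : Set K₀) (hS : IntermediateField.adjoin k₁ S = ⊤) (s : C ≃ₐ[k₁] C)
    (H : ∀ g ∈ S, A.act (s.restrictScalars k) (ι (algebraMap K₀ K g)) = ι (algebraMap K₀ K g))
    (f : K) : A.act (s.restrictScalars k) (ι f) = ι (CE.lift k₁ C K₀ K s f) := by
  set t : C ≃ₐ[k] C := s.restrictScalars k with ht
  have h1 : ∀ g : K₀, A.act t (ι (algebraMap K₀ K g)) = ι (algebraMap K₀ K g) := by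
    intro g
    have hg : g ∈ IntermediateField.adjoin k₁ S := by rw [hS]; trivial
    refine IntermediateField.adjoin_induction k₁ (p := fun g _ =>
      A.act t (ι (algebraMap K₀ K g)) = ι (algebraMap K₀ K g)) ?_ ?_ ?_ ?_ ?_ hg
    · exact H
    · intro c
      rw [← IsScalarTower.algebraMap_apply k₁ K₀ K, IsScalarTower.algebraMap_apply k₁ C K, hι,
        A.act_j]
      congr 1
      exact s.commutes c
    · intro x y _ _ hx hy
      rw [map_add, map_add, map_add, hx, hy]
    · intro x _ hx
      by_cases hx0 : x = 0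
      · rw [hx0, inv_zero, map_zero, map_zero, map_zero]
      · have e1 : ι (algebraMap K₀ K x) * ι (algebraMap K₀ K x⁻¹) = 1 := by
          rw [← map_mul, ← map_mul, mul_inv_cancel₀ hx0, map_one, map_one]
        have e2 := congrArg (A.act t) e1
        rw [map_mul, map_one, hx] at e2
        calc A.act t (ι (algebraMap K₀ K x⁻¹))
            = (ι (algebraMap K₀ K x) * ι (algebraMap K₀ K x⁻¹)) * A.act t (ι (algebraMap K₀ K x⁻¹)) := by
              rw [e1, one_mul]
          _ = ι (algebraMap K₀ K x⁻¹) * (ι (algebraMap K₀ K x) * A.act t (ι (algebraMap K₀ K x⁻¹))) := by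
              ring
          _ = ι (algebraMap K₀ K x⁻¹) := by rw [e2, mul_one]
    · intro x y _ _ hx hy
      rw [map_mul, map_mul, map_mul, hx, hy]
  have h2 := CE.ringHom_ext k₁ C K₀ K (φ := ((A.act t : E ≃+* E) : E →+* E).comp ι)
    (ψ := ι.comp (CE.lift k₁ C K₀ K s : K →+* K)) (fun c => by
      show A.act t (ι (algebraMap C K c)) = ι (CE.lift k₁ C K₀ K s (algebraMap C K c))
      rw [CE.lift_algebraMap, hι, hι, A.act_j]
      rfl) (fun g => by
      show A.act t (ι (algebraMap K₀ K g)) = ι (CE.lift k₁ C K₀ K s (algebraMap K₀ K g))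
      rw [AlgEquiv.commutes, h1])
  exact congrArg (fun φ : K →+* E => φ f) h2

/-- **equivariance of one embedding over a finite level** -/
theorem exists_equiv (A : GalAct k C E) (ι : K →+* E) (hι : ∀ c, ι (algebraMap C K c) = A.j c)
    [CE k₁ C K₀ K] (hfg : (⊤ : IntermediateField k₁ K₀).FG) :
    ∃ k' : IntermediateField k₁ C, FiniteDimensional k₁ k' ∧ EqAt k k₁ C K₀ K A ι k' := by
  obtain ⟨S, hS⟩ := hfg
  obtain ⟨L, hL, h1⟩ := A.fix_finite (fun g : S => ι (algebraMap K₀ K g))
  obtain ⟨k', hk', h2⟩ := exists_level_tower (k₁ := k₁) L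
  refine ⟨k', hk', fun s hs f => ?_⟩
  refine eqAt_of_gen A ι hι (S : Set K₀) hS s (fun g hg => ?_) f
  exact h1 (s.restrictScalars k) (fun c hc => hs c (h2 c hc)) ⟨g, hg⟩

/-- **equivariance of finitely many embeddings over a finite level** -/
theorem exists_equiv_finite {I : Type*} [Finite I] (A : GalAct k C E) (ι : I → K →+* E)
    (hι : ∀ i c, ι i (algebraMap C K c) = A.j c) [CE k₁ C K₀ K]
    (hfg : (⊤ : IntermediateField k₁ K₀).FG) :
    ∃ k' : IntermediateField k₁ C, FiniteDimensional k₁ k' ∧ ∀ i, EqAt k k₁ C K₀ K A (ι i) k' := by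
  choose k' hk' h1 using fun i => exists_equiv A (ι i) (hι i) hfg
  exact ⟨⨆ i, k' i, IntermediateField.finiteDimensional_iSup_of_finite,
    fun i => (h1 i).mono (le_iSup k' i)⟩

theorem lift_eq_of_mem_lev [CE k₁ C K₀ K] {k' : IntermediateField k₁ C} {s : C ≃ₐ[k₁] C}
    (hs : ∀ c ∈ k', s c = c) {f : K} (hf : f ∈ CE.lev K₀ K k') : CE.lift k₁ C K₀ K s f = f := by
  have h1 : CE.lift k₁ C K₀ K s ∈ CE.Gam K₀ K k' := by
    rw [CE.mem_Gam]
    intro c hc
    rw [CE.lift_algebraMap, hs c hc]
  exact CE.mem_Gam'.1 h1 f hf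

/-- elements of level `k'` are sent to elements fixed by the stabiliser of `k'` -/
theorem EqAt.fixed {A : GalAct k C E} {ι : K →+* E} [CE k₁ C K₀ K] {k' : IntermediateField k₁ C}
    (H : EqAt k k₁ C K₀ K A ι k') {f : K} (hf : f ∈ CE.lev K₀ K k') {s : C ≃ₐ[k₁] C}
    (hs : ∀ c ∈ k', s c = c) : A.act (s.restrictScalars k) (ι f) = ι f := by
  rw [H s hs, lift_eq_of_mem_lev hs hf]

/-- elements of level `k'` are sent to `k'`-rational elements -/
theorem EqAt.rat {A : GalAct k C E} {ι : K →+* E} [CE k₁ C K₀ K] {k' : IntermediateField k₁ C}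
    (H : EqAt k k₁ C K₀ K A ι k') {f : K} (hf : f ∈ CE.lev K₀ K k') :
    A.Rat (k'.restrictScalars k) (ι f) := by
  intro t ht
  let s : C ≃ₐ[k₁] C := AlgEquiv.ofRingEquiv (f := (t : C ≃+* C)) (fun x =>
    ht (algebraMap k₁ C x) (k'.algebraMap_mem x))
  have h1 : s.restrictScalars k = t := by ext c; rfl
  rw [← h1]
  exact H.fixed hf ht

/-- equivariance for the automorphisms of `K/K₀` (372's `res`, `Gam`) -/
theorem EqAt.gam {A : GalAct k C E} {ι : K →+* E} [CE k₁ C K₀ K] [Normal k₁ C]
    {k' : IntermediateField k₁ C} (H : EqAt k k₁ C K₀ K A ι k') {g : K ≃ₐ[K₀] K}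
    (hg : g ∈ CE.Gam K₀ K k') (f : K) :
    ι (g f) = A.act ((CE.res k₁ C K₀ K g).restrictScalars k) (ι f) := by
  have h1 := H (CE.res k₁ C K₀ K g) (fun c hc => by
    apply (algebraMap C K).injective
    rw [CE.algebraMap_res, CE.mem_Gam.1 hg c hc]) f
  rw [CE.lift_res] at h1
  exact h1.symm

end equiv

/-- function fields are finitely generated -/
theorem fg_of_ratFunc (k₁ K₀ : Type*) [Field k₁] [Field K₀] [Algebra k₁ K₀]
    [Algebra (RatFunc k₁) K₀] [IsScalarTower k₁ (RatFunc k₁) K₀]
    [FiniteDimensional (RatFunc k₁) K₀] : (⊤ : IntermediateField k₁ K₀).FG := by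
  classical
  obtain ⟨S, hS⟩ : (⊤ : Submodule (RatFunc k₁) K₀).FG := Module.Finite.fg_top
  refine ⟨insert (algebraMap (RatFunc k₁) K₀ RatFunc.X) S, ?_⟩
  rw [eq_top_iff]
  set F := IntermediateField.adjoin k₁ ((insert (algebraMap (RatFunc k₁) K₀ RatFunc.X) S : Finset K₀) : Set K₀)
    with hF
  have h1 : ∀ r : RatFunc k₁, algebraMap (RatFunc k₁) K₀ r ∈ F := by
    intro r
    have hX : algebraMap (RatFunc k₁) K₀ RatFunc.X ∈ F :=
      IntermediateField.subset_adjoin _ _ (by simp)
    have hpol : ∀ P : Polynomial k₁, algebraMap (RatFunc k₁) K₀ (algebraMap (Polynomial k₁) (RatFunc k₁) P) ∈ F := by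
      intro P
      induction P using Polynomial.induction_on' with
      | add p q hp hq => rw [map_add, map_add]; exact add_mem hp hq
      | monomial n c =>
        rw [← Polynomial.C_mul_X_pow_eq_monomial, map_mul, map_mul, map_pow, map_pow,
          RatFunc.algebraMap_C, RatFunc.algebraMap_X]
        refine mul_mem ?_ (pow_mem hX n)
        have : (RatFunc.C c : RatFunc k₁) = algebraMap k₁ (RatFunc k₁) c := rfl
        rw [this, ← IsScalarTower.algebraMap_apply]
        exact F.algebraMap_mem c
    rw [← RatFunc.num_div_denom r, map_div₀]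
    exact div_mem (hpol _) (hpol _)
  rintro x -
  have hx : x ∈ Submodule.span (RatFunc k₁) (S : Set K₀) := by rw [hS]; trivial
  refine Submodule.span_induction ?_ (zero_mem F) (fun a b _ _ ha hb => add_mem ha hb) ?_ hx
  · intro y hy
    exact IntermediateField.subset_adjoin _ _ (by simp [hy])
  · intro r y _ hy
    rw [Algebra.smul_def]
    exact mul_mem (h1 r) hy

end Crest.Agent.R013.DEm_719
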