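import Crest.Agent.R013.DEm2_719
import Crest.Agent.R013.EE4_809
import Crest.Agent.R013.SSDefs_332
import Crest.Agent.R013.RR12_948

/-!
# R013 / DEm3 (helper719), SS-DESC part D4, file 3: rationality, semistable structures

* `Rat` = coefficients in `L` for `BD`, `EE`; rational elements of `Frac BD`, of quotients of elements
  of `InD`, `InA c` (both ends at once).
* `SSK.Def`: a semistable structure is defined over a finite extension: Galois fixes the vertices, the
  ends, the constants `cc e`, and the embeddings `em d` are equivariant.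
-/

set_option autoImplicit false
set_option linter.all false

open Filter Topology

namespace Crest.Agent.R013.DEm_719

open scoped NNReal
open WithZero
open Crest.Agent.R013.Cell_408 Crest.Agent.R013.EE809 Crest.Agent.R013.Desc_372
  Crest.Agent.R013.RR7_948 Crest.Agent.R013.Red332 Crest.Agent.R013.SSK_332

section galois

variable {k C : Type*} [Field k] [Field C] [Algebra k C] [IsGalois k C]



end galois

section rat

variable (k C : Type*) [NontriviallyNormedField k] [CompleteSpace k] [IsUltrametricDist k]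
  [NormedField C] [IsUltrametricDist C] [NormedAlgebra k C] [Algebra.IsAlgebraic k C]

/-- the action on `EE k C` -/
noncomputable def gaEE : GalAct k C (EE k C) where
  j := algebraMap C (EE k C)
  act := actEE
  act_j s c := by
    ext n
    rw [co_actEE, co_algebraMap, co_algebraMap]
    split_ifs
    · rfl
    · exact map_zero s
  fix := exists_fix_EE

variable {k C}

theorem gaEE_act (s : C ≃ₐ[k] C) (a : EE k C) : (gaEE k C).act s a = actEE s a := rfl







/-! ### the rings of functions on the cells, inside `EE` -/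

















section frac

variable [IsAlgClosed C] [IsGalois k C]




end frac

end rat

/-! ### semistable structures -/

section SSK

variable {k C K : Type*} [NontriviallyNormedField k] [CompleteSpace k] [IsUltrametricDist k]
    [NormedField C] [IsUltrametricDist C] [NormedAlgebra k C] [Algebra.IsAlgebraic k C]
    [Field K] [Algebra C K] (S : SSK k C K)

theorem em_algebraMap (d : S.Dir) (c : C) : S.em d (algebraMap C K c) = (gaEE k C).j c := by
  ext n
  rw [S.em_C]
  exact (co_algebraMap c n).symm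

variable {k₁ K₀ : Type*} [Field k₁] [Field K₀] [Algebra k k₁] [Algebra k₁ C] [IsScalarTower k k₁ C]
  [Algebra k₁ K₀] [Algebra K₀ K] [Algebra k₁ K] [IsScalarTower k₁ C K] [IsScalarTower k₁ K₀ K]

variable (k₁ K₀) in
/-- `S` is defined over `k'`, including the directions in `D` -/
structure Def [CE k₁ C K₀ K] (k' : IntermediateField k₁ C) (D : Set S.Dir) : Prop where
  e0_mem : ∀ e, S.e0 e ∈ D
  e1_mem : ∀ e, S.e1 e ∈ D
  vert : ∀ v, ∃ d ∈ D, d.1 = v
  cc_mem : ∀ e, S.cc e ∈ k'
  eqAt : ∀ d ∈ D, EqAt k k₁ C K₀ K (gaEE k C) (S.em d) k'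

variable {S}

theorem Def.mono [CE k₁ C K₀ K] {k' k'' : IntermediateField k₁ C} {D : Set S.Dir} (h : k' ≤ k'')
    (H : Def S k₁ K₀ k' D) : Def S k₁ K₀ k'' D where
  e0_mem := H.e0_mem
  e1_mem := H.e1_mem
  vert := H.vert
  cc_mem e := h (H.cc_mem e)
  eqAt d hd := (H.eqAt d hd).mono h

variable (S)

/-- there is a direction at each vertex -/
theorem exists_dir (v : S.V) : ∃ d : S.Dir, d.1 = v := by
  obtain ⟨i, h1, h2, h3⟩ := S.ff v
  letI := i
  obtain ⟨P, -⟩ := RR12_948.exists_notMem (k := Ct C) (K := kap (S.nm v)) ∅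
  exact ⟨⟨v, P⟩, rfl⟩

/-- **(DEF)** every semistable structure is defined over a finite extension -/
theorem exists_def [CE k₁ C K₀ K] (hfg : (⊤ : IntermediateField k₁ K₀).FG) (D : Set S.Dir)
    (hD : D.Finite) : ∃ (k' : IntermediateField k₁ C) (D' : Set S.Dir), FiniteDimensional k₁ k' ∧
      D'.Finite ∧ D ⊆ D' ∧ Def S k₁ K₀ k' D' := by
  classical
  haveI := S.fV
  haveI := S.fEd
  choose dv hdv using exists_dir S
  let D' : Set S.Dir := D ∪ (Set.range S.e0 ∪ Set.range S.e1 ∪ Set.range dv)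
  have hD' : D'.Finite := hD.union (((Set.finite_range _).union (Set.finite_range _)).union
    (Set.finite_range _))
  haveI : Finite D' := hD'
  obtain ⟨k₂, h1, h2⟩ := exists_equiv_finite (K₀ := K₀) (gaEE k C) (fun d : D' => S.em d)
    (fun d c => em_algebraMap S d c) hfg
  have halg : Algebra.IsAlgebraic k₁ C := CE.alg K₀ K
  let k₃ : IntermediateField k₁ C := IntermediateField.adjoin k₁ (Set.range S.cc)
  have h3 : FiniteDimensional k₁ k₃ := IntermediateField.finiteDimensional_adjoin fun x _ =>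
    (Algebra.IsAlgebraic.isAlgebraic x).isIntegral
  refine ⟨k₂ ⊔ k₃, D', inferInstance, hD', Set.subset_union_left, ?_, ?_, ?_, ?_, ?_⟩
  · exact fun e => Or.inr (Or.inl (Or.inl ⟨e, rfl⟩))
  · exact fun e => Or.inr (Or.inl (Or.inr ⟨e, rfl⟩))
  · exact fun v => ⟨dv v, Or.inr (Or.inr ⟨v, rfl⟩), hdv v⟩
  · intro e
    exact (le_sup_right : k₃ ≤ k₂ ⊔ k₃) (IntermediateField.subset_adjoin _ _ ⟨e, rfl⟩)
  · intro d hd
    exact (h2 ⟨d, hd⟩).mono le_sup_left

variable {S}

section conseq

variable [CE k₁ C K₀ K] [Normal k₁ C] {k' : IntermediateField k₁ C} {D : Set S.Dir}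

variable (k) in
/-- the restriction to `C` of an automorphism of `K/K₀`, as an automorphism over `k` -/
noncomputable def rs (g : K ≃ₐ[K₀] K) : C ≃ₐ[k] C :=
  (CE.res k₁ C K₀ K g).restrictScalars k

theorem rs_fix {g : K ≃ₐ[K₀] K} (hg : g ∈ CE.Gam K₀ K k') {c : C} (hc : c ∈ k') :
    rs k (k₁ := k₁) g c = c := by
  apply (algebraMap C K).injective
  show algebraMap C K (CE.res k₁ C K₀ K g c) = _
  rw [CE.algebraMap_res, CE.mem_Gam.1 hg c hc]

theorem Def.em (H : Def S k₁ K₀ k' D) {g : K ≃ₐ[K₀] K} (hg : g ∈ CE.Gam K₀ K k') {d : S.Dir}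
    (hd : d ∈ D) (f : K) : S.em d (g f) = actEE (rs k (k₁ := k₁) g) (S.em d f) :=
  (H.eqAt d hd).gam hg f

/-- Galois fixes the vertices -/
theorem Def.nm (H : Def S k₁ K₀ k' D) {g : K ≃ₐ[K₀] K} (hg : g ∈ CE.Gam K₀ K k') (v : S.V)
    (f : K) : (S.nm v).v (g f) = (S.nm v).v f := by
  obtain ⟨d, hd, rfl⟩ := H.vert v
  have h1 : ((S.nm d.1).v (g f) : ℝ) = (S.nm d.1).v f := by
    rw [← S.em_gn d, ← S.em_gn d, H.em hg hd, gn_actEE]
  exact_mod_cast h1

/-- Galois fixes the constants of the annuli -/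
theorem Def.cc (H : Def S k₁ K₀ k' D) {g : K ≃ₐ[K₀] K} (hg : g ∈ CE.Gam K₀ K k') (e : S.Ed) :
    rs k (k₁ := k₁) g (S.cc e) = S.cc e :=
  rs_fix hg (H.cc_mem e)

/-- Galois fixes the directions of `D` (the orders) -/
theorem Def.od (H : Def S k₁ K₀ k' D) {g : K ≃ₐ[K₀] K} (hg : g ∈ CE.Gam K₀ K k') {d : S.Dir}
    (hd : d ∈ D) (f : K) : Red332.od (S.nm d.1) d.2 (g f) = Red332.od (S.nm d.1) d.2 f := by
  by_cases hf : f = 0
  · rw [hf, map_zero]
  · rw [← S.em_od d _ ((map_ne_zero g).2 hf), ← S.em_od d _ hf, H.em hg hd, od_actEE]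

/-- Galois fixes the directions of `D` (the places of the residue fields) -/
theorem Def.place (H : Def S k₁ K₀ k' D) {g : K ≃ₐ[K₀] K} (hg : g ∈ CE.Gam K₀ K k') {d : S.Dir}
    (hd : d ∈ D) {f : K} (hf : (S.nm d.1).v f ≤ 1) :
    d.2.v (red (S.nm d.1) (g f)) = d.2.v (red (S.nm d.1) f) := by
  have hf' : (S.nm d.1).v (g f) ≤ 1 := by rw [H.nm hg]; exact hf
  rcases hf.lt_or_eq with h | h
  · rw [(red_eq_zero_iff _ hf).2 h, (red_eq_zero_iff _ hf').2 (by rw [H.nm hg]; exact h)]
  · rw [v_red_of_one d.2 h, v_red_of_one d.2 (f := g f) (by rw [H.nm hg]; exact h), H.od hg hd]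




end conseq

end SSK

end Crest.Agent.R013.DEm_719
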