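import Mathlib
import Crest.Agent.R013.Red1_332
import Crest.Agent.R013.DEm1_719
import Crest.Agent.R013.Desc2_372
import Crest.Agent.R013.DEm2_719
import Crest.Agent.R013.DEm3_719
import Crest.Agent.R013.TP13_928

-- ▼ part R013/Desc6_372
section

/-!
# R013 / SS-DESC, part 6 (helper372): constants, residue fields, Frobenius

`C` algebraic over a locally compact `k`, `M` finite over `k`.
* `resSub M` : the residue field of `M` inside `Ct C`, finite; `exists_card`;
* `res_of_fixed` : automorphisms fixing `M` act trivially on `resSub M`;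
* `exists_frob` : there is an automorphism of `C` over `M` inducing `y ↦ y ^ (p ^ a)` on `Ct C`.
-/

set_option autoImplicit false
set_option linter.all false

namespace Crest.Agent.R013.Desc_372

open scoped NNReal Pointwise
open IsLocalRing Crest.Agent.R013.Red332 Crest.Agent.R013.DEm_719

/-- ring of integers of `C` -/
noncomputable abbrev OC (C : Type*) [NormedField C] [IsUltrametricDist C] : ValuationSubring C :=
  (NormedField.valuation (K := C)).valuationSubring

section basic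

variable {C : Type*} [NormedField C] [IsUltrametricDist C]

theorem mem_OC {c : C} : c ∈ OC C ↔ ‖c‖₊ ≤ 1 := Iff.rfl

/-- the reduction map -/
noncomputable def rcHom (C : Type*) [NormedField C] [IsUltrametricDist C] : OC C →+* Ct C :=
  residue (OC C)

theorem rcHom_apply (c : OC C) : rcHom C c = rc (c : C) := by
  rw [rc_def c.2]; rfl


theorem rc_eq_iff {a b : C} (ha : ‖a‖₊ ≤ 1) (hb : ‖b‖₊ ≤ 1) : rc a = rc b ↔ ‖a - b‖₊ < 1 := by
  have hab : ‖a - b‖₊ ≤ 1 := (OC C).sub_mem (x := a) (y := b) ha hb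
  rw [← rc_eq_zero_iff hab]
  have h1 : rc a = rc (a - b) + rc b := by
    rw [← rc_add hab hb, sub_add_cancel]
  rw [h1, add_eq_right]

theorem rc_pow {a : C} (ha : ‖a‖₊ ≤ 1) (n : ℕ) : rc (a ^ n) = rc a ^ n := by
  have h1 := rcHom_apply (C := C) ⟨a, ha⟩
  have h2 := rcHom_apply (C := C) (⟨a, ha⟩ ^ n)
  rw [map_pow, h1] at h2
  exact h2.symm

theorem norm_le_one_of_pow {a : C} {n : ℕ} (hn : n ≠ 0) (h : ‖a ^ n‖₊ ≤ 1) : ‖a‖₊ ≤ 1 := by
  rw [nnnorm_pow] at h
  by_contra h1
  exact absurd h (not_le.mpr (one_lt_pow₀ (not_le.mp h1) hn))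

/-- powers are surjective on the residue field -/
theorem exists_pow_Ct [IsAlgClosed C] {n : ℕ} (hn : n ≠ 0) (y : Ct C) : ∃ z : Ct C, z ^ n = y := by
  obtain ⟨c, hc, rfl⟩ := rc_surj y
  obtain ⟨d, hd⟩ := IsAlgClosed.exists_pow_nat_eq c (Nat.pos_of_ne_zero hn)
  have hd1 : ‖d‖₊ ≤ 1 := norm_le_one_of_pow hn (by rw [hd]; exact hc)
  exact ⟨rc d, by rw [← rc_pow hd1, hd]⟩

end basic

section resSub

variable {k C : Type*} [Field k] [NormedField C] [IsUltrametricDist C] [Algebra k C]

/-- the residue ring of an intermediate field -/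
noncomputable def resSub (M : IntermediateField k C) : Subring (Ct C) :=
  (M.toSubfield.toSubring.comap (OC C).subtype).map (rcHom C)

theorem mem_resSub {M : IntermediateField k C} {y : Ct C} :
    y ∈ resSub M ↔ ∃ c ∈ M, ‖c‖₊ ≤ 1 ∧ rc c = y := by
  constructor
  · rintro ⟨c, hc, rfl⟩
    exact ⟨c.1, hc, c.2, (rcHom_apply c).symm⟩
  · rintro ⟨c, hc, h1, rfl⟩
    exact ⟨⟨c, h1⟩, hc, rcHom_apply _⟩


end resSub

section finite

variable {k C : Type*} [NontriviallyNormedField k] [LocallyCompactSpace k]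
  [NormedField C] [IsUltrametricDist C] [NormedAlgebra k C]

theorem finite_resSub (M : IntermediateField k C) [FiniteDimensional k M] :
    Finite (resSub M) := by
  let N : Submodule k C := Subalgebra.toSubmodule M.toSubalgebra
  haveI : FiniteDimensional k N := inferInstanceAs (FiniteDimensional k M)
  haveI : ProperSpace N := FiniteDimensional.proper k N
  obtain ⟨t, -, htf, ht⟩ := (isCompact_closedBall (0 : N) 1).finite_cover_balls
    (e := (1 : ℝ)) one_pos
  have h1 : (resSub M : Set (Ct C)) ⊆ (fun x : N => rc (x : C)) '' t := by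
    intro y hy
    obtain ⟨c, hc, hc1, rfl⟩ := mem_resSub.mp hy
    have h2 : (⟨c, hc⟩ : N) ∈ Metric.closedBall (0 : N) 1 := by
      rw [mem_closedBall_zero_iff]
      exact hc1
    obtain ⟨x, hx⟩ := Set.mem_iUnion.mp (ht h2)
    obtain ⟨hxt, hx⟩ := Set.mem_iUnion.mp hx
    have h3 : ‖c - (x : C)‖₊ < 1 := by
      have h4 := mem_ball_iff_norm.mp hx
      exact h4
    have h5 : ‖(x : C)‖₊ ≤ 1 := by
      have h6 : (x : C) = c - (c - (x : C)) := by ring
      have h7 : ‖c - (x : C)‖₊ ≤ 1 := h3.le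
      rw [h6]
      exact (OC C).sub_mem (x := c) (y := c - (x : C)) hc1 h7
    exact ⟨x, hxt, ((rc_eq_iff hc1 h5).mpr h3).symm⟩
  exact ((htf.image _).subset h1).to_subtype

/-- the residue field of a finite extension is the set of solutions of `y ^ (p ^ a) = y` -/
theorem exists_card (M : IntermediateField k C) [FiniteDimensional k M] (p : ℕ) [Fact p.Prime]
    [CharP (Ct C) p] : ∃ a : ℕ, a ≠ 0 ∧ ∀ y : Ct C, y ^ p ^ a = y ↔ y ∈ resSub M := by
  classical
  haveI := finite_resSub M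
  letI : Field (resSub M) := (Finite.isField_of_domain (resSub M)).toField
  haveI : Fintype (resSub M) := Fintype.ofFinite _
  haveI : CharP (resSub M) p :=
    (RingHom.charP_iff (resSub M).subtype Subtype.val_injective p).mpr inferInstance
  obtain ⟨n, hn0, hn⟩ := FiniteField.card (resSub M) p
  refine ⟨n, n.ne_zero, ?_⟩
  have hsub : ∀ y ∈ resSub M, y ^ p ^ (n : ℕ) = y := by
    intro y hy
    have h1 := FiniteField.pow_card (⟨y, hy⟩ : resSub M)
    rw [hn] at h1
    exact congrArg Subtype.val h1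
  set q := p ^ (n : ℕ) with hq
  have hq1 : 1 < q := Nat.one_lt_pow n.ne_zero hn0.one_lt
  let P : Polynomial (Ct C) := Polynomial.X ^ q - Polynomial.X
  have hP0 : P ≠ 0 := FiniteField.X_pow_card_sub_X_ne_zero (Ct C) hq1
  have hPd : P.natDegree = q := FiniteField.X_pow_card_sub_X_natDegree_eq (Ct C) hq1
  have hroot : ∀ y : Ct C, y ∈ P.roots.toFinset ↔ y ^ q = y := by
    intro y
    rw [Multiset.mem_toFinset, Polynomial.mem_roots hP0, Polynomial.IsRoot.def]
    simp [P, sub_eq_zero]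
  have hle : P.roots.toFinset.card ≤ q :=
    (Multiset.toFinset_card_le _).trans ((Polynomial.card_roots' P).trans hPd.le)
  let R : Finset (Ct C) := Finset.univ.map ⟨((↑) : resSub M → Ct C), Subtype.val_injective⟩
  have hR : ∀ y, y ∈ R ↔ y ∈ resSub M := by
    intro y
    simp [R]
  have hRc : R.card = q := by
    rw [Finset.card_map, Finset.card_univ, hn]
  have hRs : R ⊆ P.roots.toFinset := by
    intro y hy
    exact (hroot y).mpr (hsub y ((hR y).mp hy))
  have hEq : R = P.roots.toFinset := Finset.eq_of_subset_of_card_le hRs (by rw [hRc]; exact hle)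
  intro y
  rw [← hroot y, ← hEq, hR y]

end finite

section gal

variable {k C : Type*} [NontriviallyNormedField k] [CompleteSpace k] [IsUltrametricDist k]
  [NormedField C] [IsUltrametricDist C] [NormedAlgebra k C] [Algebra.IsAlgebraic k C]

theorem nnnorm_mapE (s : C ≃ₐ[k] C) (x : C) : ‖s x‖₊ = ‖x‖₊ := NNReal.eq (norm_mapE s x)

/-- automorphisms fixing `M` fix the residue field of `M` -/
theorem rc_of_fixed {M : IntermediateField k C} {s : C ≃ₐ[k] C} (hs : ∀ c ∈ M, s c = c) {c : C}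
    (hc : ‖c‖₊ ≤ 1) (h : rc c ∈ resSub M) : rc (s c) = rc c := by
  obtain ⟨d, hd, hd1, hdc⟩ := mem_resSub.mp h
  rw [← hdc]
  rw [rc_eq_iff (by rw [nnnorm_mapE]; exact hc) hd1]
  have h1 : s c - d = s (c - d) := by rw [map_sub, hs d hd]
  rw [h1, nnnorm_mapE]
  exact (rc_eq_iff hc hd1).mp hdc.symm

/-- the integers of `M` inside the integers of `C` -/
noncomputable def OM (M : IntermediateField k C) : Subring (OC C) := M.toSubfield.toSubring.comap (OC C).subtype

theorem mem_OM {M : IntermediateField k C} {x : OC C} : x ∈ OM M ↔ (x : C) ∈ M := Iff.rfl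

/-- action of the Galois group on the integers -/
@[reducible] noncomputable def actOC (M : IntermediateField k C) : MulSemiringAction (C ≃ₐ[M] C) (OC C) where
  smul g b := ⟨g b, by
    have h1 : ‖g (b : C)‖₊ = ‖(b : C)‖₊ := nnnorm_mapE (g.restrictScalars k) (b : C)
    have h2 : ‖(b : C)‖₊ ≤ 1 := b.2
    exact mem_OC.mpr (h1.le.trans h2)⟩
  one_smul _ := rfl
  mul_smul _ _ _ := rfl
  smul_zero g := Subtype.ext (map_zero g)
  smul_add g a b := Subtype.ext (map_add g (a : C) (b : C))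
  smul_one g := Subtype.ext (map_one g)
  smul_mul g a b := Subtype.ext (map_mul g (a : C) (b : C))

variable [IsGalois k C] [IsAlgClosed C] [LocallyCompactSpace k]

/-- **Frobenius**: some automorphism over `M` induces the power `p ^ a` on the residue field -/
theorem exists_frob_aux (M : IntermediateField k C) (p : ℕ) [Fact p.Prime] [CharP (Ct C) p]
    (a : ℕ) (ha : ∀ y ∈ resSub M, y ^ p ^ a = y) :
    ∃ s : C ≃ₐ[M] C, ∀ c : C, ‖c‖₊ ≤ 1 → rc (s c) = rc c ^ p ^ a := by
  classical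
  have hp : p.Prime := Fact.out
  letI := actOC M
  letI : TopologicalSpace (OC C) := ⊥
  haveI : DiscreteTopology (OC C) := ⟨rfl⟩
  haveI : IsGalois M C := inferInstance
  haveI : Algebra.IsIntegral M C := inferInstance
  have hcoe : ∀ (g : C ≃ₐ[M] C) (b : OC C), ((g • b : OC C) : C) = g (b : C) := fun _ _ => rfl
  haveI : ContinuousSMul (C ≃ₐ[M] C) (OC C) := by
    rw [continuousSMul_iff_stabilizer_isOpen]
    intro x
    have h := stabilizer_isOpen_of_isIntegral (K := M) (x : C)
    convert h using 1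
    ext g
    simp only [SetLike.mem_coe, MulAction.mem_stabilizer_iff]
    constructor
    · intro hg
      exact congrArg (fun y : OC C => (y : C)) hg
    · intro hg
      exact Subtype.ext hg
  haveI : SMulCommClass (C ≃ₐ[M] C) (OM M) (OC C) := by
    constructor
    intro g a b
    rw [Algebra.smul_def, Algebra.smul_def, smul_mul']
    congr 1
    apply Subtype.ext
    rw [hcoe]
    exact AlgEquiv.commutes g (⟨((a : OC C) : C), a.2⟩ : M)
  haveI : Algebra.IsInvariant (OM M) (OC C) (C ≃ₐ[M] C) := by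
    constructor
    intro b hb
    have h1 : ∀ g : C ≃ₐ[M] C, g (b : C) = b := fun g =>
      congrArg (fun y : OC C => (y : C)) (hb g)
    have h2 : (b : C) ∈ (⊥ : IntermediateField M C) := by
      rw [← InfiniteGalois.fixedField_bot (k := M) (K := C)]
      intro g
      exact h1 g
    rw [IntermediateField.mem_bot] at h2
    obtain ⟨a, ha⟩ := h2
    exact ⟨⟨b, mem_OM.mpr (by rw [← ha]; exact a.2)⟩, rfl⟩
  let Q : Ideal (OC C) := maximalIdeal (OC C)
  haveI : Q.IsPrime := inferInstanceAs (maximalIdeal (OC C)).IsPrime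
  let P : Ideal (OM M) := Q.under (OM M)
  have hpow : ∀ x y : (OC C ⧸ Q), (x + y) ^ p ^ a = x ^ p ^ a + y ^ p ^ a := by
    intro x y
    exact add_pow_char_pow (R := Ct C) x y p a
  let f0 : (OC C ⧸ Q) →+* (OC C ⧸ Q) :=
    { toFun := fun x => x ^ p ^ a
      map_one' := one_pow _
      map_mul' := fun x y => mul_pow x y _
      map_zero' := zero_pow (pow_ne_zero _ hp.ne_zero)
      map_add' := hpow }
  have hf0 : ∀ x, f0 x = x ^ p ^ a := fun x => rfl
  have hbij : Function.Bijective f0 := by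
    constructor
    · exact (RingHom.injective (R := Ct C) (S := Ct C) f0)
    · intro y
      obtain ⟨z, hz⟩ := exists_pow_Ct (C := C) (n := p ^ a) (pow_ne_zero _ hp.ne_zero) y
      exact ⟨z, hz⟩
  let f : (OC C ⧸ Q) ≃+* (OC C ⧸ Q) := RingEquiv.ofBijective f0 hbij
  have hcomm : ∀ x : OM M ⧸ P, f (algebraMap (OM M ⧸ P) (OC C ⧸ Q) x) =
      algebraMap (OM M ⧸ P) (OC C ⧸ Q) x := by
    intro x
    obtain ⟨b, rfl⟩ := Ideal.Quotient.mk_surjective x
    have h1 : algebraMap (OM M ⧸ P) (OC C ⧸ Q) (Ideal.Quotient.mk P b) =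
        Ideal.Quotient.mk Q (b : OC C) := rfl
    rw [h1]
    show (Ideal.Quotient.mk Q (b : OC C)) ^ p ^ a = Ideal.Quotient.mk Q (b : OC C)
    refine ha (rcHom C (b : OC C)) ?_
    exact ⟨b, b.2, rfl⟩
  let σ : (OC C ⧸ Q) ≃ₐ[OM M ⧸ P] (OC C ⧸ Q) := AlgEquiv.ofRingEquiv (f := f) hcomm
  obtain ⟨⟨g, hg⟩, hgσ⟩ := Ideal.Quotient.stabilizerHom_surjective_of_profinite
    (G := C ≃ₐ[M] C) P Q σ
  refine ⟨g, fun c hc => ?_⟩
  have h1 : Ideal.Quotient.stabilizerHom Q P (C ≃ₐ[M] C) ⟨g, hg⟩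
      (Ideal.Quotient.mk Q (⟨c, hc⟩ : OC C)) = (Ideal.Quotient.mk Q (⟨c, hc⟩ : OC C)) ^ p ^ a := by
    rw [hgσ]
    rfl
  have h2 : Ideal.Quotient.stabilizerHom Q P (C ≃ₐ[M] C) ⟨g, hg⟩
      (Ideal.Quotient.mk Q (⟨c, hc⟩ : OC C)) = Ideal.Quotient.mk Q (g • (⟨c, hc⟩ : OC C)) := rfl
  rw [h2] at h1
  have h3 := rcHom_apply (C := C) (g • (⟨c, hc⟩ : OC C))
  have h4 := rcHom_apply (C := C) (⟨c, hc⟩ : OC C)
  rw [hcoe] at h3
  have h5 : rcHom C (g • (⟨c, hc⟩ : OC C)) = rcHom C (⟨c, hc⟩ : OC C) ^ p ^ a := h1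
  rw [h3, h4] at h5
  exact h5

/-- **constants**: residue field and Frobenius of a finite extension -/
theorem exists_frob (M : IntermediateField k C) [FiniteDimensional k M] (p : ℕ) [Fact p.Prime]
    [CharP (Ct C) p] : ∃ a : ℕ, a ≠ 0 ∧
      (∀ s : C ≃ₐ[k] C, (∀ c ∈ M, s c = c) → ∀ c : C, ‖c‖₊ ≤ 1 → rc c ^ p ^ a = rc c →
        rc (s c) = rc c) ∧
      ∃ s : C ≃ₐ[k] C, (∀ c ∈ M, s c = c) ∧ ∀ c : C, ‖c‖₊ ≤ 1 → rc (s c) = rc c ^ p ^ a := by
  obtain ⟨a, ha0, ha⟩ := exists_card M p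
  refine ⟨a, ha0, fun s hs c hc h => rc_of_fixed hs hc ((ha _).mp h), ?_⟩
  obtain ⟨s, hs⟩ := exists_frob_aux M p a fun y hy => (ha y).mpr hy
  exact ⟨s.restrictScalars k, fun c hc => s.commutes ⟨c, hc⟩, hs⟩

end gal

end Crest.Agent.R013.Desc_372
end

-- ▼ part R013/Desc7_372
section

/-!
# R013 / SS-DESC, part 7 (helper372): residue fields descend

`w : Nm C K` with `kap w` finitely generated over `Ct C`: for `k'` large `kap w` is spanned over
`Ct C` by the reductions of the functions of `lev K₀ K k'`.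
-/

set_option autoImplicit false
set_option linter.all false

namespace Crest.Agent.R013.Desc_372

open scoped NNReal
open IsLocalRing Crest.Agent.R013.Red332 Crest.Agent.R013.DEm_719

section abstract

/-- a field generated by a subfield and integral constants is spanned by the subfield -/
theorem span_top_of_gen {κ L : Type*} [Field κ] [Field L] [Algebra κ L] (F : Subfield L)
    (hint : ∀ y : κ, IsIntegral ℤ y) (T : Set L) (hT : IntermediateField.adjoin κ T = ⊤)
    (hTF : T ⊆ F) : Submodule.span κ (F : Set L) = ⊤ := by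
  let A : Subalgebra κ L := Algebra.adjoin κ (F : Set L)
  have hFA : ∀ x ∈ F, x ∈ A := fun x hx => Algebra.subset_adjoin hx
  have hI : ∀ x ∈ A, IsIntegral F x := by
    intro x hx
    induction hx using Algebra.adjoin_induction with
    | mem x hx => exact isIntegral_algebraMap (R := F) (x := ⟨x, hx⟩)
    | algebraMap r =>
      have h1 : IsIntegral ℤ (algebraMap κ L r) := (hint r).map (algebraMap κ L).toIntAlgHom
      exact h1.tower_top
    | add x y _ _ hx hy => exact hx.add hy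
    | mul x y _ _ hx hy => exact hx.mul hy
  let A' : Subalgebra F L :=
    { A.toSubring.toSubsemiring with
      algebraMap_mem' := fun r => hFA r.1 r.2 }
  have hinv : ∀ x ∈ A, x⁻¹ ∈ A := by
    intro x hx
    have h1 : x ∈ A' := hx
    exact (hI x hx).inv_mem h1
  have htop : (⊤ : IntermediateField κ L) ≤ A.toIntermediateField hinv := by
    rw [← hT, IntermediateField.adjoin_le_iff]
    exact fun x hx => hFA x (hTF hx)
  have hspan : Subalgebra.toSubmodule A = Submodule.span κ (F : Set L) := by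
    have h1 := Algebra.adjoin_eq_span κ (F : Set L)
    have h2 : (Submonoid.closure (F : Set L) : Set L) = (F : Set L) := by
      apply le_antisymm
      · have h3 : Submonoid.closure (F : Set L) ≤ F.toSubring.toSubmonoid :=
          Submonoid.closure_le.mpr le_rfl
        exact h3
      · exact Submonoid.subset_closure
    rw [h2] at h1
    exact h1
  rw [← hspan, eq_top_iff]
  intro x _
  exact htop (x := x) trivial

end abstract

section redSub

variable {C K : Type*} [NormedField C] [IsUltrametricDist C] [Field K] [Algebra C K]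

/-- the residue field of a subfield, inside the residue field -/
noncomputable def redSub (w : Nm C K) (F : Subfield K) : Subfield (kap w) where
  carrier := {y | ∃ f ∈ F, w.v f ≤ 1 ∧ red w f = y}
  mul_mem' := by
    rintro _ _ ⟨f, hf, hf1, rfl⟩ ⟨g, hg, hg1, rfl⟩
    exact ⟨f * g, F.mul_mem hf hg, by rw [map_mul]; exact mul_le_one' hf1 hg1,
      red_mul w hf1 hg1⟩
  one_mem' := ⟨1, F.one_mem, by simp, red_one w⟩
  add_mem' := by
    rintro _ _ ⟨f, hf, hf1, rfl⟩ ⟨g, hg, hg1, rfl⟩
    exact ⟨f + g, F.add_mem hf hg, (w.v.map_add f g).trans (max_le hf1 hg1),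
      red_add w hf1 hg1⟩
  zero_mem' := ⟨0, F.zero_mem, by simp, red_zero w⟩
  neg_mem' := by
    rintro _ ⟨f, hf, hf1, rfl⟩
    exact ⟨-f, F.neg_mem hf, by rw [Valuation.map_neg]; exact hf1, red_neg w f⟩
  inv_mem' := by
    rintro _ ⟨f, hf, hf1, rfl⟩
    rcases eq_or_lt_of_le hf1 with h1 | h1
    · exact ⟨f⁻¹, F.inv_mem hf, by rw [map_inv₀, h1, inv_one], red_inv w h1⟩
    · have h2 : red w f = 0 := (red_eq_zero_iff w hf1).mpr h1
      rw [h2, inv_zero]
      exact ⟨0, F.zero_mem, by simp, red_zero w⟩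


end redSub

section integral

variable {k C : Type*} [NontriviallyNormedField k] [LocallyCompactSpace k]
  [NormedField C] [IsUltrametricDist C] [NormedAlgebra k C] [Algebra.IsAlgebraic k C]

variable (k) in
include k in
/-- the residue field of `C` is integral over `ℤ` -/
theorem isIntegral_Ct (y : Ct C) : IsIntegral ℤ y := by
  obtain ⟨c, hc, rfl⟩ := rc_surj y
  let M : IntermediateField k C := IntermediateField.adjoin k {c}
  haveI : FiniteDimensional k M :=
    IntermediateField.adjoin.finiteDimensional (Algebra.IsAlgebraic.isAlgebraic c).isIntegral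
  haveI := finite_resSub M
  have h1 : rc c ∈ resSub M :=
    mem_resSub.mpr ⟨c, IntermediateField.mem_adjoin_simple_self k c, hc, rfl⟩
  have h2 : IsIntegral ℤ (⟨rc c, h1⟩ : resSub M) := Algebra.IsIntegral.isIntegral _
  exact h2.map (resSub M).subtype.toIntAlgHom

end integral

section main

variable {k C K : Type*} [NontriviallyNormedField k] [LocallyCompactSpace k]
  [NormedField C] [IsUltrametricDist C] [NormedAlgebra k C] [Algebra.IsAlgebraic k C]
  [Field K] [Algebra C K]
variable {k₁ K₀ : Type*} [Field k₁] [Field K₀] [Algebra k₁ C]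
  [Algebra k₁ K₀] [Algebra K₀ K] [Algebra k₁ K] [IsScalarTower k₁ C K] [IsScalarTower k₁ K₀ K]

variable (k k₁ K₀) in
include k in
/-- **(SPAN)** the residue field is spanned by reductions of functions of a finite level -/
theorem exists_span [CE k₁ C K₀ K] (w : Nm C K)
    (hfg : (⊤ : IntermediateField (Ct C) (kap w)).FG) :
    ∃ k' : IntermediateField k₁ C, FiniteDimensional k₁ k' ∧ ∀ k'', k' ≤ k'' →
      Submodule.span (Ct C) {y : kap w | ∃ f ∈ CE.lev K₀ K k'', w.v f ≤ 1 ∧ red w f = y} = ⊤ := by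
  obtain ⟨T, hT⟩ := hfg
  choose g hg1 hg2 using fun y : kap w => red_surj w y
  obtain ⟨k', hk, hk'⟩ := CE.exists_lev (k := k₁) (C := C) (K₀ := K₀) (K := K) (g '' (T : Set (kap w)))
    (T.finite_toSet.image g)
  refine ⟨k', hk, fun k'' hkk => ?_⟩
  exact span_top_of_gen (redSub w (CE.lev K₀ K k'').toSubfield) (fun y => isIntegral_Ct k y)
    (T : Set (kap w)) hT fun y hy =>
      ⟨g y, (CE.lev_mono (K₀ := K₀) (K := K) hkk) (hk' ⟨y, hy, rfl⟩), hg1 y, hg2 y⟩

end main

end Crest.Agent.R013.Desc_372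
end

-- ▼ part R013/Desc8_372

/-!
# R013 / SS-DESC, part 8 (helper372): the descent input of `TPS` (928)

`Lvl S k₁ K₀ k' D` : the semistable structure `S` is defined over `k'` (719's `Def`) and the residue
fields of the vertices are spanned by reductions of functions of the level `k'`.
`exists_lvl` : such a level exists, and every larger level is one.
For `G = Gam K₀ K k'`: `si` (the semilinear automorphism), `Lvl.gal_v`, `gal_e0`, `gal_e1`,
`exists_a` (`res`, `frob`, `frob_res`), `Lvl.span_fixed`, `comm_of_lev` (`cov_gal`), and the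
constructor `Lvl.tps` of `TPS`.
-/

set_option autoImplicit false
set_option linter.all false

namespace Crest.Agent.R013.Desc_372

open scoped NNReal
open WithZero Module
open Crest.Agent.R013.RR7_948 Crest.Agent.R013.Red332 Crest.Agent.R013.SSK_332
  Crest.Agent.R013.DEm_719 Crest.Agent.R013.Frob1_914 Crest.Agent.R013.PicD_398
  Crest.Agent.R013.TP_928

/-! ### semilinear automorphisms -/

section si

variable {C K : Type*} [Field C] [Field K] [Algebra C K]
variable (k₁ : Type*) {K₀ : Type*} [Field k₁] [Field K₀] [Algebra k₁ C]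
  [Algebra k₁ K₀] [Algebra K₀ K] [Algebra k₁ K] [IsScalarTower k₁ C K] [IsScalarTower k₁ K₀ K]

/-- the semilinear automorphism given by an automorphism over `K₀` -/
noncomputable def si [Normal k₁ C] (g : K ≃ₐ[K₀] K) : SI C K C K where
  s := (CE.res k₁ C K₀ K g).toRingEquiv
  f := g.toRingEquiv
  comm c := (CE.algebraMap_res k₁ C K₀ K g c).symm

@[simp] theorem si_f [Normal k₁ C] (g : K ≃ₐ[K₀] K) (f : K) : (si k₁ g : SI C K C K).f f = g f := rfl

theorem si_s [Normal k₁ C] (g : K ≃ₐ[K₀] K) (c : C) :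
    (si k₁ g : SI C K C K).s c = CE.res k₁ C K₀ K g c := rfl

end si

section comm

variable {k₁ C K₀ K : Type*} [Field k₁] [Field C] [Field K₀] [Field K] [Algebra k₁ C]
  [Algebra k₁ K₀] [Algebra C K] [Algebra K₀ K] [Algebra k₁ K] [IsScalarTower k₁ C K]
  [IsScalarTower k₁ K₀ K]

/-- an automorphism over `C` which maps `K₀` into the level `k'` commutes with `Gam k'` -/
theorem comm_of_lev [CE k₁ C K₀ K] [Normal k₁ C] {k' : IntermediateField k₁ C} (α : K →ₐ[C] K)
    (h : ∀ f : K₀, α (algebraMap K₀ K f) ∈ CE.lev K₀ K k') {g : K ≃ₐ[K₀] K}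
    (hg : g ∈ CE.Gam K₀ K k') (f : K) : α (g f) = g (α f) := by
  have h1 : (α : K →+* K).comp (g : K →+* K) = (g : K →+* K).comp (α : K →+* K) := by
    refine CE.ringHom_ext k₁ C K₀ K ?_ ?_
    · intro c
      show α (g (algebraMap C K c)) = g (α (algebraMap C K c))
      rw [α.commutes, ← CE.algebraMap_res k₁ C K₀ K g c, α.commutes]
    · intro f
      show α (g (algebraMap K₀ K f)) = g (α (algebraMap K₀ K f))
      rw [g.commutes, CE.mem_Gam'.mp hg _ (h f)]
  exact congrArg (fun φ : K →+* K => φ f) h1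


end comm

section inherit

variable {C K Y : Type*} [NormedField C] [IsUltrametricDist C] [Field K] [Algebra C K]
  [Field Y] [Algebra C Y] [Algebra K Y] [IsScalarTower C K Y]


end inherit

/-! ### levels of a semistable structure -/

section lvl

variable {k C K : Type*} [NontriviallyNormedField k] [CompleteSpace k] [IsUltrametricDist k]
    [NormedField C] [IsUltrametricDist C] [NormedAlgebra k C] [Algebra.IsAlgebraic k C]
    [Field K] [Algebra C K] (S : SSK k C K)

variable (k₁ K₀ : Type*) [Field k₁] [Field K₀] [Algebra k k₁] [Algebra k₁ C] [IsScalarTower k k₁ C]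
  [Algebra k₁ K₀] [Algebra K₀ K] [Algebra k₁ K] [IsScalarTower k₁ C K] [IsScalarTower k₁ K₀ K]

/-- `S` is defined over `k'`, with its residue fields, including the directions in `D` -/
structure Lvl [CE k₁ C K₀ K] (k' : IntermediateField k₁ C) (D : Set S.Dir) : Prop where
  df : Def S k₁ K₀ k' D
  span : ∀ v, Submodule.span (Ct C) {y : kap (S.nm v) | ∃ f ∈ CE.lev K₀ K k',
    (S.nm v).v f ≤ 1 ∧ red (S.nm v) f = y} = ⊤

variable {S k₁ K₀}

theorem Lvl.mono [CE k₁ C K₀ K] {k' k'' : IntermediateField k₁ C} {D : Set S.Dir} (h : k' ≤ k'')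
    (H : Lvl S k₁ K₀ k' D) : Lvl S k₁ K₀ k'' D where
  df := H.df.mono h
  span v := by
    rw [eq_top_iff, ← H.span v]
    refine Submodule.span_mono ?_
    rintro y ⟨f, hf, h1, h2⟩
    exact ⟨f, CE.lev_mono (K₀ := K₀) (K := K) h hf, h1, h2⟩

theorem ff_fg (v : S.V) : (⊤ : IntermediateField (Ct C) (kap (S.nm v))).FG := by
  obtain ⟨i, h1, h2, h3⟩ := S.ff v
  letI := i
  exact fg_of_ratFunc (Ct C) (kap (S.nm v))

variable (S)

/-- **(LVL)** every semistable structure is defined over a finite level, with its residue fields -/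
theorem exists_lvl [LocallyCompactSpace k] [CE k₁ C K₀ K] (hfg : (⊤ : IntermediateField k₁ K₀).FG)
    (D : Set S.Dir) (hD : D.Finite) : ∃ (k' : IntermediateField k₁ C) (D' : Set S.Dir),
      FiniteDimensional k₁ k' ∧ D'.Finite ∧ D ⊆ D' ∧ Lvl S k₁ K₀ k' D' := by
  classical
  haveI := S.fV
  obtain ⟨k₂, D', h1, h2, h3, h4⟩ := exists_def S (k₁ := k₁) (K₀ := K₀) hfg D hD
  choose k₃ h5 h6 using fun v => exists_span k k₁ K₀ (S.nm v) (ff_fg (S := S) v)
  haveI := h1
  haveI := h5
  haveI : FiniteDimensional k₁ (⨆ v, k₃ v : IntermediateField k₁ C) := inferInstance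
  refine ⟨k₂ ⊔ ⨆ v, k₃ v, D', inferInstance, h2, h3, h4.mono le_sup_left, fun v => ?_⟩
  exact h6 v _ ((le_iSup k₃ v).trans le_sup_right)

variable {S}

section conseq

variable [CE k₁ C K₀ K] [Normal k₁ C] {k' : IntermediateField k₁ C} {D : Set S.Dir}

theorem Lvl.gal_v (H : Lvl S k₁ K₀ k' D) (g : CE.Gam K₀ K k') (v : S.V) (f : K) :
    (S.nm v).v ((si k₁ g.1 : SI C K C K).f f) = (S.nm v).v f := H.df.nm g.2 v f

theorem Lvl.gal_e0 (H : Lvl S k₁ K₀ k' D) (g : CE.Gam K₀ K k') (e : S.Ed) (f : K) :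
    ord S (S.e0 e) ((si k₁ g.1 : SI C K C K).f f) = ord S (S.e0 e) f :=
  H.df.od g.2 (H.df.e0_mem e) f

theorem Lvl.gal_e1 (H : Lvl S k₁ K₀ k' D) (g : CE.Gam K₀ K k') (e : S.Ed) (f : K) :
    ord S (S.e1 e) ((si k₁ g.1 : SI C K C K).f f) = ord S (S.e1 e) f :=
  H.df.od g.2 (H.df.e1_mem e) f

theorem Lvl.span_fixed (H : Lvl S k₁ K₀ k' D) (v : S.V) :
    Submodule.span (Ct C) {y : kap (S.nm v) | ∃ f : K, (S.nm v).v f ≤ 1 ∧
    (∀ g : CE.Gam K₀ K k', (si k₁ g.1 : SI C K C K).f f = f) ∧ Red332.red (S.nm v) f = y} = ⊤ := by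
  rw [eq_top_iff, ← H.span v]
  refine Submodule.span_mono ?_
  rintro y ⟨f, hf, h1, h2⟩
  exact ⟨f, h1, fun g => CE.mem_Gam'.mp g.2 f hf, h2⟩

end conseq

end lvl

section frob

variable {k C K : Type*} [NontriviallyNormedField k] [CompleteSpace k] [IsUltrametricDist k]
    [LocallyCompactSpace k]
    [NormedField C] [IsUltrametricDist C] [NormedAlgebra k C] [Algebra.IsAlgebraic k C]
    [IsAlgClosed C] [IsGalois k C] [Field K] [Algebra C K]
variable {k₁ K₀ : Type*} [Field k₁] [Field K₀] [Algebra k k₁] [Algebra k₁ C] [IsScalarTower k k₁ C]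
  [Algebra k₁ K₀] [Algebra K₀ K] [Algebra k₁ K] [IsScalarTower k₁ C K] [IsScalarTower k₁ K₀ K]
  [CE k₁ C K₀ K] [Normal k₁ C] [FiniteDimensional k k₁]

variable (k K₀ K) in
include k in
/-- **(FROB)** `res`, `frob`, `frob_res` for the group `Gam K₀ K k'` -/
theorem exists_a (k' : IntermediateField k₁ C) [FiniteDimensional k₁ k'] (p : ℕ) [Fact p.Prime]
    [CharP (Ct C) p] : ∃ a : ℕ, a ≠ 0 ∧
      (∀ (g : CE.Gam K₀ K k') (c : C), ‖c‖₊ ≤ 1 → (rc c) ^ p ^ a = rc c →
        rc ((si k₁ g.1 : SI C K C K).s c) = rc c) ∧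
      ∃ g : CE.Gam K₀ K k', ∀ c : C, ‖c‖₊ ≤ 1 →
        rc ((si k₁ g.1 : SI C K C K).s c) = (rc c) ^ p ^ a := by
  haveI : FiniteDimensional k (k'.restrictScalars k) := FiniteDimensional.trans k k₁ k'
  obtain ⟨a, ha0, h1, s, hs, h2⟩ := exists_frob (k := k) (k'.restrictScalars k) p
  refine ⟨a, ha0, fun g c hc h => ?_, ?_⟩
  · exact h1 (rs k (k₁ := k₁) g.1) (fun c hc => rs_fix g.2 hc) c hc h
  · let s₁ : C ≃ₐ[k₁] C := AlgEquiv.ofRingEquiv (f := s.toRingEquiv) fun x =>
      hs (algebraMap k₁ C x) (k'.algebraMap_mem x)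
    refine ⟨⟨CE.lift k₁ C K₀ K s₁, ?_⟩, fun c hc => ?_⟩
    · rw [CE.mem_Gam]
      intro c hc
      rw [CE.lift_algebraMap]
      exact congrArg (algebraMap C K) (hs c hc)
    · rw [si_s, CE.res_lift]
      exact h2 c hc

end frob

section tps

variable {k C K : Type*} [NontriviallyNormedField k] [CompleteSpace k] [IsUltrametricDist k]
    [LocallyCompactSpace k]
    [NormedField C] [IsUltrametricDist C] [NormedAlgebra k C] [Algebra.IsAlgebraic k C]
    [IsAlgClosed C] [IsGalois k C] [Field K] [Algebra C K] [Algebra (RatFunc C) K]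
    [IsScalarTower C (RatFunc C) K] [FiniteDimensional (RatFunc C) K]
    [Algebra.IsSeparable (RatFunc C) K]
variable {k₁ K₀ : Type*} [Field k₁] [Field K₀] [Algebra k k₁] [Algebra k₁ C] [IsScalarTower k k₁ C]
  [Algebra k₁ K₀] [Algebra K₀ K] [Algebra k₁ K] [IsScalarTower k₁ C K] [IsScalarTower k₁ K₀ K]
  [CE k₁ C K₀ K] [Normal k₁ C] [FiniteDimensional k k₁]
  (p : ℕ) [hp : Fact p.Prime] [CharP (Ct C) p]
  {S : SSK k C K} {k' : IntermediateField k₁ C} {D : Set S.Dir}

/-- **TPS from a level** -/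
noncomputable def Lvl.tps (H : Lvl S k₁ K₀ k' D) [FiniteDimensional k₁ k'] {A W : Type*}
    [AddCommGroup W] [Module ℤ_[p] W] [Group A] [Fintype A] [MulAction A S.Ed]
    (cov : A →* (K ≃ₐ[C] K))
    (hcov : ∀ α (f : K₀), cov α (algebraMap K₀ K f) ∈ CE.lev K₀ K k')
    (cov_v : ∀ α w, ∃ w', ∀ f, (S.nm w).v (cov α f) = (S.nm w').v f)
    (cov_e0 : ∀ (α : A) e f, f ≠ 0 → ord S (S.e0 (α • e)) (cov α f) = ord S (S.e0 e) f)
    (c : A → ℤ_[p]) (idem : ∀ α, ∑ β, c β * c (β⁻¹ * α) = c α)
    (gW : CE.Gam K₀ K k' → W →ₗ[ℤ_[p]] W) (om : Tate p (Pic C K) →ₗ[ℤ_[p]] W)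
    (om_gal : ∀ g u, om (Tate.map (((si k₁ g.1 : SI C K C K)).pic : Pic C K →+ Pic C K) u) =
      gW g (om u)) :
    TPS p S (CE.Gam K₀ K k') A W where
  gal g := si k₁ g.1
  gal_v g v f := H.gal_v g v f
  gal_e0 g e f _ := H.gal_e0 g e f
  gal_e1 g e f _ := H.gal_e1 g e f
  a := (exists_a k K K₀ k' p).choose
  ha := (exists_a k K K₀ k' p).choose_spec.1
  res := (exists_a k K K₀ k' p).choose_spec.2.1
  frob := (exists_a k K K₀ k' p).choose_spec.2.2.choose
  frob_res := (exists_a k K K₀ k' p).choose_spec.2.2.choose_spec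
  span v := H.span_fixed v
  cov := cov
  cov_gal α g f := comm_of_lev (cov α : K →ₐ[C] K) (hcov α) g.2 f
  cov_v := cov_v
  cov_e0 := cov_e0
  c := c
  idem := idem
  gW := gW
  om := om
  om_gal := om_gal

end tps

end Crest.Agent.R013.Desc_372
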