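import Crest.Agent.R013.Gl1_946

-- ▼ part R013/Gl4_946
section

/-!
# Patching, part 4: pure algebra. Patching data, common basis, extension of homomorphisms.
-/

set_option autoImplicit false

namespace Crest.Agent.R013.Gl946

open Module

/-- An abstract patching datum: `F0 = FP ∩ RU` and `GL_n(E) = GL_n(RU) GL_n(FP)`. -/
structure PatchDatum (E : Type*) [Field E] where
  F0 : Subfield E
  FP : Subfield E
  RU : Subring E
  F0_le_FP : F0 ≤ FP
  F0_le_RU : ∀ z ∈ F0, z ∈ RU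
  inter : ∀ z ∈ FP, z ∈ RU → z ∈ F0
  fac : ∀ (n : ℕ) (M M' : Matrix (Fin n) (Fin n) E), M * M' = 1 →
    ∃ P Q : Matrix (Fin n) (Fin n) E, GLin RU P ∧ GLin FP.toSubring Q ∧ M = P * Q

section Coords

variable {E V ι : Type*} [Field E] [AddCommGroup V] [Module E V]

/-- Vectors with coordinates in a subring. -/
def cs (b : Basis ι E V) (S : Subring E) : AddSubgroup V where
  carrier := {v | ∀ i, b.repr v i ∈ S}
  add_mem' := by
    intro v w hv hw i
    rw [map_add, Finsupp.add_apply]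
    exact S.add_mem (hv i) (hw i)
  zero_mem' := by intro i; rw [map_zero]; exact S.zero_mem
  neg_mem' := by
    intro v hv i
    rw [map_neg, Finsupp.neg_apply]
    exact S.neg_mem (hv i)


theorem basis_mem_cs (b : Basis ι E V) (S : Subring E) (i : ι) : b i ∈ cs b S := by
  classical
  intro j
  rw [Basis.repr_self, Finsupp.single_apply]
  split_ifs
  · exact S.one_mem
  · exact S.zero_mem

theorem smul_mem_cs (b : Basis ι E V) (S : Subring E) {z : E} (hz : z ∈ S) {v : V}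
    (hv : v ∈ cs b S) : z • v ∈ cs b S := by
  intro i
  rw [map_smul, Finsupp.smul_apply, smul_eq_mul]
  exact S.mul_mem hz (hv i)

theorem cs_mono (b : Basis ι E V) {S T : Subring E} (h : S ≤ T) {v : V} (hv : v ∈ cs b S) :
    v ∈ cs b T := fun i => h (hv i)

/-- **Common basis (G3).** -/
theorem common_basis (D : PatchDatum E) {n : ℕ} (bU bP : Basis (Fin n) E V) :
    ∃ b : Basis (Fin n) E V, cs b D.RU = cs bU D.RU ∧ cs b D.FP.toSubring = cs bP D.FP.toSubring := by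
  classical
  obtain ⟨P, Q, ⟨P', hP1, hP2, hP3, hP4⟩, ⟨Q', hQ1, hQ2, hQ3, hQ4⟩, hM⟩ :=
    D.fac n (bU.toMatrix bP) (bP.toMatrix bU) (Basis.toMatrix_mul_toMatrix_flip _ _)
  set b : Basis (Fin n) E V := Basis.ofEquivFun
    (bU.equivFun.trans (Matrix.toLin'OfInv hP3 hP4)) with hb
  have h1 : ∀ v, b.equivFun v = P'.mulVec (bU.equivFun v) := by
    intro v
    rw [hb, Basis.equivFun_ofEquivFun, LinearEquiv.trans_apply]
    rfl
  have h1' : ∀ v, bU.equivFun v = P.mulVec (b.equivFun v) := by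
    intro v
    rw [h1, Matrix.mulVec_mulVec, hP3, Matrix.one_mulVec]
  have h2 : ∀ v, bU.equivFun v = (P * Q).mulVec (bP.equivFun v) := by
    intro v
    rw [← hM]
    exact (Basis.toMatrix_mulVec_repr bP bU v).symm
  have h3 : ∀ v, b.equivFun v = Q.mulVec (bP.equivFun v) := by
    intro v
    rw [h1, h2, Matrix.mulVec_mulVec, ← Matrix.mul_assoc, hP4, Matrix.one_mul]
  have h3' : ∀ v, bP.equivFun v = Q'.mulVec (b.equivFun v) := by
    intro v
    rw [h3, Matrix.mulVec_mulVec, hQ4, Matrix.one_mulVec]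
  have hmul : ∀ (S : Subring E) (N : Matrix (Fin n) (Fin n) E) (x : Fin n → E),
      (∀ i j, N i j ∈ S) → (∀ i, x i ∈ S) → ∀ i, N.mulVec x i ∈ S := by
    intro S N x hN hx i
    rw [Matrix.mulVec, dotProduct]
    exact S.sum_mem fun j _ => S.mul_mem (hN i j) (hx j)
  refine ⟨b, ?_, ?_⟩
  · ext v
    constructor
    · intro hv i
      have := hmul D.RU P (b.equivFun v) hP1 (fun j => hv j) i
      rw [← h1'] at this
      exact this
    · intro hv i
      have := hmul D.RU P' (bU.equivFun v) hP2 (fun j => hv j) i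
      rw [← h1] at this
      exact this
  · ext v
    constructor
    · intro hv i
      have := hmul D.FP.toSubring Q' (b.equivFun v) hQ2 (fun j => hv j) i
      rw [← h3'] at this
      exact this
    · intro hv i
      have := hmul D.FP.toSubring Q (bP.equivFun v) hQ1 (fun j => hv j) i
      rw [← h3] at this
      exact this

end Coords

section Ext

variable {E V ι : Type*} [Field E] [CommRing V] [Algebra E V] [Fintype ι]

/-- **Extension of homomorphisms.** `b` an `E`-basis of the `E`-algebra `V` whose `F0`-span `A`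
is a subring; `S ⊇ F0` a subring of `E` with `cs b S` a subring.  A ring hom `φ : S → Ω` and a ring
hom `g : A → Ω` agreeing on `F0` extend to `cs b S → Ω`. -/
theorem ext_hom (b : Basis ι E V) (F0 S : Subring E) (h0 : F0 ≤ S)
    (A VS : Subring V) (hA : ∀ v, v ∈ A ↔ v ∈ cs b F0) (hVS : ∀ v, v ∈ VS ↔ v ∈ cs b S)
    {Ω : Type*} [CommRing Ω] (φ : S →+* Ω) (g : A →+* Ω)
    (hF0A : ∀ z ∈ F0, algebraMap E V z ∈ A)
    (hcomp : ∀ (z : E) (hz : z ∈ F0), g ⟨algebraMap E V z, hF0A z hz⟩ = φ ⟨z, h0 hz⟩) :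
    ∃ Φ : VS →+* Ω, (∀ (a : V) (ha : a ∈ A) (ha' : a ∈ VS), Φ ⟨a, ha'⟩ = g ⟨a, ha⟩) ∧
      (∀ (z : E) (hz : z ∈ S) (hz' : algebraMap E V z ∈ VS), Φ ⟨algebraMap E V z, hz'⟩ = φ ⟨z, hz⟩) ∧
      (∀ (v : VS), Φ v = ∑ i, φ ⟨b.repr v.1 i, (hVS v.1).1 v.2 i⟩ *
        g ⟨b i, (hA _).2 (basis_mem_cs b F0 i)⟩) := by
  classical
  have hbA : ∀ i, b i ∈ A := fun i => (hA _).2 (basis_mem_cs b F0 i)
  -- the function
  set Φ0 : VS → Ω := fun v => ∑ i, φ ⟨b.repr v.1 i, (hVS v.1).1 v.2 i⟩ * g ⟨b i, hbA i⟩ with hΦ0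
  have hadd : ∀ v w, Φ0 (v + w) = Φ0 v + Φ0 w := by
    intro v w
    simp only [hΦ0, ← Finset.sum_add_distrib, ← add_mul]
    refine Finset.sum_congr rfl fun i _ => ?_
    rw [← map_add]
    congr 2
    ext
    simp
  have hgA : ∀ (a : V) (ha : a ∈ A) (ha' : a ∈ VS), Φ0 ⟨a, ha'⟩ = g ⟨a, ha⟩ := by
    intro a ha ha'
    simp only [hΦ0]
    have h1 : ∀ i, φ ⟨b.repr a i, (hVS a).1 ha' i⟩ * g ⟨b i, hbA i⟩ =
        g (⟨algebraMap E V (b.repr a i), hF0A _ ((hA a).1 ha i)⟩ * ⟨b i, hbA i⟩) := by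
      intro i
      rw [map_mul, hcomp _ ((hA a).1 ha i)]
    rw [Finset.sum_congr rfl fun i _ => h1 i, ← map_sum]
    congr 1
    ext
    push_cast
    conv_rhs => rw [← b.sum_repr a]
    exact Finset.sum_congr rfl fun i _ => (Algebra.smul_def _ _).symm
  have hsmul : ∀ (z : E) (hz : z ∈ S) (v : VS) (hzv : z • v.1 ∈ VS),
      Φ0 ⟨z • v.1, hzv⟩ = φ ⟨z, hz⟩ * Φ0 v := by
    intro z hz v hzv
    simp only [hΦ0, Finset.mul_sum]
    refine Finset.sum_congr rfl fun i _ => ?_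
    rw [← mul_assoc, ← map_mul]
    congr 2
    ext
    simp
  have hAVS : ∀ a ∈ A, a ∈ VS := fun a ha => (hVS a).2 (cs_mono b h0 ((hA a).1 ha))
  have hsVS : ∀ (z : E), z ∈ S → ∀ v ∈ VS, z • v ∈ VS := fun z hz v hv =>
    (hVS _).2 (smul_mem_cs b S hz ((hVS v).1 hv))
  have hsum : ∀ {κ : Type _} (s : Finset κ) (f : κ → VS), Φ0 (∑ i ∈ s, f i) = ∑ i ∈ s, Φ0 (f i) := by
    intro κ s f
    have h0' : Φ0 0 = 0 := by
      have := hadd 0 0
      rw [add_zero] at this
      exact left_eq_add.1 this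
    induction s using Finset.induction_on with
    | empty => simpa using h0'
    | insert a s ha ih => rw [Finset.sum_insert ha, Finset.sum_insert ha, hadd, ih]
  -- multiplicativity on basis products
  have hmulb : ∀ (i j : ι), Φ0 ⟨b i * b j, hAVS _ (A.mul_mem (hbA i) (hbA j))⟩ =
      g ⟨b i, hbA i⟩ * g ⟨b j, hbA j⟩ := by
    intro i j
    rw [hgA _ (A.mul_mem (hbA i) (hbA j))]
    exact map_mul g ⟨b i, hbA i⟩ ⟨b j, hbA j⟩
  have hrepr : ∀ v : VS, v = ∑ i, (⟨b.repr v.1 i • b i,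
      hsVS _ ((hVS v.1).1 v.2 i) _ (hAVS _ (hbA i))⟩ : VS) := by
    intro v
    ext
    push_cast
    exact (b.sum_repr v.1).symm
  have hmul : ∀ v w, Φ0 (v * w) = Φ0 v * Φ0 w := by
    intro v w
    have h1 : v * w = ∑ i, ∑ j, (⟨(b.repr v.1 i * b.repr w.1 j) • (b i * b j),
        hsVS _ (S.mul_mem ((hVS v.1).1 v.2 i) ((hVS w.1).1 w.2 j)) _
          (hAVS _ (A.mul_mem (hbA i) (hbA j)))⟩ : VS) := by
      ext
      push_cast
      conv_lhs => rw [← b.sum_repr v.1, ← b.sum_repr w.1, Finset.sum_mul_sum]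
      refine Finset.sum_congr rfl fun i _ => Finset.sum_congr rfl fun j _ => ?_
      rw [smul_mul_smul_comm]
    rw [h1, hsum]
    simp only [hsum]
    have h2 : Φ0 v * Φ0 w = ∑ i, ∑ j, (φ ⟨b.repr v.1 i, (hVS v.1).1 v.2 i⟩ * g ⟨b i, hbA i⟩) *
        (φ ⟨b.repr w.1 j, (hVS w.1).1 w.2 j⟩ * g ⟨b j, hbA j⟩) := by
      simp only [hΦ0]
      rw [Finset.sum_mul_sum]
    rw [h2]
    refine Finset.sum_congr rfl fun i _ => Finset.sum_congr rfl fun j _ => ?_
    rw [hsmul _ (S.mul_mem ((hVS v.1).1 v.2 i) ((hVS w.1).1 w.2 j))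
      ⟨b i * b j, hAVS _ (A.mul_mem (hbA i) (hbA j))⟩, hmulb]
    have h3 : φ ⟨b.repr v.1 i * b.repr w.1 j,
        S.mul_mem ((hVS v.1).1 v.2 i) ((hVS w.1).1 w.2 j)⟩ =
        φ ⟨b.repr v.1 i, (hVS v.1).1 v.2 i⟩ * φ ⟨b.repr w.1 j, (hVS w.1).1 w.2 j⟩ := by
      rw [← map_mul]; rfl
    rw [h3]; ring
  have h1A : (1 : V) ∈ A := A.one_mem
  have hone : Φ0 1 = 1 := by
    have := hgA 1 h1A VS.one_mem
    have e : (⟨1, VS.one_mem⟩ : VS) = 1 := rfl
    rw [e] at this
    rw [this]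
    exact map_one g
  refine ⟨{ toFun := Φ0, map_one' := hone, map_mul' := hmul, map_zero' := ?_, map_add' := hadd },
    ?_, ?_, ?_⟩
  · have := hadd 0 0
    rw [add_zero] at this
    exact left_eq_add.1 this
  · exact hgA
  · intro z hz hz'
    have h1 := hsmul z hz 1 (by
      have : z • ((1 : VS) : V) = algebraMap E V z := by
        rw [Algebra.algebraMap_eq_smul_one]; rfl
      rw [this]; exact hz')
    rw [hone, mul_one] at h1
    rw [← h1]
    change Φ0 _ = Φ0 _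
    congr 1
    ext
    exact Algebra.algebraMap_eq_smul_one z
  · intro v; rfl

end Ext

end Crest.Agent.R013.Gl946
end

-- ▼ part R013/Gl5_946
section

/-!
# Patching, part 5: the cutting theorem, algebraic form.
-/

set_option autoImplicit false

namespace Crest.Agent.R013.Gl946

open Module TensorProduct

section Indep

variable {E V ι κ : Type*} [Field E] [AddCommGroup V] [Module E V] [Fintype ι]

/-- Vectors with coordinates in a subfield `F`, independent over `F`, are independent over `E`. -/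
theorem indep_of_indep (bU : Basis ι E V) (F : Subfield E) (w : κ → V)
    (hw : ∀ k, w k ∈ cs bU F.toSubring) (h : LinearIndependent F w) : LinearIndependent E w := by
  classical
  set w' : κ → (ι → F) := fun k i => ⟨bU.repr (w k) i, hw k i⟩ with hw'
  set g : (ι → F) →ₗ[F] V :=
    { toFun := fun x => ∑ i, (x i : E) • bU i
      map_add' := fun x y => by
        rw [← Finset.sum_add_distrib]
        exact Finset.sum_congr rfl fun i _ => by simp [add_smul]
      map_smul' := fun c x => by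
        rw [Finset.smul_sum]
        refine Finset.sum_congr rfl fun i _ => ?_
        simp only [Pi.smul_apply, smul_eq_mul, RingHom.id_apply]
        push_cast
        rw [mul_smul]; rfl } with hg
  have hgw : g ∘ w' = w := by
    funext k
    simp only [hg, hw', Function.comp, LinearMap.coe_mk, AddHom.coe_mk]
    exact bU.sum_repr (w k)
  have h1 : LinearIndependent F w' := LinearIndependent.of_comp g (by rw [hgw]; exact h)
  have h2 : LinearIndependent E (fun k => (1 : E) ⊗ₜ[F] w' k) :=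
    Module.Flat.linearIndependent_one_tmul h1
  have h3 := h2.map' (TensorProduct.piScalarRight F E E ι).toLinearMap
    (LinearMap.ker_eq_bot.2 (TensorProduct.piScalarRight F E E ι).injective)
  have h4 : LinearIndependent E (fun k => bU.equivFun (w k)) := by
    have e : (fun k => bU.equivFun (w k)) =
        (TensorProduct.piScalarRight F E E ι).toLinearMap ∘ fun k => (1 : E) ⊗ₜ[F] w' k := by
      funext k i
      simp only [Function.comp, LinearEquiv.coe_coe, TensorProduct.piScalarRight_apply,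
        TensorProduct.piScalarRightHom_tmul, hw', Basis.equivFun_apply]
      rw [Subfield.smul_def, smul_eq_mul, mul_one]
    rw [e]; exact h3
  exact LinearIndependent.of_comp bU.equivFun.toLinearMap h4

end Indep

section Cut

variable {E V : Type*} [Field E] [CommRing V] [Algebra E V]

theorem cs_eq_span {ι : Type*} [Fintype ι] (b : Basis ι E V) (F : Subfield E) (v : V) :
    v ∈ cs b F.toSubring ↔ v ∈ Submodule.span F (Set.range b) := by
  constructor
  · intro hv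
    rw [← b.sum_repr v]
    refine Submodule.sum_mem _ fun i _ => ?_
    have : b.repr v i • b i = (⟨b.repr v i, hv i⟩ : F) • b i := rfl
    rw [this]
    exact Submodule.smul_mem _ _ (Submodule.subset_span ⟨i, rfl⟩)
  · intro hv
    refine Submodule.span_induction ?_ ?_ ?_ ?_ hv
    · rintro _ ⟨i, rfl⟩
      exact basis_mem_cs b _ i
    · exact zero_mem _
    · intro x y _ _ hx hy; exact add_mem hx hy
    · intro c x _ hx
      exact smul_mem_cs b _ c.2 hx

/-- Cutting data: an `E`-algebra `V = E ⊗ L` with basis `bU` of `L` over `F0`, a subring `N ≤ L`, an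
idempotent `e` in the `FP`-span of `N` (a region of the disc side), and `n` idempotents `ε i`
splitting `e V` over `e (E N)`. -/
structure CutData (D : PatchDatum E) (V : Type*) [CommRing V] [Algebra E V] (d n : ℕ) where
  bU : Basis (Fin d) E V
  L : Subring V
  hL : ∀ v, v ∈ L ↔ v ∈ cs bU D.F0.toSubring
  N : Subring V
  hN : N ≤ L
  hF0N : ∀ z ∈ D.F0, algebraMap E V z ∈ N
  e : V
  he : e * e = e
  heN : e ∈ Submodule.span D.FP (N : Set V)
  ε : Fin n → V
  orth : ∀ i j, i ≠ j → ε i * ε j = 0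
  idem : ∀ i, ε i * ε i = ε i
  sum : ∑ i, ε i = e
  spl : ∀ i v, ∃ c ∈ Submodule.span E (N : Set V), v * ε i = c * ε i
  inj : ∀ i, ∀ c ∈ Submodule.span E (N : Set V), c * ε i = 0 → c * e = 0

namespace CutData

variable {D : PatchDatum E} {d n : ℕ} (C : CutData D V d n)

theorem span_mul {F : Subfield E} (N : Subring V) {a b : V} (ha : a ∈ Submodule.span F (N : Set V))
    (hb : b ∈ Submodule.span F (N : Set V)) : a * b ∈ Submodule.span F (N : Set V) := by
  refine Submodule.span_induction (p := fun x _ => x * b ∈ Submodule.span F (N : Set V))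
    ?_ ?_ ?_ ?_ ha
  · intro x hx
    refine Submodule.span_induction (p := fun z _ => x * z ∈ Submodule.span F (N : Set V))
      ?_ ?_ ?_ ?_ hb
    · intro z hz; exact Submodule.subset_span (N.mul_mem hx hz)
    · rw [mul_zero]; exact zero_mem _
    · intro z z' _ _ hz hz'; rw [mul_add]; exact add_mem hz hz'
    · intro c z _ hz; rw [mul_smul_comm]; exact Submodule.smul_mem _ _ hz
  · rw [zero_mul]; exact zero_mem _
  · intro z z' _ _ hz hz'; rw [add_mul]; exact add_mem hz hz'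
  · intro c z _ hz; rw [smul_mul_assoc]; exact Submodule.smul_mem _ _ hz

/-- `F`-span of `L` is closed under multiplication. -/
theorem cs_mul (F : Subfield E) (hF : D.F0 ≤ F) {a b : V} (ha : a ∈ cs C.bU F.toSubring)
    (hb : b ∈ cs C.bU F.toSubring) : a * b ∈ cs C.bU F.toSubring := by
  have hspan : ∀ v, v ∈ cs C.bU F.toSubring ↔ v ∈ Submodule.span F (C.L : Set V) := by
    intro v
    rw [cs_eq_span]
    constructor
    · intro hv
      refine Submodule.span_mono ?_ hv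
      rintro _ ⟨i, rfl⟩
      exact (C.hL _).2 (basis_mem_cs _ _ i)
    · intro hv
      rw [← cs_eq_span]
      refine Submodule.span_induction ?_ ?_ ?_ ?_ hv
      · intro x hx
        exact cs_mono C.bU (S := D.F0.toSubring) (T := F.toSubring) hF ((C.hL x).1 hx)
      · exact zero_mem _
      · intro x y _ _ hx hy; exact add_mem hx hy
      · intro c x _ hx; exact smul_mem_cs _ _ c.2 hx
  rw [hspan] at *
  exact span_mul C.L ha hb

theorem span_N_le : ∀ v ∈ Submodule.span D.FP (C.N : Set V), v ∈ cs C.bU D.FP.toSubring := by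
  intro v hv
  refine Submodule.span_induction ?_ ?_ ?_ ?_ hv
  · intro x hx
    exact cs_mono C.bU (S := D.F0.toSubring) (T := D.FP.toSubring) D.F0_le_FP
      ((C.hL x).1 (C.hN hx))
  · exact zero_mem _
  · intro x y _ _ hx hy; exact add_mem hx hy
  · intro c x _ hx; exact smul_mem_cs _ _ c.2 hx

theorem one_mem_cs : (1 : V) ∈ cs C.bU D.FP.toSubring :=
  cs_mono C.bU (S := D.F0.toSubring) (T := D.FP.toSubring) D.F0_le_FP ((C.hL 1).1 C.L.one_mem)

theorem e_mem : C.e ∈ cs C.bU D.FP.toSubring := C.span_N_le _ C.heN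

theorem one_sub_e_mem : 1 - C.e ∈ cs C.bU D.FP.toSubring := sub_mem C.one_mem_cs C.e_mem

theorem he1 : (1 - C.e) * (1 - C.e) = 1 - C.e := by
  have := C.he
  linear_combination this

theorem e_mul_ε (i : Fin n) : C.e * C.ε i = C.ε i := by
  rw [← C.sum, Finset.sum_mul, Finset.sum_eq_single i]
  · exact C.idem i
  · intro j _ hj; exact C.orth j i hj
  · intro h; exact absurd (Finset.mem_univ i) h

/-- The glued `FP`-algebra. -/
def VP : Subring V where
  carrier := {v | (1 - C.e) * v ∈ cs C.bU D.FP.toSubring ∧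
    ∀ i, ∃ c ∈ Submodule.span D.FP (C.N : Set V), v * C.ε i = c * C.ε i}
  mul_mem' := by
    rintro v w ⟨h1, h2⟩ ⟨h1', h2'⟩
    refine ⟨?_, fun i => ?_⟩
    · have : (1 - C.e) * (v * w) = ((1 - C.e) * v) * ((1 - C.e) * w) := by
        have := C.he1
        linear_combination (-(v * w)) * this
      rw [this]
      exact C.cs_mul D.FP D.F0_le_FP h1 h1'
    · obtain ⟨c, hc, e1⟩ := h2 i
      obtain ⟨c', hc', e2⟩ := h2' i
      refine ⟨c * c', span_mul C.N hc hc', ?_⟩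
      calc v * w * C.ε i = w * (v * C.ε i) := by ring
        _ = c * (w * C.ε i) := by rw [e1]; ring
        _ = _ := by rw [e2]; ring
  one_mem' := by
    refine ⟨by rw [mul_one]; exact C.one_sub_e_mem, fun i => ⟨1, ?_, rfl⟩⟩
    exact Submodule.subset_span C.N.one_mem
  add_mem' := by
    rintro v w ⟨h1, h2⟩ ⟨h1', h2'⟩
    refine ⟨by rw [mul_add]; exact add_mem h1 h1', fun i => ?_⟩
    obtain ⟨c, hc, e1⟩ := h2 i
    obtain ⟨c', hc', e2⟩ := h2' i
    exact ⟨c + c', add_mem hc hc', by rw [add_mul, e1, e2, add_mul]⟩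
  zero_mem' := ⟨by rw [mul_zero]; exact zero_mem _, fun i => ⟨0, zero_mem _, rfl⟩⟩
  neg_mem' := by
    rintro v ⟨h1, h2⟩
    refine ⟨by rw [mul_neg]; exact neg_mem h1, fun i => ?_⟩
    obtain ⟨c, hc, e1⟩ := h2 i
    exact ⟨-c, neg_mem hc, by rw [neg_mul, e1, neg_mul]⟩

theorem mem_VP (v : V) : v ∈ C.VP ↔ (1 - C.e) * v ∈ cs C.bU D.FP.toSubring ∧
    ∀ i, ∃ c ∈ Submodule.span D.FP (C.N : Set V), v * C.ε i = c * C.ε i := Iff.rfl

theorem smul_mem_VP {z : E} (hz : z ∈ D.FP) {v : V} (hv : v ∈ C.VP) : z • v ∈ C.VP := by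
  obtain ⟨h1, h2⟩ := hv
  refine ⟨by rw [mul_smul_comm]; exact smul_mem_cs _ _ hz h1, fun i => ?_⟩
  obtain ⟨c, hc, e1⟩ := h2 i
  exact ⟨z • c, Submodule.smul_mem _ (⟨z, hz⟩ : D.FP) hc, by
    rw [smul_mul_assoc, e1, smul_mul_assoc]⟩

/-- There is an `E`-basis of `V` whose `FP`-span is `VP`. -/
theorem exists_basis_VP : ∃ bP : Basis (Fin d) E V, ∀ v, v ∈ C.VP ↔ v ∈ cs bP D.FP.toSubring := by
  classical
  set F := D.FP with hF
  set LP : Submodule F V := Submodule.span F (Set.range C.bU) with hLP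
  have hLPcs : ∀ v, v ∈ LP ↔ v ∈ cs C.bU F.toSubring := fun v => (cs_eq_span C.bU F v).symm
  have : FiniteDimensional F LP := FiniteDimensional.span_of_finite F (Set.finite_range _)
  set m1 : V →ₗ[F] V := LinearMap.mulLeft F (1 - C.e) with hm1
  set m2 : V →ₗ[F] V := LinearMap.mulLeft F C.e with hm2
  set W1 : Submodule F V := LP.map m1 with hW1
  set W2 : Submodule F V := (Submodule.span F (C.N : Set V)).map m2 with hW2
  have hW1le : W1 ≤ LP := by
    rintro _ ⟨v, hv, rfl⟩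
    rw [hLPcs]
    exact C.cs_mul F D.F0_le_FP C.one_sub_e_mem ((hLPcs v).1 hv)
  have hW2N : ∀ v ∈ W2, v ∈ Submodule.span F (C.N : Set V) := by
    rintro _ ⟨v, hv, rfl⟩
    exact span_mul C.N C.heN hv
  have hW2le : W2 ≤ LP := fun v hv => (hLPcs v).2 (C.span_N_le v (hW2N v hv))
  have : FiniteDimensional F W1 := Submodule.finiteDimensional_of_le hW1le
  have : FiniteDimensional F W2 := Submodule.finiteDimensional_of_le hW2le
  set b1 := Module.finBasis F W1 with hb1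
  set b2 := Module.finBasis F W2 with hb2
  have hi1 : LinearIndependent E (fun k => (b1 k : V)) := by
    refine indep_of_indep C.bU F _ (fun k => (hLPcs _).1 (hW1le (b1 k).2)) ?_
    exact b1.linearIndependent.map' W1.subtype (Submodule.ker_subtype _)
  have hi2 : LinearIndependent E (fun k => (b2 k : V)) := by
    refine indep_of_indep C.bU F _ (fun k => (hLPcs _).1 (hW2le (b2 k).2)) ?_
    exact b2.linearIndependent.map' W2.subtype (Submodule.ker_subtype _)
  have hW1e : ∀ v ∈ W1, (1 - C.e) * v = v := by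
    rintro _ ⟨v, hv, rfl⟩
    change (1 - C.e) * ((1 - C.e) * v) = (1 - C.e) * v
    rw [← mul_assoc, C.he1]
  have hW1ε : ∀ v ∈ W1, ∀ i, v * C.ε i = 0 := by
    intro v hv i
    rw [← hW1e v hv]
    have := C.e_mul_ε i
    linear_combination (-v) * this
  have hW2e : ∀ v ∈ W2, C.e * v = v := by
    rintro _ ⟨v, hv, rfl⟩
    change C.e * (C.e * v) = C.e * v
    rw [← mul_assoc, C.he]
  -- the family
  set u : (Fin (finrank F W1) ⊕ (Fin n × Fin (finrank F W2))) → V :=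
    Sum.elim (fun k => (b1 k : V)) (fun p => C.ε p.1 * (b2 p.2 : V)) with hu
  have hindep : LinearIndependent E u := by
    rw [Fintype.linearIndependent_iff]
    intro g hg
    rw [Fintype.sum_sum_type] at hg
    simp only [hu, Sum.elim_inl, Sum.elim_inr] at hg
    have hA : ∑ k, g (Sum.inl k) • (b1 k : V) = 0 := by
      have h := congrArg (fun v => (1 - C.e) * v) hg
      simp only [mul_add, Finset.mul_sum, mul_zero] at h
      have e1 : ∀ k, (1 - C.e) * (g (Sum.inl k) • (b1 k : V)) = g (Sum.inl k) • (b1 k : V) := by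
        intro k; rw [mul_smul_comm, hW1e _ (b1 k).2]
      have e2 : ∀ p : Fin n × Fin (finrank F W2),
          (1 - C.e) * (g (Sum.inr p) • (C.ε p.1 * (b2 p.2 : V))) = 0 := by
        intro p
        rw [mul_smul_comm]
        have : (1 - C.e) * (C.ε p.1 * (b2 p.2 : V)) = 0 := by
          have := C.e_mul_ε p.1
          linear_combination (-(b2 p.2 : V)) * this
        rw [this, smul_zero]
      simp only [e1, e2, Finset.sum_const_zero, add_zero] at h
      exact h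
    have hB : ∀ i, ∑ m, g (Sum.inr (i, m)) • (b2 m : V) = 0 := by
      intro i
      have h := congrArg (fun v => v * C.ε i) hg
      simp only [add_mul, Finset.sum_mul, zero_mul] at h
      have e1 : ∀ k, (g (Sum.inl k) • (b1 k : V)) * C.ε i = 0 := by
        intro k; rw [smul_mul_assoc, hW1ε _ (b1 k).2, smul_zero]
      simp only [e1, Finset.sum_const_zero, zero_add] at h
      rw [Fintype.sum_prod_type] at h
      have e2 : ∀ j, j ≠ i → ∑ m, g (Sum.inr (j, m)) • (C.ε j * (b2 m : V)) * C.ε i = 0 := by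
        intro j hj
        refine Finset.sum_eq_zero fun m _ => ?_
        rw [smul_mul_assoc, mul_right_comm, C.orth j i hj, zero_mul, smul_zero]
      rw [Finset.sum_eq_single i (fun j _ hj => e2 j hj)
        (fun h => absurd (Finset.mem_univ i) h)] at h
      have e3 : ∀ m, g (Sum.inr (i, m)) • (C.ε i * (b2 m : V)) * C.ε i =
          (g (Sum.inr (i, m)) • (b2 m : V)) * C.ε i := by
        intro m
        rw [smul_mul_assoc, smul_mul_assoc, mul_right_comm, C.idem, mul_comm]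
      simp only [e3, ← Finset.sum_mul] at h
      have h4 := C.inj i _ (Submodule.sum_mem _ fun m _ => Submodule.smul_mem _ _ (by
        have : (b2 m : V) ∈ Submodule.span F (C.N : Set V) := hW2N _ (b2 m).2
        exact Submodule.span_le_restrictScalars F E _ this)) h
      rw [mul_comm, Finset.mul_sum] at h4
      rw [← h4]
      refine Finset.sum_congr rfl fun m _ => ?_
      rw [mul_smul_comm, hW2e _ (b2 m).2]
    intro x
    rcases x with k | ⟨i, m⟩
    · exact Fintype.linearIndependent_iff.1 hi1 _ hA k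
    · exact Fintype.linearIndependent_iff.1 hi2 _ (hB i) m
  have hLP1 : ∀ v ∈ W1, v ∈ Submodule.span E (Set.range u) := by
    intro v hv
    have : (⟨v, hv⟩ : W1) = ∑ k, b1.repr ⟨v, hv⟩ k • b1 k := (b1.sum_repr _).symm
    have h2 : v = ∑ k, ((b1.repr ⟨v, hv⟩ k : F) : E) • (b1 k : V) := by
      have := congrArg (Subtype.val) this
      push_cast at this
      exact this
    rw [h2]
    exact Submodule.sum_mem _ fun k _ => Submodule.smul_mem _ _
      (Submodule.subset_span ⟨Sum.inl k, rfl⟩)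
  have hLP2 : ∀ v ∈ W2, ∀ i, C.ε i * v ∈ Submodule.span E (Set.range u) := by
    intro v hv i
    have : (⟨v, hv⟩ : W2) = ∑ k, b2.repr ⟨v, hv⟩ k • b2 k := (b2.sum_repr _).symm
    have h2 : v = ∑ k, ((b2.repr ⟨v, hv⟩ k : F) : E) • (b2 k : V) := by
      have := congrArg (Subtype.val) this
      push_cast at this
      exact this
    rw [h2, Finset.mul_sum]
    refine Submodule.sum_mem _ fun k _ => ?_
    rw [mul_smul_comm]
    exact Submodule.smul_mem _ _ (Submodule.subset_span ⟨Sum.inr (i, k), rfl⟩)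
  have hspan : ⊤ ≤ Submodule.span E (Set.range u) := by
    intro v _
    have hv : v = (1 - C.e) * v + ∑ i, v * C.ε i := by
      rw [← Finset.mul_sum, C.sum]; ring
    rw [hv]
    refine Submodule.add_mem _ ?_ (Submodule.sum_mem _ fun i _ => ?_)
    · rw [← C.bU.sum_repr v, Finset.mul_sum]
      refine Submodule.sum_mem _ fun i _ => ?_
      rw [mul_smul_comm]
      refine Submodule.smul_mem _ _ (hLP1 _ ⟨C.bU i, Submodule.subset_span ⟨i, rfl⟩, rfl⟩)
    · obtain ⟨c, hc, e1⟩ := C.spl i v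
      rw [e1, mul_comm]
      refine Submodule.span_induction
        (p := fun x _ => C.ε i * x ∈ Submodule.span E (Set.range u)) ?_ ?_ ?_ ?_ hc
      · intro x hx
        have : C.ε i * x = C.ε i * (C.e * x) := by
          rw [← mul_assoc, mul_comm (C.ε i) C.e, C.e_mul_ε]
        rw [this]
        exact hLP2 _ ⟨x, Submodule.subset_span hx, rfl⟩ i
      · rw [mul_zero]; exact zero_mem _
      · intro x y _ _ hx hy; rw [mul_add]; exact add_mem hx hy
      · intro z x _ hx; rw [mul_smul_comm]; exact Submodule.smul_mem _ _ hx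
  set bP0 := Basis.mk hindep hspan with hbP0
  have hbP0u : ∀ x, bP0 x = u x := fun x => Basis.mk_apply hindep hspan x
  set bP : Basis (Fin d) E V := bP0.reindex (bP0.indexEquiv C.bU) with hbP
  refine ⟨bP, fun v => ?_⟩
  have hrange : Set.range bP = Set.range u := by
    rw [hbP, Basis.range_reindex]
    congr 1
    funext x; exact hbP0u x
  rw [cs_eq_span, hrange]
  constructor
  · rintro ⟨h1, h2⟩
    have hv : v = (1 - C.e) * v + ∑ i, v * C.ε i := by
      rw [← Finset.mul_sum, C.sum]; ring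
    rw [hv]
    refine Submodule.add_mem _ ?_ (Submodule.sum_mem _ fun i _ => ?_)
    · have hmem : (1 - C.e) * v ∈ W1 := by
        refine ⟨(1 - C.e) * v, (hLPcs _).2 h1, ?_⟩
        change (1 - C.e) * ((1 - C.e) * v) = (1 - C.e) * v
        rw [← mul_assoc, C.he1]
      have : (⟨_, hmem⟩ : W1) = ∑ k, b1.repr ⟨_, hmem⟩ k • b1 k := (b1.sum_repr _).symm
      have h2 := congrArg (Subtype.val) this
      push_cast at h2
      rw [h2]
      exact Submodule.sum_mem _ fun k _ => Submodule.smul_mem _ _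
        (Submodule.subset_span ⟨Sum.inl k, rfl⟩)
    · obtain ⟨c, hc, e1⟩ := h2 i
      have hmem : C.e * c ∈ W2 := ⟨c, hc, rfl⟩
      have e2 : v * C.ε i = C.ε i * (C.e * c) := by
        rw [e1, ← mul_assoc, mul_comm (C.ε i) C.e, C.e_mul_ε, mul_comm]
      rw [e2]
      have : (⟨_, hmem⟩ : W2) = ∑ k, b2.repr ⟨_, hmem⟩ k • b2 k := (b2.sum_repr _).symm
      have h2 := congrArg (Subtype.val) this
      push_cast at h2
      rw [h2, Finset.mul_sum]
      refine Submodule.sum_mem _ fun k _ => ?_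
      rw [mul_smul_comm]
      exact Submodule.smul_mem _ _ (Submodule.subset_span ⟨Sum.inr (i, k), rfl⟩)
  · intro hv
    refine Submodule.span_induction (p := fun x _ => x ∈ C.VP) ?_ ?_ ?_ ?_ hv
    · rintro _ ⟨x, rfl⟩
      rcases x with k | ⟨i, m⟩
      · refine ⟨?_, fun i => ⟨0, zero_mem _, ?_⟩⟩
        · change (1 - C.e) * (b1 k : V) ∈ _
          rw [hW1e _ (b1 k).2]
          exact (hLPcs _).1 (hW1le (b1 k).2)
        · change (b1 k : V) * C.ε i = _
          rw [hW1ε _ (b1 k).2, zero_mul]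
      · refine ⟨?_, fun j => ?_⟩
        · change (1 - C.e) * (C.ε i * (b2 m : V)) ∈ _
          have : (1 - C.e) * (C.ε i * (b2 m : V)) = 0 := by
            have := C.e_mul_ε i
            linear_combination (-(b2 m : V)) * this
          rw [this]; exact zero_mem _
        · change ∃ c ∈ _, C.ε i * (b2 m : V) * C.ε j = c * C.ε j
          by_cases hij : i = j
          · subst hij
            refine ⟨b2 m, hW2N _ (b2 m).2, ?_⟩
            rw [mul_right_comm, C.idem, mul_comm]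
          · refine ⟨0, zero_mem _, ?_⟩
            rw [mul_right_comm, C.orth i j hij, zero_mul, zero_mul]
    · exact C.VP.zero_mem
    · intro x y _ _ hx hy; exact C.VP.add_mem hx hy
    · intro c x _ hx; exact C.smul_mem_VP c.2 hx

end CutData

end Cut

end Crest.Agent.R013.Gl946
end

-- ▼ part R013/Gl6_946

/-!
# Patching, part 6: the glued algebra and its homomorphisms to fields.
-/

set_option autoImplicit false

namespace Crest.Agent.R013.Gl946

open Module

section Glue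

variable {E V : Type*} [Field E] [CommRing V] [Algebra E V]

/-- If the `F0`-span of a basis is a subring `L`, then the `S`-span is closed under products. -/
theorem cs_mul_gen {ι : Type*} [Fintype ι] (b : Basis ι E V) (F0 S : Subring E) (h0 : F0 ≤ S)
    (L : Subring V) (hL : ∀ v, v ∈ L ↔ v ∈ cs b F0) {v w : V} (hv : v ∈ cs b S)
    (hw : w ∈ cs b S) : v * w ∈ cs b S := by
  rw [← b.sum_repr v, ← b.sum_repr w, Finset.sum_mul_sum]
  refine sum_mem fun i _ => sum_mem fun j _ => ?_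
  rw [smul_mul_smul_comm]
  refine smul_mem_cs b S (S.mul_mem (hv i) (hw j)) ?_
  exact cs_mono b h0 ((hL _).1 (L.mul_mem ((hL _).2 (basis_mem_cs b F0 i))
    ((hL _).2 (basis_mem_cs b F0 j))))

/-- The `S`-span of a basis as a subring. -/
def csRing {ι : Type*} [Fintype ι] (b : Basis ι E V) (F0 S : Subring E) (h0 : F0 ≤ S)
    (L : Subring V) (hL : ∀ v, v ∈ L ↔ v ∈ cs b F0) : Subring V where
  carrier := (cs b S : Set V)
  mul_mem' := fun hv hw => cs_mul_gen b F0 S h0 L hL hv hw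
  one_mem' := cs_mono b h0 ((hL 1).1 L.one_mem)
  add_mem' := fun hv hw => (cs b S).add_mem hv hw
  zero_mem' := (cs b S).zero_mem
  neg_mem' := fun hv => (cs b S).neg_mem hv

theorem mem_csRing {ι : Type*} [Fintype ι] (b : Basis ι E V) (F0 S : Subring E) (h0 : F0 ≤ S)
    (L : Subring V) (hL : ∀ v, v ∈ L ↔ v ∈ cs b F0) (v : V) :
    v ∈ csRing b F0 S h0 L hL ↔ v ∈ cs b S := Iff.rfl

namespace CutData

variable {D : PatchDatum E} {d n : ℕ} (C : CutData D V d n)

/-- The glued algebra: `VP ∩ VU`. -/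
structure Glued where
  A : Subring V
  b : Basis (Fin d) E V
  hA : ∀ v, v ∈ A ↔ v ∈ cs b D.F0.toSubring
  hU : ∀ v, v ∈ cs b D.RU ↔ v ∈ cs C.bU D.RU
  hP : ∀ v, v ∈ C.VP ↔ v ∈ cs b D.FP.toSubring
  hN : C.N ≤ A

theorem F0_le_RU' : D.F0.toSubring ≤ D.RU := fun z hz => D.F0_le_RU z hz

theorem N_le_VP : C.N ≤ C.VP := by
  intro x hx
  refine ⟨C.cs_mul D.FP D.F0_le_FP C.one_sub_e_mem (C.span_N_le _ (Submodule.subset_span hx)),
    fun i => ⟨x, Submodule.subset_span hx, rfl⟩⟩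

theorem exists_glued : Nonempty C.Glued := by
  obtain ⟨bP, hbP⟩ := C.exists_basis_VP
  obtain ⟨b, hb1, hb2⟩ := common_basis D C.bU bP
  have hP : ∀ v, v ∈ C.VP ↔ v ∈ cs b D.FP.toSubring := fun v => by rw [hbP, hb2]
  have hU : ∀ v, v ∈ cs b D.RU ↔ v ∈ cs C.bU D.RU := fun v => by rw [hb1]
  have hA : ∀ v, (v ∈ C.VP ∧ v ∈ csRing C.bU D.F0.toSubring D.RU F0_le_RU' C.L C.hL) ↔
      v ∈ cs b D.F0.toSubring := by
    intro v
    constructor
    · rintro ⟨h1, h2⟩ i
      exact D.inter _ ((hP v).1 h1 i) ((hU v).2 ((mem_csRing _ _ _ _ _ _ _).1 h2) i)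
    · intro hv
      exact ⟨(hP v).2 (cs_mono b (S := D.F0.toSubring) (T := D.FP.toSubring) D.F0_le_FP hv),
        (mem_csRing _ _ _ _ _ _ _).2 ((hU v).1 (cs_mono b F0_le_RU' hv))⟩
  refine ⟨⟨C.VP ⊓ csRing C.bU D.F0.toSubring D.RU F0_le_RU' C.L C.hL, b, ?_, hU, hP, ?_⟩⟩
  · intro v; rw [Subring.mem_inf]; exact hA v
  · intro x hx
    rw [Subring.mem_inf]
    exact ⟨C.N_le_VP hx, (mem_csRing _ _ _ _ _ _ _).2
      (cs_mono C.bU F0_le_RU' ((C.hL x).1 (C.hN hx)))⟩

theorem F0_mem_L {z : E} (hz : z ∈ D.F0) : algebraMap E V z ∈ C.L := C.hN (C.hF0N z hz)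

variable {C} (G : C.Glued)

theorem Glued.F0_mem_A {z : E} (hz : z ∈ D.F0) : algebraMap E V z ∈ G.A := G.hN (C.hF0N z hz)


/-- **(U)** Homs from the glued algebra, on the `RU` side. -/
theorem Glued.homU {Ω : Type*} [CommRing Ω] (φ : D.RU →+* Ω) (g : G.A →+* Ω)
    (hcomp : ∀ (z : E) (hz : z ∈ D.F0), g ⟨algebraMap E V z, G.F0_mem_A hz⟩ =
      φ ⟨z, D.F0_le_RU z hz⟩) :
    ∃ h : C.L →+* Ω, (∀ (x : V) (hx : x ∈ C.N), h ⟨x, C.hN hx⟩ = g ⟨x, G.hN hx⟩) ∧
      (∀ (Y : Subring Ω), (∀ z, φ z ∈ Y) → (∀ l, h l ∈ Y) → ∀ a, g a ∈ Y) := by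
  classical
  set VU := csRing G.b D.F0.toSubring D.RU F0_le_RU' G.A G.hA with hVU
  obtain ⟨Φ, h1, h2, -⟩ := ext_hom G.b D.F0.toSubring D.RU F0_le_RU' G.A VU G.hA (fun v => mem_csRing _ _ _ _ _ _ v)
    φ g (fun z hz => G.F0_mem_A hz) hcomp
  have hLVU : C.L ≤ VU := fun l hl => (G.hU l).2 (cs_mono C.bU F0_le_RU' ((C.hL l).1 hl))
  refine ⟨Φ.comp (Subring.inclusion hLVU), ?_, ?_⟩
  · intro x hx
    exact h1 x (G.hN hx) _
  · intro Y hY1 hY2 a
    have haVU : a.1 ∈ VU := cs_mono G.b F0_le_RU' ((G.hA _).1 a.2)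
    rw [← h1 a.1 a.2 haVU]
    have haU : a.1 ∈ cs C.bU D.RU := (G.hU _).1 haVU
    have hz : ∀ z ∈ D.RU, algebraMap E V z ∈ VU := fun z hz => by
      rw [Algebra.algebraMap_eq_smul_one]
      exact smul_mem_cs _ _ hz VU.one_mem
    have hbU : ∀ i, C.bU i ∈ C.L := fun i => (C.hL _).2 (basis_mem_cs _ _ i)
    have hsum : (⟨a.1, haVU⟩ : VU) = ∑ i, (⟨algebraMap E V (C.bU.repr a.1 i), hz _ (haU i)⟩ : VU) *
        ⟨C.bU i, hLVU (hbU i)⟩ := by
      ext
      push_cast
      conv_lhs => rw [← C.bU.sum_repr a.1]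
      exact Finset.sum_congr rfl fun i _ => Algebra.smul_def _ _
    rw [hsum, map_sum]
    refine Y.sum_mem fun i _ => ?_
    rw [map_mul]
    refine Y.mul_mem ?_ (hY2 ⟨C.bU i, hbU i⟩)
    rw [h2 _ (haU i)]
    exact hY1 _

/-- **(U')** the converse direction. -/
theorem Glued.homU' {Ω : Type*} [CommRing Ω] (φ : D.RU →+* Ω) (h : C.L →+* Ω)
    (hcomp : ∀ (z : E) (hz : z ∈ D.F0), h ⟨algebraMap E V z, C.F0_mem_L hz⟩ =
      φ ⟨z, D.F0_le_RU z hz⟩) :
    ∃ g : G.A →+* Ω, (∀ (x : V) (hx : x ∈ C.N), g ⟨x, G.hN hx⟩ = h ⟨x, C.hN hx⟩) ∧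
      (∀ (Y : Subring Ω), (∀ z, φ z ∈ Y) → (∀ a, g a ∈ Y) → ∀ l, h l ∈ Y) := by
  classical
  set VU := csRing C.bU D.F0.toSubring D.RU F0_le_RU' C.L C.hL with hVU
  obtain ⟨Φ, h1, h2, -⟩ := ext_hom C.bU D.F0.toSubring D.RU F0_le_RU' C.L VU C.hL
    (fun v => mem_csRing _ _ _ _ _ _ v) φ h (fun z hz => C.F0_mem_L hz) hcomp
  have hAVU : G.A ≤ VU := fun a ha => (G.hU a).1 (cs_mono G.b F0_le_RU' ((G.hA a).1 ha))
  refine ⟨Φ.comp (Subring.inclusion hAVU), ?_, ?_⟩
  · intro x hx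
    exact h1 x (C.hN hx) _
  · intro Y hY1 hY2 l
    have hlVU : l.1 ∈ VU := cs_mono C.bU F0_le_RU' ((C.hL _).1 l.2)
    rw [← h1 l.1 l.2 hlVU]
    have hlb : l.1 ∈ cs G.b D.RU := (G.hU _).2 hlVU
    have hz : ∀ z ∈ D.RU, algebraMap E V z ∈ VU := fun z hz => by
      rw [Algebra.algebraMap_eq_smul_one]
      exact smul_mem_cs _ _ hz VU.one_mem
    have hb : ∀ i, G.b i ∈ G.A := fun i => (G.hA _).2 (basis_mem_cs _ _ i)
    have hsum : (⟨l.1, hlVU⟩ : VU) = ∑ i, (⟨algebraMap E V (G.b.repr l.1 i), hz _ (hlb i)⟩ : VU) *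
        ⟨G.b i, hAVU (hb i)⟩ := by
      ext
      push_cast
      conv_lhs => rw [← G.b.sum_repr l.1]
      exact Finset.sum_congr rfl fun i _ => Algebra.smul_def _ _
    rw [hsum, map_sum]
    refine Y.sum_mem fun i _ => ?_
    rw [map_mul]
    refine Y.mul_mem ?_ (hY2 ⟨G.b i, hb i⟩)
    rw [h2 _ (hlb i)]
    exact hY1 _

theorem span_N_le_VP : ∀ v ∈ Submodule.span D.FP (C.N : Set V), v ∈ C.VP := by
  intro v hv
  refine Submodule.span_induction (p := fun x _ => x ∈ C.VP) ?_ ?_ ?_ ?_ hv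
  · intro x hx; exact C.N_le_VP hx
  · exact C.VP.zero_mem
  · intro x y _ _ hx hy; exact C.VP.add_mem hx hy
  · intro c x _ hx; exact C.smul_mem_VP c.2 hx

theorem e_mem_VP : C.e ∈ C.VP := span_N_le_VP _ C.heN

theorem F0_le_FP' : D.F0.toSubring ≤ D.FP.toSubring := D.F0_le_FP

theorem FP_mem_VP {z : E} (hz : z ∈ D.FP) : algebraMap E V z ∈ C.VP := by
  rw [Algebra.algebraMap_eq_smul_one]
  exact C.smul_mem_VP hz C.VP.one_mem

/-- extension to `VP`. -/
theorem Glued.extP {Ω : Type*} [CommRing Ω] (φ : D.FP →+* Ω) (g : G.A →+* Ω)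
    (hcomp : ∀ (z : E) (hz : z ∈ D.F0), g ⟨algebraMap E V z, G.F0_mem_A hz⟩ =
      φ ⟨z, D.F0_le_FP hz⟩) :
    ∃ Φ : C.VP →+* Ω, (∀ (a : V) (ha : a ∈ G.A) (ha' : a ∈ C.VP), Φ ⟨a, ha'⟩ = g ⟨a, ha⟩) ∧
      (∀ (z : E) (hz : z ∈ D.FP), Φ ⟨algebraMap E V z, FP_mem_VP hz⟩ = φ ⟨z, hz⟩) := by
  obtain ⟨Φ, h1, h2, -⟩ := ext_hom G.b D.F0.toSubring D.FP.toSubring F0_le_FP' G.A C.VP G.hA G.hP
    φ g (fun z hz => G.F0_mem_A hz) hcomp
  exact ⟨Φ, h1, fun z hz => h2 z hz _⟩

/-- Value of an extension at an element of the `FP`-span of `N`. -/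
theorem ext_at_span {Ω : Type*} [CommRing Ω] (φ : D.FP →+* Ω) (Φ : C.VP →+* Ω)
    (h2 : ∀ (z : E) (hz : z ∈ D.FP), Φ ⟨algebraMap E V z, FP_mem_VP hz⟩ = φ ⟨z, hz⟩)
    {m : ℕ} (z : Fin m → D.FP) (x : Fin m → C.N) (v : V) (hv : v ∈ C.VP)
    (he : v = ∑ j, (z j : E) • (x j : V)) :
    Φ ⟨v, hv⟩ = ∑ j, φ (z j) * Φ ⟨x j, C.N_le_VP (x j).2⟩ := by
  have : (⟨v, hv⟩ : C.VP) = ∑ j, (⟨algebraMap E V (z j), FP_mem_VP (z j).2⟩ : C.VP) *
      ⟨x j, C.N_le_VP (x j).2⟩ := by
    ext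
    push_cast
    rw [he]
    exact Finset.sum_congr rfl fun i _ => Algebra.smul_def _ _
  rw [this, map_sum]
  refine Finset.sum_congr rfl fun j _ => ?_
  rw [map_mul, h2 _ (z j).2]

theorem one_sub_e_mul_mem_VP {v : V} (hv : v ∈ cs C.bU D.FP.toSubring) : (1 - C.e) * v ∈ C.VP := by
  refine ⟨?_, fun i => ⟨0, zero_mem _, ?_⟩⟩
  · rw [← mul_assoc, C.he1]
    exact C.cs_mul D.FP D.F0_le_FP C.one_sub_e_mem hv
  · have := C.e_mul_ε i
    linear_combination (-v) * this

theorem L_mem_cs {l : V} (hl : l ∈ C.L) : l ∈ cs C.bU D.FP.toSubring :=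
  cs_mono C.bU F0_le_FP' ((C.hL l).1 hl)

/-- **(P-out)** Homs from the glued algebra on the disc side, outside the region `e`. -/
theorem Glued.homPout {Ω : Type*} [CommRing Ω] (φ : D.FP →+* Ω) (g : G.A →+* Ω)
    (hcomp : ∀ (z : E) (hz : z ∈ D.F0), g ⟨algebraMap E V z, G.F0_mem_A hz⟩ =
      φ ⟨z, D.F0_le_FP hz⟩)
    {m : ℕ} (z : Fin m → D.FP) (x : Fin m → C.N) (he : C.e = ∑ j, (z j : E) • (x j : V))
    (h0 : ∑ j, φ (z j) * g ⟨x j, G.hN (x j).2⟩ = 0) :
    ∃ h : C.L →+* Ω, (∀ (x : V) (hx : x ∈ C.N), h ⟨x, C.hN hx⟩ = g ⟨x, G.hN hx⟩) ∧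
      (∀ (Y : Subring Ω), (∀ z, φ z ∈ Y) → (∀ l, h l ∈ Y) → ∀ a, g a ∈ Y) := by
  classical
  obtain ⟨Φ, h1, h2⟩ := G.extP φ g hcomp
  have hΦe : Φ ⟨C.e, e_mem_VP⟩ = 0 := by
    rw [ext_at_span φ Φ h2 z x C.e e_mem_VP he, ← h0]
    refine Finset.sum_congr rfl fun j _ => ?_
    rw [h1 _ (G.hN (x j).2)]
  have hΦ1 : Φ (1 - ⟨C.e, e_mem_VP⟩) = 1 := by rw [map_sub, map_one, hΦe, sub_zero]
  have hmem : ∀ l : C.L, (1 - C.e) * (l : V) ∈ C.VP := fun l =>
    one_sub_e_mul_mem_VP (L_mem_cs l.2)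
  let h : C.L →+* Ω :=
    { toFun := fun l => Φ ⟨(1 - C.e) * (l : V), hmem l⟩
      map_one' := by
        rw [← hΦ1]; congr 1; ext; push_cast; ring
      map_mul' := by
        intro l l'
        rw [← map_mul]; congr 1; ext; push_cast
        have := C.he1
        linear_combination (-(l : V) * l') * this
      map_zero' := by
        rw [← map_zero Φ]; congr 1; ext; push_cast; ring
      map_add' := by
        intro l l'
        rw [← map_add]; congr 1; ext; push_cast; ring }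
  have hmul1 : ∀ v : C.VP, Φ ⟨(1 - C.e) * (v : V), C.VP.mul_mem
      (C.VP.sub_mem C.VP.one_mem e_mem_VP) v.2⟩ = Φ v := by
    intro v
    have : (⟨(1 - C.e) * (v : V), C.VP.mul_mem
      (C.VP.sub_mem C.VP.one_mem e_mem_VP) v.2⟩ : C.VP) = (1 - ⟨C.e, e_mem_VP⟩) * v := by
      ext; push_cast; ring
    rw [this, map_mul, hΦ1, one_mul]
  refine ⟨h, ?_, ?_⟩
  · intro x hx
    change Φ ⟨(1 - C.e) * x, _⟩ = _
    rw [← h1 x (G.hN hx) (C.N_le_VP hx)]
    exact hmul1 ⟨x, C.N_le_VP hx⟩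
  · intro Y hY1 hY2 a
    have haVP : a.1 ∈ C.VP := (G.hP _).2 (cs_mono G.b F0_le_FP' ((G.hA _).1 a.2))
    rw [← h1 a.1 a.2 haVP, ← hmul1 ⟨a.1, haVP⟩]
    have ha1 : (1 - C.e) * a.1 ∈ cs C.bU D.FP.toSubring := haVP.1
    have hbU : ∀ i, C.bU i ∈ C.L := fun i => (C.hL _).2 (basis_mem_cs _ _ i)
    have hsum : (⟨(1 - C.e) * a.1, C.VP.mul_mem
      (C.VP.sub_mem C.VP.one_mem e_mem_VP) haVP⟩ : C.VP) =
        ∑ i, (⟨algebraMap E V (C.bU.repr ((1 - C.e) * a.1) i), FP_mem_VP (ha1 i)⟩ : C.VP) *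
        ⟨(1 - C.e) * C.bU i, hmem ⟨_, hbU i⟩⟩ := by
      ext
      push_cast
      have e1 : (1 - C.e) * a.1 = (1 - C.e) * ((1 - C.e) * a.1) := by
        rw [← mul_assoc, C.he1]
      conv_lhs => rw [e1, ← C.bU.sum_repr ((1 - C.e) * a.1), Finset.mul_sum]
      refine Finset.sum_congr rfl fun i _ => ?_
      rw [Algebra.smul_def]; ring
    rw [hsum, map_sum]
    refine Y.sum_mem fun i _ => ?_
    rw [map_mul]
    refine Y.mul_mem ?_ (hY2 ⟨C.bU i, hbU i⟩)
    rw [h2 _ (ha1 i)]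
    exact hY1 _


theorem ε_mem_VP (i : Fin n) : C.ε i ∈ C.VP := by
  refine ⟨?_, fun j => ?_⟩
  · have h : (1 - C.e) * C.ε i = 0 := by
      have := C.e_mul_ε i
      linear_combination -this
    rw [h]; exact zero_mem _
  · by_cases hij : i = j
    · subst hij
      exact ⟨1, Submodule.subset_span C.N.one_mem, by rw [C.idem, one_mul]⟩
    · exact ⟨0, zero_mem _, by rw [C.orth i j hij, zero_mul]⟩

/-- **(P-in)** inside the region `e`, a hom from the glued algebra to a domain is determined on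
`N` and `FP`. -/
theorem Glued.homPin {Ω : Type*} [CommRing Ω] [IsDomain Ω] (φ : D.FP →+* Ω) (g : G.A →+* Ω)
    (hcomp : ∀ (z : E) (hz : z ∈ D.F0), g ⟨algebraMap E V z, G.F0_mem_A hz⟩ =
      φ ⟨z, D.F0_le_FP hz⟩)
    {m : ℕ} (z : Fin m → D.FP) (x : Fin m → C.N) (he : C.e = ∑ j, (z j : E) • (x j : V))
    (h1e : ∑ j, φ (z j) * g ⟨x j, G.hN (x j).2⟩ = 1) :
    ∀ (Y : Subring Ω), (∀ z, φ z ∈ Y) → (∀ x (hx : x ∈ C.N), g ⟨x, G.hN hx⟩ ∈ Y) →
      ∀ a, g a ∈ Y := by
  classical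
  obtain ⟨Φ, h1, h2⟩ := G.extP φ g hcomp
  have hΦe : Φ ⟨C.e, e_mem_VP⟩ = 1 := by
    rw [ext_at_span φ Φ h2 z x C.e e_mem_VP he, ← h1e]
    refine Finset.sum_congr rfl fun j _ => ?_
    rw [h1 _ (G.hN (x j).2)]
  intro Y hY1 hY2 a
  -- some idempotent maps to 1
  have hid : ∀ i, Φ ⟨C.ε i, ε_mem_VP i⟩ = 0 ∨ Φ ⟨C.ε i, ε_mem_VP i⟩ = 1 := by
    intro i
    have h : Φ ⟨C.ε i, ε_mem_VP i⟩ * Φ ⟨C.ε i, ε_mem_VP i⟩ = Φ ⟨C.ε i, ε_mem_VP i⟩ := by
      rw [← map_mul]; congr 1; ext; push_cast; exact C.idem i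
    have h' : Φ ⟨C.ε i, ε_mem_VP i⟩ * (Φ ⟨C.ε i, ε_mem_VP i⟩ - 1) = 0 := by
      rw [mul_sub, h, mul_one, sub_self]
    rcases mul_eq_zero.1 h' with h0 | h0
    · exact Or.inl h0
    · exact Or.inr (sub_eq_zero.1 h0)
  obtain ⟨i, hi⟩ : ∃ i, Φ ⟨C.ε i, ε_mem_VP i⟩ = 1 := by
    by_contra hcon
    push Not at hcon
    have h0 : ∀ i, Φ ⟨C.ε i, ε_mem_VP i⟩ = 0 := fun i => (hid i).resolve_right (hcon i)
    have : (⟨C.e, e_mem_VP⟩ : C.VP) = ∑ i, ⟨C.ε i, ε_mem_VP i⟩ := by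
      ext; push_cast; exact C.sum.symm
    rw [this, map_sum] at hΦe
    simp only [h0, Finset.sum_const_zero] at hΦe
    exact zero_ne_one hΦe
  have haVP : a.1 ∈ C.VP := (G.hP _).2 (cs_mono G.b F0_le_FP' ((G.hA _).1 a.2))
  obtain ⟨c, hc, e1⟩ := haVP.2 i
  have hcVP := span_N_le_VP c hc
  have e2 : Φ ⟨a.1, haVP⟩ = Φ ⟨c, hcVP⟩ := by
    have : Φ (⟨a.1, haVP⟩ * ⟨C.ε i, ε_mem_VP i⟩) = Φ (⟨c, hcVP⟩ * ⟨C.ε i, ε_mem_VP i⟩) := by
      congr 1; ext; push_cast; exact e1
    rwa [map_mul, map_mul, hi, mul_one, mul_one] at this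
  rw [← h1 a.1 a.2 haVP, e2]
  -- span induction with proof-carrying membership
  have key : ∀ v ∈ Submodule.span D.FP (C.N : Set V), ∃ hv : v ∈ C.VP, Φ ⟨v, hv⟩ ∈ Y := by
    intro v hv
    refine Submodule.span_induction (p := fun v _ => ∃ hv : v ∈ C.VP, Φ ⟨v, hv⟩ ∈ Y)
      ?_ ?_ ?_ ?_ hv
    · intro x hx
      refine ⟨C.N_le_VP hx, ?_⟩
      rw [h1 x (G.hN hx)]
      exact hY2 x hx
    · refine ⟨C.VP.zero_mem, ?_⟩
      have : (⟨0, C.VP.zero_mem⟩ : C.VP) = 0 := rfl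
      rw [this, map_zero]; exact Y.zero_mem
    · rintro v w _ _ ⟨hv, hv'⟩ ⟨hw, hw'⟩
      refine ⟨C.VP.add_mem hv hw, ?_⟩
      have : (⟨v + w, C.VP.add_mem hv hw⟩ : C.VP) = ⟨v, hv⟩ + ⟨w, hw⟩ := rfl
      rw [this, map_add]; exact Y.add_mem hv' hw'
    · rintro z v _ ⟨hv, hv'⟩
      refine ⟨C.smul_mem_VP z.2 hv, ?_⟩
      have : (⟨z • v, C.smul_mem_VP z.2 hv⟩ : C.VP) =
          ⟨algebraMap E V z, FP_mem_VP z.2⟩ * ⟨v, hv⟩ := by
        ext; push_cast; exact Algebra.smul_def (z : E) v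
      rw [this, map_mul, h2 _ z.2]
      exact Y.mul_mem (hY1 _) hv'
  obtain ⟨_, h⟩ := key c hc
  exact h

end CutData

end Glue

end Crest.Agent.R013.Gl946
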