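import Mathlib
import Crest.Agent.R013.Gl6_946
import Crest.Agent.R013.Gl13_946
import Crest.Agent.R013.SE_669

-- ▼ part R013/Gl10_946
section

/-!
# Patching, part 10: splitting idempotents.

`K ⊆ N ⊆ L` finite, char 0, `E` a field over `K`.  If the minimal polynomial over `N` of a primitive
element of `L/N` splits in every residue field of `E ⊗_K N`, then `E ⊗_K L` is
`(E ⊗_K N)^n` as an `E ⊗_K N`-algebra; we produce the idempotents.
-/

set_option autoImplicit false

namespace Crest.Agent.R013.Gl946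

open Module TensorProduct Polynomial

variable (E K N L : Type*) [Field E] [Field K] [Field N] [Field L] [Algebra K E] [Algebra K N]
  [Algebra K L] [Algebra N L] [IsScalarTower K N L]

/-- `E ⊗ N → E ⊗ L`. -/
noncomputable def iNL : E ⊗[K] N →ₐ[E] E ⊗[K] L :=
  Algebra.TensorProduct.map (AlgHom.id E E) (IsScalarTower.toAlgHom K N L)

theorem iNL_tmul (z : E) (n : N) : iNL E K N L (z ⊗ₜ n) = z ⊗ₜ algebraMap N L n := by
  simp [iNL]

/-- `N → E ⊗ N`. -/
noncomputable def rN : N →+* E ⊗[K] N :=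
  (Algebra.TensorProduct.includeRight : N →ₐ[K] E ⊗[K] N).toRingHom

variable {E K N L}

/-- Enumeration of the roots of a split separable polynomial over a field. -/
theorem exists_roots_enum {D : Type*} [Field D] (f : D[X]) (hs : f.Splits) (hsep : f.Separable)
    (hm : f.Monic) (n : ℕ) (hn : f.natDegree = n) :
    ∃ r : Fin n → D, Function.Injective r ∧ f = ∏ i, (X - C (r i)) := by
  classical
  have hcard : Multiset.card f.roots = n := by
    rw [← hn]; exact (splits_iff_card_roots.1 hs)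
  have hnodup : f.roots.Nodup := nodup_roots hsep
  have hfin : f.roots.toFinset.card = n := by
    rw [Multiset.toFinset_card_of_nodup hnodup, hcard]
  let e := f.roots.toFinset.equivFinOfCardEq hfin
  refine ⟨fun i => (e.symm i : D), ?_, ?_⟩
  · intro i j h
    exact e.symm.injective (Subtype.ext h)
  · have h1 : f = (f.roots.map fun a => X - C a).prod := by
      have := hs.eq_prod_roots
      rw [hm.leadingCoeff, C_1, one_mul] at this
      exact this
    have h2 : (f.roots.map fun a => X - C a).prod = ∏ a ∈ f.roots.toFinset, (X - C a) := by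
      rw [Finset.prod_multiset_map_count]
      refine Finset.prod_congr rfl fun a ha => ?_
      rw [Multiset.count_eq_one_of_mem hnodup (Multiset.mem_toFinset.1 ha), pow_one]
    rw [h2] at h1
    refine h1.trans ?_
    conv_rhs => rw [← Equiv.prod_comp e]
    rw [← Finset.prod_coe_sort]
    refine Finset.prod_congr rfl fun a _ => ?_
    simp

theorem exists_split [CharZero K] [FiniteDimensional K N] [FiniteDimensional N L] (α : L)
    (hα : Algebra.adjoin N {α} = ⊤)
    (hspl : ∀ 𝔫 : MaximalSpectrum (E ⊗[K] N),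
      ((minpoly N α).map ((Ideal.Quotient.mk 𝔫.asIdeal).comp (rN E K N))).Splits) :
    ∃ ε : Fin (finrank N L) → E ⊗[K] L,
      (∀ i j, i ≠ j → ε i * ε j = 0) ∧ (∀ i, ε i * ε i = ε i) ∧ (∑ i, ε i = 1) ∧
      (∀ i v, ∃ c : E ⊗[K] N, v * ε i = iNL E K N L c * ε i) ∧
      (∀ i (c : E ⊗[K] N), iNL E K N L c * ε i = 0 → c = 0) := by
  classical
  set B := E ⊗[K] N with hB
  set V := E ⊗[K] L with hV
  -- `B` is reduced and Artinian
  have hred : IsReduced B := by
    have : Algebra.IsSeparable K N := inferInstance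
    have h1 : Algebra.FormallyUnramified K N := Algebra.FormallyUnramified.of_isSeparable K N
    have h2 : Algebra.FormallyUnramified E B := inferInstance
    have h3 : Module.Finite E B := inferInstance
    exact Algebra.FormallyUnramified.isReduced_of_field E B
  have hart : IsArtinianRing B := IsArtinianRing.of_finite E B
  let eqv := IsArtinianRing.equivPi B
  have heqv : ∀ (b : ∀ I : MaximalSpectrum B, B ⧸ I.asIdeal) (𝔫 : MaximalSpectrum B),
      Ideal.Quotient.mk 𝔫.asIdeal (eqv.symm b) = b 𝔫 := by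
    intro b 𝔫
    have h1 := IsArtinianRing.equivPi_apply B (eqv.symm b) 𝔫
    rw [← h1]
    change eqv (eqv.symm b) 𝔫 = b 𝔫
    rw [AlgEquiv.apply_symm_apply]
  have hext : ∀ b b' : B, (∀ 𝔫 : MaximalSpectrum B, Ideal.Quotient.mk 𝔫.asIdeal b =
      Ideal.Quotient.mk 𝔫.asIdeal b') → b = b' := by
    intro b b' h
    apply eqv.injective
    funext 𝔫
    exact h 𝔫
  have hαint : IsIntegral N α := IsIntegral.of_finite N α
  set f := minpoly N α with hf
  have hfm : f.Monic := minpoly.monic hαint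
  have hdeg : f.natDegree = finrank N L := by
    have h1 : IntermediateField.adjoin N {α} = ⊤ := by
      rw [eq_top_iff]
      intro x _
      have : x ∈ Algebra.adjoin N {α} := by rw [hα]; trivial
      have hle : Algebra.adjoin N {α} ≤ (IntermediateField.adjoin N {α}).toSubalgebra :=
        Algebra.adjoin_le (by
          intro z hz
          exact IntermediateField.subset_adjoin N {α} hz)
      exact hle this
    rw [hf, ← IntermediateField.adjoin.finrank hαint, h1, IntermediateField.finrank_top']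
  have hcharN : CharZero N := charZero_of_injective_algebraMap (algebraMap K N).injective
  have hfsep : f.Separable := (minpoly.irreducible hαint).separable
  set n := finrank N L with hn
  have hnpos : 0 < n := finrank_pos
  -- roots in each residue field
  have hroots : ∀ 𝔫 : MaximalSpectrum B, ∃ r : Fin n → B ⧸ 𝔫.asIdeal, Function.Injective r ∧
      f.map ((Ideal.Quotient.mk 𝔫.asIdeal).comp (rN E K N)) = ∏ i, (X - C (r i)) := by
    intro 𝔫
    have hmax := 𝔫.isMaximal
    let inst : Field (B ⧸ 𝔫.asIdeal) := Ideal.Quotient.field 𝔫.asIdeal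
    refine exists_roots_enum (f.map ((Ideal.Quotient.mk 𝔫.asIdeal).comp (rN E K N))) (hspl 𝔫)
      hfsep.map (hfm.map _) n ?_
    rw [hfm.natDegree_map, hdeg]
  choose r hrinj hrprod using hroots
  let β : Fin n → B := fun i => eqv.symm fun 𝔫 => r 𝔫 i
  have hβ : ∀ i 𝔫, Ideal.Quotient.mk 𝔫.asIdeal (β i) = r 𝔫 i := fun i 𝔫 => heqv _ 𝔫
  have hunit : ∀ i l, i ≠ l → ∃ u : B, (β i - β l) * u = 1 ∧
      ∀ 𝔫 : MaximalSpectrum B, (r 𝔫 i - r 𝔫 l) * Ideal.Quotient.mk 𝔫.asIdeal u = 1 := by
    intro i l hil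
    have : ∀ 𝔫 : MaximalSpectrum B, ∃ w : B ⧸ 𝔫.asIdeal, (r 𝔫 i - r 𝔫 l) * w = 1 := by
      intro 𝔫
      have hmax := 𝔫.isMaximal
      let inst : Field (B ⧸ 𝔫.asIdeal) := Ideal.Quotient.field 𝔫.asIdeal
      exact ⟨(r 𝔫 i - r 𝔫 l)⁻¹, mul_inv_cancel₀ (sub_ne_zero.2 fun h => hil (hrinj 𝔫 h))⟩
    choose w hw using this
    refine ⟨eqv.symm w, ?_, fun 𝔫 => by rw [heqv]; exact hw 𝔫⟩
    refine hext _ _ fun 𝔫 => ?_
    rw [map_mul, map_sub, hβ, hβ, heqv, map_one]
    exact hw 𝔫
  choose! u hu1 hu2 using hunit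
  -- polynomial identities over B
  have hpext : ∀ P Q : B[X], (∀ 𝔫 : MaximalSpectrum B, P.map (Ideal.Quotient.mk 𝔫.asIdeal) =
      Q.map (Ideal.Quotient.mk 𝔫.asIdeal)) → P = Q := by
    intro P Q h
    ext i
    refine hext _ _ fun 𝔫 => ?_
    rw [← coeff_map, h 𝔫, coeff_map]
  have hprod : f.map (rN E K N) = ∏ i, (X - C (β i)) := by
    refine hpext _ _ fun 𝔫 => ?_
    rw [Polynomial.map_map, hrprod 𝔫, Polynomial.map_prod]
    refine Finset.prod_congr rfl fun i _ => ?_
    rw [Polynomial.map_sub, map_X, map_C, hβ]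
  have hlag : ∑ i, ∏ l ∈ Finset.univ.erase i, (C (u i l) * (X - C (β l))) = (1 : B[X]) := by
    refine hpext _ _ fun 𝔫 => ?_
    have hmax := 𝔫.isMaximal
    let inst : Field (B ⧸ 𝔫.asIdeal) := Ideal.Quotient.field 𝔫.asIdeal
    have h1 := Lagrange.sum_basis (s := (Finset.univ : Finset (Fin n))) (v := r 𝔫)
      ((hrinj 𝔫).injOn) ⟨⟨0, hnpos⟩, Finset.mem_univ _⟩
    rw [Polynomial.map_sum, Polynomial.map_one, ← h1]
    refine Finset.sum_congr rfl fun i _ => ?_
    rw [Polynomial.map_prod, Lagrange.basis]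
    refine Finset.prod_congr rfl fun l hl => ?_
    have hil : i ≠ l := (Finset.ne_of_mem_erase hl).symm
    rw [Polynomial.map_mul, map_C, Polynomial.map_sub, map_X, map_C, hβ, Lagrange.basisDivisor]
    congr 2
    exact eq_inv_of_mul_eq_one_right (hu2 i l hil 𝔫)
  -- in V
  let ι : B →+* V := (iNL E K N L).toRingHom
  set a : V := 1 ⊗ₜ[K] α with ha
  have hιN : ∀ x : N, ι (rN E K N x) = 1 ⊗ₜ[K] algebraMap N L x := fun x => iNL_tmul E K N L 1 x
  let ev : B[X] →+* V := eval₂RingHom ι a
  have hevf : ∀ g : N[X], ev (g.map (rN E K N)) = 1 ⊗ₜ[K] aeval α g := by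
    intro g
    have : ev.comp (mapRingHom (rN E K N)) =
        ((Algebra.TensorProduct.includeRight : L →ₐ[K] V).toRingHom).comp
          (aeval α : N[X] →ₐ[N] L).toRingHom := by
      apply Polynomial.ringHom_ext
      · intro x
        simp only [ev, RingHom.comp_apply, coe_mapRingHom, map_C, coe_eval₂RingHom, eval₂_C]
        rw [hιN]
        simp
      · simp [ev, ha]
    have := RingHom.congr_fun this g
    simpa using this
  have hev0 : ev (∏ i, (X - C (β i))) = 0 := by
    rw [← hprod, hevf, minpoly.aeval, tmul_zero]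
  let b : Fin n → V := fun i => ι (β i)
  have hevX : ∀ i, ev (X - C (β i)) = a - b i := by intro i; simp [ev, b]
  let ε : Fin n → V := fun i => ev (∏ l ∈ Finset.univ.erase i, (C (u i l) * (X - C (β l))))
  have hεsum : ∑ i, ε i = 1 := by
    change ∑ i, ev _ = 1
    rw [← map_sum, hlag, map_one]
  have hroot : ∀ i, (a - b i) * ε i = 0 := by
    intro i
    have h1 : (X - C (β i)) * ∏ l ∈ Finset.univ.erase i, (C (u i l) * (X - C (β l))) =
        C (∏ l ∈ Finset.univ.erase i, u i l) * ∏ l, (X - C (β l)) := by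
      rw [Finset.prod_mul_distrib, map_prod, ← Finset.mul_prod_erase Finset.univ _
        (Finset.mem_univ i)]
      ring
    rw [← hevX, ← map_mul, h1, map_mul, hev0, mul_zero]
  have horth : ∀ i j, i ≠ j → ε i * ε j = 0 := by
    intro i j hij
    have h1 : (b i - b j) * (ε i * ε j) = 0 := by
      have e1 := hroot i
      have e2 := hroot j
      linear_combination (-(ε j)) * e1 + (ε i) * e2
    have h2 : ι (u i j) * (b i - b j) = 1 := by
      change ι (u i j) * (ι (β i) - ι (β j)) = 1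
      rw [← map_sub, ← map_mul, mul_comm, hu1 i j hij, map_one]
    calc ε i * ε j = (ι (u i j) * (b i - b j)) * (ε i * ε j) := by rw [h2, one_mul]
      _ = ι (u i j) * ((b i - b j) * (ε i * ε j)) := by ring
      _ = 0 := by rw [h1, mul_zero]
  have hidem : ∀ i, ε i * ε i = ε i := by
    intro i
    have h1 : ε i * ∑ j, ε j = ε i * ε i := by
      rw [Finset.mul_sum, Finset.sum_eq_single i]
      · intro j _ hj; exact horth i j hj.symm
      · intro h; exact absurd (Finset.mem_univ i) h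
    rw [← h1, hεsum, mul_one]
  -- every v ε_i is c ε_i
  have hpowa : ∀ i (P : B[X]), ev P * ε i = ι (P.eval (β i)) * ε i := by
    intro i P
    obtain ⟨Q, hQ⟩ : (X - C (β i)) ∣ P - C (P.eval (β i)) := by
      rw [dvd_iff_isRoot]; simp
    have h1 : P = (X - C (β i)) * Q + C (P.eval (β i)) := by rw [← hQ]; ring
    have h2 : ev P = (a - b i) * ev Q + ι (P.eval (β i)) := by
      conv_lhs => rw [h1]
      rw [map_add, map_mul, hevX]
      congr 1
      simp [ev]
    rw [h2, add_mul, mul_right_comm, hroot, zero_mul, zero_add]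
  have hgen : ∀ v : V, ∃ P : B[X], v = ev P := by
    intro v
    induction v using TensorProduct.induction_on with
    | zero => exact ⟨0, by simp⟩
    | tmul z l =>
      have hl : l ∈ Algebra.adjoin N {α} := by rw [hα]; trivial
      rw [Algebra.adjoin_singleton_eq_range_aeval] at hl
      obtain ⟨g, hg⟩ := hl
      refine ⟨C (z ⊗ₜ[K] (1 : N)) * g.map (rN E K N), ?_⟩
      have hg' : aeval α g = l := hg
      rw [map_mul, hevf, hg']
      have : ev (C (z ⊗ₜ[K] (1 : N))) = z ⊗ₜ[K] (1 : L) := by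
        have h1 : ev (C (z ⊗ₜ[K] (1 : N))) = ι (z ⊗ₜ[K] (1 : N)) := by simp [ev]
        rw [h1]
        have h2 := iNL_tmul E K N L z 1
        rw [map_one] at h2
        exact h2
      rw [this, Algebra.TensorProduct.tmul_mul_tmul, mul_one, one_mul]
    | add v w hv hw =>
      obtain ⟨P, rfl⟩ := hv
      obtain ⟨Q, rfl⟩ := hw
      exact ⟨P + Q, (map_add ev P Q).symm⟩
  have hspl' : ∀ i v, ∃ c : B, v * ε i = iNL E K N L c * ε i := by
    intro i v
    obtain ⟨P, rfl⟩ := hgen v
    exact ⟨P.eval (β i), hpowa i P⟩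
  refine ⟨ε, horth, hidem, hεsum, hspl', ?_⟩
  -- injectivity by dimension
  let S : (Fin n → B) →ₗ[E] V :=
    { toFun := fun c => ∑ i, iNL E K N L (c i) * ε i
      map_add' := fun c d => by
        rw [← Finset.sum_add_distrib]
        exact Finset.sum_congr rfl fun i _ => by rw [Pi.add_apply, map_add, add_mul]
      map_smul' := fun z c => by
        rw [RingHom.id_apply, Finset.smul_sum]
        exact Finset.sum_congr rfl fun i _ => by rw [Pi.smul_apply, map_smul, smul_mul_assoc] }
  have hSsurj : Function.Surjective S := by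
    intro v
    choose c hc using fun i => hspl' i v
    refine ⟨c, ?_⟩
    change ∑ i, iNL E K N L (c i) * ε i = v
    rw [Finset.sum_congr rfl fun i _ => (hc i).symm, ← Finset.mul_sum, hεsum, mul_one]
  have hKL : FiniteDimensional K L := FiniteDimensional.trans K N L
  have hdim : finrank E (Fin n → B) = finrank E V := by
    rw [Module.finrank_pi_fintype]
    simp only [Finset.sum_const, Finset.card_univ, Fintype.card_fin, smul_eq_mul]
    have e1 : finrank E B = finrank K N := Module.finrank_baseChange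
    have e2 : finrank E V = finrank K L := Module.finrank_baseChange
    rw [e1, e2, hn, mul_comm, Module.finrank_mul_finrank K N L]
  have hSinj : Function.Injective S :=
    (LinearMap.injective_iff_surjective_of_finrank_eq_finrank hdim).2 hSsurj
  intro i c hc
  have h1 : S (Pi.single i c) = 0 := by
    change ∑ j, iNL E K N L ((Pi.single i c : Fin n → B) j) * ε j = 0
    rw [Finset.sum_eq_single i]
    · rw [Pi.single_eq_same]; exact hc
    · intro j _ hj
      rw [Pi.single_eq_of_ne hj, map_zero, zero_mul]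
    · intro h; exact absurd (Finset.mem_univ i) h
  have h2 : Pi.single i c = (0 : Fin n → B) := hSinj (by rw [h1, map_zero])
  have := congrFun h2 i
  rwa [Pi.single_eq_same] at this

end Crest.Agent.R013.Gl946
end

-- ▼ part R013/Gl11_946
section

/-!
# Patching, part 11: splitting from density.

`K → E` with `E` complete; `K ⊆ N ⊆ L ⊆ Kb`.  If for every norm `v` of `Kb` over the norm of `E`
the element `α ∈ L` is in the `v`-closure of `N`, then the minimal polynomial of `α` over `N`
splits in every residue field of `E ⊗_K N`.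
-/

set_option autoImplicit false

namespace Crest.Agent.R013.Gl946

open Module TensorProduct Polynomial
open scoped NNReal

theorem split_of_dense {E K N Kb : Type*} [NontriviallyNormedField E] [CompleteSpace E]
    [IsUltrametricDist E] [Field K] [Field N] [Field Kb] [Algebra K E] [Algebra K N]
    [Algebra K Kb] [Algebra N Kb] [IsScalarTower K N Kb] [FiniteDimensional K N]
    [Algebra.IsAlgebraic K Kb] (α : Kb)
    (h : ∀ v : Valuation Kb ℝ≥0, (∀ f : K, v (algebraMap K Kb f) = ‖algebraMap K E f‖₊) →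
      ∀ ε : ℝ≥0, 0 < ε → ∃ n : N, v (α - algebraMap N Kb n) < ε)
    (𝔫 : MaximalSpectrum (E ⊗[K] N)) :
    ((minpoly N α).map ((Ideal.Quotient.mk 𝔫.asIdeal).comp (rN E K N))).Splits := by
  classical
  have hmax := 𝔫.isMaximal
  let instD : Field ((E ⊗[K] N) ⧸ 𝔫.asIdeal) := Ideal.Quotient.field 𝔫.asIdeal
  have hfinD : Module.Finite E ((E ⊗[K] N) ⧸ 𝔫.asIdeal) :=
    Module.Finite.of_surjective (Ideal.Quotient.mkₐ E 𝔫.asIdeal).toLinearMap
      (Ideal.Quotient.mkₐ_surjective E 𝔫.asIdeal)
  have halgD : Algebra.IsAlgebraic E ((E ⊗[K] N) ⧸ 𝔫.asIdeal) := Algebra.IsAlgebraic.of_finite _ _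
  let Eb := AlgebraicClosure E
  let j : ((E ⊗[K] N) ⧸ 𝔫.asIdeal) →ₐ[E] Eb := IsAlgClosed.lift
  let g0 : N →+* Eb := j.toRingHom.comp ((Ideal.Quotient.mk 𝔫.asIdeal).comp (rN E K N))
  have hg0 : ∀ f : K, g0 (algebraMap K N f) = algebraMap E Eb (algebraMap K E f) := by
    intro f
    have h1 : (rN E K N) (algebraMap K N f) = algebraMap E (E ⊗[K] N) (algebraMap K E f) := by
      change (1 : E) ⊗ₜ[K] (algebraMap K N f) = (algebraMap K E f) ⊗ₜ[K] (1 : N)
      rw [Algebra.algebraMap_eq_smul_one, Algebra.algebraMap_eq_smul_one, TensorProduct.smul_tmul]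
    change j (Ideal.Quotient.mk 𝔫.asIdeal (rN E K N (algebraMap K N f))) = _
    rw [h1]
    exact j.commutes _
  -- the spectral norm
  letI instN : NormedField Eb := spectralNorm.normedField E Eb
  letI instA : NormedAlgebra E Eb := spectralNorm.normedAlgebra E Eb
  have hnorm : ∀ z : E, ‖algebraMap E Eb z‖ = ‖z‖ := fun z => spectralNorm_extends z
  haveI hultra : IsUltrametricDist Eb :=
    IsUltrametricDist.isUltrametricDist_of_isNonarchimedean_norm isNonarchimedean_spectralNorm
  -- the range of `j` is closed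
  have hclosed : IsClosed (LinearMap.range j.toLinearMap : Set Eb) := by
    have : FiniteDimensional E (LinearMap.range j.toLinearMap) := inferInstance
    exact Submodule.closed_of_finiteDimensional _
  refine Splits.of_splits_map j.toRingHom (IsAlgClosed.splits _) ?_
  intro ρ hρ
  rw [Polynomial.map_map] at hρ
  have hαint : IsIntegral N α := by
    have : IsIntegral K α := Algebra.IsIntegral.isIntegral α
    exact this.tower_top
  have hmon : (minpoly N α).Monic := minpoly.monic hαint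
  have hρroot : eval₂ g0 ρ (minpoly N α) = 0 := by
    have h1 := (mem_roots ((hmon.map _).ne_zero)).1 hρ
    rw [IsRoot.def, eval_map] at h1
    exact h1
  -- extend to `Kb`
  letI algN : Algebra N Eb := g0.toAlgebra
  have hint : ∀ s : Kb, IsIntegral N s := fun s =>
    (Algebra.IsIntegral.isIntegral (R := K) s).tower_top
  obtain ⟨g, hg⟩ := IntermediateField.exists_algHom_of_splits_of_aeval (F := N) (E := Kb) (K := Eb)
    (x := α) (y := ρ) (fun s => ⟨hint s, IsAlgClosed.splits _⟩) hρroot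
  have hgN : ∀ n : N, g (algebraMap N Kb n) = g0 n := fun n => g.commutes n
  let v : Valuation Kb ℝ≥0 := (NormedField.valuation (K := Eb)).comap g.toRingHom
  have hv : ∀ a, v a = ‖g a‖₊ := fun a => rfl
  have hvK : ∀ f : K, v (algebraMap K Kb f) = ‖algebraMap K E f‖₊ := by
    intro f
    rw [hv, IsScalarTower.algebraMap_apply K N Kb, hgN, hg0]
    ext
    exact hnorm _
  have hρcl : ρ ∈ closure (LinearMap.range j.toLinearMap : Set Eb) := by
    rw [Metric.mem_closure_iff]
    intro ε hε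
    obtain ⟨n, hn⟩ := h v hvK ⟨ε, hε.le⟩ hε
    refine ⟨g0 n, ⟨Ideal.Quotient.mk 𝔫.asIdeal (rN E K N n), rfl⟩, ?_⟩
    rw [hv, map_sub, hgN, hg] at hn
    rw [dist_eq_norm]
    exact hn
  rw [hclosed.closure_eq] at hρcl
  obtain ⟨d, hd⟩ := hρcl
  exact ⟨d, hd⟩

end Crest.Agent.R013.Gl946
end

-- ▼ part R013/Gl12_946
section

/-!
# Patching, part 12: construction of the cutting data.
-/

set_option autoImplicit false

namespace Crest.Agent.R013.Gl946

open Module TensorProduct Polynomial

/-! ### The idempotent of a `K`-point of `FP` -/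

section Idem

variable {E F K : Type*} [Field E] [Field F] [Field K] [Algebra F E] [Algebra K E] [Algebra F K]
  [IsScalarTower F K E]

/-- `F → FP`. -/
def F2 (FP : Subfield E) (hF : ∀ f : F, algebraMap F E f ∈ FP) : F →+* FP :=
  (algebraMap F E).codRestrict FP hF

/-- Data of the idempotent attached to `K → FP`. -/
structure IdemData (FP : Subfield E) (hF : ∀ f : F, algebraMap F E f ∈ FP)
    (hK : ∀ f : K, algebraMap K E f ∈ FP) where
  θ : K
  G : FP[X]
  adj : Algebra.adjoin F {θ} = ⊤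
  ev : G.eval ⟨algebraMap K E θ, hK θ⟩ = 1
  dvd : ∃ c : FP, (X - C ⟨algebraMap K E θ, hK θ⟩) * G = C c * (minpoly F θ).map (F2 FP hF)

theorem exists_idemData [FiniteDimensional F K] [CharZero F] (FP : Subfield E)
    (hF : ∀ f : F, algebraMap F E f ∈ FP) (hK : ∀ f : K, algebraMap K E f ∈ FP) :
    Nonempty (IdemData FP hF hK) := by
  obtain ⟨θ, hθ⟩ := Field.exists_primitive_element F K
  have hint : IsIntegral F θ := IsIntegral.of_finite F θ
  have hadj : Algebra.adjoin F {θ} = ⊤ := by
    have := IntermediateField.adjoin_simple_toSubalgebra_of_isAlgebraic hint.isAlgebraic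
    rw [← this, hθ]; rfl
  set t : FP := ⟨algebraMap K E θ, hK θ⟩ with ht
  set mP : FP[X] := (minpoly F θ).map (F2 FP hF) with hmP
  have hmon : mP.Monic := (minpoly.monic hint).map _
  have hroot : mP.eval t = 0 := by
    have h1 : FP.subtype (mP.eval t) = 0 := by
      rw [hmP, eval_map]
      have h2 : FP.subtype (eval₂ (F2 FP hF) t (minpoly F θ)) =
          eval₂ (FP.subtype.comp (F2 FP hF)) (FP.subtype t) (minpoly F θ) := by
        rw [hom_eval₂]
      rw [h2]
      have h3 : FP.subtype.comp (F2 FP hF) = (algebraMap K E).comp (algebraMap F K) := by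
        ext f
        exact IsScalarTower.algebraMap_apply F K E f
      rw [h3]
      have h4 : FP.subtype t = algebraMap K E θ := rfl
      rw [h4, ← hom_eval₂]
      have h5 : eval₂ (algebraMap F K) θ (minpoly F θ) = 0 := minpoly.aeval F θ
      rw [h5, map_zero]
    exact FP.subtype_injective (by rw [h1, map_zero])
  set G0 := mP /ₘ (X - C t) with hG0
  have hG0eq : (X - C t) * G0 = mP := mul_divByMonic_eq_iff_isRoot.2 hroot
  have hsep : (minpoly F θ).Separable := (minpoly.irreducible hint).separable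
  have hG0t : G0.eval t ≠ 0 := by
    intro h0
    obtain ⟨Q, hQ⟩ := dvd_iff_isRoot.2 (show IsRoot G0 t from h0)
    have h1 : mP = (X - C t) * ((X - C t) * Q) := by rw [← hQ, hG0eq]
    have h2 : mP.Separable := hsep.map
    have h3 := h2.squarefree (X - C t) ⟨Q, by rw [h1]; ring⟩
    exact not_isUnit_X_sub_C t h3
  refine ⟨⟨θ, C (G0.eval t)⁻¹ * G0, hadj, ?_, (G0.eval t)⁻¹, ?_⟩⟩
  · rw [eval_mul, eval_C]; exact inv_mul_cancel₀ hG0t
  · rw [← hmP, ← hG0eq]; ring

variable {FP : Subfield E} {hF : ∀ f : F, algebraMap F E f ∈ FP}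
  {hK : ∀ f : K, algebraMap K E f ∈ FP} (I : IdemData FP hF hK)
  {T : Type*} [CommRing T] (φ : FP →+* T) (j : K →+* T)
  (hj : ∀ f : F, j (algebraMap F K f) = φ ⟨algebraMap F E f, hF f⟩)

/-- The element `e` in a ring receiving `FP` and `K`. -/
noncomputable def IdemData.e : T := I.G.eval₂ φ (j I.θ)

include hj in
omit [IsScalarTower F K E] in
theorem IdemData.root : (j I.θ - φ ⟨algebraMap K E I.θ, hK I.θ⟩) * I.e φ j = 0 := by
  obtain ⟨c, hc⟩ := I.dvd
  have h1 : (j I.θ - φ ⟨algebraMap K E I.θ, hK I.θ⟩) * I.e φ j =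
      eval₂ φ (j I.θ) ((X - C ⟨algebraMap K E I.θ, hK I.θ⟩) * I.G) := by
    rw [eval₂_mul, eval₂_sub, eval₂_X, eval₂_C]; rfl
  rw [h1, hc, eval₂_mul, eval₂_C, eval₂_map]
  have h2 : φ.comp (F2 FP hF) = j.comp (algebraMap F K) := by
    ext f; exact (hj f).symm
  rw [h2, ← hom_eval₂]
  have h5 : eval₂ (algebraMap F K) I.θ (minpoly F I.θ) = 0 := minpoly.aeval F I.θ
  rw [h5, map_zero, mul_zero]

include hj in
theorem IdemData.mul_e (f : K) :
    j f * I.e φ j = φ ⟨algebraMap K E f, hK f⟩ * I.e φ j := by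
  have hf : f ∈ Algebra.adjoin F {I.θ} := by rw [I.adj]; trivial
  refine Algebra.adjoin_induction (p := fun f _ => j f * I.e φ j =
    φ ⟨algebraMap K E f, hK f⟩ * I.e φ j) ?_ ?_ ?_ ?_ hf
  · intro x hx
    rw [Set.mem_singleton_iff] at hx
    subst hx
    have := I.root φ j hj
    rw [sub_mul, sub_eq_zero] at this
    exact this
  · intro r
    rw [hj r]
    congr 3
    exact IsScalarTower.algebraMap_apply F K E r
  · intro x y _ _ hx hy
    have h1 : (⟨algebraMap K E (x + y), hK _⟩ : FP) =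
        ⟨algebraMap K E x, hK x⟩ + ⟨algebraMap K E y, hK y⟩ := by ext; simp
    rw [map_add, add_mul, hx, hy, h1, map_add, add_mul]
  · intro x y _ _ hx hy
    have h1 : (⟨algebraMap K E (x * y), hK _⟩ : FP) =
        ⟨algebraMap K E x, hK x⟩ * ⟨algebraMap K E y, hK y⟩ := by ext; simp
    rw [map_mul, h1, map_mul, mul_assoc, hy, mul_left_comm, hx]; ring

include hj in
theorem IdemData.poly_mul_e (P : FP[X]) :
    P.eval₂ φ (j I.θ) * I.e φ j = φ (P.eval ⟨algebraMap K E I.θ, hK I.θ⟩) * I.e φ j := by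
  obtain ⟨Q, hQ⟩ : (X - C ⟨algebraMap K E I.θ, hK I.θ⟩) ∣
      P - C (P.eval ⟨algebraMap K E I.θ, hK I.θ⟩) := by
    rw [dvd_iff_isRoot]; simp
  have h1 : P = (X - C ⟨algebraMap K E I.θ, hK I.θ⟩) * Q +
      C (P.eval ⟨algebraMap K E I.θ, hK I.θ⟩) := by rw [← hQ]; ring
  have h2 : P.eval₂ φ (j I.θ) = (j I.θ - φ ⟨algebraMap K E I.θ, hK I.θ⟩) * Q.eval₂ φ (j I.θ) +
      φ (P.eval ⟨algebraMap K E I.θ, hK I.θ⟩) := by
    conv_lhs => rw [h1]
    rw [eval₂_add, eval₂_mul, eval₂_sub, eval₂_X, eval₂_C, eval₂_C]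
  have h3 := I.root φ j hj
  rw [h2]
  linear_combination (Q.eval₂ φ (j I.θ)) * h3

include hj in
theorem IdemData.e_idem : I.e φ j * I.e φ j = I.e φ j := by
  have h1 : I.e φ j = I.G.eval₂ φ (j I.θ) := rfl
  have h2 := I.poly_mul_e φ j hj I.G
  rw [I.ev, map_one, one_mul] at h2
  exact h2

omit [IsScalarTower F K E] in
theorem IdemData.e_inside (h : j I.θ = φ ⟨algebraMap K E I.θ, hK I.θ⟩) : I.e φ j = 1 := by
  unfold IdemData.e
  rw [h]
  have : eval₂ φ (φ ⟨algebraMap K E I.θ, hK I.θ⟩) I.G =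
      φ (I.G.eval ⟨algebraMap K E I.θ, hK I.θ⟩) := by
    rw [← eval₂_id, hom_eval₂]; simp
  rw [this, I.ev, map_one]

include hj in
theorem IdemData.e_outside [IsDomain T] (h : j I.θ ≠ φ ⟨algebraMap K E I.θ, hK I.θ⟩) :
    I.e φ j = 0 :=
  (mul_eq_zero.1 (I.root φ j hj)).resolve_left (sub_ne_zero.2 h)

omit [IsScalarTower F K E] in
theorem IdemData.e_eq_sum : I.e φ j =
    ∑ i : Fin (I.G.natDegree + 1), φ (I.G.coeff i) * j (I.θ ^ (i : ℕ)) := by
  unfold IdemData.e
  rw [eval₂_eq_sum_range, Finset.sum_range]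
  exact Finset.sum_congr rfl fun i _ => by rw [map_pow]

end Idem

/-! ### Construction -/

section Construct

variable {E F K N L : Type*} [Field E] [Field F] [Field K] [Field N] [Field L]
  [Algebra F E] [Algebra K E] [Algebra F K] [Algebra F N] [Algebra F L] [Algebra K N] [Algebra K L]
  [Algebra N L] [IsScalarTower F K E] [IsScalarTower F K N] [IsScalarTower F K L]
  [IsScalarTower F N L] [IsScalarTower K N L]

/-- `L → E ⊗ L`. -/
noncomputable def rL (E F L : Type*) [Field E] [Field F] [Field L] [Algebra F E] [Algebra F L] :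
    L →+* E ⊗[F] L :=
  (Algebra.TensorProduct.includeRight : L →ₐ[F] E ⊗[F] L).toRingHom

theorem rL_apply (l : L) : rL E F L l = 1 ⊗ₜ[F] l := rfl

theorem tmul_eq_smul_rL (z : E) (l : L) : (z ⊗ₜ[F] l : E ⊗[F] L) = z • rL E F L l := by
  rw [rL_apply, TensorProduct.smul_tmul', smul_eq_mul, mul_one]

theorem exists_tau (e : E ⊗[F] L)
    (he : ∀ (f : K), rL E F L (algebraMap K L f) * e = algebraMap E (E ⊗[F] L) (algebraMap K E f) * e) :
    ∃ τ : E ⊗[K] L →+ E ⊗[F] L, ∀ (z : E) (l : L), τ (z ⊗ₜ l) = (z ⊗ₜ[F] l) * e := by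
  refine ⟨TensorProduct.liftAddHom
    { toFun := fun z =>
        { toFun := fun l => (z ⊗ₜ[F] l) * e
          map_zero' := by rw [tmul_zero, zero_mul]
          map_add' := fun l l' => by rw [tmul_add, add_mul] }
      map_zero' := by ext l; simp
      map_add' := fun z z' => by ext l; simp [add_tmul, add_mul] } ?_, ?_⟩
  · intro r z l
    change ((r • z) ⊗ₜ[F] l) * e = (z ⊗ₜ[F] (r • l)) * e
    rw [Algebra.smul_def, Algebra.smul_def]
    have h1 : ((algebraMap K E r * z) ⊗ₜ[F] l : E ⊗[F] L) =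
        algebraMap E (E ⊗[F] L) (algebraMap K E r) * (z ⊗ₜ[F] l) := by
      rw [Algebra.TensorProduct.algebraMap_apply, Algebra.TensorProduct.tmul_mul_tmul, one_mul]; rfl
    have h2 : (z ⊗ₜ[F] (algebraMap K L r * l) : E ⊗[F] L) =
        rL E F L (algebraMap K L r) * (z ⊗ₜ[F] l) := by
      rw [rL_apply, Algebra.TensorProduct.tmul_mul_tmul, one_mul]
    rw [h1, h2, mul_right_comm, ← he, mul_right_comm]
  · intro z l
    rfl

/-- **Construction of the cutting data.** -/
theorem exists_cutData [CharZero F] [FiniteDimensional F K] [FiniteDimensional F L]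
    (D : PatchDatum E) (hF0 : ∀ z, z ∈ D.F0 ↔ ∃ f : F, algebraMap F E f = z)
    (hF : ∀ f : F, algebraMap F E f ∈ D.FP) (hK : ∀ f : K, algebraMap K E f ∈ D.FP)
    (I : IdemData D.FP hF hK)
    {n : ℕ} (ε' : Fin n → E ⊗[K] L) (orth : ∀ i j, i ≠ j → ε' i * ε' j = 0)
    (idem : ∀ i, ε' i * ε' i = ε' i) (sum : ∑ i, ε' i = 1)
    (spl : ∀ i v, ∃ c : E ⊗[K] N, v * ε' i = iNL E K N L c * ε' i)
    (inj : ∀ i (c : E ⊗[K] N), iNL E K N L c * ε' i = 0 → c = 0) :
    ∃ C : CutData D (E ⊗[F] L) (finrank F L) n,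
      C.L = (rL E F L).range ∧ C.N = ((rL E F L).comp (algebraMap N L)).range ∧
      C.e = I.e (T := E ⊗[F] L) ((algebraMap E (E ⊗[F] L)).comp D.FP.subtype)
        ((rL E F L).comp (algebraMap K L)) := by
  classical
  set φ : D.FP →+* E ⊗[F] L := (algebraMap E (E ⊗[F] L)).comp D.FP.subtype with hφ
  set j : K →+* E ⊗[F] L := (rL E F L).comp (algebraMap K L) with hj0
  have hj : ∀ f : F, j (algebraMap F K f) = φ ⟨algebraMap F E f, hF f⟩ := by
    intro f
    change (1 : E) ⊗ₜ[F] (algebraMap K L (algebraMap F K f)) =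
      (algebraMap F E f) ⊗ₜ[F] (1 : L)
    rw [← IsScalarTower.algebraMap_apply, Algebra.algebraMap_eq_smul_one,
      Algebra.algebraMap_eq_smul_one, TensorProduct.smul_tmul]
  set e : E ⊗[F] L := I.e φ j with he
  have hee : e * e = e := I.e_idem φ j hj
  have hKe : ∀ f : K, rL E F L (algebraMap K L f) * e =
      algebraMap E (E ⊗[F] L) (algebraMap K E f) * e := fun f => I.mul_e φ j hj f
  obtain ⟨τ, hτ⟩ := exists_tau e hKe
  -- the quotient map
  let q : E ⊗[F] L →ₐ[E] E ⊗[K] L := Algebra.TensorProduct.mapOfCompatibleSMul K F E E L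
  have hq : ∀ (z : E) (l : L), q (z ⊗ₜ l) = z ⊗ₜ l := fun z l => rfl
  have hqsurj : Function.Surjective q :=
    Algebra.TensorProduct.mapOfCompatibleSMul_surjective K F E E L
  have hτq : ∀ v, τ (q v) = v * e := by
    intro v
    induction v using TensorProduct.induction_on with
    | zero => simp
    | tmul z l => rw [hq, hτ]
    | add v w hv hw => rw [map_add, map_add, hv, hw, add_mul]
  have hker : ∀ v, q v = 0 → v * e = 0 := fun v hv => by rw [← hτq, hv, map_zero]
  have hqe : q e = 1 := by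
    -- `q ∘ φ` and `q ∘ j` agree at `θ`
    have h1 : q e = I.e (T := E ⊗[K] L) (q.toRingHom.comp φ) (q.toRingHom.comp j) := by
      change q (I.G.eval₂ φ (j I.θ)) = I.G.eval₂ (q.toRingHom.comp φ) (q (j I.θ))
      exact hom_eval₂ _ _ _ _
    rw [h1]
    refine I.e_inside _ _ ?_
    change (1 : E) ⊗ₜ[K] (algebraMap K L I.θ) = (algebraMap K E I.θ) ⊗ₜ[K] (1 : L)
    rw [Algebra.algebraMap_eq_smul_one, Algebra.algebraMap_eq_smul_one, TensorProduct.smul_tmul]
  choose w hw using fun i => hqsurj (ε' i)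
  -- N side
  let qN : E ⊗[F] N →ₐ[E] E ⊗[K] N := Algebra.TensorProduct.mapOfCompatibleSMul K F E E N
  have hqNsurj : Function.Surjective qN :=
    Algebra.TensorProduct.mapOfCompatibleSMul_surjective K F E E N
  have hcomm : ∀ c : E ⊗[F] N, q (iNL E F N L c) = iNL E K N L (qN c) := by
    intro c
    induction c using TensorProduct.induction_on with
    | zero => simp
    | tmul z x =>
      rw [iNL_tmul, hq]
      change _ = iNL E K N L (z ⊗ₜ[K] x)
      rw [iNL_tmul]
    | add v w hv hw => rw [map_add, map_add, map_add, map_add, hv, hw]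
  set NN : Subring (E ⊗[F] L) := ((rL E F L).comp (algebraMap N L)).range with hNN
  have hspanN : ∀ c : E ⊗[F] N, iNL E F N L c ∈ Submodule.span E (NN : Set (E ⊗[F] L)) := by
    intro c
    induction c using TensorProduct.induction_on with
    | zero => rw [map_zero]; exact zero_mem _
    | tmul z x =>
      rw [iNL_tmul, tmul_eq_smul_rL]
      exact Submodule.smul_mem _ _ (Submodule.subset_span ⟨x, rfl⟩)
    | add v w hv hw => rw [map_add]; exact add_mem hv hw
  have hspanN' : ∀ v ∈ Submodule.span E (NN : Set (E ⊗[F] L)), ∃ c, iNL E F N L c = v := by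
    intro v hv
    refine Submodule.span_induction ?_ ?_ ?_ ?_ hv
    · rintro _ ⟨x, rfl⟩
      exact ⟨1 ⊗ₜ x, by rw [iNL_tmul]; rfl⟩
    · exact ⟨0, map_zero _⟩
    · rintro _ _ _ _ ⟨c, rfl⟩ ⟨c', rfl⟩
      exact ⟨c + c', map_add _ _ _⟩
    · rintro z _ _ ⟨c, rfl⟩
      exact ⟨z • c, map_smul _ _ _⟩
  set bU : Basis (Fin (finrank F L)) E (E ⊗[F] L) := (Module.finBasis F L).baseChange E with hbU
  have hL : ∀ v, v ∈ (rL E F L).range ↔ v ∈ cs bU D.F0.toSubring := by
    intro v
    constructor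
    · rintro ⟨l, rfl⟩ i
      rw [rL_apply, hbU, Basis.baseChange_repr_tmul]
      refine (hF0 _).2 ⟨(Module.finBasis F L).repr l i, ?_⟩
      rw [Algebra.algebraMap_eq_smul_one]
    · intro hv
      choose f hf using fun i => (hF0 _).1 (hv i)
      refine ⟨∑ i, f i • Module.finBasis F L i, ?_⟩
      rw [map_sum]
      conv_rhs => rw [← bU.sum_repr v]
      refine Finset.sum_congr rfl fun i _ => ?_
      rw [← hf i, hbU, Basis.baseChange_apply, rL_apply, TensorProduct.tmul_smul,
        algebraMap_smul]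
  have hNL : NN ≤ (rL E F L).range := by
    rintro _ ⟨x, rfl⟩; exact ⟨algebraMap N L x, rfl⟩
  have hw2 : ∀ i, (w i * e) * e = w i * e := fun i => by rw [mul_assoc, hee]
  refine ⟨{
      bU := bU
      L := (rL E F L).range
      hL := hL
      N := NN
      hN := hNL
      hF0N := ?_
      e := e
      he := hee
      heN := ?_
      ε := fun i => w i * e
      orth := ?_
      idem := ?_
      sum := ?_
      spl := ?_
      inj := ?_ }, rfl, rfl, rfl⟩
  · intro z hz
    obtain ⟨f, rfl⟩ := (hF0 z).1 hz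
    refine ⟨algebraMap F N f, ?_⟩
    change (1 : E) ⊗ₜ[F] (algebraMap N L (algebraMap F N f)) = (algebraMap F E f) ⊗ₜ[F] (1 : L)
    rw [← IsScalarTower.algebraMap_apply, Algebra.algebraMap_eq_smul_one,
      Algebra.algebraMap_eq_smul_one, TensorProduct.smul_tmul]
  · rw [he, I.e_eq_sum]
    refine Submodule.sum_mem _ fun i _ => ?_
    have : φ (I.G.coeff i) * j (I.θ ^ (i : ℕ)) = (I.G.coeff i) • j (I.θ ^ (i : ℕ)) := by
      rw [Subfield.smul_def, Algebra.smul_def]; rfl
    rw [this]
    refine Submodule.smul_mem _ _ (Submodule.subset_span ⟨algebraMap K N (I.θ ^ (i : ℕ)), ?_⟩)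
    change rL E F L (algebraMap N L (algebraMap K N _)) = rL E F L (algebraMap K L _)
    rw [← IsScalarTower.algebraMap_apply]
  · intro i i' hii
    have h1 : q (w i * w i') = 0 := by rw [map_mul, hw, hw, orth i i' hii]
    have h2 := hker _ h1
    calc w i * e * (w i' * e) = (w i * w i' * e) * e := by ring
      _ = 0 := by rw [h2, zero_mul]
  · intro i
    have h1 : q (w i * w i - w i) = 0 := by rw [map_sub, map_mul, hw, idem, sub_self]
    have h2 := hker _ h1
    calc w i * e * (w i * e) = w i * w i * (e * e) := by ring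
      _ = (w i * w i - w i) * e + w i * e := by rw [hee]; ring
      _ = w i * e := by rw [h2, zero_add]
  · have h1 : q (∑ i, w i - 1) = 0 := by
      rw [map_sub, map_sum, Finset.sum_congr rfl fun i _ => hw i, sum, map_one, sub_self]
    have h2 := hker _ h1
    rw [← Finset.sum_mul]
    linear_combination h2
  · intro i v
    obtain ⟨c', hc'⟩ := spl i (q v)
    obtain ⟨c, rfl⟩ := hqNsurj c'
    refine ⟨iNL E F N L c, hspanN c, ?_⟩
    have h1 : q (v * w i - iNL E F N L c * w i) = 0 := by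
      rw [map_sub, map_mul, map_mul, hw, hc', hcomm, sub_self]
    have h2 := hker _ h1
    linear_combination h2
  · intro i v hv hv0
    obtain ⟨c, rfl⟩ := hspanN' v hv
    have h1 : q (iNL E F N L c * (w i * e)) = 0 := by rw [hv0, map_zero]
    rw [map_mul, map_mul, hqe, mul_one, hw, hcomm] at h1
    have h2 := inj i _ h1
    refine hker _ ?_
    rw [hcomm, h2, map_zero]

end Construct

end Crest.Agent.R013.Gl946
end

-- ▼ part R013/Gl14_946

/-!
# Patching, part 14: preparations for the cutting theorem with valuations.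
-/

set_option autoImplicit false

namespace Crest.Agent.R013.Gl946

open Filter Topology Polynomial
open scoped NNReal
open Crest.Agent.R013.A2a_275 (Cpl toCpl norm_toCpl)
open Crest.Agent.R013.SE_669 (cl)
open Crest.NumberTheoryR.Sect (IsPlace)

/-- Values of homomorphisms at integral elements lie in the image of an algebraically closed
field. -/
theorem mem_range_of_integral {F R Kb Ω : Type*} [Field F] [CommRing R] [Algebra F R] [Field Kb]
    [IsAlgClosed Kb] [Field Ω] (i : Kb →+* Ω) (j : F →+* Kb) (g : R →+* Ω)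
    (hg : ∀ f, g (algebraMap F R f) = i (j f)) (a : R) (ha : IsIntegral F a) :
    ∃ b, i b = g a := by
  obtain ⟨p, hm, hp⟩ := ha
  have h1 : (p.map j).Splits := IsAlgClosed.splits _
  have h0 : p.map j ≠ 0 := (hm.map j).ne_zero
  have h2 : ((p.map j).map i).IsRoot (g a) := by
    rw [IsRoot.def, Polynomial.map_map, eval_map]
    have : i.comp j = g.comp (algebraMap F R) := by ext f; exact (hg f).symm
    rw [this, ← hom_eval₂, hp, map_zero]
  obtain ⟨b, hb⟩ := h1.mem_range_of_isRoot h0 h2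
  exact ⟨b, hb⟩

section Val

variable {Kb : Type*} [Field Kb]

/-- The topological closure of a subfield in the completion. -/
noncomputable def clS (v : Valuation Kb ℝ≥0) (S : Subfield Kb) : Subfield (Cpl v) :=
  (S.map (toCpl v)).topologicalClosure

theorem isClosed_clS (v : Valuation Kb ℝ≥0) (S : Subfield Kb) :
    IsClosed (clS v S : Set (Cpl v)) := Subfield.isClosed_topologicalClosure _

theorem toCpl_mem_clS (v : Valuation Kb ℝ≥0) (S : Subfield Kb) {a : Kb} (ha : a ∈ S) :
    toCpl v a ∈ clS v S :=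
  Subfield.le_topologicalClosure _ ⟨a, ha, rfl⟩

theorem clS_mono (v : Valuation Kb ℝ≥0) {S T : Subfield Kb} (h : S ≤ T) : clS v S ≤ clS v T := by
  refine Subfield.topologicalClosure_minimal _ ?_ (isClosed_clS v T)
  rintro _ ⟨a, ha, rfl⟩
  exact toCpl_mem_clS v T (h ha)

theorem mem_clS_iff (v : Valuation Kb ℝ≥0) (S : Subfield Kb) (a : Kb) :
    toCpl v a ∈ clS v S ↔ a ∈ cl v (S : Set Kb) := by
  have h : toCpl v a ∈ clS v S ↔ toCpl v a ∈ closure ((S.map (toCpl v) : Subfield (Cpl v)) :
    Set (Cpl v)) := Iff.rfl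
  rw [h, Metric.mem_closure_iff]
  constructor
  · intro h ε hε
    obtain ⟨_, ⟨b, hb, rfl⟩, h2⟩ := h ε hε
    refine ⟨b, hb, ?_⟩
    rw [dist_eq_norm, ← map_sub, norm_toCpl] at h2
    exact_mod_cast h2
  · intro h ε hε
    obtain ⟨b, hb, h2⟩ := h ⟨ε, hε.le⟩ hε
    refine ⟨toCpl v b, ⟨b, hb, rfl⟩, ?_⟩
    rw [dist_eq_norm, ← map_sub, norm_toCpl]
    exact_mod_cast h2

/-- A valuation bounded by `1` on a subfield is bounded by `1` on algebraic elements. -/
theorem le_one_of_algebraic {F : Type*} [Field F] [Algebra F Kb] [Algebra.IsAlgebraic F Kb]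
    (v : Valuation Kb ℝ≥0) (h : ∀ f : F, v (algebraMap F Kb f) ≤ 1) (a : Kb) : v a ≤ 1 := by
  obtain ⟨p, hm, hp⟩ := (Algebra.IsAlgebraic.isAlgebraic (R := F) a).isIntegral
  let r : F →+* v.valuationSubring := (algebraMap F Kb).codRestrict v.valuationSubring.toSubring h
  have hint : IsIntegral v.valuationSubring a := by
    refine ⟨p.map r, hm.map r, ?_⟩
    rw [eval₂_map]
    exact hp
  obtain ⟨b, hb⟩ := IsIntegrallyClosed.algebraMap_eq_of_integral hint
  rw [← hb]; exact b.2

theorem exists_lt_one {F : Type*} [Field F] [Algebra F Kb] [Algebra.IsAlgebraic F Kb]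
    (v : Valuation Kb ℝ≥0) (h : ∃ a : Kb, v a ≠ 0 ∧ v a ≠ 1) :
    ∃ f : F, f ≠ 0 ∧ v (algebraMap F Kb f) < 1 := by
  by_contra hcon
  push Not at hcon
  obtain ⟨a, ha0, ha1⟩ := h
  have h1 : ∀ f : F, v (algebraMap F Kb f) ≤ 1 := by
    intro f
    by_cases hf : f = 0
    · rw [hf, map_zero, map_zero]; exact zero_le_one
    · have := hcon f⁻¹ (inv_ne_zero hf)
      rw [map_inv₀, map_inv₀] at this
      have h0 : v (algebraMap F Kb f) ≠ 0 := by
        rw [Valuation.ne_zero_iff]; exact (_root_.map_ne_zero _).2 hf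
      exact (one_le_inv₀ (pos_iff_ne_zero.2 h0)).1 this
  have h2 := le_one_of_algebraic v h1 a
  have h3 := le_one_of_algebraic v h1 a⁻¹
  rw [map_inv₀] at h3
  have h4 : 1 ≤ v a := (inv_le_one₀ (pos_iff_ne_zero.2 ha0)).1 h3
  exact ha1 (le_antisymm h2 h4)

end Val

section Datum

variable {k E : Type*} [NormedField k] [NormedField E] [NormedAlgebra k E] [IsUltrametricDist E]
  [CompleteSpace E] {y : E}

/-- The patching datum of the disc `|y| < 1`. -/
noncomputable def gaussDatum [CompleteSpace k] (hG : IsGauss k y) {π : k} (hπ : IsUnif π)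
    (hd : DenseRat k y) : PatchDatum E where
  F0 := KY hG
  FP := FP hG hπ hd
  RU := RU k y
  F0_le_FP := KY_le_FP hG hπ hd
  F0_le_RU := fun z hz => KY_le_RU hG hz
  inter := fun z h1 h2 => inter_FP_RU hG hπ hd z h1 h2
  fac := fun _ M M' h => fac_RU_FP hG hπ hd M M' h

end Datum

section Maps

variable {k E : Type*} [NontriviallyNormedField k] [CompleteSpace k] [IsUltrametricDist k]
  [NormedField E] [NormedAlgebra k E] [IsUltrametricDist E] [CompleteSpace E] {y : E}
  (hG : IsGauss k y)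
variable {F Kb : Type*} [Field F] [Field Kb] [Algebra F E] [Algebra F Kb] [Algebra k F]
  [IsScalarTower k F E] [Algebra k Kb] [IsScalarTower k F Kb]
  (hF0 : ∀ z, z ∈ KY hG ↔ ∃ f : F, algebraMap F E f = z)

omit [CompleteSpace k] [IsUltrametricDist k] [IsUltrametricDist E] [CompleteSpace E]
  [Algebra k F] [IsScalarTower k F E] in
include hF0 in
/-- The inverse of `F ≃ k(y)`. -/
theorem exists_sigma : ∃ σ : KY hG →+* F, (∀ z, algebraMap F E (σ z) = z) ∧
    ∀ (f : F) (h : algebraMap F E f ∈ KY hG), σ ⟨algebraMap F E f, h⟩ = f := by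
  let e : F ≃+* KY hG := RingEquiv.ofBijective ((algebraMap F E).codRestrict (KY hG)
      fun f => (hF0 _).2 ⟨f, rfl⟩) ⟨fun a b hab => (algebraMap F E).injective
        (congrArg Subtype.val hab), fun z => by
          obtain ⟨f, hf⟩ := (hF0 _).1 z.2
          exact ⟨f, Subtype.ext hf⟩⟩
  refine ⟨e.symm.toRingHom, fun z => ?_, fun f h => ?_⟩
  · have := e.apply_symm_apply z
    exact congrArg Subtype.val this
  · exact e.symm_apply_apply f

include hF0 in
/-- **Existence of the local maps**, for a norm or a place `v` of `Kb`. -/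
theorem exists_map_val [Algebra.IsAlgebraic F Kb] {π : k} (hπ : IsUnif π) (hd : DenseRat k y)
    (v : Valuation Kb ℝ≥0) (hv : (∀ c : k, v (algebraMap k Kb c) = ‖c‖₊) ∨ IsPlace k v) :
    (∃ Φ : RU k y →+* Cpl v, (∀ (f : F) (h : algebraMap F E f ∈ RU k y),
        Φ ⟨algebraMap F E f, h⟩ = toCpl v (algebraMap F Kb f)) ∧
        ∀ r, Φ r ∈ clS v (algebraMap F Kb).fieldRange) ∨
    (∃ Φ : FP hG hπ hd →+* Cpl v, (∀ (f : F) (h : algebraMap F E f ∈ FP hG hπ hd),
        Φ ⟨algebraMap F E f, h⟩ = toCpl v (algebraMap F Kb f)) ∧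
        ∀ r, Φ r ∈ clS v (algebraMap F Kb).fieldRange) := by
  obtain ⟨σ, hσ, hσ'⟩ := exists_sigma hG hF0
  have hmemF : ∀ f : F, algebraMap F E f ∈ KY hG := fun f => (hF0 _).2 ⟨f, rfl⟩
  have hconst : ∀ c : k, toCpl v (algebraMap F Kb (σ ⟨algebraMap k E c, const_mem_KY hG c⟩)) =
      toCpl v (algebraMap k Kb c) := by
    intro c
    have e1 : (⟨algebraMap k E c, const_mem_KY hG c⟩ : KY hG) =
        ⟨algebraMap F E (algebraMap k F c), hmemF _⟩ := by
      ext; exact IsScalarTower.algebraMap_apply k F E c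
    rw [e1, hσ', ← IsScalarTower.algebraMap_apply]
  have hcase : (∀ c : k, ‖((toCpl v).comp ((algebraMap F Kb).comp σ))
      ⟨algebraMap k E c, const_mem_KY hG c⟩‖ ≤ ‖c‖) ∨
      ((∀ c : k, ‖((toCpl v).comp ((algebraMap F Kb).comp σ))
      ⟨algebraMap k E c, const_mem_KY hG c⟩‖ ≤ 1) ∧ ∃ z : KY hG, z ≠ 0 ∧
      ‖((toCpl v).comp ((algebraMap F Kb).comp σ)) z‖ < 1) := by
    rcases hv with hv | ⟨hv, hnt⟩
    · left
      intro c
      change ‖toCpl v (algebraMap F Kb (σ _))‖ ≤ _
      rw [hconst, norm_toCpl, hv]; rfl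
    · right
      constructor
      · intro c
        change ‖toCpl v (algebraMap F Kb (σ _))‖ ≤ _
        rw [hconst, norm_toCpl]
        by_cases hc : c = 0
        · rw [hc, map_zero, map_zero]; simp
        · rw [hv c hc]; simp
      · obtain ⟨f, hf0, hf⟩ := exists_lt_one (F := F) v hnt
        refine ⟨⟨algebraMap F E f, hmemF f⟩, ?_, ?_⟩
        · intro h
          exact hf0 ((map_eq_zero (algebraMap F E)).1 (congrArg Subtype.val h))
        · change ‖toCpl v (algebraMap F Kb (σ _))‖ < _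
          rw [hσ', norm_toCpl]; exact_mod_cast hf
  rcases exists_map hG hπ hd ((toCpl v).comp ((algebraMap F Kb).comp σ)) hcase
    (clS v (algebraMap F Kb).fieldRange) (isClosed_clS _ _)
    (fun z => toCpl_mem_clS v _ ⟨σ z, rfl⟩) with ⟨Φ, h1, h2⟩ | ⟨Φ, h1, h2⟩
  · left
    refine ⟨Φ, fun f h => ?_, h2⟩
    rw [h1 _ (hmemF f)]
    change toCpl v (algebraMap F Kb (σ _)) = _
    rw [hσ']
  · right
    refine ⟨Φ, fun f h => ?_, h2⟩
    rw [h1 _ (hmemF f)]
    change toCpl v (algebraMap F Kb (σ _)) = _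
    rw [hσ']

omit [CompleteSpace k] [IsUltrametricDist k] in
include hF0 in
/-- The map on `RU` for a norm `v` with `v y ≥ 1`. -/
theorem exists_mapRU_val (v : Valuation Kb ℝ≥0) (hv : ∀ c : k, v (algebraMap k Kb c) = ‖c‖₊)
    (yF : F) (hyF : algebraMap F E yF = y) (hvy : 1 ≤ v (algebraMap F Kb yF)) :
    ∃ Φ : RU k y →+* Cpl v, (∀ (f : F) (h : algebraMap F E f ∈ RU k y),
        Φ ⟨algebraMap F E f, h⟩ = toCpl v (algebraMap F Kb f)) ∧
        ∀ r, Φ r ∈ clS v (algebraMap F Kb).fieldRange := by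
  obtain ⟨σ, hσ, hσ'⟩ := exists_sigma hG hF0
  have hmemF : ∀ f : F, algebraMap F E f ∈ KY hG := fun f => (hF0 _).2 ⟨f, rfl⟩
  have hconst : ∀ c : k, toCpl v (algebraMap F Kb (σ ⟨algebraMap k E c, const_mem_KY hG c⟩)) =
      toCpl v (algebraMap k Kb c) := by
    intro c
    have e1 : (⟨algebraMap k E c, const_mem_KY hG c⟩ : KY hG) =
        ⟨algebraMap F E (algebraMap k F c), hmemF _⟩ := by
      ext; exact IsScalarTower.algebraMap_apply k F E c
    rw [e1, hσ', ← IsScalarTower.algebraMap_apply]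
  obtain ⟨Φ, h1, h2⟩ := mapRU_norm hG ((toCpl v).comp ((algebraMap F Kb).comp σ)) (by
      intro c
      change ‖toCpl v (algebraMap F Kb (σ _))‖ ≤ _
      rw [hconst, norm_toCpl, hv]; rfl) (by
      change ‖toCpl v (algebraMap F Kb (σ _))‖ ≤ _
      have e1 : (⟨y⁻¹, yinv_mem_KY hG⟩ : KY hG) =
        ⟨algebraMap F E yF⁻¹, hmemF _⟩ := by
          ext; change y⁻¹ = algebraMap F E yF⁻¹; rw [map_inv₀, hyF]
      rw [e1, hσ', norm_toCpl, map_inv₀, map_inv₀]
      have : (v (algebraMap F Kb yF))⁻¹ ≤ 1 := inv_le_one_of_one_le₀ hvy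
      exact_mod_cast this)
    (clS v (algebraMap F Kb).fieldRange) (isClosed_clS _ _)
    (fun z => toCpl_mem_clS v _ ⟨σ z, rfl⟩)
  refine ⟨Φ, fun f h => ?_, h2⟩
  rw [h1 _ (hmemF f)]
  change toCpl v (algebraMap F Kb (σ _)) = _
  rw [hσ']

end Maps

end Crest.Agent.R013.Gl946
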