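import Mathlib
import Crest.Agent.R013.TopE1_957
import Crest.Agent.R013.EE5_809
import Crest.Agent.R013.Pow2_931
import Crest.Agent.R013.AN1_243
import Crest.Agent.R013.TopE3_957
import Crest.Agent.R013.RedD3_310
import Crest.Agent.R013.Gl14_946
import Crest.Agent.R013.Pow4_931
import Crest.Agent.R013.Inh5_770

-- ▼ part R013/TopE2_957
section

/-!
# R013 / TopE2: Kummer embeddings, roots near one in `EE` (helper957)

* `exists_ext_of_roots` : `K → F`, `L = K(S)`, every `y ∈ S` has `y^N = h` and `em h` is an `N`-th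
  power in `F`: then `L → F` over `em`;
* `exists_root_near_one` : `gn (a - 1) < ‖N‖²` implies that `a` is an `N`-th power in `EE`;
* `exists_root_of_powAt` : `PowAt N v h` implies that `em h` is an `N`-th power in `EE`.
-/

set_option autoImplicit false
set_option linter.unusedSectionVars false

namespace Crest.Agent.R013.TopE2_957

open scoped NNReal
open Polynomial
open Crest.Agent.R013.TopE1_957

section kummer

variable {K L F : Type*} [Field K] [Field L] [Field F] [Algebra K L]

/-- **Kummer embedding lemma.** -/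
theorem exists_ext_of_roots [Algebra.IsAlgebraic K L] (em : K →+* F) {N : ℕ} (hN : 0 < N) {ζ : K}
    (hζ : IsPrimitiveRoot ζ N) (S : Set L) (hS : IntermediateField.adjoin K S = ⊤)
    (h : ∀ y ∈ S, ∃ (a : K) (s : F), y ^ N = algebraMap K L a ∧ s ^ N = em a) :
    ∃ ψ : L →+* F, ∀ x, ψ (algebraMap K L x) = em x := by
  classical
  let i1 : Algebra K F := em.toAlgebra
  let Ω := AlgebraicClosure F
  have htow : IsScalarTower K F Ω := inferInstance
  let ψ₀ : L →ₐ[K] Ω := IsAlgClosed.lift
  let F' : IntermediateField K Ω := (IsScalarTower.toAlgHom K F Ω).fieldRange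
  have hle : ∀ y ∈ S, ψ₀ y ∈ F' := by
    intro y hy
    obtain ⟨a, s, h1, h2⟩ := h y hy
    have h3 : (ψ₀ y) ^ N = (algebraMap F Ω s) ^ N := by
      rw [← map_pow, h1, AlgHom.commutes, ← map_pow, h2, IsScalarTower.algebraMap_apply K F Ω]; rfl
    by_cases hs : s = 0
    · rw [hs, map_zero, zero_pow hN.ne'] at h3
      rw [eq_zero_of_pow_eq_zero h3]
      exact zero_mem _
    have hs' : algebraMap F Ω s ≠ 0 := (_root_.map_ne_zero _).2 hs
    have h4 : (ψ₀ y / algebraMap F Ω s) ^ N = 1 := by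
      rw [div_pow, h3, div_self (pow_ne_zero _ hs')]
    have hζ' : IsPrimitiveRoot (algebraMap K Ω ζ) N := hζ.map_of_injective (algebraMap K Ω).injective
    have : NeZero N := ⟨hN.ne'⟩
    obtain ⟨i, -, hi⟩ := hζ'.eq_pow_of_pow_eq_one h4
    have h5 : ψ₀ y = algebraMap F Ω (em ζ ^ i * s) := by
      rw [map_mul, map_pow, ← mul_div_cancel_right₀ (ψ₀ y) hs', mul_div_right_comm, ← hi]
      rfl
    exact ⟨em ζ ^ i * s, h5.symm⟩
  have hmem : ∀ x : L, ψ₀ x ∈ F' := by
    have h1 : IntermediateField.adjoin K S ≤ F'.comap ψ₀ := by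
      rw [IntermediateField.adjoin_le_iff]
      exact hle
    rw [hS] at h1
    intro x
    exact h1 (show x ∈ (⊤ : IntermediateField K L) from trivial)
  let e : F ≃ₐ[K] F' := AlgEquiv.ofInjectiveField (IsScalarTower.toAlgHom K F Ω)
  let ψ₁ : L →ₐ[K] F' := ψ₀.codRestrict F'.toSubalgebra hmem
  refine ⟨((e.symm : F' →ₐ[K] F).comp ψ₁ : L →ₐ[K] F), fun x => ?_⟩
  exact ((e.symm : F' →ₐ[K] F).comp ψ₁).commutes x

end kummer

section EE

open Crest.Agent.R013.Cell_408 Crest.Agent.R013.EE809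

variable {k : Type*} [NontriviallyNormedField k] [CompleteSpace k] [IsUltrametricDist k]
variable {C : Type*} [NormedField C] [IsUltrametricDist C] [NormedAlgebra k C]
  [Algebra.IsAlgebraic k C] [IsAlgClosed C] [hk : Fact (DiscNorm k)]

/-- elements near `1` are `N`-th powers in `EE` -/
theorem exists_root_near_one {N : ℕ} (hN : (N : C) ≠ 0) (a : EE k C)
    (ha : gn (a - 1) < ‖(N : C)‖ ^ 2) : ∃ b : EE k C, b ^ N = a ∧ gn (b - 1) < ‖(N : C)‖ := by
  classical
  have hnN : ‖(N : C)‖ ≤ 1 := IsUltrametricDist.norm_natCast_le_one C N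
  have hNpos : 0 < ‖(N : C)‖ := norm_pos_iff.2 hN
  set ν : EE k C := algebraMap C (EE k C) N with hν
  have hνn : ((N : ℕ) : EE k C) = ν := (map_natCast (algebraMap C (EE k C)) N).symm
  have hν0 : ν ≠ 0 := (_root_.map_ne_zero _).2 hN
  have hgnν : gn ν = ‖(N : C)‖ := gn_algebraMap _
  have hgc : ∀ m : ℕ, gn ((m : ℕ) : EE k C) ≤ 1 := by
    intro m
    rw [← map_natCast (algebraMap C (EE k C)) m, gn_algebraMap]
    exact IsUltrametricDist.norm_natCast_le_one C m
  have hN0 : N ≠ 0 := by rintro rfl; simp at hN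
  -- the polynomial `((1 + N X)^N - a) / N²`
  set c : ℕ → EE k C := fun i => if i = 0 then (1 - a) / ν ^ 2 else (N.choose i : EE k C) * ν ^ i / ν ^ 2
    with hc
  set P : (EE k C)[X] := ∑ i ∈ Finset.range (N + 1), Polynomial.C (c i) * X ^ i with hP
  have hcoeff : ∀ i, P.coeff i = if i ∈ Finset.range (N + 1) then c i else 0 := by
    intro i
    rw [hP, finsetSum_coeff]
    simp only [coeff_C_mul_X_pow]
    rw [Finset.sum_ite_eq]
  have hc0 : gn (c 0) < 1 := by
    rw [hc]
    simp only [if_true]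
    rw [gn_div, gn_pow, hgnν, div_lt_one (by positivity), gn_sub_comm]
    exact ha
  have hc1 : c 1 = 1 := by
    rw [hc]
    simp only [one_ne_zero, if_false, Nat.choose_one_right, pow_one, hνn]
    field_simp
  have hci : ∀ i, gn (c i) ≤ 1 := by
    intro i
    rcases Nat.lt_or_ge i 2 with hi | hi
    · interval_cases i
      · exact hc0.le
      · rw [hc1, gn_one]
    · rw [hc]
      simp only [show i ≠ 0 by omega, if_false]
      rw [mul_div_assoc, gn_mul hk.out]
      obtain ⟨j, rfl⟩ := Nat.exists_eq_add_of_le hi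
      have e : ν ^ (2 + j) / ν ^ 2 = ν ^ j := by rw [pow_add]; field_simp
      rw [e, gn_pow, hgnν]
      exact mul_le_one₀ (hgc _) (by positivity) (pow_le_one₀ (norm_nonneg _) hnN)
  have heval : ∀ t : EE k C, P.eval t = ((1 + ν * t) ^ N - a) / ν ^ 2 := by
    intro t
    rw [hP, eval_finsetSum]
    simp only [eval_mul, eval_C, eval_pow, eval_X]
    rw [Finset.range_eq_Ico, Finset.sum_eq_sum_Ico_succ_bot (Nat.succ_pos N)]
    have e1 : (1 + ν * t) ^ N = 1 + ∑ i ∈ Finset.Ico (0 + 1) (N + 1), (N.choose i : EE k C) *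
        (ν * t) ^ i := by
      rw [add_comm (1 : EE k C), add_pow, Finset.range_eq_Ico,
        Finset.sum_eq_sum_Ico_succ_bot (Nat.succ_pos N)]
      simp only [pow_zero, one_pow, mul_one, Nat.choose_zero_right, Nat.cast_one]
      congr 1
      exact Finset.sum_congr rfl fun i _ => by ring
    rw [e1, hc]
    simp only [if_true, pow_zero, mul_one]
    rw [add_sub_right_comm, add_div, Finset.sum_div]
    congr 1
    refine Finset.sum_congr rfl fun i hi => ?_
    have hi0 : i ≠ 0 := by
      have := (Finset.mem_Ico.1 hi).1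
      omega
    simp only [hi0, if_false]
    rw [mul_pow]
    field_simp
  have hd0 : P.derivative.eval 0 = 1 := by
    rw [← coeff_zero_eq_eval_zero, coeff_derivative, hcoeff,
      if_pos (Finset.mem_range.2 (by omega)), hc1]
    simp
  have hP0 : P.eval 0 = c 0 := by
    rw [heval, hc]
    simp only [if_true, mul_zero, add_zero, one_pow]
  obtain ⟨f, h1, h2, -, -⟩ := hensel (P := P) (fun i => by
      rw [hcoeff]
      split_ifs
      · exact hci i
      · rw [gn_zero]; exact zero_le_one) (z := 0) (by rw [gn_zero]; exact zero_le_one)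
      (by rw [hP0]; exact hc0) (by rw [hd0, gn_one])
  rw [hP0, sub_zero] at h2
  refine ⟨1 + ν * f, ?_, ?_⟩
  · rw [heval, div_eq_zero_iff] at h1
    exact sub_eq_zero.1 (h1.resolve_right (pow_ne_zero _ hν0))
  · rw [add_sub_cancel_left, gn_mul hk.out, hgnν]
    calc ‖(N : C)‖ * gn f < ‖(N : C)‖ * 1 := by gcongr; exact h2.trans_lt hc0
      _ = _ := mul_one _

/-- `N`-th power at the norm of an end implies `N`-th power in `EE` -/
theorem exists_root_of_powAt {K : Type*} [Field K] {v : Valuation K ℝ≥0} (em : K →+* EE k C)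
    (hgn : ∀ f, gn (em f) = v f) {N : ℕ} (hN : (N : C) ≠ 0) {h : K} (hP : PowAt N v h) :
    ∃ s : EE k C, s ^ N = em h := by
  have hNpos : 0 < ‖(N : C)‖ := norm_pos_iff.2 hN
  obtain ⟨g, hg0, hg⟩ := hP (‖(N : C)‖₊ ^ 2) (by
    have : 0 < ‖(N : C)‖₊ := by exact_mod_cast hNpos
    positivity)
  have h1 : gn (em (h / g ^ N) - 1) < ‖(N : C)‖ ^ 2 := by
    rw [← map_one em, ← map_sub, hgn]
    exact_mod_cast hg
  obtain ⟨b, hb, -⟩ := exists_root_near_one hN _ h1
  refine ⟨em g * b, ?_⟩
  rw [mul_pow, hb, ← map_pow, ← map_mul, mul_div_cancel₀ _ (pow_ne_zero _ hg0)]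

end EE

end Crest.Agent.R013.TopE2_957
end

-- ▼ part R013/TopE4_957
section

/-!
# R013 / TopE4: covers of a semistable curve which are split at the vertices and unramified:
the disc cells (helper957)

`S : SSK k C K`, `L/K` generated by `N`-th roots.
* `KSplit S N h` : `h` is an `N`-th power at all vertices and `N ∣ div h`;
* `disc_psi` : `L` embeds in the field of every disc cell, over `em d`;
* `ksplit_of` : from `SplitAt` at the vertices and `UnrEv` to `KSplit`.
-/

set_option autoImplicit false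
set_option linter.unusedSectionVars false

namespace Crest.Agent.R013.TopE4_957

open scoped NNReal
open Module WithZero
open Crest.NumberTheoryR.Sect
open Crest.Agent.R013.RR7_948 Crest.Agent.R013.Cell_408 Crest.Agent.R013.EE809
open Crest.Agent.R013.SSK_332 Crest.Agent.R013.TopE1_957 Crest.Agent.R013.TopE2_957
open Crest.Agent.R013.Unr10_957 Crest.Agent.R013.Unr9_957 Crest.Agent.R013.Unr7_957
open Crest.Agent.R013.Pow1_931 Crest.Agent.R013.Pow2_931

section place

variable {k K : Type*} [Field k] [Field K] [Algebra k K]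

/-- the real valued valuation of a place (base `2`) -/
noncomputable def plV (P : Pl k K) : Valuation K ℝ≥0 :=
  P.v.map (WithZeroMulInt.toNNReal (e := 2) two_ne_zero)
    (WithZeroMulInt.toNNReal_strictMono one_lt_two).monotone

theorem plV_apply (P : Pl k K) (x : K) :
    plV P x = WithZeroMulInt.toNNReal (e := 2) two_ne_zero (P.v x) := rfl

theorem isPlace_plV (P : Pl k K) : IsPlace k (plV P) := by
  refine ⟨fun c hc => ?_, ?_⟩
  · rw [plV_apply, P.const c hc, map_one]
  · obtain ⟨x, hx⟩ := P.surj (exp (-1))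
    refine ⟨x, ?_, ?_⟩
    · rw [plV_apply, hx]
      exact (map_ne_zero _).2 exp_ne_zero
    · rw [plV_apply, hx]
      intro h
      have h1 := (WithZeroMulInt.toNNReal_strictMono (e := 2) one_lt_two).injective
        (h.trans (map_one _).symm)
      rw [← exp_zero, exp_inj] at h1
      exact absurd h1 (by decide)

theorem pl_pow_of {P : Pl k K} {h a : K} {N : ℕ} (h0 : h ≠ 0) (e : plV P h = plV P a ^ N) :
    ∃ m : ℤ, P.v h = exp ((N : ℤ) * m) := by
  have h1 : P.v h = P.v a ^ N := by
    apply (WithZeroMulInt.toNNReal_strictMono (e := 2) one_lt_two).injective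
    rw [map_pow]; exact e
  by_cases ha : P.v a = 0
  · by_cases hN : N = 0
    · subst hN
      exact ⟨0, by rw [h1, pow_zero, mul_zero, exp_zero]⟩
    · rw [ha, zero_pow hN] at h1
      exact absurd h1 ((map_ne_zero _).2 h0)
  · refine ⟨log (P.v a), ?_⟩
    rw [h1, ← exp_log ha, log_exp, ← exp_nsmul]
    simp

/-- unramified everywhere: `N` divides the orders of Kummer generators -/
theorem ord_of_unrEv {L : Type*} [Field L] [Algebra K L] [Algebra.IsAlgebraic K L]
    (hL : UnrEv k K L) {N : ℕ} {h : K} (h0 : h ≠ 0) {y : L} (hy : y ^ N = algebraMap K L h)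
    (P : Pl k K) : ∃ m : ℤ, P.v h = exp ((N : ℤ) * m) := by
  obtain ⟨a, ha⟩ := Unr8_957.kummer_of_unrAt (hL (plV P) (isPlace_plV P))
    (exists_extend_alg (plV P)) hy
  exact pl_pow_of h0 ha

end place

section cell

variable {k C K : Type*} [NontriviallyNormedField k] [CompleteSpace k] [IsUltrametricDist k]
  [NormedField C] [IsUltrametricDist C] [NormedAlgebra k C] [Algebra.IsAlgebraic k C]
  [IsAlgClosed C] [hk : Fact (DiscNorm k)] [Field K] [Algebra C K] (S : SSK k C K)

/-- `h` is an `N`-th power at all vertices, and `N ∣ div h` -/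
structure KSplit (N : ℕ) (h : K) : Prop where
  ne : h ≠ 0
  vert : ∀ v, PowAt N (S.nm v).v h
  pl : ∀ P : Pl C K, ∃ m : ℤ, P.v h = exp ((N : ℤ) * m)

variable (k C) in
/-- the field of quotients of bounded series on the open unit disc, inside `EE k C` -/
noncomputable def FDs : Subfield (EE k C) where
  carrier := {x | ∃ g h : EE k C, h ≠ 0 ∧ InD g ∧ InD h ∧ x * h = g}
  mul_mem' := by
    rintro x y ⟨g, h, h0, hg, hh, e⟩ ⟨g', h', h0', hg', hh', e'⟩
    exact ⟨g * g', h * h', mul_ne_zero h0 h0', Pos.mul hg hg', Pos.mul hh hh', by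
      rw [← e, ← e']; ring⟩
  one_mem' := ⟨1, 1, one_ne_zero, Pos.one, Pos.one, one_mul 1⟩
  add_mem' := by
    rintro x y ⟨g, h, h0, hg, hh, e⟩ ⟨g', h', h0', hg', hh', e'⟩
    exact ⟨g * h' + g' * h, h * h', mul_ne_zero h0 h0',
      Pos.add (Pos.mul hg hh') (Pos.mul hg' hh), Pos.mul hh hh', by rw [← e, ← e']; ring⟩
  zero_mem' := ⟨0, 1, one_ne_zero, fun n _ => rfl, Pos.one, zero_mul 1⟩
  neg_mem' := by
    rintro x ⟨g, h, h0, hg, hh, e⟩
    exact ⟨-g, h, h0, Pos.neg hg, hh, by rw [← e]; ring⟩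
  inv_mem' := by
    rintro x ⟨g, h, h0, hg, hh, e⟩
    by_cases hx : x = 0
    · rw [hx, inv_zero]
      exact ⟨0, 1, one_ne_zero, fun n _ => rfl, Pos.one, zero_mul 1⟩
    · refine ⟨h, g, ?_, hh, hg, ?_⟩
      · rw [← e]; exact mul_ne_zero hx h0
      · rw [← e, inv_mul_cancel_left₀ hx]



variable [CharZero C]

/-- the `N`-th root of `em h` at a disc cell is in the field of the disc -/
theorem disc_root {N : ℕ} (hN : 0 < N) {d : S.Dir} (hd : S.IsDisc d) {h : K}
    (hh : KSplit S N h) : ∃ s : FDs k C, (s : EE k C) ^ N = S.em d h := by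
  have hN' : (N : C) ≠ 0 := Nat.cast_ne_zero.2 hN.ne'
  obtain ⟨w, hw⟩ := exists_root_of_powAt (S.em d) (fun f => S.em_gn d f) hN' (hh.vert d.1)
  obtain ⟨G, H, hH0, hG, hH, e⟩ := S.disc d hd.1 hd.2 h
  have hz0 : S.em d h ≠ 0 := (map_ne_zero (S.em d)).2 hh.ne
  have hdiv : DivD N (S.em d h) := by
    intro τ hτ
    obtain ⟨a, b, g, h', h1, h2, h3, h4, h5, h6⟩ := S.ptD_ord d hd.1 hd.2 τ hτ h hh.ne
    refine ⟨a, b, g, h', h1, h2, h3, h4, h5, ?_⟩
    obtain ⟨m, hm⟩ := hh.pl (S.ptD d hd.1 hd.2 τ hτ)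
    rw [hm, exp_inj] at h6
    exact ⟨m, h6.symm⟩
  have := disc_pow hk.out hN hG hH hH0 hz0 e hdiv hw
  exact ⟨⟨w, w * H, H, hH0, this, hH, rfl⟩, hw⟩

/-- **`L` embeds in the field of every disc cell.** -/
theorem disc_psi {L : Type*} [Field L] [Algebra K L] [Algebra.IsAlgebraic K L] {N : ℕ}
    (hN : 0 < N) (T : Set L) (hT : IntermediateField.adjoin K T = ⊤)
    (h : ∀ y ∈ T, ∃ a : K, y ^ N = algebraMap K L a ∧ KSplit S N a) {d : S.Dir}
    (hd : S.IsDisc d) :
    ∃ ψ : L →+* EE k C, (∀ x : K, ψ (algebraMap K L x) = S.em d x) ∧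
      ∀ f : L, ∃ g h : EE k C, h ≠ 0 ∧ InD g ∧ InD h ∧ ψ f * h = g := by
  have : NeZero (N : C) := ⟨Nat.cast_ne_zero.2 hN.ne'⟩
  obtain ⟨ζ, hζ⟩ := HasEnoughRootsOfUnity.exists_primitiveRoot C N
  have hζ' : IsPrimitiveRoot (algebraMap C K ζ) N := hζ.map_of_injective (algebraMap C K).injective
  let em' : K →+* FDs k C := (S.em d).codRestrict (FDs k C) (fun f => S.disc d hd.1 hd.2 f)
  obtain ⟨ψ, hψ⟩ := exists_ext_of_roots em' hN hζ' T hT (fun y hy => by
    obtain ⟨a, ha, ha'⟩ := h y hy
    obtain ⟨s, hs⟩ := disc_root S hN hd ha'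
    exact ⟨a, s, ha, Subtype.ext hs⟩)
  refine ⟨(FDs k C).subtype.comp ψ, fun x => ?_, fun f => (ψ f).2⟩
  rw [RingHom.comp_apply, hψ]
  rfl

/-- from completely split at the vertices and unramified to `KSplit` -/
theorem ksplit_of {L : Type*} [Field L] [Algebra K L] [FiniteDimensional K L]
    (hs : ∀ v, SplitAt (S.nm v).v L) (hu : UnrEv C K L) {N : ℕ} {h : K} (h0 : h ≠ 0) {y : L}
    (hy : y ^ N = algebraMap K L h) : KSplit S N h :=
  ⟨h0, fun v => (hs v).powAt h0 hy, fun P => ord_of_unrEv hu h0 hy P⟩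

end cell

end Crest.Agent.R013.TopE4_957
end

-- ▼ part R013/TopE5_957
section

/-!
# R013 / TopE5: covers of a semistable curve which are split at the vertices and unramified:
the annulus cells, final form (helper957)
-/

set_option autoImplicit false
set_option linter.unusedSectionVars false

namespace Crest.Agent.R013.TopE5_957

open scoped NNReal
open Module WithZero
open Crest.NumberTheoryR.Sect
open Crest.Agent.R013.RR7_948 Crest.Agent.R013.Cell_408 Crest.Agent.R013.EE809
open Crest.Agent.R013.SSK_332 Crest.Agent.R013.TopE1_957 Crest.Agent.R013.TopE2_957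
open Crest.Agent.R013.TopE4_957 Crest.Agent.R013.CAn_243
open Crest.Agent.R013.Unr10_957 Crest.Agent.R013.Unr9_957 Crest.Agent.R013.Unr7_957

section ann

variable {k C : Type*} [NontriviallyNormedField k] [CompleteSpace k] [IsUltrametricDist k]
  [NormedField C] [IsUltrametricDist C] [NormedAlgebra k C] [Algebra.IsAlgebraic k C]
  [IsAlgClosed C] [hk : Fact (DiscNorm k)]

/-- all orders of `z` in the annulus are divisible by `n` -/
def DivA (c : C) (n : ℕ) (z : EE k C) : Prop :=
  ∀ τ : C, ‖c‖ < ‖τ‖ → ‖τ‖ < 1 → ∃ (a b : ℕ) (g h : EE k C), InA c g ∧ InA c h ∧ evE τ g ≠ 0 ∧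
    evE τ h ≠ 0 ∧ z * (lin τ ^ b * h) = lin τ ^ a * g ∧ (n : ℤ) ∣ (b : ℤ) - a

variable (k C) in
/-- `n`-th powers in annuli (931's theorem) -/
def AnnPow (n : ℕ) : Prop := ∀ {c : C}, c ≠ 0 → ‖c‖ < 1 →
  ∀ {z w G H z' w' G' H' : EE k C}, InA c G → InA c H → H ≠ 0 → z ≠ 0 → z * H = G →
    Flip c G G' → Flip c H H' → z' * H' = G' → DivA c n z → w ^ n = z → w' ^ n = z' →
    InA c (w * H)

theorem flip_eq_of_Flip {c : C} (hc0 : c ≠ 0) (hc1 : ‖c‖ < 1) {g g' : EE k C} (hg : InA c g)
    (h : Flip c g g') : ((flip c hc0 hc1 ⟨g, hg⟩ : AN k c) : EE k C) = g' := by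
  ext n
  rw [co_flip, h n]

theorem Flip_flip {c : C} (hc0 : c ≠ 0) (hc1 : ‖c‖ < 1) (g : AN k c) :
    Flip c (g : EE k C) (flip c hc0 hc1 g : AN k c) := fun n => co_flip c hc0 hc1 g n

theorem flipF_mul {c : C} (hc0 : c ≠ 0) (hc1 : ‖c‖ < 1) {x : FA k c} {g h : AN k c}
    (e : (x : EE k C) * h = g) :
    ((flipF c hc0 hc1 x : FA k c) : EE k C) * (flip c hc0 hc1 h : AN k c) =
      (flip c hc0 hc1 g : AN k c) := by
  have h1 : x * algebraMap (AN k c) (FA k c) h = algebraMap (AN k c) (FA k c) g :=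
    Subtype.ext e
  have h2 := congrArg (flipF c hc0 hc1) h1
  rw [map_mul, flipF_algebraMap, flipF_algebraMap] at h2
  exact congrArg (fun z : FA k c => (z : EE k C)) h2

end ann

section cell

variable {k C K : Type*} [NontriviallyNormedField k] [CompleteSpace k] [IsUltrametricDist k]
  [NormedField C] [IsUltrametricDist C] [NormedAlgebra k C] [Algebra.IsAlgebraic k C]
  [IsAlgClosed C] [hk : Fact (DiscNorm k)] [Field K] [Algebra C K] (S : SSK k C K)

/-- the embedding of `K` in the field of the annulus `e` -/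
noncomputable def emA (e : S.Ed) : K →+* FA k (S.cc e) :=
  (S.em (S.e0 e)).codRestrict (FA k (S.cc e)).toSubfield (fun f => by
    obtain ⟨g, h, g', h', h0, h1, h2, -, -, h5, -⟩ := S.ann e f
    exact ⟨g, h1, h, h2, h0, h5⟩)


theorem flipF_emA (e : S.Ed) (f : K) :
    ((flipF (S.cc e) (S.cc_ne e) (S.cc_lt e) (emA S e f) : FA k (S.cc e)) : EE k C) =
      S.em (S.e1 e) f := by
  obtain ⟨g, h, g', h', h0, hg, hh, fg, fh, e1, e2⟩ := S.ann e f
  have h1 := flipF_mul (S.cc_ne e) (S.cc_lt e) (x := emA S e f) (g := ⟨g, hg⟩) (h := ⟨h, hh⟩) e1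
  rw [flip_eq_of_Flip (S.cc_ne e) (S.cc_lt e) hh fh, flip_eq_of_Flip (S.cc_ne e) (S.cc_lt e) hg fg,
    ← e2] at h1
  have hh' : h' ≠ 0 := by
    rw [← flip_eq_of_Flip (S.cc_ne e) (S.cc_lt e) hh fh]
    intro h3
    have h4 : flip (S.cc e) (S.cc_ne e) (S.cc_lt e) ⟨h, hh⟩ = (0 : AN k (S.cc e)) := Subtype.ext h3
    rw [flip_eq_zero] at h4
    exact h0 (congrArg Subtype.val h4)
  exact mul_right_cancel₀ hh' h1

variable [CharZero C]

/-- the `N`-th root of `em h` at an annulus is in the field of the annulus -/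
theorem ann_root {N : ℕ} (hN : 0 < N) (hP : AnnPow k C N) (e : S.Ed) {h : K}
    (hh : KSplit S N h) : ∃ s : FA k (S.cc e), s ^ N = emA S e h := by
  have hN' : (N : C) ≠ 0 := Nat.cast_ne_zero.2 hN.ne'
  obtain ⟨w, hw⟩ := exists_root_of_powAt (S.em (S.e0 e)) (fun f => S.em_gn _ f) hN'
    (hh.vert (S.e0 e).1)
  obtain ⟨w', hw'⟩ := exists_root_of_powAt (S.em (S.e1 e)) (fun f => S.em_gn _ f) hN'
    (hh.vert (S.e1 e).1)
  obtain ⟨G, H, G', H', hH0, hG, hH, fG, fH, e1, e2⟩ := S.ann e h
  have hz0 : S.em (S.e0 e) h ≠ 0 := (map_ne_zero (S.em (S.e0 e))).2 hh.ne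
  have hdiv : DivA (S.cc e) N (S.em (S.e0 e) h) := by
    intro τ hτ hτ'
    obtain ⟨a, b, g, h', h1, h2, h3, h4, h5, h6⟩ := S.ptA_ord e τ hτ hτ' h hh.ne
    refine ⟨a, b, g, h', h1, h2, h3, h4, h5, ?_⟩
    obtain ⟨m, hm⟩ := hh.pl (S.ptA e τ hτ hτ')
    rw [hm, exp_inj] at h6
    exact ⟨m, h6.symm⟩
  have := hP (S.cc_ne e) (S.cc_lt e) hG hH hH0 hz0 e1 fG fH e2 hdiv hw hw'
  exact ⟨⟨w, w * H, this, H, hH, hH0, rfl⟩, Subtype.ext hw⟩

/-- **`L` embeds in the field of every annulus cell.** -/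
theorem ann_psi {L : Type*} [Field L] [Algebra K L] [Algebra.IsAlgebraic K L] {N : ℕ}
    (hN : 0 < N) (hP : AnnPow k C N) (T : Set L) (hT : IntermediateField.adjoin K T = ⊤)
    (h : ∀ y ∈ T, ∃ a : K, y ^ N = algebraMap K L a ∧ KSplit S N a) (e : S.Ed) :
    ∃ ψ0 ψ1 : L →+* EE k C, (∀ x : K, ψ0 (algebraMap K L x) = S.em (S.e0 e) x) ∧
      (∀ x : K, ψ1 (algebraMap K L x) = S.em (S.e1 e) x) ∧
      ∀ f : L, ∃ g h g' h' : EE k C, h ≠ 0 ∧ InA (S.cc e) g ∧ InA (S.cc e) h ∧
        Flip (S.cc e) g g' ∧ Flip (S.cc e) h h' ∧ ψ0 f * h = g ∧ ψ1 f * h' = g' := by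
  have : NeZero (N : C) := ⟨Nat.cast_ne_zero.2 hN.ne'⟩
  obtain ⟨ζ, hζ⟩ := HasEnoughRootsOfUnity.exists_primitiveRoot C N
  have hζ' : IsPrimitiveRoot (algebraMap C K ζ) N := hζ.map_of_injective (algebraMap C K).injective
  obtain ⟨ψ, hψ⟩ := exists_ext_of_roots (emA S e) hN hζ' T hT (fun y hy => by
    obtain ⟨a, ha, ha'⟩ := h y hy
    obtain ⟨s, hs⟩ := ann_root S hN hP e ha'
    exact ⟨a, s, ha, hs⟩)
  refine ⟨(FA k (S.cc e)).val.toRingHom.comp ψ, ((FA k (S.cc e)).val.toRingHom.comp
    (flipF (S.cc e) (S.cc_ne e) (S.cc_lt e)).toRingHom).comp ψ, fun x => ?_, fun x => ?_, ?_⟩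
  · rw [RingHom.comp_apply, hψ]
    rfl
  · rw [RingHom.comp_apply, hψ]
    exact flipF_emA S e x
  · intro f
    obtain ⟨g, hg, h, hh, h0, e1⟩ := (ψ f).2
    exact ⟨g, h, (flip (S.cc e) (S.cc_ne e) (S.cc_lt e) ⟨g, hg⟩ : AN k (S.cc e)),
      (flip (S.cc e) (S.cc_ne e) (S.cc_lt e) ⟨h, hh⟩ : AN k (S.cc e)), h0, hg, hh,
      Flip_flip _ _ ⟨g, hg⟩, Flip_flip _ _ ⟨h, hh⟩, e1,
      flipF_mul (S.cc_ne e) (S.cc_lt e) (x := ψ f) (g := ⟨g, hg⟩) (h := ⟨h, hh⟩) e1⟩

/-- the hypothesis (S) of C-INH (770, post 3201): `L` embeds in all cell fields of `S` -/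
def CellSplit (L : Type*) [Field L] [Algebra K L] : Prop :=
  (∀ d : S.Dir, S.IsDisc d → ∃ ψ : L →+* EE k C, (∀ x : K, ψ (algebraMap K L x) = S.em d x) ∧
    ∀ f : L, ∃ g h : EE k C, h ≠ 0 ∧ InD g ∧ InD h ∧ ψ f * h = g) ∧
  (∀ e : S.Ed, ∃ ψ0 ψ1 : L →+* EE k C, (∀ x : K, ψ0 (algebraMap K L x) = S.em (S.e0 e) x) ∧
    (∀ x : K, ψ1 (algebraMap K L x) = S.em (S.e1 e) x) ∧
    ∀ f : L, ∃ g h g' h' : EE k C, h ≠ 0 ∧ InA (S.cc e) g ∧ InA (S.cc e) h ∧
      Flip (S.cc e) g g' ∧ Flip (S.cc e) h h' ∧ ψ0 f * h = g ∧ ψ1 f * h' = g')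

/-- Kummer covers -/
theorem cellSplit_kummer {L : Type*} [Field L] [Algebra K L] [Algebra.IsAlgebraic K L] {N : ℕ}
    (hN : 0 < N) (hP : AnnPow k C N) (T : Set L) (hT : IntermediateField.adjoin K T = ⊤)
    (h : ∀ y ∈ T, ∃ a : K, y ^ N = algebraMap K L a ∧ KSplit S N a) : CellSplit S L :=
  ⟨fun _ hd => disc_psi S hN T hT h hd, fun e => ann_psi S hN hP T hT h e⟩

/-- **cyclic covers, completely split at the vertices and unramified** -/
theorem cellSplit_of_cyclic {L : Type*} [Field L] [Algebra K L] [FiniteDimensional K L]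
    [IsGalois K L] [IsCyclic (L ≃ₐ[K] L)] (hP : AnnPow k C (finrank K L))
    (hs : ∀ v, SplitAt (S.nm v).v L) (hu : UnrEv C K L) : CellSplit S L := by
  have hN : 0 < finrank K L := finrank_pos
  have : NeZero (finrank K L : C) := ⟨Nat.cast_ne_zero.2 hN.ne'⟩
  obtain ⟨ζ, hζ⟩ := HasEnoughRootsOfUnity.exists_primitiveRoot C (finrank K L)
  have hζ' : IsPrimitiveRoot (algebraMap C K ζ) (finrank K L) :=
    hζ.map_of_injective (algebraMap C K).injective
  have hne : (primitiveRoots (finrank K L) K).Nonempty :=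
    ⟨_, (mem_primitiveRoots hN).2 hζ'⟩
  obtain ⟨α, hα, hαt⟩ := exists_root_adjoin_eq_top_of_isCyclic K L hne
  obtain ⟨a, ha⟩ := hα
  by_cases ha0 : a = 0
  · -- `α = 0`, so `L = K`
    have hα0 : α = 0 := by
      rw [ha0, map_zero] at ha
      exact eq_zero_of_pow_eq_zero ha.symm
    have hT : IntermediateField.adjoin K (∅ : Set L) = ⊤ := by
      rw [← hαt, hα0, IntermediateField.adjoin_simple_eq_bot_iff.2 (zero_mem _),
        IntermediateField.adjoin_empty]
    exact cellSplit_kummer S hN hP ∅ hT (by simp)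
  · refine cellSplit_kummer S hN hP {α} hαt ?_
    rintro y rfl
    exact ⟨a, ha.symm, ksplit_of S hs hu ha0 ha.symm⟩

end cell

end Crest.Agent.R013.TopE5_957
end

-- ▼ part R013/TopE6_957
section

/-!
# R013 / TopE6: TOP-EMBED (helper957)

* `splitAt_of_isPlace`, `unrEv_W` : the cut cover `W/U` of helper92 is split at all places;
* `isGalois_compositum`, `isCyclic_compositum` : base change of cyclic extensions;
* `algClosed_of_splitAt` : a cover which is split at a rational place has no new constants;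
* `etaleAt_vertex` : (E) of C-INH;
* `topEmbed` : the cover `L = W · K` of `K = U · C` satisfies (S) and (E) of C-INH.
-/

set_option autoImplicit false
set_option linter.unusedSectionVars false

namespace Crest.Agent.R013.TopE6_957

open scoped NNReal
open Module Polynomial
open Crest.NumberTheoryR.Sect
open Crest.Agent.R013.Gl946 Crest.Agent.R013.CutCov_92 Crest.Agent.R013.TopE1_957
open Crest.Agent.R013.TopE3_957
open Crest.Agent.R013.Unr7_957 Crest.Agent.R013.Unr9_957 Crest.Agent.R013.Unr10_957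

section circle

universe u

variable {k E : Type*} [NontriviallyNormedField k] [IsUltrametricDist k] [CompleteSpace k]
  [NormedField E] [NormedAlgebra k E] [IsUltrametricDist E] [CompleteSpace E] {y : E}
  (hG : IsGauss k y) {π : k} (hπ : IsUnif π) (hd : DenseRat k y)
  {V : Type*} [CommRing V] [Algebra E V] {D : PatchDatum E} {d : ℕ}
  (hD0 : ∀ z : E, z ∈ D.F0 ↔ z ∈ KY hG) (hDU : ∀ z ∈ D.RU, z ∈ RU k y)
  (hDP : ∀ z ∈ D.FP, z ∈ FP hG hπ hd)
  {X : Edge D V d} {U : Type*} [Field U] {j : U →+* V} {n : ℕ} {W : Type u} [Field W]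
  [Algebra U W] (C : CutCover X j n W) [Algebra k U]
  (hk : ∀ c : k, j (algebraMap k U c) = algebraMap E V (algebraMap k E c))
  {yU : U} (hy : j yU = algebraMap E V y)
  (hF0 : ∀ z ∈ D.F0, algebraMap E V z ∈ X.L) (hj : ∀ v, v ∈ X.L ↔ ∃ u, j u = v)

include hG hD0 hk hy hF0 hj


include hDU hDP C



end circle

section compositum

variable {U W K L : Type*} [Field U] [Field W] [Field K] [Field L] [Algebra U W] [Algebra U K]
  [Algebra W L] [Algebra K L] [Algebra U L] [IsScalarTower U W L] [IsScalarTower U K L]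
  (hL : IntermediateField.adjoin K (Set.range (algebraMap W L)) = ⊤)

include hL

theorem splitting_compositum (p : U[X]) [hp : p.IsSplittingField U W] :
    (p.map (algebraMap U K)).IsSplittingField K L := by
  have h1 : ((p.map (algebraMap U K)).map (algebraMap K L)) =
      (p.map (algebraMap U W)).map (algebraMap W L) := by
    rw [Polynomial.map_map, Polynomial.map_map, ← IsScalarTower.algebraMap_eq,
      ← IsScalarTower.algebraMap_eq]
  have hsp : ((p.map (algebraMap U K)).map (algebraMap K L)).Splits := by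
    rw [h1]
    exact hp.splits.map _
  refine ⟨hsp, ?_⟩
  have hint : ∀ x ∈ (p.map (algebraMap U K)).rootSet L, IsAlgebraic K x := by
    intro x hx
    exact isAlgebraic_of_mem_rootSet hx
  have h2 : IntermediateField.adjoin K ((p.map (algebraMap U K)).rootSet L) = ⊤ := by
    rw [eq_top_iff, ← hL, IntermediateField.adjoin_le_iff]
    rintro _ ⟨w, rfl⟩
    have hw : w ∈ Algebra.adjoin U (p.rootSet W) := by rw [hp.adjoin_rootSet]; trivial
    induction hw using Algebra.adjoin_induction with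
    | mem x hx =>
      apply IntermediateField.subset_adjoin
      by_cases hp0 : p = 0
      · rw [hp0] at hx
        simp at hx
      have hp1 : p.map (algebraMap U K) ≠ 0 := (Polynomial.map_ne_zero_iff
        (algebraMap U K).injective).2 hp0
      rw [Polynomial.mem_rootSet] at hx ⊢
      refine ⟨hp1, ?_⟩
      rw [Polynomial.aeval_map_algebraMap, Polynomial.aeval_algebraMap_apply, hx.2, map_zero]
    | algebraMap r =>
      change algebraMap W L (algebraMap U W r) ∈ _
      rw [← IsScalarTower.algebraMap_apply U W L, IsScalarTower.algebraMap_apply U K L]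
      exact IntermediateField.algebraMap_mem _ _
    | add x y _ _ hx hy =>
      change algebraMap W L (x + y) ∈ _
      rw [map_add]; exact add_mem hx hy
    | mul x y _ _ hx hy =>
      change algebraMap W L (x * y) ∈ _
      rw [map_mul]; exact mul_mem hx hy
  have h3 := IntermediateField.adjoin_toSubalgebra_of_isAlgebraic hint
  rw [h2] at h3
  rw [← h3]; rfl

theorem isGalois_compositum [FiniteDimensional U W] [IsGalois U W] : IsGalois K L := by
  obtain ⟨p, hp, hsp⟩ := IsGalois.is_separable_splitting_field U W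
  have := splitting_compositum hL p
  exact IsGalois.of_separable_splitting_field (p := p.map (algebraMap U K)) (hp.map)

theorem finiteDimensional_compositum [FiniteDimensional U W] [IsGalois U W] :
    FiniteDimensional K L := by
  obtain ⟨p, hp, hsp⟩ := IsGalois.is_separable_splitting_field U W
  have := splitting_compositum hL p
  exact IsSplittingField.finiteDimensional L (p.map (algebraMap U K))

theorem restrict_injective [FiniteDimensional U W] [IsGalois U W] :
    Function.Injective ((AlgEquiv.restrictNormalHom W).comp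
      (⟨⟨fun σ : L ≃ₐ[K] L => σ.restrictScalars U, rfl⟩, fun _ _ => rfl⟩ :
        (L ≃ₐ[K] L) →* (L ≃ₐ[U] L))) := by
  intro σ τ h
  have h1 : ∀ w : W, σ (algebraMap W L w) = τ (algebraMap W L w) := by
    intro w
    have h2 := AlgEquiv.restrictNormal_commutes (σ.restrictScalars U) W w
    have h3 := AlgEquiv.restrictNormal_commutes (τ.restrictScalars U) W w
    have h4 : (σ.restrictScalars U).restrictNormal W = (τ.restrictScalars U).restrictNormal W := h
    rw [h4] at h2
    exact h2.symm.trans h3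
  have h5 : IntermediateField.adjoin K (Set.range (algebraMap W L)) ≤
      { (AlgHom.equalizer (σ : L →ₐ[K] L) (τ : L →ₐ[K] L)) with
        inv_mem' := fun x hx => by
          change σ x⁻¹ = τ x⁻¹
          have : σ x = τ x := hx
          rw [map_inv₀, map_inv₀, this] } := by
    rw [IntermediateField.adjoin_le_iff]
    rintro _ ⟨w, rfl⟩
    exact h1 w
  rw [hL] at h5
  ext x
  exact h5 (show x ∈ (⊤ : IntermediateField K L) from trivial)

theorem isCyclic_compositum [FiniteDimensional U W] [IsGalois U W] [IsCyclic (W ≃ₐ[U] W)] :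
    IsCyclic (L ≃ₐ[K] L) :=
  isCyclic_of_injective _ (restrict_injective (U := U) (W := W) hL)

end compositum

section constants

/-- a cover which is completely split at a rational place has no new constants -/
theorem algClosed_of_splitAt {k K L : Type*} [Field k] [Field K] [Algebra k K] [Field L]
    [Algebra K L] [Algebra k L] [IsScalarTower k K L] [Algebra.IsAlgebraic K L]
    {v : Valuation K ℝ≥0} (hv : IsRationalPlace k K v) (hs : SplitAt v L) {c : L}
    (hc : IsAlgebraic k c) : ∃ a : k, algebraMap k L a = c := by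
  obtain ⟨w, hw⟩ := exists_extend_alg (E := L) v
  have hwk : ∀ a : k, a ≠ 0 → w (algebraMap k L a) = 1 := by
    intro a ha
    rw [IsScalarTower.algebraMap_apply k K L, comap_apply' hw]
    exact hv.1.1 a ha
  -- `w` is trivial on the algebraic closure of `k` in `L`
  have halg : ∀ x : L, IsAlgebraic k x → x ≠ 0 → w x = 1 := by
    intro x hx hx0
    have hx' : x ∈ algebraicClosure k L := mem_algebraicClosure_iff.2 hx
    have h1 := trivial_of_trivial (F := k) (E := algebraicClosure k L)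
      (w.comap (algebraMap (algebraicClosure k L) L)) (fun a ha => hwk a ha) ⟨x, hx'⟩
      (fun h => hx0 (congrArg Subtype.val h))
    exact h1
  have hc1 : w c ≤ 1 := by
    by_cases h0 : c = 0
    · rw [h0, map_zero]; exact zero_le_one
    · exact (halg c hc h0).le
  obtain ⟨g, hg⟩ := hs w hw c 1 one_pos
  have hg1 : v g ≤ 1 := by
    rw [← comap_apply' hw]
    have e : algebraMap K L g = c - (c - algebraMap K L g) := by ring
    rw [e]
    exact (w.map_sub _ _).trans (max_le hc1 hg.le)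
  obtain ⟨a, ha⟩ := hv.2 g hg1
  refine ⟨a, ?_⟩
  by_contra hne
  have h2 : w (c - algebraMap k L a) < 1 := by
    have e : c - algebraMap k L a = (c - algebraMap K L g) +
        algebraMap K L (g - algebraMap k K a) := by
      rw [map_sub, ← IsScalarTower.algebraMap_apply k K L]; ring
    rw [e]
    refine lt_of_le_of_lt (w.map_add _ _) (max_lt hg ?_)
    rw [comap_apply' hw]
    exact ha
  have h3 : IsAlgebraic k (c - algebraMap k L a) := hc.sub (isAlgebraic_algebraMap a)
  have h4 := halg _ h3 (fun h => hne (sub_eq_zero.1 h).symm)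
  rw [h4] at h2
  exact lt_irrefl _ h2

end constants

section vertex

open Crest.Agent.R013.RR7_948 Crest.Agent.R013.Cell_408 Crest.Agent.R013.EE809
open Crest.Agent.R013.SSK_332 Crest.Agent.R013.TopE5_957
open Crest.Agent.R013.Red332 hiding od

variable {k C K : Type*} [NontriviallyNormedField k] [CompleteSpace k] [IsUltrametricDist k]
  [NormedField C] [IsUltrametricDist C] [NormedAlgebra k C] [Algebra.IsAlgebraic k C]
  [IsAlgClosed C] [Field K] [Algebra C K]

theorem infinite_kap (w : Nm C K) : Infinite (IsLocalRing.ResidueField w.v.valuationSubring) := by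
  have h1 : IsAlgClosed (Ct C) := RedD_310.isAlgClosed_Ct
  have h2 : Infinite (Ct C) := IsAlgClosed.instInfinite
  have h3 : Infinite (kap w) := Infinite.of_injective _ (algebraMap (Ct C) (kap w)).injective
  exact h3

include k in
/-- **(E) of C-INH**: completely split covers are étale at the vertices. -/
theorem etaleAt_vertex (w : Nm C K) {L : Type*} [Field L] [Algebra K L] [FiniteDimensional K L]
    [IsGalois K L] (h : SplitAt w.v L) : Inh_770.REnd.EtaleAt K L w.v := by
  have := infinite_kap w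
  refine h.etaleAt ?_
  obtain ⟨c, hc⟩ := NormedField.exists_one_lt_norm k
  refine ⟨algebraMap C K (algebraMap k C c), ?_, ?_⟩
  · rw [w.hC]
    intro h0
    have : ‖algebraMap k C c‖ = 0 := by
      have := congrArg NNReal.toReal h0
      simpa using this
    rw [norm_algebraMap'] at this
    linarith
  · rw [w.hC]
    intro h0
    have : ‖algebraMap k C c‖ = 1 := by
      have := congrArg NNReal.toReal h0
      simpa using this
    rw [norm_algebraMap'] at this
    linarith

variable [hk : Fact (DiscNorm k)] [CharZero C] (S : SSK k C K)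

/-- (S) and (E) of C-INH for cyclic covers which are split at the vertices and unramified -/
theorem cyclic_SE {L : Type*} [Field L] [Algebra K L] [FiniteDimensional K L] [IsGalois K L]
    [IsCyclic (L ≃ₐ[K] L)] (hP : AnnPow k C (finrank K L))
    (hs : ∀ v, SplitAt (S.nm v).v L) (hu : UnrEv C K L) :
    CellSplit S L ∧ ∀ v, Inh_770.REnd.EtaleAt K L (S.nm v).v :=
  ⟨cellSplit_of_cyclic S hP hs hu, fun v => etaleAt_vertex (k := k) _ (hs v)⟩

end vertex

end Crest.Agent.R013.TopE6_957
end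

-- ▼ part R013/TopE7_957
section

/-!
# R013 / TopE7: TOP-EMBED, assembled (helper957)

`k, E, y` a circle (helper946), `U` a field over `k`, `W/U` a cut cover (helper92), `K` a field over
`U` and `C` (`C ⊇ k` with the extended norm), `L = W · K`.
* `splitAt_normC`, `splitAt_placeC`, `unrEv_C` : `L/K` is completely split at all norms and places;
* `topEmbed` : `L/K` is cyclic and satisfies (S), (E) of C-INH;
* `exists_split_cover` : existence of `W` at a non-bridge;
* `exists_split_coverC` : existence of `L` inside `AlgebraicClosure K`.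
-/

set_option autoImplicit false
set_option linter.unusedSectionVars false

namespace Crest.Agent.R013.TopE7_957

open scoped NNReal
open Module Polynomial
open Crest.NumberTheoryR.Sect
open Crest.Agent.R013.Gl946 Crest.Agent.R013.CutCov_92 Crest.Agent.R013.TopE1_957
open Crest.Agent.R013.TopE3_957 Crest.Agent.R013.TopE6_957
open Crest.Agent.R013.Unr7_957 Crest.Agent.R013.Unr9_957 Crest.Agent.R013.Unr10_957

/-- `W/U` is completely split at all norms and places of `U/k` -/
structure SplitCov (k U W : Type*) [NormedField k] [Field U] [Algebra k U] [Field W]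
    [Algebra U W] : Prop where
  norm : ∀ w : Valuation U ℝ≥0, (∀ c : k, w (algebraMap k U c) ≤ ‖c‖₊) → SplitAt w W
  place : ∀ w : Valuation U ℝ≥0, IsPlace k w → SplitAt w W

section circle

universe u

variable {k E : Type*} [NontriviallyNormedField k] [IsUltrametricDist k] [CompleteSpace k]
  [NormedField E] [NormedAlgebra k E] [IsUltrametricDist E] [CompleteSpace E] {y : E}
  (hG : IsGauss k y) {π : k} (hπ : IsUnif π) (hd : DenseRat k y)
  {V : Type*} [CommRing V] [Algebra E V] {d : ℕ}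
  {X : Edge (gaussDatum hG hπ hd) V d} {U : Type*} [Field U] {j : U →+* V} {n : ℕ}
  [Algebra k U] (hk : ∀ c : k, j (algebraMap k U c) = algebraMap E V (algebraMap k E c))
  {yU : U} (hy : j yU = algebraMap E V y)
  (hF0 : ∀ z ∈ KY hG, algebraMap E V z ∈ X.L) (hj : ∀ v, v ∈ X.L ↔ ∃ u, j u = v)

include hk hy hF0 hj


end circle

section exist

universe uV

variable {k E : Type*} [NontriviallyNormedField k] [IsUltrametricDist k] [CompleteSpace k]
  [NormedField E] [NormedAlgebra k E] [IsUltrametricDist E] [CompleteSpace E] {y : E}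
  (hG : IsGauss k y) {π : k} (hπ : IsUnif π) (hd : DenseRat k y)
  {V : Type uV} [CommRing V] [Algebra E V] {d : ℕ}
  (X : Edge (gaussDatum hG hπ hd) V d) {U : Type*} [Field U] {j : U →+* V}
  [Algebra k U] (hk : ∀ c : k, j (algebraMap k U c) = algebraMap E V (algebraMap k E c))
  {yU : U} (hy : j yU = algebraMap E V y)
  (hF0 : ∀ z ∈ KY hG, algebraMap E V z ∈ X.L) (hj : ∀ v, v ∈ X.L ↔ ∃ u, j u = v)

include hk hy hF0 hj


end exist

section extend

variable {k C U W K L : Type*} [NormedField k] [NormedField C] [Algebra k C] [Field U]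
  [Algebra k U] [Field W] [Algebra U W] [Field K] [Field L] [Algebra C K] [Algebra k K]
  [Algebra U K] [IsScalarTower k U K] [IsScalarTower k C K]
  [Algebra W L] [Algebra K L] [Algebra U L] [IsScalarTower U W L] [IsScalarTower U K L]
  (hL : IntermediateField.adjoin K (Set.range (algebraMap W L)) = ⊤)

include hL

theorem splitAt_normC (hW : SplitCov k U W) (hC : ∀ c : k, ‖algebraMap k C c‖ ≤ ‖c‖)
    (v : Valuation K ℝ≥0) (hv : ∀ c : C, v (algebraMap C K c) ≤ ‖c‖₊) : SplitAt v L := by
  refine (hW.norm (v.comap (algebraMap U K)) fun c => ?_).baseChange rfl hL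
  rw [Valuation.comap_apply, ← IsScalarTower.algebraMap_apply k U K,
    IsScalarTower.algebraMap_apply k C K]
  exact (hv _).trans (hC c)

theorem splitAt_placeC [Algebra.IsAlgebraic U K] (hW : SplitCov k U W)
    (v : Valuation K ℝ≥0) (hv : IsPlace C v) : SplitAt v L := by
  refine (hW.place (v.comap (algebraMap U K)) ?_).baseChange rfl hL
  have hv' : IsPlace k v := by
    refine ⟨fun c hc => ?_, hv.2⟩
    rw [IsScalarTower.algebraMap_apply k C K]
    exact hv.1 _ ((_root_.map_ne_zero _).2 hc)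
  refine ⟨fun c hc => ?_, ?_⟩
  · rw [Valuation.comap_apply, ← IsScalarTower.algebraMap_apply k U K]
    exact hv'.1 c hc
  · by_contra hcon
    push Not at hcon
    obtain ⟨a, ha0, ha1⟩ := hv.2
    refine ha1 (trivial_of_trivial (F := U) v (fun x hx => ?_) a ?_)
    · have h1 := hcon x
      rw [Valuation.comap_apply] at h1
      exact h1 ((_root_.map_ne_zero v).2 ((_root_.map_ne_zero _).2 hx))
    · rintro rfl
      exact ha0 (map_zero _)

theorem unrEv_C [Algebra.IsAlgebraic U K] (hW : SplitCov k U W) : UnrEv C K L :=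
  fun v hv => (splitAt_placeC hL hW v hv).unrAt

end extend

section final

open Crest.Agent.R013.RR7_948 Crest.Agent.R013.Cell_408 Crest.Agent.R013.EE809
open Crest.Agent.R013.SSK_332 Crest.Agent.R013.TopE5_957
open Crest.Agent.R013.Red332 hiding od

variable {k₀ k C U W K L : Type*} [NontriviallyNormedField k₀] [CompleteSpace k₀]
  [IsUltrametricDist k₀] [hk₀ : Fact (DiscNorm k₀)]
  [NormedField C] [IsUltrametricDist C] [NormedAlgebra k₀ C] [Algebra.IsAlgebraic k₀ C]
  [IsAlgClosed C] [CharZero C]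
  [NormedField k] [Algebra k C] [Field U] [Algebra k U] [Field W] [Algebra U W]
  [Field K] [Field L] [Algebra C K] [Algebra k K] [Algebra U K] [IsScalarTower k U K]
  [IsScalarTower k C K] [Algebra.IsAlgebraic U K]
  [Algebra W L] [Algebra K L] [Algebra U L] [IsScalarTower U W L] [IsScalarTower U K L]
  (hL : IntermediateField.adjoin K (Set.range (algebraMap W L)) = ⊤)

include hL

/-- **TOP-EMBED.** -/
theorem topEmbed (S : SSK k₀ C K) (hW : SplitCov k U W) (hC : ∀ c : k, ‖algebraMap k C c‖ ≤ ‖c‖)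
    [FiniteDimensional U W] [IsGalois U W] [IsCyclic (W ≃ₐ[U] W)]
    (hP : ∀ N, 0 < N → AnnPow k₀ C N) :
    FiniteDimensional K L ∧ IsGalois K L ∧ IsCyclic (L ≃ₐ[K] L) ∧ UnrEv C K L ∧
      (∀ v : Valuation K ℝ≥0, (∀ c : C, v (algebraMap C K c) ≤ ‖c‖₊) → SplitAt v L) ∧
      CellSplit S L ∧ ∀ v, Inh_770.REnd.EtaleAt K L (S.nm v).v := by
  have h1 : FiniteDimensional K L := finiteDimensional_compositum (U := U) (W := W) hL
  have h2 : IsGalois K L := isGalois_compositum (U := U) (W := W) hL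
  have h3 : IsCyclic (L ≃ₐ[K] L) := isCyclic_compositum (U := U) (W := W) hL
  have h4 : UnrEv C K L := unrEv_C (C := C) hL hW
  have h5 : ∀ v : Valuation K ℝ≥0, (∀ c : C, v (algebraMap C K c) ≤ ‖c‖₊) → SplitAt v L :=
    fun v hv => splitAt_normC (C := C) hL hW hC v hv
  have h6 : ∀ v, SplitAt (S.nm v).v L := fun v => h5 _ fun c => ((S.nm v).hC c).le
  obtain ⟨h7, h8⟩ := cyclic_SE S (L := L) (hP _ finrank_pos) h6 h4
  exact ⟨h1, h2, h3, h4, h5, h7, h8⟩

end final

end Crest.Agent.R013.TopE7_957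
end

-- ▼ part R013/TopE8_957

/-!
# R013 / TopE8: TOP-EMBED in the form consumed by C-INH (`Spl` of `Inh5_770`) (helper957)

* `annPow` : 931's theorem on annuli;
* `spl_of` : `CellSplit` + completely split at the vertices ⟹ `Spl S L`;
* `spl_of_kummer`, `spl_of_cyclic`, `spl_of_top`.
-/

set_option autoImplicit false
set_option linter.unusedSectionVars false

namespace Crest.Agent.R013.TopE8_957

open scoped NNReal
open Module
open Crest.NumberTheoryR.Sect
open Crest.Agent.R013.RR7_948 Crest.Agent.R013.Cell_408 Crest.Agent.R013.EE809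
open Crest.Agent.R013.SSK_332 Crest.Agent.R013.TopE1_957 Crest.Agent.R013.TopE4_957
open Crest.Agent.R013.TopE5_957 Crest.Agent.R013.TopE7_957 Crest.Agent.R013.Unr10_957
open Crest.Agent.R013.Inh_770

variable {k C K : Type*} [NontriviallyNormedField k] [CompleteSpace k] [IsUltrametricDist k]
  [NormedField C] [IsUltrametricDist C] [NormedAlgebra k C] [Algebra.IsAlgebraic k C]
  [IsAlgClosed C] [hk : Fact (DiscNorm k)] [Field K] [Algebra C K]

theorem annPow {N : ℕ} (hN : 0 < N) : AnnPow k C N := by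
  intro c hc0 hc1 z w G H z' w' G' H' hG hH hH0 hz0 e fG fH e' hdiv hw hw'
  exact (Pow4_931.ann_pow hk.out hc0 hc1 hN hG hH hH0 hz0 e hdiv hw fG fH e' hw').1

variable {S : SSK k C K} {L : Type*} [Field L] [Algebra C L] [Algebra K L] [IsScalarTower C K L]

/-- **`Spl` from the cell embeddings and complete splitting at the vertices.** -/
theorem spl_of (h : CellSplit S L) (hs : ∀ v, SplitAt (S.nm v).v L) : Nonempty (Spl S L) := by
  classical
  obtain ⟨hD, hA⟩ := h
  choose ψD hψD hψD' using hD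
  choose ψ0 ψ1 h0 h1 h01 using hA
  have key : ∀ d : S.Dir, ∃ ψ : L →+* EE k C, (∀ x : K, ψ (algebraMap K L x) = S.em d x) ∧
      (∀ e, d = S.e0 e → ψ = ψ0 e) ∧ (∀ e, d = S.e1 e → ψ = ψ1 e) ∧
      ∀ hd : S.IsDisc d, ψ = ψD d hd := by
    intro d
    by_cases he0 : ∃ e, d = S.e0 e
    · obtain ⟨e, rfl⟩ := he0
      refine ⟨ψ0 e, h0 e, fun e' he' => ?_, fun e' he' => ?_, fun hd => absurd rfl (hd.1 e)⟩
      · have : (Sum.inl e : S.Ed ⊕ S.Ed) = Sum.inl e' := S.ends_inj he'
        rw [Sum.inl.inj this]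
      · have : (Sum.inl e : S.Ed ⊕ S.Ed) = Sum.inr e' := S.ends_inj he'
        simp at this
    by_cases he1 : ∃ e, d = S.e1 e
    · obtain ⟨e, rfl⟩ := he1
      refine ⟨ψ1 e, h1 e, fun e' he' => absurd ⟨e', he'⟩ he0, fun e' he' => ?_,
        fun hd => absurd rfl (hd.2 e)⟩
      have : (Sum.inr e : S.Ed ⊕ S.Ed) = Sum.inr e' := S.ends_inj he'
      rw [Sum.inr.inj this]
    have hd : S.IsDisc d := ⟨fun e he => he0 ⟨e, he⟩, fun e he => he1 ⟨e, he⟩⟩
    exact ⟨ψD d hd, hψD d hd, fun e he => absurd ⟨e, he⟩ he0, fun e he => absurd ⟨e, he⟩ he1,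
      fun _ => rfl⟩
  choose ps hps hps0 hps1 hpsD using key
  refine ⟨⟨ps, hps, fun e f => ?_, fun d hd f => ?_, fun d => ?_⟩⟩
  · rw [hps0 _ e rfl, hps1 _ e rfl]
    exact h01 e f
  · rw [hpsD d hd]
    exact hψD' d hd f
  · refine REnd.noInertia_of_dense _ fun f a ha => ?_
    have hw : (gnV.comap (ps d)).comap (algebraMap K L) = (S.nm d.1).v := by
      ext x
      rw [Valuation.comap_apply, Valuation.comap_apply, hps, Spl.em_gnV]
    exact hs d.1 _ hw f _ ((Valuation.pos_iff _).2 ha)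

variable [CharZero C]

/-- Kummer covers (several generators), completely split at the vertices, `N ∣ div h` -/
theorem spl_of_kummer [Algebra.IsAlgebraic K L] {N : ℕ} (hN : 0 < N) (T : Set L)
    (hT : IntermediateField.adjoin K T = ⊤)
    (h : ∀ y ∈ T, ∃ a : K, y ^ N = algebraMap K L a ∧ KSplit S N a) : Nonempty (Spl S L) := by
  refine spl_of (cellSplit_kummer S hN (annPow hN) T hT h) fun v => ?_
  have : NeZero (N : C) := ⟨Nat.cast_ne_zero.2 hN.ne'⟩
  obtain ⟨ζ, hζ⟩ := HasEnoughRootsOfUnity.exists_primitiveRoot C N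
  have hζ' : IsPrimitiveRoot (algebraMap C K ζ) N := hζ.map_of_injective (algebraMap C K).injective
  refine splitAt_of_powAt hN hζ' T hT fun y hy => ?_
  obtain ⟨a, ha, ha'⟩ := h y hy
  exact ⟨a, ha'.ne, ha, ha'.vert v⟩


/-- the covers `L = W · K`, `W/U` a cyclic cover at a finite level, completely split at all norms
and places (`exists_split_cover`) -/
theorem spl_of_top (S : SSK k C K) {κ U W : Type*} [NormedField κ] [Algebra κ C] [Field U]
    [Algebra κ U] [Field W] [Algebra U W] [Algebra κ K] [Algebra U K] [IsScalarTower κ U K]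
    [IsScalarTower κ C K] [Algebra.IsAlgebraic U K]
    [Algebra W L] [Algebra U L] [IsScalarTower U W L] [IsScalarTower U K L]
    (hL : IntermediateField.adjoin K (Set.range (algebraMap W L)) = ⊤)
    (hW : SplitCov κ U W) (hC : ∀ c : κ, ‖algebraMap κ C c‖ ≤ ‖c‖)
    [FiniteDimensional U W] [IsGalois U W] [IsCyclic (W ≃ₐ[U] W)] : Nonempty (Spl S L) := by
  obtain ⟨h1, h2, h3, h4, h5, h6, -⟩ := topEmbed hL S hW hC fun N hN => annPow hN
  exact spl_of h6 fun v => h5 _ fun c => ((S.nm v).hC c).le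

end Crest.Agent.R013.TopE8_957
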