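import Crest.Agent.R013.DEm3_719
import Crest.Agent.R013.TopE8_957
import Crest.Agent.R013.Inh11_770
import Crest.Agent.R013.Kumv2_275
import Crest.Agent.R013.Inh12_770
import Crest.Agent.R013.Desc8_372
import Crest.Agent.R013.TP12_928

-- ▼ part R013/CY1_957
section

/-!
# R013 / CY1: stage (C) "C-Y" of the assembly of part C (helper957), part 1

`κ` a complete field, `C / κ` algebraic, `M ⊆ Y₀` function fields over `κ`, `K = M ⊗ C`,
`Y = Y₀ ⊗ C`.  If `M` is dense in `Y₀` for a norm `w` of `Y`, then `K` is dense in `Y`,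
simultaneously for all Galois conjugates (`exists_close`).  Hence invariance of norms, places and
equivariance of embeddings pass from `K` to `Y`.
-/

set_option autoImplicit false
set_option linter.unusedSectionVars false

namespace Crest.Agent.R013.CY_957

open scoped NNReal
open Module WithZero
open Crest.Agent.R013.RR7_948 Crest.Agent.R013.Cell_408 Crest.Agent.R013.EE809
open Crest.Agent.R013.SSK_332 Crest.Agent.R013.TopE1_957 Crest.Agent.R013.TopE4_957
open Crest.Agent.R013.Desc_372 Crest.Agent.R013.Inh_770 Crest.Agent.R013.Red332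
open Crest.Agent.R013.DEm_719

section dense

variable {κ C M K Y₀ Y : Type*} [Field κ] [Field C] [Field M] [Field K] [Field Y₀] [Field Y]
  [Algebra κ C] [Algebra κ M] [Algebra κ K] [Algebra κ Y₀] [Algebra κ Y] [Algebra C Y]
  [Algebra Y₀ Y] [Algebra C K] [Algebra M K] [Algebra K Y] [Algebra M Y₀] [Algebra M Y]
  [IsScalarTower κ C Y] [IsScalarTower κ Y₀ Y] [IsScalarTower C K Y] [IsScalarTower M K Y]
  [IsScalarTower M Y₀ Y] [IsScalarTower κ C K] [IsScalarTower κ M K] [CE κ C Y₀ Y]

/-- **Galois-equivariant density.** -/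
theorem exists_close (w : Valuation Y ℝ≥0) (hs : SplitAt (w.comap (algebraMap M Y)) Y₀)
    (F : Y) {ε : ℝ≥0} (hε : 0 < ε) : ∃ F' : K, ∀ (s : C ≃ₐ[κ] C) (w' : Valuation Y ℝ≥0),
      (∀ c : C, w' (algebraMap C Y (s c)) = w (algebraMap C Y c)) →
      (∀ f : Y₀, w' (algebraMap Y₀ Y f) = w (algebraMap Y₀ Y f)) →
      w' (CE.lift κ C Y₀ Y s (F - algebraMap K Y F')) < ε := by
  obtain ⟨n, c, f, rfl⟩ := CE.exists_sum κ C Y₀ Y F
  have h1 : ∀ i, ∃ g : M, w (algebraMap Y₀ Y (f i - algebraMap M Y₀ g)) <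
      ε / (w (algebraMap C Y (c i)) + 1) := by
    intro i
    obtain ⟨g, hg⟩ := hs (w.comap (algebraMap Y₀ Y)) (by
      rw [← Valuation.comap_comp, ← IsScalarTower.algebraMap_eq]) (f i)
      (ε / (w (algebraMap C Y (c i)) + 1)) (div_pos hε (by positivity))
    exact ⟨g, hg⟩
  choose g hg using h1
  refine ⟨∑ i, algebraMap C K (c i) * algebraMap M K (g i), fun s w' hc hf => ?_⟩
  have e1 : (∑ i, algebraMap C Y (c i) * algebraMap Y₀ Y (f i)) -
      algebraMap K Y (∑ i, algebraMap C K (c i) * algebraMap M K (g i)) =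
      ∑ i, algebraMap C Y (c i) * algebraMap Y₀ Y (f i - algebraMap M Y₀ (g i)) := by
    rw [map_sum, ← Finset.sum_sub_distrib]
    refine Finset.sum_congr rfl fun i _ => ?_
    rw [map_mul, map_sub, ← IsScalarTower.algebraMap_apply C K Y,
      ← IsScalarTower.algebraMap_apply M K Y, ← IsScalarTower.algebraMap_apply M Y₀ Y]
    ring
  rw [e1, map_sum]
  refine Valuation.map_sum_lt _ hε.ne' fun i _ => ?_
  rw [map_mul, AlgEquiv.commutes, CE.lift_algebraMap, map_mul, hc, hf]
  have h2 := hg i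
  have h3 : 0 < w (algebraMap C Y (c i)) + 1 := by positivity
  rw [lt_div_iff₀ h3] at h2
  calc w (algebraMap C Y (c i)) * w (algebraMap Y₀ Y (f i - algebraMap M Y₀ (g i)))
      ≤ w (algebraMap Y₀ Y (f i - algebraMap M Y₀ (g i))) * (w (algebraMap C Y (c i)) + 1) := by
        rw [mul_comm]
        exact mul_le_mul_right (le_add_of_nonneg_right zero_le_one) _
    _ < ε := h2

variable (κ C) in
include κ C in
/-- density of `K` in `Y` -/
theorem exists_close' (w : Valuation Y ℝ≥0) (hs : SplitAt (w.comap (algebraMap M Y)) Y₀)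
    (F : Y) {ε : ℝ≥0} (hε : 0 < ε) : ∃ F' : K, w (F - algebraMap K Y F') < ε := by
  obtain ⟨F', h⟩ := exists_close (κ := κ) (C := C) (K := K) w hs F hε
  refine ⟨F', ?_⟩
  have h1 := h 1 w (fun c => rfl) fun f => rfl
  rwa [map_one, AlgEquiv.one_apply] at h1

variable [CE κ C M K]

/-- the lifts to `K` and `Y` are compatible -/
theorem lift_algebraMap_K (s : C ≃ₐ[κ] C) (f : K) :
    CE.lift κ C Y₀ Y s (algebraMap K Y f) = algebraMap K Y (CE.lift κ C M K s f) := by
  have h := CE.ringHom_ext κ C M K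
    (φ := (CE.lift κ C Y₀ Y s : Y →+* Y).comp (algebraMap K Y))
    (ψ := (algebraMap K Y).comp (CE.lift κ C M K s : K →+* K)) (fun c => by
      change CE.lift κ C Y₀ Y s (algebraMap K Y (algebraMap C K c)) =
        algebraMap K Y (CE.lift κ C M K s (algebraMap C K c))
      rw [← IsScalarTower.algebraMap_apply C K Y, CE.lift_algebraMap, CE.lift_algebraMap,
        ← IsScalarTower.algebraMap_apply C K Y]) (fun m => by
      change CE.lift κ C Y₀ Y s (algebraMap K Y (algebraMap M K m)) =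
        algebraMap K Y (CE.lift κ C M K s (algebraMap M K m))
      rw [← IsScalarTower.algebraMap_apply M K Y, IsScalarTower.algebraMap_apply M Y₀ Y,
        AlgEquiv.commutes, AlgEquiv.commutes, ← IsScalarTower.algebraMap_apply M K Y,
        ← IsScalarTower.algebraMap_apply M Y₀ Y])
  exact congrArg (fun φ : K →+* Y => φ f) h

/-- **an invariant norm on `K` extends to an invariant norm on `Y`** -/
theorem norm_lift (w : Valuation Y ℝ≥0) (hs : SplitAt (w.comap (algebraMap M Y)) Y₀)
    (s : C ≃ₐ[κ] C) (hc : ∀ c : C, w (algebraMap C Y (s c)) = w (algebraMap C Y c))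
    (hK : ∀ f : K, w (algebraMap K Y (CE.lift κ C M K s f)) = w (algebraMap K Y f)) (F : Y) :
    w (CE.lift κ C Y₀ Y s F) = w F := by
  by_cases hF : F = 0
  · rw [hF, map_zero]
  have hpos : 0 < w F := (Valuation.pos_iff _).2 hF
  obtain ⟨F', h⟩ := exists_close (κ := κ) (C := C) (K := K) w hs F hpos
  have h1 : w (F - algebraMap K Y F') < w F := by
    have := h 1 w (fun c => rfl) fun f => rfl
    rwa [map_one, AlgEquiv.one_apply] at this
  have h2 : w (CE.lift κ C Y₀ Y s (F - algebraMap K Y F')) < w F := h s w hc fun f => rfl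
  have h3 : w (algebraMap K Y F') = w F := Valuation.map_eq_of_sub_lt w (by
    rwa [Valuation.map_sub_swap])
  have h4 : w (CE.lift κ C Y₀ Y s (algebraMap K Y F')) = w F := by
    rw [lift_algebraMap_K (M := M), hK, h3]
  rw [map_sub] at h2
  rw [← h4] at h2 ⊢
  exact Valuation.map_eq_of_sub_lt w h2

end dense

end Crest.Agent.R013.CY_957
end

-- ▼ part R013/CY2_957
section

/-!
# R013 / CY2 (helper957): equivariant embeddings, places and residue fields of `Y = Y₀ ⊗ C`
-/

set_option autoImplicit false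
set_option linter.unusedSectionVars false

namespace Crest.Agent.R013.CY_957

open scoped NNReal
open Module WithZero
open Crest.NumberTheoryR.Sect
open Crest.Agent.R013.RR7_948 Crest.Agent.R013.Cell_408 Crest.Agent.R013.EE809
open Crest.Agent.R013.SSK_332 Crest.Agent.R013.TopE1_957 Crest.Agent.R013.TopE4_957
open Crest.Agent.R013.Desc_372 Crest.Agent.R013.Inh_770 Crest.Agent.R013.Red332
open Crest.Agent.R013.DEm_719 Crest.Agent.R013.DEm_719.GalAct Crest.Agent.R013.Kumv2_275

/-- the residue field of `w` is spanned over `Ct C` by reductions of elements of `F` -/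
def SpanAt (F : Type*) {C K : Type*} [NormedField C] [IsUltrametricDist C] [Field F] [Field K]
    [Algebra C K] [Algebra F K] (w : Nm C K) : Prop :=
  Submodule.span (Ct C) {y : kap w | ∃ f : F, w.v (algebraMap F K f) ≤ 1 ∧
    Red332.red w (algebraMap F K f) = y} = ⊤

section place

variable {κ C M K Y₀ Y : Type*} [Field κ] [Field C] [Field M] [Field K] [Field Y₀] [Field Y]
  [Algebra κ C] [Algebra κ M] [Algebra κ K] [Algebra κ Y₀] [Algebra κ Y] [Algebra C Y]
  [Algebra Y₀ Y] [Algebra C K] [Algebra M K] [Algebra K Y] [Algebra M Y₀] [Algebra M Y]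
  [IsScalarTower κ C Y] [IsScalarTower κ Y₀ Y] [IsScalarTower C K Y] [IsScalarTower M K Y]
  [IsScalarTower M Y₀ Y] [IsScalarTower κ C K] [IsScalarTower κ M K] [CE κ C Y₀ Y] [CE κ C M K]

theorem plV_inj {k K : Type*} [Field k] [Field K] [Algebra k K] (P Q : Pl k K) {x y : K}
    (h : plV P x = plV Q y) : P.v x = Q.v y :=
  (WithZeroMulInt.toNNReal_strictMono (e := 2) one_lt_two).injective h

/-- a place of `Y` over a Galois invariant place of `K` is Galois invariant -/
theorem place_lift (P : Pl C Y) (hs : SplitAt ((plV P).comap (algebraMap M Y)) Y₀)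
    (s : C ≃ₐ[κ] C)
    (hK : ∀ f : K, P.v (algebraMap K Y (CE.lift κ C M K s f)) = P.v (algebraMap K Y f)) (F : Y) :
    P.v (CE.lift κ C Y₀ Y s F) = P.v F := by
  refine plV_inj P P (norm_lift (M := M) (K := K) (plV P) hs s (fun c => ?_) (fun f => ?_) F)
  · rcases eq_or_ne c 0 with rfl | hc
    · rw [map_zero]
    · rw [plV_apply, plV_apply, P.const c hc, P.const (s c) ((map_ne_zero s).2 hc)]
  · rw [plV_apply, plV_apply, hK]

end place

section normed

variable {k C : Type*} [NontriviallyNormedField k] [CompleteSpace k] [IsUltrametricDist k]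
  [NormedField C] [IsUltrametricDist C] [NormedAlgebra k C] [Algebra.IsAlgebraic k C]
  [IsAlgClosed C] [hk : Fact (DiscNorm k)]
variable {κ M K Y₀ Y : Type*} [Field κ] [Field M] [Field K] [Field Y₀] [Field Y]
  [Algebra k κ] [Algebra κ C] [IsScalarTower k κ C]
  [Algebra κ M] [Algebra κ K] [Algebra κ Y₀] [Algebra κ Y] [Algebra C Y]
  [Algebra Y₀ Y] [Algebra C K] [Algebra M K] [Algebra K Y] [Algebra M Y₀] [Algebra M Y]
  [IsScalarTower κ C Y] [IsScalarTower κ Y₀ Y] [IsScalarTower C K Y] [IsScalarTower M K Y]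
  [IsScalarTower M Y₀ Y] [IsScalarTower κ C K] [IsScalarTower κ M K] [CE κ C Y₀ Y]

/-- **exact equivariance of embeddings passes from `K` to `Y`** -/
theorem eqAt_lift [CE κ C M K] (ψ : Y →+* EE k C)
    (hψC : ∀ c, ψ (algebraMap C Y c) = algebraMap C (EE k C) c)
    (hs : SplitAt ((gnV.comap ψ).comap (algebraMap M Y)) Y₀) (k' : IntermediateField κ C)
    (hK : EqAt k κ C M K (gaEE k C) (ψ.comp (algebraMap K Y)) k') :
    EqAt k κ C Y₀ Y (gaEE k C) ψ k' := by
  intro s hsk F
  rw [gaEE_act]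
  set t : C ≃ₐ[k] C := s.restrictScalars k with ht
  by_contra hne
  set a : EE k C := actEE t (ψ F) - ψ (CE.lift κ C Y₀ Y s F) with ha
  have ha0 : a ≠ 0 := sub_ne_zero.2 hne
  have hpos : 0 < gnV a := (Valuation.pos_iff _).2 ha0
  have hact : ∀ b : EE k C, gnV (actEE t b) = gnV b := fun b => gnV_eq.2 (gn_actEE t b)
  have hc : ∀ c : C, (gnV.comap ψ) (algebraMap C Y (s c)) = (gnV.comap ψ) (algebraMap C Y c) := by
    intro c
    rw [Valuation.comap_apply, Valuation.comap_apply, hψC, hψC, gnV_C, gnV_C]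
    exact NNReal.eq (norm_mapE t c)
  obtain ⟨F', h⟩ := exists_close (κ := κ) (C := C) (K := K) (gnV.comap ψ) hs F hpos
  have h1 : gnV (ψ (F - algebraMap K Y F')) < gnV a := by
    have := h 1 (gnV.comap ψ) (fun c => rfl) fun f => rfl
    rwa [map_one, AlgEquiv.one_apply, Valuation.comap_apply] at this
  have h2 : gnV (ψ (CE.lift κ C Y₀ Y s (F - algebraMap K Y F'))) < gnV a :=
    h s (gnV.comap ψ) hc fun f => rfl
  have h3 : actEE t (ψ (algebraMap K Y F')) = ψ (CE.lift κ C Y₀ Y s (algebraMap K Y F')) := by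
    have := hK s hsk F'
    rw [gaEE_act] at this
    rw [lift_algebraMap_K (M := M)]
    exact this
  have e : a = actEE t (ψ (F - algebraMap K Y F')) -
      ψ (CE.lift κ C Y₀ Y s (F - algebraMap K Y F')) := by
    rw [ha, map_sub, map_sub, map_sub, map_sub, h3]
    ring
  have h4 : gnV a ≤ max (gnV (actEE t (ψ (F - algebraMap K Y F'))))
      (gnV (ψ (CE.lift κ C Y₀ Y s (F - algebraMap K Y F')))) := by
    conv_lhs => rw [e]
    exact Valuation.map_sub _ _ _
  rw [hact] at h4
  exact absurd h4 (not_le.2 (max_lt h1 h2))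

variable (κ M Y₀) in
include κ M Y₀ in
/-- the residue extension is trivial -/
theorem kapMap_bijective (w : Nm C K) (W : Nm C Y) (hW : W.v.comap (algebraMap K Y) = w.v)
    (hs : SplitAt (W.v.comap (algebraMap M Y)) Y₀) : Function.Bijective (kapMap w W hW) := by
  refine ⟨(kapMap w W hW).injective, fun b => ?_⟩
  obtain ⟨f, hf, rfl⟩ := red_surj W b
  obtain ⟨c, hc⟩ := exists_close' κ C (M := M) (K := K) (Y₀ := Y₀) W.v hs f zero_lt_one
  refine ⟨red w c, ?_⟩
  rw [kapMap_red]
  have hc1 : W.v (algebraMap K Y c) ≤ 1 := by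
    have h1 : algebraMap K Y c = f - (f - algebraMap K Y c) := by ring
    rw [h1]
    exact (W.v.map_sub _ _).trans (max_le hf hc.le)
  rw [red_eq_iff W hc1 hf, Valuation.map_sub_swap]
  exact hc

variable (κ) in
include κ in
/-- the residue fields of `Y` are spanned by reductions of elements of `Y₀` -/
theorem span_lift (w : Nm C K) (W : Nm C Y) (hW : W.v.comap (algebraMap K Y) = w.v)
    (hs : SplitAt (W.v.comap (algebraMap M Y)) Y₀) (h : SpanAt M w) : SpanAt Y₀ W := by
  have hb := kapMap_bijective κ M Y₀ w W hW hs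
  unfold SpanAt at h ⊢
  rw [eq_top_iff]
  intro y _
  obtain ⟨x, rfl⟩ := hb.2 y
  have hx : x ∈ Submodule.span (Ct C) {y : kap w | ∃ f : M, w.v (algebraMap M K f) ≤ 1 ∧
      Red332.red w (algebraMap M K f) = y} := by rw [h]; trivial
  refine Submodule.span_induction ?_ ?_ ?_ ?_ hx
  · rintro _ ⟨f, hf, rfl⟩
    have hv : ∀ a : K, W.v (algebraMap K Y a) = w.v a := fun a => DFunLike.congr_fun hW a
    refine Submodule.subset_span ⟨algebraMap M Y₀ f, ?_, ?_⟩
    · rw [← IsScalarTower.algebraMap_apply M Y₀ Y, IsScalarTower.algebraMap_apply M K Y, hv]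
      exact hf
    · rw [← IsScalarTower.algebraMap_apply M Y₀ Y, IsScalarTower.algebraMap_apply M K Y,
        kapMap_red]
  · rw [map_zero]; exact Submodule.zero_mem _
  · intro a b _ _ ha hb
    rw [map_add]
    exact Submodule.add_mem _ ha hb
  · intro c a _ ha
    rw [Algebra.smul_def, map_mul, kapMap_algebraMap, ← Algebra.smul_def]
    exact Submodule.smul_mem _ _ ha

end normed

end Crest.Agent.R013.CY_957
end

-- ▼ part R013/CY3_957
section

/-!
# R013 / CY3 (helper957): the composita `Y₀ = M W`, `Y = K W`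

`U ⊆ M`, `U ⊆ K1 ⊆ K`, `M ⊆ K` (levels over `κ`, resp. `C`), `W / U` Galois of degree `n`, `K / K1`
and `M / U` Galois of degree prime to `n`; `Y₀ = M W ⊆ Y = K W`.
-/

set_option autoImplicit false
set_option linter.unusedSectionVars false

namespace Crest.Agent.R013.CY_957

open scoped NNReal Polynomial
open Module WithZero Polynomial
open Crest.NumberTheoryR.Sect
open Crest.Agent.R013.TopE1_957 Crest.Agent.R013.TopE6_957 Crest.Agent.R013.TopE7_957
open Crest.Agent.R013.Desc_372

section sup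

variable {F A W L : Type*} [Field F] [Field A] [Field W] [Field L] [CharZero F]
  [Algebra F A] [Algebra F L] [Algebra A L] [IsScalarTower F A L]

/-- a compositum of two Galois extensions is Galois -/
theorem isGalois_top {U : Type*} [Field U] [Algebra U F] [Algebra U W] [Algebra U L]
    [Algebra U A] [IsScalarTower U A L]
    [IsScalarTower U F A] [Algebra W L] [IsScalarTower U W L]
    [FiniteDimensional F A] [IsGalois F A] [FiniteDimensional U W] [IsGalois U W]
    (hL : IntermediateField.adjoin A (Set.range (algebraMap W L)) = ⊤) :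
    FiniteDimensional F L ∧ IsGalois F L := by
  have h0 : FiniteDimensional A L := finiteDimensional_compositum (U := U) (W := W) hL
  have h1 : FiniteDimensional F L := FiniteDimensional.trans F A L
  refine ⟨h1, ?_⟩
  obtain ⟨p, hp, hsp⟩ := IsGalois.is_separable_splitting_field U W
  have h2 := splitting_compositum hL p
  obtain ⟨q, hq, hsq⟩ := IsGalois.is_separable_splitting_field F A
  have h3 : p.map (algebraMap U A) = (p.map (algebraMap U F)).map (algebraMap F A) := by
    rw [Polynomial.map_map, ← IsScalarTower.algebraMap_eq]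
  rw [h3] at h2
  have hp0 : p.map (algebraMap U F) ≠ 0 := (Polynomial.map_ne_zero_iff (algebraMap U F).injective).2
    hp.ne_zero
  have h4 : (q * p.map (algebraMap U F)).IsSplittingField F L :=
    Polynomial.IsSplittingField.mul (K := A) L q (p.map (algebraMap U F)) hq.ne_zero hp0
  have h5 : Normal F L := Normal.of_isSplittingField (q * p.map (algebraMap U F))
  exact ⟨⟩

end sup

section degree

variable {U M W Y₀ : Type*} [Field U] [Field M] [Field W] [Field Y₀] [Algebra U M] [Algebra U W]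
  [Algebra U Y₀] [Algebra M Y₀] [Algebra W Y₀] [IsScalarTower U M Y₀] [IsScalarTower U W Y₀]

/-- coprime degrees -/
theorem finrank_compositum [FiniteDimensional U W] [IsGalois U W] [FiniteDimensional U M]
    (hL : IntermediateField.adjoin M (Set.range (algebraMap W Y₀)) = ⊤)
    (hcop : (finrank U W).Coprime (finrank U M)) : finrank M Y₀ = finrank U W := by
  have h0 : FiniteDimensional M Y₀ := finiteDimensional_compositum (U := U) (W := W) hL
  have h1 : IsGalois M Y₀ := isGalois_compositum (U := U) (W := W) hL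
  have h2 : FiniteDimensional U Y₀ := FiniteDimensional.trans U M Y₀
  have h3 : FiniteDimensional W Y₀ := Module.Finite.right U W Y₀
  have h4 : finrank U W * finrank W Y₀ = finrank U M * finrank M Y₀ := by
    rw [finrank_mul_finrank, finrank_mul_finrank]
  have h5 : finrank U W ∣ finrank M Y₀ := by
    refine hcop.dvd_of_dvd_mul_left ?_
    rw [← h4]
    exact dvd_mul_right _ _
  have h6 : finrank M Y₀ ≤ finrank U W := by
    have h7 := Nat.card_le_card_of_injective _ (restrict_injective (U := U) (W := W) hL)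
    rw [IsGalois.card_aut_eq_finrank, IsGalois.card_aut_eq_finrank] at h7
    exact h7
  exact le_antisymm h6 (Nat.le_of_dvd finrank_pos h5)

end degree

section ce

variable {κ C M K W Y₀ Y : Type*} [Field κ] [Field C] [Field M] [Field K] [Field Y₀] [Field Y]
  [Field W]
  [Algebra κ C] [Algebra κ M] [Algebra κ K] [Algebra κ Y₀] [Algebra κ Y] [Algebra C Y]
  [Algebra Y₀ Y] [Algebra C K] [Algebra M K] [Algebra K Y] [Algebra M Y₀] [Algebra M Y]
  [Algebra W Y₀] [Algebra W Y] [IsScalarTower W Y₀ Y]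
  [IsScalarTower κ C Y] [IsScalarTower κ Y₀ Y] [IsScalarTower C K Y] [IsScalarTower M K Y]
  [IsScalarTower M Y₀ Y] [IsScalarTower κ C K] [IsScalarTower κ M K] [IsScalarTower κ M Y₀]

/-- `Y = Y₀ C` -/
theorem adjoin_const [CE κ C M K]
    (hY : IntermediateField.adjoin K (Set.range (algebraMap W Y)) = ⊤) :
    IntermediateField.adjoin Y₀ (Set.range (algebraMap C Y)) = ⊤ := by
  set F := IntermediateField.adjoin Y₀ (Set.range (algebraMap C Y)) with hF
  have hC : ∀ c : C, algebraMap C Y c ∈ F := fun c => IntermediateField.subset_adjoin _ _ ⟨c, rfl⟩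
  have h0 : ∀ f : Y₀, algebraMap Y₀ Y f ∈ F := fun f => F.algebraMap_mem f
  have hK : ∀ f : K, algebraMap K Y f ∈ F := by
    intro f
    obtain ⟨m, c, g, rfl⟩ := CE.exists_sum κ C M K f
    rw [map_sum]
    refine sum_mem fun i _ => ?_
    rw [map_mul, ← IsScalarTower.algebraMap_apply C K Y, ← IsScalarTower.algebraMap_apply M K Y,
      IsScalarTower.algebraMap_apply M Y₀ Y]
    exact mul_mem (hC _) (h0 _)
  rw [eq_top_iff]
  intro y _
  have hy : y ∈ IntermediateField.adjoin K (Set.range (algebraMap W Y)) := by rw [hY]; trivial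
  refine IntermediateField.adjoin_induction K (p := fun y _ => y ∈ F) ?_ ?_ ?_ ?_ ?_ hy
  · rintro _ ⟨w, rfl⟩
    rw [IsScalarTower.algebraMap_apply W Y₀ Y]
    exact h0 _
  · exact hK
  · intro x y _ _ hx hy; exact add_mem hx hy
  · intro x _ hx; exact inv_mem hx
  · intro x y _ _ hx hy; exact mul_mem hx hy

/-- `Y = Y₀ ⊗ C` -/
theorem ce_top [CE κ C M K] [Algebra.IsSeparable κ C] (hc : algebraicClosure κ Y₀ = ⊥)
    (hY : IntermediateField.adjoin K (Set.range (algebraMap W Y)) = ⊤) : CE κ C Y₀ Y :=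
  CE.of_hc κ C Y₀ Y hc (adjoin_const (κ := κ) (M := M) hY)

variable (κ C) in
/-- the degrees at both levels agree -/
theorem finrank_level [h1 : CE κ C M K] [h2 : CE κ C Y₀ Y] : finrank K Y = finrank M Y₀ := by
  have p1 : Algebra.IsPushout κ M C K := h1.po.symm
  have p2 : Algebra.IsPushout κ Y₀ C Y := h2.po.symm
  have : IsScalarTower κ K Y := IsScalarTower.of_algebraMap_eq fun c => by
    rw [IsScalarTower.algebraMap_apply κ C Y, IsScalarTower.algebraMap_apply C K Y,
      ← IsScalarTower.algebraMap_apply κ C K]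
  have p3 : Algebra.IsPushout M Y₀ K Y :=
    (Algebra.IsPushout.comp_iff κ M C (S' := K) (T := Y₀) (T' := Y)).1 p2
  have p4 : Algebra.IsPushout M K Y₀ Y := p3.symm
  have e := p4.out.equiv
  rw [← e.finrank_eq, finrank_baseChange]

end ce

end Crest.Agent.R013.CY_957
end

-- ▼ part R013/CY4_957
section

/-!
# R013 / CY4 (helper957): the Galois group of `Y = K W` over `K1`, and the constants of `Y₀`
-/

set_option autoImplicit false
set_option linter.unusedSectionVars false
set_option linter.style.haveILetI false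

namespace Crest.Agent.R013.CY_957

open scoped NNReal Polynomial
open Module WithZero Polynomial
open Crest.NumberTheoryR.Sect
open Crest.Agent.R013.TopE1_957 Crest.Agent.R013.TopE6_957 Crest.Agent.R013.TopE7_957
open Crest.Agent.R013.Desc_372

section group

variable {U K1 K W Y : Type*} [Field U] [Field K1] [Field K] [Field W] [Field Y]
  [Algebra U K1] [Algebra U K] [Algebra U W] [Algebra U Y] [Algebra K1 K] [Algebra K1 Y]
  [Algebra K Y] [Algebra W Y] [IsScalarTower U K1 Y] [IsScalarTower U K Y] [IsScalarTower U W Y]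
  [IsScalarTower K1 K Y] [IsScalarTower U K1 K]
  [FiniteDimensional U W] [IsGalois U W] [FiniteDimensional K1 K] [IsGalois K1 K]

/-- restriction to `W` -/
noncomputable def resW (U K1 W Y : Type*) [Field U] [Field K1] [Field W] [Field Y]
    [Algebra U K1] [Algebra U W] [Algebra U Y] [Algebra K1 Y] [Algebra W Y]
    [IsScalarTower U K1 Y] [IsScalarTower U W Y] [Normal U W] : (Y ≃ₐ[K1] Y) →* (W ≃ₐ[U] W) where
  toFun σ := (σ.restrictScalars U).restrictNormal W
  map_one' := by
    ext w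
    apply (algebraMap W Y).injective
    rw [AlgEquiv.restrictNormal_commutes]
    rfl
  map_mul' σ τ := by
    ext w
    apply (algebraMap W Y).injective
    rw [AlgEquiv.restrictNormal_commutes, AlgEquiv.mul_apply, AlgEquiv.restrictNormal_commutes,
      AlgEquiv.restrictNormal_commutes]
    rfl

theorem algebraMap_resW (σ : Y ≃ₐ[K1] Y) (w : W) :
    algebraMap W Y (resW U K1 W Y σ w) = σ (algebraMap W Y w) :=
  AlgEquiv.restrictNormal_commutes (σ.restrictScalars U) W w

/-- restriction to `W` and `K` -/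
noncomputable def resWK (U K1 K W Y : Type*) [Field U] [Field K1] [Field K] [Field W] [Field Y]
    [Algebra U K1] [Algebra U W] [Algebra U Y] [Algebra K1 K] [Algebra K1 Y]
    [Algebra K Y] [Algebra W Y] [IsScalarTower U K1 Y] [IsScalarTower U W Y]
    [IsScalarTower K1 K Y] [Normal U W] [Normal K1 K] :
    (Y ≃ₐ[K1] Y) →* (W ≃ₐ[U] W) × (K ≃ₐ[K1] K) :=
  (resW U K1 W Y).prod (AlgEquiv.restrictNormalHom K)

theorem algebraMap_resK (σ : Y ≃ₐ[K1] Y) (f : K) :
    algebraMap K Y (AlgEquiv.restrictNormalHom K σ f) = σ (algebraMap K Y f) :=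
  AlgEquiv.restrictNormal_commutes σ K f

theorem resWK_injective (hY : IntermediateField.adjoin K (Set.range (algebraMap W Y)) = ⊤) :
    Function.Injective (resWK U K1 K W Y) := by
  rw [injective_iff_map_eq_one]
  intro σ hσ
  have hW : ∀ w, σ (algebraMap W Y w) = algebraMap W Y w := by
    intro w
    have h1 : resW U K1 W Y σ = 1 := congrArg Prod.fst hσ
    rw [← algebraMap_resW (U := U), h1]
    rfl
  have hK : ∀ f, σ (algebraMap K Y f) = algebraMap K Y f := by
    intro f
    have h1 : AlgEquiv.restrictNormalHom K σ = 1 := congrArg Prod.snd hσ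
    rw [← algebraMap_resK, h1]
    rfl
  ext y
  change σ y = y
  have hy : y ∈ IntermediateField.adjoin K (Set.range (algebraMap W Y)) := by rw [hY]; trivial
  refine IntermediateField.adjoin_induction K (p := fun y _ => σ y = y) ?_ ?_ ?_ ?_ ?_ hy
  · rintro _ ⟨w, rfl⟩; exact hW w
  · exact hK
  · intro x y _ _ hx hy; rw [map_add, hx, hy]
  · intro x _ hx; rw [map_inv₀, hx]
  · intro x y _ _ hx hy; rw [map_mul, hx, hy]

variable [CharZero K1]

theorem resWK_bijective (hY : IntermediateField.adjoin K (Set.range (algebraMap W Y)) = ⊤)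
    (hn : finrank K Y = finrank U W) : Function.Bijective (resWK U K1 K W Y) := by
  obtain ⟨h1, h2⟩ := isGalois_top (U := U) (F := K1) (A := K) (W := W) hY
  have hi := resWK_injective (U := U) (K1 := K1) hY
  have : Finite ((W ≃ₐ[U] W) × (K ≃ₐ[K1] K)) := inferInstance
  refine (Nat.bijective_iff_injective_and_card _).2 ⟨hi, ?_⟩
  rw [Nat.card_prod, IsGalois.card_aut_eq_finrank, IsGalois.card_aut_eq_finrank,
    IsGalois.card_aut_eq_finrank, ← finrank_mul_finrank K1 K Y, hn, mul_comm]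

/-- `Gal(Y/K1) = Gal(W/U) × Gal(K/K1)` -/
noncomputable def galE (hY : IntermediateField.adjoin K (Set.range (algebraMap W Y)) = ⊤)
    (hn : finrank K Y = finrank U W) : (Y ≃ₐ[K1] Y) ≃* (W ≃ₐ[U] W) × (K ≃ₐ[K1] K) :=
  MulEquiv.ofBijective (resWK U K1 K W Y) (resWK_bijective hY hn)

/-- the lift of `Gal(K/K1)`, trivial on `W` -/
noncomputable def cov (hY : IntermediateField.adjoin K (Set.range (algebraMap W Y)) = ⊤)
    (hn : finrank K Y = finrank U W) : (K ≃ₐ[K1] K) →* (Y ≃ₐ[K1] Y) :=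
  (galE (U := U) (K1 := K1) hY hn).symm.toMonoidHom.comp (MonoidHom.inr _ _)

theorem galE_cov (hY : IntermediateField.adjoin K (Set.range (algebraMap W Y)) = ⊤)
    (hn : finrank K Y = finrank U W) (a : K ≃ₐ[K1] K) :
    resWK U K1 K W Y (cov (U := U) (K1 := K1) hY hn a) = (1, a) :=
  (galE (U := U) (K1 := K1) hY hn).apply_symm_apply (1, a)

theorem cov_K (hY : IntermediateField.adjoin K (Set.range (algebraMap W Y)) = ⊤)
    (hn : finrank K Y = finrank U W) (a : K ≃ₐ[K1] K) (f : K) :
    cov (U := U) (K1 := K1) hY hn a (algebraMap K Y f) = algebraMap K Y (a f) := by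
  have h1 : AlgEquiv.restrictNormalHom K (cov (U := U) (K1 := K1) hY hn a) = a :=
    congrArg Prod.snd (galE_cov (U := U) (K1 := K1) hY hn a)
  rw [← algebraMap_resK, h1]


/-- `Gal(K/K1)` and `Gal(Y/K)` commute -/
theorem cov_comm (hY : IntermediateField.adjoin K (Set.range (algebraMap W Y)) = ⊤)
    (hn : finrank K Y = finrank U W) (a : K ≃ₐ[K1] K) (τ : Y ≃ₐ[K] Y) (f : Y) :
    cov (U := U) (K1 := K1) hY hn a (τ f) = τ (cov (U := U) (K1 := K1) hY hn a f) := by
  have h1 : AlgEquiv.restrictNormalHom K (τ.restrictScalars K1) = 1 := by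
    ext x
    apply (algebraMap K Y).injective
    rw [algebraMap_resK]
    exact τ.commutes x
  have h2 : cov (U := U) (K1 := K1) hY hn a * τ.restrictScalars K1 =
      τ.restrictScalars K1 * cov (U := U) (K1 := K1) hY hn a := by
    apply resWK_injective (U := U) (K1 := K1) hY
    rw [map_mul, map_mul, galE_cov]
    have h3 : resWK U K1 K W Y (τ.restrictScalars K1) =
        (resW U K1 W Y (τ.restrictScalars K1), 1) := Prod.ext rfl h1
    rw [h3, Prod.mk_mul_mk, Prod.mk_mul_mk, one_mul, mul_one, one_mul, mul_one]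
  exact congrArg (fun g : Y ≃ₐ[K1] Y => g f) h2

end group

section gal

variable {κ C U K1 Y₀ Y : Type*} [Field κ] [Field C] [Field U] [Field K1] [Field Y₀] [Field Y]
  [Algebra κ C] [Algebra κ Y₀] [Algebra κ Y] [Algebra C K1] [Algebra C Y] [Algebra Y₀ Y]
  [Algebra U K1] [Algebra U Y₀] [Algebra U Y] [Algebra K1 Y]
  [IsScalarTower κ C Y] [IsScalarTower κ Y₀ Y] [IsScalarTower C K1 Y] [IsScalarTower U K1 Y]
  [IsScalarTower U Y₀ Y] [CE κ C Y₀ Y] [Normal U Y₀]

variable (U Y₀) in
include U in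
/-- `Gal(Y/K1)` preserves `Y₀` -/
theorem exists_res (σ : Y ≃ₐ[K1] Y) (f : Y₀) :
    ∃ f' : Y₀, σ (algebraMap Y₀ Y f) = algebraMap Y₀ Y f' :=
  ⟨(σ.restrictScalars U).restrictNormal Y₀ f,
    (AlgEquiv.restrictNormal_commutes (σ.restrictScalars U) Y₀ f).symm⟩

variable (U) in
include U in
/-- `Gal(Y/K1)` commutes with the Galois group of `C / κ` acting on `Y` -/
theorem gal_comm (σ : Y ≃ₐ[K1] Y) (s : C ≃ₐ[κ] C) (f : Y) :
    σ (CE.lift κ C Y₀ Y s f) = CE.lift κ C Y₀ Y s (σ f) := by
  have hC : ∀ c : C, σ (algebraMap C Y c) = algebraMap C Y c := fun c => by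
    rw [IsScalarTower.algebraMap_apply C K1 Y, AlgEquiv.commutes]
  have h := CE.ringHom_ext κ C Y₀ Y
    (φ := (σ : Y →+* Y).comp (CE.lift κ C Y₀ Y s : Y →+* Y))
    (ψ := (CE.lift κ C Y₀ Y s : Y →+* Y).comp (σ : Y →+* Y)) (fun c => by
      change σ (CE.lift κ C Y₀ Y s (algebraMap C Y c)) = CE.lift κ C Y₀ Y s (σ (algebraMap C Y c))
      rw [CE.lift_algebraMap, hC, hC, CE.lift_algebraMap]) (fun g => by
      change σ (CE.lift κ C Y₀ Y s (algebraMap Y₀ Y g)) =
        CE.lift κ C Y₀ Y s (σ (algebraMap Y₀ Y g))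
      obtain ⟨g', hg'⟩ := exists_res U Y₀ σ g
      rw [AlgEquiv.commutes, hg', AlgEquiv.commutes])
  exact congrArg (fun φ : Y →+* Y => φ f) h

end gal

section const

variable {κ M Y₀ : Type*} [Field κ] [Field M] [Field Y₀] [Algebra κ M] [Algebra κ Y₀]
  [Algebra M Y₀] [IsScalarTower κ M Y₀] [Algebra.IsAlgebraic M Y₀]

/-- no new constants -/
theorem algClosure_eq_bot {v : Valuation M ℝ≥0} (hv : IsRationalPlace κ M v)
    (hs : SplitAt v Y₀) : algebraicClosure κ Y₀ = ⊥ := by
  rw [eq_bot_iff]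
  intro x hx
  rw [mem_algebraicClosure_iff] at hx
  obtain ⟨a, ha⟩ := algClosed_of_splitAt hv hs hx
  exact IntermediateField.mem_bot.2 ⟨a, ha⟩

end const

end Crest.Agent.R013.CY_957
end

-- ▼ part R013/CY5_957
section

/-!
# R013 / CY5 (helper957): `Spl` in towers; directions of the top and of the intermediate field
-/

set_option autoImplicit false
set_option linter.unusedSectionVars false
set_option linter.style.haveILetI false

namespace Crest.Agent.R013.CY_957

open scoped NNReal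
open Module WithZero
open Crest.Agent.R013.RR7_948 Crest.Agent.R013.Cell_408 Crest.Agent.R013.EE809
open Crest.Agent.R013.SSK_332 Crest.Agent.R013.Inh_770 Crest.Agent.R013.Red332

/-- two embeddings of a normal extension which agree on the base are conjugate -/
theorem exists_conj {F K E : Type*} [Field F] [Field K] [Field E] [Algebra F K] [Normal F K]
    (ψ ψ' : K →+* E) (h : ∀ x : F, ψ' (algebraMap F K x) = ψ (algebraMap F K x)) :
    ∃ a : K ≃ₐ[F] K, ∀ f, ψ' f = ψ (a f) := by
  let _ : Algebra F E := (ψ.comp (algebraMap F K)).toAlgebra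
  let _ : Algebra K E := ψ.toAlgebra
  have : IsScalarTower F K E := IsScalarTower.of_algebraMap_eq fun _ => rfl
  let φ' : K →ₐ[F] E := { ψ' with commutes' := fun x => h x }
  refine ⟨φ'.restrictNormal' K, fun f => ?_⟩
  exact (AlgHom.restrictNormal_commutes φ' K f).symm

variable {k : Type*} [NontriviallyNormedField k] [CompleteSpace k] [IsUltrametricDist k]
variable {C : Type*} [NormedField C] [IsUltrametricDist C] [NormedAlgebra k C]
variable [Algebra.IsAlgebraic k C] [IsAlgClosed C] [hk : Fact (DiscNorm k)]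
variable {K1 K Y : Type*} [Field K1] [Field K] [Field Y] [Algebra C K1] [Algebra C K] [Algebra C Y]
  [Algebra K1 K] [Algebra K1 Y] [Algebra K Y] [IsScalarTower C K1 K] [IsScalarTower C K1 Y]
  [IsScalarTower C K Y] [IsScalarTower K1 K Y] [FiniteDimensional K1 K] [IsGalois K1 K]
variable {S : SSK k C K1}

section wrap

variable {F L : Type*} [Field F] [Field L] [Algebra C F] [Algebra C L] [Algebra F L]
  [IsScalarTower C F L] [FiniteDimensional F L] [IsGalois F L]
  [Algebra (RatFunc C) F] [IsScalarTower C (RatFunc C) F]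
  [FiniteDimensional (RatFunc C) F] [Algebra.IsSeparable (RatFunc C) F]
  {S : SSK k C F} (P : Spl S L)

/-- directions of `L` = (direction of `F`, element of the Galois group) -/
noncomputable def dI : P.inh.Dir ≃ S.Dir × (L ≃ₐ[F] L) := P.dirE P.ffL

/-- edges of `L` = (edge of `F`, element of the Galois group) -/
noncomputable def eI : P.inh.Ed ≃ S.Ed × (L ≃ₐ[F] L) := P.edE P.ffL

/-- the vertex below a vertex -/
noncomputable def vI : P.inh.V → S.V := P.vK P.ffL

theorem em_I (y : P.inh.Dir) (f : L) : P.inh.em y f = P.ps (dI P y).1 ((dI P y).2 f) := rfl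

theorem e0_I (e : P.inh.Ed) : dI P (P.inh.e0 e) = (S.e0 (eI P e).1, (eI P e).2) := P.e0_eq P.ffL e

theorem e1_I (e : P.inh.Ed) : dI P (P.inh.e1 e) = (S.e1 (eI P e).1, (eI P e).2) := P.e1_eq P.ffL e

theorem cc_I (e : P.inh.Ed) : P.inh.cc e = S.cc (eI P e).1 := rfl

theorem fst_I (y : P.inh.Dir) : (dI P y).1.1 = vI P y.1 := P.dirE_fst P.ffL y

theorem nm_I (w : P.inh.V) (f : F) :
    (P.inh.nm w).v (algebraMap F L f) = (S.nm (vI P w)).v f := P.vK_nm P.ffL w f

theorem exists_vI (w : Valuation L ℝ≥0) (v : S.V)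
    (hw : ∀ f : F, w (algebraMap F L f) = (S.nm v).v f) :
    ∃ i : P.inh.V, (P.inh.nm i).v = w ∧ vI P i = v := P.exists_V P.ffL w v hw

theorem isDisc_I (y : P.inh.Dir) : P.inh.IsDisc y ↔ S.IsDisc (dI P y).1 := P.isDisc_iff P.ffL y

/-- the direction of `L` over `d` where the embedding is `P.ps d` -/
noncomputable def dir1 (d : S.Dir) : P.inh.Dir := (dI P).symm (d, 1)

theorem dI_dir1 (d : S.Dir) : dI P (dir1 P d) = (d, 1) := Equiv.apply_symm_apply _ _

theorem em_dir1 (d : S.Dir) (f : L) : P.inh.em (dir1 P d) f = P.ps d f := by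
  rw [em_I, dI_dir1]
  rfl

/-- the edge of `L` over `e` with label `1` -/
noncomputable def ed1 (e : S.Ed) : P.inh.Ed := (eI P).symm (e, 1)

theorem eI_ed1 (e : S.Ed) : eI P (ed1 P e) = (e, 1) := Equiv.apply_symm_apply _ _

theorem e0_ed1 (e : S.Ed) : P.inh.e0 (ed1 P e) = dir1 P (S.e0 e) := by
  apply (dI P).injective
  rw [dI_dir1, e0_I, eI_ed1]

theorem e1_ed1 (e : S.Ed) : P.inh.e1 (ed1 P e) = dir1 P (S.e1 e) := by
  apply (dI P).injective
  rw [dI_dir1, e1_I, eI_ed1]

end wrap

variable [Algebra (RatFunc C) K1] [IsScalarTower C (RatFunc C) K1]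
  [FiniteDimensional (RatFunc C) K1] [Algebra.IsSeparable (RatFunc C) K1]

/-- **`Spl` in towers** -/
noncomputable def splTrans (P : Spl S K) (Q : Spl P.inh Y) : Spl S Y where
  ps d := Q.ps (dir1 P d)
  ps_K d f := by
    rw [IsScalarTower.algebraMap_apply K1 K Y, Q.ps_K, em_dir1, P.ps_K]
  ps_ann e f := by
    have h := Q.ps_ann (ed1 P e) f
    rw [e0_ed1, e1_ed1, cc_I, eI_ed1] at h
    exact h
  ps_disc d hd f := by
    refine Q.ps_disc (dir1 P d) ?_ f
    rw [isDisc_I, dI_dir1]
    exact hd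
  ni d := by
    intro σ hσ hw
    have hwK : ∀ f : K, gnV (Q.ps (dir1 P d) (algebraMap K Y f)) = gnV (P.ps d f) := fun f => by
      rw [Q.ps_K, em_dir1]
    by_cases h1 : AlgEquiv.restrictNormalHom K σ = 1
    · -- `σ` is trivial on `K`
      have hσK : ∀ f : K, σ (algebraMap K Y f) = algebraMap K Y f := fun f => by
        rw [← AlgEquiv.restrictNormal_commutes σ K f]
        have : σ.restrictNormal K = 1 := h1
        rw [this]; rfl
      let τ : Y ≃ₐ[K] Y := AlgEquiv.ofRingEquiv (f := σ.toRingEquiv) hσK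
      have hτ : τ ≠ 1 := by
        intro h
        apply hσ
        ext f
        exact congrArg (fun g : Y ≃ₐ[K] Y => g f) h
      exact Q.ni (dir1 P d) τ hτ hw
    · have h2 : ∀ f : K, (gnV.comap (P.ps d)) (AlgEquiv.restrictNormalHom K σ f) =
          (gnV.comap (P.ps d)) f := fun f => by
        rw [Valuation.comap_apply, Valuation.comap_apply, ← hwK, ← hwK]
        have h3 : algebraMap K Y (AlgEquiv.restrictNormalHom K σ f) = σ (algebraMap K Y f) :=
          AlgEquiv.restrictNormal_commutes σ K f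
        rw [h3]
        exact hw _
      obtain ⟨θ, hθ1, hθ2⟩ := P.ni d _ h1 h2
      refine ⟨algebraMap K Y θ, ?_, ?_⟩
      · rw [Valuation.comap_apply, hwK]; exact hθ1
      · have h3 : algebraMap K Y (AlgEquiv.restrictNormalHom K σ θ) = σ (algebraMap K Y θ) :=
          AlgEquiv.restrictNormal_commutes σ K θ
        rw [Valuation.comap_apply, ← h3, ← map_sub, hwK]
        exact hθ2

/-- the embeddings of `Y` restrict to embeddings of `K` -/
theorem exists_ps (P : Spl S K) (PY : Spl S Y) (d : S.Dir) :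
    ∃ a : K ≃ₐ[K1] K, ∀ f, PY.ps d (algebraMap K Y f) = P.ps d (a f) := by
  refine exists_conj (P.ps d) ((PY.ps d).comp (algebraMap K Y)) fun x => ?_
  rw [RingHom.comp_apply, ← IsScalarTower.algebraMap_apply K1 K Y, PY.ps_K, P.ps_K]

section top

variable [FiniteDimensional K1 Y] [IsGalois K1 Y]

/-- every direction of `Y` lies over a direction of `K` (with the same direction of `K1`) -/
theorem exists_dirK (P : Spl S K) (PY : Spl S Y) (y : PY.inh.Dir) :
    ∃ x : P.inh.Dir, (dI P x).1 = (dI PY y).1 ∧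
      ∀ f, PY.inh.em y (algebraMap K Y f) = P.inh.em x f := by
  obtain ⟨a, ha⟩ := exists_ps P PY (dI PY y).1
  refine ⟨(dI P).symm ((dI PY y).1, a * AlgEquiv.restrictNormalHom K (dI PY y).2), ?_,
    fun f => ?_⟩
  · rw [Equiv.apply_symm_apply]
  · rw [em_I, em_I, Equiv.apply_symm_apply, AlgEquiv.mul_apply, ← ha]
    congr 1
    exact (AlgEquiv.restrictNormal_commutes _ K f).symm

end top

end Crest.Agent.R013.CY_957
end

-- ▼ part R013/CY6_957
section

/-!
# R013 / CY6 (helper957): the semistable structure of `Y` is defined over the fixed level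
-/

set_option autoImplicit false
set_option linter.unusedSectionVars false

namespace Crest.Agent.R013.CY_957

open scoped NNReal
open Module WithZero
open Crest.NumberTheoryR.Sect
open Crest.Agent.R013.RR7_948 Crest.Agent.R013.Cell_408 Crest.Agent.R013.EE809
open Crest.Agent.R013.SSK_332 Crest.Agent.R013.Inh_770 Crest.Agent.R013.Red332
open Crest.Agent.R013.TopE1_957 Crest.Agent.R013.TopE4_957 Crest.Agent.R013.TopE7_957
open Crest.Agent.R013.Desc_372 Crest.Agent.R013.DEm_719 Crest.Agent.R013.DEm_719.GalAct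
open Crest.Agent.R013.Kumv2_275

section lev

variable {κ C M K : Type*} [Field κ] [Field C] [Field M] [Field K] [Algebra κ C] [Algebra κ M]
  [Algebra C K] [Algebra M K] [Algebra κ K] [IsScalarTower κ C K] [IsScalarTower κ M K]

/-- the level `⊥` is the model -/
theorem mem_lev_bot {f : K} :
    f ∈ CE.lev M K (⊥ : IntermediateField κ C) ↔ ∃ g : M, algebraMap M K g = f := by
  constructor
  · intro h
    have h1 : CE.lev M K (⊥ : IntermediateField κ C) ≤ ⊥ := by
      rw [CE.lev_le_iff]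
      intro c hc
      obtain ⟨x, rfl⟩ := IntermediateField.mem_bot.mp hc
      rw [← IsScalarTower.algebraMap_apply κ C K, IsScalarTower.algebraMap_apply κ M K]
      exact (⊥ : IntermediateField M K).algebraMap_mem _
    exact IntermediateField.mem_bot.1 (h1 h)
  · rintro ⟨g, rfl⟩
    exact (CE.lev M K (⊥ : IntermediateField κ C)).algebraMap_mem g

end lev

section span

variable {C : Type*} [NormedField C] [IsUltrametricDist C] {κ M K : Type*} [Field κ] [Field M]
  [Field K] [Algebra κ C] [Algebra κ M] [Algebra C K] [Algebra M K] [Algebra κ K]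
  [IsScalarTower κ C K] [IsScalarTower κ M K]

theorem spanAt_iff (w : Nm C K) : SpanAt M w ↔ Submodule.span (Ct C) {y : kap w |
    ∃ f ∈ CE.lev M K (⊥ : IntermediateField κ C), w.v f ≤ 1 ∧ Red332.red w f = y} = ⊤ := by
  have h : {y : kap w | ∃ f ∈ CE.lev M K (⊥ : IntermediateField κ C), w.v f ≤ 1 ∧
      Red332.red w f = y} = {y : kap w | ∃ f : M, w.v (algebraMap M K f) ≤ 1 ∧
      Red332.red w (algebraMap M K f) = y} := by
    ext y
    constructor
    · rintro ⟨f, hf, h1, h2⟩
      obtain ⟨g, rfl⟩ := mem_lev_bot.1 hf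
      exact ⟨g, h1, h2⟩
    · rintro ⟨g, h1, h2⟩
      exact ⟨_, mem_lev_bot.2 ⟨g, rfl⟩, h1, h2⟩
  rw [h]
  rfl

end span

section main

variable {k C : Type*} [NontriviallyNormedField k] [CompleteSpace k] [IsUltrametricDist k]
  [NormedField C] [IsUltrametricDist C] [NormedAlgebra k C] [Algebra.IsAlgebraic k C]
  [IsAlgClosed C] [hk : Fact (DiscNorm k)]
variable {κ M K1 K Y₀ Y : Type*} [Field κ] [Field M] [Field K1] [Field K] [Field Y₀] [Field Y]
  [Algebra k κ] [Algebra κ C] [IsScalarTower k κ C]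
  [Algebra κ M] [Algebra κ K] [Algebra κ Y₀] [Algebra κ Y]
  [Algebra C K1] [Algebra C K] [Algebra C Y] [Algebra K1 K] [Algebra K1 Y] [Algebra K Y]
  [Algebra M K] [Algebra M Y₀] [Algebra M Y] [Algebra Y₀ Y]
  [IsScalarTower C K1 K] [IsScalarTower C K1 Y] [IsScalarTower C K Y] [IsScalarTower K1 K Y]
  [IsScalarTower κ C K] [IsScalarTower κ M K] [IsScalarTower κ C Y] [IsScalarTower κ Y₀ Y]
  [IsScalarTower M K Y] [IsScalarTower M Y₀ Y]
  [FiniteDimensional K1 K] [IsGalois K1 K] [FiniteDimensional K1 Y] [IsGalois K1 Y]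
  [Algebra (RatFunc C) K1] [IsScalarTower C (RatFunc C) K1]
  [FiniteDimensional (RatFunc C) K1] [Algebra.IsSeparable (RatFunc C) K1]
  [CE κ C M K] [CE κ C Y₀ Y] {S : SSK k C K1} (P : Spl S K) (PY : Spl S Y)

/-- the vertex of `K` below a vertex of `Y` -/
theorem exists_vY (w : PY.inh.V) : ∃ v : P.inh.V,
    (∀ f : K, (PY.inh.nm w).v (algebraMap K Y f) = (P.inh.nm v).v f) ∧ vI P v = vI PY w := by
  obtain ⟨v, h1, h2⟩ := exists_vI P ((PY.inh.nm w).v.comap (algebraMap K Y)) (vI PY w) (fun f => by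
    rw [Valuation.comap_apply, ← IsScalarTower.algebraMap_apply K1 K Y, nm_I])
  exact ⟨v, fun f => by rw [h1]; rfl, h2⟩

/-- the vertex of `K` below a vertex of `Y` -/
noncomputable def vY (w : PY.inh.V) : P.inh.V := (exists_vY P PY w).choose

theorem nm_vY (w : PY.inh.V) (f : K) :
    (PY.inh.nm w).v (algebraMap K Y f) = (P.inh.nm (vY P PY w)).v f :=
  (exists_vY P PY w).choose_spec.1 f

theorem vI_vY (w : PY.inh.V) : vI P (vY P PY w) = vI PY w := (exists_vY P PY w).choose_spec.2

theorem comap_vY (w : PY.inh.V) :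
    (PY.inh.nm w).v.comap (algebraMap K Y) = (P.inh.nm (vY P PY w)).v := by
  ext f
  exact congrArg _ (nm_vY P PY w f)


/-- a direction of `Y` over a direction `d` of `K1`, at a prescribed vertex over `d.1` -/
theorem exists_dir_at (w : PY.inh.V) (d : S.Dir) (hd : d.1 = vI PY w) :
    ∃ y : PY.inh.Dir, y.1 = w ∧ (dI PY y).1 = d := by
  obtain ⟨σ, hσ⟩ := PY.exists_sigma (PY.inh.nm w).v d (fun f => by rw [nm_I, hd])
  refine ⟨(dI PY).symm (d, σ), ?_, by rw [Equiv.apply_symm_apply]⟩
  apply PY.inh.nm_inj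
  apply Nm.ext'
  intro f
  rw [hσ, ← Spl.em_gnV (S := PY.inh), em_I, Equiv.apply_symm_apply]

variable (hs : ∀ w : Valuation Y ℝ≥0, (∀ c : C, w (algebraMap C Y c) ≤ ‖c‖₊) →
    SplitAt (w.comap (algebraMap M Y)) Y₀)

include hs

/-- **the semistable structure of `Y` is defined over the fixed level `κ`** -/
theorem lvl_top {D1 : Set S.Dir}
    (H : Lvl P.inh κ M (⊥ : IntermediateField κ C) {y | (dI P y).1 ∈ D1}) :
    Lvl PY.inh κ Y₀ (⊥ : IntermediateField κ C) {y | (dI PY y).1 ∈ D1} where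
  df :=
    { e0_mem := fun e => by
        have h1 : (dI P (P.inh.e0 (ed1 P (eI PY e).1))).1 ∈ D1 := H.df.e0_mem _
        rw [e0_I, eI_ed1] at h1
        change (dI PY (PY.inh.e0 e)).1 ∈ D1
        rw [e0_I]
        exact h1
      e1_mem := fun e => by
        have h1 : (dI P (P.inh.e1 (ed1 P (eI PY e).1))).1 ∈ D1 := H.df.e1_mem _
        rw [e1_I, eI_ed1] at h1
        change (dI PY (PY.inh.e1 e)).1 ∈ D1
        rw [e1_I]
        exact h1
      vert := fun w => by
        obtain ⟨y, hy, hyw⟩ := H.df.vert (vY P PY w)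
        obtain ⟨z, hz1, hz2⟩ := exists_dir_at PY w (dI P y).1 (by rw [fst_I, hyw, vI_vY])
        refine ⟨z, ?_, hz1⟩
        change (dI PY z).1 ∈ D1
        rw [hz2]
        exact hy
      cc_mem := fun e => by
        have h1 := H.df.cc_mem (ed1 P (eI PY e).1)
        rw [cc_I, eI_ed1] at h1
        exact h1
      eqAt := fun y hy => by
        obtain ⟨x, hx1, hx2⟩ := exists_dirK P PY y
        have hxD : x ∈ {y | (dI P y).1 ∈ D1} := by
          change (dI P x).1 ∈ D1
          rw [hx1]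
          exact hy
        have hψC : ∀ c : C, PY.inh.em y (algebraMap C Y c) = algebraMap C (EE k C) c :=
          fun c => em_algebraMap PY.inh y c
        refine eqAt_lift (M := M) (K := K) (PY.inh.em y) hψC ?_ ⊥ ?_
        · refine hs (gnV.comap (PY.inh.em y)) fun c => ?_
          rw [Valuation.comap_apply, hψC, gnV_C]
        · have he : (PY.inh.em y).comp (algebraMap K Y) = P.inh.em x := RingHom.ext hx2
          rw [he]
          exact H.df.eqAt x hxD }
  span := fun w => by
    rw [← spanAt_iff]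
    refine span_lift κ (P.inh.nm (vY P PY w)) (PY.inh.nm w) (comap_vY P PY w)
      (hs _ fun c => ((PY.inh.nm w).hC c).le) ?_
    rw [spanAt_iff (κ := κ)]
    exact H.span (vY P PY w)

variable (κ) in
include κ in
/-- the residue fields of `Y` are those of `K` -/
theorem kapMap_top (w : PY.inh.V) : Function.Bijective
    (kapMap (P.inh.nm (vY P PY w)) (PY.inh.nm w) (comap_vY P PY w)) :=
  kapMap_bijective κ M Y₀ _ _ _ (hs _ fun c => ((PY.inh.nm w).hC c).le)

end main

end Crest.Agent.R013.CY_957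
end

-- ▼ part R013/CY7_957
section

/-!
# R013 / CY7 (helper957): vertices of `Y`: fibres, stabilisers, actions
-/

set_option autoImplicit false
set_option linter.unusedSectionVars false
set_option linter.style.haveILetI false

namespace Crest.Agent.R013.CY_957

open scoped NNReal
open Module WithZero
open Crest.NumberTheoryR.Sect
open Crest.Agent.R013.RR7_948 Crest.Agent.R013.Cell_408 Crest.Agent.R013.EE809
open Crest.Agent.R013.SSK_332 Crest.Agent.R013.Inh_770 Crest.Agent.R013.Red332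
open Crest.Agent.R013.TopE1_957 Crest.Agent.R013.TopE4_957 Crest.Agent.R013.TopE7_957
open Crest.Agent.R013.Desc_372 Crest.Agent.R013.DEm_719 Crest.Agent.R013.DEm_719.GalAct
open Crest.Agent.R013.Kumv2_275

section nm

variable {C : Type*} [NormedField C] [IsUltrametricDist C] {K Y : Type*} [Field K] [Field Y]
  [Algebra C K] [Algebra C Y] [Algebra K Y] [IsScalarTower C K Y]

/-- norms over `C` with the same valuation ring are equal -/
theorem nm_eq_of_le_one (w w' : Nm C Y) (h : ∀ f, w.v f ≤ 1 ↔ w'.v f ≤ 1) (f : Y) :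
    w.v f = w'.v f := by
  have hE : w.v.IsEquiv w'.v := Valuation.isEquiv_iff_val_le_one.2 fun {x} => h x
  rcases eq_or_ne f 0 with rfl | hf
  · rw [map_zero, map_zero]
  obtain ⟨c, hc⟩ := w.val f hf
  have hc0 : c ≠ 0 := by
    rintro rfl
    rw [nnnorm_zero] at hc
    exact (Valuation.ne_zero_iff _).2 hf hc
  have hc1 : ‖c‖₊ ≠ 0 := nnnorm_ne_zero_iff.2 hc0
  have h1 : w.v (f / algebraMap C Y c) = 1 := by
    rw [map_div₀, w.hC, hc, div_self hc1]
  have h2 : w'.v (f / algebraMap C Y c) = 1 := hE.eq_one_iff_eq_one.1 h1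
  rw [map_div₀, w'.hC, div_eq_one_iff_eq hc1] at h2
  rw [hc, h2]

/-- the norm twisted by an automorphism -/
noncomputable def twist (w : Nm C Y) (g : Y ≃ₐ[C] Y) : Nm C Y where
  v := w.v.comap (g : Y →+* Y)
  hC c := by
    change w.v (g (algebraMap C Y c)) = _
    rw [g.commutes, w.hC]
  val f hf := w.val (g f) ((map_ne_zero g).2 hf)


/-- norms of `Y` with the same restriction to `K` are conjugate over `K` -/
theorem nm_conj [FiniteDimensional K Y] [IsGalois K Y] (w w' : Nm C Y)
    (h : ∀ f : K, w'.v (algebraMap K Y f) = w.v (algebraMap K Y f)) :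
    ∃ τ : Y ≃ₐ[K] Y, ∀ f, w'.v f = w.v (τ f) := by
  obtain ⟨τ, hτ⟩ := Hens_899.conj_fin (K := K) w.v w'.v (fun a => by rw [h])
  refine ⟨τ, fun f => ?_⟩
  exact nm_eq_of_le_one w' (twist w (τ.restrictScalars C)) (fun f => (hτ f).symm) f

end nm

section coprime

variable {Y K K1 : Type*} [Field Y] [Field K] [Field K1] [Algebra K Y] [Algebra K1 Y]

/-- iterated norms -/
theorem iter_eq (w : Valuation Y ℝ≥0) (ρ : Y ≃ₐ[K1] Y) (τ : Y ≃ₐ[K] Y)
    (hcomm : ∀ f, ρ (τ f) = τ (ρ f)) (h : ∀ f, w (ρ f) = w (τ f)) (m : ℕ) (f : Y) :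
    w ((ρ ^ m) f) = w ((τ ^ m) f) := by
  have hc : ∀ (m : ℕ) (f : Y), (τ ^ m) (ρ f) = ρ ((τ ^ m) f) := by
    intro m
    induction m with
    | zero => intro f; rfl
    | succ m ih =>
      intro f
      rw [pow_succ', AlgEquiv.mul_apply, AlgEquiv.mul_apply, ih, hcomm]
  induction m generalizing f with
  | zero => rfl
  | succ m ih =>
    have e1 : (ρ ^ (m + 1)) f = (ρ ^ m) (ρ f) := by rw [pow_succ, AlgEquiv.mul_apply]
    have e2 : (τ ^ (m + 1)) f = τ ((τ ^ m) f) := by rw [pow_succ', AlgEquiv.mul_apply]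
    rw [e1, ih, hc, h, e2]

end coprime

section main

variable {k C : Type*} [NontriviallyNormedField k] [CompleteSpace k] [IsUltrametricDist k]
  [NormedField C] [IsUltrametricDist C] [NormedAlgebra k C] [Algebra.IsAlgebraic k C]
  [IsAlgClosed C] [hk : Fact (DiscNorm k)]
variable {κ M K1 K Y₀ Y : Type*} [Field κ] [Field M] [Field K1] [Field K] [Field Y₀] [Field Y]
  [Algebra k κ] [Algebra κ C] [IsScalarTower k κ C]
  [Algebra κ M] [Algebra κ K] [Algebra κ Y₀] [Algebra κ Y]
  [Algebra C K1] [Algebra C K] [Algebra C Y] [Algebra K1 K] [Algebra K1 Y] [Algebra K Y]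
  [Algebra M K] [Algebra M Y₀] [Algebra M Y] [Algebra Y₀ Y]
  [IsScalarTower C K1 K] [IsScalarTower C K1 Y] [IsScalarTower C K Y] [IsScalarTower K1 K Y]
  [IsScalarTower κ C K] [IsScalarTower κ M K] [IsScalarTower κ C Y] [IsScalarTower κ Y₀ Y]
  [IsScalarTower M K Y] [IsScalarTower M Y₀ Y]
  [FiniteDimensional K1 K] [IsGalois K1 K] [FiniteDimensional K1 Y] [IsGalois K1 Y]
  [FiniteDimensional K Y] [IsGalois K Y]
  [Algebra (RatFunc C) K1] [IsScalarTower C (RatFunc C) K1]
  [FiniteDimensional (RatFunc C) K1] [Algebra.IsSeparable (RatFunc C) K1]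
  [CE κ C M K] [CE κ C Y₀ Y] {S : SSK k C K1} (P : Spl S K) (PY : Spl S Y)

variable (hs : ∀ w : Valuation Y ℝ≥0, (∀ c : C, w (algebraMap C Y c) ≤ ‖c‖₊) →
    SplitAt (w.comap (algebraMap M Y)) Y₀)

variable (κ) in
include κ hs in
/-- the group `Gal(Y/K)` acts freely on the norms -/
theorem free_top (w : Nm C Y) (τ : Y ≃ₐ[K] Y) (h : ∀ f, w.v (τ f) = w.v f) : τ = 1 := by
  refine eq_one_of_dense w.v (fun f a ha => ?_) τ h
  exact exists_close' κ C (M := M) (Y₀ := Y₀) w.v (hs w.v fun c => (w.hC c).le) f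
    ((Valuation.pos_iff _).2 ha)

variable (κ) in
include κ hs in
/-- **stabilisers**: the group `Gal(K/K1)`, lifted to `Y` so that it commutes with `Gal(Y/K)`, of
order prime to `[Y : K]`, stabilises a norm iff it stabilises its restriction to `K` -/
theorem stab_top (ρ : (K ≃ₐ[K1] K) →* (Y ≃ₐ[K1] Y))
    (hρ : ∀ a (f : K), ρ a (algebraMap K Y f) = algebraMap K Y (a f))
    (hcomm : ∀ a (τ : Y ≃ₐ[K] Y) f, ρ a (τ f) = τ (ρ a f))
    (hcop : (finrank K Y).Coprime (finrank K1 K)) (w : Nm C Y) (a : K ≃ₐ[K1] K)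
    (h : ∀ f : K, w.v (algebraMap K Y (a f)) = w.v (algebraMap K Y f)) (f : Y) :
    w.v (ρ a f) = w.v f := by
  obtain ⟨τ, hτ⟩ := nm_conj (K := K) w (twist w ((ρ a).restrictScalars C)) (fun f => by
    change w.v (ρ a (algebraMap K Y f)) = _
    rw [hρ, h])
  have hτ' : ∀ f, w.v (ρ a f) = w.v (τ f) := hτ
  set m := finrank K1 K with hm
  have h1 : (ρ a) ^ m = 1 := by
    rw [← map_pow, hm, ← IsGalois.card_aut_eq_finrank K1 K, pow_card_eq_one', map_one]
  have h2 : τ ^ m = 1 := by
    refine free_top κ (M := M) (Y₀ := Y₀) hs w (τ ^ m) fun f => ?_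
    rw [← iter_eq w.v (ρ a) τ (hcomm a τ) hτ' m f, h1]
    rfl
  have h3 : τ ^ finrank K Y = 1 := by
    rw [← IsGalois.card_aut_eq_finrank K Y, pow_card_eq_one']
  have h4 : τ = 1 := by
    have h5 := (pow_gcd_eq_one (a := τ)).2 ⟨h3, h2⟩
    rw [Nat.Coprime.gcd_eq_one hcop, pow_one] at h5
    exact h5
  rw [hτ', h4]
  rfl

/-! ### the action of `Gal(Y/K1)` on the vertices -/

/-- the vertex `g • w` -/
theorem exists_smul (g : Y ≃ₐ[K1] Y) (w : PY.inh.V) : ∃ w' : PY.inh.V,
    vI PY w' = vI PY w ∧ ∀ f, (PY.inh.nm w').v (g f) = (PY.inh.nm w).v f :=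
  PY.exists_act_V PY.ffL g w

/-- the action on the vertices -/
@[reducible] noncomputable def actV : MulAction (Y ≃ₐ[K1] Y) PY.inh.V where
  smul g w := (exists_smul PY g w).choose
  one_smul w := by
    apply PY.inh.nm_inj
    apply Nm.ext'
    intro f
    exact (exists_smul PY (1 : Y ≃ₐ[K1] Y) w).choose_spec.2 f
  mul_smul g h w := by
    apply PY.inh.nm_inj
    apply Nm.ext'
    intro f
    obtain ⟨f', rfl⟩ := (g * h).surjective f
    have h1 := (exists_smul PY (g * h) w).choose_spec.2 f'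
    have h2 := (exists_smul PY h w).choose_spec.2 f'
    have h3 := (exists_smul PY g (exists_smul PY h w).choose).choose_spec.2 (h f')
    exact h1.trans (h2.symm.trans h3.symm)

theorem nm_smul (g : Y ≃ₐ[K1] Y) (w : PY.inh.V) (f : Y) :
    (PY.inh.nm ((actV PY).toSMul.smul g w)).v (g f) = (PY.inh.nm w).v f :=
  (exists_smul PY g w).choose_spec.2 f

theorem vI_smul (g : Y ≃ₐ[K1] Y) (w : PY.inh.V) :
    vI PY ((actV PY).toSMul.smul g w) = vI PY w :=
  (exists_smul PY g w).choose_spec.1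

theorem smul_eq_iff (g : Y ≃ₐ[K1] Y) (w w' : PY.inh.V) :
    (actV PY).toSMul.smul g w = w' ↔ ∀ f, (PY.inh.nm w').v (g f) = (PY.inh.nm w).v f := by
  constructor
  · rintro rfl f
    exact nm_smul PY g w f
  · intro h
    apply PY.inh.nm_inj
    apply Nm.ext'
    intro f
    obtain ⟨f', rfl⟩ := g.surjective f
    rw [nm_smul, h]

/-- the vertices over a vertex of `K1` are conjugate -/
theorem exists_smul_eq (w w' : PY.inh.V) (h : vI PY w = vI PY w') :
    ∃ g : Y ≃ₐ[K1] Y, (actV PY).toSMul.smul g w = w' := by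
  obtain ⟨g, hg⟩ := PY.exists_conj_V PY.ffL w w' h
  exact ⟨g, (smul_eq_iff PY g w w').2 hg⟩

end main

end Crest.Agent.R013.CY_957
end

-- ▼ part R013/CY8_957
section

/-!
# R013 / CY8 (helper957): the covering group acts on vertices and edges of `Y`; counting; the rank
-/

set_option autoImplicit false
set_option linter.unusedSectionVars false
set_option linter.style.haveILetI false

namespace Crest.Agent.R013.CY_957

open scoped NNReal
open Module WithZero
open Crest.NumberTheoryR.Sect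
open Crest.Agent.R013.RR7_948 Crest.Agent.R013.Cell_408 Crest.Agent.R013.EE809
open Crest.Agent.R013.SSK_332 Crest.Agent.R013.Inh_770 Crest.Agent.R013.Red332
open Crest.Agent.R013.TopE1_957 Crest.Agent.R013.TopE4_957 Crest.Agent.R013.TopE7_957
open Crest.Agent.R013.Desc_372 Crest.Agent.R013.DEm_719 Crest.Agent.R013.DEm_719.GalAct
open Crest.Agent.R013.Kumv2_275

variable {k C : Type*} [NontriviallyNormedField k] [CompleteSpace k] [IsUltrametricDist k]
  [NormedField C] [IsUltrametricDist C] [NormedAlgebra k C] [Algebra.IsAlgebraic k C]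
  [IsAlgClosed C] [hk : Fact (DiscNorm k)]

section act

variable {K1 Y : Type*} [Field K1] [Field Y] [Algebra C K1] [Algebra C Y] [Algebra K1 Y]
  [IsScalarTower C K1 Y] [FiniteDimensional K1 Y] [IsGalois K1 Y]
  [Algebra (RatFunc C) K1] [IsScalarTower C (RatFunc C) K1]
  [FiniteDimensional (RatFunc C) K1] [Algebra.IsSeparable (RatFunc C) K1]
  {S : SSK k C K1} (PY : Spl S Y) {A : Type*} [Group A] (ρ : A →* (Y ≃ₐ[K1] Y))

/-- the action of the Galois group on the edges (770) -/
@[reducible] noncomputable def actEd : MulAction (Y ≃ₐ[K1] Y) PY.inh.Ed := PY.actE PY.ffL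

/-- the covering group acts on the vertices -/
@[reducible] noncomputable def mV : MulAction A PY.inh.V :=
  @MulAction.compHom (Y ≃ₐ[K1] Y) A PY.inh.V _ (actV PY) _ ρ

/-- the covering group acts on the edges -/
@[reducible] noncomputable def mE : MulAction A PY.inh.Ed :=
  @MulAction.compHom (Y ≃ₐ[K1] Y) A PY.inh.Ed _ (actEd PY) _ ρ


theorem nm_mV (a : A) (w : PY.inh.V) (f : Y) :
    letI := mV PY ρ
    (PY.inh.nm (a • w)).v (ρ a f) = (PY.inh.nm w).v f := nm_smul PY (ρ a) w f

theorem mV_eq_iff (a : A) (w w' : PY.inh.V) :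
    letI := mV PY ρ
    a • w = w' ↔ ∀ f, (PY.inh.nm w').v (ρ a f) = (PY.inh.nm w).v f := smul_eq_iff PY (ρ a) w w'

theorem em_e0_mE (a : A) (e : PY.inh.Ed) (f : Y) :
    letI := mE PY ρ
    PY.inh.em (PY.inh.e0 (a • e)) (ρ a f) = PY.inh.em (PY.inh.e0 e) f :=
  PY.em_e0_act PY.ffL (ρ a) e f

theorem em_e1_mE (a : A) (e : PY.inh.Ed) (f : Y) :
    letI := mE PY ρ
    PY.inh.em (PY.inh.e1 (a • e)) (ρ a f) = PY.inh.em (PY.inh.e1 e) f :=
  PY.em_e1_act PY.ffL (ρ a) e f

theorem od_e0_mE (a : A) (e : PY.inh.Ed) (f : Y) (hf : f ≠ 0) :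
    letI := mE PY ρ
    Red332.od (PY.inh.nm (PY.inh.e0 (a • e)).1) (PY.inh.e0 (a • e)).2 (ρ a f) =
      Red332.od (PY.inh.nm (PY.inh.e0 e).1) (PY.inh.e0 e).2 f :=
  PY.od_e0_act PY.ffL (ρ a) e f hf


theorem free_mE (hρ : Function.Injective ρ) (a : A) (e : PY.inh.Ed)
    (h : (mE PY ρ).toSMul.smul a e = e) : a = 1 := by
  apply hρ
  rw [map_one]
  exact PY.act_free PY.ffL (ρ a) e h

theorem card_Ed_top : Nat.card PY.inh.Ed = finrank K1 Y * Nat.card S.Ed := PY.card_Ed PY.ffL

end act

section count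

variable {κ M K1 K Y₀ Y : Type*} [Field κ] [Field M] [Field K1] [Field K] [Field Y₀] [Field Y]
  [Algebra k κ] [Algebra κ C] [IsScalarTower k κ C]
  [Algebra κ M] [Algebra κ K] [Algebra κ Y₀] [Algebra κ Y]
  [Algebra C K1] [Algebra C K] [Algebra C Y] [Algebra K1 K] [Algebra K1 Y] [Algebra K Y]
  [Algebra M K] [Algebra M Y₀] [Algebra M Y] [Algebra Y₀ Y]
  [IsScalarTower C K1 K] [IsScalarTower C K1 Y] [IsScalarTower C K Y] [IsScalarTower K1 K Y]
  [IsScalarTower κ C K] [IsScalarTower κ M K] [IsScalarTower κ C Y] [IsScalarTower κ Y₀ Y]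
  [IsScalarTower M K Y] [IsScalarTower M Y₀ Y]
  [FiniteDimensional K1 K] [IsGalois K1 K] [FiniteDimensional K1 Y] [IsGalois K1 Y]
  [FiniteDimensional K Y] [IsGalois K Y]
  [Algebra (RatFunc C) K1] [IsScalarTower C (RatFunc C) K1]
  [FiniteDimensional (RatFunc C) K1] [Algebra.IsSeparable (RatFunc C) K1]
  [CE κ C M K] [CE κ C Y₀ Y] {S : SSK k C K1} (P : Spl S K) (PY : Spl S Y)

/-- `a` fixes the vertex `w` of `K` -/
def Fix {K1 K : Type*} [Field K1] [Field K] [Algebra K1 K] {C : Type*} [NormedField C]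
    [IsUltrametricDist C] [Algebra C K] (a : K ≃ₐ[K1] K) (w : Nm C K) : Prop :=
  ∀ f, w.v (a f) = w.v f

variable (hs : ∀ w : Valuation Y ℝ≥0, (∀ c : C, w (algebraMap C Y c) ≤ ‖c‖₊) →
    SplitAt (w.comap (algebraMap M Y)) Y₀)
  (ρ : (K ≃ₐ[K1] K) →* (Y ≃ₐ[K1] Y))
  (hρ : ∀ a (f : K), ρ a (algebraMap K Y f) = algebraMap K Y (a f))
  (hcomm : ∀ a (τ : Y ≃ₐ[K] Y) f, ρ a (τ f) = τ (ρ a f))
  (hcop : (finrank K Y).Coprime (finrank K1 K))

variable (κ) in
include κ hs hρ hcomm hcop in
/-- stabilisers of vertices -/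
theorem fix_iff (a : K ≃ₐ[K1] K) (w : PY.inh.V) :
    Fix (ρ a) (PY.inh.nm w) ↔ Fix a (P.inh.nm (vY P PY w)) := by
  constructor
  · intro h f
    rw [← nm_vY, ← nm_vY, ← hρ]
    exact h _
  · intro h
    refine stab_top κ (M := M) (Y₀ := Y₀) hs ρ hρ hcomm hcop (PY.inh.nm w) a fun f => ?_
    rw [nm_vY P PY, nm_vY P PY]
    exact h f

omit [FiniteDimensional K1 Y] [IsGalois K1 Y] [FiniteDimensional K Y] [IsGalois K Y] in
/-- trivial stabilisers are constant on the fibres over the vertices of `K1` -/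
theorem fix_conj (w w' : P.inh.V) (h : vI P w = vI P w')
    (hw : ∀ a : K ≃ₐ[K1] K, Fix a (P.inh.nm w) → a = 1) (a : K ≃ₐ[K1] K)
    (ha : Fix a (P.inh.nm w')) : a = 1 := by
  obtain ⟨g, hg⟩ := exists_smul_eq P w w' h
  rw [smul_eq_iff] at hg
  have h1 : g⁻¹ * a * g = 1 := by
    apply hw
    intro f
    have h2 := hg ((g⁻¹ * a * g) f)
    rw [← h2, ← AlgEquiv.mul_apply, ← mul_assoc, ← mul_assoc, mul_inv_cancel, one_mul,
      AlgEquiv.mul_apply, ha, hg]
  have h3 : a = g * (g⁻¹ * a * g) * g⁻¹ := by group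
  rw [h3, h1, mul_one, mul_inv_cancel]

variable (κ) in
include κ hs in
/-- `Gal(Y/K1)` acts freely on the vertices of `Y` over the vertices of `K` with trivial
stabilisers -/
theorem free_V (w : PY.inh.V) (hw : ∀ a : K ≃ₐ[K1] K, Fix a (P.inh.nm (vY P PY w)) → a = 1)
    (g : Y ≃ₐ[K1] Y) (hg : ∀ f, (PY.inh.nm w).v (g f) = (PY.inh.nm w).v f) : g = 1 := by
  have h1 : AlgEquiv.restrictNormalHom K g = 1 := by
    apply hw
    intro f
    rw [← nm_vY, ← nm_vY]
    have h2 : algebraMap K Y (AlgEquiv.restrictNormalHom K g f) = g (algebraMap K Y f) :=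
      AlgEquiv.restrictNormal_commutes g K f
    rw [h2]
    exact hg _
  have hgK : ∀ f : K, g (algebraMap K Y f) = algebraMap K Y f := fun f => by
    rw [← AlgEquiv.restrictNormal_commutes g K f]
    have : g.restrictNormal K = 1 := h1
    rw [this]; rfl
  let τ : Y ≃ₐ[K] Y := AlgEquiv.ofRingEquiv (f := g.toRingEquiv) hgK
  have h3 : τ = 1 := free_top κ (M := M) (Y₀ := Y₀) hs (PY.inh.nm w) τ hg
  ext f
  exact congrArg (fun t : Y ≃ₐ[K] Y => t f) h3

/-- the vertices of `K1` over which the stabilisers are trivial -/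
def Triv : Set S.V := {v | ∃ w : P.inh.V, vI P w = v ∧ ∀ a : K ≃ₐ[K1] K,
  Fix a (P.inh.nm w) → a = 1}

omit [FiniteDimensional K Y] [IsGalois K Y] in
theorem vI_surj : Function.Surjective (vI PY) := PY.vK_surj PY.ffL

/-- the vertices of `Y` on which the covering group acts freely -/
noncomputable def V0 : letI := mV PY ρ; SubMulAction (K ≃ₐ[K1] K) PY.inh.V :=
  letI := mV PY ρ
  { carrier := {w | ∀ a : K ≃ₐ[K1] K, Fix (ρ a) (PY.inh.nm w) → a = 1}
    smul_mem' := fun a w hw b hb => by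
      have h1 : a⁻¹ * b * a = 1 := by
        apply hw
        intro f
        have h2 : ∀ f, (PY.inh.nm (a • w)).v (ρ a f) = (PY.inh.nm w).v f := nm_mV PY ρ a w
        rw [← h2, ← AlgEquiv.mul_apply, ← map_mul, ← mul_assoc, ← mul_assoc, mul_inv_cancel,
          one_mul, map_mul, AlgEquiv.mul_apply, hb, h2]
      have h3 : b = a * (a⁻¹ * b * a) * a⁻¹ := by group
      rw [h3, h1, mul_one, mul_inv_cancel] }

variable (κ) in
include κ hs hρ hcomm hcop in
/-- **the number of vertices with trivial stabilisers** -/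
theorem card_V0 : letI := mV PY ρ
    Nat.card (V0 PY ρ) = Nat.card (K ≃ₐ[K1] K) * (finrank K Y * Nat.card (Triv P)) := by
  classical
  letI := mV PY ρ
  have hfix := fix_iff κ P PY hs ρ hρ hcomm hcop
  have hbase : ∀ v : Triv P, ∃ w : PY.inh.V, vI PY w = v := fun v => vI_surj PY v
  choose b hb using hbase
  have hT : ∀ (w : PY.inh.V), vI PY w ∈ Triv P →
      ∀ a : K ≃ₐ[K1] K, Fix a (P.inh.nm (vY P PY w)) → a = 1 := by
    rintro w ⟨w', hw', hw''⟩
    exact fix_conj P w' _ (by rw [hw', vI_vY]) hw''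
  have hmem : ∀ (v : Triv P) (g : Y ≃ₐ[K1] Y),
      (actV PY).toSMul.smul g (b v) ∈ V0 PY ρ := by
    intro v g a ha
    rw [hfix] at ha
    refine hT _ ?_ a ha
    rw [vI_smul, hb]
    exact v.2
  let φ : Triv P × (Y ≃ₐ[K1] Y) → V0 PY ρ := fun q => ⟨_, hmem q.1 q.2⟩
  have hφ : Function.Bijective φ := by
    constructor
    · rintro ⟨v, g⟩ ⟨v', g'⟩ h
      have h1 : (actV PY).toSMul.smul g (b v) = (actV PY).toSMul.smul g' (b v') :=
        congrArg Subtype.val h
      have h2 : v = v' := by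
        have h3 := congrArg (vI PY) h1
        rw [vI_smul, vI_smul, hb, hb] at h3
        exact Subtype.ext h3
      subst h2
      have h4 : g'⁻¹ * g = 1 := by
        refine free_V κ (M := M) (Y₀ := Y₀) P PY hs (b v) (hT _ (by rw [hb]; exact v.2)) _
          fun f => ?_
        have h5 := nm_smul PY g' (b v) ((g'⁻¹ * g) f)
        rw [← h5, ← h1, ← AlgEquiv.mul_apply, mul_inv_cancel_left, nm_smul]
      rw [inv_mul_eq_one] at h4
      rw [h4]
    · rintro ⟨w, hw⟩
      have h1 : vI PY w ∈ Triv P := by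
        refine ⟨vY P PY w, vI_vY P PY w, fun a ha => hw a ?_⟩
        rw [hfix]
        exact ha
      obtain ⟨g, hg⟩ := exists_smul_eq PY (b ⟨_, h1⟩) w (hb _)
      exact ⟨(⟨_, h1⟩, g), Subtype.ext hg⟩
  rw [← Nat.card_eq_of_bijective φ hφ, Nat.card_prod, IsGalois.card_aut_eq_finrank,
    IsGalois.card_aut_eq_finrank, ← finrank_mul_finrank K1 K Y]
  ring

end count

end Crest.Agent.R013.CY_957
end

-- ▼ part R013/CY9_957

/-!
# R013 / CY9 (helper957): the rank of the `e`-part of the flows on the graph of `Y`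
-/

set_option autoImplicit false
set_option linter.unusedSectionVars false
set_option linter.style.haveILetI false

namespace Crest.Agent.R013.CY_957

open scoped NNReal
open Module WithZero
open Crest.NumberTheoryR.Sect
open Crest.Agent.R013.RR7_948 Crest.Agent.R013.Cell_408 Crest.Agent.R013.EE809
open Crest.Agent.R013.SSK_332 Crest.Agent.R013.Inh_770 Crest.Agent.R013.Red332
open Crest.Agent.R013.TopE1_957 Crest.Agent.R013.TopE4_957 Crest.Agent.R013.TopE7_957
open Crest.Agent.R013.Desc_372 Crest.Agent.R013.DEm_719 Crest.Agent.R013.DEm_719.GalAct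
open Crest.Agent.R013.Kumv2_275 Crest.Agent.R013.Rank_770

variable {k C : Type*} [NontriviallyNormedField k] [CompleteSpace k] [IsUltrametricDist k]
  [NormedField C] [IsUltrametricDist C] [NormedAlgebra k C] [Algebra.IsAlgebraic k C]
  [IsAlgClosed C] [hk : Fact (DiscNorm k)]

variable {κ M K1 K Y₀ Y : Type*} [Field κ] [Field M] [Field K1] [Field K] [Field Y₀] [Field Y]
  [Algebra k κ] [Algebra κ C] [IsScalarTower k κ C]
  [Algebra κ M] [Algebra κ K] [Algebra κ Y₀] [Algebra κ Y]
  [Algebra C K1] [Algebra C K] [Algebra C Y] [Algebra K1 K] [Algebra K1 Y] [Algebra K Y]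
  [Algebra M K] [Algebra M Y₀] [Algebra M Y] [Algebra Y₀ Y]
  [IsScalarTower C K1 K] [IsScalarTower C K1 Y] [IsScalarTower C K Y] [IsScalarTower K1 K Y]
  [IsScalarTower κ C K] [IsScalarTower κ M K] [IsScalarTower κ C Y] [IsScalarTower κ Y₀ Y]
  [IsScalarTower M K Y] [IsScalarTower M Y₀ Y]
  [FiniteDimensional K1 K] [IsGalois K1 K] [FiniteDimensional K1 Y] [IsGalois K1 Y]
  [FiniteDimensional K Y] [IsGalois K Y]
  [Algebra (RatFunc C) K1] [IsScalarTower C (RatFunc C) K1]
  [FiniteDimensional (RatFunc C) K1] [Algebra.IsSeparable (RatFunc C) K1]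
  [CE κ C M K] [CE κ C Y₀ Y] {S : SSK k C K1} (P : Spl S K) (PY : Spl S Y)
variable (hs : ∀ w : Valuation Y ℝ≥0, (∀ c : C, w (algebraMap C Y c) ≤ ‖c‖₊) →
    SplitAt (w.comap (algebraMap M Y)) Y₀)
  (ρ : (K ≃ₐ[K1] K) →* (Y ≃ₐ[K1] Y))
  (hρ : ∀ a (f : K), ρ a (algebraMap K Y f) = algebraMap K Y (a f))
  (hcomm : ∀ a (τ : Y ≃ₐ[K] Y) f, ρ a (τ f) = τ (ρ a f))
  (hcop : (finrank K Y).Coprime (finrank K1 K))

omit [Algebra k κ] [IsScalarTower k κ C] in
include hρ in
theorem ρ_injective : Function.Injective ρ := by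
  rw [injective_iff_map_eq_one]
  intro a ha
  ext f
  apply (algebraMap K Y).injective
  rw [← hρ, ha]
  rfl

variable (κ) in
include κ hs hρ hcomm hcop in
/-- **C-RANK for `Y`.**  `F` any field of characteristic zero (`ℚ_[p]`), `e` an idempotent of the
group algebra of `Gal(K/K1)`; every vertex `w` of `K` has a trivial stabiliser and lies over a
vertex of `K1` with `Q` (= genus zero), or `e` is killed by a subgroup of its stabiliser.
Then `n #Ed(S) ≤ dim (e·ker d) + n #{v : S.V | Q v}`. -/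
theorem rank_top {F : Type*} [Field F] [CharZero F] [Fintype (K ≃ₐ[K1] K)]
    {e : (K ≃ₐ[K1] K) → F} (he : IsIdem e) (h0 : e ≠ 0) (Q : S.V → Prop)
    (hQ : ∀ w : P.inh.V, (Q (vI P w) ∧ ∀ a : K ≃ₐ[K1] K, Fix a (P.inh.nm w) → a = 1) ∨
      ∃ (B : Subgroup (K ≃ₐ[K1] K)) (_ : Fintype B), (∀ b ∈ B, Fix b (P.inh.nm w)) ∧
        ∀ a, ∑ b : B, e (a * (b : K ≃ₐ[K1] K)) = 0)
    (d : (PY.inh.Ed → F) →ₗ[F] (PY.inh.V → F))
    (hd : letI := mV PY ρ; letI := mE PY ρ
      ∀ (a : K ≃ₐ[K1] K) f, d (act F PY.inh.Ed a f) = act F PY.inh.V a (d f)) :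
    finrank K Y * Nat.card S.Ed ≤
      (letI := mE PY ρ; finrank F (eker e d)) + finrank K Y * Nat.card {v : S.V // Q v} := by
  classical
  letI := mV PY ρ
  letI := mE PY ρ
  haveI := PY.inh.fEd
  haveI := PY.inh.fV
  haveI : Finite S.V := @Finite.of_fintype _ S.fV
  have hfix := fix_iff κ P PY hs ρ hρ hcomm hcop
  -- both alternatives exclude each other
  have hex : ∀ w : P.inh.V, (∀ a : K ≃ₐ[K1] K, Fix a (P.inh.nm w) → a = 1) → Q (vI P w) := by
    intro w hw
    rcases hQ w with h | ⟨B, hB, hB1, hB2⟩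
    · exact h.1
    · exfalso
      apply h0
      have hB3 : ∀ b : B, b = 1 := fun b => Subtype.ext (hw b (hB1 b b.2))
      haveI : Unique B := ⟨⟨1⟩, hB3⟩
      funext a
      have h4 := hB2 a
      rw [Fintype.sum_unique] at h4
      have h5 : ((default : B) : K ≃ₐ[K1] K) = 1 := congrArg Subtype.val (hB3 default)
      rw [h5, mul_one] at h4
      exact h4
  have hT : Nat.card (Triv P) ≤ Nat.card {v : S.V // Q v} := by
    refine Nat.card_le_card_of_injective (fun v : Triv P => (⟨v.1, ?_⟩ : {v : S.V // Q v})) ?_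
    · obtain ⟨v, w, rfl, hw⟩ := v
      exact hex w hw
    · intro v v' h
      exact Subtype.ext (congrArg (fun x : {v : S.V // Q v} => x.1) h)
  have hmain := rank_ge he h0 (E := PY.inh.Ed) (V := PY.inh.V)
    (fun a x hx => free_mE PY ρ (ρ_injective ρ hρ) a x hx) (V0 PY ρ)
    (fun a w hw haw => by
      apply hw
      intro f
      have h1 : ∀ f, (PY.inh.nm (a • w)).v (ρ a f) = (PY.inh.nm w).v f := nm_mV PY ρ a w
      have h2 := h1 f
      rw [haw] at h2
      exact h2)
    (fun w hw => by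
      rcases hQ (vY P PY w) with h | ⟨B, hB, hB1, hB2⟩
      · exfalso
        apply hw
        intro a ha
        rw [hfix] at ha
        exact h.2 a ha
      · refine ⟨B, hB, fun b hb => ?_, hB2⟩
        have h1 := (mV_eq_iff PY ρ b w w).2 ((hfix b w).2 (hB1 b hb))
        exact h1) d hd (finrank K Y * Nat.card S.Ed) (finrank K Y * Nat.card (Triv P)) (by
      rw [← Nat.card_eq_fintype_card, ← Nat.card_eq_fintype_card, card_Ed_top,
        IsGalois.card_aut_eq_finrank, ← finrank_mul_finrank K1 K Y]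
      ring) (by
      rw [← Nat.card_eq_fintype_card]
      exact card_V0 κ P PY hs ρ hρ hcomm hcop)
  exact hmain.trans (Nat.add_le_add_left (Nat.mul_le_mul_left _ hT) _)

end Crest.Agent.R013.CY_957
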