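import Mathlib
import Crest.Agent.R013.CntP2_127

-- ▼ part R013/CartC1_359
section
/-
ROW 13, leaf CARTC (helper359), file 1: residue field side.

`span_rep` : κ of char p, generated by a perfect subfield κc, t and an element zb separable over κc(t): every element of κ
is Σ_{i<p} y_i^p t^i.
`car_*` : an operator CO with CO (Σ y_i^p t^i) = y_(p-1) satisfies all Cartier axioms with respect to the derivation with Δ t = 1.
-/
set_option autoImplicit false
set_option linter.unusedSectionVars false

namespace Crest.Agent.R013.CartC_359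

open Polynomial Finset

section Span

variable {κ : Type*} [Field κ] (p : ℕ) [hp : Fact p.Prime] [CharP κ p]

/-- representation property -/
def Rep (t f : κ) : Prop := ∃ y : ℕ → κ, f = ∑ i ∈ range p, y i ^ p * t ^ i

variable {p}

theorem Rep.add {t a b : κ} (ha : Rep p t a) (hb : Rep p t b) : Rep p t (a + b) := by
  obtain ⟨f, rfl⟩ := ha
  obtain ⟨g, rfl⟩ := hb
  refine ⟨fun i => f i + g i, ?_⟩
  rw [← sum_add_distrib]
  refine sum_congr rfl fun i _ => ?_
  rw [add_pow_char, add_mul]

theorem rep_mono (t f : κ) (n : ℕ) : Rep p t (f ^ p * t ^ n) := by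
  refine ⟨fun i => if i = n % p then f * t ^ (n / p) else 0, ?_⟩
  rw [sum_eq_single (n % p)]
  · simp only [if_true]
    rw [mul_pow, ← pow_mul, mul_assoc, ← pow_add, Nat.div_add_mod']
  · intro i _ hi
    simp only [if_neg hi]
    rw [zero_pow hp.out.ne_zero, zero_mul]
  · intro h
    exact absurd (mem_range.mpr (Nat.mod_lt _ hp.out.pos)) h

theorem rep_pow (t f : κ) : Rep p t (f ^ p) := by
  have := rep_mono (p := p) t f 0
  rwa [pow_zero, mul_one] at this

theorem Rep.sum {ι : Type*} {t : κ} (s : Finset ι) (f : ι → κ) (h : ∀ i ∈ s, Rep p t (f i)) :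
    Rep p t (∑ i ∈ s, f i) := by
  classical
  induction s using Finset.induction_on with
  | empty =>
    rw [sum_empty]
    have := rep_pow (p := p) t 0
    rwa [zero_pow hp.out.ne_zero] at this
  | insert a s ha ih =>
    rw [sum_insert ha]
    exact (h a (mem_insert_self _ _)).add (ih (fun i hi => h i (mem_insert_of_mem hi)))

theorem Rep.mul {t a b : κ} (ha : Rep p t a) (hb : Rep p t b) : Rep p t (a * b) := by
  obtain ⟨f, rfl⟩ := ha
  obtain ⟨g, rfl⟩ := hb
  rw [sum_mul_sum]
  refine Rep.sum _ _ (fun i _ => Rep.sum _ _ (fun j _ => ?_))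
  have : f i ^ p * t ^ i * (g j ^ p * t ^ j) = (f i * g j) ^ p * t ^ (i + j) := by
    rw [mul_pow, pow_add]; ring
  rw [this]
  exact rep_mono _ _ _

theorem Rep.inv {t a : κ} (ha : Rep p t a) : Rep p t a⁻¹ := by
  rcases eq_or_ne a 0 with rfl | h0
  · rw [inv_zero]
    have := rep_pow (p := p) t 0
    rwa [zero_pow hp.out.ne_zero] at this
  have hpow : ∀ n : ℕ, Rep p t (a ^ n) := by
    intro n
    induction n with
    | zero =>
      rw [pow_zero]
      have := rep_pow (p := p) t 1
      rwa [one_pow] at this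
    | succ n ih => rw [pow_succ]; exact ih.mul ha
  have h1 : a⁻¹ = a ^ (p - 1) * (a⁻¹) ^ p := by
    obtain ⟨q, hq⟩ : ∃ q, p = q + 1 := ⟨p - 1, by have := hp.out.pos; omega⟩
    rw [hq, Nat.add_sub_cancel, pow_succ, ← mul_assoc, ← mul_pow, mul_inv_cancel₀ h0, one_pow,
      one_mul]
  rw [h1]
  exact (hpow _).mul (rep_pow _ _)

omit [CharP κ p] in
theorem rep_neg_one [CharP κ p] (t : κ) : Rep p t (-1 : κ) := by
  have h := rep_pow (p := p) t (-1 : κ)
  rcases hp.out.eq_two_or_odd' with h2 | h2
  · have h4 : (2 : κ) = 0 := by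
      have := CharP.cast_eq_zero κ p
      rw [h2] at this
      exact_mod_cast this
    have : (-1 : κ) = 1 := by
      rw [neg_eq_iff_add_eq_zero, one_add_one_eq_two]
      exact h4
    rw [this]
    have := rep_pow (p := p) t 1
    rwa [one_pow] at this
  · rwa [h2.neg_one_pow] at h

/-- the subfield of representable elements -/
def repField (t : κ) : Subfield κ where
  carrier := {f | Rep p t f}
  mul_mem' := fun ha hb => Rep.mul ha hb
  one_mem' := by
    have := rep_pow (p := p) t 1
    rwa [one_pow] at this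
  add_mem' := fun ha hb => Rep.add ha hb
  zero_mem' := by
    have := rep_pow (p := p) t 0
    rwa [zero_pow hp.out.ne_zero] at this
  neg_mem' := by
    intro x hx
    have h1 : Rep p t (-1 : κ) := rep_neg_one t
    have : -x = (-1) * x := by ring
    rw [this]
    exact h1.mul hx
  inv_mem' := fun _ hx => Rep.inv hx


/-- an element separable over a subfield which contains its p-th power is in the subfield. -/
theorem mem_of_separable_pow (E : Subfield κ) (zb : κ) (M : κ[X]) (hMc : ∀ i, M.coeff i ∈ E)
    (hMz : eval zb M = 0) (hM' : eval zb (derivative M) ≠ 0) (hpz : zb ^ p ∈ E) : zb ∈ E := by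
  have hl : M ∈ Polynomial.lifts (algebraMap E κ) := by
    rw [Polynomial.lifts_iff_coeff_lifts]
    intro i
    exact ⟨⟨M.coeff i, hMc i⟩, rfl⟩
  obtain ⟨N, hN⟩ := (Polynomial.mem_lifts _).mp hl
  have hNz : aeval zb N = 0 := by
    rw [aeval_def, ← eval_map, hN, hMz]
  have hN' : aeval zb (derivative N) ≠ 0 := by
    rw [aeval_def, ← eval_map, ← derivative_map, hN]
    exact hM'
  have hN0 : N ≠ 0 := by
    rintro rfl
    simp at hN'
  have hint : IsIntegral E zb := by
    apply IsAlgebraic.isIntegral
    exact ⟨N, hN0, hNz⟩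
  have hsep : IsSeparable E zb := by
    rw [IsSeparable, separable_iff_derivative_ne_zero (minpoly.irreducible hint)]
    intro h0
    obtain ⟨q, hq⟩ := minpoly.dvd E zb hNz
    apply hN'
    rw [hq, derivative_mul, map_add, map_mul, map_mul, minpoly.aeval, zero_mul, add_zero, h0,
      map_zero, zero_mul]
  have : CharP E p := ((algebraMap E κ).charP_iff (algebraMap E κ).injective p).mpr inferInstance
  have : ExpChar E p := ExpChar.prime hp.out
  have h1 := IntermediateField.adjoin_simple_eq_adjoin_pow_expChar_of_isSeparable E κ hsep p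
  have h2 : zb ∈ IntermediateField.adjoin E {zb ^ p} := by
    rw [← h1]
    exact IntermediateField.mem_adjoin_simple_self E zb
  have h3 : IntermediateField.adjoin E {zb ^ p} = ⊥ := by
    rw [IntermediateField.adjoin_simple_eq_bot_iff]
    exact IntermediateField.mem_bot.mpr ⟨⟨zb ^ p, hpz⟩, rfl⟩
  rw [h3, IntermediateField.mem_bot] at h2
  obtain ⟨y, hy⟩ := h2
  rw [← hy]
  exact y.2

/-- SPAN LEMMA -/
theorem span_rep (κc : Subfield κ) (hperf : ∀ a ∈ κc, ∃ b : κ, a = b ^ p) (t zb : κ)
    (M : κ[X]) (hMc : ∀ i, M.coeff i ∈ Subfield.closure ((κc : Set κ) ∪ {t}))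
    (hMz : eval zb M = 0) (hM' : eval zb (derivative M) ≠ 0)
    (hgen : Subfield.closure ((κc : Set κ) ∪ {t, zb}) = ⊤) (f : κ) : Rep p t f := by
  have h1 : Subfield.closure ((κc : Set κ) ∪ {t}) ≤ repField (p := p) t := by
    rw [Subfield.closure_le]
    rintro x (hx | hx)
    · obtain ⟨b, rfl⟩ := hperf x hx
      exact rep_pow t b
    · rw [Set.mem_singleton_iff] at hx
      subst hx
      have := rep_mono (p := p) x 1 1
      rw [one_pow, one_mul, pow_one] at this
      exact this
  have h2 : zb ∈ repField (p := p) t :=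
    mem_of_separable_pow (p := p) _ zb M (fun i => h1 (hMc i)) hMz hM' (rep_pow t zb)
  have h3 : Subfield.closure ((κc : Set κ) ∪ {t, zb}) ≤ repField (p := p) t := by
    rw [Subfield.closure_le]
    rintro x (hx | hx)
    · exact h1 (Subfield.subset_closure (Or.inl hx))
    · rcases hx with rfl | hx
      · exact h1 (Subfield.subset_closure (Or.inr rfl))
      · rw [Set.mem_singleton_iff] at hx
        rw [hx]; exact h2
  have h4 : f ∈ Subfield.closure ((κc : Set κ) ∪ {t, zb}) := by rw [hgen]; trivial
  exact h3 h4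

end Span

theorem exists_delta {κ : Type*} [Field κ] {p : ℕ} [hp : Fact p.Prime] (Δ : Derivation ℤ κ κ)
    [Algebra (ZMod p) κ] :
    ∃ δ : Derivation (ZMod p) κ κ, ∀ x, δ x = Δ x :=
  ⟨Derivation.mk' (AddMonoidHom.toZModLinearMap p (Δ : κ →+ κ)) (fun a b => Δ.leibniz a b),
    fun _ => rfl⟩

section Car

variable {κ : Type*} [Field κ] {p : ℕ} [hp : Fact p.Prime] [CharP κ p]
  (Δ : Derivation ℤ κ κ) {t : κ} (ht : Δ t = 1) (hspan : ∀ f : κ, Rep p t f)
  (CO : κ → κ) (hCO : ∀ y : ℕ → κ, CO (∑ i ∈ range p, y i ^ p * t ^ i) = y (p - 1))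

include hspan hCO

theorem car_add (a b : κ) : CO (a + b) = CO a + CO b := by
  obtain ⟨f, rfl⟩ := hspan a
  obtain ⟨g, rfl⟩ := hspan b
  rw [hCO, hCO, ← hCO (fun i => f i + g i)]
  congr 1
  rw [← sum_add_distrib]
  exact sum_congr rfl fun i _ => by rw [add_pow_char, add_mul]

theorem car_pow (y f : κ) : CO (y ^ p * f) = y * CO f := by
  obtain ⟨g, rfl⟩ := hspan f
  rw [hCO, ← hCO (fun i => y * g i)]
  congr 1
  rw [mul_sum]
  exact sum_congr rfl fun i _ => by rw [mul_pow, mul_assoc]



omit hCO in
include ht in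
theorem exists_pow_of_delta (f : κ) (hf : Δ f = 0) : ∃ g : κ, f = g ^ p := by
  let _ : Algebra (ZMod p) κ := ZMod.algebra κ p
  obtain ⟨δ, hδ⟩ := exists_delta (p := p) Δ
  exact CntP2_127.exists_pow_of_del_eq_zero p δ (x := t) (by rw [hδ, ht]) hspan (by rw [hδ, hf])

include ht

/-- `(CO f)^p = - Δ^(p-1) f` -/
theorem car_pow_eq (f : κ) : CO f ^ p = - Δ^[p - 1] f := by
  let _ : Algebra (ZMod p) κ := ZMod.algebra κ p
  obtain ⟨δ, hδ⟩ := exists_delta (p := p) Δ
  have hit : ∀ n x, δ^[n] x = Δ^[n] x := by
    intro n x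
    have : (δ : κ → κ) = Δ := funext hδ
    rw [this]
  obtain ⟨y, rfl⟩ := hspan f
  rw [hCO, ← hit, CntP2_127.iter_sum]
  have hx : δ t = 1 := by rw [hδ, ht]
  have hp1 : p - 1 + 1 = p := Nat.sub_add_cancel hp.out.pos
  have hr : range p = range (p - 1 + 1) := by rw [hp1]
  rw [hr, sum_range_succ, sum_eq_zero, zero_add, CntP2_127.iter_pow_mul,
    CntP2_127.iter_x_pow δ hx, Nat.descFactorial_self, Nat.sub_self, pow_zero, mul_one]
  · have hw : (((p - 1).factorial : ℕ) : κ) = -1 := by
      have := ZMod.wilsons_lemma p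
      have h6 := congrArg (ZMod.castHom (dvd_refl p) κ) this
      rw [map_natCast, map_neg, map_one] at h6
      exact h6
    rw [hw]
    ring
  · intro i hi
    rw [mem_range] at hi
    rw [CntP2_127.iter_pow_mul, CntP2_127.iter_x_pow δ hx, Nat.descFactorial_of_lt hi]
    simp

theorem car_exact (f : κ) : CO (Δ f) = 0 := by
  let _ : Algebra (ZMod p) κ := ZMod.algebra κ p
  obtain ⟨δ, hδ⟩ := exists_delta (p := p) Δ
  have hp1 : p - 1 + 1 = p := Nat.sub_add_cancel hp.out.pos
  have h1 := car_pow_eq Δ ht hspan CO hCO (Δ f)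
  have h2 : Δ^[p - 1] (Δ f) = 0 := by
    rw [← Function.iterate_succ_apply, Nat.succ_eq_add_one, hp1]
    have h3 := CntP2_127.iter_p p δ (x := t) (by rw [hδ, ht]) hspan f
    have : (δ : κ → κ) = Δ := funext hδ
    rwa [this] at h3
  rw [h2, neg_zero] at h1
  exact pow_eq_zero_iff hp.out.ne_zero |>.mp h1

theorem car_log (f : κ) : CO (f ^ (p - 1) * Δ f) = Δ f := by
  let _ : Algebra (ZMod p) κ := ZMod.algebra κ p
  obtain ⟨δ, hδ⟩ := exists_delta (p := p) Δ
  have h1 := car_pow_eq Δ ht hspan CO hCO (f ^ (p - 1) * Δ f)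
  have h3 := CntP2_127.cartier p δ (x := t) (by rw [hδ, ht]) hspan f
  have h4 : (δ : κ → κ) = Δ := funext hδ
  rw [h4] at h3
  rw [h3, neg_neg] at h1
  exact frobenius_inj κ p (by rw [frobenius_def, frobenius_def, h1])

end Car

end Crest.Agent.R013.CartC_359
end

-- ▼ part R013/Chart1_359
section
/-
ROW 13, leaf CHART (helper359), file 1: etale charts, abstract part.

F a field, K = F(z), v a valuation on K.  IsChart F v z : the minimal polynomial M of z over F has v-integral coefficients
and v (M'(z)) = 1.  Then the valuation ring of v is the localisation of O[z] at the centre of v (O = v-integers of F),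
-/
set_option autoImplicit false
set_option linter.unusedSectionVars false

namespace Crest.Agent.R013.Chart_359

open Polynomial





section main

variable {O F K Γ₀ : Type*} [CommRing O] [IsDomain O] [IsIntegrallyClosed O] [Field F] [Algebra O F]
  [IsFractionRing O F] [Field K] [Algebra F K] [Algebra O K] [IsScalarTower O F K]
  [LinearOrderedCommGroupWithZero Γ₀]


variable (O F) in
/-- An etale chart of the valuation `v` : `K = F(z)`, `z` integral over `O` with minimal polynomial `M`, `v (M'(z)) = 1`;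
`O` = the `v`-integers of `F`. -/
structure IsChart (v : Valuation K Γ₀) (z : K) : Prop where
  hv : ∀ x : F, v (algebraMap F K x) ≤ 1 ↔ ∃ a : O, algebraMap O F a = x
  gen : Algebra.adjoin F {z} = ⊤
  int : IsIntegral O z
  unit : v (aeval z (derivative (minpoly F z))) = 1

namespace IsChart

variable {v : Valuation K Γ₀} {z : K} (h : IsChart O F v z)

include h

theorem v_le (a : O) : v (algebraMap O K a) ≤ 1 := by
  rw [IsScalarTower.algebraMap_apply O F K]
  exact (h.hv _).mpr ⟨a, rfl⟩

theorem intF : IsIntegral F z := h.int.tower_top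



theorem finiteDimensional : FiniteDimensional F K := by
  have h1 : Module.Finite F (Algebra.adjoin F {z}) := 
    Algebra.finite_adjoin_simple_of_isIntegral h.intF
  rw [h.gen] at h1
  exact Module.Finite.equiv (Subalgebra.topEquiv (R := F) (A := K)).toLinearEquiv





/-- value at most one for elements of `O[z]`. -/
theorem v_aeval_le (P : O[X]) : v (aeval z P) ≤ 1 := by
  have hle : Algebra.adjoin O {z} ≤ integralClosure O K := by
    rw [Algebra.adjoin_le_iff, Set.singleton_subset_iff]
    exact h.int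
  have h1 : IsIntegral O (aeval z P) := by
    apply hle
    rw [Algebra.adjoin_singleton_eq_range_aeval]
    exact ⟨P, rfl⟩
  obtain ⟨q, hq, hq0⟩ := h1
  by_contra hcon
  rw [not_le] at hcon
  have h2 : aeval z P ∈ v.valuationSubring := by
    have h3 : IsIntegral v.valuationSubring (aeval z P) := by
      let g : O →+* v.valuationSubring := (algebraMap O K).codRestrict v.valuationSubring
        (fun a => (Valuation.mem_valuationSubring_iff v _).mpr (h.v_le a))
      refine ⟨q.map g, hq.map g, ?_⟩
      rw [eval₂_map]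
      exact hq0
    obtain ⟨y, hy⟩ := (IsIntegrallyClosed.isIntegral_iff (R := v.valuationSubring) (K := K)).mp h3
    rw [← hy]
    exact y.2
  exact absurd ((Valuation.mem_valuationSubring_iff v _).mp h2) (not_le.mpr hcon)

theorem v_z_le : v z ≤ 1 := by
  have := h.v_aeval_le X
  rwa [aeval_X] at this





end IsChart

end main

end Crest.Agent.R013.Chart_359
end

-- ▼ part R013/Chart2_359
section
/-
ROW 13, leaf CHART (helper359), file 2: charts from a monic polynomial with unit derivative; canonical `O`.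
-/
set_option autoImplicit false
set_option linter.unusedSectionVars false

namespace Crest.Agent.R013.Chart_359

open Polynomial

section mk

variable {F K Γ₀ : Type*} [Field F] [Field K] [Algebra F K] [LinearOrderedCommGroupWithZero Γ₀]

/-- the `v`-integers of the subfield `F`. -/
abbrev OF (F : Type*) {K Γ₀ : Type*} [Field F] [Field K] [Algebra F K]
    [LinearOrderedCommGroupWithZero Γ₀] (v : Valuation K Γ₀) : ValuationSubring F :=
  (v.comap (algebraMap F K)).valuationSubring


theorem v_OF_le (v : Valuation K Γ₀) (a : OF F v) : v (algebraMap (OF F v) K a) ≤ 1 := a.2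

theorem v_integral_le (v : Valuation K Γ₀) {x : K} (hx : IsIntegral (OF F v) x) : v x ≤ 1 := by
  obtain ⟨q, hq, hq0⟩ := hx
  have h2 : x ∈ v.valuationSubring := by
    have h3 : IsIntegral v.valuationSubring x := by
      let g : OF F v →+* v.valuationSubring := (algebraMap (OF F v) K).codRestrict v.valuationSubring
        (fun a => (Valuation.mem_valuationSubring_iff v _).mpr (v_OF_le v a))
      refine ⟨q.map g, hq.map g, ?_⟩
      rw [eval₂_map]
      exact hq0
    obtain ⟨y, hy⟩ := (IsIntegrallyClosed.isIntegral_iff (R := v.valuationSubring) (K := K)).mp h3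
    rw [← hy]
    exact y.2
  exact (Valuation.mem_valuationSubring_iff v _).mp h2

/-- A chart from ANY monic polynomial with `v`-integral coefficients, root `z` and `v (M'(z)) = 1`. -/
theorem isChart_of_monic (v : Valuation K Γ₀) (z : K) (hgen : Algebra.adjoin F {z} = ⊤)
    (M : F[X]) (hM : M.Monic) (hMc : ∀ i, v (algebraMap F K (M.coeff i)) ≤ 1)
    (hMz : aeval z M = 0) (hM' : v (aeval z (derivative M)) = 1) :
    IsChart (OF F v) F v z := by
  have hl : M ∈ Polynomial.lifts (algebraMap (OF F v) F) := by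
    rw [Polynomial.lifts_iff_coeff_lifts]
    intro i
    exact ⟨⟨M.coeff i, hMc i⟩, rfl⟩
  obtain ⟨N, hN, -, hNm⟩ := Polynomial.lifts_and_natDegree_eq_and_monic hl hM
  have hNz : aeval z N = 0 := by
    rw [← hN, aeval_map_algebraMap] at hMz
    exact hMz
  have hN' : v (aeval z (derivative N)) = 1 := by
    rw [← hN, derivative_map, aeval_map_algebraMap] at hM'
    exact hM'
  have hint : IsIntegral (OF F v) z := ⟨N, hNm, hNz⟩
  obtain ⟨q, hq⟩ := minpoly.isIntegrallyClosed_dvd hint hNz
  have hle : ∀ P : (OF F v)[X], v (aeval z P) ≤ 1 := by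
    intro P
    apply v_integral_le (F := F) v
    have hle : Algebra.adjoin (OF F v) {z} ≤ integralClosure (OF F v) K := by
      rw [Algebra.adjoin_le_iff, Set.singleton_subset_iff]
      exact hint
    apply hle
    rw [Algebra.adjoin_singleton_eq_range_aeval]
    exact ⟨P, rfl⟩
  refine ⟨?_, hgen, hint, ?_⟩
  · intro x
    constructor
    · intro hx
      exact ⟨⟨x, hx⟩, rfl⟩
    · rintro ⟨a, rfl⟩
      exact a.2
  · have h1 : aeval z (derivative (minpoly (OF F v) z)) = aeval z (derivative (minpoly F z)) := by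
      rw [minpoly.isIntegrallyClosed_eq_field_fractions' F hint, derivative_map, aeval_map_algebraMap]
    rw [← h1]
    have h2 : aeval z (derivative N) = aeval z (derivative (minpoly (OF F v) z)) * aeval z q := by
      conv_lhs => rw [hq]
      rw [derivative_mul, map_add, map_mul, map_mul, minpoly.aeval, zero_mul, add_zero]
    rw [h2, map_mul] at hN'
    exact le_antisymm (hle _) (hN' ▸ mul_le_of_le_one_right' (hle q))

end mk

end Crest.Agent.R013.Chart_359
end

-- ▼ part R013/CartC2_359
/-
ROW 13, leaf CARTC (helper359), file 2: levels.  K a field with a valuation v, L a subfield of constants, T Gauss over L, z etale over L(T).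
-/
set_option autoImplicit false
set_option linter.unusedSectionVars false

namespace Crest.Agent.R013.CartC_359

open Polynomial Crest.Agent.R013.Chart_359

variable {K Γ₀ : Type*} [Field K] [LinearOrderedCommGroupWithZero Γ₀]

/-- `L` = subfield of constants, `T` has the Gauss property over `L`, `z` is a root of the monic polynomial `M` with `v`-integral
coefficients in `L(T)` and `v (M'(z)) = 1`. -/
structure Level (v : Valuation K Γ₀) (L : Subfield K) (T z : K) (M : K[X]) : Prop where
  T_le : v T ≤ 1
  gauss : ∀ A : L[X], ∀ i, v (A.coeff i : K) ≤ v (aeval T A)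
  monic : M.Monic
  coeff_mem : ∀ i, M.coeff i ∈ Subfield.closure ((L : Set K) ∪ {T})
  coeff_le : ∀ i, v (M.coeff i) ≤ 1
  root : eval z M = 0
  unit : v (eval z (derivative M)) = 1

/-- `L(T)` -/
abbrev FL (L : Subfield K) (T : K) : Subfield K := Subfield.closure ((L : Set K) ∪ {T})

/-- `L(T,z)` -/
abbrev KL (L : Subfield K) (T z : K) : Subfield K := Subfield.closure ((L : Set K) ∪ {T, z})







theorem mem_FL {L : Subfield K} {T x : K} (hx : x ∈ FL L T) :
    ∃ A B : L[X], aeval T B ≠ 0 ∧ x = aeval T A / aeval T B := by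
  induction hx using Subfield.closure_induction with
  | mem x hx =>
    rcases hx with hx | hx
    · exact ⟨C ⟨x, hx⟩, 1, by simp, by rw [aeval_C, map_one, div_one]; rfl⟩
    · rw [Set.mem_singleton_iff] at hx
      subst hx
      exact ⟨X, 1, by simp, by simp⟩
  | one => exact ⟨1, 1, by simp, by simp⟩
  | add x y _ _ hx hy =>
    obtain ⟨A, B, hB, rfl⟩ := hx
    obtain ⟨A', B', hB', rfl⟩ := hy
    refine ⟨A * B' + A' * B, B * B', by rw [map_mul]; exact mul_ne_zero hB hB', ?_⟩
    rw [map_add, map_mul, map_mul, map_mul, div_add_div _ _ hB hB']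
    ring_nf
  | neg x _ hx =>
    obtain ⟨A, B, hB, rfl⟩ := hx
    exact ⟨-A, B, hB, by rw [map_neg, neg_div]⟩
  | inv x _ hx =>
    obtain ⟨A, B, hB, rfl⟩ := hx
    by_cases hA : aeval T A = 0
    · exact ⟨0, 1, by simp, by rw [hA]; simp⟩
    · exact ⟨B, A, hA, by rw [inv_div]⟩
  | mul x y _ _ hx hy =>
    obtain ⟨A, B, hB, rfl⟩ := hx
    obtain ⟨A', B', hB', rfl⟩ := hy
    exact ⟨A * A', B * B', by rw [map_mul]; exact mul_ne_zero hB hB',
      by rw [map_mul, map_mul, div_mul_div_comm]⟩

namespace Level

variable {v : Valuation K Γ₀} {L : Subfield K} {T z : K} {M : K[X]} (h : Level v L T z M)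

include h

theorem v_aeval_le (A : L[X]) {c : Γ₀} (hA : ∀ i, v (A.coeff i : K) ≤ c) : v (aeval T A) ≤ c := by
  rw [aeval_eq_sum_range]
  refine Valuation.map_sum_le v (fun i _ => ?_)
  rw [Algebra.smul_def, map_mul, map_pow]
  exact (mul_le_of_le_one_right' (pow_le_one' h.T_le i)).trans (hA i)

theorem v_aeval_eq (A : L[X]) (hA : A ≠ 0) : ∃ j, A.coeff j ≠ 0 ∧ v (aeval T A) = v (A.coeff j : K) ∧
    ∀ i, v (A.coeff i : K) ≤ v (A.coeff j : K) := by
  obtain ⟨j, hj, hmax⟩ := Finset.exists_max_image A.support (fun i => v (A.coeff i : K))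
    (by rwa [Polynomial.support_nonempty])
  have hle : ∀ i, v (A.coeff i : K) ≤ v (A.coeff j : K) := by
    intro i
    by_cases hi : i ∈ A.support
    · exact hmax i hi
    · rw [Polynomial.notMem_support_iff.mp hi]
      simp
  exact ⟨j, Polynomial.mem_support_iff.mp hj, le_antisymm (h.v_aeval_le A hle) (h.gauss A j), hle⟩

/-- normal form of elements of `L(T)` -/
theorem normal {x : K} (hx : x ∈ FL L T) :
    ∃ A B : L[X], (∀ i, v (B.coeff i : K) ≤ 1) ∧ v (aeval T B) = 1 ∧ x = aeval T A / aeval T B := by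
  obtain ⟨A, B, hB, rfl⟩ := mem_FL hx
  have hB0 : B ≠ 0 := by rintro rfl; simp at hB
  obtain ⟨j, hj, hvj, hle⟩ := h.v_aeval_eq B hB0
  have hjK : (B.coeff j : K) ≠ 0 := fun h0 => hj (Subtype.ext h0)
  have hvj0 : v (B.coeff j : K) ≠ 0 := (Valuation.ne_zero_iff v).mpr hjK
  refine ⟨C (B.coeff j)⁻¹ * A, C (B.coeff j)⁻¹ * B, ?_, ?_, ?_⟩
  · intro i
    rw [coeff_C_mul]
    have : (((B.coeff j)⁻¹ * B.coeff i : L) : K) = (B.coeff j : K)⁻¹ * (B.coeff i : K) := rfl
    rw [this, map_mul, map_inv₀, mul_comm, ← div_eq_mul_inv]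
    exact div_le_one_of_le₀ (hle i) zero_le
  · rw [map_mul, aeval_C, map_mul, hvj]
    have : v (algebraMap L K (B.coeff j)⁻¹) = (v (B.coeff j : K))⁻¹ := by
      rw [← map_inv₀]; rfl
    rw [this, inv_mul_cancel₀ hvj0]
  · rw [map_mul, map_mul, aeval_C]
    have : algebraMap L K (B.coeff j)⁻¹ ≠ 0 := by
      rw [ne_eq, map_eq_zero, inv_eq_zero]; exact hj
    rw [mul_div_mul_left _ _ this]


end Level


namespace Level

variable {v : Valuation K Γ₀} {L : Subfield K} {T z : K} {M : K[X]} (h : Level v L T z M)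

include h

/-- the chart at level `L` -/
theorem chart : IsChart (OF (FL L T) (v.comap (algebraMap (IntermediateField.adjoin (FL L T) {z}) K)))
    (FL L T) (v.comap (algebraMap (IntermediateField.adjoin (FL L T) {z}) K))
    (IntermediateField.AdjoinSimple.gen (FL L T) z) := by
  have hl : M ∈ Polynomial.lifts (algebraMap (FL L T) K) := by
    rw [Polynomial.lifts_iff_coeff_lifts]
    intro i
    exact ⟨⟨M.coeff i, h.coeff_mem i⟩, rfl⟩
  obtain ⟨N, hN, -, hNm⟩ := Polynomial.lifts_and_natDegree_eq_and_monic hl h.monic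
  have hgen : algebraMap (IntermediateField.adjoin (FL L T) {z}) K
      (IntermediateField.AdjoinSimple.gen (FL L T) z) = z :=
    IntermediateField.AdjoinSimple.algebraMap_gen _ _
  have hev : ∀ P : (FL L T)[X], algebraMap (IntermediateField.adjoin (FL L T) {z}) K
      (aeval (IntermediateField.AdjoinSimple.gen (FL L T) z) P) = eval z (P.map (algebraMap (FL L T) K)) := by
    intro P
    rw [← aeval_algebraMap_apply, hgen, aeval_def, eval_map]
  have hNz : aeval (IntermediateField.AdjoinSimple.gen (FL L T) z) N = 0 := by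
    apply (algebraMap (IntermediateField.adjoin (FL L T) {z}) K).injective
    rw [hev, hN, h.root, map_zero]
  have hint : IsIntegral (FL L T) z := by
    refine ⟨N, hNm, ?_⟩
    rw [← eval_map, hN, h.root]
  refine isChart_of_monic _ _ ?_ N hNm ?_ hNz ?_
  · have h1 := (IntermediateField.adjoin.powerBasis hint).adjoin_gen_eq_top
    rwa [IntermediateField.adjoin.powerBasis_gen] at h1
  · intro i
    rw [Valuation.comap_apply]
    have : algebraMap (IntermediateField.adjoin (FL L T) {z}) K
        (algebraMap (FL L T) (IntermediateField.adjoin (FL L T) {z}) (N.coeff i)) = M.coeff i := by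
      rw [← IsScalarTower.algebraMap_apply, ← coeff_map, hN]
    rw [this]
    exact h.coeff_le i
  · rw [Valuation.comap_apply, hev, ← derivative_map, hN]
    exact h.unit




end Level

end Crest.Agent.R013.CartC_359
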