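import Mathlib

-- ▼ part R013/Cell1_408
section

/-! # R013 / Cell1_408 : Weierstrass preparation over a complete ultrametric field, and the ring
`BD k C` of bounded, finitely defined power series over `C = kbar` (bounded functions on the open
unit disc). -/

set_option autoImplicit false

noncomputable section

namespace Crest.Agent.R013.Cell_408

open Topology

/-! ## The unit ball of a complete ultrametric field -/

section Ball

variable (K : Type*) [NormedField K] [IsUltrametricDist K]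

/-- the closed unit ball as a subring -/
def Ob : Subring K where
  carrier := {x | ‖x‖ ≤ 1}
  mul_mem' {a b} ha hb := by
    change ‖_‖ ≤ 1
    rw [norm_mul]; exact mul_le_one₀ ha (norm_nonneg _) hb
  one_mem' := by simp
  add_mem' {a b} ha hb := (IsUltrametricDist.norm_add_le_max a b).trans (max_le ha hb)
  zero_mem' := by simp
  neg_mem' {a} ha := by simpa using ha

variable {K}

theorem mem_Ob {x : K} : x ∈ Ob K ↔ ‖x‖ ≤ 1 := Iff.rfl

theorem Ob_norm_le_one (a : Ob K) : ‖(a : K)‖ ≤ 1 := a.2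

/-- divisibility is detected by the norm -/
theorem dvd_iff {a b : Ob K} (hb : b ≠ 0) : b ∣ a ↔ ‖(a : K)‖ ≤ ‖(b : K)‖ := by
  have hb' : (b : K) ≠ 0 := fun h => hb (Subtype.ext h)
  constructor
  · rintro ⟨c, rfl⟩
    rw [Subring.coe_mul, norm_mul]
    calc ‖(b : K)‖ * ‖(c : K)‖ ≤ ‖(b : K)‖ * 1 :=
          mul_le_mul_of_nonneg_left (Ob_norm_le_one c) (norm_nonneg _)
      _ = ‖(b : K)‖ := mul_one _
  · intro h
    refine ⟨⟨(a : K) / (b : K), ?_⟩, ?_⟩
    · rw [mem_Ob, norm_div]
      exact div_le_one_of_le₀ h (norm_nonneg _)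
    · apply Subtype.ext
      rw [Subring.coe_mul, mul_div_cancel₀ _ hb']

theorem mem_span_pow {ϖ : Ob K} (hϖ : ϖ ≠ 0) (a : Ob K) (k : ℕ) :
    a ∈ (Ideal.span {ϖ}) ^ k • (⊤ : Submodule (Ob K) (Ob K)) ↔ ‖(a : K)‖ ≤ ‖(ϖ : K)‖ ^ k := by
  rw [Ideal.smul_top_eq_map, Algebra.algebraMap_self, Ideal.map_id,
    Submodule.restrictScalars_self, Ideal.span_singleton_pow, Ideal.mem_span_singleton,
    dvd_iff (pow_ne_zero k hϖ), Subring.coe_pow, norm_pow]

/-- `Ob K` is complete for the `ϖ`-adic topology. -/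
theorem isAdicComplete_span [CompleteSpace K] (ϖ : Ob K) (hϖ : ‖(ϖ : K)‖ < 1) :
    IsAdicComplete (Ideal.span {ϖ}) (Ob K) := by
  rcases eq_or_ne ϖ 0 with h0 | h0
  · rw [h0, Ideal.span_singleton_zero]; infer_instance
  · have hpow : Filter.Tendsto (fun k : ℕ => ‖(ϖ : K)‖ ^ k) Filter.atTop (𝓝 0) :=
      tendsto_pow_atTop_nhds_zero_of_lt_one (norm_nonneg _) hϖ
    refine { haus' := fun x hx => ?_, prec' := fun f hf => ?_ }
    · have h1 : ∀ k : ℕ, ‖(x : K)‖ ≤ ‖(ϖ : K)‖ ^ k := by
        intro k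
        have := hx k
        rw [SModEq.zero, mem_span_pow h0] at this
        exact this
      have h2 : ‖(x : K)‖ ≤ 0 := ge_of_tendsto' hpow h1
      exact Subtype.ext (norm_le_zero_iff.1 h2)
    · have h1 : ∀ k l : ℕ, k ≤ l → ‖(f k : K) - (f l : K)‖ ≤ ‖(ϖ : K)‖ ^ k := by
        intro k l hkl
        have := hf hkl
        rw [SModEq.sub_mem, mem_span_pow h0] at this
        exact this
      have hc : CauchySeq (fun k => (f k : K)) := by
        refine cauchySeq_of_le_tendsto_0 (fun k => ‖(ϖ : K)‖ ^ k) (fun a b N ha hb => ?_) hpow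
        rw [dist_eq_norm]
        have e : (f a : K) - f b = -((f N : K) - f a) + ((f N : K) - f b) := by ring
        rw [e]
        refine (IsUltrametricDist.norm_add_le_max _ _).trans (max_le ?_ (h1 N b hb))
        rw [norm_neg]
        exact h1 N a ha
      obtain ⟨L, hL⟩ := cauchySeq_tendsto_of_complete hc
      have hLle : ‖L‖ ≤ 1 := le_of_tendsto hL.norm (Filter.Eventually.of_forall fun k => (f k).2)
      refine ⟨⟨L, hLle⟩, fun k => ?_⟩
      rw [SModEq.sub_mem, mem_span_pow h0]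
      have h2 : Filter.Tendsto (fun l => ‖(f k : K) - f l‖) Filter.atTop (𝓝 ‖(f k : K) - L‖) :=
        (tendsto_const_nhds.sub hL).norm
      exact le_of_tendsto h2 (Filter.eventually_atTop.2 ⟨k, fun l hl => h1 k l hl⟩)

/-- an element bounding finitely many elements of norm `< 1` -/
theorem exists_bound (hK : ∃ x : K, 0 < ‖x‖ ∧ ‖x‖ < 1) (m0 : ℕ) (c : ℕ → Ob K)
    (hlt : ∀ m < m0, ‖(c m : K)‖ < 1) :
    ∃ ϖ : Ob K, ϖ ≠ 0 ∧ ‖(ϖ : K)‖ < 1 ∧ ∀ m < m0, ‖(c m : K)‖ ≤ ‖(ϖ : K)‖ := by
  induction m0 with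
  | zero =>
    obtain ⟨x, hx0, hx1⟩ := hK
    exact ⟨⟨x, hx1.le⟩, fun h => by
      have := congrArg Subtype.val h
      simp only [ZeroMemClass.coe_zero] at this
      rw [this, norm_zero] at hx0
      exact lt_irrefl _ hx0, hx1, fun m hm => absurd hm (Nat.not_lt_zero m)⟩
  | succ k ih =>
    obtain ⟨ϖ, h0, h1, h2⟩ := ih fun m hm => hlt m (Nat.lt_succ_of_lt hm)
    rcases le_total ‖(c k : K)‖ ‖(ϖ : K)‖ with h | h
    · refine ⟨ϖ, h0, h1, fun m hm => ?_⟩
      rcases Nat.lt_succ_iff_lt_or_eq.1 hm with h3 | h3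
      · exact h2 m h3
      · rw [h3]; exact h
    · refine ⟨c k, ?_, hlt k (Nat.lt_succ_self k), fun m hm => ?_⟩
      · intro h3
        rw [h3] at h
        have h4 : ‖(ϖ : K)‖ ≤ 0 := by simpa using h
        exact h0 (Subtype.ext (norm_le_zero_iff.1 h4))
      · rcases Nat.lt_succ_iff_lt_or_eq.1 hm with h3 | h3
        · exact (h2 m h3).trans h
        · rw [h3]

theorem Ob_isUnit_iff {a : Ob K} : IsUnit a ↔ ‖(a : K)‖ = 1 := by
  constructor
  · rintro ⟨u, rfl⟩
    have h1 : ‖((u : Ob K) : K)‖ * ‖((↑u⁻¹ : Ob K) : K)‖ = 1 := by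
      rw [← norm_mul, ← Subring.coe_mul, Units.mul_inv, Subring.coe_one, norm_one]
    have h2 := Ob_norm_le_one (u : Ob K)
    have h3 := Ob_norm_le_one (↑u⁻¹ : Ob K)
    nlinarith [norm_nonneg ((u : Ob K) : K), norm_nonneg ((↑u⁻¹ : Ob K) : K)]
  · intro h
    have h0 : a ≠ 0 := by
      rintro rfl
      simp at h
    have h1 : (1 : Ob K) ≠ 0 := one_ne_zero
    exact isUnit_of_dvd_one ((dvd_iff h0).2 (by simp [h]))

/-- Weierstrass preparation over the unit ball. -/
theorem exists_weierstrass [CompleteSpace K] (hK : ∃ x : K, 0 < ‖x‖ ∧ ‖x‖ < 1)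
    (g : PowerSeries (Ob K)) (m0 : ℕ)
    (hlt : ∀ m < m0, ‖((PowerSeries.coeff m g : Ob K) : K)‖ < 1)
    (hm0 : ‖((PowerSeries.coeff m0 g : Ob K) : K)‖ = 1) :
    ∃ (q : PowerSeries (Ob K)) (P : Polynomial (Ob K)), IsUnit q ∧ P.Monic ∧ P.natDegree = m0 ∧
      (∀ m < m0, ‖((P.coeff m : Ob K) : K)‖ < 1) ∧ g = q * (P : PowerSeries (Ob K)) := by
  obtain ⟨ϖ, h0, h1, h2⟩ := exists_bound hK m0 (fun m => PowerSeries.coeff m g) hlt
  have hI : ∀ a : Ob K, a ∈ Ideal.span {ϖ} ↔ ‖(a : K)‖ ≤ ‖(ϖ : K)‖ := fun a => by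
    rw [Ideal.mem_span_singleton, dvd_iff h0]
  have := isAdicComplete_span ϖ h1
  set I : Ideal (Ob K) := Ideal.span {ϖ} with hIdef
  have hord : (g.map (Ideal.Quotient.mk I)).order = (m0 : ℕ∞) := by
    rw [PowerSeries.order_eq_nat]
    constructor
    · rw [PowerSeries.coeff_map, Ne, Ideal.Quotient.eq_zero_iff_mem, hI, hm0]
      exact not_le.2 h1
    · intro i hi
      rw [PowerSeries.coeff_map, Ideal.Quotient.eq_zero_iff_mem, hI]
      exact h2 i hi
  have hto : (g.map (Ideal.Quotient.mk I)).order.toNat = m0 := by rw [hord]; rfl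
  have hW : PowerSeries.IsWeierstrassDivisorAt g I := by
    unfold PowerSeries.IsWeierstrassDivisorAt
    rw [hto, Ob_isUnit_iff]
    exact hm0
  have hdiv := hW.isWeierstrassDivisionAt_div_mod (PowerSeries.X ^ m0)
  set q := hW.div (PowerSeries.X ^ m0)
  set r := hW.mod (PowerSeries.X ^ m0)
  have hdeg : r.degree < m0 := by
    have := hdiv.degree_lt
    rwa [hto] at this
  have heq : (PowerSeries.X ^ m0 : PowerSeries (Ob K)) = g * q + (r : PowerSeries (Ob K)) :=
    hdiv.eq_mul_add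
  have hrI : ∀ i < m0, ‖((r.coeff i : Ob K) : K)‖ ≤ ‖(ϖ : K)‖ := by
    intro i hi
    have := hdiv.coeff_f_sub_r_mem (i := i) (by rw [hto]; exact hi)
    rw [hI, map_sub, PowerSeries.coeff_X_pow, if_neg hi.ne, zero_sub, Subring.coe_neg, norm_neg,
      Polynomial.coeff_coe] at this
    exact this
  have hrm0 : r.coeff m0 = 0 := Polynomial.coeff_eq_zero_of_degree_lt hdeg
  -- q is a unit
  have hq : IsUnit q := by
    rw [PowerSeries.isUnit_iff_constantCoeff, Ob_isUnit_iff]
    have h3 := congrArg (PowerSeries.coeff m0) heq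
    rw [PowerSeries.coeff_X_pow, if_pos rfl, map_add, Polynomial.coeff_coe, hrm0, add_zero,
      PowerSeries.coeff_mul, Finset.Nat.sum_antidiagonal_eq_sum_range_succ
        (fun i j => PowerSeries.coeff i g * PowerSeries.coeff j q),
      Finset.sum_range_succ, Nat.sub_self] at h3
    set S : Ob K := ∑ i ∈ Finset.range m0, PowerSeries.coeff i g * PowerSeries.coeff (m0 - i) q
      with hS
    have h4 : ‖(S : K)‖ ≤ ‖(ϖ : K)‖ := by
      rw [hS, AddSubmonoidClass.coe_finsetSum]
      refine IsUltrametricDist.norm_sum_le_of_forall_le_of_nonneg (norm_nonneg _) fun i hi => ?_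
      rw [Subring.coe_mul, norm_mul]
      calc _ ≤ ‖(ϖ : K)‖ * 1 :=
            mul_le_mul (h2 i (Finset.mem_range.1 hi)) (Ob_norm_le_one _) (norm_nonneg _)
              (norm_nonneg _)
        _ = ‖(ϖ : K)‖ := mul_one _
    have h5 : ‖((PowerSeries.coeff m0 g * PowerSeries.coeff 0 q : Ob K) : K)‖ = 1 := by
      have h6 : PowerSeries.coeff m0 g * PowerSeries.coeff 0 q = 1 - S := by
        rw [eq_sub_iff_add_eq, add_comm]; exact h3.symm
      rw [h6]
      refine le_antisymm (Ob_norm_le_one _) ?_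
      by_contra hlt'
      push Not at hlt'
      have h7 : (1 : K) = ((1 - S : Ob K) : K) + (S : K) := by
        rw [AddSubgroupClass.coe_sub, Subring.coe_one]; ring
      have h8 : ‖(1 : K)‖ < 1 := by
        conv_lhs => rw [h7]
        exact (IsUltrametricDist.norm_add_le_max _ _).trans_lt (max_lt hlt' (h4.trans_lt h1))
      rw [norm_one] at h8
      exact lt_irrefl _ h8
    rw [Subring.coe_mul, norm_mul, hm0, one_mul, PowerSeries.coeff_zero_eq_constantCoeff_apply] at h5
    exact h5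
  refine ⟨↑hq.unit⁻¹, Polynomial.X ^ m0 - r, Units.isUnit _, Polynomial.monic_X_pow_sub ?_, ?_,
    fun m hm => ?_, ?_⟩
  · exact hdeg
  · apply Polynomial.natDegree_eq_of_degree_eq_some
    rw [Polynomial.degree_sub_eq_left_of_degree_lt, Polynomial.degree_X_pow]
    rwa [Polynomial.degree_X_pow]
  · rw [Polynomial.coeff_sub, Polynomial.coeff_X_pow, if_neg hm.ne, zero_sub, Subring.coe_neg,
      norm_neg]
    exact (hrI m hm).trans_lt h1
  · have h3 : ((Polynomial.X ^ m0 - r : Polynomial (Ob K)) : PowerSeries (Ob K)) = g * q := by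
      rw [Polynomial.coe_sub, Polynomial.coe_pow, Polynomial.coe_X, heq]
      ring
    rw [h3, mul_comm g q, ← mul_assoc]
    rw [show (↑hq.unit⁻¹ : PowerSeries (Ob K)) * q = 1 from hq.val_inv_mul, one_mul]

end Ball

end Crest.Agent.R013.Cell_408
end
end

-- ▼ part R013/Cell2_408

/-! # R013 / Cell2_408 : finitely defined families, the ring `BD k C` of bounded finitely defined power
series over `C = kbar`, discrete norms, Weierstrass preparation in `BD`. -/

set_option autoImplicit false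
set_option linter.unusedSectionVars false
set_option linter.style.haveILetI false

noncomputable section

namespace Crest.Agent.R013.Cell_408

open Topology

section Fin

variable (k : Type*) {C : Type*} [NontriviallyNormedField k] [NormedField C]
  [NormedAlgebra k C]

/-- a family of elements of `C` that lies in one finite extension of `k` -/
def FinDef {ι : Type*} (a : ι → C) : Prop :=
  ∃ L : IntermediateField k C, FiniteDimensional k L ∧ ∀ i, a i ∈ L

variable {k}

theorem FinDef.mono {ι : Type*} {a : ι → C} {L : IntermediateField k C} (hL : FiniteDimensional k L)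
    (h : ∀ i, a i ∈ L) : FinDef k a := ⟨L, hL, h⟩

theorem FinDef.common {ι κ : Type*} {a : ι → C} {b : κ → C} (ha : FinDef k a) (hb : FinDef k b) :
    ∃ L : IntermediateField k C, FiniteDimensional k L ∧ (∀ i, a i ∈ L) ∧ ∀ i, b i ∈ L := by
  obtain ⟨L, hL, h1⟩ := ha
  obtain ⟨M, hM, h2⟩ := hb
  refine ⟨L ⊔ M, IntermediateField.finiteDimensional_sup L M, fun i => ?_, fun i => ?_⟩
  · exact (le_sup_left : L ≤ L ⊔ M) (h1 i)
  · exact (le_sup_right : M ≤ L ⊔ M) (h2 i)

theorem finDef_const [Algebra.IsAlgebraic k C] {ι : Type*} (c : C) : FinDef k (fun _ : ι => c) := by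
  refine ⟨IntermediateField.adjoin k {c}, ?_, fun _ => IntermediateField.mem_adjoin_simple_self k c⟩
  exact IntermediateField.adjoin.finiteDimensional (Algebra.IsAlgebraic.isAlgebraic c).isIntegral

theorem finDef_finite [Algebra.IsAlgebraic k C] {ι : Type*} [Finite ι] (a : ι → C) : FinDef k a := by
  refine ⟨IntermediateField.adjoin k (Set.range a), ?_, fun i =>
    IntermediateField.subset_adjoin k _ ⟨i, rfl⟩⟩
  exact IntermediateField.finiteDimensional_adjoin
    fun x _ => (Algebra.IsAlgebraic.isAlgebraic x).isIntegral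

theorem FinDef.comp {ι κ : Type*} {a : ι → C} (h : FinDef k a) (f : κ → ι) :
    FinDef k (fun i => a (f i)) := by
  obtain ⟨L, hL, h1⟩ := h
  exact ⟨L, hL, fun i => h1 _⟩

end Fin

section BD

variable (k C : Type*) [NontriviallyNormedField k] [NormedField C] [IsUltrametricDist C]
  [NormedAlgebra k C] [Algebra.IsAlgebraic k C]

/-- bounded finitely defined power series -/
def BD : Subalgebra C (PowerSeries C) where
  carrier := {f | FinDef k (fun n => PowerSeries.coeff n f) ∧ ∃ M : ℝ, ∀ n, ‖PowerSeries.coeff n f‖ ≤ M}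
  mul_mem' {f g} hf hg := by
    obtain ⟨hf1, M, hf2⟩ := hf
    obtain ⟨hg1, N, hg2⟩ := hg
    obtain ⟨L, hL, h1, h2⟩ := hf1.common hg1
    refine ⟨⟨L, hL, fun n => ?_⟩, M * N, fun n => ?_⟩
    · dsimp only
      rw [PowerSeries.coeff_mul]
      exact sum_mem fun p _ => mul_mem (h1 _) (h2 _)
    · rw [PowerSeries.coeff_mul]
      have hM : 0 ≤ M := (norm_nonneg _).trans (hf2 0)
      have hN : 0 ≤ N := (norm_nonneg _).trans (hg2 0)
      refine IsUltrametricDist.norm_sum_le_of_forall_le_of_nonneg (mul_nonneg hM hN) fun p _ => ?_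
      rw [norm_mul]
      exact mul_le_mul (hf2 _) (hg2 _) (norm_nonneg _) hM
  add_mem' {f g} hf hg := by
    obtain ⟨hf1, M, hf2⟩ := hf
    obtain ⟨hg1, N, hg2⟩ := hg
    obtain ⟨L, hL, h1, h2⟩ := hf1.common hg1
    refine ⟨⟨L, hL, fun n => ?_⟩, max M N, fun n => ?_⟩
    · dsimp only
      rw [map_add]; exact add_mem (h1 n) (h2 n)
    · rw [map_add]
      exact (IsUltrametricDist.norm_add_le_max _ _).trans (max_le_max (hf2 n) (hg2 n))
  algebraMap_mem' c := by
    obtain ⟨L, hL, h1⟩ := finDef_const (k := k) (ι := Unit) c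
    refine ⟨⟨L, hL, fun n => ?_⟩, ‖c‖, fun n => ?_⟩
    · dsimp only
      rw [PowerSeries.algebraMap_apply, Algebra.algebraMap_self, RingHom.id_apply,
        PowerSeries.coeff_C]
      split_ifs
      · exact h1 ()
      · exact zero_mem L
    · rw [PowerSeries.algebraMap_apply, Algebra.algebraMap_self, RingHom.id_apply,
        PowerSeries.coeff_C]
      split_ifs <;> simp

variable {k C}

theorem mem_BD {f : PowerSeries C} : f ∈ BD k C ↔
    FinDef k (fun n => PowerSeries.coeff n f) ∧ ∃ M : ℝ, ∀ n, ‖PowerSeries.coeff n f‖ ≤ M := Iff.rfl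

theorem C_mem_BD (c : C) : (PowerSeries.C c : PowerSeries C) ∈ BD k C :=
  (BD k C).algebraMap_mem c

theorem X_mem_BD : (PowerSeries.X : PowerSeries C) ∈ BD k C := by
  refine ⟨⟨⊥, inferInstance, fun n => ?_⟩, 1, fun n => ?_⟩
  · dsimp only
    rw [PowerSeries.coeff_X]; split_ifs
    · exact one_mem _
    · exact zero_mem _
  · rw [PowerSeries.coeff_X]; split_ifs <;> simp

theorem coe_mem_BD (P : Polynomial C) : (P : PowerSeries C) ∈ BD k C := by
  induction P using Polynomial.induction_on' with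
  | add p q hp hq => rw [Polynomial.coe_add]; exact add_mem hp hq
  | monomial n c =>
    rw [← Polynomial.C_mul_X_pow_eq_monomial, Polynomial.coe_mul, Polynomial.coe_pow,
      Polynomial.coe_C, Polynomial.coe_X]
    exact mul_mem (C_mem_BD c) (pow_mem X_mem_BD n)

end BD

section Disc

variable (k : Type*) [NontriviallyNormedField k]

/-- the value group of `k` is discrete -/
def DiscNorm : Prop :=
  ∃ ϖ : k, 0 < ‖ϖ‖ ∧ ‖ϖ‖ < 1 ∧ ∀ x : k, x ≠ 0 → ∃ n : ℤ, ‖x‖ = ‖ϖ‖ ^ n

variable {k}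
variable {C : Type*} [CompleteSpace k] [IsUltrametricDist k] [NormedField C]
  [NormedAlgebra k C] [Algebra.IsAlgebraic k C] [IsAlgClosed C]

theorem norm_pow_natDegree (x : C) : ∃ y : k, ‖x‖ ^ (minpoly k x).natDegree = ‖y‖ := by
  have hint : IsIntegral k x := (Algebra.IsAlgebraic.isAlgebraic x).isIntegral
  refine ⟨(minpoly k x).coeff 0, ?_⟩
  have hsp : ((minpoly k x).map (algebraMap k C)).Splits := IsAlgClosed.splits _
  have hmon : ((minpoly k x).map (algebraMap k C)).Monic := (minpoly.monic hint).map _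
  have h1 := hsp.coeff_zero_eq_prod_roots_of_monic hmon
  have h2 : ‖(minpoly k x).coeff 0‖ = ‖((minpoly k x).map (algebraMap k C)).roots.prod‖ := by
    rw [← norm_algebraMap' C ((minpoly k x).coeff 0), ← Polynomial.coeff_map, h1, norm_mul, norm_pow,
      norm_neg, norm_one, one_pow, one_mul]
  have h3 : ∀ y ∈ ((minpoly k x).map (algebraMap k C)).roots, ‖y‖ = ‖x‖ := by
    intro y hy
    have hy1 : Polynomial.aeval y (minpoly k x) = 0 := by
      have := (Polynomial.mem_roots'.1 hy).2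
      rwa [Polynomial.IsRoot.def, Polynomial.eval_map_algebraMap] at this
    have hy2 : minpoly k y = minpoly k x :=
      (minpoly.eq_of_irreducible_of_monic (minpoly.irreducible hint) hy1 (minpoly.monic hint)).symm
    rw [NormedAlgebra.norm_eq_spectralNorm k y, NormedAlgebra.norm_eq_spectralNorm k x,
      spectralNorm, spectralNorm, hy2]
  have h4 : ‖((minpoly k x).map (algebraMap k C)).roots.prod‖ =
      (((minpoly k x).map (algebraMap k C)).roots.map (fun y => ‖y‖)).prod := by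
    have := map_multiset_prod (normHom : C →*₀ ℝ) ((minpoly k x).map (algebraMap k C)).roots
    simpa using this
  rw [h2, h4, Multiset.map_congr rfl h3, Multiset.map_const', Multiset.prod_replicate]
  congr 1
  rw [← hsp.natDegree_eq_card_roots, (minpoly.monic hint).natDegree_map]

/-- the values on a finite extension lie, after raising to a fixed power, in the value group of `k` -/
theorem exists_zpow_of_mem (hk : DiscNorm k) (L : IntermediateField k C) [FiniteDimensional k L] :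
    ∃ (ρ : ℝ) (N : ℕ), 0 < ρ ∧ ρ < 1 ∧ 0 < N ∧ ∀ x ∈ L, x ≠ 0 → ∃ n : ℤ, ‖x‖ ^ N = ρ ^ n := by
  obtain ⟨ϖ, h0, h1, h2⟩ := hk
  refine ⟨‖ϖ‖, (Module.finrank k L).factorial, h0, h1, Nat.factorial_pos _, fun x hx hx0 => ?_⟩
  have hint : IsIntegral k x := (Algebra.IsAlgebraic.isAlgebraic x).isIntegral
  have hd : (minpoly k x).natDegree ≤ Module.finrank k L := by
    have h3 := minpoly.natDegree_le (A := k) (⟨x, hx⟩ : L)
    rwa [← IntermediateField.minpoly_eq (⟨x, hx⟩ : L)]
  have hd0 : 0 < (minpoly k x).natDegree := minpoly.natDegree_pos hint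
  obtain ⟨y, hy⟩ := norm_pow_natDegree (k := k) x
  have hy0 : y ≠ 0 := by
    rintro rfl
    rw [norm_zero] at hy
    exact hx0 (norm_eq_zero.1 (pow_eq_zero_iff (n := (minpoly k x).natDegree) hd0.ne' |>.1 hy))
  obtain ⟨n, hn⟩ := h2 y hy0
  obtain ⟨e, he⟩ := Nat.dvd_factorial hd0 hd
  refine ⟨n * e, ?_⟩
  rw [he, pow_mul, hy, hn, zpow_mul, zpow_natCast]

/-- a bounded finitely defined family attains its maximal norm -/
theorem exists_max (hk : DiscNorm k) {ι : Type*} {a : ι → C} (ha : FinDef k a) {M : ℝ}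
    (hM : ∀ i, ‖a i‖ ≤ M) (hne : ∃ i, a i ≠ 0) : ∃ i, a i ≠ 0 ∧ ∀ j, ‖a j‖ ≤ ‖a i‖ := by
  obtain ⟨L, hL, hmem⟩ := ha
  obtain ⟨ρ, N, hρ0, hρ1, hN, hz⟩ := exists_zpow_of_mem hk L
  obtain ⟨b, hb⟩ := exists_pow_lt_of_lt_one (x := (|M| ^ N + 1)⁻¹) (by positivity) hρ1
  have hbd : ∀ n : ℤ, (∃ i, a i ≠ 0 ∧ ‖a i‖ ^ N = ρ ^ n) → -(b : ℤ) ≤ n := by
    rintro n ⟨i, -, hn⟩
    by_contra hlt
    push Not at hlt
    have h1 : ρ ^ (-(b : ℤ)) ≤ ρ ^ n := zpow_le_zpow_right_of_le_one₀ hρ0 hρ1.le hlt.le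
    have h2 : ‖a i‖ ^ N ≤ |M| ^ N :=
      pow_le_pow_left₀ (norm_nonneg _) ((hM i).trans (le_abs_self M)) N
    have h3 : |M| ^ N + 1 < ρ ^ (-(b : ℤ)) := by
      rw [zpow_neg, zpow_natCast]
      rw [lt_inv_comm₀ (by positivity) (by positivity)]
      exact hb
    linarith
  obtain ⟨n, ⟨i, hi, hn⟩, hmin⟩ := Int.exists_least_of_bdd ⟨-(b : ℤ), hbd⟩ (by
    obtain ⟨i, hi⟩ := hne
    obtain ⟨n, hn⟩ := hz _ (hmem i) hi
    exact ⟨n, i, hi, hn⟩)
  refine ⟨i, hi, fun j => ?_⟩
  by_cases hj : a j = 0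
  · rw [hj, norm_zero]; exact norm_nonneg _
  obtain ⟨m, hm⟩ := hz _ (hmem j) hj
  have h1 : n ≤ m := hmin m ⟨j, hj, hm⟩
  have h2 : ‖a j‖ ^ N ≤ ‖a i‖ ^ N := by
    rw [hm, hn]; exact zpow_le_zpow_right_of_le_one₀ hρ0 hρ1.le h1
  exact le_of_pow_le_pow_left₀ hN.ne' (norm_nonneg _) h2

/-- the first index of maximal norm -/
theorem exists_wdeg (hk : DiscNorm k) {a : ℕ → C} (ha : FinDef k a) {M : ℝ}
    (hM : ∀ i, ‖a i‖ ≤ M) (hne : ∃ i, a i ≠ 0) :
    ∃ n, a n ≠ 0 ∧ (∀ j, ‖a j‖ ≤ ‖a n‖) ∧ ∀ j < n, ‖a j‖ < ‖a n‖ := by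
  classical
  obtain ⟨i, hi, hi2⟩ := exists_max hk ha hM hne
  have hex : ∃ n, ‖a n‖ = ‖a i‖ := ⟨i, rfl⟩
  refine ⟨Nat.find hex, ?_, ?_, ?_⟩
  · intro h0
    have := Nat.find_spec hex
    rw [h0, norm_zero] at this
    exact hi (norm_eq_zero.1 this.symm)
  · intro j
    rw [Nat.find_spec hex]; exact hi2 j
  · intro j hj
    rw [Nat.find_spec hex]
    exact lt_of_le_of_ne (hi2 j) (Nat.find_min hex hj)

/-! ### Summability of finitely defined families -/

theorem completeSpace_mem (L : IntermediateField k C) [FiniteDimensional k L] :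
    CompleteSpace L := by
  exact FiniteDimensional.complete k L

/-- a finitely defined family tending to zero is summable in `C` -/
theorem FinDef.summable {ι : Type*} [IsUltrametricDist C] {a : ι → C} (ha : FinDef k a)
    (h0 : Filter.Tendsto a Filter.cofinite (𝓝 0)) : Summable a := by
  obtain ⟨L, hL, hmem⟩ := ha
  haveI := completeSpace_mem L
  let b : ι → L := fun i => ⟨a i, hmem i⟩
  have hb : Filter.Tendsto b Filter.cofinite (𝓝 0) := by
    rw [tendsto_subtype_rng]
    exact h0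
  have hs : Summable b := NonarchimedeanAddGroup.summable_of_tendsto_cofinite_zero hb
  exact hs.map (L.val : L →+ C) continuous_subtype_val

/-- the sum of a finitely defined family stays in the field of definition -/
theorem hasSum_mem {ι : Type*} {a : ι → C} {s : C} (h : HasSum a s) (L : IntermediateField k C)
    [FiniteDimensional k L] (hmem : ∀ i, a i ∈ L) : s ∈ L := by
  haveI := completeSpace_mem L
  have hcl : IsClosed (L : Set C) := (completeSpace_coe_iff_isComplete.1 this).isClosed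
  refine hcl.mem_of_tendsto h (Filter.Eventually.of_forall fun t => ?_)
  exact sum_mem fun i _ => hmem i

end Disc

end Crest.Agent.R013.Cell_408
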