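import Mathlib
import Crest.Agent.R013.Cof1_669
import Crest.Agent.R013.MaxUnr_97
import Crest.Agent.R013.Unr11_957

-- ▼ part R013/Cof2_669
section

/-!
# Row 13, B-CUTOFF, part 2: geometric places of `AlgebraicClosure K`
-/

set_option autoImplicit false
set_option linter.unusedSectionVars false

namespace Crest.Agent.R013.Cof2_669

open scoped NNReal Topology
open Filter Polynomial Crest.NumberTheoryR.Sect
open Crest.Agent.R013.SE_669 Crest.Agent.R013.Unr3_957 Crest.Agent.R013.Unr4_957
  Crest.Agent.R013.Cof1_669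

variable {k : Type*} [Field k] {K : Type*} [Field K] [Algebra k K]

local notation "Kb" => AlgebraicClosure K

/-- the constants `k̄` inside `AlgebraicClosure K` -/
noncomputable abbrev kb (k : Type*) [Field k] (K : Type*) [Field K] [Algebra k K] :
    IntermediateField k (AlgebraicClosure K) := algebraicClosure k (AlgebraicClosure K)

theorem mem_kb {c : Kb} : c ∈ kb k K ↔ IsIntegral k c := by
  rw [mem_algebraicClosure_iff, isAlgebraic_iff_isIntegral]

theorem val_const {v : Valuation Kb ℝ≥0} (hv : IsPlace k v) {c : Kb} (hc : c ∈ kb k K)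
    (h0 : c ≠ 0) : v c = 1 :=
  Places_97.val_eq_one_of_isAlgebraic v hv.1 h0 (mem_kb.mp hc)

theorem val_const_le {v : Valuation Kb ℝ≥0} (hv : IsPlace k v) {c : Kb} (hc : c ∈ kb k K) :
    v c ≤ 1 := by
  by_cases h0 : c = 0
  · rw [h0, map_zero]; exact zero_le_one
  · exact (val_const hv hc h0).le

/-- the geometric function field `K k̄` -/
noncomputable def Kgeo (k : Type*) [Field k] (K : Type*) [Field K] [Algebra k K] :
    IntermediateField K (AlgebraicClosure K) :=
  IntermediateField.adjoin K (kb k K : Set (AlgebraicClosure K))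

theorem kb_le_Kgeo {c : Kb} (hc : c ∈ kb k K) : c ∈ Kgeo k K :=
  IntermediateField.subset_adjoin K _ hc

/-- two valuations define the same geometric place -/
def SameGeo (k : Type*) [Field k] {K : Type*} [Field K] [Algebra k K]
    (v v' : Valuation (AlgebraicClosure K) ℝ≥0) : Prop :=
  ∀ f ∈ Kgeo k K, v f ≤ 1 ↔ v' f ≤ 1

section poly

/-- polynomials at an element of value `≤ 1` -/
theorem val_aeval_le {v : Valuation Kb ℝ≥0} (hv : IsPlace k v) {f : Kb} (hf : v f ≤ 1)
    (q : (kb k K)[X]) : v (aeval f q) ≤ 1 := by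
  rw [aeval_eq_sum_range]
  refine v.map_sum_le fun i _ => ?_
  rw [Algebra.smul_def, map_mul, map_pow]
  exact mul_le_one₀ (val_const_le hv (q.coeff i).2) zero_le (pow_le_one₀ zero_le hf)

theorem val_aeval_of_coeff {v : Valuation Kb ℝ≥0} (hv : IsPlace k v) {f : Kb} (hf : v f < 1)
    (q : (kb k K)[X]) (hq : q.coeff 0 ≠ 0) : v (aeval f q) = 1 := by
  have h1 : aeval f q = aeval f q.divX * f + algebraMap (kb k K) Kb (q.coeff 0) := by
    conv_lhs => rw [← q.divX_mul_X_add]
    rw [map_add, map_mul, aeval_X, aeval_C]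
  have h2 : v (aeval f q.divX * f) < 1 := by
    rw [map_mul]
    exact mul_lt_one_of_nonneg_of_lt_one_right (val_aeval_le hv hf.le _) zero_le hf
  have h3 : v (algebraMap (kb k K) Kb (q.coeff 0)) = 1 :=
    val_const hv (q.coeff 0).2 (fun h => hq (Subtype.ext h))
  rw [h1, Valuation.map_add_eq_of_lt_right v (by rw [h3]; exact h2), h3]

theorem val_aeval {v : Valuation Kb ℝ≥0} (hv : IsPlace k v) {f : Kb} (hf : v f < 1)
    (q : (kb k K)[X]) (hq : q ≠ 0) : v (aeval f q) = v f ^ q.rootMultiplicity 0 := by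
  obtain ⟨g, hg, hg2⟩ := exists_eq_pow_rootMultiplicity_mul_and_not_dvd q hq 0
  rw [map_zero, sub_zero] at hg hg2
  have h1 : v (aeval f g) = 1 := by
    refine val_aeval_of_coeff hv hf g ?_
    rwa [X_dvd_iff] at hg2
  conv_lhs => rw [hg]
  rw [map_mul, map_pow, aeval_X, map_mul, map_pow, h1, mul_one]


end poly

instance isAlgClosed_kb : IsAlgClosed (kb k K) := (algebraicClosure.isAlgClosure k Kb).isAlgClosed

/-- value of a polynomial as a product over its roots -/
theorem val_aeval_roots {v : Valuation Kb ℝ≥0} (hv : IsPlace k v) (g : Kb) {q : (kb k K)[X]}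
    (hq : q ≠ 0) : v (aeval g q) = (q.roots.map fun c : kb k K => v (g - (c : Kb))).prod := by
  have h1 := (IsAlgClosed.splits q).eq_prod_roots
  have h2 : aeval g q = algebraMap (kb k K) Kb q.leadingCoeff *
      (q.roots.map fun c : kb k K => g - (c : Kb)).prod := by
    conv_lhs => rw [h1]
    rw [map_mul, aeval_C, map_multiset_prod, Multiset.map_map]
    congr 2
    refine Multiset.map_congr rfl fun c _ => ?_
    simp [IntermediateField.algebraMap_apply]
  have h3 : v (algebraMap (kb k K) Kb q.leadingCoeff) = 1 :=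
    val_const hv (q.leadingCoeff).2 (fun h => hq (leadingCoeff_eq_zero.mp (Subtype.ext h)))
  rw [h2, map_mul, h3, one_mul, map_multiset_prod, Multiset.map_map]
  rfl

theorem exists_root_lt {v : Valuation Kb ℝ≥0} (hv : IsPlace k v) {g : Kb} (hg : v g ≤ 1)
    {q : (kb k K)[X]} (hq : q ≠ 0) (h : v (aeval g q) < 1) :
    ∃ c ∈ kb k K, v (g - c) < 1 := by
  by_contra hcon
  push Not at hcon
  rw [val_aeval_roots hv g hq] at h
  have h1 : ∀ c : kb k K, v (g - (c : Kb)) = 1 := by
    intro c
    refine le_antisymm ?_ (hcon c c.2)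
    refine (v.map_sub _ _).trans (max_le hg (val_const_le hv c.2))
  have h2 : (q.roots.map fun c : kb k K => v (g - (c : Kb))).prod = 1 := by
    refine Multiset.prod_eq_one fun x hx => ?_
    obtain ⟨c, _, rfl⟩ := Multiset.mem_map.mp hx
    exact h1 c
  rw [h2] at h
  exact lt_irrefl _ h

section ff

variable [CharZero k] [Algebra (RatFunc k) K] [IsScalarTower k (RatFunc k) K]
  [FiniteDimensional (RatFunc k) K]

/-- the transcendental generator -/
noncomputable def tt (k : Type*) [Field k] (K : Type*) [Field K] [Algebra (RatFunc k) K] :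
    AlgebraicClosure K :=
  algebraMap K (AlgebraicClosure K) (algebraMap (RatFunc k) K RatFunc.X)

theorem tower_RKb : IsScalarTower k (RatFunc k) Kb := by
  refine IsScalarTower.of_algebraMap_eq fun x => ?_
  change algebraMap K Kb (algebraMap k K x) =
    algebraMap K Kb (algebraMap (RatFunc k) K (algebraMap k (RatFunc k) x))
  rw [← IsScalarTower.algebraMap_apply k (RatFunc k) K]

theorem alg_RKb : Algebra.IsAlgebraic (RatFunc k) Kb :=
  Algebra.IsAlgebraic.trans (RatFunc k) K Kb

theorem algebraMap_poly (q : k[X]) :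
    algebraMap (RatFunc k) Kb (algebraMap k[X] (RatFunc k) q) = aeval (tt k K) q := by
  have := tower_RKb (k := k) (K := K)
  have h : (aeval (tt k K) : k[X] →ₐ[k] Kb) =
      (IsScalarTower.toAlgHom k (RatFunc k) Kb).comp (IsScalarTower.toAlgHom k k[X] (RatFunc k)) := by
    refine algHom_ext ?_
    rw [aeval_X]
    simp only [AlgHom.comp_apply, IsScalarTower.coe_toAlgHom', RatFunc.algebraMap_X]
    rfl
  rw [h]
  rfl

theorem aeval_map_kb (g : Kb) (q : k[X]) :
    aeval g (q.map (algebraMap k (kb k K))) = aeval g q := by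
  rw [aeval_map_algebraMap]

/-- a parameter at a place -/
theorem exists_param {v : Valuation Kb ℝ≥0} (hv : IsPlace k v) :
    1 < v (tt k K) ∨ ∃ c ∈ kb k K, v (tt k K - c) < 1 := by
  rw [or_iff_not_imp_left, not_lt]
  intro ht
  have := tower_RKb (k := k) (K := K)
  have := alg_RKb (k := k) (K := K)
  have hpl : IsPlace k (v.comap (algebraMap (RatFunc k) Kb)) := Unr3_957.isPlace_comap hv
  obtain ⟨a, ha0, ha1⟩ := hpl.2
  by_contra hcon
  have hpoly : ∀ q : k[X], q ≠ 0 → v (aeval (tt k K) q) = 1 := by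
    intro q hq
    have hq' : q.map (algebraMap k (kb k K)) ≠ 0 :=
      (Polynomial.map_ne_zero_iff (algebraMap k (kb k K)).injective).mpr hq
    rw [← aeval_map_kb]
    refine le_antisymm (val_aeval_le hv ht _) ?_
    by_contra h
    exact hcon (exists_root_lt hv ht hq' (not_le.mp h))
  have ha : a ≠ 0 := by rintro rfl; exact ha0 (map_zero _)
  apply ha1
  rw [Valuation.comap_apply, ← RatFunc.num_div_denom a, map_div₀, map_div₀, algebraMap_poly,
    algebraMap_poly, hpoly _ (RatFunc.num_ne_zero ha), hpoly _ a.denom_ne_zero, div_one]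

/-- `f` is a parameter of `k̄(t)` at a point of the projective line -/
def IsPar (f : Kb) : Prop := f = (tt k K)⁻¹ ∨ ∃ c ∈ kb k K, f = tt k K - c

end ff

end Crest.Agent.R013.Cof2_669
end

-- ▼ part R013/Cof3_669
section

/-!
# Row 13, B-CUTOFF, part 3: geometric places over a point of the projective line, residues,
rational descent
-/

set_option autoImplicit false
set_option linter.unusedSectionVars false

namespace Crest.Agent.R013.Cof3_669

open scoped NNReal Topology
open Filter Polynomial Crest.NumberTheoryR.Sect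
open Crest.Agent.R013.SE_669 Crest.Agent.R013.Unr3_957 Crest.Agent.R013.Unr4_957
  Crest.Agent.R013.Cof1_669 Crest.Agent.R013.Cof2_669

variable {k : Type*} [Field k] {K : Type*} [Field K] [Algebra k K]

local notation "Kb" => AlgebraicClosure K

/-- `k̄(f)` -/
noncomputable abbrev F0 (k : Type*) [Field k] {K : Type*} [Field K] [Algebra k K]
    (f : AlgebraicClosure K) : IntermediateField (kb k K) (AlgebraicClosure K) :=
  IntermediateField.adjoin (kb k K) {f}

section resid

/-- the elements of `k̄(f)`, `v f < 1`: either of value `< 1`, or congruent to a constant -/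
theorem res_F0 {v : Valuation Kb ℝ≥0} (hv : IsPlace k v) {f : Kb} (hf : v f < 1) (hf0 : f ≠ 0)
    {a : Kb} (ha : a ∈ F0 k f) (ha1 : v a ≤ 1) : ∃ c ∈ kb k K, v (a - c) < 1 := by
  obtain ⟨p, q, rfl⟩ := (IntermediateField.mem_adjoin_simple_iff _ _).mp ha
  by_cases hp : p = 0
  · exact ⟨0, zero_mem _, by simp [hp]⟩
  by_cases hq : q = 0
  · exact ⟨0, zero_mem _, by simp [hq]⟩
  obtain ⟨p1, hp1, hp2⟩ := exists_eq_pow_rootMultiplicity_mul_and_not_dvd p hp 0
  obtain ⟨q1, hq1, hq2⟩ := exists_eq_pow_rootMultiplicity_mul_and_not_dvd q hq 0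
  rw [map_zero, sub_zero] at hp1 hp2 hq1 hq2
  rw [X_dvd_iff] at hp2 hq2
  have hvp := val_aeval hv hf p hp
  have hvq := val_aeval hv hf q hq
  have hf1 : 0 < v f := (Valuation.pos_iff v).mpr hf0
  have hle : q.rootMultiplicity 0 ≤ p.rootMultiplicity 0 := by
    by_contra hlt
    push Not at hlt
    have h1 : v f ^ (q.rootMultiplicity 0) < v f ^ (p.rootMultiplicity 0) :=
      pow_lt_pow_right_of_lt_one₀ hf1 hf hlt
    have h2 : v (aeval f p / aeval f q) = v f ^ (p.rootMultiplicity 0) /
        v f ^ (q.rootMultiplicity 0) := by rw [map_div₀, hvp, hvq]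
    rw [h2, div_le_one (by positivity)] at ha1
    exact absurd ha1 (not_le.mpr h1)
  rcases hle.lt_or_eq with hlt | heq
  · refine ⟨0, zero_mem _, ?_⟩
    rw [sub_zero, map_div₀, hvp, hvq, div_lt_one (by positivity)]
    exact pow_lt_pow_right_of_lt_one₀ hf1 hf hlt
  · set n := p.rootMultiplicity 0 with hn
    have hq1n : q = X ^ n * q1 := by rw [hq1, heq]
    have e1 : aeval f p / aeval f q = aeval f p1 / aeval f q1 := by
      rw [hp1, hq1n, map_mul, map_mul, map_pow, aeval_X, mul_div_mul_left]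
      exact pow_ne_zero _ hf0
    have hvq1 : v (aeval f q1) = 1 := val_aeval_of_coeff hv hf q1 hq2
    have hq1ne : aeval f q1 ≠ 0 := by
      intro h
      rw [h, map_zero] at hvq1
      exact zero_ne_one hvq1
    have hc0 : (q1.coeff 0 : Kb) ≠ 0 := fun h => hq2 (Subtype.ext h)
    refine ⟨(p1.coeff 0 : Kb) / (q1.coeff 0 : Kb), div_mem (p1.coeff 0).2 (q1.coeff 0).2, ?_⟩
    have e2 : aeval f p / aeval f q - (p1.coeff 0 : Kb) / (q1.coeff 0 : Kb) =
        aeval f (C (q1.coeff 0) * p1 - C (p1.coeff 0) * q1) / (aeval f q1 * (q1.coeff 0 : Kb)) := by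
      rw [e1, map_sub, map_mul, map_mul, aeval_C, aeval_C]
      have : ∀ z : kb k K, algebraMap (kb k K) Kb z = (z : Kb) := fun _ => rfl
      rw [this, this]
      field_simp
    have hr : (C (q1.coeff 0) * p1 - C (p1.coeff 0) * q1).coeff 0 = 0 := by
      simp [mul_comm]
    have h3 : v (aeval f (C (q1.coeff 0) * p1 - C (p1.coeff 0) * q1)) < 1 := by
      set r := C (q1.coeff 0) * p1 - C (p1.coeff 0) * q1
      have h1 : aeval f r = aeval f r.divX * f := by
        conv_lhs => rw [← r.divX_mul_X_add, hr]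
        rw [map_add, map_mul, aeval_X, aeval_C, map_zero, add_zero]
      rw [h1, map_mul]
      exact mul_lt_one_of_nonneg_of_lt_one_right (val_aeval_le hv hf.le _) zero_le hf
    rw [e2, map_div₀, map_mul, hvq1, val_const hv (q1.coeff 0).2 hc0, mul_one, div_one]
    exact h3

/-- all places with `v f < 1` agree on `k̄(f)` -/
theorem equiv_F0 {v v' : Valuation Kb ℝ≥0} (hv : IsPlace k v) (hv' : IsPlace k v') {f : Kb}
    (hf : v f < 1) (hf' : v' f < 1) (hf0 : f ≠ 0) {a : Kb} (ha : a ∈ F0 k f) :
    v a ≤ 1 ↔ v' a ≤ 1 := by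
  have key : ∀ {v : Valuation Kb ℝ≥0}, IsPlace k v → v f < 1 → ∀ p q : (kb k K)[X], p ≠ 0 → q ≠ 0 →
      (v (aeval f p / aeval f q) ≤ 1 ↔ q.rootMultiplicity 0 ≤ p.rootMultiplicity 0) := by
    intro v hv hf p q hp hq
    have hf1 : 0 < v f := (Valuation.pos_iff v).mpr hf0
    rw [map_div₀, val_aeval hv hf p hp, val_aeval hv hf q hq, div_le_one (by positivity)]
    exact pow_le_pow_iff_right_of_lt_one₀ hf1 hf
  obtain ⟨p, q, rfl⟩ := (IntermediateField.mem_adjoin_simple_iff _ _).mp ha
  by_cases hp : p = 0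
  · simp [hp]
  by_cases hq : q = 0
  · simp [hq]
  rw [key hv hf p q hp hq, key hv' hf' p q hp hq]

end resid

section ff

variable [CharZero k] [Algebra (RatFunc k) K] [IsScalarTower k (RatFunc k) K]
  [FiniteDimensional (RatFunc k) K]

theorem tt_mem_F0 {f : Kb} (hf : IsPar (k := k) (K := K) f) : tt k K ∈ F0 k f := by
  have h1 : f ∈ F0 k f := IntermediateField.mem_adjoin_simple_self _ f
  rcases hf with rfl | ⟨c, hc, rfl⟩
  · have := inv_mem h1
    rwa [inv_inv] at this
  · have h2 : c ∈ F0 k (tt k K - c) := (F0 k (tt k K - c)).algebraMap_mem ⟨c, hc⟩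
    have := add_mem h1 h2
    rwa [sub_add_cancel] at this

theorem range_le_F0 {f : Kb} (hf : IsPar (k := k) (K := K) f) (a : RatFunc k) :
    algebraMap (RatFunc k) Kb a ∈ F0 k f := by
  have hp : ∀ q : k[X], aeval (tt k K) q ∈ F0 k f := by
    intro q
    rw [← aeval_map_kb, aeval_eq_sum_range]
    refine sum_mem fun i _ => ?_
    rw [Algebra.smul_def]
    exact mul_mem ((F0 k f).algebraMap_mem _) (pow_mem (tt_mem_F0 hf) i)
  rw [← RatFunc.num_div_denom a, map_div₀, algebraMap_poly, algebraMap_poly]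
  exact div_mem (hp _) (hp _)

theorem alg_F0 {f : Kb} (hf : IsPar (k := k) (K := K) f) : Algebra.IsAlgebraic (F0 k f) Kb := by
  let φ : RatFunc k →+* F0 k f :=
    (algebraMap (RatFunc k) Kb).codRestrict (F0 k f).toSubfield (range_le_F0 hf)
  let : Algebra (RatFunc k) (F0 k f) := φ.toAlgebra
  have : IsScalarTower (RatFunc k) (F0 k f) Kb := IsScalarTower.of_algebraMap_eq (fun x => rfl)
  have := alg_RKb (k := k) (K := K)
  exact Algebra.IsAlgebraic.tower_top (K := RatFunc k) (F0 k f)

theorem galois_F0 {f : Kb} (hf : IsPar (k := k) (K := K) f) : IsGalois (F0 k f) Kb := by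
  have := alg_F0 hf
  have := charZero_K k K
  have : CharZero (F0 k f) := charZero_of_injective_algebraMap (algebraMap (kb k K) (F0 k f)).injective
  have : IsAlgClosure (F0 k f) Kb := ⟨inferInstance, inferInstance⟩
  have : Normal (F0 k f) Kb := inferInstance
  exact IsGalois.mk

/-- a parameter at every place -/
theorem exists_par {v : Valuation Kb ℝ≥0} (hv : IsPlace k v) :
    ∃ f : Kb, IsPar (k := k) (K := K) f ∧ v f < 1 ∧ f ≠ 0 := by
  have htr : ∀ c ∈ kb k K, tt k K ≠ c := by
    intro c hc h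
    have h1 : IsAlgebraic k (tt k K) := by rw [h]; exact mem_algebraicClosure_iff.mp hc
    have := tower_RKb (k := k) (K := K)
    have h2 : IsAlgebraic k (algebraMap (RatFunc k) Kb RatFunc.X) := h1
    rw [isAlgebraic_algebraMap_iff (algebraMap (RatFunc k) Kb).injective] at h2
    exact RatFunc.transcendental_X h2
  rcases exists_param (k := k) (K := K) hv with h | ⟨c, hc, h⟩
  · refine ⟨(tt k K)⁻¹, Or.inl rfl, ?_, ?_⟩
    · rw [map_inv₀]
      exact inv_lt_one_of_one_lt₀ h
    · exact inv_ne_zero (htr 0 (zero_mem _))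
  · exact ⟨tt k K - c, Or.inr ⟨c, hc, rfl⟩, h, sub_ne_zero.mpr (htr c hc)⟩

/-- **Residues are constants**. -/
theorem exists_const_near {v : Valuation Kb ℝ≥0} (hv : IsPlace k v) {g : Kb} (hg : v g ≤ 1) :
    ∃ c ∈ kb k K, v (g - c) < 1 := by
  obtain ⟨f, hfp, hf, hf0⟩ := exists_par (k := k) (K := K) hv
  have := alg_F0 hfp
  obtain ⟨P, hP0, hPg⟩ := Algebra.IsAlgebraic.isAlgebraic (R := F0 k f) g
  obtain ⟨i0, hi0, hmax⟩ := P.support.exists_max_image (fun i => v (P.coeff i : Kb))
    (by rwa [nonempty_support_iff])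
  have hne : P.coeff i0 ≠ 0 := mem_support_iff.mp hi0
  have hne' : (P.coeff i0 : Kb) ≠ 0 := fun h => hne (Subtype.ext h)
  have hv0 : 0 < v (P.coeff i0 : Kb) := (Valuation.pos_iff v).mpr hne'
  set a : ℕ → F0 k f := fun i => P.coeff i / P.coeff i0 with ha
  have ha1 : ∀ i, v (a i : Kb) ≤ 1 := by
    intro i
    have : (a i : Kb) = (P.coeff i : Kb) / (P.coeff i0 : Kb) := rfl
    rw [this, map_div₀, div_le_one hv0]
    by_cases hi : i ∈ P.support
    · exact hmax i hi
    · rw [notMem_support_iff] at hi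
      rw [hi]
      simp
  have hsum : ∑ i ∈ Finset.range (P.natDegree + 1), (a i : Kb) * g ^ i = 0 := by
    have h1 : aeval g P = ∑ i ∈ Finset.range (P.natDegree + 1), (P.coeff i : Kb) * g ^ i := by
      rw [aeval_eq_sum_range]
      rfl
    have h2 : ∑ i ∈ Finset.range (P.natDegree + 1), (a i : Kb) * g ^ i =
        (∑ i ∈ Finset.range (P.natDegree + 1), (P.coeff i : Kb) * g ^ i) / (P.coeff i0 : Kb) := by
      rw [Finset.sum_div]
      refine Finset.sum_congr rfl fun i _ => ?_
      have : (a i : Kb) = (P.coeff i : Kb) / (P.coeff i0 : Kb) := rfl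
      rw [this]
      ring
    rw [h2, ← h1, hPg, zero_div]
  have hres : ∀ i, ∃ c ∈ kb k K, v ((a i : Kb) - c) < 1 := fun i =>
    res_F0 hv hf hf0 (a i).2 (ha1 i)
  choose c hc hc1 using hres
  let q : (kb k K)[X] := ∑ i ∈ Finset.range (P.natDegree + 1), C (⟨c i, hc i⟩ : kb k K) * X ^ i
  have hqc : ∀ i ∈ Finset.range (P.natDegree + 1), q.coeff i = ⟨c i, hc i⟩ := by
    intro i hi
    simp only [q, finsetSum_coeff, coeff_C_mul, coeff_X_pow, mul_ite, mul_one, mul_zero]
    rw [Finset.sum_ite_eq]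
    simp [hi]
  have hi0' : i0 ∈ Finset.range (P.natDegree + 1) := by
    rw [Finset.mem_range]
    exact Nat.lt_succ_of_le (le_natDegree_of_mem_supp i0 hi0)
  have hq0 : q ≠ 0 := by
    intro h
    have h1 := hqc i0 hi0'
    rw [h, coeff_zero] at h1
    have h2 : c i0 = 0 := (congrArg (fun z : kb k K => (z : Kb)) h1).symm
    have h3 := hc1 i0
    have h4 : (a i0 : Kb) = 1 := by
      have : (a i0 : Kb) = (P.coeff i0 : Kb) / (P.coeff i0 : Kb) := rfl
      rw [this, div_self hne']
    rw [h2, h4, sub_zero, map_one] at h3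
    exact lt_irrefl _ h3
  have hqv : v (aeval g q) < 1 := by
    have h1 : aeval g q = ∑ i ∈ Finset.range (P.natDegree + 1), c i * g ^ i := by
      simp only [q, map_sum, map_mul, aeval_C, map_pow, aeval_X]
      rfl
    have h2 : aeval g q = - ∑ i ∈ Finset.range (P.natDegree + 1), ((a i : Kb) - c i) * g ^ i := by
      rw [h1]
      have : ∑ i ∈ Finset.range (P.natDegree + 1), ((a i : Kb) - c i) * g ^ i =
          ∑ i ∈ Finset.range (P.natDegree + 1), (a i : Kb) * g ^ i -
            ∑ i ∈ Finset.range (P.natDegree + 1), c i * g ^ i := by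
        rw [← Finset.sum_sub_distrib]
        exact Finset.sum_congr rfl fun i _ => by ring
      rw [this, hsum]
      ring
    rw [h2, Valuation.map_neg]
    refine v.map_sum_lt one_ne_zero fun i _ => ?_
    rw [map_mul, map_pow]
    exact mul_lt_one_of_nonneg_of_lt_one_left zero_le (hc1 i) (pow_le_one₀ zero_le hg)
  exact exists_root_lt hv hg hq0 hqv

end ff

end Crest.Agent.R013.Cof3_669
end

-- ▼ part R013/Cof4_669
section

/-!
# Row 13, B-CUTOFF, part 4: finiteness of geometric places over a point, branch places, constants,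
rational descent
-/

set_option autoImplicit false
set_option linter.unusedSectionVars false

namespace Crest.Agent.R013.Cof4_669

open scoped NNReal Topology
open Filter Polynomial Crest.NumberTheoryR.Sect
open Crest.Agent.R013.SE_669 Crest.Agent.R013.Unr3_957 Crest.Agent.R013.Unr4_957
  Crest.Agent.R013.Cof1_669 Crest.Agent.R013.Cof2_669 Crest.Agent.R013.Cof3_669

variable {k : Type*} [Field k] {K : Type*} [Field K] [Algebra k K]

local notation "Kb" => AlgebraicClosure K

theorem SameGeo.symm {v v' : Valuation Kb ℝ≥0} (h : SameGeo k v v') : SameGeo k v' v :=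
  fun f hf => (h f hf).symm

theorem SameGeo.trans {v v' v'' : Valuation Kb ℝ≥0} (h : SameGeo k v v')
    (h' : SameGeo k v' v'') : SameGeo k v v'' :=
  fun f hf => (h f hf).trans (h' f hf)

theorem SameGeo.lt_one {v v' : Valuation Kb ℝ≥0} (h : SameGeo k v v') {f : Kb}
    (hf : f ∈ Kgeo k K) (hlt : v f < 1) : v' f < 1 := by
  by_cases h0 : f = 0
  · rw [h0, map_zero]; exact zero_lt_one
  by_contra hcon
  push Not at hcon
  have h1 : v' f⁻¹ ≤ 1 := by
    rw [map_inv₀]
    exact inv_le_one_of_one_le₀ hcon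
  have h2 : v f⁻¹ ≤ 1 := (h _ (inv_mem hf)).mpr h1
  rw [map_inv₀] at h2
  have hpos : 0 < v f := (Valuation.pos_iff v).mpr h0
  have h3 : 1 < (v f)⁻¹ := (one_lt_inv₀ hpos).mpr hlt
  exact absurd h2 (not_le.mpr h3)

section ff

variable [CharZero k] [Algebra (RatFunc k) K] [IsScalarTower k (RatFunc k) K]
  [FiniteDimensional (RatFunc k) K]

/-- finitely many geometric places over a point of the projective line -/
theorem finite_over {f : Kb} (hfp : IsPar (k := k) (K := K) f) (hf0 : f ≠ 0) :
    ∃ Ps : List (Valuation Kb ℝ≥0), (∀ P ∈ Ps, IsPlace k P) ∧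
      ∀ v : Valuation Kb ℝ≥0, IsPlace k v → v f < 1 → ∃ P ∈ Ps, SameGeo k P v := by
  classical
  by_cases hex : ∃ v₀ : Valuation Kb ℝ≥0, IsPlace k v₀ ∧ v₀ f < 1
  swap
  · refine ⟨[], by simp, fun v hv hvf => absurd ⟨v, hv, hvf⟩ hex⟩
  obtain ⟨v₀, hv₀, hv₀f⟩ := hex
  have := galois_F0 hfp
  let S := {v : Valuation Kb ℝ≥0 // IsPlace k v ∧ v f < 1}
  have hσ : ∀ v : S, ∃ σ : Kb ≃ₐ[F0 k f] Kb, ∀ x, v₀ (σ x) ≤ 1 ↔ v.1 x ≤ 1 := fun v =>
    Hens_899.exists_conj v₀ v.1 (fun a => equiv_F0 hv₀ v.2.1 hv₀f v.2.2 hf0 a.2)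
  choose σ hσ using hσ
  -- restriction to `K` over `RatFunc k`
  let Φ : S → (K →ₐ[RatFunc k] Kb) := fun v =>
    { (σ v : Kb →+* Kb).comp (algebraMap K Kb) with
      commutes' := fun a => by
        change σ v (algebraMap K Kb (algebraMap (RatFunc k) K a)) = algebraMap (RatFunc k) Kb a
        exact (σ v).commutes ⟨algebraMap (RatFunc k) Kb a, range_le_F0 hfp a⟩ }
  have hfin : Finite (K →ₐ[RatFunc k] Kb) := inferInstance
  have hfinR : (Set.range Φ).Finite := Set.toFinite _
  let sec : (K →ₐ[RatFunc k] Kb) → Valuation Kb ℝ≥0 := fun ρ =>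
    if h : ∃ v : S, Φ v = ρ then (Classical.choose h).1 else v₀
  refine ⟨hfinR.toFinset.toList.map sec, ?_, ?_⟩
  · intro P hP
    obtain ⟨ρ, _, rfl⟩ := List.mem_map.mp hP
    simp only [sec]
    split_ifs with h
    · exact (Classical.choose h).2.1
    · exact hv₀
  · intro v hv hvf
    let v' : S := ⟨v, hv, hvf⟩
    have hex' : ∃ u : S, Φ u = Φ v' := ⟨v', rfl⟩
    refine ⟨sec (Φ v'), List.mem_map.mpr ⟨Φ v', by simp, rfl⟩, ?_⟩
    have hsec : sec (Φ v') = (Classical.choose hex').1 := by simp only [sec, dif_pos hex']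
    rw [hsec]
    set u := Classical.choose hex' with hu
    have hu' : Φ u = Φ v' := Classical.choose_spec hex'
    have hag : ∀ g ∈ Kgeo k K, σ u g = σ v' g := by
      intro g hg
      unfold Kgeo at hg
      induction hg using IntermediateField.adjoin_induction with
      | mem c hc =>
        have h1 := (σ u).commutes (algebraMap (kb k K) (F0 k f) ⟨c, hc⟩)
        have h2 := (σ v').commutes (algebraMap (kb k K) (F0 k f) ⟨c, hc⟩)
        exact h1.trans h2.symm
      | algebraMap x => exact congrArg (fun φ : K →ₐ[RatFunc k] Kb => φ x) hu'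
      | add x y _ _ hx hy => rw [map_add, map_add, hx, hy]
      | inv x _ hx => rw [map_inv₀, map_inv₀, hx]
      | mul x y _ _ hx hy => rw [map_mul, map_mul, hx, hy]
    intro g hg
    rw [← hσ u g, hag g hg, hσ v' g]

theorem exists_root_mem {v : Valuation Kb ℝ≥0} (hv : IsPlace k v) {g : Kb} (hg : v g ≤ 1)
    {q : (kb k K)[X]} (hq : q ≠ 0) (h : v (aeval g q) < 1) :
    ∃ c : kb k K, c ∈ q.roots ∧ v (g - (c : Kb)) < 1 := by
  by_contra hcon
  push Not at hcon
  rw [val_aeval_roots hv g hq] at h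
  have h2 : (q.roots.map fun c : kb k K => v (g - (c : Kb))).prod = 1 := by
    refine Multiset.prod_eq_one fun x hx => ?_
    obtain ⟨c, hc, rfl⟩ := Multiset.mem_map.mp hx
    refine le_antisymm ?_ (hcon c hc)
    exact (v.map_sub _ _).trans (max_le hg (val_const_le hv c.2))
  rw [h2] at h
  exact lt_irrefl _ h

/-- finitely many geometric places at which an element of `k(t)` has a pole -/
theorem finite_pole (x : RatFunc k) :
    ∃ Ps : List (Valuation Kb ℝ≥0), (∀ P ∈ Ps, IsPlace k P) ∧
      ∀ v : Valuation Kb ℝ≥0, IsPlace k v → 1 < v (algebraMap (RatFunc k) Kb x) →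
        ∃ P ∈ Ps, SameGeo k P v := by
  classical
  have htr : ∀ c ∈ kb k K, tt k K ≠ c := by
    intro c hc h
    have h1 : IsAlgebraic k (tt k K) := by rw [h]; exact mem_algebraicClosure_iff.mp hc
    have := tower_RKb (k := k) (K := K)
    have h2 : IsAlgebraic k (algebraMap (RatFunc k) Kb RatFunc.X) := h1
    rw [isAlgebraic_algebraMap_iff (algebraMap (RatFunc k) Kb).injective] at h2
    exact RatFunc.transcendental_X h2
  -- for every parameter a list
  have hpar : ∀ f : {f : Kb // IsPar (k := k) (K := K) f ∧ f ≠ 0},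
      ∃ Ps : List (Valuation Kb ℝ≥0), (∀ P ∈ Ps, IsPlace k P) ∧
      ∀ v : Valuation Kb ℝ≥0, IsPlace k v → v f.1 < 1 → ∃ P ∈ Ps, SameGeo k P v :=
    fun f => finite_over f.2.1 f.2.2
  choose Ls hLs1 hLs2 using hpar
  let q : (kb k K)[X] := (x.denom).map (algebraMap k (kb k K))
  have hq0 : q ≠ 0 := (Polynomial.map_ne_zero_iff (algebraMap k (kb k K)).injective).mpr
    x.denom_ne_zero
  let f₀ : {f : Kb // IsPar (k := k) (K := K) f ∧ f ≠ 0} :=
    ⟨(tt k K)⁻¹, Or.inl rfl, inv_ne_zero (htr 0 (zero_mem _))⟩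
  let fc : kb k K → {f : Kb // IsPar (k := k) (K := K) f ∧ f ≠ 0} := fun c =>
    ⟨tt k K - c, Or.inr ⟨c, c.2, rfl⟩, sub_ne_zero.mpr (htr c c.2)⟩
  refine ⟨Ls f₀ ++ (q.roots.toList.map fun c => Ls (fc c)).flatten, ?_, ?_⟩
  · intro P hP
    rw [List.mem_append] at hP
    rcases hP with hP | hP
    · exact hLs1 f₀ P hP
    · obtain ⟨l, hl, hPl⟩ := List.mem_flatten.mp hP
      obtain ⟨c, _, rfl⟩ := List.mem_map.mp hl
      exact hLs1 _ P hPl
  · intro v hv hvx
    rcases lt_or_ge 1 (v (tt k K)) with ht | ht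
    · have h1 : v (tt k K)⁻¹ < 1 := by rw [map_inv₀]; exact inv_lt_one_of_one_lt₀ ht
      obtain ⟨P, hP, hPv⟩ := hLs2 f₀ v hv h1
      exact ⟨P, List.mem_append.mpr (Or.inl hP), hPv⟩
    · have h1 : v (aeval (tt k K) q) < 1 := by
        rw [← RatFunc.num_div_denom x, map_div₀, map_div₀, algebraMap_poly, algebraMap_poly] at hvx
        rw [aeval_map_kb]
        by_contra hcon
        push Not at hcon
        have h2 : v (aeval (tt k K) x.num) ≤ 1 := by
          rw [← aeval_map_kb]; exact val_aeval_le hv ht _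
        have h3 : v (aeval (tt k K) x.num) / v (aeval (tt k K) x.denom) ≤ 1 :=
          div_le_one_of_le₀ (h2.trans hcon) zero_le
        exact absurd hvx (not_lt.mpr h3)
      obtain ⟨c, hc, hvc⟩ := exists_root_mem hv ht hq0 h1
      obtain ⟨P, hP, hPv⟩ := hLs2 (fc c) v hv hvc
      refine ⟨P, List.mem_append.mpr (Or.inr (List.mem_flatten.mpr ⟨Ls (fc c), ?_, hP⟩)), hPv⟩
      exact List.mem_map.mpr ⟨c, Multiset.mem_toList.mpr hc, rfl⟩

/-- **branch places**: finitely many geometric places -/
theorem finite_branch (L : IntermediateField K Kb) [FiniteDimensional K L] :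
    ∃ Ps : List (Valuation Kb ℝ≥0), (∀ P ∈ Ps, IsPlace k P) ∧
      ∀ v v' : Valuation Kb ℝ≥0, IsPlace k v → IsPlace k v' →
        (∀ g : K, v (algebraMap K Kb g) ≤ 1 ↔ v' (algebraMap K Kb g) ≤ 1) →
        ¬ UnrAt K v' (L : Set Kb) → ∃ P ∈ Ps, SameGeo k P v := by
  classical
  have := finite_IF (k := k) L
  have : CharZero (RatFunc k) :=
    charZero_of_injective_algebraMap (algebraMap k (RatFunc k)).injective
  obtain ⟨S, hS⟩ := Unr8_957.exists_finset_unrAt (K := RatFunc k) (L := L)
  choose Ls hLs1 hLs2 using finite_pole (k := k) (K := K)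
  refine ⟨(S.toList.map Ls).flatten, ?_, ?_⟩
  · intro P hP
    obtain ⟨l, hl, hPl⟩ := List.mem_flatten.mp hP
    obtain ⟨c, _, rfl⟩ := List.mem_map.mp hl
    exact hLs1 _ P hPl
  · intro v v' hv hv' hvv' hun
    have h1 : ∃ x ∈ S, 1 < v' (algebraMap (RatFunc k) Kb x) := by
      by_contra hcon
      push Not at hcon
      apply hun
      have := tower_RKb (k := k) (K := K)
      have := alg_RKb (k := k) (K := K)
      have hpl : IsPlace k (v'.comap (algebraMap (RatFunc k) Kb)) := Unr3_957.isPlace_comap hv'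
      obtain ⟨c, hc⟩ := gen_ratFunc hpl
      have h2 := hS _ c hc (place_natCast hpl) hcon
      intro b hb h0
      obtain ⟨a, ha⟩ := h2 (v'.comap (algebraMap L Kb)) rfl ⟨b, hb⟩
      exact ⟨algebraMap (RatFunc k) K a, ha⟩
    obtain ⟨x, hx, hx1⟩ := h1
    have h2 : 1 < v (algebraMap (RatFunc k) Kb x) := by
      by_contra hcon
      push Not at hcon
      have h3 := (hvv' (algebraMap (RatFunc k) K x)).mp hcon
      exact absurd hx1 (not_lt.mpr h3)
    obtain ⟨P, hP, hPv⟩ := hLs2 x v hv h2
    refine ⟨P, List.mem_flatten.mpr ⟨Ls x, List.mem_map.mpr ⟨x, ?_, rfl⟩, hP⟩, hPv⟩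
    exact Finset.mem_toList.mpr hx

end ff

end Crest.Agent.R013.Cof4_669
end

-- ▼ part R013/Cof5_669

/-!
# Row 13, B-CUTOFF, part 5: constants of `K C`, rational descent of a geometric place
-/

set_option autoImplicit false
set_option linter.unusedSectionVars false

namespace Crest.Agent.R013.Cof5_669

open scoped NNReal Topology
open Filter Polynomial Crest.NumberTheoryR.Sect
open Crest.Agent.R013.SE_669 Crest.Agent.R013.Unr3_957 Crest.Agent.R013.Unr4_957
  Crest.Agent.R013.Cof1_669 Crest.Agent.R013.Cof2_669 Crest.Agent.R013.Cof3_669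
  Crest.Agent.R013.Cof4_669

variable {k : Type*} [Field k] {K : Type*} [Field K] [Algebra k K]

local notation "Kb" => AlgebraicClosure K

/-- the field `K C` -/
noncomputable def KC (K : Type*) [Field K] {k : Type*} [Field k] [Algebra k K]
    (C : IntermediateField k (AlgebraicClosure K)) : IntermediateField K (AlgebraicClosure K) :=
  IntermediateField.adjoin K (C : Set (AlgebraicClosure K))

theorem le_KC {C : IntermediateField k Kb} {c : Kb} (hc : c ∈ C) : c ∈ KC K C :=
  IntermediateField.subset_adjoin K _ hc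

theorem KC_mono {C C' : IntermediateField k Kb} (h : C ≤ C') : KC K C ≤ KC K C' :=
  IntermediateField.adjoin.mono K _ _ h

theorem le_kb (C : IntermediateField k Kb) [FiniteDimensional k C] : C ≤ kb k K := by
  intro c hc
  rw [mem_kb]
  have h1 : IsIntegral k (⟨c, hc⟩ : C) := Algebra.IsIntegral.isIntegral _
  exact (isIntegral_algebraMap_iff (algebraMap C Kb).injective).mpr h1

theorem KC_le_Kgeo (C : IntermediateField k Kb) [FiniteDimensional k C] : KC K C ≤ Kgeo k K :=
  IntermediateField.adjoin.mono K _ _ (le_kb C)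

theorem finite_KC (C : IntermediateField k Kb) [FiniteDimensional k C] :
    FiniteDimensional K (KC K C) := by
  obtain ⟨S, hS⟩ := (IntermediateField.essFiniteType_iff).mp
    (inferInstance : Algebra.EssFiniteType k C)
  have hST : ∀ x ∈ (S : Set Kb), IsIntegral K x := by
    intro x hx
    have h1 : x ∈ C := by
      rw [← hS]
      exact IntermediateField.subset_adjoin k _ hx
    exact (mem_kb.mp (le_kb C h1)).tower_top
  have h2 : KC K C = IntermediateField.adjoin K (S : Set Kb) := by
    refine le_antisymm ?_ (IntermediateField.adjoin.mono K _ _ ?_)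
    · unfold KC
      rw [IntermediateField.adjoin_le_iff]
      intro c hc
      rw [← hS] at hc
      induction hc using IntermediateField.adjoin_induction with
      | mem x hx => exact IntermediateField.subset_adjoin K _ hx
      | algebraMap x =>
        have : algebraMap k Kb x = algebraMap K Kb (algebraMap k K x) := rfl
        rw [this]
        exact (IntermediateField.adjoin K (S : Set Kb)).algebraMap_mem _
      | add x y _ _ hx hy => exact add_mem hx hy
      | inv x _ hx => exact inv_mem hx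
      | mul x y _ _ hx hy => exact mul_mem hx hy
    · intro x hx
      rw [← hS]
      exact IntermediateField.subset_adjoin k _ hx
  rw [h2]
  exact IntermediateField.finiteDimensional_adjoin fun x hx => hST x hx

section

variable [CharZero k]

theorem isGalois_Kb (k : Type*) [Field k] [CharZero k] (K : Type*) [Field K] [Algebra k K] :
    IsGalois K (AlgebraicClosure K) := by
  have := charZero_K k K
  exact IsGalois.mk

/-- **constants of `K C`** -/
theorem const_mem (hc : algebraicClosure k K = ⊥) (C : IntermediateField k Kb)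
    [FiniteDimensional k C] {c : Kb} (hcK : c ∈ KC K C) (hck : c ∈ kb k K) : c ∈ C := by
  have hKc := charZero_K k K
  have : IsGalois K Kb := isGalois_Kb k K
  have hci : IsIntegral k c := mem_kb.mp hck
  have : FiniteDimensional k (IntermediateField.adjoin k {c}) :=
    IntermediateField.adjoin.finiteDimensional hci
  set D : IntermediateField k Kb := C ⊔ IntermediateField.adjoin k {c} with hD
  have hDfd : FiniteDimensional k D := IntermediateField.finiteDimensional_sup _ _
  have hDalg : Algebra.IsAlgebraic k D := inferInstance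
  set N : IntermediateField k Kb := IntermediateField.normalClosure k D Kb with hN
  have hDN : D ≤ N := D.le_normalClosure
  have hNfd : FiniteDimensional k N := normalClosure.is_finiteDimensional k D Kb
  have hNn : Normal k N := by
    have h1 : IsNormalClosure k D N :=
      Algebra.IsAlgebraic.isNormalClosure_normalClosure fun x => IsAlgClosed.splits _
    exact h1.normal
  have hNg : IsGalois k N := IsGalois.mk
  have hCN : C ≤ N := le_sup_left.trans hDN
  have hcN : c ∈ N := hDN (le_sup_right (a := C) (IntermediateField.mem_adjoin_simple_self k c))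
  let ρ : (Kb ≃ₐ[K] Kb) →* (N ≃ₐ[k] N) :=
    (AlgEquiv.restrictNormalHom N).comp (AlgEquiv.restrictScalarsHom k)
  have hρ : ∀ (σ : Kb ≃ₐ[K] Kb) (x : N), ((ρ σ x : N) : Kb) = σ x := by
    intro σ x
    exact AlgEquiv.restrictNormal_commutes (σ.restrictScalars k) N x
  have hfix : IntermediateField.fixedField ρ.range = ⊥ := by
    rw [eq_bot_iff]
    intro x hx
    rw [IntermediateField.mem_fixedField_iff] at hx
    have h1 : ∀ σ : Kb ≃ₐ[K] Kb, σ (x : Kb) = x := by
      intro σ
      rw [← hρ]
      exact congrArg (fun z : N => (z : Kb)) (hx _ ⟨σ, rfl⟩)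
    obtain ⟨y, hy⟩ := Hens_899.mem_range_of_fixed' h1
    have h2 : y ∈ algebraicClosure k K := by
      rw [mem_algebraicClosure_iff]
      have h3 : IsAlgebraic k (algebraMap K Kb y) := by
        rw [hy]
        have : IsAlgebraic k x := Algebra.IsAlgebraic.isAlgebraic x
        exact (isAlgebraic_algebraMap_iff (algebraMap N Kb).injective).mpr this
      exact (isAlgebraic_algebraMap_iff (algebraMap K Kb).injective).mp h3
    rw [hc] at h2
    obtain ⟨z, hz⟩ := IntermediateField.mem_bot.mp h2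
    refine IntermediateField.mem_bot.mpr ⟨z, ?_⟩
    apply Subtype.ext
    rw [← hy, ← hz]
    rfl
  have htop : ρ.range = ⊤ := by
    rw [← IntermediateField.fixingSubgroup_fixedField ρ.range, hfix,
      IntermediateField.fixingSubgroup_bot]
  -- descend
  let CN : IntermediateField k N := IntermediateField.restrict hCN
  have h3 : (⟨c, hcN⟩ : N) ∈ CN := by
    rw [← IsGalois.fixedField_fixingSubgroup CN, IntermediateField.mem_fixedField_iff]
    intro τ hτ
    have hτr : τ ∈ ρ.range := by rw [htop]; exact Subgroup.mem_top τ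
    obtain ⟨σ, rfl⟩ := hτr
    apply Subtype.ext
    rw [hρ]
    have h4 : ∀ z ∈ KC K C, σ z = z := by
      intro z hz
      unfold KC at hz
      induction hz using IntermediateField.adjoin_induction with
      | mem d hd =>
        have h5 := (IntermediateField.mem_fixingSubgroup_iff _ _).mp hτ ⟨d, hCN hd⟩
          ((IntermediateField.mem_restrict hCN _).mpr hd)
        have h6 := congrArg (fun z : N => (z : Kb)) h5
        rwa [hρ] at h6
      | algebraMap x => exact σ.commutes x
      | add x y _ _ hx hy => rw [map_add, hx, hy]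
      | inv x _ hx => rw [map_inv₀, hx]
      | mul x y _ _ hx hy => rw [map_mul, hx, hy]
    exact h4 c hcK
  exact (IntermediateField.mem_restrict hCN _).mp h3

end

theorem exists_C_of_mem {g : Kb} (hg : g ∈ Kgeo k K) :
    ∃ C : IntermediateField k Kb, FiniteDimensional k C ∧ g ∈ KC K C := by
  obtain ⟨T, hT, hgT⟩ := IntermediateField.exists_finset_of_mem_adjoin hg
  refine ⟨IntermediateField.adjoin k (T : Set Kb), ?_, ?_⟩
  · exact IntermediateField.finiteDimensional_adjoin fun x hx => mem_kb.mp (hT hx)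
  · exact IntermediateField.adjoin.mono K _ _ (IntermediateField.subset_adjoin k _) hgT

theorem val_aut_place {P : Valuation Kb ℝ≥0} (hP : IsPlace k P) (σ : Kb ≃ₐ[K] Kb) :
    IsPlace k (P.comap (σ : Kb →+* Kb)) := by
  refine ⟨fun c hc => ?_, ?_⟩
  · have h1 : σ (algebraMap k Kb c) = algebraMap k Kb c := σ.commutes (algebraMap k K c)
    rw [Valuation.comap_apply]
    change P (σ (algebraMap k Kb c)) = 1
    rw [h1]
    exact hP.1 c hc
  · obtain ⟨a, h0, h1⟩ := hP.2
    refine ⟨σ.symm a, ?_, ?_⟩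
    · rw [Valuation.comap_apply]
      change P (σ (σ.symm a)) ≠ 0
      rwa [AlgEquiv.apply_symm_apply]
    · rw [Valuation.comap_apply]
      change P (σ (σ.symm a)) ≠ 1
      rwa [AlgEquiv.apply_symm_apply]

section ff

variable [CharZero k] [Algebra (RatFunc k) K] [IsScalarTower k (RatFunc k) K]
  [FiniteDimensional (RatFunc k) K]

/-- **rational descent** -/
theorem exists_rational (hc : algebraicClosure k K = ⊥) {P : Valuation Kb ℝ≥0}
    (hP : IsPlace k P) (C₀ : IntermediateField k Kb) [FiniteDimensional k C₀] :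
    ∃ C : IntermediateField k Kb, C₀ ≤ C ∧ FiniteDimensional k C ∧
      (∀ g ∈ KC K C, P g ≤ 1 → ∃ c ∈ C, P (g - c) < 1) ∧
      ∀ v : Valuation Kb ℝ≥0, IsPlace k v → (∀ g ∈ KC K C, v g ≤ 1 ↔ P g ≤ 1) →
        SameGeo k v P := by
  classical
  obtain ⟨f, hfp, hPf, hf0⟩ := exists_par (k := k) (K := K) hP
  obtain ⟨Ps, hPs1, hPs2⟩ := finite_over hfp hf0
  -- `f` in some `K C`
  have hf : ∃ C : IntermediateField k Kb, FiniteDimensional k C ∧ f ∈ KC K C := by
    refine exists_C_of_mem ?_
    rcases hfp with rfl | ⟨c, hck, rfl⟩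
    · exact inv_mem ((Kgeo k K).algebraMap_mem _)
    · exact sub_mem ((Kgeo k K).algebraMap_mem _) (kb_le_Kgeo hck)
  obtain ⟨Cf, hCf, hfC⟩ := hf
  -- separation
  have hsep : ∀ l : List (Valuation Kb ℝ≥0), ∃ C : IntermediateField k Kb,
      C₀ ⊔ Cf ≤ C ∧ FiniteDimensional k C ∧ ∀ Q ∈ l, ¬ SameGeo k Q P →
        ∃ g ∈ KC K C, ¬ (Q g ≤ 1 ↔ P g ≤ 1) := by
    intro l
    induction l with
    | nil => exact ⟨C₀ ⊔ Cf, le_rfl, IntermediateField.finiteDimensional_sup _ _, by simp⟩
    | cons Q l ih =>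
      obtain ⟨C, hC1, hC2, hC3⟩ := ih
      by_cases hQ : SameGeo k Q P
      · refine ⟨C, hC1, hC2, ?_⟩
        intro Q' hQ' hn
        rcases List.mem_cons.mp hQ' with rfl | h
        · exact absurd hQ hn
        · exact hC3 Q' h hn
      · have hQ' := hQ
        unfold SameGeo at hQ'
        push Not at hQ'
        have hex : ∃ g ∈ Kgeo k K, ¬ (Q g ≤ 1 ↔ P g ≤ 1) := by
          by_contra hcon
          push Not at hcon
          exact hQ fun g hg => by
            have := hcon g hg
            tauto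
        obtain ⟨g, hg, hgn⟩ := hex
        obtain ⟨C', hC', hgC'⟩ := exists_C_of_mem hg
        refine ⟨C ⊔ C', hC1.trans le_sup_left, IntermediateField.finiteDimensional_sup _ _, ?_⟩
        intro Q' hQ' hn
        rcases List.mem_cons.mp hQ' with rfl | h
        · exact ⟨g, KC_mono le_sup_right hgC', hgn⟩
        · obtain ⟨g', hg', hgn'⟩ := hC3 Q' h hn
          exact ⟨g', KC_mono le_sup_left hg', hgn'⟩
  obtain ⟨C, hC1, hC2, hC3⟩ := hsep Ps
  have hfC' : f ∈ KC K C := KC_mono (le_sup_right.trans hC1) hfC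
  have huniq : ∀ v : Valuation Kb ℝ≥0, IsPlace k v → (∀ g ∈ KC K C, v g ≤ 1 ↔ P g ≤ 1) →
      SameGeo k v P := by
    intro v hv hvP
    have hvf : v f < 1 := by
      by_contra hcon
      push Not at hcon
      have h1 : v f⁻¹ ≤ 1 := by
        rw [map_inv₀]
        exact inv_le_one_of_one_le₀ hcon
      have h2 := (hvP _ (inv_mem hfC')).mp h1
      rw [map_inv₀] at h2
      have hpos : 0 < P f := (Valuation.pos_iff P).mpr hf0
      exact absurd h2 (not_le.mpr ((one_lt_inv₀ hpos).mpr hPf))
    obtain ⟨Q, hQ, hQv⟩ := hPs2 v hv hvf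
    have hQP : SameGeo k Q P := by
      by_contra hn
      obtain ⟨g, hg, hgn⟩ := hC3 Q hQ hn
      exact hgn ((hQv g (KC_le_Kgeo C hg)).trans (hvP g hg))
    exact Cof4_669.SameGeo.trans (Cof4_669.SameGeo.symm hQv) hQP
  refine ⟨C, le_sup_left.trans hC1, hC2, ?_, huniq⟩
  intro g hg hg1
  obtain ⟨c, hck, hc1⟩ := exists_const_near (k := k) hP hg1
  refine ⟨c, ?_, hc1⟩
  refine const_mem hc C ?_ hck
  -- `c` is fixed by all automorphisms over `K C`
  have hKch := charZero_K k K
  have : CharZero (KC K C) := charZero_of_injective_algebraMap (algebraMap K (KC K C)).injective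
  have : Algebra.IsAlgebraic (KC K C) Kb := Algebra.IsAlgebraic.tower_top (K := K) (KC K C)
  have : IsAlgClosure (KC K C) Kb := ⟨inferInstance, inferInstance⟩
  have : Normal (KC K C) Kb := inferInstance
  have : IsGalois (KC K C) Kb := IsGalois.mk
  have hfix : ∀ τ : Kb ≃ₐ[KC K C] Kb, τ c = c := by
    intro τ
    let σ : Kb ≃ₐ[K] Kb := τ.restrictScalars K
    have hτ : ∀ z ∈ KC K C, σ z = z := fun z hz => τ.commutes ⟨z, hz⟩
    have hpl := val_aut_place hP σ
    have hsg : SameGeo k (P.comap (σ : Kb →+* Kb)) P := by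
      refine huniq _ hpl fun z hz => ?_
      rw [Valuation.comap_apply]
      change P (σ z) ≤ 1 ↔ _
      rw [hτ z hz]
    have h1 : (P.comap (σ : Kb →+* Kb)) (g - c) < 1 :=
      Cof4_669.SameGeo.lt_one (Cof4_669.SameGeo.symm hsg)
        (sub_mem (KC_le_Kgeo C hg) (kb_le_Kgeo hck)) hc1
    rw [Valuation.comap_apply] at h1
    change P (σ (g - c)) < 1 at h1
    rw [map_sub, hτ g hg] at h1
    have h2 : P (σ c - c) < 1 := by
      have : σ c - c = (g - c) - (g - σ c) := by ring
      rw [this]
      exact (P.map_sub _ _).trans_lt (max_lt hc1 h1)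
    have h3 : σ c ∈ kb k K := by
      rw [mem_kb] at hck ⊢
      exact hck.map (σ.restrictScalars k)
    by_contra hne
    have h4 := val_const hP (sub_mem h3 hck) (sub_ne_zero.mpr hne)
    rw [h4] at h2
    exact lt_irrefl _ h2
  obtain ⟨a, ha⟩ := Hens_899.mem_range_of_fixed' hfix
  rw [← ha]
  exact a.2

end ff

end Crest.Agent.R013.Cof5_669
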