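import Mathlib
import Crest.Agent.R013.Cof5_669
import Crest.Agent.R013.Puis3_702
import Crest.Agent.R013.RR20_948
import Crest.Agent.R013.Unr9_957
import Crest.Agent.R013.CntB7_491
import Crest.Agent.R013.RR17_948

-- ▼ part R013/Cof7_669
section

/-!
# Row 13, B-CUTOFF, part 7: Puiseux expansions evaluated in the completion: every algebraic
function of `x` is, near `x = 0`, in the closure of `k̄(x^(1/e))`.
-/

set_option autoImplicit false
set_option linter.unusedSectionVars false

namespace Crest.Agent.R013.Cof7_669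

open scoped NNReal Topology
open Filter Polynomial
open Crest.Agent.R013.SE_669 Crest.Agent.R013.Cof1_669 Crest.Agent.R013.Puis_702

section ev

variable {A : Type*} [Field A] {Ω : Type*} [Field Ω] (φ : A →+* Ω) (v : Valuation Ω ℝ≥0)

/-- power series with coefficients bounded at radius `ρ` -/
def Bd (φ : A →+* Ω) (v : Valuation Ω ℝ≥0) (ρ : ℝ≥0) : Subring (PowerSeries A) where
  carrier := {g | ∃ B : ℝ≥0, ∀ n : ℕ, v (φ (PowerSeries.coeff n g)) * ρ ^ n ≤ B}
  mul_mem' := by
    rintro g h ⟨B, hB⟩ ⟨B', hB'⟩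
    refine ⟨B * B', fun n => ?_⟩
    by_cases hρ : ρ ^ n = 0
    · rw [hρ, mul_zero]; exact zero_le
    have hρ' : 0 < ρ ^ n := pos_of_ne_zero hρ
    rw [PowerSeries.coeff_mul, map_sum, ← le_div_iff₀ hρ']
    refine v.map_sum_le fun p hp => ?_
    rw [Finset.HasAntidiagonal.mem_antidiagonal] at hp
    rw [le_div_iff₀ hρ']
    have h1 : v (φ (PowerSeries.coeff p.1 g * PowerSeries.coeff p.2 h)) * ρ ^ n =
        (v (φ (PowerSeries.coeff p.1 g)) * ρ ^ p.1) *
          (v (φ (PowerSeries.coeff p.2 h)) * ρ ^ p.2) := by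
      rw [map_mul, map_mul, ← hp, pow_add]
      ring
    rw [h1]
    exact mul_le_mul' (hB _) (hB' _)
  one_mem' := by
    refine ⟨1, fun n => ?_⟩
    rw [PowerSeries.coeff_one]
    split_ifs with h
    · subst h; simp
    · simp
  add_mem' := by
    rintro g h ⟨B, hB⟩ ⟨B', hB'⟩
    refine ⟨max B B', fun n => ?_⟩
    rw [map_add, map_add]
    rcases le_total (v (φ (PowerSeries.coeff n g))) (v (φ (PowerSeries.coeff n h))) with hle | hle
    · have h1 := v.map_add (φ (PowerSeries.coeff n g)) (φ (PowerSeries.coeff n h))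
      rw [max_eq_right hle] at h1
      exact (mul_le_mul_left h1 _).trans ((hB' n).trans (le_max_right _ _))
    · have h1 := v.map_add (φ (PowerSeries.coeff n g)) (φ (PowerSeries.coeff n h))
      rw [max_eq_left hle] at h1
      exact (mul_le_mul_left h1 _).trans ((hB n).trans (le_max_left _ _))
  zero_mem' := ⟨0, fun n => by simp⟩
  neg_mem' := by
    rintro g ⟨B, hB⟩
    refine ⟨B, fun n => ?_⟩
    rw [map_neg, map_neg, Valuation.map_neg]
    exact hB n


variable {φ v}

theorem summable_term {ρ : ℝ≥0} {g : PowerSeries A} (hg : g ∈ Bd φ v ρ) {ξ : Ω} (hξ : v ξ < ρ) :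
    Summable fun n => ‖A2a_275.toCpl v (φ (PowerSeries.coeff n g) * ξ ^ n)‖ := by
  obtain ⟨B, hB⟩ := hg
  have hρ : 0 < ρ := (zero_le (a := v ξ)).trans_lt hξ
  have hq : ((v ξ / ρ : ℝ≥0) : ℝ) < 1 := by
    have : v ξ / ρ < 1 := (div_lt_one hρ).mpr hξ
    exact_mod_cast this
  refine Summable.of_nonneg_of_le (fun n => norm_nonneg _) (fun n => ?_)
    ((summable_geometric_of_lt_one (NNReal.coe_nonneg _) hq).mul_left (B : ℝ))
  rw [A2a_275.norm_toCpl, map_mul, map_pow]
  have h1 : v (φ (PowerSeries.coeff n g)) * v ξ ^ n ≤ B * (v ξ / ρ) ^ n := by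
    have h2 : v ξ ^ n = ρ ^ n * (v ξ / ρ) ^ n := by
      rw [← mul_pow, mul_div_cancel₀ _ hρ.ne']
    rw [h2, ← mul_assoc]
    gcongr
    exact hB n
  exact_mod_cast h1

/-- evaluation of bounded power series in the completion -/
noncomputable def ev {ρ : ℝ≥0} {ξ : Ω} (hξ : v ξ < ρ) : Bd φ v ρ →+* A2a_275.Cpl v where
  toFun g := ∑' n, A2a_275.toCpl v (φ (PowerSeries.coeff n (g : PowerSeries A)) * ξ ^ n)
  map_one' := by
    rw [tsum_eq_single 0]
    · simp
    · intro n hn
      change A2a_275.toCpl v (φ (PowerSeries.coeff n (1 : PowerSeries A)) * ξ ^ n) = 0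
      rw [PowerSeries.coeff_one, if_neg hn]
      simp
  map_zero' := by
    have : ∀ n, A2a_275.toCpl v (φ (PowerSeries.coeff n ((0 : Bd φ v ρ) : PowerSeries A)) * ξ ^ n)
        = 0 := by
      intro n
      change A2a_275.toCpl v (φ (PowerSeries.coeff n (0 : PowerSeries A)) * ξ ^ n) = 0
      simp
    simp_rw [this, tsum_zero]
  map_add' g h := by
    have hg := (summable_term g.2 hξ).of_norm
    have hh := (summable_term h.2 hξ).of_norm
    rw [← hg.tsum_add hh]
    refine tsum_congr fun n => ?_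
    rw [← map_add, ← add_mul, ← map_add]
    congr 2
  map_mul' g h := by
    have hg := summable_term g.2 hξ
    have hh := summable_term h.2 hξ
    rw [tsum_mul_tsum_eq_tsum_sum_antidiagonal_of_summable_norm hg hh]
    refine tsum_congr fun n => ?_
    change A2a_275.toCpl v (φ (PowerSeries.coeff n ((g : PowerSeries A) * (h : PowerSeries A))) * ξ ^ n) = _
    rw [PowerSeries.coeff_mul, map_sum, Finset.sum_mul, map_sum]
    refine Finset.sum_congr rfl fun p hp => ?_
    rw [Finset.HasAntidiagonal.mem_antidiagonal] at hp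
    rw [← map_mul]
    congr 1
    rw [map_mul, ← hp, pow_add]
    ring

theorem tendsto_ev {ρ : ℝ≥0} {ξ : Ω} (hξ : v ξ < ρ) (g : Bd φ v ρ) :
    Tendsto (fun N => A2a_275.toCpl v (psum (fun n => φ (PowerSeries.coeff n (g : PowerSeries A))) ξ N))
      atTop (𝓝 (ev hξ g)) := by
  have h := ((summable_term g.2 hξ).of_norm).hasSum.tendsto_sum_nat
  refine h.congr fun N => ?_
  rw [← map_sum]
  rfl

end ev

section kum

open Crest.Agent.R013.Cof2_669 in
/-- integral equations over `k[x]` -/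
theorem exists_rel {k : Type*} [Field k] [CharZero k] {L : Type*} [Field L] [Algebra k L]
    [Algebra (RatFunc k) L] [IsScalarTower k (RatFunc k) L] [FiniteDimensional (RatFunc k) L]
    (y : L) (hy : Transcendental k y) (a : L) :
    ∃ q : k[X], q ≠ 0 ∧ ∃ F : k[X][X], F.Monic ∧
      F.eval₂ (aeval y : k[X] →ₐ[k] L).toRingHom (aeval y q * a) = 0 := by
  have hfin := RR20_948.ratAlg_finite (k := k) (K := L) y hy
  let i := RR20_948.ratAlg y hy
  have hfin' : @FiniteDimensional (RatFunc k) L _ _ i.toModule := hfin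
  have halg : @Algebra.IsAlgebraic (RatFunc k) L _ _ i := by
    let _ := i
    exact Algebra.IsAlgebraic.of_finite (RatFunc k) L
  let j : Algebra k[X] L := (aeval y : k[X] →ₐ[k] L).toRingHom.toAlgebra
  have hT : @IsScalarTower k[X] (RatFunc k) L _ i.toSMul j.toSMul := by
    let _ := i
    refine IsScalarTower.of_algebraMap_eq fun p => ?_
    have h : (aeval y : k[X] →ₐ[k] L) =
        (RR20_948.ratHom y hy).comp (IsScalarTower.toAlgHom k k[X] (RatFunc k)) := by
      refine algHom_ext ?_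
      rw [aeval_X]
      simp only [AlgHom.comp_apply, IsScalarTower.coe_toAlgHom', RatFunc.algebraMap_X]
      exact (RR20_948.ratHom_X y hy).symm
    exact congrArg (fun g : k[X] →ₐ[k] L => g p) h
  have halg2 : @Algebra.IsAlgebraic k[X] L _ _ j := by
    let _ := i
    exact (IsFractionRing.comap_isAlgebraic_iff (K := RatFunc k)).mpr halg
  obtain ⟨q, hq0, hq⟩ := (halg2.isAlgebraic a).exists_integral_multiple
  obtain ⟨F, hF1, hF2⟩ := hq
  refine ⟨q, hq0, F, hF1, ?_⟩
  have : (q • a : L) = aeval y q * a := by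
    rw [Algebra.smul_def]
    rfl
  rw [← this]
  exact hF2

theorem C_mem_Bd {A : Type*} [Field A] {Ω : Type*} [Field Ω] (φ : A →+* Ω)
    (v : Valuation Ω ℝ≥0) (ρ : ℝ≥0) (c : A) : (PowerSeries.C c) ∈ Bd φ v ρ := by
  refine ⟨v (φ c), fun n => ?_⟩
  rw [PowerSeries.coeff_C]
  split_ifs with h
  · subst h; simp
  · simp

theorem X_mem_Bd {A : Type*} [Field A] {Ω : Type*} [Field Ω] (φ : A →+* Ω)
    (v : Valuation Ω ℝ≥0) (ρ : ℝ≥0) : (PowerSeries.X) ∈ Bd φ v ρ := by
  refine ⟨ρ, fun n => ?_⟩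
  rw [PowerSeries.coeff_X]
  split_ifs with h
  · subst h; simp
  · simp

theorem ev_C {A : Type*} [Field A] {Ω : Type*} [Field Ω] {φ : A →+* Ω}
    {v : Valuation Ω ℝ≥0} {ρ : ℝ≥0} {ξ : Ω} (hξ : v ξ < ρ) (c : A) :
    ev hξ ⟨PowerSeries.C c, C_mem_Bd φ v ρ c⟩ = A2a_275.toCpl v (φ c) := by
  change ∑' n, A2a_275.toCpl v (φ (PowerSeries.coeff n (PowerSeries.C c)) * ξ ^ n) = _
  rw [tsum_eq_single 0]
  · rw [PowerSeries.coeff_zero_C]; simp
  · intro n hn
    rw [PowerSeries.coeff_C, if_neg hn]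
    simp

theorem ev_X {A : Type*} [Field A] {Ω : Type*} [Field Ω] {φ : A →+* Ω}
    {v : Valuation Ω ℝ≥0} {ρ : ℝ≥0} {ξ : Ω} (hξ : v ξ < ρ) :
    ev hξ ⟨PowerSeries.X, X_mem_Bd φ v ρ⟩ = A2a_275.toCpl v ξ := by
  change ∑' n, A2a_275.toCpl v (φ (PowerSeries.coeff n PowerSeries.X) * ξ ^ n) = _
  rw [tsum_eq_single 1]
  · rw [PowerSeries.coeff_one_X]; simp
  · intro n hn
    rw [PowerSeries.coeff_X, if_neg hn]
    simp

/-- roots of polynomials with convergent coefficients are convergent -/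
theorem conv_root {A : Type*} [Field A] [CharZero A] (u : Valuation A ℝ≥0)
    {g : (PowerSeries A)[X]} (hg : g.Monic)
    (hc : ∀ i, HahnSeries.ofPowerSeries ℤ A (g.coeff i) ∈ convL u) {r : PowerSeries A}
    (hr : g.eval r = 0) : HahnSeries.ofPowerSeries ℤ A r ∈ convL u := by
  apply conv_of_alg
  have h1 : (g.map (HahnSeries.ofPowerSeries ℤ A)) ∈
      lifts (algebraMap (convL u) (LaurentSeries A)) := by
    rw [lifts_iff_coeff_lifts]
    intro i
    exact ⟨⟨_, hc i⟩, by rw [coeff_map]; rfl⟩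
  obtain ⟨P, hP, -, hPm⟩ := lifts_and_natDegree_eq_and_monic h1 (hg.map _)
  refine ⟨P, hPm.ne_zero, ?_⟩
  rw [aeval_def, eval₂_eq_eval_map, hP, eval_map, Polynomial.eval₂_at_apply, hr, map_zero]

end kum

section main

open Crest.Agent.R013.Cof2_669 Crest.Agent.R013.Unr4_957

variable {k : Type*} [Field k] {K : Type*} [Field K] [Algebra k K]

local notation "Kb" => AlgebraicClosure K

variable [CharZero k] [Algebra (RatFunc k) K] [IsScalarTower k (RatFunc k) K]
  [FiniteDimensional (RatFunc k) K]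

/-- **Puiseux** in the closure: for every norm on a small circle around `x = 0` the algebraic
element `a` is in the closure of every field containing `k̄` and (in its closure) an `e`-th root of
`x` -/
theorem kum_Kb (w : Valuation Kb ℝ≥0) (x a : Kb) (hx : Transcendental k x) :
    ∃ e : ℕ, e ≠ 0 ∧ ∃ R₀ : ℝ≥0, 0 < R₀ ∧ ∀ v : Valuation Kb ℝ≥0,
      (∀ c ∈ kb k K, v c = w c) → ∀ ξ : Kb, ξ ^ e = x → v x < R₀ →
      ∀ S : Subfield Kb, (∀ c ∈ kb k K, c ∈ S) → ξ ∈ cl v (S : Set Kb) →
        a ∈ cl v (S : Set Kb) := by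
  classical
  have hK0 := charZero_K k K
  -- the relation
  have hrel : ∃ q : k[X], q ≠ 0 ∧ ∃ F : k[X][X], F.Monic ∧
      F.eval₂ (aeval x : k[X] →ₐ[k] Kb).toRingHom (aeval x q * a) = 0 := by
    let L : IntermediateField K Kb := IntermediateField.adjoin K {x, a}
    have hLf : FiniteDimensional K L := by
      refine IntermediateField.finiteDimensional_adjoin (S := {x, a}) fun z _ => ?_
      exact Algebra.IsIntegral.isIntegral z
    have := finite_IF (k := k) L
    have := tower_IF (k := k) L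
    have hxL : x ∈ L := IntermediateField.subset_adjoin K _ (by simp)
    have haL : a ∈ L := IntermediateField.subset_adjoin K _ (by simp)
    have : IsScalarTower k L Kb := tower_kLb L
    have htr : Transcendental k (⟨x, hxL⟩ : L) := by
      intro h
      exact hx ((isAlgebraic_algebraMap_iff (algebraMap L Kb).injective).mpr h)
    obtain ⟨q, hq0, F, hF, hFe⟩ := exists_rel (k := k) (L := L) ⟨x, hxL⟩ htr ⟨a, haL⟩
    refine ⟨q, hq0, F, hF, ?_⟩
    have h1 : ∀ p : k[X], algebraMap L Kb (aeval (⟨x, hxL⟩ : L) p) = aeval x p := fun p =>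
      (aeval_algebraMap_apply Kb (⟨x, hxL⟩ : L) p).symm
    have h2 := congrArg (algebraMap L Kb) hFe
    rw [map_zero, Polynomial.hom_eval₂, map_mul, h1] at h2
    have h3 : (algebraMap L Kb).comp (aeval (⟨x, hxL⟩ : L) : k[X] →ₐ[k] L).toRingHom =
        (aeval x : k[X] →ₐ[k] Kb).toRingHom := RingHom.ext h1
    rw [h3] at h2
    exact h2
  obtain ⟨q, hq0, F, hF, hFe⟩ := hrel
  have hA0 : CharZero (kb k K) := charZero_of_injective_algebraMap (algebraMap k (kb k K)).injective
  let γ : k[X] →+* PowerSeries (kb k K) :=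
    (Polynomial.coeToPowerSeries.ringHom).comp (Polynomial.mapRingHom (algebraMap k (kb k K)))
  obtain ⟨e, he, hs⟩ := puiseux_ps (F.map γ) (hF.map γ)
  set γe : k[X] →+* PowerSeries (kb k K) := (ex e he).comp γ with hγe
  have hγC : ∀ c : k, γe (C c) = PowerSeries.C (algebraMap k (kb k K) c) := by
    intro c
    rw [hγe, RingHom.comp_apply, ex_apply]
    have : γ (C c) = PowerSeries.C (algebraMap k (kb k K) c) := by
      simp only [γ, RingHom.comp_apply, coe_mapRingHom, map_C]
      exact Polynomial.coe_C _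
    rw [this]
    exact PowerSeries.expand_C _ _ _
  have hγX : γe X = PowerSeries.X ^ e := by
    rw [hγe, RingHom.comp_apply, ex_apply]
    have : γ X = PowerSeries.X := by
      simp only [γ, RingHom.comp_apply, coe_mapRingHom, map_X]
      exact Polynomial.coe_X
    rw [this]
    exact PowerSeries.expand_X _ _
  rw [Polynomial.map_map, ← hγe] at hs
  set g : (PowerSeries (kb k K))[X] := F.map γe with hg
  have hgm : g.Monic := hF.map _
  have hgprod := hs.eq_prod_roots_of_monic hgm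
  -- convergence of the roots
  let u : Valuation (kb k K) ℝ≥0 := w.comap (algebraMap (kb k K) Kb)
  have hγconv : ∀ p : k[X], HahnSeries.ofPowerSeries ℤ (kb k K) (γe p) ∈ convL u := by
    intro p
    induction p using Polynomial.induction_on' with
    | add p q hp hq => rw [map_add, map_add]; exact (convL u).add_mem hp hq
    | monomial n c =>
      rw [← C_mul_X_pow_eq_monomial, map_mul, map_mul, map_pow, map_pow, hγC, hγX]
      refine (convL u).mul_mem ?_ ((convL u).pow_mem ?_ n)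
      · exact CL.of_conv (Eis_863.conv_C (hO u) _)
      · rw [map_pow]
        refine (convL u).pow_mem ?_ e
        have := CL.of_conv (v := u) (conv_X_pow (v := u) 1)
        rwa [pow_one] at this
  have hroots : ∀ r ∈ g.roots, HahnSeries.ofPowerSeries ℤ (kb k K) r ∈ convL u := by
    intro r hr
    refine conv_root u hgm (fun i => ?_) (isRoot_of_mem_roots hr)
    rw [hg, coeff_map]
    exact hγconv _
  obtain ⟨ρ, hρ, B, hB⟩ := bdd_common (v := u)
    (g.roots.toFinset.image (HahnSeries.ofPowerSeries ℤ (kb k K))) (by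
      intro z hz
      obtain ⟨r, hr, rfl⟩ := Finset.mem_image.mp hz
      exact hroots r (Multiset.mem_toFinset.mp hr))
  have hBr : ∀ r ∈ g.roots, ∀ n : ℕ, w ((PowerSeries.coeff n r : kb k K) : Kb) * ρ ^ n ≤ B := by
    intro r hr n
    have h1 := hB _ (Finset.mem_image_of_mem _ (Multiset.mem_toFinset.mpr hr)) (n : ℤ)
    rw [PowerSeries.coeff_coe, if_neg (by omega), Int.natAbs_natCast, zpow_natCast] at h1
    exact h1
  refine ⟨e, he, ρ ^ e, by positivity, ?_⟩
  intro v hvw ξ hξ hvx S hS hξS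
  have hvξ : v ξ < ρ := by
    rw [← hξ, map_pow] at hvx
    exact lt_of_pow_lt_pow_left₀ e zero_le hvx
  let φ : kb k K →+* Kb := algebraMap (kb k K) Kb
  have hrBd : ∀ r ∈ g.roots, r ∈ Bd φ v ρ := by
    intro r hr
    refine ⟨B, fun n => ?_⟩
    have h1 : v (φ (PowerSeries.coeff n r)) = w ((PowerSeries.coeff n r : kb k K) : Kb) :=
      hvw _ (PowerSeries.coeff n r).2
    rw [h1]
    exact hBr r hr n
  have hγBd : ∀ p : k[X], γe p ∈ Bd φ v ρ := by
    intro p
    induction p using Polynomial.induction_on' with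
    | add p q hp hq => rw [map_add]; exact (Bd φ v ρ).add_mem hp hq
    | monomial n c =>
      rw [← C_mul_X_pow_eq_monomial, map_mul, map_pow, hγC, hγX]
      exact (Bd φ v ρ).mul_mem (C_mem_Bd _ _ _ _)
        ((Bd φ v ρ).pow_mem ((Bd φ v ρ).pow_mem (X_mem_Bd _ _ _) e) n)
  let ψ : k[X] →+* Bd φ v ρ := γe.codRestrict (Bd φ v ρ) hγBd
  let E : Bd φ v ρ →+* A2a_275.Cpl v := ev hvξ
  have hEψ : E.comp ψ = (A2a_275.toCpl v).comp (aeval x : k[X] →ₐ[k] Kb).toRingHom := by
    refine Polynomial.ringHom_ext (fun c => ?_) ?_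
    · have h1 : ψ (C c) = ⟨PowerSeries.C (algebraMap k (kb k K) c), C_mem_Bd φ v ρ _⟩ :=
        Subtype.ext (hγC c)
      rw [RingHom.comp_apply, h1]
      change ev hvξ _ = A2a_275.toCpl v (aeval x (C c))
      rw [ev_C, aeval_C]
      rfl
    · have h1 : ψ X = ⟨PowerSeries.X, X_mem_Bd φ v ρ⟩ ^ e := Subtype.ext hγX
      rw [RingHom.comp_apply, h1, map_pow]
      change (ev hvξ _) ^ e = A2a_275.toCpl v (aeval x X)
      rw [ev_X, aeval_X, ← hξ, map_pow]
  -- the product decomposition over `Bd`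
  let gB : (Bd φ v ρ)[X] := (g.roots.attach.map fun r => X - C (⟨r.1, hrBd r.1 r.2⟩ : Bd φ v ρ)).prod
  have hgB : F.map ψ = gB := by
    apply Polynomial.map_injective (Bd φ v ρ).subtype Subtype.val_injective
    rw [Polynomial.map_map]
    have h1 : (Bd φ v ρ).subtype.comp ψ = γe := RingHom.ext fun p => rfl
    rw [h1, ← hg]
    conv_lhs => rw [hgprod]
    simp only [gB]
    rw [Polynomial.map_multiset_prod, Multiset.map_map]
    conv_lhs => rw [← Multiset.attach_map_val g.roots, Multiset.map_map]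
    congr 1
    refine Multiset.map_congr rfl fun r _ => ?_
    simp
  set a' : Kb := aeval x q * a with ha'
  have hzero : (F.map ψ).eval₂ E (A2a_275.toCpl v a') = 0 := by
    rw [eval₂_map, hEψ, ← Polynomial.hom_eval₂, hFe, map_zero]
  rw [hgB, eval₂_eq_eval_map] at hzero
  simp only [gB] at hzero
  rw [Polynomial.map_multiset_prod, Multiset.map_map, eval_multiset_prod, Multiset.map_map,
    Multiset.prod_eq_zero_iff, Multiset.mem_map] at hzero
  obtain ⟨r, -, hr⟩ := hzero
  simp only [Function.comp_apply, Polynomial.map_sub, Polynomial.map_X, Polynomial.map_C,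
    eval_sub, eval_X, eval_C, sub_eq_zero] at hr
  -- `a'` is a limit
  have hkS : ∀ c ∈ kb k K, c ∈ clF v S := fun c hc => subset_cl v _ (hS c hc)
  have hps : ∀ N, psum (fun n => φ (PowerSeries.coeff n r.1)) ξ N ∈ clF v S := by
    intro N
    unfold psum
    exact sum_mem fun i _ => mul_mem (hkS _ (PowerSeries.coeff i r.1).2) (pow_mem hξS i)
  have ha'S : a' ∈ clF v S := by
    have h1 : a' ∈ cl v ((clF v S : Subfield Kb) : Set Kb) := by
      intro ε hε
      have h2 := tendsto_ev hvξ (⟨r.1, hrBd r.1 r.2⟩ : Bd φ v ρ)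
      rw [← show A2a_275.toCpl v a' = ev hvξ (⟨r.1, hrBd r.1 r.2⟩ : Bd φ v ρ) from hr] at h2
      rw [Metric.tendsto_atTop] at h2
      obtain ⟨N, hN⟩ := h2 ε (by exact_mod_cast hε)
      refine ⟨_, hps N, ?_⟩
      have h3 := hN N le_rfl
      rw [dist_comm, dist_eq_norm, ← map_sub, A2a_275.norm_toCpl] at h3
      exact_mod_cast h3
    exact cl_trans v (fun z hz => hz) h1
  have hxS : x ∈ clF v S := by
    rw [← hξ]
    exact pow_mem hξS e
  have hqx : aeval x q ∈ clF v S := by
    rw [aeval_eq_sum_range]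
    refine sum_mem fun i _ => ?_
    rw [Algebra.smul_def]
    refine mul_mem (hkS _ ?_) (pow_mem hxS i)
    exact (kb k K).algebraMap_mem _
  have hq1 : aeval x q ≠ 0 := fun h => hx ⟨q, hq0, h⟩
  have ha : a = a' / aeval x q := by
    rw [ha']
    field_simp
  have h5 : a ∈ clF v S := by
    rw [ha]
    exact div_mem ha'S hqx
  exact h5

end main

end Crest.Agent.R013.Cof7_669
end

-- ▼ part R013/Cof8_669
section

/-!
# Row 13, B-CUTOFF, part 8: Krasner's lemma for closures, reduction to a finite subextension,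
uniqueness of the norm on the constants, rescaling of places
-/

set_option autoImplicit false
set_option linter.unusedSectionVars false

namespace Crest.Agent.R013.Cof8_669

open scoped NNReal Topology
open Filter Polynomial Crest.NumberTheoryR.Sect
open Crest.Agent.R013.SE_669 Crest.Agent.R013.Cof1_669 Crest.Agent.R013.A2a_275

section krasner

variable {F : Type*} [Field F] [CharZero F] {Ω : Type*} [Field Ω] [IsAlgClosed Ω] [Algebra F Ω]
  [Algebra.IsAlgebraic F Ω]

/-- a valued algebraic extension inside the algebraic closure of the completion -/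
theorem exists_spec (v : Valuation Ω ℝ≥0)
    (hnt : ∃ a : F, 1 < (v.comap (algebraMap F Ω)) a) :
    ∃ j : Ω →+* AlgebraicClosure (Cpl (v.comap (algebraMap F Ω))),
      (∀ x : F, j (algebraMap F Ω x) = algebraMap (Cpl (v.comap (algebraMap F Ω))) _
        (toCpl (v.comap (algebraMap F Ω)) x)) ∧
      ∀ x : Ω, Wof (v.comap (algebraMap F Ω)) hnt j x = v x := by
  set w := v.comap (algebraMap F Ω) with hw
  obtain ⟨j, hj⟩ := exists_j (Ω := Ω) w
  have h1 := Wof_comap w hnt j hj
  have : IsAlgClosure F Ω := ⟨inferInstance, inferInstance⟩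
  have : Normal F Ω := inferInstance
  obtain ⟨σ, hσ⟩ := Unr9_957.exists_conj_normal (Wof w hnt j) v h1
  refine ⟨j.comp (σ : Ω →+* Ω), fun x => ?_, fun x => ?_⟩
  · rw [RingHom.comp_apply]
    change j (σ (algebraMap F Ω x)) = _
    rw [σ.commutes, hj]
  · rw [hσ x]
    rfl

/-- **Krasner**: if `b ∈ F` is closer to `α` than all conjugates of `α` then `α` is in the closure
of `F` -/
theorem mem_cl_of_krasner (v : Valuation Ω ℝ≥0)
    (hnt : ∃ a : F, 1 < v (algebraMap F Ω a)) (α : Ω) (b : F)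
    (h : ∀ α' : Ω, (minpoly F α).aeval α' = 0 → α' ≠ α → v (α - algebraMap F Ω b) < v (α - α')) :
    α ∈ cl v (Set.range (algebraMap F Ω)) := by
  set w := v.comap (algebraMap F Ω) with hw
  have hnt' : ∃ a : F, 1 < w a := hnt
  obtain ⟨j, hj, hjv⟩ := exists_spec v hnt'
  let _ := nnf w hnt'
  have hc0 : CharZero (Cpl w) := charZero_of_injective_ringHom (toCpl w).injective
  have hsp : ∀ x : Ω, spectralNorm (Cpl w) (AlgebraicClosure (Cpl w)) (j x) = (v x : ℝ) := by
    intro x
    rw [← hjv x, coe_Wof]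
  have hfix : ∀ τ : AlgebraicClosure (Cpl w) ≃ₐ[Cpl w] AlgebraicClosure (Cpl w), τ (j α) = j α := by
    intro τ
    -- `τ (j α)` is a conjugate
    set m := minpoly F α with hm
    have hint : IsIntegral F α := Algebra.IsIntegral.isIntegral α
    have hroot : (m.map ((algebraMap (Cpl w) (AlgebraicClosure (Cpl w))).comp (toCpl w))).eval
        (τ (j α)) = 0 := by
      have h1 : (m.map (algebraMap F Ω)).eval α = 0 := by
        rw [eval_map_algebraMap]; exact minpoly.aeval F α
      have h2 : (m.map ((algebraMap (Cpl w) (AlgebraicClosure (Cpl w))).comp (toCpl w))).eval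
          (j α) = 0 := by
        have h3 : (algebraMap (Cpl w) (AlgebraicClosure (Cpl w))).comp (toCpl w) =
            j.comp (algebraMap F Ω) := RingHom.ext fun x => (hj x).symm
        rw [h3, ← Polynomial.map_map, eval_map, Polynomial.eval₂_at_apply, h1, map_zero]
      have h4 : ((τ : AlgebraicClosure (Cpl w) →+* AlgebraicClosure (Cpl w)).comp
          ((algebraMap (Cpl w) (AlgebraicClosure (Cpl w))).comp (toCpl w))) =
          (algebraMap (Cpl w) (AlgebraicClosure (Cpl w))).comp (toCpl w) :=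
        RingHom.ext fun x => τ.commutes (toCpl w x)
      have h5 := congrArg (τ : AlgebraicClosure (Cpl w) →+* AlgebraicClosure (Cpl w)) h2
      rw [map_zero, ← Polynomial.eval₂_at_apply, ← eval_map, Polynomial.map_map, h4] at h5
      exact h5
    have hex : ∃ α' : Ω, m.aeval α' = 0 ∧ j α' = τ (j α) := by
      have h3 : (algebraMap (Cpl w) (AlgebraicClosure (Cpl w))).comp (toCpl w) =
          j.comp (algebraMap F Ω) := RingHom.ext fun x => (hj x).symm
      rw [h3, ← Polynomial.map_map] at hroot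
      have hs : (m.map (algebraMap F Ω)).Splits := IsAlgClosed.splits _
      have hm0 : m.map (algebraMap F Ω) ≠ 0 := by
        rw [Polynomial.map_ne_zero_iff (algebraMap F Ω).injective]
        exact minpoly.ne_zero hint
      obtain ⟨α', hα'⟩ := hs.mem_range_of_isRoot hm0 (i := j) hroot
      refine ⟨α', ?_, hα'⟩
      have h6 : j ((m.map (algebraMap F Ω)).eval α') = 0 := by
        rw [← Polynomial.eval₂_at_apply, ← eval_map, hα']
        exact hroot
      rw [map_eq_zero] at h6
      rwa [eval_map_algebraMap] at h6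
    obtain ⟨α', hα', hjα'⟩ := hex
    have hval : v (α' - algebraMap F Ω b) = v (α - algebraMap F Ω b) := by
      have h7 : ((v (α' - algebraMap F Ω b) : ℝ≥0) : ℝ) = v (α - algebraMap F Ω b) := by
        rw [← hsp, ← hsp, spectralNorm_eq_of_equiv τ (j (α - algebraMap F Ω b)), map_sub, map_sub,
          map_sub, hjα', hj, τ.commutes]
      exact_mod_cast h7
    by_contra hne
    have hne' : α' ≠ α := by
      rintro rfl
      exact hne hjα'.symm
    have h8 := h α' hα' hne'
    have h9 : v (α - α') ≤ v (α - algebraMap F Ω b) := by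
      have : α - α' = (α - algebraMap F Ω b) - (α' - algebraMap F Ω b) := by ring
      rw [this]
      refine (v.map_sub _ _).trans ?_
      rw [hval, max_self]
    exact absurd h8 (not_lt.mpr h9)
  have hgal : IsGalois (Cpl w) (AlgebraicClosure (Cpl w)) := IsGalois.mk
  obtain ⟨z, hz⟩ := Hens_899.mem_range_of_fixed' hfix
  intro ε hε
  obtain ⟨c, hc⟩ := (denseRange_toCpl w).exists_dist_lt z (ε := (ε : ℝ)) (by exact_mod_cast hε)
  refine ⟨algebraMap F Ω c, ⟨c, rfl⟩, ?_⟩
  have h10 : ((v (α - algebraMap F Ω c) : ℝ≥0) : ℝ) < ε := by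
    rw [← hsp, map_sub, hj, ← hz, ← map_sub, spectralNorm_extends, ← dist_eq_norm]
    exact hc
  exact_mod_cast h10

end krasner

section fin

variable {K : Type*} [Field K] [CharZero K] {Ω : Type*} [Field Ω] [IsAlgClosed Ω] [Algebra K Ω]
  [Algebra.IsAlgebraic K Ω]

/-- an element of the closure of `M` is in the closure of a finite subextension -/
theorem exists_finite (v : Valuation Ω ℝ≥0) (hnt : ∃ a : K, 1 < v (algebraMap K Ω a))
    (M : IntermediateField K Ω) (α : Ω) (hα : α ∈ cl v (M : Set Ω)) :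
    ∃ F : IntermediateField K Ω, F ≤ M ∧ FiniteDimensional K F ∧ α ∈ cl v (F : Set Ω) := by
  classical
  -- the minimal distance
  have hδ : ∃ δ : ℝ≥0, 0 < δ ∧ ∀ α' : Ω, (minpoly K α).aeval α' = 0 → α' ≠ α →
      δ ≤ v (α - α') := by
    let s : Finset Ω := (((minpoly K α).map (algebraMap K Ω)).roots.toFinset).erase α
    have hmem : ∀ α' : Ω, (minpoly K α).aeval α' = 0 → α' ≠ α → α' ∈ s := by
      intro α' h1 h2
      rw [Finset.mem_erase, Multiset.mem_toFinset, mem_roots]
      · refine ⟨h2, ?_⟩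
        rw [IsRoot.def, eval_map_algebraMap]
        exact h1
      · rw [Polynomial.map_ne_zero_iff (algebraMap K Ω).injective]
        exact minpoly.ne_zero (Algebra.IsIntegral.isIntegral α)
    by_cases hs : s.Nonempty
    · obtain ⟨β, hβ, hmin⟩ := s.exists_min_image (fun z => v (α - z)) hs
      refine ⟨v (α - β), ?_, fun α' h1 h2 => hmin α' (hmem α' h1 h2)⟩
      rw [Valuation.pos_iff, sub_ne_zero]
      exact fun h => (Finset.mem_erase.mp hβ).1 h.symm
    · refine ⟨1, one_pos, fun α' h1 h2 => ?_⟩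
      exact absurd ⟨α', hmem α' h1 h2⟩ hs
  obtain ⟨δ, hδ0, hδ⟩ := hδ
  obtain ⟨b, hb, hbα⟩ := hα δ hδ0
  have hbi : IsIntegral K b := Algebra.IsIntegral.isIntegral b
  refine ⟨IntermediateField.adjoin K {b}, ?_, IntermediateField.adjoin.finiteDimensional hbi, ?_⟩
  · rw [IntermediateField.adjoin_simple_le_iff]; exact hb
  · set F := IntermediateField.adjoin K {b} with hF
    have hc0 : CharZero F := charZero_of_injective_algebraMap (algebraMap K F).injective
    have halg : Algebra.IsAlgebraic F Ω := Algebra.IsAlgebraic.tower_top (K := K) F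
    have hb' : b ∈ F := IntermediateField.mem_adjoin_simple_self K b
    have h := mem_cl_of_krasner (F := F) v (by
      obtain ⟨a, ha⟩ := hnt
      exact ⟨algebraMap K F a, ha⟩) α ⟨b, hb'⟩ (by
      intro α' h1 h2
      refine hbα.trans_le (hδ α' ?_ h2)
      have h3 : minpoly F α ∣ (minpoly K α).map (algebraMap K F) :=
        minpoly.dvd_map_of_isScalarTower K F α
      obtain ⟨q, hq⟩ := h3
      have h4 : aeval α' ((minpoly K α).map (algebraMap K F)) = 0 := by
        rw [hq, map_mul, h1, zero_mul]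
      rwa [aeval_map_algebraMap] at h4)
    refine cl_mono v ?_ h
    rintro _ ⟨z, rfl⟩
    exact z.2

end fin

end Crest.Agent.R013.Cof8_669
end

-- ▼ part R013/Cof6_669
section

/-!
# Row 13, B-CUTOFF, part 6: (SE) over a finite constant extension, transported to the
algebraic closure of `K`
-/

set_option autoImplicit false
set_option linter.unusedSectionVars false

namespace Crest.Agent.R013.Cof6_669

open scoped NNReal Topology
open Filter Polynomial Crest.NumberTheoryR.Sect
open Crest.Agent.R013.SE_669 Crest.Agent.R013.Unr3_957 Crest.Agent.R013.Unr4_957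
  Crest.Agent.R013.Cof1_669 Crest.Agent.R013.Cof2_669 Crest.Agent.R013.Cof3_669
  Crest.Agent.R013.Cof4_669 Crest.Agent.R013.Cof5_669

section alg

variable {k : Type*} [Field k] {K : Type*} [Field K] [Algebra k K]

local notation "Kb" => AlgebraicClosure K

/-- `C → K C` -/
noncomputable def ιC (C : IntermediateField k Kb) : C →+* KC K C where
  toFun c := ⟨c, le_KC c.2⟩
  map_one' := rfl
  map_mul' _ _ := rfl
  map_zero' := rfl
  map_add' _ _ := rfl

theorem adjoin_top (C : IntermediateField k Kb) [FiniteDimensional k C] :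
    Algebra.adjoin K (Set.range (ιC C)) = ⊤ := by
  rw [eq_top_iff]
  rintro ⟨x, hx⟩ -
  have halg : ∀ y ∈ (C : Set Kb), IsAlgebraic K y := fun y hy => Algebra.IsAlgebraic.isAlgebraic y
  have h1 : (KC K C).toSubalgebra = Algebra.adjoin K (C : Set Kb) := by
    unfold KC
    exact IntermediateField.adjoin_toSubalgebra_of_isAlgebraic halg
  have hx' : x ∈ Algebra.adjoin K (C : Set Kb) := by rw [← h1]; exact hx
  have h2 : ∀ y (hy : y ∈ Algebra.adjoin K (C : Set Kb)), ∃ h : y ∈ KC K C,
      (⟨y, h⟩ : KC K C) ∈ Algebra.adjoin K (Set.range (ιC C)) := by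
    intro y hy
    induction hy using Algebra.adjoin_induction with
    | mem z hz => exact ⟨le_KC hz, Algebra.subset_adjoin ⟨⟨z, hz⟩, rfl⟩⟩
    | algebraMap z => exact ⟨(KC K C).algebraMap_mem z, Subalgebra.algebraMap_mem _ z⟩
    | add a b _ _ ha hb =>
      obtain ⟨ha1, ha2⟩ := ha
      obtain ⟨hb1, hb2⟩ := hb
      exact ⟨add_mem ha1 hb1, add_mem ha2 hb2⟩
    | mul a b _ _ ha hb =>
      obtain ⟨ha1, ha2⟩ := ha
      obtain ⟨hb1, hb2⟩ := hb
      exact ⟨mul_mem ha1 hb1, mul_mem ha2 hb2⟩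
  exact (h2 x hx').2

end alg

section main

variable {k : Type} [Field k] {K : Type} [Field K] [Algebra k K]

local notation "Kb" => AlgebraicClosure K

/-- the universal hypothesis -/
def SEall (p : ℕ) [Fact p.Prime] : Prop :=
  ∀ (k : Type) [Field k] [Algebra ℚ_[p] k] [FiniteDimensional ℚ_[p] k] (K : Type) [Field K]
    [Algebra k K] [Algebra (RatFunc k) K] [IsScalarTower k (RatFunc k) K] [FunctionField k K],
    algebraicClosure k K = ⊥ → 2 ≤ genus k K → SE p k K

theorem SE_local (p : ℕ) [Fact p.Prime] (hSE : SEall p) [Algebra ℚ_[p] k]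
    [FiniteDimensional ℚ_[p] k] [Algebra (RatFunc k) K] [IsScalarTower k (RatFunc k) K]
    [FunctionField k K] (hc : algebraicClosure k K = ⊥) (hg : 2 ≤ genus k K)
    (C₀ : IntermediateField k Kb) [FiniteDimensional k C₀] {P : Valuation Kb ℝ≥0}
    (hP : IsPlace k P) (hrat : ∀ g ∈ KC K C₀, P g ≤ 1 → ∃ c ∈ C₀, P (g - c) < 1)
    {x : Kb} (hx : x ∈ KC K C₀) (hx1 : P x < 1) (hx2 : ∀ g ∈ KC K C₀, P g < 1 → P g ≤ P x)
    (e : ℕ) (he : 0 < e) (δ : ℝ≥0) (hδ : 0 < δ) :
    ∃ (C : IntermediateField k Kb) (π ξ : Kb) (v : Valuation Kb ℝ≥0),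
      C₀ ≤ C ∧ FiniteDimensional k C ∧ π ∈ C ∧ π ≠ 0 ∧ v π < δ ∧
      ExtendsPadicNorm k Kb p v ∧ IsCircle K C P x (v π) v ∧ ξ ^ e = x ∧
      ξ ∈ cl v (maxUnramified k K : Set Kb) := by
  have hk0 : CharZero k := charZero_of_injective_algebraMap (algebraMap ℚ_[p] k).injective
  have hK0 := charZero_K k K
  have hKfd : FiniteDimensional (RatFunc k) K := inferInstance
  have : CharZero (RatFunc k) :=
    charZero_of_injective_algebraMap (algebraMap k (RatFunc k)).injective
  -- the constant extension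
  set L : IntermediateField K Kb := KC K C₀ with hL
  let iA : Algebra C₀ L := (ιC C₀).toAlgebra
  have iT : IsScalarTower k C₀ L := IsScalarTower.of_algebraMap_eq (fun _ => rfl)
  let iQ : Algebra ℚ_[p] C₀ := ((algebraMap k C₀).comp (algebraMap ℚ_[p] k)).toAlgebra
  have iQT : IsScalarTower ℚ_[p] k C₀ := IsScalarTower.of_algebraMap_eq (fun _ => rfl)
  have iQf : FiniteDimensional ℚ_[p] C₀ := FiniteDimensional.trans ℚ_[p] k C₀
  have iLf : FiniteDimensional K L := finite_KC C₀
  have hC0 : CharZero C₀ := charZero_of_injective_algebraMap (algebraMap k C₀).injective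
  have hce : CntB1_491.IsCE k C₀ K L := ⟨adjoin_top C₀, hc⟩
  obtain ⟨i1, i2, i3, i4, -⟩ := CntB7_491.exists_rat (k := k) (k' := C₀) (K := K) (K' := L)
  have hcL : algebraicClosure C₀ L = ⊥ := hce.hc'
  have hgL : 2 ≤ genus C₀ L := by
    rw [RR17_948.genus_eq_gen, CntB3_491.gen_eq hce, ← RR17_948.genus_eq_gen]
    exact hg
  have iFF : FunctionField C₀ L := i3
  have hSEL := hSE C₀ L hcL hgL
  -- the identification of the algebraic closures
  have iLKb : Algebra.IsAlgebraic L Kb := Algebra.IsAlgebraic.tower_top (K := K) L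
  have iLcl : IsAlgClosure L Kb := ⟨inferInstance, iLKb⟩
  let ε : AlgebraicClosure L ≃ₐ[L] Kb := IsAlgClosure.equiv L (AlgebraicClosure L) Kb
  have hεL : ∀ l : L, ε (algebraMap L (AlgebraicClosure L) l) = (l : Kb) := fun l => ε.commutes l
  have hεC : ∀ c : C₀, ε (algebraMap C₀ (AlgebraicClosure L) c) = (c : Kb) := fun c =>
    hεL (algebraMap C₀ L c)
  have hεs : ∀ y : Kb, ε (ε.symm y) = y := fun y => ε.apply_symm_apply y
  have hεs' : ∀ y, ε.symm (ε y) = y := fun y => ε.symm_apply_apply y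
  let P' : Valuation (AlgebraicClosure L) ℝ≥0 := P.comap (ε : AlgebraicClosure L →+* Kb)
  have hP' : ∀ y, P' y = P (ε y) := fun y => rfl
  have hP'L : ∀ l : L, (P'.comap (algebraMap L (AlgebraicClosure L))) l = P (l : Kb) := by
    intro l
    rw [Valuation.comap_apply, hP', hεL]
  have hplL : IsPlace k (P.comap (algebraMap L Kb)) := by
    have : IsScalarTower k L Kb := tower_kLb L
    exact Unr3_957.isPlace_comap (F := L) hP
  have hpl : IsPlace C₀ (P'.comap (algebraMap L (AlgebraicClosure L))) := by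
    refine ⟨fun c hc0 => ?_, ?_⟩
    · rw [hP'L]
      exact val_const hP (le_kb C₀ c.2) (fun h => hc0 (Subtype.ext h))
    · obtain ⟨a, h0, h1⟩ := hplL.2
      exact ⟨a, by rw [hP'L]; exact h0, by rw [hP'L]; exact h1⟩
  have hratL : IsRationalPlace C₀ L (P'.comap (algebraMap L (AlgebraicClosure L))) := by
    refine ⟨hpl, fun a ha => ?_⟩
    rw [hP'L] at ha
    obtain ⟨c, hcC, hcP⟩ := hrat a a.2 ha
    exact ⟨⟨c, hcC⟩, by rw [hP'L]; exact hcP⟩
  have hunif : IsUniformizerAt (P'.comap (algebraMap L (AlgebraicClosure L))) (⟨x, hx⟩ : L) := by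
    refine ⟨by rw [hP'L]; exact hx1, fun a ha => ?_⟩
    rw [hP'L] at ha ⊢
    rw [hP'L]
    exact hx2 a a.2 ha
  obtain ⟨C', π', ξ', v', hfd, hπC, hπ0, hπδ, hpn, hcirc, hξ, hcl⟩ :=
    hSEL P' ⟨x, hx⟩ hratL hunif e he δ hδ
  have hx' : ε (algebraMap L (AlgebraicClosure L) ⟨x, hx⟩) = x := hεL _
  -- the constants
  let ε₀ : AlgebraicClosure L →ₐ[C₀] Kb :=
    { (ε : AlgebraicClosure L →+* Kb) with commutes' := fun c => hεC c }
  have hε₀ : ∀ y, ε₀ y = ε y := fun _ => rfl
  let C : IntermediateField k Kb := (C'.map ε₀).restrictScalars k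
  have hmemC : ∀ y : Kb, y ∈ C ↔ ∃ y' ∈ C', ε y' = y := by
    intro y
    change y ∈ (C'.map ε₀) ↔ _
    rw [IntermediateField.mem_map]
    rfl
  let v : Valuation Kb ℝ≥0 := v'.comap (ε.symm : Kb →+* AlgebraicClosure L)
  have hv : ∀ y, v (ε y) = v' y := by
    intro y
    change v' (ε.symm (ε y)) = v' y
    rw [hεs']
  have hpsum : ∀ (c : ℕ → AlgebraicClosure L) (n : ℕ),
      ε (psum c (algebraMap L (AlgebraicClosure L) ⟨x, hx⟩) n) = psum (fun i => ε (c i)) x n := by
    intro c n
    unfold psum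
    rw [map_sum]
    refine Finset.sum_congr rfl fun i _ => ?_
    rw [map_mul, map_pow, hx']
  refine ⟨C, ε π', ε ξ', v, ?_, ?_, ?_, ?_, ?_, ?_, ?_, ?_, ?_⟩
  · intro c hcC
    rw [hmemC]
    exact ⟨algebraMap C₀ (AlgebraicClosure L) ⟨c, hcC⟩, C'.algebraMap_mem _, hεC ⟨c, hcC⟩⟩
  · have h1 : FiniteDimensional C₀ (C'.map ε₀) :=
      (C'.equivMap ε₀).toLinearEquiv.finiteDimensional
    have h2 : IsScalarTower k C₀ (C'.map ε₀) := IsScalarTower.of_algebraMap_eq (fun _ => rfl)
    exact FiniteDimensional.trans k C₀ (C'.map ε₀)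
  · exact (hmemC _).mpr ⟨π', hπC, rfl⟩
  · intro h
    exact hπ0 (ε.injective (by rw [h, map_zero]))
  · rw [hv]; exact hπδ
  · intro q
    have h1 := hpn q
    rw [← hv] at h1
    rw [← h1]
    congr 1
    exact (hεC (algebraMap k C₀ (algebraMap ℚ_[p] k q))).symm
  · rw [hv]
    constructor
    · intro n c hcC
      have h1 : ∀ i, ∃ y' ∈ C', ε y' = c i := fun i => (hmemC _).mp (hcC i)
      choose c' hc' hcc' using h1
      have h2 := hcirc.gauss n c' hc'
      have h3 : psum c x n = ε (psum c' (algebraMap L (AlgebraicClosure L) ⟨x, hx⟩) n) := by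
        rw [hpsum]
        congr 1
        funext i
        exact (hcc' i).symm
      rw [h3, hv, h2]
      refine Finset.sup_congr rfl fun i _ => ?_
      rw [← hcc' i, hv]
    · intro f
      obtain ⟨G, H, hG, hH, hH0, ⟨R, B, hR, hB⟩, ht1, ht2⟩ := hcirc.disc (algebraMap K L f)
      have h4 : ∀ n, algebraMap K Kb f * psum (fun i => ε (H i)) x n - psum (fun i => ε (G i)) x n =
          ε (algebraMap L (AlgebraicClosure L) (algebraMap K L f) *
            psum H (algebraMap L (AlgebraicClosure L) ⟨x, hx⟩) n -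
            psum G (algebraMap L (AlgebraicClosure L) ⟨x, hx⟩) n) := by
        intro n
        rw [map_sub, map_mul, hpsum, hpsum, hεL]
        rfl
      refine ⟨fun i => ε (G i), fun i => ε (H i), fun i => (hmemC _).mpr ⟨_, hG i, rfl⟩,
        fun i => (hmemC _).mpr ⟨_, hH i, rfl⟩, ?_, ⟨R, B, hR, fun i => ?_⟩, ?_, ?_⟩
      · obtain ⟨i, hi⟩ := hH0
        refine ⟨i, fun h => hi (ε.injective ?_)⟩
        rw [map_zero]
        exact h
      · rw [hv, hv]; exact hB i
      · simp_rw [h4, hv]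
        exact ht1
      · simp_rw [h4]
        exact ht2
  · rw [← map_pow, hξ, hx']
  · intro η hη
    obtain ⟨b', hb', hb1⟩ := hcl η hη
    have hUnr : Unr10_957.UnrEv k K L := by
      have h1 : L ≤ maxUnramified k K := by
        rw [hL]
        unfold KC
        rw [IntermediateField.adjoin_le_iff]
        intro c hcC
        exact MaxUnr_97.mem_maxUnramified_of_isIntegral c (mem_kb.mp (le_kb C₀ hcC))
      exact (Unr10_957.unr_iff_unrEv.mp (Unr5_957.le_maxUnramified_iff.mp h1)).2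
    refine ⟨ε b', ?_, ?_⟩
    · exact (Unr10_957.mem_maxUnramified_transport (k := k) (K := K) (k₁ := C₀) (L := L) hUnr
        (ε.restrictScalars K) b').mp hb'
    · rw [← map_sub, hv]
      exact hb1

end main

end Crest.Agent.R013.Cof6_669
end

-- ▼ part R013/Cof9_669
section

/-!
# Row 13, B-CUTOFF, part 9: norms on the constants, the field `K_U`, rescaling
-/

set_option autoImplicit false
set_option linter.unusedSectionVars false

namespace Crest.Agent.R013.Cof9_669

open scoped NNReal Topology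
open Filter Polynomial Crest.NumberTheoryR.Sect
open Crest.Agent.R013.SE_669 Crest.Agent.R013.Cof1_669 Crest.Agent.R013.Cof2_669
  Crest.Agent.R013.Cof3_669 Crest.Agent.R013.Cof4_669 Crest.Agent.R013.Cof5_669
  Crest.Agent.R013.Cof8_669 Crest.Agent.R013.Unr4_957

variable {k : Type*} [Field k] {K : Type*} [Field K] [Algebra k K]

local notation "Kb" => AlgebraicClosure K

section norm

variable (p : ℕ) [Fact p.Prime] [Algebra ℚ_[p] k] [FiniteDimensional ℚ_[p] k]

/-- uniqueness of the norm on the constants -/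
theorem norm_unique {v w : Valuation Kb ℝ≥0} (hv : ExtendsPadicNorm k Kb p v)
    (hw : ExtendsPadicNorm k Kb p w) {c : Kb} (hc : c ∈ kb k K) : v c = w c := by
  let _ : Algebra ℚ_[p] (kb k K) := ((algebraMap k (kb k K)).comp (algebraMap ℚ_[p] k)).toAlgebra
  have : IsScalarTower ℚ_[p] k (kb k K) := IsScalarTower.of_algebraMap_eq fun _ => rfl
  have : Algebra.IsAlgebraic ℚ_[p] k := Algebra.IsAlgebraic.of_finite _ _
  have : Algebra.IsAlgebraic k (kb k K) := inferInstance
  have : Algebra.IsAlgebraic ℚ_[p] (kb k K) := Algebra.IsAlgebraic.trans ℚ_[p] k (kb k K)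
  have key : ∀ {u : Valuation Kb ℝ≥0}, ExtendsPadicNorm k Kb p u →
      ((u c : ℝ≥0) : ℝ) = spectralNorm ℚ_[p] (kb k K) ⟨c, hc⟩ := by
    intro u hu
    let f : AbsoluteValue (kb k K) ℝ :=
      A2a_275.absOf (u.comap (algebraMap (kb k K) Kb))
    have hf : ∀ q : ℚ_[p], f (algebraMap ℚ_[p] (kb k K) q) = ‖q‖ := by
      intro q
      have h1 := hu q
      have h2 : ((u (algebraMap k Kb (algebraMap ℚ_[p] k q)) : ℝ≥0) : ℝ) = ‖q‖ := by
        rw [h1]; rfl
      exact h2
    exact spectralNorm_unique_field_norm_ext hf ⟨c, hc⟩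
  have h1 := (key hv).trans (key hw).symm
  exact_mod_cast h1

theorem one_lt_norm {v : Valuation Kb ℝ≥0} (hv : ExtendsPadicNorm k Kb p v) :
    ∃ a : K, 1 < v (algebraMap K Kb a) := by
  refine ⟨algebraMap k K (algebraMap ℚ_[p] k ((p : ℚ_[p])⁻¹)), ?_⟩
  have h1 := hv ((p : ℚ_[p])⁻¹)
  change 1 < v (algebraMap k Kb (algebraMap ℚ_[p] k ((p : ℚ_[p])⁻¹)))
  rw [h1, nnnorm_inv, ← NNReal.coe_lt_coe]
  rw [NNReal.coe_one, NNReal.coe_inv, coe_nnnorm, Padic.norm_p, inv_inv]
  exact_mod_cast (Fact.out : p.Prime).one_lt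

/-- conjugate norms -/
theorem norm_aut {v : Valuation Kb ℝ≥0} (hv : ExtendsPadicNorm k Kb p v) (σ : Kb ≃ₐ[K] Kb) :
    ExtendsPadicNorm k Kb p (v.comap (σ : Kb →+* Kb)) := by
  intro q
  rw [← hv q, Valuation.comap_apply]
  congr 1
  exact σ.commutes _

end norm

section KU

variable [CharZero k] [Algebra (RatFunc k) K] [IsScalarTower k (RatFunc k) K]
  [FiniteDimensional (RatFunc k) K]

/-- automorphisms act on closures -/
theorem mem_cl_aut (v : Valuation Kb ℝ≥0) (σ : Kb ≃ₐ[K] Kb) {F : IntermediateField K Kb}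
    (hF : ∀ z ∈ F, σ z ∈ F) (hF' : ∀ z ∈ F, σ.symm z ∈ F) {a : Kb} :
    a ∈ cl (v.comap (σ : Kb →+* Kb)) (F : Set Kb) ↔ σ a ∈ cl v (F : Set Kb) := by
  rw [mem_cl_comap]
  have h : ((σ : Kb →+* Kb) '' (F : Set Kb)) = (F : Set Kb) := by
    ext z
    constructor
    · rintro ⟨y, hy, rfl⟩
      exact hF y hy
    · intro hz
      exact ⟨σ.symm z, hF' z hz, σ.apply_symm_apply z⟩
  rw [h]
  rfl

theorem aut_mem_M (σ : Kb ≃ₐ[K] Kb) {z : Kb} (hz : z ∈ maxUnramified k K) :
    σ z ∈ maxUnramified k K :=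
  MaxUnr_97.map_maxUnramified_le σ.toAlgHom ⟨z, hz, rfl⟩

/-- the field `K_U` -/
theorem exists_KU (v₀ : Valuation Kb ℝ≥0) (hnt : ∃ a : K, 1 < v₀ (algebraMap K Kb a))
    (C : IntermediateField k Kb) [FiniteDimensional k C] (α : Kb)
    (hα : ∀ v : Valuation Kb ℝ≥0, (∀ g ∈ KC K C, v g = v₀ g) →
      α ∈ cl v (maxUnramified k K : Set Kb)) :
    ∃ KU : IntermediateField K Kb, FiniteDimensional K KU ∧ KU ≤ maxUnramified k K ∧
      KC K C ≤ KU ∧ ∀ v : Valuation Kb ℝ≥0, (∀ g ∈ KC K C, v g = v₀ g) →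
        α ∈ cl v (KU : Set Kb) := by
  classical
  have hK0 := charZero_K k K
  -- a finite field good for all conjugates
  have hfin : ∀ s : Finset Kb, ∃ F : IntermediateField K Kb, F ≤ maxUnramified k K ∧
      FiniteDimensional K F ∧ ∀ β ∈ s, β ∈ cl v₀ (maxUnramified k K : Set Kb) →
        β ∈ cl v₀ (F : Set Kb) := by
    intro s
    induction s using Finset.induction_on with
    | empty => exact ⟨⊥, bot_le, inferInstance, by simp⟩
    | insert β s _ ih =>
      obtain ⟨F, hF1, hF2, hF3⟩ := ih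
      by_cases hβ : β ∈ cl v₀ (maxUnramified k K : Set Kb)
      · obtain ⟨F', hF1', hF2', hF3'⟩ := exists_finite v₀ hnt (maxUnramified k K) β hβ
        refine ⟨F ⊔ F', sup_le hF1 hF1', IntermediateField.finiteDimensional_sup _ _, ?_⟩
        intro γ hγ hγM
        rcases Finset.mem_insert.mp hγ with rfl | hγ
        · exact cl_mono v₀ (le_sup_right : F' ≤ F ⊔ F') hF3'
        · exact cl_mono v₀ (le_sup_left : F ≤ F ⊔ F') (hF3 γ hγ hγM)
      · refine ⟨F, hF1, hF2, fun γ hγ hγM => ?_⟩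
        rcases Finset.mem_insert.mp hγ with rfl | hγ
        · exact absurd hγM hβ
        · exact hF3 γ hγ hγM
  obtain ⟨F, hF1, hF2, hF3⟩ := hfin ((minpoly K α).aroots Kb).toFinset
  have hnM : Normal K (maxUnramified k K) := MaxUnr_97.normal_maxUnramified
  have hKbn : Normal K Kb := by
    have := isGalois_Kb k K
    exact this.to_normal
  set N := IntermediateField.normalClosure K F Kb with hN
  have hNM : N ≤ maxUnramified k K :=
    (IntermediateField.normalClosure_le_iff_of_normal).mpr hF1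
  have hFN : F ≤ N := F.le_normalClosure
  have hNf : FiniteDimensional K N := normalClosure.is_finiteDimensional K F Kb
  have hNn : Normal K N := normalClosure.normal K F Kb
  have hCf : FiniteDimensional K (KC K C) := finite_KC C
  have hCM : KC K C ≤ maxUnramified k K := by
    unfold KC
    rw [IntermediateField.adjoin_le_iff]
    intro c hcC
    exact MaxUnr_97.mem_maxUnramified_of_isIntegral c (mem_kb.mp (le_kb C hcC))
  refine ⟨KC K C ⊔ N, IntermediateField.finiteDimensional_sup _ _, sup_le hCM hNM, le_sup_left, ?_⟩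
  intro v hv
  -- `v = v₀ ∘ σ`, `σ` over `K C`
  have hc0 : CharZero (KC K C) := charZero_of_injective_algebraMap (algebraMap K (KC K C)).injective
  have halg : Algebra.IsAlgebraic (KC K C) Kb := Algebra.IsAlgebraic.tower_top (K := K) (KC K C)
  have : IsAlgClosure (KC K C) Kb := ⟨inferInstance, inferInstance⟩
  have : Normal (KC K C) Kb := inferInstance
  obtain ⟨τ, hτ⟩ := Unr9_957.exists_conj_normal (F := KC K C) v₀ v (by
    ext g
    change ((v₀ (g : Kb) : ℝ≥0) : ℝ) = ((v (g : Kb) : ℝ≥0) : ℝ)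
    rw [hv g g.2])
  let σ : Kb ≃ₐ[K] Kb := τ.restrictScalars K
  have hσv : v = v₀.comap (σ : Kb →+* Kb) := by
    ext x
    rw [hτ x]
    rfl
  have hσC : ∀ z ∈ KC K C, σ z = z := fun z hz => τ.commutes ⟨z, hz⟩
  have hσN : ∀ (ρ : Kb ≃ₐ[K] Kb), ∀ z ∈ N, ρ z ∈ N := by
    intro ρ z hz
    exact (IntermediateField.normal_iff_forall_map_le.mp hNn ρ.toAlgHom) ⟨z, hz, rfl⟩
  have hst : ∀ (ρ : Kb ≃ₐ[K] Kb), (∀ z ∈ KC K C, ρ z = z) → ∀ z ∈ KC K C ⊔ N, ρ z ∈ KC K C ⊔ N := by
    intro ρ hρ
    have h1 : (KC K C ⊔ N) ≤ (KC K C ⊔ N).comap ρ.toAlgHom := by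
      refine sup_le ?_ ?_
      · intro z hz
        change ρ z ∈ KC K C ⊔ N
        rw [hρ z hz]
        exact (le_sup_left : KC K C ≤ _) hz
      · intro z hz
        exact (le_sup_right : N ≤ KC K C ⊔ N) (hσN ρ z hz)
    exact fun z hz => h1 hz
  have hσC' : ∀ z ∈ KC K C, σ.symm z = z := by
    intro z hz
    rw [AlgEquiv.symm_apply_eq, hσC z hz]
  have hαM := hα v hv
  rw [hσv, mem_cl_aut v₀ σ (fun z hz => aut_mem_M σ hz) (fun z hz => aut_mem_M σ.symm hz)] at hαM
  rw [hσv, mem_cl_aut v₀ σ (hst σ hσC) (hst σ.symm hσC')]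
  have hmem : σ α ∈ ((minpoly K α).aroots Kb).toFinset := by
    rw [Multiset.mem_toFinset, mem_aroots]
    refine ⟨minpoly.ne_zero (Algebra.IsIntegral.isIntegral α), ?_⟩
    have : aeval (σ α) (minpoly K α) = σ (aeval α (minpoly K α)) :=
      aeval_algHom_apply σ.toAlgHom α _
    rw [this, minpoly.aeval, map_zero]
  exact cl_mono v₀ (hFN.trans le_sup_right) (hF3 _ hmem hαM)

end KU

section rescale

/-- a power of a valuation -/
noncomputable def powV {Ω : Type*} [Field Ω] (v : Valuation Ω ℝ≥0) (s : ℝ) (hs : 0 < s) :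
    Valuation Ω ℝ≥0 where
  toFun x := v x ^ s
  map_zero' := by rw [map_zero, NNReal.zero_rpow hs.ne']
  map_one' := by rw [map_one, NNReal.one_rpow]
  map_mul' x y := by rw [map_mul, NNReal.mul_rpow]
  map_add_le_max' x y := by
    rcases le_max_iff.mp (v.map_add x y) with h | h
    · exact le_max_of_le_left (NNReal.rpow_le_rpow h hs.le)
    · exact le_max_of_le_right (NNReal.rpow_le_rpow h hs.le)

theorem powV_apply {Ω : Type*} [Field Ω] (v : Valuation Ω ℝ≥0) (s : ℝ) (hs : 0 < s) (x : Ω) :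
    powV v s hs x = v x ^ s := rfl

theorem cl_powV {Ω : Type*} [Field Ω] (v : Valuation Ω ℝ≥0) (s : ℝ) (hs : 0 < s) (F : Set Ω) :
    cl (powV v s hs) F = cl v F := by
  ext a
  constructor
  · intro h ε hε
    obtain ⟨b, hb, h1⟩ := h (ε ^ s) (NNReal.rpow_pos hε)
    refine ⟨b, hb, ?_⟩
    rw [powV_apply] at h1
    exact (NNReal.rpow_lt_rpow_iff hs).mp h1
  · intro h ε hε
    obtain ⟨b, hb, h1⟩ := h (ε ^ s⁻¹) (NNReal.rpow_pos hε)
    refine ⟨b, hb, ?_⟩
    rw [powV_apply]
    have h2 := (NNReal.rpow_lt_rpow_iff hs).mpr h1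
    rwa [NNReal.rpow_inv_rpow hs.ne'] at h2

theorem isPlace_powV {v : Valuation Kb ℝ≥0} (hv : IsPlace k v) (s : ℝ) (hs : 0 < s) :
    IsPlace k (powV v s hs) := by
  refine ⟨fun c hc => ?_, ?_⟩
  · rw [powV_apply, hv.1 c hc, NNReal.one_rpow]
  · obtain ⟨a, h0, h1⟩ := hv.2
    refine ⟨a, ?_, ?_⟩
    · rw [powV_apply]
      exact (NNReal.rpow_pos (pos_of_ne_zero h0)).ne'
    · rw [powV_apply]
      intro h
      apply h1
      have h2 : (v a ^ s) ^ s⁻¹ = 1 := by rw [h, NNReal.one_rpow]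
      rwa [NNReal.rpow_rpow_inv hs.ne'] at h2

/-- equivalent places on a field with a uniformiser can be rescaled to be equal -/
theorem exists_rescale {v P : Valuation Kb ℝ≥0} {F : IntermediateField K Kb}
    (h : ∀ g ∈ F, v g ≤ 1 ↔ P g ≤ 1) {x : Kb} (hx : x ∈ F) (hx0 : x ≠ 0) (hx1 : P x < 1)
    (hx2 : ∀ g ∈ F, P g < 1 → P g ≤ P x) :
    ∃ (s : ℝ) (hs : 0 < s), ∀ g ∈ F, powV v s hs g = P g := by
  have hPx : 0 < P x := (Valuation.pos_iff P).mpr hx0
  have hvx0 : 0 < v x := (Valuation.pos_iff v).mpr hx0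
  -- `<`
  have hlt : ∀ g ∈ F, g ≠ 0 → (v g < 1 ↔ P g < 1) := by
    intro g hg hg0
    have h1 := h _ (inv_mem hg)
    rw [map_inv₀, map_inv₀, inv_le_one₀ ((Valuation.pos_iff v).mpr hg0),
      inv_le_one₀ ((Valuation.pos_iff P).mpr hg0)] at h1
    rw [← not_le, ← not_le, h1]
  have hvx : v x < 1 := (hlt x hx hx0).mpr hx1
  have heq : ∀ g ∈ F, P g = 1 → v g = 1 := by
    intro g hg h1
    have hg0 : g ≠ 0 := by
      rintro rfl
      rw [map_zero] at h1
      exact zero_ne_one h1
    refine le_antisymm ((h g hg).mpr h1.le) ?_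
    by_contra hcon
    push Not at hcon
    exact absurd ((hlt g hg hg0).mp hcon) (by rw [h1]; exact lt_irrefl _)
  -- discreteness
  have hdisc : ∀ g ∈ F, g ≠ 0 → ∃ n : ℤ, P g = P x ^ n := by
    intro g hg hg0
    have hPg : 0 < P g := (Valuation.pos_iff P).mpr hg0
    obtain ⟨n, hn1, hn2⟩ := exists_mem_Ioc_zpow (y := (P x)⁻¹) hPg ((one_lt_inv₀ hPx).mpr hx1)
    rw [inv_zpow] at hn1 hn2
    refine ⟨-(n + 1), ?_⟩
    have hxn : 0 < P x ^ (n + 1) := zpow_pos hPx _
    have h1 : P (g * x ^ (n + 1)) ≤ 1 := by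
      rw [map_mul, map_zpow₀]
      calc P g * P x ^ (n + 1) ≤ (P x ^ (n + 1))⁻¹ * P x ^ (n + 1) := by gcongr
        _ = 1 := inv_mul_cancel₀ hxn.ne'
    have h2 : P x < P (g * x ^ (n + 1)) := by
      rw [map_mul, map_zpow₀, zpow_add_one₀ hPx.ne']
      calc P x = (P x ^ n)⁻¹ * (P x ^ n * P x) := by
            rw [← mul_assoc, inv_mul_cancel₀ (zpow_pos hPx n).ne', one_mul]
        _ < P g * (P x ^ n * P x) := by
            have : 0 < P x ^ n * P x := mul_pos (zpow_pos hPx n) hPx
            gcongr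
    have h3 : P (g * x ^ (n + 1)) = 1 := by
      refine le_antisymm h1 ?_
      by_contra hcon
      push Not at hcon
      exact absurd (hx2 _ (mul_mem hg (zpow_mem hx _)) hcon) (not_le.mpr h2)
    rw [map_mul, map_zpow₀] at h3
    rw [zpow_neg]
    exact eq_inv_of_mul_eq_one_left h3
  have hlogP : Real.log (P x) < 0 := Real.log_neg (by exact_mod_cast hPx) (by exact_mod_cast hx1)
  have hlogv : Real.log (v x) < 0 := Real.log_neg (by exact_mod_cast hvx0) (by exact_mod_cast hvx)
  have hs : 0 < Real.log (P x) / Real.log (v x) := div_pos_of_neg_of_neg hlogP hlogv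
  refine ⟨_, hs, fun g hg => ?_⟩
  have hxs : v x ^ (Real.log (P x) / Real.log (v x)) = P x := by
    rw [← NNReal.coe_inj, NNReal.coe_rpow, Real.rpow_def_of_pos (by exact_mod_cast hvx0),
      mul_div_cancel₀ _ hlogv.ne, Real.exp_log (by exact_mod_cast hPx)]
  by_cases hg0 : g = 0
  · rw [hg0, map_zero, map_zero]
  obtain ⟨n, hn⟩ := hdisc g hg hg0
  have h1 : P (g * x ^ (-n)) = 1 := by
    rw [map_mul, map_zpow₀, hn, ← zpow_add₀ hPx.ne', add_neg_cancel, zpow_zero]
  have h2 := heq _ (mul_mem hg (zpow_mem hx _)) h1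
  rw [map_mul, map_zpow₀, zpow_neg, mul_inv_eq_one₀ (zpow_pos hvx0 n).ne'] at h2
  rw [powV_apply, h2, hn, ← NNReal.rpow_intCast, ← NNReal.rpow_mul, mul_comm, NNReal.rpow_mul,
    hxs, NNReal.rpow_intCast]

end rescale

end Crest.Agent.R013.Cof9_669
end

-- ▼ part R013/Cof10_669

/-!
# Row 13, B-CUTOFF, part 10: the statement `S0016` from (SE) and the cutting theorem (CUT-END)
-/

set_option autoImplicit false
set_option linter.unusedSectionVars false

namespace Crest.Agent.R013.Cof10_669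

open scoped NNReal Topology
open Filter Polynomial Crest.NumberTheoryR.Sect
open Crest.Agent.R013.SE_669 Crest.Agent.R013.Unr3_957 Crest.Agent.R013.Unr4_957
  Crest.Agent.R013.Cof1_669 Crest.Agent.R013.Cof2_669 Crest.Agent.R013.Cof3_669
  Crest.Agent.R013.Cof4_669 Crest.Agent.R013.Cof5_669 Crest.Agent.R013.Cof6_669
  Crest.Agent.R013.Cof7_669 Crest.Agent.R013.Cof8_669 Crest.Agent.R013.Cof9_669

/-- **(CUT-END)**, the cutting theorem (for 946) -/
def CutEnd (p : ℕ) [Fact p.Prime] (k : Type*) [Field k] [Algebra ℚ_[p] k] (K : Type*) [Field K]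
    [Algebra k K] : Prop :=
  ∀ (C : IntermediateField k (AlgebraicClosure K)) [FiniteDimensional k C]
    (π x : AlgebraicClosure K) (P v₀ : Valuation (AlgebraicClosure K) ℝ≥0),
    π ∈ C → π ≠ 0 → x ∈ KC K C → x ≠ 0 → IsPlace k P → P x < 1 →
    ExtendsPadicNorm k (AlgebraicClosure K) p v₀ → IsCircle K C P x (v₀ π) v₀ →
    ∀ (KU L : IntermediateField K (AlgebraicClosure K)) [FiniteDimensional K KU]
      [FiniteDimensional K L], KC K C ≤ KU → KC K C ≤ L →
    (∀ v : Valuation (AlgebraicClosure K) ℝ≥0, ExtendsPadicNorm k (AlgebraicClosure K) p v →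
      (∀ g ∈ KC K C, v g = v₀ g) →
      (L : Set (AlgebraicClosure K)) ⊆ cl v (KU : Set (AlgebraicClosure K))) →
    ∀ w : Valuation (AlgebraicClosure K) ℝ≥0, ExtendsPadicNorm k (AlgebraicClosure K) p w →
      w π ≤ w x →
    ∃ A' : IntermediateField K (AlgebraicClosure K), FiniteDimensional K A' ∧ KU ≤ A' ∧
      (L : Set (AlgebraicClosure K)) ⊆ cl w (A' : Set (AlgebraicClosure K)) ∧
      ∀ v : Valuation (AlgebraicClosure K) ℝ≥0, IsPlace k v →
        ((∃ s : AlgebraicClosure K ≃ₐ[K] AlgebraicClosure K, (∀ z ∈ KU, s z = z) ∧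
            (A' : Set (AlgebraicClosure K)) ⊆
              cl v (s '' ((L ⊔ KU : IntermediateField K (AlgebraicClosure K)) :
                Set (AlgebraicClosure K)))) ∨
          (A' : Set (AlgebraicClosure K)) ⊆ cl v (KU : Set (AlgebraicClosure K))) ∧
        ((∀ g ∈ KC K C, v g = P g) →
          (A' : Set (AlgebraicClosure K)) ⊆ cl v (KU : Set (AlgebraicClosure K)))

section base

variable {k : Type*} [Field k] {K : Type*} [Field K] [Algebra k K]

local notation "Kb" => AlgebraicClosure K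

theorem KC_le_M (C : IntermediateField k Kb) [FiniteDimensional k C]
    [CharZero k] [Algebra (RatFunc k) K] [IsScalarTower k (RatFunc k) K]
    [FiniteDimensional (RatFunc k) K] : KC K C ≤ maxUnramified k K := by
  unfold KC
  rw [IntermediateField.adjoin_le_iff]
  intro c hcC
  exact MaxUnr_97.mem_maxUnramified_of_isIntegral c (mem_kb.mp (le_kb C hcC))

theorem kb_le_M [CharZero k] [Algebra (RatFunc k) K] [IsScalarTower k (RatFunc k) K]
    [FiniteDimensional (RatFunc k) K] {c : Kb} (hc : c ∈ kb k K) : c ∈ maxUnramified k K :=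
  MaxUnr_97.mem_maxUnramified_of_isIntegral c (mem_kb.mp hc)

/-- conjugate valuations over `K C` -/
theorem exists_conj_KC [CharZero k] (C : IntermediateField k Kb) (v₀ v : Valuation Kb ℝ≥0)
    (h : ∀ g ∈ KC K C, v g = v₀ g) [FiniteDimensional k C] :
    ∃ σ : Kb ≃ₐ[K] Kb, v = v₀.comap (σ : Kb →+* Kb) ∧ ∀ z ∈ KC K C, σ z = z := by
  have hK0 := charZero_K k K
  have hc0 : CharZero (KC K C) := charZero_of_injective_algebraMap (algebraMap K (KC K C)).injective
  have halg : Algebra.IsAlgebraic (KC K C) Kb := Algebra.IsAlgebraic.tower_top (K := K) (KC K C)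
  have : IsAlgClosure (KC K C) Kb := ⟨inferInstance, inferInstance⟩
  have : Normal (KC K C) Kb := inferInstance
  obtain ⟨τ, hτ⟩ := Unr9_957.exists_conj_normal (F := KC K C) v₀ v (by
    ext g
    change ((v₀ (g : Kb) : ℝ≥0) : ℝ) = ((v (g : Kb) : ℝ≥0) : ℝ)
    rw [h g g.2])
  refine ⟨τ.restrictScalars K, ?_, fun z hz => τ.commutes ⟨z, hz⟩⟩
  ext x
  rw [hτ x]
  rfl

/-- a finite subfield of `maxUnramified` is unramified everywhere -/
theorem unrAt_of_le_M [CharZero k] [Algebra (RatFunc k) K] [IsScalarTower k (RatFunc k) K]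
    [FiniteDimensional (RatFunc k) K] {F : IntermediateField K Kb} [FiniteDimensional K F]
    (hF : F ≤ maxUnramified k K) {v : Valuation Kb ℝ≥0} (hv : IsPlace k v) :
    UnrAt K v (F : Set Kb) :=
  unrAt_of_unr (Unr5_957.le_maxUnramified_iff.mp hF) v hv

/-- closures under roots of unity -/
theorem root_mem_cl [CharZero k] [Algebra (RatFunc k) K] [IsScalarTower k (RatFunc k) K]
    [FiniteDimensional (RatFunc k) K] {v : Valuation Kb ℝ≥0} {x ξ ξ' : Kb} {e : ℕ} (he : 0 < e)
    (hξ : ξ ^ e = x) (hξ' : ξ' ^ e = x) (hx : x ≠ 0)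
    (h : ξ ∈ cl v (maxUnramified k K : Set Kb)) : ξ' ∈ cl v (maxUnramified k K : Set Kb) := by
  have hξ0 : ξ ≠ 0 := by
    rintro rfl
    rw [zero_pow he.ne'] at hξ
    exact hx hξ.symm
  have h1 : (ξ' / ξ) ^ e = 1 := by
    rw [div_pow, hξ, hξ', div_self hx]
  have h2 : ξ' / ξ ∈ kb k K := by
    rw [mem_kb]
    exact IsIntegral.of_pow he (by rw [h1]; exact isIntegral_one)
  have h3 : ξ' / ξ ∈ clI v (maxUnramified k K) := le_clI v _ (kb_le_M h2)
  have h4 : ξ ∈ clI v (maxUnramified k K) := h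
  have h5 := mul_mem h3 h4
  rw [div_mul_cancel₀ _ hξ0] at h5
  exact h5

end base

section main

variable {k : Type} [Field k] {K : Type} [Field K] [Algebra k K]

local notation "Kb" => AlgebraicClosure K

/-- **the induction** -/
theorem induct (p : ℕ) [Fact p.Prime] (hSE : SEall p) [Algebra ℚ_[p] k]
    [FiniteDimensional ℚ_[p] k] [Algebra (RatFunc k) K] [IsScalarTower k (RatFunc k) K]
    [FunctionField k K] (hc : algebraicClosure k K = ⊥) (hg : 2 ≤ genus k K)
    (hCut : CutEnd p k K) (w : Valuation Kb ℝ≥0) (hw : ExtendsPadicNorm k Kb p w) :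
    ∀ (Ps : List (Valuation Kb ℝ≥0)), (∀ P ∈ Ps, IsPlace k P) →
    ∀ (C : IntermediateField k Kb) [FiniteDimensional k C] (L : IntermediateField K Kb)
      [FiniteDimensional K L],
      (∀ v v' : Valuation Kb ℝ≥0, IsPlace k v → IsPlace k v' →
        (∀ g ∈ KC K C, v g ≤ 1 ↔ v' g ≤ 1) → ¬ UnrAt K v' (L : Set Kb) →
        ∃ P ∈ Ps, SameGeo k P v) →
      (L : Set Kb) ⊆ cl w (maxUnramified k K : Set Kb) := by
  have hk0 : CharZero k := charZero_of_injective_algebraMap (algebraMap ℚ_[p] k).injective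
  have hK0 := charZero_K k K
  have hKfd : FiniteDimensional (RatFunc k) K := inferInstance
  intro Ps
  induction Ps with
  | nil =>
    intro _ C _ L _ h
    have h1 : IsUnramifiedEverywhere k K L := by
      refine unr_of_unrAt fun v hv => ?_
      by_contra hcon
      obtain ⟨P, hP, -⟩ := h v v hv hv (fun _ _ => Iff.rfl) hcon
      simp at hP
    have h2 : L ≤ maxUnramified k K := Unr5_957.le_maxUnramified_iff.mpr h1
    exact fun a ha => subset_cl w _ (h2 ha)
  | cons P Ps' ih =>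
    intro hPs C _ L _ h
    have hP : IsPlace k P := hPs P (by simp)
    obtain ⟨C₁, hCC₁, hC₁f, hrat, -⟩ := exists_rational hc hP C
    -- a uniformiser
    have hKC₁f : FiniteDimensional K (KC K C₁) := finite_KC C₁
    have := finite_IF (k := k) (KC K C₁)
    have := tower_IF (k := k) (KC K C₁)
    have : IsScalarTower k (KC K C₁) Kb := tower_kLb (KC K C₁)
    have : Algebra.IsAlgebraic (KC K C₁) Kb := Algebra.IsAlgebraic.tower_top (K := K) (KC K C₁)
    obtain ⟨⟨x, hxm⟩, hx0', hx1', hx2'⟩ := Places_97.exists_uniformizer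
      (P.comap (algebraMap (KC K C₁) Kb)) (isPlace_comap (F := KC K C₁) hP)
    have hPx0 : P x ≠ 0 := hx0'
    have hx1 : P x < 1 := hx1'
    have hx2 : ∀ g ∈ KC K C₁, P g < 1 → P g ≤ P x := fun g hg h1 => hx2' ⟨g, hg⟩ h1
    have hx0 : x ≠ 0 := by
      rintro rfl
      exact hPx0 (map_zero P)
    have hxt : Transcendental k x := by
      intro hcon
      have h1 : P x = 1 := val_const hP (mem_kb.mpr hcon.isIntegral) hx0
      exact hx1.ne h1
    -- primitive element
    obtain ⟨α, hα⟩ : ∃ α : Kb, L = IntermediateField.adjoin K {α} := by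
      obtain ⟨β, hβ⟩ := Field.exists_primitive_element K L
      refine ⟨(β : Kb), ?_⟩
      have h1 := congrArg IntermediateField.lift hβ
      rw [IntermediateField.lift_adjoin_simple, IntermediateField.lift_top] at h1
      exact h1.symm
    obtain ⟨e, he, R₀, hR₀, hkum⟩ := kum_Kb w x α hxt
    have hwx : 0 < w x := (Valuation.pos_iff w).mpr hx0
    obtain ⟨C₂, π, ξ, v₀, hC₁₂, hC₂f, hπ, hπ0, hπδ, hv₀, hcirc, hξe, hξM⟩ :=
      SE_local p hSE hc hg C₁ hP hrat hxm hx1 hx2 e (Nat.pos_of_ne_zero he) (min R₀ (w x))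
        (lt_min hR₀ hwx)
    have hv₀x : v₀ x = v₀ π := by
      have h1 := hcirc.gauss 2 (fun i => if i = 1 then 1 else 0) (by
        intro i
        by_cases hi : i = 1
        · simp [hi, C₂.one_mem]
        · simp [hi, C₂.zero_mem])
      simpa [psum, Finset.sum_range_succ, Finset.sup_insert, Finset.range_add_one] using h1
    have hxm₂ : x ∈ KC K C₂ := KC_mono hC₁₂ hxm
    -- `α` is in the closure of `M` for the norms over the circle
    have hαM : ∀ v : Valuation Kb ℝ≥0, (∀ g ∈ KC K C₂, v g = v₀ g) →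
        α ∈ cl v (maxUnramified k K : Set Kb) := by
      intro v hv
      obtain ⟨σ, hσ, hσC⟩ := exists_conj_KC C₂ v₀ v hv
      have hvn : ExtendsPadicNorm k Kb p v := by
        rw [hσ]; exact norm_aut p hv₀ σ
      have h1 : ξ ∈ cl v (maxUnramified k K : Set Kb) := by
        rw [hσ, mem_cl_aut v₀ σ (fun z hz => aut_mem_M σ hz) (fun z hz => aut_mem_M σ.symm hz)]
        refine root_mem_cl (Nat.pos_of_ne_zero he) hξe ?_ hx0 hξM
        rw [← map_pow, hξe, hσC x hxm₂]
      refine hkum v (fun c hc => norm_unique p hvn hw hc) ξ hξe ?_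
        (maxUnramified k K).toSubfield (fun c hc => kb_le_M hc) h1
      rw [hv x hxm₂, hv₀x]
      exact hπδ.trans_le (min_le_left _ _)
    obtain ⟨a₁, ha₁⟩ := one_lt_norm (k := k) (K := K) p hv₀
    obtain ⟨KU, hKUf, hKUM, hKCU, hKUα⟩ := exists_KU v₀ ⟨a₁, ha₁⟩ C₂ α hαM
    have hKC₂f : FiniteDimensional K (KC K C₂) := finite_KC C₂
    have hL'f : FiniteDimensional K (L ⊔ KC K C₂ : IntermediateField K Kb) :=
      IntermediateField.finiteDimensional_sup L (KC K C₂)
    -- the cutting theorem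
    have hcut1 : ∀ v : Valuation Kb ℝ≥0, ExtendsPadicNorm k Kb p v →
        (∀ g ∈ KC K C₂, v g = v₀ g) →
        ((L ⊔ KC K C₂ : IntermediateField K Kb) : Set Kb) ⊆ cl v (KU : Set Kb) := by
      intro v _ hv
      have h1 : (L ⊔ KC K C₂ : IntermediateField K Kb) ≤ clI v KU := by
        refine sup_le ?_ (hKCU.trans (le_clI v KU))
        rw [hα, IntermediateField.adjoin_simple_le_iff]
        exact hKUα v hv
      exact fun z hz => h1 hz
    have hwπ : w π ≤ w x := by
      rw [norm_unique p hw hv₀ (le_kb C₂ hπ)]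
      exact (hπδ.trans_le (min_le_right _ _)).le
    obtain ⟨A', hA'f, hKUA', hLA', hA'pl⟩ := hCut C₂ π x P v₀ hπ hπ0 hxm₂ hx0 hP hx1 hv₀ hcirc KU
      (L ⊔ KC K C₂) hKCU le_sup_right hcut1 w hw hwπ
    -- the induction hypothesis
    have hIH : (A' : Set Kb) ⊆ cl w (maxUnramified k K : Set Kb) := by
      refine ih (fun Q hQ => hPs Q (List.mem_cons_of_mem _ hQ)) C₂ A' ?_
      intro v v' hv hv' hvv' hun
      obtain ⟨h1, -⟩ := hA'pl v' hv'
      have hKUun : ∀ u : Valuation Kb ℝ≥0, IsPlace k u → UnrAt K u (KU : Set Kb) :=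
        fun u hu => unrAt_of_le_M hKUM hu
      rcases h1 with ⟨s, hs1, hs2⟩ | h1
      swap
      · exact absurd (UnrAt.of_cl (hKUun v' hv') h1) hun
      have h2 : ¬ UnrAt K (v'.comap (s : Kb →+* Kb)) (L : Set Kb) := by
        intro h3
        apply hun
        refine UnrAt.of_cl ?_ hs2
        rw [← unrAt_comap]
        have hpl := val_aut_place hv' s
        refine UnrAt.mono (unrAt_sup hpl h3 (hKUun _ hpl)) ?_
        have h4 : (L ⊔ KC K C₂ ⊔ KU : IntermediateField K Kb) ≤ L ⊔ KU :=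
          sup_le (sup_le le_sup_left (hKCU.trans le_sup_right)) le_sup_right
        exact h4
      obtain ⟨Q, hQ, hQv⟩ := h v (v'.comap (s : Kb →+* Kb)) hv (val_aut_place hv' s) (by
        intro g hg
        have hg2 : g ∈ KC K C₂ := KC_mono (hCC₁.trans hC₁₂) hg
        rw [Valuation.comap_apply]
        change v g ≤ 1 ↔ v' (s g) ≤ 1
        rw [hs1 g (hKCU hg2)]
        exact hvv' g hg2) h2
      rcases List.mem_cons.mp hQ with rfl | hQ
      · exfalso
        -- `v'` is `P` on `K C₂`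
        have hPv' : ∀ g ∈ KC K C₂, v' g ≤ 1 ↔ Q g ≤ 1 := by
          intro g hg
          rw [← hvv' g hg]
          exact (hQv g (KC_le_Kgeo C₂ hg)).symm
        have := finite_IF (k := k) (KC K C₂)
        have := tower_IF (k := k) (KC K C₂)
        have : IsScalarTower k (KC K C₂) Kb := tower_kLb (KC K C₂)
        have : Algebra.IsAlgebraic (KC K C₂) Kb :=
          Algebra.IsAlgebraic.tower_top (K := K) (KC K C₂)
        obtain ⟨⟨y, hym⟩, hy0', hy1', hy2'⟩ := Places_97.exists_uniformizer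
          (Q.comap (algebraMap (KC K C₂) Kb)) (isPlace_comap (F := KC K C₂) hP)
        have hy0 : y ≠ 0 := by
          rintro rfl
          exact hy0' (map_zero Q)
        obtain ⟨r, hr, hrP⟩ := exists_rescale hPv' hym hy0 hy1'
          (fun g hg h1 => hy2' ⟨g, hg⟩ h1)
        obtain ⟨-, h5⟩ := hA'pl (powV v' r hr) (isPlace_powV hv' r hr)
        have h6 := h5 hrP
        rw [cl_powV] at h6
        exact hun (UnrAt.of_cl (hKUun v' hv') h6)
      · exact ⟨Q, hQ, hQv⟩
    intro z hz
    have h7 : z ∈ cl w (A' : Set Kb) := hLA' ((le_sup_left : L ≤ L ⊔ KC K C₂) hz)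
    exact cl_trans w hIH h7

/-- **density** -/
theorem dense (p : ℕ) [Fact p.Prime] (hSE : SEall p) [Algebra ℚ_[p] k]
    [FiniteDimensional ℚ_[p] k] [Algebra (RatFunc k) K] [IsScalarTower k (RatFunc k) K]
    [FunctionField k K] (hc : algebraicClosure k K = ⊥) (hg : 2 ≤ genus k K)
    (hCut : CutEnd p k K) (w : Valuation Kb ℝ≥0) (hw : ExtendsPadicNorm k Kb p w) (a : Kb) :
    a ∈ cl w (maxUnramified k K : Set Kb) := by
  have hk0 : CharZero k := charZero_of_injective_algebraMap (algebraMap ℚ_[p] k).injective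
  have hK0 := charZero_K k K
  have hKfd : FiniteDimensional (RatFunc k) K := inferInstance
  have hLf : FiniteDimensional K (IntermediateField.adjoin K {a}) :=
    IntermediateField.adjoin.finiteDimensional (Algebra.IsIntegral.isIntegral a)
  obtain ⟨Ps, hPs1, hPs2⟩ := finite_branch (k := k) (IntermediateField.adjoin K {a})
  refine induct p hSE hc hg hCut w hw Ps hPs1 ⊥ (IntermediateField.adjoin K {a}) ?_
    (IntermediateField.mem_adjoin_simple_self K a)
  intro v v' hv hv' hvv' hun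
  exact hPs2 v v' hv hv' (fun g => hvv' _ ((KC K ⊥).algebraMap_mem g)) hun

/-- **`S0016` from (SE) and the cutting theorem** -/
theorem s0016_of (p : ℕ) [Fact p.Prime] (hSE : SEall p) (k : Type) [Field k] [Algebra ℚ_[p] k]
    [FiniteDimensional ℚ_[p] k]
    (K : Type) [Field K] [Algebra k K] [Algebra (RatFunc k) K] [IsScalarTower k (RatFunc k) K]
    [FunctionField k K] (hc : algebraicClosure k K = ⊥) (hg : 2 ≤ genus k K)
    (hCut : CutEnd p k K)
    (v : Valuation K ℝ≥0) (hv : ExtendsPadicNorm k K p v)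
    (w : Valuation (AlgebraicClosure K) ℝ≥0)
    (hw : w.comap (algebraMap K (AlgebraicClosure K)) = v) :
    ∀ a : AlgebraicClosure K, ∀ ε : ℝ≥0, 0 < ε →
      ∃ b : maxUnramified k K, w (a - (b : AlgebraicClosure K)) < ε := by
  intro a ε hε
  have hw' : ExtendsPadicNorm k (AlgebraicClosure K) p w := by
    intro q
    rw [← hv q, ← hw]
    rfl
  obtain ⟨b, hb, h1⟩ := dense p hSE hc hg hCut w hw' a ε hε
  exact ⟨⟨b, hb⟩, h1⟩

end main

end Crest.Agent.R013.Cof10_669
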