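import Crest.Agent.R013.Comp1_267
import Crest.Agent.R013.Cell4_408

-- ▼ part R013/Comp2_267
section

/-! # R013 / Comp2_267 : algebra homs of `BD` are determined by the image of `T`; evaluation of a
composite; associativity; Gauss norm and Weierstrass degree of a composite. -/

set_option autoImplicit false
set_option linter.unusedSectionVars false
set_option linter.style.haveILetI false

noncomputable section

namespace Crest.Agent.R013.Comp_267

open Crest.Agent.R013.Cell_408 Topology PowerSeries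

variable {k C : Type*} [NontriviallyNormedField k] [CompleteSpace k] [IsUltrametricDist k]
  [NormedField C] [IsUltrametricDist C] [NormedAlgebra k C] [Algebra.IsAlgebraic k C] [IsAlgClosed C]

theorem WD.hasW {f : PowerSeries C} {m : ℕ} (hf : WD k f m) : HasW f 1 m :=
  ⟨hf.le, hf.eq, hf.lt⟩

theorem WD.co {f : PowerSeries C} {m : ℕ} (hf : WD k f m) (hm : m ≠ 0) : Co k f :=
  ⟨hf.fin, hf.le, hf.lt 0 (Nat.pos_of_ne_zero hm)⟩

/-- the coordinate of the disc as an element of `BD` -/
def XB : BD k C := ⟨X, X_mem_BD⟩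

/-- an element of `BD` vanishing at `s` is divisible by `T - s` -/
theorem exists_factor (hk : DiscNorm k) (f : BD k C) {s : C} (hs : ‖s‖ < 1)
    (h0 : evp s (f : PowerSeries C) = 0) :
    ∃ g : BD k C, f = (XB - algebraMap C (BD k C) s) * g := by
  by_cases hf : (f : PowerSeries C) = 0
  · exact ⟨0, by rw [mul_zero]; exact Subtype.ext hf⟩
  obtain ⟨c, g, m, hc, hg, hfg, -, -⟩ := exists_normalise hk f.2 hf
  obtain ⟨u, S, hu, -, -, hgu⟩ := hg.exists_roots
  have h1 : s ∈ S := by
    rw [hfg, evp_mul (C_mem_BD c) hg.mem hs, evp_C, mul_eq_zero] at h0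
    rcases h0 with h | h
    · exact absurd h hc
    · rw [hgu, evp_roots_eq_zero hu S hs] at h
      exact h
  obtain ⟨S', rfl⟩ := Multiset.exists_cons_of_mem h1
  refine ⟨⟨PowerSeries.C c * (u * (rootPoly S' : PowerSeries C)),
    mul_mem (C_mem_BD c) (mul_mem hu.mem (coe_mem_BD _))⟩, Subtype.ext ?_⟩
  have h2 : (rootPoly (s ::ₘ S') : Polynomial C) = (Polynomial.X - Polynomial.C s) * rootPoly S' := by
    unfold rootPoly
    rw [Multiset.map_cons, Multiset.prod_cons]
  change (f : PowerSeries C) = (X - PowerSeries.C s) *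
    (PowerSeries.C c * (u * (rootPoly S' : PowerSeries C)))
  rw [hfg, hgu, h2, Polynomial.coe_mul, Polynomial.coe_sub, Polynomial.coe_X, Polynomial.coe_C]
  ring

/-- an algebra hom `BD → C` is the evaluation at the image of `T` -/
theorem algHom_eq_evp (hk : DiscNorm k) (φ : BD k C →ₐ[C] C) (hs : ‖φ XB‖ < 1) (f : BD k C) :
    φ f = evp (φ XB) (f : PowerSeries C) := by
  set s := φ XB with hsd
  have h1 : evp s ((f - algebraMap C (BD k C) (evp s (f : PowerSeries C)) : BD k C) :
      PowerSeries C) = 0 := by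
    have h2 : ev (k := k) s hs (f - algebraMap C (BD k C) (evp s (f : PowerSeries C))) = 0 := by
      rw [map_sub, AlgHom.commutes]
      exact sub_self _
    exact h2
  obtain ⟨g, hg⟩ := exists_factor hk _ hs h1
  have h3 := congrArg φ hg
  rw [map_sub, map_mul, map_sub, AlgHom.commutes, AlgHom.commutes, ← hsd] at h3
  simp only [Algebra.algebraMap_self, RingHom.id_apply, sub_self, zero_mul] at h3
  exact sub_eq_zero.1 h3

theorem Co.norm_evp {f : PowerSeries C} (hf : Co k f) {t : C} (ht : ‖t‖ < 1) : ‖evp t f‖ < 1 := by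
  refine norm_hasSum_lt (summable_ev hf.mem ht).hasSum one_pos fun n => ?_
  rw [norm_mul, norm_pow]
  rcases Nat.eq_zero_or_pos n with rfl | hn
  · rw [pow_zero, mul_one]; exact hf.lt
  · calc _ ≤ 1 * ‖t‖ ^ n := mul_le_mul_of_nonneg_right (hf.le n) (pow_nonneg (norm_nonneg _) _)
      _ < 1 := by
        rw [one_mul]; exact pow_lt_one₀ (norm_nonneg _) ht (by omega)

theorem comp_X (f : PowerSeries C) (hf : Co k f) : comp f hf XB = ⟨f, hf.mem⟩ :=
  Subtype.ext (compS_X f)

/-- evaluation of a composite -/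
theorem evp_compS (hk : DiscNorm k) {f g : PowerSeries C} (hf : Co k f) (hg : g ∈ BD k C) {t : C}
    (ht : ‖t‖ < 1) : evp t (compS f g) = evp (evp t f) g := by
  have h1 := algHom_eq_evp hk ((ev (k := k) t ht).comp (comp f hf)) (by
    rw [AlgHom.comp_apply, comp_X]
    exact hf.norm_evp ht) ⟨g, hg⟩
  rw [AlgHom.comp_apply, AlgHom.comp_apply, comp_X] at h1
  exact h1

theorem evp_comp (hk : DiscNorm k) {f : PowerSeries C} (hf : Co k f) (g : BD k C) {t : C}
    (ht : ‖t‖ < 1) : evp t (comp f hf g : PowerSeries C) = evp (evp t f) (g : PowerSeries C) :=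
  evp_compS hk hf g.2 ht

theorem ev_comp (hk : DiscNorm k) {f : PowerSeries C} (hf : Co k f) (g : BD k C) {t : C}
    (ht : ‖t‖ < 1) : ev (k := k) t ht (comp f hf g) = ev (evp t f) (hf.norm_evp ht) g :=
  evp_comp hk hf g ht

/-- an algebra endomorphism of `BD` is the composition with the image of `T` -/
theorem algHom_eq_comp (hk : DiscNorm k) (φ : BD k C →ₐ[C] BD k C)
    (hf : Co k (φ XB : PowerSeries C)) : φ = comp (φ XB : PowerSeries C) hf := by
  ext1 g
  refine Subtype.ext (evp_ext' hk (φ g).2 (comp _ hf g).2 fun t ht => ?_)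
  rw [evp_comp hk hf g ht]
  have h1 := algHom_eq_evp hk ((ev (k := k) t ht).comp φ) (hf.norm_evp ht) g
  exact h1

theorem Co.comp {f g : PowerSeries C} (hf : Co k f) (hg : Co k g) : Co k (compS f g) := by
  refine ⟨(compS_mem hf hg.mem).1, compS_le hf hg.mem hg.le, ?_⟩
  refine norm_hasSum_lt (hasSum_comp hf hg.mem 0) one_pos fun m => ?_
  rw [norm_mul]
  rcases Nat.eq_zero_or_pos m with rfl | hm
  · rw [pow_zero, coeff_zero_one, norm_one, mul_one]; exact hg.lt
  · have h1 := coeff_pow_le hf.le m 0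
    rw [Nat.sub_zero] at h1
    calc _ ≤ 1 * ‖coeff 0 f‖ ^ m := mul_le_mul (hg.le m) h1 (norm_nonneg _) zero_le_one
      _ < 1 := by rw [one_mul]; exact pow_lt_one₀ (norm_nonneg _) hf.lt (by omega)

/-- associativity of composition -/
theorem compS_compS (hk : DiscNorm k) {f g h : PowerSeries C} (hf : Co k f) (hg : Co k g)
    (hh : h ∈ BD k C) : compS f (compS g h) = compS (compS f g) h := by
  have h1 := algHom_eq_comp hk ((comp f hf).comp (comp g hg)) (by
    rw [AlgHom.comp_apply, comp_X]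
    exact hf.comp hg)
  have h2 := congrArg (fun φ => ((φ ⟨h, hh⟩ : BD k C) : PowerSeries C)) h1
  simp only [AlgHom.comp_apply, comp_X] at h2
  exact h2

/-- Gauss norm and Weierstrass degree of a composite -/
theorem HasW.comp {f g : PowerSeries C} {m s : ℕ} {r : ℝ} (hf : WD k f m) (hm : m ≠ 0)
    (hg : HasW g r s) (hgB : g ∈ BD k C) (hr : 0 < r) : HasW (compS f g) r (s * m) := by
  classical
  have hco := WD.co hf hm
  have hfW := WD.hasW hf
  have hle : ∀ j l, ‖coeff l (f ^ j)‖ ≤ 1 := fun j l =>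
    (coeff_pow_le hf.le j l).trans (pow_le_one₀ (norm_nonneg _) (hf.le 0))
  have hpow : ∀ j l, l < j * m → ‖coeff l (f ^ j)‖ < 1 := fun j l hl => by
    have := (hfW.pow one_pos j).lt l hl
    rwa [one_pow] at this
  have hterm : ∀ j l, (j < s ∨ l < j * m) → ‖coeff j g * coeff l (f ^ j)‖ < r := by
    intro j l hjl
    rw [norm_mul]
    rcases hjl with h | h
    · calc _ ≤ ‖coeff j g‖ * 1 := mul_le_mul_of_nonneg_left (hle _ _) (norm_nonneg _)
        _ < r := by rw [mul_one]; exact hg.lt j h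
    · calc _ ≤ r * ‖coeff l (f ^ j)‖ := mul_le_mul_of_nonneg_right (hg.le _) (norm_nonneg _)
        _ < r * 1 := mul_lt_mul_of_pos_left (hpow j l h) hr
        _ = r := mul_one r
  refine ⟨compS_le hco hgB hg.le, ?_, fun l hl => ?_⟩
  · have h1 := hasSum_ite_sub_hasSum (hasSum_comp hco hgB (s * m)) s
    have h2 : ‖coeff s g * coeff (s * m) (f ^ s)‖ = r := by
      rw [norm_mul, hg.eq]
      have := (hfW.pow one_pos s).eq
      rw [this, one_pow, mul_one]
    have h3 : ‖coeff (s * m) (compS f g) - coeff s g * coeff (s * m) (f ^ s)‖ < r := by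
      refine norm_hasSum_lt h1 hr fun j => ?_
      split_ifs with hj
      · rw [norm_zero]; exact hr
      · rcases lt_or_gt_of_ne hj with h | h
        · exact hterm j _ (Or.inl h)
        · exact hterm j _ (Or.inr (Nat.mul_lt_mul_of_pos_right h (Nat.pos_of_ne_zero hm)))
    have e : coeff (s * m) (compS f g) = coeff s g * coeff (s * m) (f ^ s) +
        (coeff (s * m) (compS f g) - coeff s g * coeff (s * m) (f ^ s)) := by ring
    rw [e, norm_add_eq, h2]
    rw [h2]; exact h3
  · refine norm_hasSum_lt (hasSum_comp hco hgB l) hr fun j => ?_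
    rcases lt_or_ge j s with h | h
    · exact hterm j l (Or.inl h)
    · exact hterm j l (Or.inr (hl.trans_le (Nat.mul_le_mul_right m h)))

theorem exists_hasW (hk : DiscNorm k) {g : PowerSeries C} (hg : g ∈ BD k C) (h0 : g ≠ 0) :
    ∃ (r : ℝ) (s : ℕ), 0 < r ∧ HasW g r s := by
  obtain ⟨c, g1, s, hc, hg1, hgg, -, -⟩ := exists_normalise hk hg h0
  refine ⟨‖c‖, s, norm_pos_iff.2 hc, ?_⟩
  have := (WD.hasW hg1).smul hc
  rwa [mul_one, ← hgg] at this

theorem comp_injective (hk : DiscNorm k) {f : PowerSeries C} {m : ℕ} (hf : WD k f m) (hm : m ≠ 0) :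
    Function.Injective (comp f (WD.co hf hm)) := by
  rw [injective_iff_map_eq_zero]
  intro g hg
  by_contra h0
  have h1 : (g : PowerSeries C) ≠ 0 := fun h => h0 (Subtype.ext h)
  obtain ⟨r, s, hr, hW⟩ := exists_hasW hk g.2 h1
  exact (HasW.comp hf hm hW g.2 hr).ne_zero hr (congrArg Subtype.val hg)

/-- linear independence of `1, T, …, T^(m-1)` over `comp f BD`, with norms -/
theorem hasW_repr (hk : DiscNorm k) {f : PowerSeries C} {m : ℕ} (hf : WD k f m) (hm : m ≠ 0)
    (A : ℕ → PowerSeries C) (hA : ∀ i, A i ∈ BD k C) (h0 : ∃ i < m, A i ≠ 0) :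
    ∃ (r : ℝ) (n : ℕ), 0 < r ∧ HasW (∑ i ∈ Finset.range m, X ^ i * compS f (A i)) r n ∧
      (∀ i < m, ∀ j, ‖coeff j (A i)‖ ≤ r) ∧ ∃ i < m, ∃ s, HasW (A i) r s ∧ n = i + s * m := by
  classical
  choose! r s hr hW using fun i (hi : A i ≠ 0) => exists_hasW hk (hA i) hi
  set S := (Finset.range m).filter fun i => A i ≠ 0 with hS
  have hne : S.Nonempty := by
    obtain ⟨i, hi, hi0⟩ := h0
    exact ⟨i, by simp [hS, hi, hi0]⟩
  have hSm : ∀ i ∈ S, i < m ∧ A i ≠ 0 := fun i hi => by simpa [hS] using hi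
  have h1 : ∀ i ∈ S, HasW (X ^ i * compS f (A i)) (r i) (i + s i * m) := by
    intro i hi
    have h2 := (hasW_X (C := C)).pow one_pos i
    have h3 := HasW.comp hf hm (hW i (hSm i hi).2) (hA i) (hr i (hSm i hi).2)
    have h4 := h2.mul h3 (pow_pos one_pos _) (hr i (hSm i hi).2)
    rwa [one_pow, one_mul, mul_one] at h4
  obtain ⟨i, hi, hmax, hWi⟩ := hasW_sum S hne (fun i => X ^ i * compS f (A i)) r
    (fun i => i + s i * m) h1 (fun i hi => hr i (hSm i hi).2) (by
      intro i hi j hj hij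
      have h5 := congrArg (· % m) hij
      simp only [Nat.add_mul_mod_self_right] at h5
      rwa [Nat.mod_eq_of_lt (hSm i hi).1, Nat.mod_eq_of_lt (hSm j hj).1] at h5)
  have hsum : ∑ i ∈ Finset.range m, X ^ i * compS f (A i) = ∑ i ∈ S, X ^ i * compS f (A i) := by
    rw [hS, Finset.sum_filter]
    refine Finset.sum_congr rfl fun j _ => ?_
    split_ifs with h6
    · rfl
    · push Not at h6
      rw [h6, ← map_zero (PowerSeries.C (R := C)), compS_C, map_zero, mul_zero]
  refine ⟨r i, i + s i * m, hr i (hSm i hi).2, hsum ▸ hWi, fun j hj l => ?_,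
    i, (hSm i hi).1, s i, hW i (hSm i hi).2, rfl⟩
  by_cases h7 : A j = 0
  · rw [h7, map_zero, norm_zero]; exact (hr i (hSm i hi).2).le
  · exact ((hW j h7).le l).trans (hmax j (by simp [hS, hj, h7]))

theorem repr_unique (hk : DiscNorm k) {f : PowerSeries C} {m : ℕ} (hf : WD k f m) (hm : m ≠ 0)
    (A : ℕ → PowerSeries C) (hA : ∀ i, A i ∈ BD k C)
    (h : ∑ i ∈ Finset.range m, X ^ i * compS f (A i) = 0) : ∀ i < m, A i = 0 := by
  intro i hi
  by_contra h0
  obtain ⟨r, n, hr, hW, -⟩ := hasW_repr hk hf hm A hA ⟨i, hi, h0⟩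
  exact hW.ne_zero hr h

end Crest.Agent.R013.Comp_267
end
end

-- ▼ part R013/Comp3_267

/-! # R013 / Comp3_267 : `BD` is free over `comp f BD` with basis `1, T, …, T^(m-1)`
(iterated Weierstrass division by `f`). -/

set_option autoImplicit false
set_option linter.unusedSectionVars false
set_option linter.style.haveILetI false

noncomputable section

namespace Crest.Agent.R013.Comp_267

open Crest.Agent.R013.Cell_408 Topology PowerSeries

section Ball

variable {K : Type*} [NormedField K] [IsUltrametricDist K]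

/-- Weierstrass division over the unit ball -/
theorem exists_wdiv [CompleteSpace K] (hK : ∃ x : K, 0 < ‖x‖ ∧ ‖x‖ < 1)
    (f : PowerSeries (Ob K)) (m0 : ℕ)
    (hlt : ∀ m < m0, ‖((coeff m f : Ob K) : K)‖ < 1)
    (hm0 : ‖((coeff m0 f : Ob K) : K)‖ = 1) (g : PowerSeries (Ob K)) :
    ∃ (q : PowerSeries (Ob K)) (r : Polynomial (Ob K)), r.degree < m0 ∧
      g = f * q + (r : PowerSeries (Ob K)) := by
  obtain ⟨ϖ, h0, h1, h2⟩ := exists_bound hK m0 (fun m => coeff m f) hlt
  have hI : ∀ a : Ob K, a ∈ Ideal.span {ϖ} ↔ ‖(a : K)‖ ≤ ‖(ϖ : K)‖ := fun a => by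
    rw [Ideal.mem_span_singleton, dvd_iff h0]
  have := isAdicComplete_span ϖ h1
  set I : Ideal (Ob K) := Ideal.span {ϖ} with hIdef
  have hord : (f.map (Ideal.Quotient.mk I)).order = (m0 : ℕ∞) := by
    rw [PowerSeries.order_eq_nat]
    constructor
    · rw [PowerSeries.coeff_map, Ne, Ideal.Quotient.eq_zero_iff_mem, hI, hm0]
      exact not_le.2 h1
    · intro i hi
      rw [PowerSeries.coeff_map, Ideal.Quotient.eq_zero_iff_mem, hI]
      exact h2 i hi
  have hto : (f.map (Ideal.Quotient.mk I)).order.toNat = m0 := by rw [hord]; rfl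
  have hW : PowerSeries.IsWeierstrassDivisorAt f I := by
    unfold PowerSeries.IsWeierstrassDivisorAt
    rw [hto, Ob_isUnit_iff]
    exact hm0
  have hdiv := hW.isWeierstrassDivisionAt_div_mod g
  refine ⟨hW.div g, hW.mod g, ?_, hdiv.eq_mul_add⟩
  have := hdiv.degree_lt
  rwa [hto] at this

end Ball

variable {k C : Type*} [NontriviallyNormedField k] [CompleteSpace k] [IsUltrametricDist k]
  [NormedField C] [IsUltrametricDist C] [NormedAlgebra k C] [Algebra.IsAlgebraic k C] [IsAlgClosed C]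

omit [CompleteSpace k] [IsUltrametricDist k] [Algebra.IsAlgebraic k C] [IsAlgClosed C]
  [NontriviallyNormedField k] [NormedAlgebra k C] in
theorem norm_sub_le_mx (a b : C) : ‖a - b‖ ≤ max ‖a‖ ‖b‖ := by
  have := IsUltrametricDist.norm_add_le_max a (-b)
  rwa [norm_neg, ← sub_eq_add_neg] at this

theorem coeff_pow_mul_small {f b : PowerSeries C}
    (hf : ∀ n, ‖coeff n f‖ ≤ 1) (hb : ∀ n, ‖coeff n b‖ ≤ 1) (N n : ℕ) :
    ‖coeff n (f ^ N * b)‖ ≤ ‖coeff 0 f‖ ^ (N - n) := by
  have h0 : 0 ≤ ‖coeff 0 f‖ := norm_nonneg _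
  rw [coeff_mul]
  refine norm_sum_le _ _ (pow_nonneg h0 _) fun p hp => ?_
  rw [Finset.HasAntidiagonal.mem_antidiagonal] at hp
  rw [norm_mul]
  calc _ ≤ ‖coeff 0 f‖ ^ (N - p.1) * 1 :=
        mul_le_mul (coeff_pow_le hf N p.1) (hb _) (norm_nonneg _) (pow_nonneg h0 _)
    _ = ‖coeff 0 f‖ ^ (N - p.1) := mul_one _
    _ ≤ _ := pow_le_pow_of_le_one h0 (hf 0) (by omega)

theorem eq_of_pow_mul {f g : PowerSeries C} (hf : Co k f)
    (h : ∀ N : ℕ, ∃ b : PowerSeries C, (∀ n, ‖coeff n b‖ ≤ 1) ∧ g = f ^ N * b) : g = 0 := by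
  ext n
  rw [map_zero, ← norm_le_zero_iff]
  have h1 : Filter.Tendsto (fun N : ℕ => ‖coeff 0 f‖ ^ N) Filter.atTop (𝓝 0) :=
    tendsto_pow_atTop_nhds_zero_of_lt_one (norm_nonneg _) hf.lt
  refine ge_of_tendsto' h1 fun N => ?_
  obtain ⟨b, hb, hg⟩ := h (N + n)
  rw [hg]
  have h2 := coeff_pow_mul_small hf.le hb (N + n) n
  rwa [Nat.add_sub_cancel] at h2

/-- the shifted series -/
def shf (N : ℕ) (A : PowerSeries C) : PowerSeries C := PowerSeries.mk fun i => coeff (i + N) A

omit [CompleteSpace k] [IsUltrametricDist k] [Algebra.IsAlgebraic k C] [IsAlgClosed C]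
  [IsUltrametricDist C] [NontriviallyNormedField k] [NormedAlgebra k C] in
theorem shf_eq (N : ℕ) (A : PowerSeries C) :
    A = (∑ j ∈ Finset.range N, PowerSeries.C (coeff j A) * X ^ j) + X ^ N * shf N A := by
  conv_lhs => rw [A.eq_X_pow_mul_shift_add_trunc N]
  rw [add_comm]
  congr 1
  ext n
  rw [Polynomial.coeff_coe, coeff_trunc, map_sum]
  simp only [coeff_C_mul_X_pow]
  rw [Finset.sum_ite_eq]
  simp

theorem shf_mem (N : ℕ) {A : PowerSeries C} (hA : A ∈ BD k C) : shf N A ∈ BD k C := by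
  obtain ⟨⟨L, hL, h1⟩, M, h2⟩ := hA
  refine ⟨⟨L, hL, fun n => ?_⟩, M, fun n => ?_⟩
  · dsimp only
    rw [shf, coeff_mk]; exact h1 _
  · rw [shf, coeff_mk]; exact h2 _

theorem compS_shf {f : PowerSeries C} (hf : Co k f) {A : PowerSeries C} (hA : A ∈ BD k C) (N : ℕ) :
    compS f A = (∑ j ∈ Finset.range N, PowerSeries.C (coeff j A) * f ^ j) +
      f ^ N * compS f (shf N A) := by
  have h1 : (⟨A, hA⟩ : BD k C) = (∑ j ∈ Finset.range N,
      algebraMap C (BD k C) (coeff j A) * XB ^ j) + XB ^ N * ⟨shf N A, shf_mem N hA⟩ := by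
    refine Subtype.ext ?_
    rw [AddMemClass.coe_add, AddSubmonoidClass.coe_finsetSum]
    exact shf_eq N A
  have h2 := congrArg (comp f hf) h1
  simp only [map_add, map_sum, map_mul, map_pow, comp_X, AlgHom.commutes] at h2
  have h3 := congrArg Subtype.val h2
  rw [AddMemClass.coe_add, AddSubmonoidClass.coe_finsetSum] at h3
  exact h3

/-- **representation**, integral form: every `g` with `|g_n| ≤ 1` is `∑_{i<m} T^i (A_i ∘ f)` -/
theorem exists_repr_le {f : PowerSeries C} {m : ℕ} (hf : WD k f m) (hm : m ≠ 0)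
    {g : PowerSeries C} (hg : FinDef k fun n => coeff n g) (hg1 : ∀ n, ‖coeff n g‖ ≤ 1) :
    ∃ A : ℕ → PowerSeries C, (∀ i, A i ∈ BD k C) ∧ (∀ i n, ‖coeff n (A i)‖ ≤ 1) ∧
      g = ∑ i ∈ Finset.range m, X ^ i * compS f (A i) := by
  classical
  have hco := WD.co hf hm
  obtain ⟨L, hL, hfL, hgL⟩ := hf.fin.common hg
  haveI : CompleteSpace L := completeSpace_mem L
  have hK : ∃ x : L, 0 < ‖x‖ ∧ ‖x‖ < 1 := by
    obtain ⟨x, hx0, hx1⟩ := NormedField.exists_norm_lt_one k
    refine ⟨algebraMap k L x, ?_, ?_⟩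
    · rw [norm_algebraMap']; exact hx0
    · rw [norm_algebraMap']; exact hx1
  let f0 : PowerSeries (Ob L) := PowerSeries.mk fun n => ⟨⟨coeff n f, hfL n⟩, hf.le n⟩
  let g0 : PowerSeries (Ob L) := PowerSeries.mk fun n => ⟨⟨coeff n g, hgL n⟩, hg1 n⟩
  have hf0 : PowerSeries.map (ballMap L) f0 = f := by
    ext n; rw [PowerSeries.coeff_map, coeff_mk]; rfl
  have hg0 : PowerSeries.map (ballMap L) g0 = g := by
    ext n; rw [PowerSeries.coeff_map, coeff_mk]; rfl
  have hdiv := exists_wdiv hK f0 m (fun n hn => by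
      rw [← norm_ballMap, ← PowerSeries.coeff_map, hf0]; exact hf.lt n hn)
    (by rw [← norm_ballMap, ← PowerSeries.coeff_map, hf0]; exact hf.eq)
  choose D R hR hD using hdiv
  -- iterated quotients
  let q : ℕ → PowerSeries (Ob L) := fun j => D^[j] g0
  have hq : ∀ j, q j = f0 * q (j + 1) + (R (q j) : PowerSeries (Ob L)) := by
    intro j
    have h1 : q (j + 1) = D (q j) := Function.iterate_succ_apply' D j g0
    rw [h1]
    exact hD (q j)
  have hqN : ∀ N : ℕ, g0 = (∑ j ∈ Finset.range N, f0 ^ j * (R (q j) : PowerSeries (Ob L))) +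
      f0 ^ N * q N := by
    intro N
    induction N with
    | zero => simp [q]
    | succ N ih =>
      rw [Finset.sum_range_succ, ih]
      conv_lhs => rw [hq N]
      ring
  let A0 : ℕ → PowerSeries (Ob L) := fun i => PowerSeries.mk fun j => (R (q j)).coeff i
  let A : ℕ → PowerSeries C := fun i => PowerSeries.map (ballMap L) (A0 i)
  have hAc : ∀ i j, coeff j (A i) = ballMap L ((R (q j)).coeff i) := by
    intro i j
    change coeff j (PowerSeries.map (ballMap L) (A0 i)) = _
    rw [PowerSeries.coeff_map, coeff_mk]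
  have hA1 : ∀ i j, ‖coeff j (A i)‖ ≤ 1 := by
    intro i j
    rw [hAc, norm_ballMap]; exact Ob_norm_le_one _
  have hAB : ∀ i, A i ∈ BD k C := fun i =>
    ⟨⟨L, hL, fun j => by
      dsimp only
      rw [hAc, ballMap_apply]; exact Subtype.mem _⟩, 1, hA1 i⟩
  refine ⟨A, hAB, hA1, ?_⟩
  rw [← sub_eq_zero]
  refine eq_of_pow_mul hco fun N => ?_
  refine ⟨PowerSeries.map (ballMap L) (q N) -
    ∑ i ∈ Finset.range m, X ^ i * compS f (shf N (A i)), fun n => ?_, ?_⟩
  · rw [map_sub]
    refine (norm_sub_le_mx _ _).trans (max_le ?_ ?_)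
    · rw [PowerSeries.coeff_map, norm_ballMap]; exact Ob_norm_le_one _
    · rw [map_sum]
      refine norm_sum_le _ _ zero_le_one fun i _ => ?_
      rw [coeff_X_pow_mul']
      split_ifs
      · refine compS_le hco (shf_mem N (hAB i)) (fun l => ?_) _
        rw [shf, coeff_mk]; exact hA1 i _
      · rw [norm_zero]; exact zero_le_one
  · have h1 : g = (∑ j ∈ Finset.range N, f ^ j * ∑ i ∈ Finset.range m,
        X ^ i * PowerSeries.C (coeff j (A i))) + f ^ N * PowerSeries.map (ballMap L) (q N) := by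
      rw [← hg0]
      conv_lhs => rw [hqN N]
      rw [map_add, map_sum, map_mul, map_pow, hf0]
      congr 1
      refine Finset.sum_congr rfl fun j _ => ?_
      rw [map_mul, map_pow, hf0]
      congr 1
      ext n
      rw [PowerSeries.coeff_map, Polynomial.coeff_coe, map_sum]
      have h2 : ∀ i, coeff n (X ^ i * PowerSeries.C (coeff j (A i))) =
          if n = i then coeff j (A i) else 0 := by
        intro i
        rw [mul_comm, coeff_C_mul_X_pow]
      simp only [h2]
      rw [Finset.sum_ite_eq]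
      split_ifs with h3
      · rw [hAc]
      · rw [Polynomial.coeff_eq_zero_of_degree_lt, map_zero]
        refine (hR (q j)).trans_le ?_
        rw [Finset.mem_range, not_lt] at h3
        exact_mod_cast h3
    have h2 : ∑ i ∈ Finset.range m, X ^ i * compS f (A i) =
        (∑ j ∈ Finset.range N, f ^ j * ∑ i ∈ Finset.range m,
          X ^ i * PowerSeries.C (coeff j (A i))) +
        f ^ N * ∑ i ∈ Finset.range m, X ^ i * compS f (shf N (A i)) := by
      have h3 : ∀ i ∈ Finset.range m, X ^ i * compS f (A i) =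
          (∑ j ∈ Finset.range N, f ^ j * (X ^ i * PowerSeries.C (coeff j (A i)))) +
          f ^ N * (X ^ i * compS f (shf N (A i))) := by
        intro i _
        conv_lhs => rw [compS_shf hco (hAB i) N]
        rw [mul_add, Finset.mul_sum]
        congr 1
        · exact Finset.sum_congr rfl fun j _ => by ring
        · ring
      rw [Finset.sum_congr rfl h3, Finset.sum_add_distrib, Finset.sum_comm, ← Finset.mul_sum]
      congr 1
      exact Finset.sum_congr rfl fun j _ => by rw [Finset.mul_sum]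
    rw [h2]
    conv_lhs => rw [h1]
    ring

/-- **representation**: every `g ∈ BD` is `∑_{i<m} T^i (A_i ∘ f)` with `A_i ∈ BD` -/
theorem exists_repr (hk : DiscNorm k) {f : PowerSeries C} {m : ℕ} (hf : WD k f m) (hm : m ≠ 0)
    {g : PowerSeries C} (hg : g ∈ BD k C) :
    ∃ A : ℕ → PowerSeries C, (∀ i, A i ∈ BD k C) ∧
      g = ∑ i ∈ Finset.range m, X ^ i * compS f (A i) := by
  by_cases h0 : g = 0
  · refine ⟨fun _ => 0, fun _ => zero_mem _, ?_⟩
    have h1 : compS f (0 : PowerSeries C) = 0 := by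
      rw [← map_zero (PowerSeries.C (R := C)), compS_C]
    simp [h0, h1]
  · obtain ⟨c, g1, s, hc, hg1, hgg, -, -⟩ := exists_normalise hk hg h0
    obtain ⟨A, hA, -, hA2⟩ := exists_repr_le hf hm hg1.fin hg1.le
    refine ⟨fun i => PowerSeries.C c * A i, fun i => mul_mem (C_mem_BD c) (hA i), ?_⟩
    rw [hgg]
    conv_lhs => rw [hA2]
    rw [Finset.mul_sum]
    refine Finset.sum_congr rfl fun i _ => ?_
    rw [compS_mul (WD.co hf hm) (C_mem_BD c) (hA i), compS_C]
    ring

end Crest.Agent.R013.Comp_267
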