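import Mathlib
import Crest.Agent.R013.RR13_948

-- ▼ part R013/Pts1_315
section

/-!
# RED-PTS, part 1 (row 13): valuations of `K` and valuations of the factors of `K ⊗ Fc`

`K ⊗[F₀] Fc ≃ ∏ j, F j` (finite product of fields). If `F₀` is `u`-dense in `Fc`, the real
valuations of `K` which agree with `u` on `F₀` correspond bijectively to pairs `(j, W)`,
`W` a valuation of `F j` extending `u`.
-/

set_option autoImplicit false
set_option linter.style.haveILetI false
set_option linter.unusedSectionVars false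

open scoped NNReal TensorProduct

namespace Crest.Agent.R013.Pts1_315

universe v0 v1 v2 v3

section Completion

/-- the normed field structure given by a real valuation -/
@[reducible] noncomputable def nf {F : Type*} [inst : Field F] (w : Valuation F ℝ≥0) :
    NormedField F :=
  { inst with
    norm := fun a => (w a : ℝ)
    dist := fun a b => (w (a - b) : ℝ)
    dist_self := fun a => by simp
    dist_comm := fun a b => by
      show (w (a - b) : ℝ) = w (b - a)
      rw [Valuation.map_sub_swap]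
    dist_triangle := fun a b c => by
      show (w (a - c) : ℝ) ≤ w (a - b) + w (b - c)
      have h : w (a - c) ≤ max (w (a - b)) (w (b - c)) := by
        simpa using w.map_add (a - b) (b - c)
      calc (w (a - c) : ℝ) ≤ ((max (w (a - b)) (w (b - c)) : ℝ≥0) : ℝ) := by exact_mod_cast h
        _ ≤ w (a - b) + w (b - c) := by
          rw [NNReal.coe_max]
          exact max_le_add_of_nonneg (NNReal.coe_nonneg _) (NNReal.coe_nonneg _)
    eq_of_dist_eq_zero := fun {a b} h => by
      have h' : w (a - b) = 0 := by exact_mod_cast h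
      exact sub_eq_zero.1 ((map_eq_zero w).1 h')
    dist_eq := fun a b => by
      show (w (a - b) : ℝ) = (w (-a + b) : ℝ)
      rw [show -a + b = -(a - b) by ring, Valuation.map_neg]
    norm_mul := fun a b => by
      show (w (a * b) : ℝ) = w a * w b
      rw [map_mul]; push_cast; rfl }

theorem isUltrametricDist_nf {F : Type*} [Field F] (w : Valuation F ℝ≥0) :
    letI := nf w
    IsUltrametricDist F := by
  letI := nf w
  refine ⟨fun a b c => ?_⟩
  show (w (a - c) : ℝ) ≤ max (w (a - b) : ℝ) (w (b - c) : ℝ)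
  have h : w (a - c) ≤ max (w (a - b)) (w (b - c)) := by
    simpa using w.map_add (a - b) (b - c)
  rw [← NNReal.coe_max]
  exact_mod_cast h

theorem isUltrametricDist_completion {F : Type*} [NormedField F] [IsUltrametricDist F] :
    IsUltrametricDist (UniformSpace.Completion F) := by
  refine IsUltrametricDist.isUltrametricDist_of_forall_norm_add_le_max_norm fun x y => ?_
  refine UniformSpace.Completion.induction_on₂ x y ?_ ?_
  · exact isClosed_le (by fun_prop) (by fun_prop)
  · intro a b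
    rw [← UniformSpace.Completion.coe_add, UniformSpace.Completion.norm_coe,
      UniformSpace.Completion.norm_coe, UniformSpace.Completion.norm_coe]
    exact IsUltrametricDist.norm_add_le_max a b

/-- common complete field for `K` and `Fc` over `F₀` -/
theorem exists_common {F₀ : Type v0} {K : Type v1} {Fc : Type v2} [Field F₀] [Field K] [Field Fc]
    (a : F₀ →+* K) (i : F₀ →+* Fc) (w : Valuation K ℝ≥0) (u : Valuation Fc ℝ≥0)
    (hwu : ∀ x, w (a x) = u (i x))
    (hd : ∀ y : Fc, ∀ ε : ℝ≥0, 0 < ε → ∃ x : F₀, u (y - i x) < ε) :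
    ∃ (L : Type v1) (_ : Field L) (W : Valuation L ℝ≥0) (φ : K →+* L) (ψ : Fc →+* L),
      (∀ x, φ (a x) = ψ (i x)) ∧ (∀ x, W (φ x) = w x) ∧ (∀ y, W (ψ y) = u y) := by
  letI nK : NormedField K := nf w
  letI nFc : NormedField Fc := nf u
  letI nF : NormedField F₀ := nf (u.comap i)
  haveI : IsUltrametricDist K := isUltrametricDist_nf w
  have hiso : Isometry i := by
    refine AddMonoidHomClass.isometry_of_norm i (fun x => ?_)
    rfl
  have hiso' : Isometry a := by
    refine AddMonoidHomClass.isometry_of_norm a (fun x => ?_)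
    show (w (a x) : ℝ) = (u (i x) : ℝ)
    rw [hwu]
  have hdr : DenseRange i := by
    rw [Metric.denseRange_iff]
    intro y r hr
    obtain ⟨x, hx⟩ := hd y ⟨r, hr.le⟩ hr
    exact ⟨x, by show (u (y - i x) : ℝ) < r; exact_mod_cast hx⟩
  let L := UniformSpace.Completion K
  let f : F₀ →+* L := (UniformSpace.Completion.coeRingHom).comp a
  have hf : Isometry f := (UniformSpace.Completion.coe_isometry).comp hiso'
  let ψ : Fc →+* L := IsDenseInducing.extendRingHom hiso.isUniformInducing hdr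
    hf.uniformContinuous
  have hψ : ∀ x, ψ (i x) = f x := fun x =>
    IsDenseInducing.extend_eq (hiso.isUniformInducing.isDenseInducing hdr) hf.continuous x
  have hψc : Continuous ψ :=
    (uniformContinuous_uniformly_extend hiso.isUniformInducing hdr hf.uniformContinuous).continuous
  have hψn : ∀ y, ‖ψ y‖ = ‖y‖ := by
    intro y
    refine DenseRange.induction_on hdr y ?_ ?_
    · exact isClosed_eq hψc.norm continuous_norm
    · intro x
      rw [hψ]
      show ‖((a x : K) : L)‖ = ‖i x‖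
      rw [UniformSpace.Completion.norm_coe]
      show (w (a x) : ℝ) = (u (i x) : ℝ)
      rw [hwu]
  haveI : IsUltrametricDist L := isUltrametricDist_completion
  refine ⟨L, inferInstance, NormedField.valuation, UniformSpace.Completion.coeRingHom, ψ,
    fun x => (hψ x).symm, fun x => ?_, fun y => ?_⟩
  · apply NNReal.coe_injective
    show ‖((x : K) : L)‖ = _
    rw [UniformSpace.Completion.norm_coe]
    rfl
  · apply NNReal.coe_injective
    exact hψn y

end Completion

section Product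

/-- a ring homomorphism from a finite product to a field factors through a factor -/
theorem exists_factor {J : Type v3} [Finite J] {F : J → Type*} [∀ j, Field (F j)] {L : Type*}
    [Field L] (Θ : (∀ j, F j) →+* L) : ∃ (j : J) (θ : F j →+* L), ∀ g, Θ g = θ (g j) := by
  classical
  haveI := Fintype.ofFinite J
  obtain ⟨j, hj⟩ : ∃ j, Θ (Pi.single j 1) ≠ 0 := by
    by_contra h
    push Not at h
    have h1 : (1 : ∀ j, F j) = ∑ j, Pi.single j (1 : F j) := by
      rw [Finset.univ_sum_single]; rfl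
    have h2 : Θ 1 = 0 := by
      rw [h1, map_sum]; exact Finset.sum_eq_zero fun j _ => h j
    rw [map_one] at h2
    exact one_ne_zero h2
  have hj1 : Θ (Pi.single j 1) = 1 := by
    have h : Θ (Pi.single j 1) * Θ (Pi.single j 1) = Θ (Pi.single j 1) := by
      rw [← map_mul, ← Pi.single_mul, one_mul]
    exact (mul_eq_left₀ hj).1 h
  let θ : F j →+* L :=
    { toFun := fun x => Θ (Pi.single j x)
      map_one' := hj1
      map_mul' := fun x y => by
        rw [← map_mul, ← Pi.single_mul]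
      map_zero' := by
        rw [Pi.single_zero, map_zero]
      map_add' := fun x y => by
        rw [← map_add, ← Pi.single_add] }
  refine ⟨j, θ, fun g => ?_⟩
  show Θ g = Θ (Pi.single j (g j))
  have h : Pi.single j (g j) = g * Pi.single j 1 := by
    ext i
    by_cases hij : i = j
    · subst hij; simp
    · simp [hij]
  rw [h, map_mul, hj1, mul_one]

variable {F₀ : Type v0} {K : Type v1} {Fc : Type v2} [Field F₀] [Field K] [Field Fc]

/-- `K ⊗_{F₀} Fc = ∏ j, F j` (finite product of fields), in the form used here. -/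
structure PD (a : F₀ →+* K) (i : F₀ →+* Fc) {J : Type v3} {F : J → Type*} [∀ j, Field (F j)]
    (io : ∀ j, K →+* F j) (sg : ∀ j, Fc →+* F j) : Prop where
  comm : ∀ j x, io j (a x) = sg j (i x)
  surj : ∀ g : ∀ j, F j, ∃ s : List (K × Fc),
    ∀ j, g j = (s.map fun p => io j p.1 * sg j p.2).sum
  fact : ∀ (L : Type v1) [Field L] (φ : K →+* L) (ψ : Fc →+* L), (∀ x, φ (a x) = ψ (i x)) →
    ∃ (j : J) (θ : F j →+* L), (∀ x, φ x = θ (io j x)) ∧ ∀ y, ψ y = θ (sg j y)

/-- the tensor product form implies `PD` -/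
theorem PD.of_tensor [Algebra F₀ K] [Algebra F₀ Fc] {J : Type v3} [Finite J]
    {F : J → Type*} [∀ j, Field (F j)] (io : ∀ j, K →+* F j) (sg : ∀ j, Fc →+* F j)
    (comm : ∀ j x, io j (algebraMap F₀ K x) = sg j (algebraMap F₀ Fc x))
    (Φ : K ⊗[F₀] Fc →+* ∀ j, F j) (hΦ : ∀ a b j, Φ (a ⊗ₜ b) j = io j a * sg j b)
    (hb : Function.Bijective Φ) : PD (algebraMap F₀ K) (algebraMap F₀ Fc) io sg where
  comm := comm
  surj := fun g => by
    obtain ⟨t, rfl⟩ := hb.2 g
    induction t using TensorProduct.induction_on with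
    | zero => exact ⟨[], fun j => by simp⟩
    | tmul a b => exact ⟨[(a, b)], fun j => by simp [hΦ]⟩
    | add s t hs ht =>
      obtain ⟨l, hl⟩ := hs
      obtain ⟨l', hl'⟩ := ht
      refine ⟨l ++ l', fun j => ?_⟩
      rw [map_add, Pi.add_apply, hl, hl', List.map_append, List.sum_append]
  fact := fun L _ φ ψ h => by
    letI : Algebra F₀ L := (φ.comp (algebraMap F₀ K)).toAlgebra
    let φ' : K →ₐ[F₀] L := { φ with commutes' := fun x => rfl }
    let ψ' : Fc →ₐ[F₀] L := { ψ with commutes' := fun x => (h x).symm }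
    let Ψ : K ⊗[F₀] Fc ≃+* ∀ j, F j := RingEquiv.ofBijective Φ hb
    let Θ : (∀ j, F j) →+* L := (Algebra.TensorProduct.productMap φ' ψ').toRingHom.comp
      Ψ.symm.toRingHom
    obtain ⟨j, θ, hθ⟩ := exists_factor Θ
    refine ⟨j, θ, fun x => ?_, fun y => ?_⟩
    · have h1 : θ (Φ (x ⊗ₜ 1) j) = φ x := by
        rw [← hθ]
        show Algebra.TensorProduct.productMap φ' ψ' (Ψ.symm (Ψ (x ⊗ₜ 1))) = φ x
        rw [RingEquiv.symm_apply_apply, Algebra.TensorProduct.productMap_apply_tmul, map_one,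
          mul_one]
        rfl
      rw [← h1, hΦ, map_one, mul_one]
    · have h1 : θ (Φ (1 ⊗ₜ y) j) = ψ y := by
        rw [← hθ]
        show Algebra.TensorProduct.productMap φ' ψ' (Ψ.symm (Ψ (1 ⊗ₜ y))) = ψ y
        rw [RingEquiv.symm_apply_apply, Algebra.TensorProduct.productMap_apply_tmul, map_one,
          one_mul]
        rfl
      rw [← h1, hΦ, map_one, one_mul]

/-- density of `F₀` in `Fc` with respect to `u` -/
def Dn (i : F₀ →+* Fc) (u : Valuation Fc ℝ≥0) : Prop :=
  ∀ y : Fc, ∀ ε : ℝ≥0, 0 < ε → ∃ x : F₀, u (y - i x) < ε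

variable {a : F₀ →+* K} {i : F₀ →+* Fc} {J : Type v3} {F : J → Type*} [∀ j, Field (F j)]
  {io : ∀ j, K →+* F j} {sg : ∀ j, Fc →+* F j}

/-- EXISTENCE: a valuation of `K` which agrees on `F₀` with `u` comes from a factor -/
theorem PD.exists_ext (H : PD a i io sg) (w : Valuation K ℝ≥0) {u : Valuation Fc ℝ≥0}
    (hwu : ∀ x, w (a x) = u (i x)) (hd : Dn i u) :
    ∃ (j : J) (W : Valuation (F j) ℝ≥0), (∀ x, W (io j x) = w x) ∧ ∀ b, W (sg j b) = u b := by
  obtain ⟨L, _, W, φ, ψ, hc, hW1, hW2⟩ := exists_common a i w u hwu hd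
  obtain ⟨j, θ, h1, h2⟩ := H.fact L φ ψ hc
  exact ⟨j, W.comap θ, fun x => by rw [Valuation.comap_apply, ← h1, hW1],
    fun y => by rw [Valuation.comap_apply, ← h2, hW2]⟩

/-- SIMULTANEOUS DENSITY of `K` in the factors, for finitely many valuations `W k` of factors
`F (jj k)` extending `u`. -/
theorem PD.dense (H : PD a i io sg) {ι : Type*} [Finite ι] {u : Valuation Fc ℝ≥0}
    (hd : Dn i u)
    (jj : ι → J) (W : ∀ k, Valuation (F (jj k)) ℝ≥0) (hW : ∀ k b, W k (sg (jj k) b) = u b)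
    (g : ∀ j, F j) {ε : ℝ≥0} (hε : 0 < ε) :
    ∃ x : K, ∀ k, W k (g (jj k) - io (jj k) x) < ε := by
  classical
  haveI := Fintype.ofFinite ι
  obtain ⟨s, hs⟩ := H.surj g
  suffices h : ∀ s : List (K × Fc), ∃ x : K,
      ∀ k, W k ((s.map fun p => io (jj k) p.1 * sg (jj k) p.2).sum - io (jj k) x) < ε by
    obtain ⟨x, hx⟩ := h s
    exact ⟨x, fun k => by rw [hs]; exact hx k⟩
  intro s
  induction s with
  | nil => exact ⟨0, fun k => by simpa using hε⟩
  | cons p s ih =>
    obtain ⟨x', hx'⟩ := ih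
    obtain ⟨b, c⟩ := p
    obtain ⟨M, hM0, hM⟩ : ∃ M : ℝ≥0, 0 < M ∧ ∀ k, W k (io (jj k) b) ≤ M := by
      refine ⟨(∑ k, W k (io (jj k) b)) + 1, by positivity, fun k => ?_⟩
      exact (Finset.single_le_sum (f := fun k => W k (io (jj k) b)) (fun _ _ => zero_le)
        (Finset.mem_univ k)).trans (le_add_of_nonneg_right zero_le_one)
    obtain ⟨x, hx⟩ := hd c (ε / M) (div_pos hε hM0)
    refine ⟨b * a x + x', fun k => ?_⟩
    have e : (((b, c) :: s).map fun p => io (jj k) p.1 * sg (jj k) p.2).sum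
        - io (jj k) (b * a x + x') = io (jj k) b * sg (jj k) (c - i x) +
        ((s.map fun p => io (jj k) p.1 * sg (jj k) p.2).sum - io (jj k) x') := by
      rw [List.map_cons, List.sum_cons, map_add, map_mul, H.comm, map_sub]; ring
    rw [e]
    refine (Valuation.map_add _ _ _).trans_lt (max_lt ?_ (hx' k))
    rw [map_mul, hW]
    calc W k (io (jj k) b) * u (c - i x)
        ≤ M * u (c - i x) := by gcongr; exact hM k
      _ < M * (ε / M) := by gcongr
      _ = ε := mul_div_cancel₀ _ hM0.ne'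

/-- UNIQUENESS of the factor -/
theorem PD.factor_unique (H : PD a i io sg) {u : Valuation Fc ℝ≥0} (hd : Dn i u)
    {j j' : J} {W : Valuation (F j) ℝ≥0} {W' : Valuation (F j') ℝ≥0}
    (hW : ∀ b, W (sg j b) = u b) (hW' : ∀ b, W' (sg j' b) = u b)
    (h : ∀ x : K, W (io j x) = W' (io j' x)) : j = j' := by
  classical
  by_contra hj
  obtain ⟨x, hx⟩ := H.dense hd (ι := Bool) (fun k => match k with | true => j | false => j')
    (fun k => match k with | true => W | false => W') (fun k => by cases k; exacts [hW', hW])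
    (Pi.single j 1) one_pos
  have h1 : W (Pi.single j (1 : F j) j - io j x) < 1 := hx true
  have h2 : W' (Pi.single j (1 : F j) j' - io j' x) < 1 := hx false
  rw [Pi.single_eq_same] at h1
  rw [Pi.single_eq_of_ne' hj, zero_sub, Valuation.map_neg, ← h] at h2
  have h3 : W 1 ≤ max (W (1 - io j x)) (W (io j x)) := by
    simpa using W.map_add (1 - io j x) (io j x)
  rw [map_one] at h3
  exact absurd h3 (not_le.2 (max_lt h1 h2))

/-- approximation of one element -/
theorem PD.approx (H : PD a i io sg) {u : Valuation Fc ℝ≥0} (hd : Dn i u) {j : J}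
    {W : Valuation (F j) ℝ≥0} (hW : ∀ b, W (sg j b) = u b) (g : F j) {ε : ℝ≥0} (hε : 0 < ε) :
    ∃ x : K, W (g - io j x) < ε := by
  classical
  obtain ⟨x, hx⟩ := H.dense hd (ι := Unit) (fun _ => j) (fun _ => W) (fun _ => hW)
    (Pi.single j g) hε
  have h1 : W (Pi.single j g j - io j x) < ε := hx ()
  rw [Pi.single_eq_same] at h1
  exact ⟨x, h1⟩

/-- UNIQUENESS of the valuation of the factor -/
theorem PD.val_unique (H : PD a i io sg) {u : Valuation Fc ℝ≥0} (hd : Dn i u)
    {j : J} {W W' : Valuation (F j) ℝ≥0}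
    (hW : ∀ b, W (sg j b) = u b) (hW' : ∀ b, W' (sg j b) = u b)
    (h : ∀ x : K, W (io j x) = W' (io j x)) : W = W' := by
  classical
  ext g
  congr 1
  by_cases hg : g = 0
  · rw [hg, map_zero, map_zero]
  have hε : 0 < min (W g) (W' g) := by
    rw [lt_min_iff]
    exact ⟨pos_iff_ne_zero.2 ((Valuation.ne_zero_iff _).2 hg),
      pos_iff_ne_zero.2 ((Valuation.ne_zero_iff _).2 hg)⟩
  obtain ⟨x, hx⟩ := H.dense hd (ι := Bool) (fun _ => j)
    (fun k => match k with | true => W | false => W') (fun k => by cases k; exacts [hW', hW])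
    (Pi.single j g) hε
  have h1 : W (Pi.single j g j - io j x) < min (W g) (W' g) := hx true
  have h2 : W' (Pi.single j g j - io j x) < min (W g) (W' g) := hx false
  rw [Pi.single_eq_same] at h1 h2
  have e1 : W (io j x) = W g := by
    rw [show io j x = g - (g - io j x) by ring]
    exact Valuation.map_sub_eq_of_lt_left _ (h1.trans_le (min_le_left _ _))
  have e2 : W' (io j x) = W' g := by
    rw [show io j x = g - (g - io j x) by ring]
    exact Valuation.map_sub_eq_of_lt_left _ (h2.trans_le (min_le_right _ _))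
  rw [← e1, ← e2, h]

/-- every value of a valuation of the factor is taken on `K` -/
theorem PD.exists_val_eq (H : PD a i io sg) {u : Valuation Fc ℝ≥0} (hd : Dn i u)
    {j : J} {W : Valuation (F j) ℝ≥0} (hW : ∀ b, W (sg j b) = u b) (g : F j) :
    ∃ x : K, W (io j x) = W g := by
  by_cases hg : g = 0
  · exact ⟨0, by rw [map_zero, hg]⟩
  obtain ⟨x, h1⟩ := H.approx hd hW g (pos_iff_ne_zero.2 ((Valuation.ne_zero_iff W).2 hg))
  refine ⟨x, ?_⟩
  rw [show io j x = g - (g - io j x) by ring]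
  exact Valuation.map_sub_eq_of_lt_left _ h1

end Product

end Crest.Agent.R013.Pts1_315
end

-- ▼ part R013/Pts2_315
section

/-!
# RED-PTS, part 2 (row 13): rings of functions of one variable (`CellRing`)

`CellRing T S`: every non-zero element is a unit times a finite product of `T - τ`, `τ ∈ S`, and
every point of `S` is a `C`-point. (Bounded functions on an open disc or annulus.) Such a ring
is a PID whose primes are the `T - τ`; the valuations at the points; density of `C(T)`.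
-/

set_option autoImplicit false
set_option linter.style.haveILetI false
set_option linter.unusedSectionVars false

open scoped NNReal
open IsDedekindDomain WithZero

namespace Crest.Agent.R013.Pts2_315

open Crest.Agent.R013.Pts1_315

variable {C B : Type*} [Field C] [CommRing B] [IsDomain B] [Algebra C B]

/-- functions of one variable `T` on a set `S` of points, with finitely many zeros -/
structure CellRing (T : B) (S : Set C) : Prop where
  fac : ∀ b : B, b ≠ 0 → ∃ m : Multiset C, (∀ τ ∈ m, τ ∈ S) ∧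
    Associated b (m.map fun τ => T - algebraMap C B τ).prod
  ev : ∀ τ ∈ S, ∃ e : B →ₐ[C] C, e T = τ
  nc : ∀ c : C, T ≠ algebraMap C B c

namespace CellRing

variable {T : B} {S : Set C} (H : CellRing T S)
include H

theorem sub_ne_zero (c : C) : T - algebraMap C B c ≠ 0 := by
  rw [Ne, sub_eq_zero]; exact H.nc c

theorem dvd_of_ev {τ : C} {e : B →ₐ[C] C} (he : e T = τ) {b : B} (hb : e b = 0) :
    T - algebraMap C B τ ∣ b := by
  by_cases h0 : b = 0
  · rw [h0]; exact dvd_zero _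
  obtain ⟨m, hm, hass⟩ := H.fac b h0
  have h1 : e (m.map fun τ => T - algebraMap C B τ).prod = 0 := by
    obtain ⟨u, hu⟩ := hass
    rw [← hu, map_mul, hb, zero_mul]
  rw [map_multiset_prod, Multiset.map_map, Multiset.prod_eq_zero_iff] at h1
  rw [Multiset.mem_map] at h1
  obtain ⟨τ', hτ', h2⟩ := h1
  simp only [Function.comp_apply, map_sub, he, AlgHom.commutes, Algebra.algebraMap_self,
    RingHom.id_apply] at h2
  have h3 : τ' = τ := (_root_.sub_eq_zero.1 h2).symm
  subst h3
  exact (Multiset.dvd_prod (Multiset.mem_map_of_mem _ hτ')).trans hass.symm.dvd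

theorem ev_dvd_iff {τ : C} {e : B →ₐ[C] C} (he : e T = τ) {b : B} :
    T - algebraMap C B τ ∣ b ↔ e b = 0 := by
  refine ⟨?_, H.dvd_of_ev he⟩
  rintro ⟨g, rfl⟩
  rw [map_mul, map_sub, he, AlgHom.commutes]
  simp

theorem span_eq_ker {τ : C} {e : B →ₐ[C] C} (he : e T = τ) :
    Ideal.span {T - algebraMap C B τ} = RingHom.ker e := by
  ext b
  rw [Ideal.mem_span_singleton, H.ev_dvd_iff he, RingHom.mem_ker]

theorem isMaximal {τ : C} (hτ : τ ∈ S) : (Ideal.span {T - algebraMap C B τ}).IsMaximal := by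
  obtain ⟨e, he⟩ := H.ev τ hτ
  rw [H.span_eq_ker he]
  exact RingHom.ker_isMaximal_of_surjective _ (fun c => ⟨algebraMap C B c, by simp⟩)

theorem exists_of_prime {P : Ideal B} (hP : P.IsPrime) (h0 : P ≠ ⊥) :
    ∃ τ ∈ S, P = Ideal.span {T - algebraMap C B τ} := by
  obtain ⟨b, hb, hb0⟩ := Submodule.exists_mem_ne_zero_of_ne_bot h0
  obtain ⟨m, hm, hass⟩ := H.fac b hb0
  have h1 : (m.map fun τ => T - algebraMap C B τ).prod ∈ P := by
    obtain ⟨u, hu⟩ := hass
    rw [← hu]
    exact P.mul_mem_right _ hb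
  rw [hP.multiset_prod_mem_iff_exists_mem] at h1
  obtain ⟨x, hx, h2⟩ := h1
  obtain ⟨τ, hτ, rfl⟩ := Multiset.mem_map.1 hx
  refine ⟨τ, hm τ hτ, ?_⟩
  exact ((H.isMaximal (hm τ hτ)).eq_of_le hP.ne_top
    ((Ideal.span_singleton_le_iff_mem _).2 h2)).symm

theorem isPID : IsPrincipalIdealRing B := by
  refine IsPrincipalIdealRing.of_prime fun P hP => ?_
  by_cases h0 : P = ⊥
  · rw [h0]; infer_instance
  · obtain ⟨τ, _, h⟩ := H.exists_of_prime hP h0
    exact ⟨⟨_, h⟩⟩

theorem isDedekind : IsDedekindDomain B := by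
  haveI := H.isPID
  infer_instance

/-- the prime at a point -/
noncomputable def pt {τ : C} (hτ : τ ∈ S) : HeightOneSpectrum B where
  asIdeal := Ideal.span {T - algebraMap C B τ}
  isPrime := (H.isMaximal hτ).isPrime
  ne_bot := by
    rw [Ne, Ideal.span_singleton_eq_bot]
    exact H.sub_ne_zero τ

variable (F : Type*) [Field F] [Algebra B F] [IsFractionRing B F]

/-- the valuation at a point (order of vanishing) -/
noncomputable def vp {τ : C} (hτ : τ ∈ S) : Valuation F ℤᵐ⁰ :=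
  haveI := H.isDedekind
  (H.pt hτ).valuation F

theorem vp_T {τ : C} (hτ : τ ∈ S) :
    H.vp F hτ (algebraMap B F (T - algebraMap C B τ)) = exp (-1) := by
  haveI := H.isDedekind
  show (H.pt hτ).valuation F _ = _
  rw [HeightOneSpectrum.valuation_of_algebraMap]
  exact (H.pt hτ).intValuation_singleton (H.sub_ne_zero τ) rfl

theorem vp_le_one {τ : C} (hτ : τ ∈ S) (b : B) : H.vp F hτ (algebraMap B F b) ≤ 1 := by
  haveI := H.isDedekind
  exact (H.pt hτ).valuation_le_one b

theorem vp_lt_one_iff {τ : C} (hτ : τ ∈ S) (b : B) :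
    H.vp F hτ (algebraMap B F b) < 1 ↔ T - algebraMap C B τ ∣ b := by
  haveI := H.isDedekind
  show (H.pt hτ).valuation F _ < 1 ↔ _
  rw [HeightOneSpectrum.valuation_lt_one_iff_mem]
  exact Ideal.mem_span_singleton

theorem vp_eq_one_iff {τ : C} (hτ : τ ∈ S) (b : B) :
    H.vp F hτ (algebraMap B F b) = 1 ↔ ¬ T - algebraMap C B τ ∣ b := by
  rw [← H.vp_lt_one_iff F hτ, not_lt]
  exact ⟨fun h => h.ge, fun h => le_antisymm (H.vp_le_one F hτ b) h⟩

theorem vp_surj {τ : C} (hτ : τ ∈ S) : Function.Surjective (H.vp F hτ) := by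
  intro z
  rcases eq_or_ne z 0 with rfl | hz
  · exact ⟨0, map_zero _⟩
  · refine ⟨algebraMap B F (T - algebraMap C B τ) ^ (-log z), ?_⟩
    rw [map_zpow₀, vp_T, ← exp_zsmul]
    simp [exp_log hz]

variable [Algebra C F] [IsScalarTower C B F]

theorem vp_const {τ : C} (hτ : τ ∈ S) {c : C} (hc : c ≠ 0) :
    H.vp F hτ (algebraMap C F c) = 1 := by
  rw [IsScalarTower.algebraMap_apply C B F, vp_eq_one_iff]
  obtain ⟨e, he⟩ := H.ev τ hτ
  rw [H.ev_dvd_iff he, AlgHom.commutes]
  simpa using hc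

/-- the place of `F` at a point -/
noncomputable def plp {τ : C} (hτ : τ ∈ S) : Crest.Agent.R013.RR7_948.Pl C F where
  v := H.vp F hτ
  const := fun _ hc => H.vp_const F hτ hc
  surj := H.vp_surj F hτ

section general

variable {Γ : Type*} [LinearOrderedCommGroupWithZero Γ] {F}

omit [Algebra C F] [IsScalarTower C B F] in
/-- a valuation which is `≤ 1` on the ring is centred at a point -/
theorem exists_isEquiv (W : Valuation F Γ) (hB : ∀ b, W (algebraMap B F b) ≤ 1)
    (hnt : ∃ x : F, W x ≠ 0 ∧ W x ≠ 1) : ∃ (τ : C) (hτ : τ ∈ S), (H.vp F hτ).IsEquiv W := by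
  haveI := H.isDedekind
  obtain ⟨w, hw⟩ := Crest.Agent.R013.RR7_948.exists_heightOne_isEquiv W hB hnt
  obtain ⟨τ, hτ, h⟩ := H.exists_of_prime w.isPrime w.ne_bot
  refine ⟨τ, hτ, ?_⟩
  have h1 : w = H.pt hτ := HeightOneSpectrum.ext h
  rw [h1] at hw
  exact hw

omit [Algebra C F] [IsScalarTower C B F] in
theorem isEquiv_of_lt {W : Valuation F Γ} (hB : ∀ b, W (algebraMap B F b) ≤ 1) {τ : C}
    (hτ : τ ∈ S) (h : W (algebraMap B F (T - algebraMap C B τ)) < 1) :
    (H.vp F hτ).IsEquiv W := by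
  have h0 : algebraMap B F (T - algebraMap C B τ) ≠ 0 := by
    rw [Ne, map_eq_zero_iff _ (IsFractionRing.injective B F)]
    exact H.sub_ne_zero τ
  obtain ⟨τ', hτ', h1⟩ := H.exists_isEquiv W hB ⟨_, (Valuation.ne_zero_iff _).2 h0, h.ne⟩
  have h2 : H.vp F hτ' (algebraMap B F (T - algebraMap C B τ)) < 1 := h1.lt_one_iff_lt_one.2 h
  rw [vp_lt_one_iff] at h2
  obtain ⟨e, he⟩ := H.ev τ' hτ'
  rw [H.ev_dvd_iff he, map_sub, he, AlgHom.commutes] at h2
  have h3 : τ' = τ := _root_.sub_eq_zero.1 h2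
  subst h3
  exact h1

/-- explicit form -/
theorem eq_zpow {W : Valuation F Γ} (hB : ∀ b, W (algebraMap B F b) ≤ 1) {τ : C}
    (hτ : τ ∈ S) (h : W (algebraMap B F (T - algebraMap C B τ)) < 1) {f : F} {n : ℤ}
    (hf : H.vp F hτ f = exp n) : W f = W (algebraMap B F (T - algebraMap C B τ)) ^ (-n) :=
  Crest.Agent.R013.RR13_948.eq_zpow_of_isEquiv (P := H.plp F hτ) (H.isEquiv_of_lt hB hτ h)
    (H.vp_T F hτ) hf

theorem eq_of_apply_eq {W W' : Valuation F Γ} (hB : ∀ b, W (algebraMap B F b) ≤ 1)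
    (hB' : ∀ b, W' (algebraMap B F b) ≤ 1) {τ : C} (hτ : τ ∈ S)
    (h : W (algebraMap B F (T - algebraMap C B τ)) < 1)
    (hWW : W (algebraMap B F (T - algebraMap C B τ)) =
      W' (algebraMap B F (T - algebraMap C B τ))) : W = W' := by
  ext f
  by_cases hf : f = 0
  · rw [hf, map_zero, map_zero]
  · have h1 : H.vp F hτ f = exp (log (H.vp F hτ f)) :=
      (exp_log ((Valuation.ne_zero_iff _).2 hf)).symm
    rw [H.eq_zpow hB hτ h h1, H.eq_zpow hB' hτ (hWW ▸ h) h1, hWW]

end general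

variable {F}

/-- residues: an element which is `≤ 1` at the point is congruent to a constant -/
theorem exists_const {u : Valuation F ℝ≥0} (hB : ∀ b, u (algebraMap B F b) ≤ 1) {τ : C}
    (hτ : τ ∈ S) (h : u (algebraMap B F (T - algebraMap C B τ)) < 1) {y : F} (hy : u y ≤ 1) :
    ∃ c : C, u (y - algebraMap C F c) < 1 := by
  haveI := H.isPID
  by_cases hy1 : u y < 1
  · exact ⟨0, by simpa using hy1⟩
  replace hy1 : u y = 1 := le_antisymm hy (not_lt.1 hy1)
  obtain ⟨e, he⟩ := H.ev τ hτ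
  have hcrit : ∀ b : B, u (algebraMap B F b) < 1 ↔ T - algebraMap C B τ ∣ b := by
    intro b
    rw [← H.vp_lt_one_iff F hτ, (H.isEquiv_of_lt hB hτ h).lt_one_iff_lt_one]
  have hu0 : ∀ f : F, f ≠ 0 → 0 < u f := fun f hf =>
    pos_iff_ne_zero.2 ((Valuation.ne_zero_iff u).2 hf)
  -- normal form
  have hnf : ∀ b : B, b ≠ 0 → ∃ (n : ℕ) (b' : B), b = (T - algebraMap C B τ) ^ n * b' ∧
      ¬ T - algebraMap C B τ ∣ b' := by
    intro b hb
    have hnu : ¬ IsUnit (T - algebraMap C B τ) := by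
      intro hu
      have h1 := (H.isMaximal hτ).ne_top
      exact h1 (Ideal.span_singleton_eq_top.2 hu)
    obtain ⟨n, c, h1, h2⟩ := WfDvdMonoid.max_power_factor hb
      (x := T - algebraMap C B τ) (by
        have hp : Prime (T - algebraMap C B τ) := by
          rw [← Ideal.span_singleton_prime (H.sub_ne_zero τ)]
          exact (H.isMaximal hτ).isPrime
        exact hp.irreducible)
    exact ⟨n, c, h2, h1⟩
  obtain ⟨b, b', hb', rfl⟩ := IsFractionRing.div_surjective (A := B) y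
  have hb'0 : b' ≠ 0 := nonZeroDivisors.ne_zero hb'
  have hb0 : b ≠ 0 := by
    rintro rfl
    rw [map_zero, zero_div, map_zero] at hy1
    exact zero_ne_one hy1
  obtain ⟨n, b1, h1, h1'⟩ := hnf b hb0
  obtain ⟨m, b2, h2, h2'⟩ := hnf b' hb'0
  set t := algebraMap B F (T - algebraMap C B τ) with ht
  have ht0 : t ≠ 0 := by
    rw [ht, Ne, map_eq_zero_iff _ (IsFractionRing.injective B F)]
    exact H.sub_ne_zero τ
  have hub1 : u (algebraMap B F b1) = 1 :=
    le_antisymm (hB b1) (not_lt.1 fun hc => h1' ((hcrit b1).1 hc))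
  have hub2 : u (algebraMap B F b2) = 1 :=
    le_antisymm (hB b2) (not_lt.1 fun hc => h2' ((hcrit b2).1 hc))
  have hnm : n = m := by
    rw [h1, h2, map_mul, map_mul, map_pow, map_pow, map_div₀, map_mul, map_mul, map_pow, map_pow,
      hub1, hub2, mul_one, mul_one, ← ht,
      div_eq_one_iff_eq (pow_ne_zero _ ((Valuation.ne_zero_iff u).2 ht0))] at hy1
    exact pow_right_injective₀ (hu0 t ht0) h.ne hy1
  subst hnm
  have e2 : e b2 ≠ 0 := by rwa [Ne, ← H.ev_dvd_iff he]
  have hb20 : algebraMap B F b2 ≠ 0 := by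
    intro h0; rw [h0, map_zero] at hub2; exact zero_ne_one hub2
  refine ⟨e b1 / e b2, ?_⟩
  have h3 : T - algebraMap C B τ ∣ (b1 - algebraMap C B (e b1 / e b2) * b2) := by
    rw [H.ev_dvd_iff he, map_sub, map_mul, AlgHom.commutes]
    simp only [Algebra.algebraMap_self, RingHom.id_apply]
    rw [div_mul_cancel₀ _ e2, sub_self]
  have h4 : algebraMap B F b / algebraMap B F b' - algebraMap C F (e b1 / e b2) =
      algebraMap B F (b1 - algebraMap C B (e b1 / e b2) * b2) / algebraMap B F b2 := by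
    rw [h1, h2, map_mul, map_mul, map_pow, ← ht, mul_div_mul_left _ _ (pow_ne_zero _ ht0),
      map_sub, map_mul, ← IsScalarTower.algebraMap_apply C B F]
    field_simp
  rw [h4, map_div₀, hub2, div_one]
  exact (hcrit _).2 h3

/-- DENSITY of `C(T)` for the valuation at a point -/
theorem dn {F₀ : Type*} [Field F₀] (i : F₀ →+* F)
    (hC : ∀ c : C, ∃ x, i x = algebraMap C F c) (hT : ∃ x, i x = algebraMap B F T)
    {u : Valuation F ℝ≥0} (hB : ∀ b, u (algebraMap B F b) ≤ 1) {τ : C}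
    (hτ : τ ∈ S) (h : u (algebraMap B F (T - algebraMap C B τ)) < 1) : Dn i u := by
  set t := algebraMap B F (T - algebraMap C B τ) with ht
  have ht0 : t ≠ 0 := by
    rw [ht, Ne, map_eq_zero_iff _ (IsFractionRing.injective B F)]
    exact H.sub_ne_zero τ
  have hut : u t ≠ 0 := (Valuation.ne_zero_iff u).2 ht0
  obtain ⟨t', ht'⟩ : ∃ x, i x = t := by
    obtain ⟨x, hx⟩ := hT
    obtain ⟨y, hy⟩ := hC τ
    exact ⟨x - y, by rw [map_sub, hx, hy, ht, map_sub, ← IsScalarTower.algebraMap_apply C B F]⟩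
  -- value group is generated by `u t`
  have hval : ∀ y : F, u y < 1 → u (y / t) ≤ 1 := by
    intro y hy
    by_cases hy0 : y = 0
    · rw [hy0]; simp
    have hv0 : H.vp F hτ y ≠ 0 := (Valuation.ne_zero_iff _).2 hy0
    have h1 : H.vp F hτ y < 1 := (H.isEquiv_of_lt hB hτ h).lt_one_iff_lt_one.2 hy
    have h2 : H.vp F hτ (y / t) ≤ 1 := by
      rw [map_div₀, H.vp_T F hτ, ← exp_log hv0, ← exp_sub, ← exp_zero, exp_le_exp]
      rw [← exp_log hv0, ← exp_zero, exp_lt_exp] at h1
      omega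
    exact (H.isEquiv_of_lt hB hτ h).le_one_iff_le_one.1 h2
  -- induction
  have key : ∀ (N : ℕ) (y : F), u y ≤ 1 → ∃ x : F₀, u (y - i x) ≤ u t ^ N := by
    intro N
    induction N with
    | zero => intro y hy; exact ⟨0, by simpa using hy⟩
    | succ N ih =>
      intro y hy
      obtain ⟨c, hc⟩ := H.exists_const hB hτ h hy
      obtain ⟨x, hx⟩ := ih _ (hval _ hc)
      obtain ⟨c', hc'⟩ := hC c
      refine ⟨c' + t' * x, ?_⟩
      have e1 : y - i (c' + t' * x) = t * ((y - algebraMap C F c) / t - i x) := by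
        rw [map_add, map_mul, hc', ht']
        field_simp
        ring
      rw [e1, map_mul, pow_succ']
      gcongr
  intro y ε hε
  obtain ⟨n, hn⟩ : ∃ n : ℕ, u (y * t ^ n) ≤ 1 := by
    by_cases hy0 : y = 0
    · exact ⟨0, by rw [hy0]; simp⟩
    obtain ⟨n, hn⟩ := exists_pow_lt_of_lt_one (pos_iff_ne_zero.2 (inv_ne_zero
      ((Valuation.ne_zero_iff u).2 hy0))) h
    refine ⟨n, ?_⟩
    rw [map_mul, map_pow]
    calc u y * u t ^ n ≤ u y * (u y)⁻¹ := by gcongr
      _ = 1 := mul_inv_cancel₀ ((Valuation.ne_zero_iff u).2 hy0)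
  have hεn : 0 < ε * u t ^ n := mul_pos hε (pow_pos (pos_iff_ne_zero.2 hut) n)
  obtain ⟨N, hN⟩ := exists_pow_lt_of_lt_one hεn h
  obtain ⟨x, hx⟩ := key N _ hn
  refine ⟨x / t' ^ n, ?_⟩
  have e1 : y - i (x / t' ^ n) = (y * t ^ n - i x) / t ^ n := by
    rw [map_div₀, map_pow, ht']
    field_simp
  rw [e1, map_div₀, map_pow, div_lt_iff₀ (pow_pos (pos_iff_ne_zero.2 hut) n)]
  exact hx.trans_lt hN

end CellRing

end Crest.Agent.R013.Pts2_315
end

-- ▼ part R013/Pts3_315

/-!
# RED-PTS, part 3 (row 13): places of `K` in one cell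

`K ⊗ Fc = ∏ j, F j`, all of them fraction fields of `CellRing`s. The places of `K` over the
points of the base cell are exactly the points of the cells `j`, each once.
-/

set_option autoImplicit false
set_option linter.style.haveILetI false
set_option linter.unusedSectionVars false
set_option linter.unusedVariables false

open scoped NNReal
open IsDedekindDomain WithZero Polynomial

namespace Crest.Agent.R013.Pts3_315

open Crest.Agent.R013.Pts1_315 Crest.Agent.R013.Pts2_315
open Crest.Agent.R013.RR7_948 Crest.Agent.R013.RR13_948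

/-- two real valuations of a field generated by `C` and `t₀`, trivial on `C`, with the same value
`< 1` at `t₀ - τ₀`, are equal -/
theorem val_eq_of_gen {C F₀ : Type*} [Field C] [IsAlgClosed C] [Field F₀] [Algebra C F₀]
    {W W' : Valuation F₀ ℝ≥0} (hC : ∀ c : C, c ≠ 0 → W (algebraMap C F₀ c) = 1)
    (hC' : ∀ c : C, c ≠ 0 → W' (algebraMap C F₀ c) = 1) {t₀ : F₀} {τ₀ : C}
    (hgen : ∀ f : F₀, ∃ p q : C[X], aeval t₀ q ≠ 0 ∧ f = aeval t₀ p / aeval t₀ q)
    (h : W (t₀ - algebraMap C F₀ τ₀) < 1)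
    (hWW : W (t₀ - algebraMap C F₀ τ₀) = W' (t₀ - algebraMap C F₀ τ₀)) : W = W' := by
  have key : ∀ {V : Valuation F₀ ℝ≥0}, (∀ c : C, c ≠ 0 → V (algebraMap C F₀ c) = 1) →
      V (t₀ - algebraMap C F₀ τ₀) < 1 → ∀ α : C, α ≠ τ₀ → V (t₀ - algebraMap C F₀ α) = 1 := by
    intro V hV hV1 α hα
    have h1 : V (algebraMap C F₀ (τ₀ - α)) = 1 := hV _ (sub_ne_zero.2 hα.symm)
    have h2 : t₀ - algebraMap C F₀ α = (t₀ - algebraMap C F₀ τ₀) + algebraMap C F₀ (τ₀ - α) := by
      rw [map_sub]; ring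
    rw [h2, Valuation.map_add_eq_of_lt_right _ (by rw [h1]; exact hV1), h1]
  have hlin : ∀ α : C, W (t₀ - algebraMap C F₀ α) = W' (t₀ - algebraMap C F₀ α) := by
    intro α
    by_cases hα : α = τ₀
    · rw [hα, hWW]
    · rw [key hC h α hα, key hC' (hWW ▸ h) α hα]
  have hpoly : ∀ p : C[X], W (aeval t₀ p) = W' (aeval t₀ p) := by
    intro p
    by_cases hp : p = 0
    · rw [hp, map_zero, map_zero, map_zero]
    have hs := (IsAlgClosed.splits p).eq_prod_roots
    rw [hs, map_mul, aeval_C, map_multiset_prod, Multiset.map_map, map_mul, map_mul,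
      map_multiset_prod, map_multiset_prod, Multiset.map_map, Multiset.map_map,
      hC _ (leadingCoeff_ne_zero.2 hp), hC' _ (leadingCoeff_ne_zero.2 hp)]
    congr 3
    funext α
    simp only [Function.comp_apply, map_sub, aeval_X, aeval_C]
    exact hlin α
  ext f
  obtain ⟨p, q, hq, rfl⟩ := hgen f
  rw [map_div₀, map_div₀, hpoly, hpoly]


/-- A cell of the line together with the cells of `K` over it.
`F₀ = C(x)`, `i : F₀ → Fc` the expansion, `t₀` the coordinate of the base cell. -/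
structure CellCover {C F₀ K Bc Fc : Type*} [Field C] [Field F₀] [Field K] [Algebra C F₀]
    [Algebra C K] [Algebra F₀ K] [IsScalarTower C F₀ K] [CommRing Bc] [IsDomain Bc] [Algebra C Bc]
    [Field Fc] [Algebra Bc Fc] [IsFractionRing Bc Fc] [Algebra C Fc] [IsScalarTower C Bc Fc]
    (Tc : Bc) (Sc : Set C) (i : F₀ →+* Fc) (t₀ : F₀)
    {J : Type*} {B F : J → Type*} [∀ j, CommRing (B j)] [∀ j, IsDomain (B j)]
    [∀ j, Algebra C (B j)] [∀ j, Field (F j)] [∀ j, Algebra (B j) (F j)]
    [∀ j, IsFractionRing (B j) (F j)] [∀ j, Algebra C (F j)] [∀ j, IsScalarTower C (B j) (F j)]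
    (T : ∀ j, B j) (S : ∀ j, Set C) (io : ∀ j, K →+* F j) (sg : ∀ j, Fc →+* F j)
    (sg0 : ∀ j, Bc →ₐ[C] B j) : Prop where
  base : CellRing Tc Sc
  up : ∀ j, CellRing (T j) (S j)
  gen : ∀ f : F₀, ∃ p q : C[X], aeval t₀ q ≠ 0 ∧ f = aeval t₀ p / aeval t₀ q
  i_C : ∀ c : C, i (algebraMap C F₀ c) = algebraMap C Fc c
  i_t : i t₀ = algebraMap Bc Fc Tc
  io_C : ∀ j, ∀ c : C, io j (algebraMap C K c) = algebraMap C (F j) c
  sg_alg : ∀ j, ∀ b : Bc, sg j (algebraMap Bc Fc b) = algebraMap (B j) (F j) (sg0 j b)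
  pd : PD (algebraMap F₀ K) i io sg
  int : ∀ j, ∀ b : B j, (sg0 j).toRingHom.IsIntegralElem b

namespace CellCover

variable {C F₀ K Bc Fc : Type*} [Field C] [Field F₀] [Field K] [Algebra C F₀]
    [Algebra C K] [Algebra F₀ K] [IsScalarTower C F₀ K] [CommRing Bc] [IsDomain Bc] [Algebra C Bc]
    [Field Fc] [Algebra Bc Fc] [IsFractionRing Bc Fc] [Algebra C Fc] [IsScalarTower C Bc Fc]
    {Tc : Bc} {Sc : Set C} {i : F₀ →+* Fc} {t₀ : F₀}
    {J : Type*} {B F : J → Type*} [∀ j, CommRing (B j)] [∀ j, IsDomain (B j)]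
    [∀ j, Algebra C (B j)] [∀ j, Field (F j)] [∀ j, Algebra (B j) (F j)]
    [∀ j, IsFractionRing (B j) (F j)] [∀ j, Algebra C (F j)] [∀ j, IsScalarTower C (B j) (F j)]
    {T : ∀ j, B j} {S : ∀ j, Set C} {io : ∀ j, K →+* F j} {sg : ∀ j, Fc →+* F j}
    {sg0 : ∀ j, Bc →ₐ[C] B j} (H : CellCover Tc Sc i t₀ T S io sg sg0)
include H

theorem dn {u : Valuation Fc ℝ≥0} (hB : ∀ b, u (algebraMap Bc Fc b) ≤ 1) {τ : C}
    (hτ : τ ∈ Sc) (h : u (algebraMap Bc Fc (Tc - algebraMap C Bc τ)) < 1) : Dn i u :=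
  H.base.dn i (fun c => ⟨_, H.i_C c⟩) ⟨_, H.i_t⟩ hB hτ h

theorem i_sub (τ : C) : i (t₀ - algebraMap C F₀ τ) =
    algebraMap Bc Fc (Tc - algebraMap C Bc τ) := by
  rw [map_sub, H.i_t, H.i_C, map_sub, ← IsScalarTower.algebraMap_apply]

theorem t₀_sub_ne_zero {τ : C} : t₀ - algebraMap C F₀ τ ≠ 0 := by
  intro h
  have h1 := H.i_sub τ
  rw [h, map_zero, eq_comm, map_eq_zero_iff _ (IsFractionRing.injective Bc Fc)] at h1
  exact H.base.sub_ne_zero τ h1

/-- a real valuation of a factor which is `≤ 1` on the base ring is `≤ 1` on the ring -/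
theorem le_one {j : J} {W : Valuation (F j) ℝ≥0}
    (h : ∀ b : Bc, W (algebraMap (B j) (F j) (sg0 j b)) ≤ 1) (b : B j) :
    W (algebraMap (B j) (F j) b) ≤ 1 := by
  obtain ⟨p, hp, hpb⟩ := H.int j b
  letI : Algebra Bc (F j) := ((algebraMap (B j) (F j)).comp (sg0 j).toRingHom).toAlgebra
  refine Crest.Agent.R013.RR8_948.le_one_of_integral (S := Bc) W h ⟨p, hp, ?_⟩
  have h1 := congrArg (algebraMap (B j) (F j)) hpb
  rw [map_zero, Polynomial.hom_eval₂] at h1
  exact h1

/-- the point of the base cell under a point of a cell -/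
theorem exists_under {j : J} {τ : C} (hτ : τ ∈ S j) : ∃ τ₀ ∈ Sc,
    T j - algebraMap C (B j) τ ∣ sg0 j (Tc - algebraMap C Bc τ₀) := by
  obtain ⟨e, he⟩ := (H.up j).ev τ hτ
  let e' : Bc →ₐ[C] C := e.comp (sg0 j)
  have hk : (RingHom.ker e').IsPrime := RingHom.ker_isPrime _
  have hne : RingHom.ker e' ≠ ⊥ := by
    intro h
    have h1 : Tc - algebraMap C Bc (e' Tc) ∈ RingHom.ker e' := by
      rw [RingHom.mem_ker, map_sub, AlgHom.commutes]; simp
    rw [h, Ideal.mem_bot] at h1
    exact H.base.sub_ne_zero _ h1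
  obtain ⟨τ₁, hτ₁, h1⟩ := H.base.exists_of_prime hk hne
  refine ⟨τ₁, hτ₁, ?_⟩
  rw [(H.up j).ev_dvd_iff he]
  have h2 : Tc - algebraMap C Bc τ₁ ∈ RingHom.ker e' := by
    rw [h1]; exact Ideal.mem_span_singleton_self _
  exact h2

/-- the real valuation of `F j` at a point -/
noncomputable def rv (j : J) {τ : C} (hτ : τ ∈ S j) : Valuation (F j) ℝ≥0 :=
  ((H.up j).vp (F j) hτ).map toReal toReal_strictMono.monotone

theorem rv_apply (j : J) {τ : C} (hτ : τ ∈ S j) (f : F j) :
    H.rv j hτ f = toReal ((H.up j).vp (F j) hτ f) := rfl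

theorem rv_le_one (j : J) {τ : C} (hτ : τ ∈ S j) (b : B j) :
    H.rv j hτ (algebraMap (B j) (F j) b) ≤ 1 := by
  rw [rv_apply, ← map_one toReal, toReal_strictMono.le_iff_le]
  exact (H.up j).vp_le_one _ hτ b

theorem rv_lt_one (j : J) {τ : C} (hτ : τ ∈ S j) {b : B j}
    (h : T j - algebraMap C (B j) τ ∣ b) : H.rv j hτ (algebraMap (B j) (F j) b) < 1 := by
  rw [rv_apply, ← map_one toReal, toReal_strictMono.lt_iff_lt]
  exact ((H.up j).vp_lt_one_iff _ hτ b).2 h

theorem surj (j : J) {τ : C} (hτ : τ ∈ S j) :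
    Function.Surjective (((H.up j).vp (F j) hτ).comap (io j)) := by
  intro z
  obtain ⟨g, hg⟩ := (H.up j).vp_surj (F j) hτ z
  obtain ⟨τ₀, hτ₀, hdvd⟩ := H.exists_under hτ
  have hB : ∀ b, (H.rv j hτ).comap (sg j) (algebraMap Bc Fc b) ≤ 1 := fun b => by
    rw [Valuation.comap_apply, H.sg_alg]; exact H.rv_le_one j hτ _
  have hlt : (H.rv j hτ).comap (sg j) (algebraMap Bc Fc (Tc - algebraMap C Bc τ₀)) < 1 := by
    rw [Valuation.comap_apply, H.sg_alg]; exact H.rv_lt_one j hτ hdvd
  obtain ⟨x, hx⟩ := H.pd.exists_val_eq (H.dn hB hτ₀ hlt) (W := H.rv j hτ) (fun b => rfl) g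
  refine ⟨x, ?_⟩
  rw [rv_apply, rv_apply] at hx
  rw [Valuation.comap_apply, toReal_strictMono.injective hx, hg]

/-- the place of `K` at a point of a cell -/
noncomputable def plc (j : J) {τ : C} (hτ : τ ∈ S j) : Pl C K where
  v := ((H.up j).vp (F j) hτ).comap (io j)
  const := fun c hc => by
    rw [Valuation.comap_apply, H.io_C]
    exact (H.up j).vp_const _ hτ hc
  surj := H.surj j hτ

theorem plc_v (j : J) {τ : C} (hτ : τ ∈ S j) (f : K) :
    (H.plc j hτ).v f = (H.up j).vp (F j) hτ (io j f) := rfl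

theorem algebraMap_t (j : J) (τ₀ : C) :
    io j (algebraMap F₀ K t₀ - algebraMap C K τ₀) =
      algebraMap (B j) (F j) (sg0 j (Tc - algebraMap C Bc τ₀)) := by
  rw [IsScalarTower.algebraMap_apply C F₀ K, ← map_sub, H.pd.comm, H.i_sub, H.sg_alg]

/-- the place lies over the base point -/
theorem plc_lt_one (j : J) {τ : C} (hτ : τ ∈ S j) : ∃ τ₀ ∈ Sc,
    (H.plc j hτ).v (algebraMap F₀ K t₀ - algebraMap C K τ₀) < 1 := by
  obtain ⟨τ₀, hτ₀, hdvd⟩ := H.exists_under hτ
  refine ⟨τ₀, hτ₀, ?_⟩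
  rw [plc_v, H.algebraMap_t, (H.up j).vp_lt_one_iff]
  exact hdvd

omit H in
theorem base_unique {P : Pl C K} {x₀ : K} {τ₀ τ₁ : C}
    (h : P.v (x₀ - algebraMap C K τ₀) < 1)
    (h' : P.v (x₀ - algebraMap C K τ₁) < 1) : τ₀ = τ₁ := by
  by_contra hne
  have h1 := P.const (τ₀ - τ₁) (sub_ne_zero.2 hne)
  have h2 : algebraMap C K (τ₀ - τ₁) = (x₀ - algebraMap C K τ₁) -
      (x₀ - algebraMap C K τ₀) := by rw [map_sub]; ring
  rw [h2] at h1
  exact absurd h1 (((P.v.map_sub _ _).trans_lt (max_lt h' h)).ne)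

/-- INJECTIVITY: different points of the cells over a base cell are different places -/
theorem plc_injective {j j' : J} {τ τ' : C} {hτ : τ ∈ S j} {hτ' : τ' ∈ S j'}
    (h : H.plc j hτ = H.plc j' hτ') : j = j' ∧ τ = τ' := by
  obtain ⟨τ₀, hτ₀, h0⟩ := H.plc_lt_one j hτ
  have hv : ∀ f, (H.up j).vp (F j) hτ (io j f) = (H.up j').vp (F j') hτ' (io j' f) := fun f => by
    have h1 : (H.plc j hτ).v f = (H.plc j' hτ').v f := by rw [h]
    exact h1
  have h0' : (H.plc j' hτ').v (algebraMap F₀ K t₀ - algebraMap C K τ₀) < 1 := h ▸ h0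
  have hB : ∀ b, (H.rv j hτ).comap (sg j) (algebraMap Bc Fc b) ≤ 1 := fun b => by
    rw [Valuation.comap_apply, H.sg_alg]; exact H.rv_le_one j hτ _
  have hB' : ∀ b, (H.rv j' hτ').comap (sg j') (algebraMap Bc Fc b) ≤ 1 := fun b => by
    rw [Valuation.comap_apply, H.sg_alg]; exact H.rv_le_one j' hτ' _
  have e1 : (H.rv j hτ).comap (sg j) (algebraMap Bc Fc (Tc - algebraMap C Bc τ₀)) =
      toReal ((H.plc j hτ).v (algebraMap F₀ K t₀ - algebraMap C K τ₀)) := by
    rw [Valuation.comap_apply, H.sg_alg, rv_apply, plc_v, H.algebraMap_t]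
  have e1' : (H.rv j' hτ').comap (sg j') (algebraMap Bc Fc (Tc - algebraMap C Bc τ₀)) =
      toReal ((H.plc j' hτ').v (algebraMap F₀ K t₀ - algebraMap C K τ₀)) := by
    rw [Valuation.comap_apply, H.sg_alg, rv_apply, plc_v, H.algebraMap_t]
  have hlt : (H.rv j hτ).comap (sg j) (algebraMap Bc Fc (Tc - algebraMap C Bc τ₀)) < 1 := by
    rw [e1, ← map_one toReal, toReal_strictMono.lt_iff_lt]; exact h0
  have hu : (H.rv j hτ).comap (sg j) = (H.rv j' hτ').comap (sg j') := by
    refine H.base.eq_of_apply_eq hB hB' hτ₀ hlt ?_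
    rw [e1, e1', h]
  have hd := H.dn hB hτ₀ hlt
  have hW' : ∀ b, H.rv j' hτ' (sg j' b) = (H.rv j hτ).comap (sg j) b := fun b => by
    rw [hu]; rfl
  have hio : ∀ x : K, H.rv j hτ (io j x) = H.rv j' hτ' (io j' x) := fun x => by
    rw [rv_apply, rv_apply, hv]
  have hj : j = j' := H.pd.factor_unique hd (fun b => rfl) hW' hio
  subst hj
  refine ⟨rfl, ?_⟩
  have hW := H.pd.val_unique hd (fun b => rfl) hW' hio
  have h3 : H.rv j hτ' (algebraMap (B j) (F j) (T j - algebraMap C (B j) τ)) < 1 := by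
    rw [← hW]; exact H.rv_lt_one j hτ dvd_rfl
  rw [rv_apply, ← map_one toReal, toReal_strictMono.lt_iff_lt, (H.up j).vp_lt_one_iff] at h3
  obtain ⟨e, he⟩ := (H.up j).ev τ' hτ'
  rw [(H.up j).ev_dvd_iff he, map_sub, he, AlgHom.commutes] at h3
  exact (sub_eq_zero.1 h3).symm

/-- SURJECTIVITY: every place of `K` over a point of the base cell is a point of a cell -/
theorem exists_plc [IsAlgClosed C] {P : Pl C K} {τ₀ : C} (hτ₀ : τ₀ ∈ Sc)
    (h : P.v (algebraMap F₀ K t₀ - algebraMap C K τ₀) < 1) :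
    ∃ (j : J) (τ : C) (hτ : τ ∈ S j), P = H.plc j hτ := by
  -- the base valuation
  set z := P.v (algebraMap F₀ K t₀ - algebraMap C K τ₀) with hz
  have hz0 : z ≠ 0 := by
    rw [hz, Valuation.ne_zero_iff, IsScalarTower.algebraMap_apply C F₀ K, ← map_sub,
      Ne, map_eq_zero]
    exact H.t₀_sub_ne_zero
  obtain ⟨e, he⟩ : ∃ e : ℕ, z = exp (-1) ^ e ∧ e ≠ 0 := by
    have h1 : z = exp (log z) := (exp_log hz0).symm
    have h2 : log z < 0 := by
      rw [h1, ← exp_zero, exp_lt_exp] at h; exact h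
    refine ⟨(-log z).toNat, ?_, by omega⟩
    rw [← exp_nsmul]
    conv_lhs => rw [h1]
    congr 1
    simp only [nsmul_eq_mul]
    have : ((-log z).toNat : ℤ) = -log z := Int.toNat_of_nonneg (by omega)
    rw [this]; ring
  let φ : ℤᵐ⁰ →*₀ ℝ≥0 := (powMonoidWithZeroHom he.2).comp toReal
  have hφ : StrictMono φ := fun a b hab =>
    pow_lt_pow_left₀ (toReal_strictMono hab) (zero_le) he.2
  let u : Valuation Fc ℝ≥0 := (H.base.vp Fc hτ₀).map φ hφ.monotone
  have huB : ∀ b, u (algebraMap Bc Fc b) ≤ 1 := fun b => by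
    show φ _ ≤ 1
    rw [← map_one φ, hφ.le_iff_le]
    exact H.base.vp_le_one _ hτ₀ b
  have huT : u (algebraMap Bc Fc (Tc - algebraMap C Bc τ₀)) = toReal z := by
    show toReal (H.base.vp Fc hτ₀ _) ^ e = toReal z
    rw [H.base.vp_T, he.1, map_pow]
  have hlt1 : toReal z < 1 := by
    rw [← map_one toReal, toReal_strictMono.lt_iff_lt]; exact h
  have hult : u (algebraMap Bc Fc (Tc - algebraMap C Bc τ₀)) < 1 := by rw [huT]; exact hlt1
  -- agreement on `F₀`
  have hC1 : ∀ c : C, c ≠ 0 → u (algebraMap C Fc c) = 1 := fun c hc => by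
    show φ _ = 1
    rw [H.base.vp_const Fc hτ₀ hc, map_one]
  have hwu : ∀ f : F₀, (P.v.map toReal toReal_strictMono.monotone) (algebraMap F₀ K f) =
      u (i f) := by
    have hval : (P.v.map toReal toReal_strictMono.monotone).comap (algebraMap F₀ K) =
        u.comap i := by
      refine val_eq_of_gen (τ₀ := τ₀) (t₀ := t₀) ?_ ?_ H.gen ?_ ?_
      · intro c hc
        rw [Valuation.comap_apply, ← IsScalarTower.algebraMap_apply]
        show toReal _ = 1
        rw [P.const c hc, map_one]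
      · intro c hc
        rw [Valuation.comap_apply, H.i_C, hC1 c hc]
      · rw [Valuation.comap_apply, map_sub, ← IsScalarTower.algebraMap_apply]
        exact hlt1
      · rw [Valuation.comap_apply, map_sub, ← IsScalarTower.algebraMap_apply,
          Valuation.comap_apply, H.i_sub, huT]
        rfl
    intro f
    exact congrArg (fun V => V f) hval
  have hd := H.dn huB hτ₀ hult
  obtain ⟨j, W, hW1, hW2⟩ := H.pd.exists_ext _ hwu hd
  have hWB : ∀ b, W (algebraMap (B j) (F j) b) ≤ 1 := H.le_one fun b => by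
    rw [← H.sg_alg, hW2]; exact huB b
  have hnt : ∃ x : F j, W x ≠ 0 ∧ W x ≠ 1 := by
    refine ⟨sg j (algebraMap Bc Fc (Tc - algebraMap C Bc τ₀)), ?_, ?_⟩
    · rw [hW2, huT, _root_.map_ne_zero]; exact hz0
    · rw [hW2]; exact hult.ne
  obtain ⟨τ, hτ, hEq⟩ := (H.up j).exists_isEquiv W hWB hnt
  refine ⟨j, τ, hτ, ?_⟩
  apply Pl.ext
  refine eq_of_isEquiv_surj ?_ P.surj (H.surj j hτ)
  intro x y
  have h1 : P.v x ≤ P.v y ↔ W (io j x) ≤ W (io j y) := by
    rw [hW1, hW1]; exact toReal_strictMono.le_iff_le.symm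
  rw [h1]
  exact (hEq (io j x) (io j y)).symm

end CellCover

end Crest.Agent.R013.Pts3_315
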