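import Mathlib
import Crest.Agent.R013.Pts3_315
import Crest.Agent.R013.Cell4_408
import Crest.Agent.R013.SSDefs_332
import Crest.Agent.R013.EE4_809
import Crest.Agent.R013.RR12_948

-- ▼ part R013/Pts4_315
section

/-!
# RED-PTS, part 4 (row 13): `BD k C` (bounded functions on the open unit disc) is a `CellRing`
-/

set_option autoImplicit false
set_option linter.style.haveILetI false
set_option linter.unusedSectionVars false
set_option linter.unusedVariables false

open scoped NNReal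

namespace Crest.Agent.R013.Pts4_315

open Crest.Agent.R013.Pts1_315 Crest.Agent.R013.Pts2_315 Crest.Agent.R013.Pts3_315
open Crest.Agent.R013.Cell_408

variable {k C : Type*} [NontriviallyNormedField k] [CompleteSpace k] [IsUltrametricDist k]
  [NormedField C] [IsUltrametricDist C] [NormedAlgebra k C] [Algebra.IsAlgebraic k C] [IsAlgClosed C]

variable (k C) in
/-- the coordinate of the open unit disc -/
noncomputable def XD : BD k C := ⟨PowerSeries.X, X_mem_BD⟩

theorem coe_prod (m : Multiset C) :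
    (((m.map fun τ => XD k C - algebraMap C (BD k C) τ).prod : BD k C) : PowerSeries C) =
      (rootPoly m : PowerSeries C) := by
  have h1 : (((m.map fun τ => XD k C - algebraMap C (BD k C) τ).prod : BD k C) : PowerSeries C) =
      (BD k C).val (m.map fun τ => XD k C - algebraMap C (BD k C) τ).prod := rfl
  have h2 : (rootPoly m : PowerSeries C) = Polynomial.coeToPowerSeries.ringHom (rootPoly m) := rfl
  rw [h1, h2, map_multiset_prod, rootPoly, map_multiset_prod, Multiset.map_map, Multiset.map_map]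
  congr 1
  refine Multiset.map_congr rfl fun τ _ => ?_
  simp only [Function.comp_apply, map_sub, AlgHom.commutes]
  rw [Polynomial.coeToPowerSeries.ringHom_apply, Polynomial.coeToPowerSeries.ringHom_apply,
    Polynomial.coe_X, Polynomial.coe_C]
  rfl

theorem cellRing_BD (hk : DiscNorm k) : CellRing (XD k C) {τ : C | ‖τ‖ < 1} where
  fac := by
    intro b hb
    have hb' : (b : PowerSeries C) ≠ 0 := fun h => hb (Subtype.ext h)
    obtain ⟨c, g, m, hc, hg, hfg, -, -⟩ := exists_normalise hk b.2 hb'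
    obtain ⟨u, S, hu, -, hS, hgu⟩ := hg.exists_roots
    obtain ⟨v, hv, huv⟩ := hu.inv
    refine ⟨S, hS, Associated.symm ?_⟩
    have hcc : (PowerSeries.C c : PowerSeries C) * PowerSeries.C c⁻¹ = 1 := by
      rw [← map_mul, mul_inv_cancel₀ hc, map_one]
    refine ⟨⟨⟨PowerSeries.C c * u, mul_mem (C_mem_BD c) hu.mem⟩,
      ⟨PowerSeries.C c⁻¹ * v, mul_mem (C_mem_BD _) hv.mem⟩, Subtype.ext ?_, Subtype.ext ?_⟩, ?_⟩
    · show PowerSeries.C c * u * (PowerSeries.C c⁻¹ * v) = 1
      linear_combination (u * v) * hcc + huv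
    · show PowerSeries.C c⁻¹ * v * (PowerSeries.C c * u) = 1
      linear_combination (u * v) * hcc + huv
    · apply Subtype.ext
      show ((S.map fun τ => XD k C - algebraMap C (BD k C) τ).prod : BD k C).1 *
        (PowerSeries.C c * u) = b.1
      rw [coe_prod, hfg, hgu]
      ring
  ev := fun τ hτ => ⟨ev τ hτ, evp_X τ⟩
  nc := by
    intro c h
    have h1 := congrArg (fun f : BD k C => PowerSeries.coeff 1 (f : PowerSeries C)) h
    have h2 : PowerSeries.coeff 1 ((algebraMap C (BD k C) c : BD k C) : PowerSeries C) = 0 := by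
      show PowerSeries.coeff 1 (PowerSeries.C c) = 0
      rw [PowerSeries.coeff_C]; simp
    simp only [h2] at h1
    have h3 : PowerSeries.coeff 1 ((XD k C : BD k C) : PowerSeries C) = 1 := by
      show PowerSeries.coeff 1 (PowerSeries.X : PowerSeries C) = 1
      rw [PowerSeries.coeff_one_X]
    rw [h3] at h1
    exact one_ne_zero h1

end Crest.Agent.R013.Pts4_315
end

-- ▼ part R013/Conn1_315
section

/-!
# RED-PTS / CONN (row 13), part 1: functions without poles on a disc or an annulus cell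
-/

set_option autoImplicit false
set_option linter.style.haveILetI false
set_option linter.unusedSectionVars false
set_option linter.unusedVariables false

open scoped NNReal
open WithZero

namespace Crest.Agent.R013.Conn_315

open Crest.Agent.R013.Pts2_315 Crest.Agent.R013.Pts4_315
open Crest.Agent.R013.Cell_408 (BD DiscNorm evp ev FinDef)
open Crest.Agent.R013.EE809 Crest.Agent.R013.SSK_332

/-- a cell ring is the intersection of its local rings -/
theorem mem_range_of_local {C B F : Type*} [Field C] [CommRing B] [IsDomain B] [Algebra C B]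
    {T : B} {S : Set C} (H : CellRing T S) [Field F] (φ : B →+* F) (a : F)
    (h1 : ∃ h : B, h ≠ 0 ∧ ∃ g, a * φ h = φ g)
    (h2 : ∀ τ ∈ S, ∃ h : B, ¬ (T - algebraMap C B τ ∣ h) ∧ ∃ g, a * φ h = φ g) :
    ∃ b, a = φ b := by
  let I : Ideal B :=
    { carrier := {h | ∃ g, a * φ h = φ g}
      add_mem' := by
        rintro x y ⟨g, hg⟩ ⟨g', hg'⟩
        exact ⟨g + g', by rw [map_add, mul_add, hg, hg', map_add]⟩
      zero_mem' := ⟨0, by simp⟩
      smul_mem' := by
        rintro c x ⟨g, hg⟩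
        refine ⟨c * g, ?_⟩
        rw [smul_eq_mul, map_mul, map_mul, ← hg]; ring }
  have hI : I = ⊤ := by
    by_contra hne
    obtain ⟨M, hM, hIM⟩ := Ideal.exists_le_maximal I hne
    have h0 : M ≠ ⊥ := by
      rintro rfl
      obtain ⟨h, hh, hg⟩ := h1
      exact hh (by simpa using hIM (show h ∈ I from hg))
    obtain ⟨τ, hτ, hMτ⟩ := H.exists_of_prime hM.isPrime h0
    obtain ⟨h, hh, hg⟩ := h2 τ hτ
    have h3 : h ∈ M := hIM (show h ∈ I from hg)
    rw [hMτ, Ideal.mem_span_singleton] at h3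
    exact hh h3
  have h3 : (1 : B) ∈ I := by rw [hI]; trivial
  obtain ⟨g, hg⟩ := h3
  exact ⟨g, by rw [← hg, map_one, mul_one]⟩

theorem tendsto_zpow_int {r : ℝ} (h0 : 0 ≤ r) (h1 : r < 1) :
    Filter.Tendsto (fun n : ℤ => r ^ n) Filter.atTop (nhds 0) := by
  have h : Filter.Tendsto (fun n : ℤ => r ^ n.toNat) Filter.atTop (nhds 0) :=
    (tendsto_pow_atTop_nhds_zero_of_lt_one h0 h1).comp (Filter.tendsto_atTop.2 fun b =>
      (Filter.eventually_ge_atTop (b : ℤ)).mono (by intro n hn; omega))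
  refine h.congr' ?_
  filter_upwards [Filter.eventually_ge_atTop 0] with n hn
  rw [← zpow_natCast, Int.toNat_of_nonneg hn]


section EE

variable {k C : Type*} [NontriviallyNormedField k] [CompleteSpace k] [IsUltrametricDist k]
  [NormedField C] [IsUltrametricDist C] [NormedAlgebra k C] [Algebra.IsAlgebraic k C] [IsAlgClosed C]

/-! ### discs -/

theorem inD_iff {a : EE k C} : InD a ↔ ∃ b : BD k C, a = ofBD b := by
  constructor
  · intro h
    refine ⟨posPart a, ?_⟩
    ext n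
    rw [co_ofBD_posPart]
    split_ifs with hn
    · rfl
    · exact h n (by omega)
  · rintro ⟨b, rfl⟩ n hn
    exact co_ofBD_neg b hn

theorem evE_ofBD (τ : C) (b : BD k C) : evE τ (ofBD b) = evp τ b.1 := by
  rw [evE, evp]
  rw [← (Nat.cast_injective (R := ℤ)).tsum_eq]
  · refine tsum_congr fun n => ?_
    rw [co_ofBD_nat, zpow_natCast]
  · intro n hn
    rw [Function.mem_support] at hn
    rcases lt_or_ge n 0 with h | h
    · rw [co_ofBD_neg b h, zero_mul] at hn
      exact absurd rfl hn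
    · obtain ⟨m, rfl⟩ := Int.eq_ofNat_of_zero_le h
      exact ⟨m, rfl⟩

theorem lin_eq (τ : C) : (lin τ : EE k C) = ofBD (XD k C - algebraMap C (BD k C) τ) := by
  rw [map_sub, ofBD_algebraMap]
  show mono 1 1 _ - mono 0 τ _ = _
  have h1 : (mono 1 1 (Crest.Agent.R013.EE809.finDef_const (k := k) (1 : C)) : EE k C) =
      ofBD (XD k C) := by
    ext n
    rw [co_mono]
    rcases lt_or_ge n 0 with h | h
    · rw [co_ofBD_neg _ h, if_neg (by omega)]
    · obtain ⟨m, rfl⟩ := Int.eq_ofNat_of_zero_le h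
      rw [co_ofBD_nat]
      show _ = PowerSeries.coeff m (PowerSeries.X : PowerSeries C)
      rw [PowerSeries.coeff_X]
      norm_cast
  rw [h1]
  rfl

theorem ev_dvd_iff (hk : DiscNorm k) {τ : C} (hτ : ‖τ‖ < 1) (b : BD k C) :
    XD k C - algebraMap C (BD k C) τ ∣ b ↔ evp τ b.1 = 0 :=
  (cellRing_BD hk).ev_dvd_iff (e := ev τ hτ) (Crest.Agent.R013.Cell_408.evp_X τ)

/-- the order of `T - τ` is `1` -/
theorem od_lin {τ : C} (hτ : ‖τ‖ < 1) : od (lin τ : EE k C) = 1 := by
  have hco : ∀ n : ℤ, (lin τ : EE k C).co n = (if n = 1 then 1 else 0) - (if n = 0 then τ else 0) := by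
    intro n; rfl
  have hg : gn (lin τ : EE k C) = 1 := by
    apply le_antisymm
    · refine gn_le fun n => ?_
      rw [hco]
      split_ifs with h1 h2 h2
      · omega
      · simp
      · simpa using hτ.le
      · simp
    · have := le_gn (lin τ : EE k C) 1
      rw [hco] at this
      simpa using this
  refine od_eq_of ?_ ?_
  · rw [hg, hco]; simp
  · intro m hm
    rw [hg, hco]
    split_ifs with h1 h2 h2
    · omega
    · omega
    · simpa using hτ
    · simp

theorem lin_ne_zero (τ : C) : (lin τ : EE k C) ≠ 0 := by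
  intro h
  have h1 := congrArg (fun a : EE k C => a.co 1) h
  have h2 : (lin τ : EE k C).co 1 = (if (1 : ℤ) = 1 then (1 : C) else 0) - (if (1 : ℤ) = 0 then τ else 0) := rfl
  simp only [h2, co_zero] at h1
  norm_num at h1

/-! ### annuli -/




theorem flip_fd (c : C) (a : EE k C) : FinDef k fun n : ℤ => a.co (-n) * c ^ (-n) := by
  obtain ⟨L, hL, h3⟩ := a.fd
  obtain ⟨L', hL', h4⟩ := Crest.Agent.R013.EE809.finDef_const (k := k) c
  refine ⟨L ⊔ L', IntermediateField.finiteDimensional_sup L L', fun n => ?_⟩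
  exact mul_mem ((le_sup_left : L ≤ L ⊔ L') (h3 _))
    (zpow_mem ((le_sup_right : L' ≤ L ⊔ L') (h4 ())) _)

theorem flip_bd {c : C} {a : EE k C} (ha : InA c a) :
    ∃ M : ℝ, ∀ n : ℤ, ‖a.co (-n) * c ^ (-n)‖ ≤ M := by
  obtain ⟨M, hM⟩ := ha
  exact ⟨M, fun n => by rw [norm_mul, norm_zpow]; exact hM (-n)⟩

theorem flip_lim {c : C} (hc1 : ‖c‖ < 1) (a : EE k C) :
    Filter.Tendsto (fun n : ℤ => a.co (-n) * c ^ (-n)) Filter.atBot (nhds 0) := by
  obtain ⟨M, hM⟩ := a.bd
  have h5 : Filter.Tendsto (fun n : ℤ => M * ‖c‖ ^ (-n)) Filter.atBot (nhds 0) := by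
    have h6 := ((tendsto_zpow_int (norm_nonneg c) hc1).comp
      Filter.tendsto_neg_atBot_atTop).const_mul M
    rw [mul_zero] at h6
    exact h6
  refine squeeze_zero_norm (fun n => ?_) h5
  rw [norm_mul, norm_zpow]
  exact mul_le_mul_of_nonneg_right (hM _) (by positivity)

/-- the substitution `T ↦ c / T` -/
noncomputable def flipE {c : C} (hc : c ≠ 0) (hc1 : ‖c‖ < 1) (a : EE k C) (ha : InA c a) :
    EE k C :=
  mk' (fun n => a.co (-n) * c ^ (-n)) (flip_fd c a) (flip_bd ha) (flip_lim hc1 a)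


theorem flip_flipE {c : C} (hc : c ≠ 0) (hc1 : ‖c‖ < 1) (a : EE k C) (ha : InA c a) :
    Flip c a (flipE hc hc1 a ha) := fun n => rfl

theorem flip_mul {c : C} (hc : c ≠ 0) {a b a' b' : EE k C} (ha : Flip c a a') (hb : Flip c b b') :
    Flip c (a * b) (a' * b') := by
  intro n
  rw [co_mul, co_mul, ← tsum_mul_right, ← (Equiv.neg ℤ).tsum_eq]
  refine tsum_congr fun i => ?_
  simp only [Equiv.neg_apply]
  rw [ha, hb, neg_neg]
  have h1 : -(n - -i) = -n - i := by ring
  rw [h1]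
  have h2 : c ^ i * c ^ (-n - i) = c ^ (-n) := by
    rw [← zpow_add₀ hc]; congr 1; ring
  rw [← h2]; ring

theorem flip_symm {c : C} (hc : c ≠ 0) {a a' : EE k C} (ha : Flip c a a') : Flip c a' a := by
  intro n
  rw [ha (-n), neg_neg, mul_assoc, ← zpow_add₀ hc]
  simp

theorem flip_unique {c : C} {a a' a'' : EE k C} (h : Flip c a a') (h' : Flip c a a'') :
    a' = a'' := by
  ext n; rw [h n, h' n]

theorem inA_of_flip {c : C} {a a' : EE k C} (h : Flip c a a') : InA c a := by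
  obtain ⟨M, hM⟩ := a'.bd
  refine ⟨M, fun n => ?_⟩
  have := hM (-n)
  rwa [h (-n), neg_neg, norm_mul, norm_zpow] at this

/-- comparison of the norms at the two ends of an annulus -/
theorem gn_flip_ge (hk : DiscNorm k) {c : C} {a a' : EE k C} (h : Flip c a a') (ha : a ≠ 0) :
    gn a * ‖c‖ ^ (od a) ≤ gn a' := by
  have h1 := le_gn a' (-od a)
  rw [h (-od a), neg_neg, norm_mul, norm_zpow, norm_co_od hk ha] at h1
  exact h1

end EE

end Crest.Agent.R013.Conn_315
end

-- ▼ part R013/Conn2_315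
section

/-!
# RED-PTS / CONN (row 13), part 2: the graph of a semistable structure is connected
-/

set_option autoImplicit false
set_option linter.style.haveILetI false
set_option linter.unusedSectionVars false
set_option linter.unusedVariables false

open scoped NNReal
open WithZero

namespace Crest.Agent.R013.Conn_315

open Crest.Agent.R013.Pts2_315 Crest.Agent.R013.Pts4_315
open Crest.Agent.R013.Cell_408 (BD DiscNorm evp ev FinDef)
open Crest.Agent.R013.EE809 Crest.Agent.R013.SSK_332 Crest.Agent.R013.Red332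
open Crest.Agent.R013.RR7_948 Crest.Agent.R013.RR11_948 Crest.Agent.R013.RR12_948

variable {k C : Type*} [NontriviallyNormedField k] [CompleteSpace k] [IsUltrametricDist k]
  [NormedField C] [IsUltrametricDist C] [NormedAlgebra k C] [Algebra.IsAlgebraic k C]
  [IsAlgClosed C] [hk : Fact (DiscNorm k)]

/-- `AN c` is the intersection of its local rings (proved in `Conn3`) -/
def HAN (k C : Type*) [NontriviallyNormedField k] [CompleteSpace k]
    [NormedField C] [IsUltrametricDist C] [NormedAlgebra k C] : Prop :=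
  ∀ c : C, c ≠ 0 → ‖c‖ < 1 → ∀ a : EE k C,
    (∃ h : EE k C, h ≠ 0 ∧ InA c h ∧ InA c (a * h)) →
    (∀ τ : C, ‖c‖ < ‖τ‖ → ‖τ‖ < 1 → ∃ h : EE k C, InA c h ∧ evE τ h ≠ 0 ∧ InA c (a * h)) →
    InA c a

theorem od_ofBD_nonneg {b : BD k C} (hb : b ≠ 0) : 0 ≤ EE809.od (ofBD b) := by
  by_contra h
  push Not at h
  have h1 : (ofBD b : EE k C) ≠ 0 := fun h0 => hb (ofBD_injective (by rw [h0, map_zero]))
  exact co_od_ne_zero hk.out h1 (co_ofBD_neg b h)

theorem od_ofBD_pos {b : BD k C} (hb : b ≠ 0) {τ : C} (hτ : ‖τ‖ < 1) (h : evp τ b.1 = 0) :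
    0 < EE809.od (ofBD b) := by
  obtain ⟨b', rfl⟩ := (ev_dvd_iff hk.out hτ b).2 h
  have hb' : b' ≠ 0 := by rintro rfl; exact hb (mul_zero _)
  have h1 : (ofBD b' : EE k C) ≠ 0 := fun h0 => hb' (ofBD_injective (by rw [h0, map_zero]))
  rw [map_mul, ← lin_eq, od_mul hk.out (lin_ne_zero τ) h1, od_lin hτ]
  have := od_ofBD_nonneg (k := k) hb'
  omega

theorem inA_mul {c : C} (hc : c ≠ 0) {x y : EE k C} (hx : InA c x) (hy : InA c y) :
    InA c (x * y) := by
  obtain ⟨M, hM⟩ := hx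
  obtain ⟨N, hN⟩ := hy
  exact ⟨M * N, Bdd.mul (norm_pos_iff.2 hc) hM hN⟩

theorem inA_pow_lin {c : C} (hc : c ≠ 0) (τ : C) (m : ℕ) : InA c ((lin τ : EE k C) ^ m) := by
  have hcpos : 0 < ‖c‖ := norm_pos_iff.2 hc
  have hlin : InA c (lin τ : EE k C) := by
    refine ⟨max (‖(1 : C)‖ * ‖c‖ ^ (1 : ℤ)) (‖τ‖ * ‖c‖ ^ (0 : ℤ)), ?_⟩
    exact Bdd.sub hcpos ((Bdd.mono hcpos 1 1 _).le (le_max_left _ _))
      ((Bdd.mono hcpos 0 τ _).le (le_max_right _ _))
  induction m with
  | zero => rw [pow_zero]; exact ⟨1, Bdd.one⟩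
  | succ m ih => rw [pow_succ]; exact inA_mul hc ih hlin

variable {K : Type*} [Field K] [Algebra C K] (S : SSK k C K)

/-- a function without poles on a disc cell is a bounded series there -/
theorem disc_regular {d : S.Dir} (hd : S.IsDisc d) {f : K}
    (hf : ∀ τ hτ, (S.ptD d hd.1 hd.2 τ hτ).v f ≤ 1) : ∃ b : BD k C, S.em d f = ofBD b := by
  by_cases hf0 : f = 0
  · exact ⟨0, by rw [hf0, map_zero, map_zero]⟩
  refine mem_range_of_local (cellRing_BD hk.out) (ofBD : BD k C →+* EE k C) (S.em d f) ?_ ?_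
  · obtain ⟨g, h, h0, hg, hh, e⟩ := S.disc d hd.1 hd.2 f
    obtain ⟨g, rfl⟩ := inD_iff.1 hg
    obtain ⟨h, rfl⟩ := inD_iff.1 hh
    exact ⟨h, by rintro rfl; exact h0 (map_zero _), g, e⟩
  · intro τ hτ
    obtain ⟨a, b, g, h, hg, hh, eg, eh, e, ev⟩ := S.ptD_ord d hd.1 hd.2 τ hτ f hf0
    obtain ⟨g, rfl⟩ := inD_iff.1 hg
    obtain ⟨h, rfl⟩ := inD_iff.1 hh
    have hle := hf τ hτ
    rw [ev, ← exp_zero, exp_le_exp] at hle
    have hba : b ≤ a := by omega
    obtain ⟨m, rfl⟩ := Nat.exists_eq_add_of_le hba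
    refine ⟨h, ?_, (XD k C - algebraMap C (BD k C) τ) ^ m * g, ?_⟩
    · rw [ev_dvd_iff hk.out hτ, ← evE_ofBD]; exact eh
    · rw [map_mul, map_pow, ← lin_eq]
      have h1 : (lin τ : EE k C) ^ b ≠ 0 := pow_ne_zero _ (lin_ne_zero τ)
      refine mul_left_cancel₀ h1 ?_
      calc (lin τ : EE k C) ^ b * (S.em d f * ofBD h) = S.em d f * (lin τ ^ b * ofBD h) := by ring
        _ = lin τ ^ (b + m) * ofBD g := e
        _ = lin τ ^ b * (lin τ ^ m * ofBD g) := by rw [pow_add]; ring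


/-- a function without poles on an annulus cell -/
theorem ann_regular (HA : HAN k C) (e : S.Ed) {f : K}
    (hf : ∀ τ h0 h1, (S.ptA e τ h0 h1).v f ≤ 1) :
    InA (S.cc e) (S.em (S.e0 e) f) ∧ Flip (S.cc e) (S.em (S.e0 e) f) (S.em (S.e1 e) f) := by
  have hc := S.cc_ne e
  have hc1 := S.cc_lt e
  obtain ⟨g, h, g', h', h0, hg, hh, fg, fh, e1, e2⟩ := S.ann e f
  have h0' : h' ≠ 0 := by
    rintro rfl
    apply h0
    exact flip_unique (flip_symm hc fh) (fun n => by simp)
  have hin : InA (S.cc e) (S.em (S.e0 e) f) := by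
    by_cases hf0 : f = 0
    · rw [hf0, map_zero]; exact ⟨0, fun n => by simp⟩
    refine HA _ hc hc1 _ ⟨h, h0, hh, by rw [e1]; exact hg⟩ ?_
    intro τ hτ0 hτ1
    obtain ⟨a, b, g, h, hg, hh, eg, eh, ee, ev⟩ := S.ptA_ord e τ hτ0 hτ1 f hf0
    have hle := hf τ hτ0 hτ1
    rw [ev, ← exp_zero, exp_le_exp] at hle
    have hba : b ≤ a := by omega
    obtain ⟨m, rfl⟩ := Nat.exists_eq_add_of_le hba
    refine ⟨h, hh, eh, ?_⟩
    have h1 : (lin τ : EE k C) ^ b ≠ 0 := pow_ne_zero _ (lin_ne_zero τ)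
    have h2 : S.em (S.e0 e) f * h = lin τ ^ m * g := by
      refine mul_left_cancel₀ h1 ?_
      calc (lin τ : EE k C) ^ b * (S.em (S.e0 e) f * h) =
          S.em (S.e0 e) f * (lin τ ^ b * h) := by ring
        _ = lin τ ^ (b + m) * g := ee
        _ = lin τ ^ b * (lin τ ^ m * g) := by rw [pow_add]; ring
    rw [h2]
    exact inA_mul hc (inA_pow_lin hc τ m) hg
  refine ⟨hin, ?_⟩
  have hfl := flip_flipE hc hc1 _ hin
  have h3 : S.em (S.e1 e) f = flipE hc hc1 _ hin := by
    refine mul_right_cancel₀ h0' ?_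
    rw [e2]
    have h4 := flip_mul hc hfl fh
    rw [e1] at h4
    exact flip_unique fg h4
  rw [h3]
  exact hfl

end Crest.Agent.R013.Conn_315
end

-- ▼ part R013/Conn3_315

/-!
# RED-PTS / CONN (row 13), part 3: the graph of a semistable structure is connected

`SSK.Conn` for every semistable structure (given `HAN`: `AN c` is the intersection of its local
rings).  Proof: the maximum principle on the graph.
-/

set_option autoImplicit false
set_option linter.style.haveILetI false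
set_option linter.unusedSectionVars false
set_option linter.unusedVariables false

open scoped NNReal
open WithZero

namespace Crest.Agent.R013.Conn_315

open Crest.Agent.R013.Pts2_315 Crest.Agent.R013.Pts4_315
open Crest.Agent.R013.Cell_408 (BD DiscNorm evp ev FinDef)
open Crest.Agent.R013.EE809 Crest.Agent.R013.SSK_332 Crest.Agent.R013.Red332
open Crest.Agent.R013.RR7_948 Crest.Agent.R013.RR8_948 Crest.Agent.R013.RR9_948
open Crest.Agent.R013.RR11_948 Crest.Agent.R013.RR12_948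

variable {k C : Type*} [NontriviallyNormedField k] [CompleteSpace k] [IsUltrametricDist k]
  [NormedField C] [IsUltrametricDist C] [NormedAlgebra k C] [Algebra.IsAlgebraic k C]
  [IsAlgClosed C] [hk : Fact (DiscNorm k)]

theorem algebraicClosure_bot {K : Type*} [Field K] [Algebra C K] :
    algebraicClosure C K = ⊥ := by
  rw [eq_bot_iff]
  intro x hx
  rw [mem_algebraicClosure_iff] at hx
  have hmon := minpoly.monic hx.isIntegral
  have hirr := minpoly.irreducible hx.isIntegral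
  have hdeg := IsAlgClosed.degree_eq_one_of_irreducible C hirr
  obtain ⟨y, hy⟩ := minpoly.mem_range_of_degree_eq_one C x hdeg
  exact IntermediateField.mem_bot.2 ⟨y, hy⟩

section vertex

variable {K : Type*} [Field K] [Algebra C K]

/-- **Kirchhoff** (weak form): a function whose reduction has no poles has constant reduction -/
theorem kirchhoff (w : Nm C K)
    (hff : ∃ i : Algebra (RatFunc (Ct C)) (kap w),
      IsScalarTower (Ct C) (RatFunc (Ct C)) (kap w) ∧
      FiniteDimensional (RatFunc (Ct C)) (kap w) ∧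
      Algebra.IsSeparable (RatFunc (Ct C)) (kap w))
    {f : K} (hf : f ≠ 0) (h : ∀ x, 0 ≤ Red332.od w x f) : ∀ x, Red332.od w x f = 0 := by
  obtain ⟨i, h1, h2, h3⟩ := hff
  intro x
  obtain ⟨hl0, hl⟩ := lc_spec w hf
  have hv : ∀ y : Pl (Ct C) (kap w), y.v (red w (f * (algebraMap C K (lc w f))⁻¹)) =
      exp (-Red332.od w y f) := by
    intro y
    rw [v_red_of_one y hl]
    congr 2
    rw [Red332.od_mul y hf, ← map_inv₀, Red332.od_C y (inv_ne_zero hl0), add_zero]
    rw [← map_inv₀, Ne, map_eq_zero]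
    exact inv_ne_zero hl0
  set g := red w (f * (algebraMap C K (lc w f))⁻¹) with hg
  have hg0 : g ≠ 0 := red_ne_zero w hl
  by_contra hne
  have hpos : 0 < Red332.od w x f := lt_of_le_of_ne (h x) (Ne.symm hne)
  have h4 : 1 < x.v g⁻¹ := by
    rw [map_inv₀, hv x, ← exp_neg, neg_neg, ← exp_zero, exp_lt_exp]
    exact hpos
  obtain ⟨Q, hQ⟩ := exists_lt_of_exists_gt (inv_ne_zero hg0) h4
  rw [map_inv₀, hv Q, ← exp_neg, neg_neg, ← exp_zero, exp_lt_exp] at hQ
  exact absurd (h Q) (not_le.2 hQ)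

end vertex

variable {K : Type*} [Field K] [Algebra C K] (S : SSK k C K)

/-- there is an open disc at each vertex -/
theorem exists_disc (v : S.V) : ∃ d : S.Dir, S.IsDisc d ∧ d.1 = v := by
  classical
  obtain ⟨i, h1, h2, h3⟩ := S.ff v
  haveI := S.fEd
  let F : S.Ed → Finset (Pl (Ct C) (kap (S.nm v))) := fun e =>
    (if h : (S.e0 e).1 = v then {h ▸ (S.e0 e).2} else ∅) ∪
    (if h : (S.e1 e).1 = v then {h ▸ (S.e1 e).2} else ∅)
  obtain ⟨x, hx⟩ := exists_notMem (k := Ct C) (K := kap (S.nm v)) (Finset.univ.biUnion F)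
  refine ⟨⟨v, x⟩, ⟨fun e he => hx ?_, fun e he => hx ?_⟩, rfl⟩
  · refine Finset.mem_biUnion.2 ⟨e, Finset.mem_univ _, Finset.mem_union_left _ ?_⟩
    have h : (S.e0 e).1 = v := by rw [← he]
    rw [dif_pos h, Finset.mem_singleton]
    have : ∀ (p : S.Dir) (hp : p.1 = v), (⟨v, x⟩ : S.Dir) = p → x = hp ▸ p.2 := by
      rintro p hp rfl
      rfl
    exact this _ h he
  · refine Finset.mem_biUnion.2 ⟨e, Finset.mem_univ _, Finset.mem_union_right _ ?_⟩
    have h : (S.e1 e).1 = v := by rw [← he]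
    rw [dif_pos h, Finset.mem_singleton]
    have : ∀ (p : S.Dir) (hp : p.1 = v), (⟨v, x⟩ : S.Dir) = p → x = hp ▸ p.2 := by
      rintro p hp rfl
      rfl
    exact this _ h he

theorem adj_symm {v w : S.V} (h : S.Adj v w) : S.Adj w v := by
  obtain ⟨e, h | h⟩ := h
  · exact ⟨e, Or.inr ⟨h.2, h.1⟩⟩
  · exact ⟨e, Or.inl ⟨h.2, h.1⟩⟩

theorem reach_symm {v w : S.V} (h : Relation.ReflTransGen S.Adj v w) :
    Relation.ReflTransGen S.Adj w v := by
  induction h with
  | refl => exact .refl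
  | tail _ h ih => exact Relation.ReflTransGen.head (adj_symm S h) ih

/-- `f` has no poles at the points of the cells which touch `A` -/
def Reg (A : Set S.V) (f : K) : Prop :=
  (∀ d (hd : S.IsDisc d), d.1 ∈ A → ∀ τ hτ, (S.ptD d hd.1 hd.2 τ hτ).v f ≤ 1) ∧
  ∀ e, (S.e0 e).1 ∈ A → ∀ τ h0 h1, (S.ptA e τ h0 h1).v f ≤ 1

theorem one_le_of_zpow_le {r : ℝ} (h0 : 0 < r) (h1 : r < 1) {n : ℤ} (h : r ^ n ≤ 1) : 0 ≤ n := by
  by_contra hn
  push Not at hn
  have := one_lt_zpow_of_neg₀ h0 h1 hn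
  exact absurd h (not_le.2 this)

/-- orders at a maximising vertex -/
theorem od_nonneg_of_max (HA : HAN k C) {A : Set S.V} (hA : ∀ v w, v ∈ A → S.Adj v w → w ∈ A)
    {f : K} (hf0 : f ≠ 0) (hf : Reg S A f) {v : S.V} (hv : v ∈ A)
    (hmax : ∀ w ∈ A, (S.nm w).v f ≤ (S.nm v).v f) (x : Pl (Ct C) (kap (S.nm v))) :
    0 ≤ Red332.od (S.nm v) x f := by
  have hem : ∀ d : S.Dir, S.em d f ≠ 0 := fun d => (map_ne_zero_iff _ (S.em d).injective).2 hf0
  have hodx := S.em_od ⟨v, x⟩ f hf0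
  rw [← hodx]
  have hgpos : ∀ d : S.Dir, 0 < gn (S.em d f) := by
    intro d
    rw [S.em_gn d f]
    exact NNReal.coe_pos.2 (zero_lt_iff.2 ((Valuation.ne_zero_iff _).2 hf0))
  by_cases h0 : ∃ e, (⟨v, x⟩ : S.Dir) = S.e0 e
  · obtain ⟨e, he⟩ := h0
    have hvA : (S.e0 e).1 ∈ A := by rw [← he]; exact hv
    have hwA : (S.e1 e).1 ∈ A := hA _ _ hvA ⟨e, Or.inl ⟨rfl, rfl⟩⟩
    obtain ⟨hin, hfl⟩ := ann_regular S HA e (f := f) (fun τ h0 h1 => hf.2 e hvA τ h0 h1)
    have h1 := gn_flip_ge hk.out hfl (hem _)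
    have h2 : gn (S.em (S.e1 e) f) ≤ gn (S.em (S.e0 e) f) := by
      rw [S.em_gn, S.em_gn, ← he]
      exact NNReal.coe_le_coe.2 (hmax _ hwA)
    rw [he]
    refine one_le_of_zpow_le (norm_pos_iff.2 (S.cc_ne e)) (S.cc_lt e) ?_
    have h3 := h1.trans h2
    by_contra h4
    push Not at h4
    exact absurd h3 (not_le.2 (lt_mul_of_one_lt_right (hgpos _) h4))
  by_cases h0' : ∃ e, (⟨v, x⟩ : S.Dir) = S.e1 e
  · obtain ⟨e, he⟩ := h0'
    have hvA : (S.e1 e).1 ∈ A := by rw [← he]; exact hv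
    have hwA : (S.e0 e).1 ∈ A := hA _ _ hvA ⟨e, Or.inr ⟨rfl, rfl⟩⟩
    obtain ⟨hin, hfl⟩ := ann_regular S HA e (f := f) (fun τ h0 h1 => hf.2 e hwA τ h0 h1)
    have h1 := gn_flip_ge hk.out (flip_symm (S.cc_ne e) hfl) (hem _)
    have h2 : gn (S.em (S.e0 e) f) ≤ gn (S.em (S.e1 e) f) := by
      rw [S.em_gn, S.em_gn, ← he]
      exact NNReal.coe_le_coe.2 (hmax _ hwA)
    rw [he]
    refine one_le_of_zpow_le (norm_pos_iff.2 (S.cc_ne e)) (S.cc_lt e) ?_
    have h3 := h1.trans h2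
    by_contra h4
    push Not at h4
    exact absurd h3 (not_le.2 (lt_mul_of_one_lt_right (hgpos _) h4))
  push Not at h0 h0'
  obtain ⟨b, hb⟩ := disc_regular S (d := ⟨v, x⟩) ⟨h0, h0'⟩ (f := f)
    (fun τ hτ => hf.1 _ ⟨h0, h0'⟩ hv τ hτ)
  rw [hb]
  refine od_ofBD_nonneg ?_
  rintro rfl
  rw [map_zero] at hb
  exact hem _ hb

/-- **the graph of a semistable structure is connected** -/
theorem conn_of_HAN [Algebra (RatFunc C) K] [IsScalarTower C (RatFunc C) K]
    [FiniteDimensional (RatFunc C) K] [Algebra.IsSeparable (RatFunc C) K]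
    (HA : HAN k C) : S.Conn := by
  classical
  haveI := S.fV
  haveI := S.fEd
  refine ⟨?_, ?_⟩
  · obtain ⟨P, -⟩ := exists_notMem (k := C) (K := K) ∅
    rcases S.pt_surj P with ⟨d, -⟩ | ⟨e, -⟩
    · exact ⟨d.1⟩
    · exact ⟨(S.e0 e).1⟩
  intro v0 v1
  by_contra hcon
  set A : Set S.V := {v | Relation.ReflTransGen S.Adj v0 v} with hAdef
  have hA : ∀ v w, v ∈ A → S.Adj v w → w ∈ A := fun v w hv h => Relation.ReflTransGen.tail hv h
  have hv0 : v0 ∈ A := Relation.ReflTransGen.refl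
  have hv1 : v1 ∉ A := hcon
  obtain ⟨d1, hd1, hd1v⟩ := exists_disc S v1
  obtain ⟨d0, hd0, hd0v⟩ := exists_disc S v0
  have h00 : ‖(0 : C)‖ < 1 := by rw [norm_zero]; exact one_pos
  set P1 := S.ptD d1 hd1.1 hd1.2 0 h00 with hP1
  obtain ⟨n, hn1, hn2⟩ : ∃ n : ℕ, 1 ≤ n ∧ 2 * (gen C K : ℤ) - 2 < (n - 1) * degP P1 := by
    refine ⟨(2 * gen C K + 1 : ℕ), by omega, ?_⟩
    have h1 : (1 : ℤ) ≤ degP P1 := by exact_mod_cast degP_pos P1
    have h2 : (0 : ℤ) ≤ gen C K := by positivity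
    push_cast
    nlinarith
  obtain ⟨f, hf1, hf2⟩ := exists_pole_order algebraicClosure_bot P1 n hn2 hn1
  -- `f` is regular on `A`
  have hneD : ∀ d (hd : S.IsDisc d), d.1 ∈ A → ∀ τ hτ, S.ptD d hd.1 hd.2 τ hτ ≠ P1 := by
    intro d hd hdA τ hτ h
    have h1 := (S.ptD_inj _ _ _ _ _ _ _ _ _ _ h).1
    rw [h1, hd1v] at hdA
    exact hv1 hdA
  have hneA : ∀ e τ h0 h1, S.ptA e τ h0 h1 ≠ P1 := fun e τ h0 h1 h =>
    S.ptDA _ _ _ _ _ _ _ _ _ h.symm
  have hregf : Reg S A f :=
    ⟨fun d hd hdA τ hτ => hf2 _ (hneD d hd hdA τ hτ), fun e _ τ h0 h1 => hf2 _ (hneA e τ h0 h1)⟩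
  obtain ⟨b, hb⟩ := disc_regular S hd0 (f := f) (fun τ hτ => hregf.1 d0 hd0 (hd0v ▸ hv0) τ hτ)
  set l : C := evp 0 b.1 with hl
  set f' : K := f - algebraMap C K l with hf'
  have hconst : ∀ P : Pl C K, P.v (algebraMap C K l) ≤ 1 := by
    intro P
    by_cases h : l = 0
    · rw [h, map_zero, map_zero]; exact zero_le
    · exact (P.const l h).le
  have hf0' : f' ≠ 0 := by
    intro h
    have h1 : f = algebraMap C K l := sub_eq_zero.1 h
    have h2 := hconst P1
    rw [← h1, hf1, ← exp_zero, exp_le_exp] at h2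
    omega
  have hreg : Reg S A f' := by
    refine ⟨fun d hd hdA τ hτ => ?_, fun e he τ h0 h1 => ?_⟩
    · exact (Valuation.map_sub _ _ _).trans (max_le (hregf.1 d hd hdA τ hτ) (hconst _))
    · exact (Valuation.map_sub _ _ _).trans (max_le (hregf.2 e he τ h0 h1) (hconst _))
  have hemC : S.em d0 (algebraMap C K l) = ofBD (algebraMap C (BD k C) l) := by
    ext n
    rw [S.em_C, ofBD_algebraMap, co_algebraMap]
  have hb' : S.em d0 f' = ofBD (b - algebraMap C (BD k C) l) := by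
    rw [hf', map_sub, hb, hemC, map_sub]
  have hpos : 0 < EE809.od (S.em d0 f') := by
    rw [hb']
    refine od_ofBD_pos (τ := 0) ?_ h00 ?_
    · intro h
      rw [h, map_zero] at hb'
      exact hf0' ((map_eq_zero_iff _ (S.em d0).injective).1 hb')
    · have h1 : evp (0 : C) (b - algebraMap C (BD k C) l).1 =
        ev 0 h00 (b - algebraMap C (BD k C) l) := rfl
      rw [h1, map_sub]
      have h2 : ev 0 h00 b = l := rfl
      rw [h2, sub_eq_zero]
      exact (((ev (k := k) 0 h00).commutes l)).symm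
  -- a maximising vertex
  obtain ⟨v', hv'A, hv'⟩ := Set.exists_max_image A (fun v => (S.nm v).v f') (Set.toFinite A)
    ⟨v0, hv0⟩
  have key : ∀ v ∈ A, (∀ w ∈ A, (S.nm w).v f' ≤ (S.nm v).v f') →
      ∀ x, Red332.od (S.nm v) x f' = 0 := by
    intro v hv hmax
    exact kirchhoff (S.nm v) (S.ff v) hf0' (od_nonneg_of_max S HA hA hf0' hreg hv hmax)
  have hem : ∀ d : S.Dir, S.em d f' ≠ 0 := fun d => (map_ne_zero_iff _ (S.em d).injective).2 hf0'
  have step : ∀ v w, v ∈ A → (∀ u ∈ A, (S.nm u).v f' ≤ (S.nm v).v f') → S.Adj v w →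
      ∀ u ∈ A, (S.nm u).v f' ≤ (S.nm w).v f' := by
    rintro v w hv hmax ⟨e, h | h⟩ u hu
    · obtain ⟨rfl, rfl⟩ := h
      refine (hmax u hu).trans ?_
      obtain ⟨hin, hfl⟩ := ann_regular S HA e (f := f') (fun τ h0 h1 => hreg.2 e hv τ h0 h1)
      have h1 := gn_flip_ge hk.out hfl (hem _)
      rw [S.em_od _ _ hf0', key _ hv hmax, zpow_zero, mul_one, S.em_gn, S.em_gn] at h1
      exact NNReal.coe_le_coe.1 h1
    · obtain ⟨rfl, rfl⟩ := h
      refine (hmax u hu).trans ?_
      obtain ⟨hin, hfl⟩ := ann_regular S HA e (f := f')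
        (fun τ h0 h1 => hreg.2 e (hA _ _ hv ⟨e, Or.inr ⟨rfl, rfl⟩⟩) τ h0 h1)
      have h1 := gn_flip_ge hk.out (flip_symm (S.cc_ne e) hfl) (hem _)
      rw [S.em_od _ _ hf0', key _ hv hmax, zpow_zero, mul_one, S.em_gn, S.em_gn] at h1
      exact NNReal.coe_le_coe.1 h1
  have hreach : ∀ w, Relation.ReflTransGen S.Adj v' w →
      w ∈ A ∧ ∀ u ∈ A, (S.nm u).v f' ≤ (S.nm w).v f' := by
    intro w hw
    induction hw with
    | refl => exact ⟨hv'A, hv'⟩
    | tail _ h ih => exact ⟨hA _ _ ih.1 h, step _ _ ih.1 ih.2 h⟩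
  obtain ⟨-, h0⟩ := hreach v0 (reach_symm S hv'A)
  have h1 := key v0 hv0 h0
  subst hd0v
  rw [S.em_od _ _ hf0', h1 d0.2] at hpos
  exact lt_irrefl _ hpos

end Crest.Agent.R013.Conn_315
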