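import Crest.Agent.R013.Good3_408
import Mathlib.RingTheory.Henselian
import Mathlib.RingTheory.AdicCompletion.Completeness
import Crest.Agent.R013.EE7_809
import Crest.Agent.R013.Red4_332
import Crest.Agent.R013.Good6_408
import Crest.Agent.R013.Red8_332
import Crest.Agent.R013.Red12_332

-- ▼ part R013/Dir1_408
section

/-!
# SS-DIR, file 1: Hensel's lemma in the ring of bounded series on the open disc

`BI k C` : the subring of `FD k C` of the series with coefficients of norm at most one.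
-/

set_option autoImplicit false
set_option linter.unusedSectionVars false

noncomputable section

namespace Crest.Agent.R013.Dir_408

open Crest.Agent.R013.Cell_408 Crest.Agent.R013.Comp_267 Crest.Agent.R013.Good_408

variable {k C : Type*} [NontriviallyNormedField k] [CompleteSpace k] [IsUltrametricDist k]
  [NormedField C] [IsUltrametricDist C] [NormedAlgebra k C] [Algebra.IsAlgebraic k C]
  [IsAlgClosed C]

/-- the integers of a field between `k` and `C` -/
def RL (L : IntermediateField k C) : Subring C where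
  carrier := {c | c ∈ L ∧ ‖c‖ ≤ 1}
  mul_mem' {a b} ha hb := ⟨mul_mem ha.1 hb.1, by
    rw [norm_mul]; exact mul_le_one₀ ha.2 (norm_nonneg _) hb.2⟩
  one_mem' := ⟨one_mem L, by rw [norm_one]⟩
  add_mem' {a b} ha hb := ⟨add_mem ha.1 hb.1,
    (IsUltrametricDist.norm_add_le_max _ _).trans (max_le ha.2 hb.2)⟩
  zero_mem' := ⟨zero_mem L, by rw [norm_zero]; exact zero_le_one⟩
  neg_mem' {a} ha := ⟨neg_mem ha.1, by rw [norm_neg]; exact ha.2⟩


theorem isUnit_RL {L : IntermediateField k C} {c : RL L} (h : ‖(c : C)‖ = 1) : IsUnit c := by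
  have hc0 : (c : C) ≠ 0 := by
    intro h0
    rw [h0, norm_zero] at h
    exact zero_ne_one h
  refine IsUnit.of_mul_eq_one ⟨(c : C)⁻¹, inv_mem c.2.1, by rw [norm_inv, h, inv_one]⟩ ?_
  exact Subtype.ext (mul_inv_cancel₀ hc0)

variable (k C) in
/-- series with coefficients of norm at most one, as elements of `FD` -/
def BI : Subring (FD k C) where
  carrier := {x | ∃ b : BD k C, (∀ n, ‖PowerSeries.coeff n (b : PowerSeries C)‖ ≤ 1) ∧
    algebraMap (BD k C) (FD k C) b = x}
  mul_mem' := by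
    rintro _ _ ⟨a, ha, rfl⟩ ⟨b, hb, rfl⟩
    refine ⟨a * b, fun n => ?_, map_mul _ _ _⟩
    change ‖PowerSeries.coeff n ((a : PowerSeries C) * (b : PowerSeries C))‖ ≤ 1
    rw [PowerSeries.coeff_mul]
    refine IsUltrametricDist.norm_sum_le_of_forall_le_of_nonneg zero_le_one fun p _ => ?_
    rw [norm_mul]
    exact mul_le_one₀ (ha _) (norm_nonneg _) (hb _)
  one_mem' := by
    refine ⟨1, fun n => ?_, map_one _⟩
    change ‖PowerSeries.coeff n (1 : PowerSeries C)‖ ≤ 1
    rw [PowerSeries.coeff_one]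
    split_ifs <;> simp
  add_mem' := by
    rintro _ _ ⟨a, ha, rfl⟩ ⟨b, hb, rfl⟩
    refine ⟨a + b, fun n => ?_, map_add _ _ _⟩
    change ‖PowerSeries.coeff n ((a : PowerSeries C) + (b : PowerSeries C))‖ ≤ 1
    rw [map_add]
    exact (IsUltrametricDist.norm_add_le_max _ _).trans (max_le (ha n) (hb n))
  zero_mem' := ⟨0, fun n => by
    change ‖PowerSeries.coeff n (0 : PowerSeries C)‖ ≤ 1
    rw [map_zero, norm_zero]; exact zero_le_one, map_zero _⟩
  neg_mem' := by
    rintro _ ⟨a, ha, rfl⟩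
    refine ⟨-a, fun n => ?_, map_neg _ _⟩
    change ‖PowerSeries.coeff n (-(a : PowerSeries C))‖ ≤ 1
    rw [map_neg, norm_neg]
    exact ha n


theorem C_mem_BI {c : C} (hc : ‖c‖ ≤ 1) : algebraMap C (FD k C) c ∈ BI k C := by
  refine ⟨algebraMap C (BD k C) c, fun n => ?_, (IsScalarTower.algebraMap_apply _ _ _ _).symm⟩
  change ‖PowerSeries.coeff n (algebraMap C (PowerSeries C) c)‖ ≤ 1
  rw [PowerSeries.algebraMap_apply, Algebra.algebraMap_self, RingHom.id_apply, PowerSeries.coeff_C]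
  split_ifs
  · exact hc
  · rw [norm_zero]; exact zero_le_one

theorem TF_mem_BI : TF k C ∈ BI k C := by
  refine ⟨XB, fun n => ?_, rfl⟩
  change ‖PowerSeries.coeff n (PowerSeries.X : PowerSeries C)‖ ≤ 1
  rw [PowerSeries.coeff_X]
  split_ifs <;> simp

/-- power series with coefficients in the integers of a finite extension -/
def rl (L : IntermediateField k C) [FiniteDimensional k L] : PowerSeries (RL L) →+* BD k C :=
  (PowerSeries.map (RL L).subtype).codRestrict (BD k C) (fun f => by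
    refine ⟨⟨L, inferInstance, fun n => ?_⟩, 1, fun n => ?_⟩
    · dsimp only
      rw [PowerSeries.coeff_map]
      exact (PowerSeries.coeff n f).2.1
    · rw [PowerSeries.coeff_map]
      exact (PowerSeries.coeff n f).2.2)

theorem coe_rl (L : IntermediateField k C) [FiniteDimensional k L] (f : PowerSeries (RL L)) :
    ((rl L f : BD k C) : PowerSeries C) = PowerSeries.map (RL L).subtype f := rfl

theorem coeff_rl (L : IntermediateField k C) [FiniteDimensional k L] (f : PowerSeries (RL L))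
    (n : ℕ) : PowerSeries.coeff n ((rl L f : BD k C) : PowerSeries C) =
      ((PowerSeries.coeff n f : RL L) : C) := by
  rw [coe_rl, PowerSeries.coeff_map]
  rfl


theorem exists_rl {b : BD k C} {L : IntermediateField k C} [FiniteDimensional k L]
    (h1 : ∀ n, PowerSeries.coeff n (b : PowerSeries C) ∈ L)
    (h2 : ∀ n, ‖PowerSeries.coeff n (b : PowerSeries C)‖ ≤ 1) : ∃ f, rl L f = b := by
  refine ⟨PowerSeries.mk fun n => ⟨PowerSeries.coeff n (b : PowerSeries C), h1 n, h2 n⟩, ?_⟩
  apply Subtype.ext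
  ext n
  rw [coeff_rl, PowerSeries.coeff_mk]

/-- the value at the centre of an element of `BI` -/
theorem exists_unit_BI {b : BD k C} (h : ∀ n, ‖PowerSeries.coeff n (b : PowerSeries C)‖ ≤ 1)
    (h0 : ‖PowerSeries.coeff 0 (b : PowerSeries C)‖ = 1) :
    ∃ b' : BD k C, (∀ n, ‖PowerSeries.coeff n (b' : PowerSeries C)‖ ≤ 1) ∧ b * b' = 1 := by
  obtain ⟨L, hL, h1⟩ := b.2.1
  obtain ⟨f, rfl⟩ := exists_rl (L := L) h1 h
  rw [coeff_rl] at h0
  have hu : IsUnit f := by
    rw [PowerSeries.isUnit_iff_constantCoeff, ← PowerSeries.coeff_zero_eq_constantCoeff_apply]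
    exact isUnit_RL h0
  obtain ⟨g, hg⟩ := hu.exists_right_inv
  refine ⟨rl L g, fun n => ?_, ?_⟩
  · rw [coeff_rl]; exact (PowerSeries.coeff n g).2.2
  · rw [← map_mul, hg, map_one]

theorem inv_mem_BI {b : BD k C} (h : ∀ n, ‖PowerSeries.coeff n (b : PowerSeries C)‖ ≤ 1)
    (h0 : ‖PowerSeries.coeff 0 (b : PowerSeries C)‖ = 1) :
    (algebraMap (BD k C) (FD k C) b)⁻¹ ∈ BI k C := by
  obtain ⟨b', h1, h2⟩ := exists_unit_BI h h0
  have h3 : algebraMap (BD k C) (FD k C) b * algebraMap (BD k C) (FD k C) b' = 1 := by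
    rw [← map_mul, h2, map_one]
  rw [inv_eq_of_mul_eq_one_right h3]
  exact ⟨b', h1, rfl⟩

open Polynomial in
/-- **Hensel's lemma on the disc** -/
theorem hensel_BI (P : (FD k C)[X]) (hP : P.Monic) (B : ℕ → BD k C)
    (hB : ∀ i, algebraMap (BD k C) (FD k C) (B i) = P.coeff i)
    (hB1 : ∀ i n, ‖PowerSeries.coeff n (B i : PowerSeries C)‖ ≤ 1)
    (Pc : C[X]) (hPc : ∀ i, Pc.coeff i = PowerSeries.coeff 0 (B i : PowerSeries C))
    (ζ : C) (hζ : ‖ζ‖ ≤ 1) (h0 : ‖Pc.eval ζ‖ < 1) (h1 : ‖Pc.derivative.eval ζ‖ = 1) :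
    ∃ b : BD k C, (∀ n, ‖PowerSeries.coeff n (b : PowerSeries C)‖ ≤ 1) ∧
      P.eval (algebraMap (BD k C) (FD k C) b) = 0 ∧
      ‖PowerSeries.coeff 0 (b : PowerSeries C) - ζ‖ < 1 := by
  classical
  have hinj := IsFractionRing.injective (BD k C) (FD k C)
  -- degrees
  have hBhigh : ∀ i, P.natDegree < i → B i = 0 := fun i hi => hinj (by
    rw [hB, map_zero, coeff_eq_zero_of_natDegree_lt hi])
  have hBtop : B P.natDegree = 1 := hinj (by rw [hB, map_one]; exact hP)
  have hPc1 : Pc.coeff P.natDegree = 1 := by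
    rw [hPc, hBtop]
    change PowerSeries.coeff 0 (1 : PowerSeries C) = 1
    rw [PowerSeries.coeff_one, if_pos rfl]
  have hPcdeg : Pc.natDegree ≤ P.natDegree := by
    refine natDegree_le_iff_coeff_eq_zero.2 fun i hi => ?_
    rw [hPc, hBhigh i hi]
    exact map_zero _
  have hPcdeg' : Pc.natDegree = P.natDegree := le_antisymm hPcdeg
    (le_natDegree_of_ne_zero (by rw [hPc1]; exact one_ne_zero))
  have hPcm : Pc.Monic := by
    rw [Monic, leadingCoeff, hPcdeg', hPc1]
  have hPcle : ∀ i, ‖Pc.coeff i‖ ≤ 1 := fun i => by rw [hPc]; exact hB1 i 0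
  have heval : ∀ (Q : C[X]), (∀ i, ‖Q.coeff i‖ ≤ 1) → ∀ x y : C, ‖x‖ ≤ 1 → ‖y‖ ≤ 1 →
      ‖Q.eval x - Q.eval y‖ ≤ ‖x - y‖ := by
    intro Q hQ x y hx hy
    rw [eval_eq_sum_range, eval_eq_sum_range, ← Finset.sum_sub_distrib]
    refine IsUltrametricDist.norm_sum_le_of_forall_le_of_nonneg (norm_nonneg _) fun i _ => ?_
    rw [← mul_sub, norm_mul]
    rcases Nat.eq_zero_or_pos i with hi | hi
    · rw [hi, pow_zero, pow_zero, sub_self, norm_zero, mul_zero]; exact norm_nonneg _
    rw [← (Commute.all x y).geom_sum₂_mul, norm_mul]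
    have h2 : ‖∑ l ∈ Finset.range i, x ^ l * y ^ (i - 1 - l)‖ ≤ 1 := by
      refine IsUltrametricDist.norm_sum_le_of_forall_le_of_nonneg zero_le_one fun l _ => ?_
      rw [norm_mul, norm_pow, norm_pow]
      exact mul_le_one₀ (pow_le_one₀ (norm_nonneg _) hx) (by positivity)
        (pow_le_one₀ (norm_nonneg _) hy)
    calc ‖Q.coeff i‖ * (‖∑ l ∈ Finset.range i, x ^ l * y ^ (i - 1 - l)‖ * ‖x - y‖)
        ≤ 1 * (1 * ‖x - y‖) := by gcongr; exact hQ i
      _ = ‖x - y‖ := by ring
  -- an exact root of `Pc`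
  obtain ⟨α, hα0, hα1⟩ : ∃ α, Pc.eval α = 0 ∧ ‖ζ - α‖ < 1 := by
    by_contra hcon
    push Not at hcon
    have hsp : Pc.Splits := IsAlgClosed.splits Pc
    have h2 := hsp.eq_prod_roots
    rw [hPcm.leadingCoeff, C_1, one_mul] at h2
    have h3 : Pc.eval ζ = (Pc.roots.map fun a => ζ - a).prod := by
      conv_lhs => rw [h2]
      rw [eval_multiset_prod, Multiset.map_map]
      congr 1
      refine Multiset.map_congr rfl fun a _ => ?_
      simp
    have h4 : ∀ S : Multiset C, (∀ a ∈ S, 1 ≤ ‖ζ - a‖) → 1 ≤ ‖(S.map fun a => ζ - a).prod‖ := by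
      intro S
      induction S using Multiset.induction_on with
      | empty => intro _; simp
      | cons b S ih =>
        intro hS
        rw [Multiset.map_cons, Multiset.prod_cons, norm_mul]
        exact one_le_mul_of_one_le_of_one_le (hS b (Multiset.mem_cons_self _ _))
          (ih fun a ha => hS a (Multiset.mem_cons_of_mem ha))
    have h5 := h4 Pc.roots (fun a ha => hcon a (isRoot_of_mem_roots ha))
    rw [← h3] at h5
    exact absurd h0 (not_lt.2 h5)
  have hαle : ‖α‖ ≤ 1 := by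
    have : α = ζ - (ζ - α) := by ring
    rw [this]
    rw [sub_eq_add_neg]
    exact (IsUltrametricDist.norm_add_le_max _ _).trans (max_le hζ (by rw [norm_neg]; exact hα1.le))
  have hαd : ‖Pc.derivative.eval α‖ = 1 := by
    have h2 : ‖Pc.derivative.eval ζ - Pc.derivative.eval α‖ < 1 :=
      (heval _ (fun i => by
        rw [coeff_derivative, norm_mul]
        refine mul_le_one₀ (hPcle _) (norm_nonneg _) ?_
        have := IsUltrametricDist.norm_natCast_le_one C (i + 1)
        push_cast at this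
        exact this) ζ α hζ hαle).trans_lt hα1
    have h3 : Pc.derivative.eval α = Pc.derivative.eval ζ -
        (Pc.derivative.eval ζ - Pc.derivative.eval α) := by ring
    rw [h3]
    rw [sub_eq_add_neg, IsUltrametricDist.norm_add_eq_max_of_norm_ne_norm (by
      rw [norm_neg, h1]; exact h2.ne'), norm_neg, h1]
    exact max_eq_left h2.le
  -- the field of definition
  obtain ⟨L0, hL0, hL1⟩ : ∃ L : IntermediateField k C, FiniteDimensional k L ∧
      ∀ i n, PowerSeries.coeff n (B i : PowerSeries C) ∈ L := by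
    have h2 : ∀ N : ℕ, ∃ L : IntermediateField k C, FiniteDimensional k L ∧
      ∀ i < N, ∀ n, PowerSeries.coeff n (B i : PowerSeries C) ∈ L := by
      intro N
      induction N with
      | zero => exact ⟨⊥, inferInstance, fun i hi => absurd hi (Nat.not_lt_zero _)⟩
      | succ N ih =>
        obtain ⟨L, hL, h2⟩ := ih
        obtain ⟨M, hM, h3⟩ := (B N).2.1
        refine ⟨L ⊔ M, IntermediateField.finiteDimensional_sup L M, fun i hi n => ?_⟩
        rcases Nat.lt_succ_iff_lt_or_eq.1 hi with h | h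
        · exact (le_sup_left : L ≤ L ⊔ M) (h2 i h n)
        · rw [h]; exact (le_sup_right : M ≤ L ⊔ M) (h3 n)
    obtain ⟨L, hL, h3⟩ := h2 (P.natDegree + 1)
    refine ⟨L, hL, fun i n => ?_⟩
    rcases Nat.lt_or_ge i (P.natDegree + 1) with h | h
    · exact h3 i h n
    · rw [hBhigh i h]
      change PowerSeries.coeff n (0 : PowerSeries C) ∈ L
      rw [map_zero]
      exact zero_mem L
  obtain ⟨L1, hL1', hα2⟩ := finDef_const (k := k) (ι := Unit) α
  let L : IntermediateField k C := L0 ⊔ L1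
  have : FiniteDimensional k L := IntermediateField.finiteDimensional_sup L0 L1
  have hBL : ∀ i, ∃ f, rl L f = B i := fun i =>
    exists_rl (fun n => (le_sup_left : L0 ≤ L0 ⊔ L1) (hL1 i n)) (hB1 i)
  choose g hg using hBL
  let α' : RL L := ⟨α, (le_sup_right : L1 ≤ L0 ⊔ L1) (hα2 ()), hαle⟩
  have hrinj : Function.Injective (rl L) := by
    intro f f' h
    ext n
    rw [← coeff_rl L f n, ← coeff_rl L f' n, h]
  -- the polynomial over the integers of `L`
  let P1 : (PowerSeries (RL L))[X] := ∑ i ∈ Finset.range (P.natDegree + 1), monomial i (g i)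
  have hP1 : ∀ i, P1.coeff i = g i := by
    intro i
    simp only [P1, finsetSum_coeff, coeff_monomial]
    rw [Finset.sum_ite_eq' (Finset.range (P.natDegree + 1)) i]
    split_ifs with h
    · rfl
    · refine (hrinj ?_).symm
      rw [hg, map_zero]
      exact hBhigh i (by simpa using h)
  have hP1deg : P1.natDegree ≤ P.natDegree := by
    refine natDegree_le_iff_coeff_eq_zero.2 fun i hi => ?_
    rw [hP1]
    exact hrinj (by rw [hg, map_zero]; exact hBhigh i hi)
  have hP1top : P1.coeff P.natDegree = 1 := by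
    rw [hP1]
    exact hrinj (by rw [hg, map_one]; exact hBtop)
  have hP1m : P1.Monic := monic_of_natDegree_le_of_coeff_eq_one _ hP1deg hP1top
  let ρ : PowerSeries (RL L) →+* FD k C := (algebraMap (BD k C) (FD k C)).comp (rl L)
  have hmap : P1.map ρ = P := by
    ext i
    rw [coeff_map, hP1]
    change algebraMap (BD k C) (FD k C) (rl L (g i)) = _
    rw [hg, hB]
  -- evaluation at the centre
  let κ : PowerSeries (RL L) →+* C := (RL L).subtype.comp (PowerSeries.constantCoeff (R := RL L))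
  have hmapc : P1.map κ = Pc := by
    ext i
    rw [coeff_map, hP1, hPc, ← hg i, coeff_rl, PowerSeries.coeff_zero_eq_constantCoeff_apply]
    rfl
  have hκ : ∀ Q : (PowerSeries (RL L))[X], κ (Q.eval (PowerSeries.C α')) = (Q.map κ).eval α := by
    intro Q
    have e : α = κ (PowerSeries.C α') := by
      change α = ((PowerSeries.constantCoeff (PowerSeries.C α') : RL L) : C)
      rw [PowerSeries.constantCoeff_C]
    rw [eval_map]
    conv_rhs => rw [e]
    rw [eval₂_at_apply]
  have hH : HenselianRing (PowerSeries (RL L)) (Ideal.span {PowerSeries.X}) := inferInstance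
  have hmem : ∀ f : PowerSeries (RL L), f ∈ Ideal.span {(PowerSeries.X : PowerSeries (RL L))} ↔
      PowerSeries.constantCoeff f = 0 := by
    intro f
    rw [Ideal.mem_span_singleton, PowerSeries.X_dvd_iff]
  obtain ⟨a, ha0, ha1⟩ := hH.is_henselian P1 hP1m (PowerSeries.C α') (by
      rw [hmem]
      apply Subtype.ext
      have := hκ P1
      rw [hmapc, hα0] at this
      exact this) (by
      have h2 : IsUnit (P1.derivative.eval (PowerSeries.C α')) := by
        rw [PowerSeries.isUnit_iff_constantCoeff]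
        apply isUnit_RL
        have := hκ P1.derivative
        rw [← derivative_map, hmapc] at this
        rw [← hαd, ← this]
        rfl
      exact h2.map _)
  refine ⟨rl L a, fun n => by rw [coeff_rl]; exact (PowerSeries.coeff n a).2.2, ?_, ?_⟩
  · have h2 : ρ (P1.eval a) = P.eval (ρ a) := by
      rw [← hmap, eval_map, eval₂_at_apply]
    have h3 : P.eval (ρ a) = 0 := by
      rw [← h2, ha0, map_zero]
    exact h3
  · rw [hmem, map_sub, PowerSeries.constantCoeff_C, sub_eq_zero] at ha1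
    rw [coeff_rl, PowerSeries.coeff_zero_eq_constantCoeff_apply, ha1]
    change ‖α - ζ‖ < 1
    rw [norm_sub_rev]
    exact hα1

end Crest.Agent.R013.Dir_408
end
end

-- ▼ part R013/Dir2_408
section

/-!
# SS-DIR, file 2: equality of the orders of two ends at an étale point
-/

set_option autoImplicit false
set_option linter.unusedSectionVars false

noncomputable section

namespace Crest.Agent.R013.Dir_408

open Polynomial
open Crest.Agent.R013.Red332 Crest.Agent.R013.EE809
open scoped NNReal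

section GeLemmas

variable {C : Type*} [NormedField C] [IsUltrametricDist C] {F : Type*} [Field F] [Algebra C F]
  {E : End2 C F}

theorem ge_zero_mul {f g : F} (hf : Ge E 0 f) (hg : Ge E 0 g) : Ge E 0 (f * g) := by
  simpa using hf.mul hg

theorem ge_one_mul {f g : F} (hf : Ge E 0 f) (hg : Ge E 1 g) : Ge E 1 (f * g) := by
  simpa using hf.mul hg

/-- an element of the ring which is not in the maximal ideal -/
theorem unit_of_ge {f : F} (h : Ge E 0 f) (h1 : ¬ Ge E 1 f) : E.nm f = 1 ∧ E.od f = 0 := by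
  rcases h with h | ⟨h, h'⟩
  · exact absurd (Or.inl h) h1
  · refine ⟨h, ?_⟩
    by_contra h2
    exact h1 (Or.inr ⟨h, by omega⟩)

theorem not_ge_of_unit {f : F} (h : E.nm f = 1) (h' : E.od f = 0) : ¬ Ge E 1 f := by
  rintro (h1 | ⟨h1, h2⟩)
  · rw [h] at h1; exact lt_irrefl _ h1
  · omega

theorem ge_natCast' (n : ℕ) : Ge E 0 (n : F) := by
  have h : (n : F) = algebraMap C F (n : C) := by simp
  rw [h]
  apply Ge.const
  rw [← NNReal.coe_le_coe, coe_nnnorm, NNReal.coe_one]
  exact IsUltrametricDist.norm_natCast_le_one C n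

theorem ge_succ (i : ℕ) : Ge E 0 ((i : F) + 1) := by
  have := ge_natCast' (E := E) (i + 1)
  push_cast at this
  exact this

theorem ge_one_iff_of_sub {f g : F} (h : Ge E 1 (f - g)) : Ge E 1 f ↔ Ge E 1 g := by
  constructor
  · intro hf
    have : g = f - (f - g) := by ring
    rw [this]; exact hf.sub h
  · intro hg
    have : f = g + (f - g) := by ring
    rw [this]; exact hg.add h

theorem taylor_nm_le {v : Valuation F ℝ≥0} {Q : F[X]} (hQ : ∀ i, v (Q.coeff i) ≤ 1) {a : F}
    (ha : v a ≤ 1) (i : ℕ) : v ((taylor a Q).coeff i) ≤ 1 :=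
  taylor_coeff_mem (P := Q) (z := a) v.integer hQ ha i

theorem taylor_ge_zero {Q : F[X]} (hQ : ∀ i, Ge E 0 (Q.coeff i)) {a : F}
    (ha : Ge E 0 a) (i : ℕ) : Ge E 0 ((taylor a Q).coeff i) :=
  taylor_coeff_mem (P := Q) (z := a) (E.ring.toSubring) (fun i => hQ i) ha i

end GeLemmas

variable {C F0 K : Type*} [NormedField C] [IsUltrametricDist C] [Field F0] [Algebra C F0]
  [Field K] [Algebra C K] [Algebra F0 K] [IsScalarTower C F0 K]

theorem over_ge {E0 : End2 C F0} {E : End2 C K} {e : ℕ} (h : Over E0 E e) {r : F0}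
    (hr : Ge E0 0 r) : Ge E 0 (algebraMap F0 K r) := by
  rcases hr with hr | ⟨hr, hr'⟩
  · left; rw [h.nm]; exact hr
  · right
    rw [h.nm]
    refine ⟨hr, ?_⟩
    rw [h.od r (E0.ne_zero_of_one hr)]
    positivity

theorem over_ge_one_iff {E0 : End2 C F0} {E : End2 C K} {e : ℕ} (h : Over E0 E e) {r : F0} :
    Ge E 1 (algebraMap F0 K r) ↔ Ge E0 1 r := by
  have he : (1 : ℤ) ≤ e := by exact_mod_cast h.pos
  constructor
  · rintro (hr | ⟨hr, hr'⟩)
    · left; rwa [h.nm] at hr
    · right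
      rw [h.nm] at hr
      refine ⟨hr, ?_⟩
      rw [h.od r (E0.ne_zero_of_one hr)] at hr'
      by_contra h2
      have h3 : E0.od r ≤ 0 := by omega
      nlinarith
  · rintro (hr | ⟨hr, hr'⟩)
    · left; rw [h.nm]; exact hr
    · right
      rw [h.nm]
      refine ⟨hr, ?_⟩
      rw [h.od r (E0.ne_zero_of_one hr)]
      nlinarith

/-- integral polynomials at an element of the maximal ideal -/
theorem aeval_sub_coeff {E0 : End2 C F0} {E : End2 C K} {e : ℕ} (h : Over E0 E e) {s : K}
    (hs : Ge E 1 s) (Q : F0[X]) (hQ : ∀ i, Ge E0 0 (Q.coeff i)) :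
    Ge E 0 (aeval s Q) ∧ Ge E 1 (aeval s Q - algebraMap F0 K (Q.coeff 0)) := by
  have key : ∀ Q : F0[X], (∀ i, Ge E0 0 (Q.coeff i)) → Ge E 0 (aeval s Q) := by
    intro Q hQ
    rw [aeval_eq_sum_range]
    refine Ge.sum _ fun i _ => ?_
    rw [Algebra.smul_def]
    exact ge_zero_mul (over_ge h (hQ i)) ((hs.anti (by norm_num)).pow i)
  refine ⟨key Q hQ, ?_⟩
  have h1 : aeval s Q - algebraMap F0 K (Q.coeff 0) = aeval s Q.divX * s := by
    conv_lhs => rw [← divX_mul_X_add Q]
    simp
  rw [h1]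
  exact ge_one_mul (key _ fun i => by rw [coeff_divX]; exact hQ _) hs

theorem aeval_ge_one_iff {E0 : End2 C F0} {E : End2 C K} {e : ℕ} (h : Over E0 E e) {s : K}
    (hs : Ge E 1 s) (Q : F0[X]) (hQ : ∀ i, Ge E0 0 (Q.coeff i)) :
    Ge E 1 (aeval s Q) ↔ Ge E0 1 (Q.coeff 0) := by
  rw [ge_one_iff_of_sub (aeval_sub_coeff h hs Q hQ).2, over_ge_one_iff h]

/-- division by the uniformiser of the base -/
theorem ge_div {E0 : End2 C F0} {u : F0} (hu : E0.nm u = 1) (hu' : E0.od u = 1) {r : F0}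
    (hr : Ge E0 1 r) : Ge E0 0 (r / u) := by
  have h1 := Ge.inv hu
  rw [hu'] at h1
  rw [div_eq_mul_inv]
  simpa using hr.mul h1

/-- **equality of the orders** -/
theorem od_eq_aux {E0 : End2 C F0} {E E' : End2 C K} {e : ℕ} (h : Over E0 E e)
    (h' : Over E0 E' 1) (hnm : ∀ f, E'.nm f = E.nm f) {u : F0} (hu : E0.nm u = 1)
    (hu' : E0.od u = 1) (hsurj : ∃ f, E.nm f = 1 ∧ E.od f = 1) {s : K} (hs : Ge E 1 s)
    (hs' : Ge E' 1 s) (P : F0[X]) (hP : ∀ i, Ge E0 0 (P.coeff i)) (hP0 : aeval s P = 0)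
    (hP1 : ¬ Ge E0 1 (P.coeff 1))
    (app : ∀ y, E.nm y ≤ 1 → ∃ Q : F0[X], (∀ n, E0.nm (Q.coeff n) ≤ 1) ∧
      E.nm (y - aeval s Q) < 1) (y : K) (hy : y ≠ 0) : E'.od y = E.od y := by
  classical
  have hu0 : u ≠ 0 := E0.ne_zero_of_one hu
  have huK : algebraMap F0 K u ≠ 0 := (_root_.map_ne_zero _).2 hu0
  have hEu : E.nm (algebraMap F0 K u) = 1 := by rw [h.nm, hu]
  have hEu' : E.od (algebraMap F0 K u) = e := by rw [h.od u hu0, hu', mul_one]
  have hE'u' : E'.od (algebraMap F0 K u) = 1 := by rw [h'.od u hu0, hu']; norm_num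
  have he : 1 ≤ e := h.pos
  -- the polynomial `H`
  set H : F0[X] := P.divX with hH
  have hHi : ∀ i, Ge E0 0 (H.coeff i) := fun i => by rw [hH, coeff_divX]; exact hP _
  have hH0 : ¬ Ge E0 1 (H.coeff 0) := by rw [hH, coeff_divX]; exact hP1
  have hP00 : Ge E0 1 (P.coeff 0) := by
    rw [← aeval_ge_one_iff h hs P hP, hP0]
    exact Ge.zero _
  set b : F0 := P.coeff 0 / u with hb
  have hb0 : Ge E0 0 b := ge_div hu hu' hP00
  have hsH : s * aeval s H = -(algebraMap F0 K u * algebraMap F0 K b) := by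
    have h1 : aeval s P = aeval s H * s + algebraMap F0 K (P.coeff 0) := by
      conv_lhs => rw [← divX_mul_X_add P]
      simp [hH]
    rw [hP0] at h1
    have h2 : P.coeff 0 = u * b := by rw [hb]; field_simp
    rw [h2, map_mul] at h1
    linear_combination -h1
  have hHu := unit_of_ge (aeval_sub_coeff h hs H hHi).1
    (fun h1 => hH0 ((aeval_ge_one_iff h hs H hHi).1 h1))
  have hHu' := unit_of_ge (aeval_sub_coeff h' hs' H hHi).1
    (fun h1 => hH0 ((aeval_ge_one_iff h' hs' H hHi).1 h1))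
  have hHne : aeval s H ≠ 0 := E.ne_zero_of_one hHu.1
  -- integral polynomials
  have key : ∀ (n : ℕ) (Q : F0[X]), (∀ i, Ge E0 0 (Q.coeff i)) → E.nm (aeval s Q) = 1 →
      E.od (aeval s Q) < n → ∃ m : ℤ, E.od (aeval s Q) = m * e ∧ E'.od (aeval s Q) = m := by
    intro n
    induction n with
    | zero =>
      intro Q hQ hQ1 hlt
      exfalso
      rcases (aeval_sub_coeff h hs Q hQ).1 with h1 | h1
      · rw [hQ1] at h1; exact lt_irrefl _ h1
      · have := h1.2
        push_cast at hlt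
        omega
    | succ n ih =>
      intro Q hQ hQ1 hlt
      by_cases h0 : Ge E0 1 (Q.coeff 0)
      · set a : F0 := Q.coeff 0 / u with ha
        have ha0 : Ge E0 0 a := ge_div hu hu' h0
        set Q1 : F0[X] := Polynomial.C a * H - Polynomial.C b * Q.divX with hQ1def
        have hQ1i : ∀ i, Ge E0 0 (Q1.coeff i) := fun i => by
          rw [hQ1def, coeff_sub, coeff_C_mul, coeff_C_mul]
          exact (ge_zero_mul ha0 (hHi i)).sub (ge_zero_mul hb0 (by rw [coeff_divX]; exact hQ _))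
        have hmul : aeval s Q * aeval s H = algebraMap F0 K u * aeval s Q1 := by
          have h1 : aeval s Q = aeval s Q.divX * s + algebraMap F0 K (Q.coeff 0) := by
            conv_lhs => rw [← divX_mul_X_add Q]
            simp
          have h2 : Q.coeff 0 = u * a := by rw [ha]; field_simp
          rw [h2, map_mul] at h1
          rw [hQ1def, map_sub, map_mul, map_mul, aeval_C, aeval_C, h1]
          linear_combination (aeval s Q.divX) * hsH
        have hQne : aeval s Q ≠ 0 := E.ne_zero_of_one hQ1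
        have hQ1n : E.nm (aeval s Q1) = 1 := by
          have h1 := congrArg E.nm hmul
          rw [map_mul, map_mul, hQ1, hHu.1, hEu, one_mul, one_mul] at h1
          exact h1.symm
        have hQ1ne : aeval s Q1 ≠ 0 := E.ne_zero_of_one hQ1n
        have h2 : E.od (aeval s Q) = e + E.od (aeval s Q1) := by
          have h1 := congrArg E.od hmul
          rw [E.od_mul _ _ hQne hHne, E.od_mul _ _ huK hQ1ne, hHu.2, hEu', add_zero] at h1
          exact h1
        have h3 : E'.od (aeval s Q) = 1 + E'.od (aeval s Q1) := by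
          have h1 := congrArg E'.od hmul
          rw [E'.od_mul _ _ hQne hHne, E'.od_mul _ _ huK hQ1ne, hHu'.2, hE'u', add_zero] at h1
          exact h1
        obtain ⟨m, h4, h5⟩ := ih Q1 hQ1i hQ1n (by push_cast at hlt; omega)
        refine ⟨m + 1, ?_, ?_⟩
        · rw [h2, h4]; ring
        · rw [h3, h5]; ring
      · have h1 := unit_of_ge (aeval_sub_coeff h hs Q hQ).1
          (fun h1 => h0 ((aeval_ge_one_iff h hs Q hQ).1 h1))
        have h2 := unit_of_ge (aeval_sub_coeff h' hs' Q hQ).1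
          (fun h1 => h0 ((aeval_ge_one_iff h' hs' Q hQ).1 h1))
        exact ⟨0, by rw [h1.2]; ring, h2.2⟩
  -- elements of norm one
  have key2 : ∀ y : K, E.nm y = 1 → ∃ m : ℤ, E.od y = m * e ∧ E'.od y = m := by
    intro y hy1
    obtain ⟨Q, hQ, hQy⟩ := app y hy1.le
    choose m hm using fun i => Ge.exists (hQ i)
    obtain ⟨N, hN⟩ : ∃ N : ℕ, ∀ i ∈ Finset.range (Q.natDegree + 1), -(N : ℤ) ≤ m i := by
      refine ⟨∑ i ∈ Finset.range (Q.natDegree + 1), (m i).natAbs, fun i hi => ?_⟩
      have h1 : (m i).natAbs ≤ ∑ i ∈ Finset.range (Q.natDegree + 1), (m i).natAbs :=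
        Finset.single_le_sum (f := fun i => (m i).natAbs) (fun i _ => Nat.zero_le _) hi
      omega
    set R : F0[X] := Polynomial.C (u ^ N) * Q with hR
    have hRi : ∀ i, Ge E0 0 (R.coeff i) := by
      intro i
      rw [hR, coeff_C_mul]
      by_cases hi : i ∈ Finset.range (Q.natDegree + 1)
      · have h1 : Ge E0 (N : ℤ) (u ^ N) := by
          right
          rw [map_pow, hu, one_pow, E0.od_pow hu0, hu', mul_one]
          exact ⟨rfl, le_rfl⟩
        exact (h1.mul (hm i)).anti (by have := hN i hi; omega)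
      · rw [coeff_eq_zero_of_natDegree_lt (by simpa using hi), mul_zero]
        exact Ge.zero _
    have hsub : E.nm (aeval s Q - y) < E.nm y := by
      rw [Valuation.map_sub_swap, hy1]; exact hQy
    have hQ1 : E.nm (aeval s Q) = 1 := by
      have h1 : aeval s Q = y + (aeval s Q - y) := by ring
      rw [h1, Valuation.map_add_eq_of_lt_left _ hsub, hy1]
    have hod1 : E.od (aeval s Q) = E.od y := by
      have h1 := E.od_lt y (aeval s Q - y) hsub
      rwa [add_sub_cancel] at h1
    have hod2 : E'.od (aeval s Q) = E'.od y := by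
      have h1 := E'.od_lt y (aeval s Q - y) (by rw [hnm, hnm]; exact hsub)
      rwa [add_sub_cancel] at h1
    have hQne : aeval s Q ≠ 0 := E.ne_zero_of_one hQ1
    have hRs : aeval s R = (algebraMap F0 K u) ^ N * aeval s Q := by
      rw [hR, map_mul, aeval_C, map_pow]
    have hpne : (algebraMap F0 K u) ^ N ≠ 0 := pow_ne_zero _ huK
    have hR1 : E.nm (aeval s R) = 1 := by
      rw [hRs, map_mul, map_pow, hEu, one_pow, one_mul, hQ1]
    obtain ⟨m, h1, h2⟩ := key ((E.od (aeval s R)).toNat + 1) R hRi hR1 (by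
      have := Int.self_le_toNat (E.od (aeval s R))
      push_cast
      omega)
    rw [hRs, E.od_mul _ _ hpne hQne, E.od_pow huK, hEu', hod1] at h1
    rw [hRs, E'.od_mul _ _ hpne hQne, E'.od_pow huK, hE'u', hod2] at h2
    exact ⟨m - N, by linear_combination h1, by linear_combination h2⟩
  -- `e = 1`
  have he1 : (e : ℤ) = 1 := by
    obtain ⟨f, hf, hf'⟩ := hsurj
    obtain ⟨m, h1, -⟩ := key2 f hf
    rw [hf'] at h1
    have h2 : (e : ℤ) ∣ 1 := ⟨m, by rw [h1]; ring⟩
    have h3 := Int.le_of_dvd one_pos h2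
    have h4 : (1 : ℤ) ≤ e := by exact_mod_cast he
    omega
  obtain ⟨c, hc0, hc1, hc2⟩ := E.exists_one hy
  obtain ⟨m, h1, h2⟩ := key2 _ hc1
  rw [hc2, he1, mul_one] at h1
  rw [h1, ← h2, ← map_inv₀, E'.od_mul _ _ hy ((_root_.map_ne_zero _).2 (inv_ne_zero hc0)),
    E'.od_C _ (inv_ne_zero hc0), add_zero]

end Crest.Agent.R013.Dir_408
end
end

-- ▼ part R013/Dir3_408
section

/-!
# SS-DIR, file 3: the embedding of `K` in `FD k C` at an étale point
-/

set_option autoImplicit false
set_option linter.unusedSectionVars false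
set_option linter.style.haveILetI false

noncomputable section

namespace Crest.Agent.R013.Dir_408

open Polynomial
open Crest.Agent.R013.Red332 Crest.Agent.R013.EE809
open Crest.Agent.R013.Cell_408 Crest.Agent.R013.Comp_267 Crest.Agent.R013.Good_408
open Crest.Agent.R013.RR7_948 Crest.Agent.R013.RR8_948
open scoped NNReal

section Gen

variable {C : Type*} [Field C]

/-- affine coordinates generate `C(x)` -/
theorem gen_affine (a ρ : C) (hρ : ρ ≠ 0) : Gen C
    (algebraMap C (RatFunc C) ρ⁻¹ * (RatFunc.X - algebraMap C (RatFunc C) a)) := by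
  set t : RatFunc C := algebraMap C (RatFunc C) ρ⁻¹ * (RatFunc.X - algebraMap C (RatFunc C) a) with ht
  have hX : algebraMap C (RatFunc C) ρ * t + algebraMap C (RatFunc C) a = RatFunc.X := by
    rw [ht, ← mul_assoc, ← map_mul, mul_inv_cancel₀ hρ, map_one, one_mul, sub_add_cancel]
  have hp : ∀ P : C[X], aeval t (P.comp (Polynomial.C ρ * X + Polynomial.C a)) =
      algebraMap C[X] (RatFunc C) P := by
    intro P
    rw [aeval_comp, map_add, map_mul, aeval_C, aeval_C, aeval_X, hX, aeval_ratFunc_X]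
  intro f
  refine ⟨f.num.comp (Polynomial.C ρ * X + Polynomial.C a),
    f.denom.comp (Polynomial.C ρ * X + Polynomial.C a), ?_, ?_⟩
  · rw [hp]
    exact RatFunc.algebraMap_ne_zero f.denom_ne_zero
  · rw [hp, hp, RatFunc.num_div_denom]

end Gen

variable {k C : Type*} [NontriviallyNormedField k] [CompleteSpace k] [IsUltrametricDist k]
  [NormedField C] [IsUltrametricDist C] [NormedAlgebra k C] [Algebra.IsAlgebraic k C]
  [IsAlgClosed C] [hk : Fact (DiscNorm k)]

theorem ge_endF_iff {m : ℤ} {x : FD k C} : Ge (endF k C) m x ↔ Ge (endE k C) m (toEE k C x) :=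
  Iff.rfl

theorem ge_zero_of_BI {x : FD k C} (h : x ∈ BI k C) : Ge (endF k C) 0 x := by
  obtain ⟨b, hb, rfl⟩ := h
  rw [ge_endF_iff, toEE_algebraMap, ge_iff]
  refine ⟨fun n => ?_, fun n hn => ?_⟩
  · rcases le_or_gt 0 n with h | h
    · obtain ⟨l, rfl⟩ := Int.eq_ofNat_of_zero_le h
      rw [co_ofBD_nat]; exact hb l
    · rw [co_ofBD_neg _ h, norm_zero]; exact zero_le_one
  · rw [co_ofBD_neg _ hn, norm_zero]; exact zero_lt_one

theorem ge_one_of_BI {b : BD k C} (h : ∀ n, ‖PowerSeries.coeff n (b : PowerSeries C)‖ ≤ 1)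
    (h0 : ‖PowerSeries.coeff 0 (b : PowerSeries C)‖ < 1) :
    Ge (endF k C) 1 (algebraMap (BD k C) (FD k C) b) := by
  rw [ge_endF_iff, toEE_algebraMap, ge_iff]
  refine ⟨fun n => ?_, fun n hn => ?_⟩
  · rcases le_or_gt 0 n with h1 | h1
    · obtain ⟨l, rfl⟩ := Int.eq_ofNat_of_zero_le h1
      rw [co_ofBD_nat]; exact h l
    · rw [co_ofBD_neg _ h1, norm_zero]; exact zero_le_one
  · rcases (show n = 0 ∨ n < 0 by omega) with h1 | h1
    · rw [h1]
      have := co_ofBD_nat b 0
      rw [Nat.cast_zero] at this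
      rw [this]; exact h0
    · rw [co_ofBD_neg _ h1, norm_zero]; exact zero_lt_one

/-- an element of `BI` is congruent to its value at the centre -/
theorem ge_one_sub_coeff {b : BD k C} (h : ∀ n, ‖PowerSeries.coeff n (b : PowerSeries C)‖ ≤ 1) :
    Ge (endF k C) 1 (algebraMap (BD k C) (FD k C) b -
      algebraMap C (FD k C) (PowerSeries.coeff 0 (b : PowerSeries C))) := by
  rw [IsScalarTower.algebraMap_apply C (BD k C) (FD k C), ← map_sub]
  have e : ∀ n, PowerSeries.coeff n ((b - algebraMap C (BD k C)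
      (PowerSeries.coeff 0 (b : PowerSeries C)) : BD k C) : PowerSeries C) =
      PowerSeries.coeff n (b : PowerSeries C) -
        if n = 0 then PowerSeries.coeff 0 (b : PowerSeries C) else 0 := by
    intro n
    change PowerSeries.coeff n ((b : PowerSeries C) - algebraMap C (PowerSeries C) _) = _
    rw [map_sub, PowerSeries.algebraMap_apply, Algebra.algebraMap_self, RingHom.id_apply,
      PowerSeries.coeff_C]
  refine ge_one_of_BI (fun n => ?_) ?_
  · rw [e]
    split_ifs with hn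
    · rw [hn, sub_self, norm_zero]; exact zero_le_one
    · rw [sub_zero]; exact h n
  · rw [e, if_pos rfl, sub_self, norm_zero]
    exact zero_lt_one

theorem ge_one_C {F : Type*} [Field F] [Algebra C F] {E : End2 C F} {c : C} :
    Ge E 1 (algebraMap C F c) ↔ ‖c‖₊ < 1 := by
  constructor
  · rintro (h | ⟨h, h'⟩)
    · rwa [E.hC] at h
    · rw [E.hC] at h
      rw [E.od_C c (by rintro rfl; simp at h)] at h'
      omega
  · intro h
    left; rwa [E.hC]

theorem endF_TF : (endF k C).nm (TF k C) = 1 ∧ (endF k C).od (TF k C) = 1 := by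
  constructor
  · rw [endF_nm, toEE_TF, ← endE_nm]; exact nm_T
  · rw [endF_od, toEE_TF]; exact od_T 1

variable (k C) in
/-- the coordinate function `τ + T` -/
def dy (τ : C) : FD k C := algebraMap C (FD k C) τ + TF k C

theorem transc_dy (τ : C) : Transcendental C (dy k C τ) := by
  have h1 : Transcendental C (TF k C) := transcendental_of endF_TF.1 endF_TF.2
  intro h
  apply h1
  have h2 : TF k C = dy k C τ - algebraMap C (FD k C) τ := by rw [dy]; ring
  rw [h2]
  exact h.sub (isAlgebraic_algebraMap τ)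

variable (k C) in
/-- expansion of rational functions on the disc `|x - τ| < 1` -/
def ex (τ : C) : RatFunc C →ₐ[C] FD k C := ratHom (dy k C τ) (transc_dy τ)

theorem ex_X (τ : C) : ex k C τ RatFunc.X = dy k C τ := ratHom_X _ _

variable (k C) in
/-- the end of `C(x)` at the open disc `|x - τ| < 1` -/
def E0 (τ : C) : End2 C (RatFunc C) := (endF k C).comap (ex k C τ)

/-- the coordinate `x - τ` -/
def ux (τ : C) : RatFunc C := RatFunc.X - algebraMap C (RatFunc C) τ

theorem ex_ux (τ : C) : ex k C τ (ux τ) = TF k C := by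
  rw [ux, map_sub, ex_X, AlgHom.commutes, dy]
  ring

theorem E0_ux (τ : C) : (E0 k C τ).nm (ux τ) = 1 ∧ (E0 k C τ).od (ux τ) = 1 := by
  constructor
  · change (endF k C).nm (ex k C τ (ux τ)) = 1
    rw [ex_ux]; exact endF_TF.1
  · change (endF k C).od (ex k C τ (ux τ)) = 1
    rw [ex_ux]; exact endF_TF.2

theorem gen_ux (τ : C) : Gen C (ux τ) := by
  have := gen_affine τ (1 : C) one_ne_zero
  rwa [inv_one, map_one, one_mul] at this

theorem ge_E0_iff {τ : C} {m : ℤ} {r : RatFunc C} :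
    Ge (E0 k C τ) m r ↔ Ge (endF k C) m (ex k C τ r) := Iff.rfl

section Chart

variable {K : Type*} [Field K] [Algebra C K] [Algebra (RatFunc C) K]
  [IsScalarTower C (RatFunc C) K]

/-- `z` is a chart element at the norm `w` -/
structure ChartW (w : Nm C K) (z : K) : Prop where
  tr : ∀ c : C, ‖c‖₊ ≤ 1 → w.v (algebraMap (RatFunc C) K (ux c)) = 1
  gen : IntermediateField.adjoin (RatFunc C) {z} = ⊤
  int : ∀ n, w.v (algebraMap (RatFunc C) K ((minpoly (RatFunc C) z).coeff n)) ≤ 1
  der : w.v (aeval z (derivative (minpoly (RatFunc C) z))) = 1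
  z1 : w.v z = 1
  app : ∀ y, w.v y ≤ 1 → ∃ Q : (RatFunc C)[X],
    (∀ n, w.v (algebraMap (RatFunc C) K (Q.coeff n)) ≤ 1) ∧ w.v (y - aeval z Q) < 1
  uniq : ∀ v : Valuation K ℝ≥0, (∀ f, v (algebraMap (RatFunc C) K f) =
    w.v (algebraMap (RatFunc C) K f)) → v z = 1 → v = w.v

theorem over_E0 {w : Nm C K} {z : K} (hc : ChartW w z) (q : Pl (Ct C) (kap w)) {τ : C}
    (hτ : ‖τ‖₊ ≤ 1) (hx : Ge (ofPl w q) 1 (algebraMap (RatFunc C) K (ux τ))) :
    ∃ e : ℕ, Over (E0 k C τ) (ofPl w q) e := by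
  have h1 : (ofPl w q).nm (algebraMap (RatFunc C) K (ux τ)) = 1 := hc.tr τ hτ
  have h2 : 1 ≤ (ofPl w q).od (algebraMap (RatFunc C) K (ux τ)) := by
    rcases hx with h | h
    · rw [h1] at h; exact absurd h (lt_irrefl _)
    · exact h.2
  obtain ⟨e, he⟩ := Int.eq_ofNat_of_zero_le (zero_le_one.trans h2)
  refine ⟨e, over_of (E0 k C τ) (gen_ux τ) (E0_ux τ).1 (E0_ux τ).2 (ofPl w q) h1 ?_ he⟩
  rw [he] at h2
  exact_mod_cast h2

/-- the root at an étale point -/
theorem exists_root_disc [FiniteDimensional (RatFunc C) K] {w : Nm C K} {z : K}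
    (hc : ChartW w z) (q : Pl (Ct C) (kap w)) {τ ζ : C} (hζ : ‖ζ‖₊ = 1)
    {e : ℕ} (hover : Over (E0 k C τ) (ofPl w q) e)
    (hz : Ge (ofPl w q) 1 (z - algebraMap C K ζ))
    (hd : Red332.od w q (aeval z (derivative (minpoly (RatFunc C) z))) = 0)
    (hB : ∀ i, ex k C τ ((minpoly (RatFunc C) z).coeff i) ∈ BI k C) :
    (∀ i, Ge (E0 k C τ) 0 ((minpoly (RatFunc C) z).coeff i)) ∧
    ¬ Ge (E0 k C τ) 1 ((taylor (algebraMap C (RatFunc C) ζ) (minpoly (RatFunc C) z)).coeff 1) ∧
    ∃ β : FD k C, β ∈ BI k C ∧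
      ((minpoly (RatFunc C) z).map (ex k C τ).toRingHom).eval β = 0 ∧
      Ge (endF k C) 1 (β - algebraMap C (FD k C) ζ) := by
  classical
  set E : End2 C K := ofPl w q with hE
  have hnmF : ∀ f : RatFunc C, w.v (algebraMap (RatFunc C) K f) = (E0 k C τ).nm f := hover.nm
  set F := RatFunc C with hF
  set P : F[X] := minpoly F z with hPdef
  have hint : IsIntegral F z := Algebra.IsIntegral.isIntegral z
  have hPm : P.Monic := minpoly.monic hint
  have hPz : aeval z P = 0 := minpoly.aeval F z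
  choose B hB1 hB0 using hB
  have hPi : ∀ i, Ge (E0 k C τ) 0 (P.coeff i) := fun i =>
    ge_E0_iff.2 (ge_zero_of_BI ⟨B i, hB1 i, hB0 i⟩)
  have hζge : Ge (E0 k C τ) 0 (algebraMap C F ζ) := Ge.const hζ.le
  -- the shifted polynomial
  set s : K := z - algebraMap C K ζ with hs
  set P' : F[X] := taylor (algebraMap C F ζ) P with hP'
  have hsum : s + algebraMap F K (algebraMap C F ζ) = z := by
    rw [← IsScalarTower.algebraMap_apply, hs, sub_add_cancel]
  have htay : ∀ Q : F[X], aeval s (taylor (algebraMap C F ζ) Q) = aeval z Q := by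
    intro Q
    rw [taylor_apply, aeval_comp, map_add, aeval_X, aeval_C, hsum]
  have hintT : ∀ Q : F[X], (∀ i, Ge (E0 k C τ) 0 (Q.coeff i)) →
      ∀ i, Ge (E0 k C τ) 0 ((taylor (algebraMap C F ζ) Q).coeff i) := by
    intro Q hQ i
    exact taylor_ge_zero hQ hζge i
  have hP'i : ∀ i, Ge (E0 k C τ) 0 (P'.coeff i) := hintT P hPi
  have hP'0 : aeval s P' = 0 := by rw [hP', htay, hPz]
  have hder : derivative P' = taylor (algebraMap C F ζ) (derivative P) := by
    rw [hP', taylor_apply, taylor_apply, derivative_comp]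
    simp
  have hdi : ∀ i, Ge (E0 k C τ) 0 ((derivative P).coeff i) := by
    intro i
    rw [coeff_derivative]
    exact ge_zero_mul (hPi _) (ge_succ i)
  have hdne : ¬ Ge E 1 (aeval s (derivative P')) := by
    rw [hder, htay]
    exact not_ge_of_unit (E := E) hc.der hd
  have hP'1 : ¬ Ge (E0 k C τ) 1 (P'.coeff 1) := by
    intro h1
    apply hdne
    rw [hder, aeval_ge_one_iff hover hz _ (hintT _ hdi), ← hder, coeff_derivative]
    simpa using h1
  have hP'00 : Ge (E0 k C τ) 1 (P'.coeff 0) := by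
    rw [← aeval_ge_one_iff hover hz _ hP'i, hP'0]
    exact Ge.zero _
  have hP'1' := hP'1
  rw [hP', taylor_coeff_one] at hP'1
  rw [hP', taylor_coeff_zero] at hP'00
  -- the reduced polynomial
  let Pc : C[X] := ∑ i ∈ Finset.range (P.natDegree + 1),
    monomial i (PowerSeries.coeff 0 (B i : PowerSeries C))
  have hinj := IsFractionRing.injective (BD k C) (FD k C)
  have hPc : ∀ i, Pc.coeff i = PowerSeries.coeff 0 (B i : PowerSeries C) := by
    intro i
    simp only [Pc, finsetSum_coeff, coeff_monomial]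
    rw [Finset.sum_ite_eq' (Finset.range (P.natDegree + 1)) i]
    split_ifs with h
    · rfl
    · have h1 : B i = 0 := hinj (by
        rw [hB0, map_zero, coeff_eq_zero_of_natDegree_lt (by simpa using h), map_zero])
      rw [h1]
      exact (map_zero (PowerSeries.coeff 0)).symm
  have hcoef : ∀ i, Ge (E0 k C τ) 1 (P.coeff i - algebraMap C F (Pc.coeff i)) := by
    intro i
    rw [ge_E0_iff, map_sub, AlgHom.commutes, ← hB0, hPc]
    exact ge_one_sub_coeff (hB1 i)
  have hval : ∀ (Q : F[X]) (Qc : C[X]), (∀ i, Ge (E0 k C τ) 1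
      (Q.coeff i - algebraMap C F (Qc.coeff i))) →
      Ge (E0 k C τ) 1 (Q.eval (algebraMap C F ζ) - algebraMap C F (Qc.eval ζ)) := by
    intro Q Qc h
    have h1 : algebraMap C F (Qc.eval ζ) = (Qc.map (algebraMap C F)).eval (algebraMap C F ζ) := by
      rw [eval_map, eval₂_at_apply]
    rw [h1, ← eval_sub, eval_eq_sum_range]
    refine Ge.sum _ fun i _ => ?_
    rw [coeff_sub, coeff_map, mul_comm]
    exact ge_one_mul (hζge.pow i) (h i)
  have hPc0 : ‖Pc.eval ζ‖₊ < 1 := by
    rw [← ge_one_C (E := E0 k C τ), ← ge_one_iff_of_sub (hval P Pc hcoef)]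
    exact hP'00
  have hPcd : ¬ ‖(derivative Pc).eval ζ‖₊ < 1 := by
    rw [← ge_one_C (E := E0 k C τ), ← ge_one_iff_of_sub (hval (derivative P) (derivative Pc)
      (fun i => by
        rw [coeff_derivative, coeff_derivative]
        have h1 : P.coeff (i + 1) * ((i : F) + 1) -
            algebraMap C F (Pc.coeff (i + 1) * ((i : C) + 1)) =
            ((i : F) + 1) * (P.coeff (i + 1) - algebraMap C F (Pc.coeff (i + 1))) := by
          rw [map_mul, map_add, map_natCast, map_one]; ring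
        rw [h1]
        exact ge_one_mul (ge_succ i) (hcoef _)))]
    exact hP'1
  have hPcle : ∀ i, ‖Pc.coeff i‖ ≤ 1 := fun i => by rw [hPc]; exact hB1 i 0
  have hPcd1 : ‖(derivative Pc).eval ζ‖ = 1 := by
    refine le_antisymm ?_ ?_
    · rw [eval_eq_sum_range]
      refine IsUltrametricDist.norm_sum_le_of_forall_le_of_nonneg zero_le_one fun i _ => ?_
      rw [norm_mul, norm_pow, show ‖ζ‖ = 1 from congrArg NNReal.toReal hζ, one_pow, mul_one,
        coeff_derivative, norm_mul]
      refine mul_le_one₀ (hPcle _) (norm_nonneg _) ?_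
      have := IsUltrametricDist.norm_natCast_le_one C (i + 1)
      push_cast at this
      exact this
    · rw [← not_lt]
      intro h
      exact hPcd (by rw [← NNReal.coe_lt_coe, coe_nnnorm, NNReal.coe_one]; exact h)
  -- the root
  let e' : F →+* FD k C := (ex k C τ).toRingHom
  obtain ⟨b, hb1, hb2, hb3⟩ := hensel_BI (P.map e') (hPm.map _) B
    (fun i => by rw [coeff_map]; exact hB0 i) hB1 Pc hPc ζ
    (by rw [show ‖ζ‖ = 1 from congrArg NNReal.toReal hζ])
    (by have h1 := hPc0; rw [← NNReal.coe_lt_coe, coe_nnnorm, NNReal.coe_one] at h1; exact h1)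
    hPcd1
  refine ⟨hPi, hP'1', algebraMap (BD k C) (FD k C) b, ⟨b, hb1, rfl⟩, hb2, ?_⟩
  have h1 := ge_one_sub_coeff hb1
  have h2 : algebraMap (BD k C) (FD k C) b - algebraMap C (FD k C) ζ =
      (algebraMap (BD k C) (FD k C) b - algebraMap C (FD k C)
        (PowerSeries.coeff 0 (b : PowerSeries C))) + algebraMap C (FD k C)
        (PowerSeries.coeff 0 (b : PowerSeries C) - ζ) := by
    rw [map_sub]; ring
  rw [h2]
  refine h1.add (ge_one_C.2 ?_)
  rw [← NNReal.coe_lt_coe, coe_nnnorm, NNReal.coe_one]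
  exact hb3

theorem nm_of_close {β : FD k C} {ζ : C} (hβ : β ∈ BI k C)
    (hβζ : Ge (endF k C) 1 (β - algebraMap C (FD k C) ζ)) (hζ : ‖ζ‖₊ = 1) :
    (endF k C).nm β = 1 := by
  have h1 : ¬ Ge (endF k C) 1 β := by
    rw [ge_one_iff_of_sub hβζ]
    rw [ge_one_C]
    rw [hζ]
    exact lt_irrefl 1
  have h2 : Ge (endF k C) 0 β := ge_zero_of_BI hβ
  have h3 := unit_of_ge h2 h1
  exact h3.1

/-- **the embedding at an étale point** -/
theorem exists_emb_disc [FiniteDimensional (RatFunc C) K] {w : Nm C K} {z : K}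
    (hc : ChartW w z) (q : Pl (Ct C) (kap w)) {τ ζ : C} (hτ : ‖τ‖₊ ≤ 1) (hζ : ‖ζ‖₊ = 1)
    (hx : Ge (ofPl w q) 1 (algebraMap (RatFunc C) K (ux τ)))
    (hz : Ge (ofPl w q) 1 (z - algebraMap C K ζ))
    (hd : Red332.od w q (aeval z (derivative (minpoly (RatFunc C) z))) = 0)
    (hB : ∀ i, ex k C τ ((minpoly (RatFunc C) z).coeff i) ∈ BI k C) :
    ∃ ψ : K →ₐ[C] FD k C, (∀ r, ψ (algebraMap (RatFunc C) K r) = ex k C τ r) ∧ ψ z ∈ BI k C ∧
      (∀ f, (endF k C).nm (ψ f) = w.v f) ∧
      ∀ f, f ≠ 0 → (endF k C).od (ψ f) = Red332.od w q f := by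
  classical
  set E : End2 C K := ofPl w q with hE
  obtain ⟨e, hover⟩ := over_E0 (k := k) hc q hτ hx
  have hnmF : ∀ f : RatFunc C, w.v (algebraMap (RatFunc C) K f) = (E0 k C τ).nm f := hover.nm
  obtain ⟨hPi, hP'1, β, hβ, hβ0, hβζ⟩ := exists_root_disc hc q hζ hover hz hd hB
  have hβn : (endF k C).nm β = 1 := nm_of_close hβ hβζ hζ
  set F := RatFunc C with hF
  set P : F[X] := minpoly F z with hPdef
  have hint : IsIntegral F z := Algebra.IsIntegral.isIntegral z
  have hPz : aeval z P = 0 := minpoly.aeval F z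
  have hζge : Ge (E0 k C τ) 0 (algebraMap C F ζ) := Ge.const hζ.le
  set s : K := z - algebraMap C K ζ with hs
  have hsum : s + algebraMap F K (algebraMap C F ζ) = z := by
    rw [← IsScalarTower.algebraMap_apply, hs, sub_add_cancel]
  have htay : ∀ Q : F[X], aeval s (taylor (algebraMap C F ζ) Q) = aeval z Q := by
    intro Q
    rw [taylor_apply, aeval_comp, map_add, aeval_X, aeval_C, hsum]
  -- the embedding
  letI : Algebra F (FD k C) := (ex k C τ).toRingHom.toAlgebra
  have halg : ∀ f : F, algebraMap F (FD k C) f = ex k C τ f := fun _ => rfl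
  have hadj : Algebra.adjoin F {z} = ⊤ := by
    rw [← IntermediateField.adjoin_simple_toSubalgebra_of_isAlgebraic hint.isAlgebraic, hc.gen]
    rfl
  let pb := PowerBasis.ofAdjoinEqTop hint hadj
  have hgen : pb.gen = z := rfl
  have hroot : aeval β (minpoly F pb.gen) = 0 := by
    rw [hgen, ← eval_map_algebraMap]
    exact hβ0
  let ψ0 : K →ₐ[F] FD k C := pb.lift β hroot
  have hψz : ψ0 z = β := pb.lift_gen β hroot
  have hψF : ∀ f : F, ψ0 (algebraMap F K f) = ex k C τ f := fun f => ψ0.commutes f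
  have hψC : ∀ c : C, ψ0 (algebraMap C K c) = algebraMap C (FD k C) c := by
    intro c
    rw [IsScalarTower.algebraMap_apply C F K, hψF]
    exact (ex k C τ).commutes c
  let ψ : K →ₐ[C] FD k C := { ψ0.toRingHom with commutes' := hψC }
  have hψψ : ∀ f, ψ f = ψ0 f := fun _ => rfl
  set E' : End2 C K := (endF k C).comap ψ with hE'
  have hs' : Ge E' 1 s := by
    change Ge (endF k C) 1 (ψ0 s)
    rw [hs, map_sub, hψz, hψC]
    exact hβζ
  -- the norm
  have hnm : E'.nm = w.v := by
    apply hc.uniq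
    · intro f
      change (endF k C).nm (ψ0 (algebraMap F K f)) = _
      rw [hψF, hnmF]
      rfl
    · change (endF k C).nm (ψ0 z) = 1
      rw [hψz]; exact hβn
  have hnm' : ∀ f, E'.nm f = w.v f := fun f => by rw [hnm]
  have hover' : Over (E0 k C τ) E' 1 := by
    refine ⟨le_rfl, fun f => ?_, fun f hf => ?_⟩
    · rw [hnm']; exact hnmF f
    · change (endF k C).od (ψ0 (algebraMap F K f)) = _
      rw [hψF, Nat.cast_one, one_mul]
      rfl
  have hod := od_eq_aux (E0 := E0 k C τ) (E := E) (E' := E') hover hover' hnm' (E0_ux τ).1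
    (E0_ux τ).2 (od_surj q 1) (s := s) hz hs'
    (taylor (algebraMap C F ζ) P) (taylor_ge_zero hPi hζge) (by rw [htay, hPz]) hP'1
    (fun y hy => by
      obtain ⟨Q, h1, h2⟩ := hc.app y hy
      refine ⟨taylor (algebraMap C F ζ) Q, fun n => ?_, ?_⟩
      · exact taylor_nm_le (fun i => by rw [← hnmF]; exact h1 i) hζge.le_one n
      · rw [htay]; exact h2)
  refine ⟨ψ, hψF, ?_, hnm', hod⟩
  rw [hψψ, hψz]
  exact hβ

end Chart

end Crest.Agent.R013.Dir_408
end
end

-- ▼ part R013/Dir4_408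

/-!
# SS-DIR, file 4: almost all places are good
-/

set_option autoImplicit false
set_option linter.unusedSectionVars false
set_option linter.style.haveILetI false

noncomputable section

namespace Crest.Agent.R013.Dir_408

open Polynomial WithZero
open Crest.Agent.R013.Red332 Crest.Agent.R013.EE809
open Crest.Agent.R013.Cell_408 Crest.Agent.R013.Comp_267 Crest.Agent.R013.Good_408
open Crest.Agent.R013.RR7_948 Crest.Agent.R013.RR8_948 Crest.Agent.R013.RR9_948
open Crest.Agent.R013.RR11_948 Crest.Agent.R013.RR12_948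
open scoped NNReal

section Finite

variable {C : Type*} [NormedField C] [IsUltrametricDist C] [IsAlgClosed C]
variable {K : Type*} [Field K] [Algebra C K] {w : Nm C K}

/-- an element of norm one has order zero at almost all places -/
theorem finite_od (hff : FF w) {g : K} (hg : w.v g = 1) :
    ∃ S : Finset (Pl (Ct C) (kap w)), ∀ q ∉ S, Red332.od w q g = 0 := by
  classical
  obtain ⟨i1, i2, i3, i4⟩ := hff
  refine ⟨(divf (k := Ct C) (red w g)).support, fun q hq => ?_⟩
  have h2 := v_eq (k := Ct C) (red_ne_zero w hg) q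
  rw [v_red_of_one q hg, exp_inj] at h2
  rw [Finsupp.notMem_support_iff.1 hq] at h2
  omega

/-- finitely many elements of norm one -/
theorem finite_od' (hff : FF w) {I : Type*} (s : Finset I) (g : I → K)
    (hg : ∀ i ∈ s, w.v (g i) = 1) :
    ∃ S : Finset (Pl (Ct C) (kap w)), ∀ q ∉ S, ∀ i ∈ s, Red332.od w q (g i) = 0 := by
  classical
  induction s using Finset.induction_on with
  | empty => exact ⟨∅, fun q _ i hi => absurd hi (Finset.notMem_empty i)⟩
  | insert a s ha ih =>
    obtain ⟨S, hS⟩ := ih fun i hi => hg i (Finset.mem_insert_of_mem hi)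
    obtain ⟨T, hT⟩ := finite_od hff (hg a (Finset.mem_insert_self _ _))
    refine ⟨S ∪ T, fun q hq i hi => ?_⟩
    rw [Finset.mem_union, not_or] at hq
    rcases Finset.mem_insert.1 hi with rfl | hi
    · exact hT q hq.2
    · exact hS q hq.1 i hi

/-- residues are constants -/
theorem exists_res (hff : FF w) (q : Pl (Ct C) (kap w)) {f : K} (h : Ge (ofPl w q) 0 f) :
    ∃ c : C, ‖c‖₊ ≤ 1 ∧ Ge (ofPl w q) 1 (f - algebraMap C K c) := by
  obtain ⟨i1, i2, i3, i4⟩ := hff
  rcases h with h | ⟨h, h'⟩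
  · exact ⟨0, by simp, by rw [map_zero, sub_zero]; exact Or.inl h⟩
  · have h1 : w.v f = 1 := h
    have h2 : q.v (red w f) ≤ 1 := by
      rw [v_red_of_one q h1, ← exp_zero, exp_le_exp]
      have : 0 ≤ Red332.od w q f := h'
      omega
    obtain ⟨c', hc'⟩ := GR2_921.exists_const (k := Ct C) (K := kap w) q h2
    obtain ⟨c, hc, rfl⟩ := rc_surj c'
    refine ⟨c, hc, ?_⟩
    have hcn : w.v (algebraMap C K c) ≤ 1 := by rw [w.hC]; exact hc
    have h3 : w.v (f - algebraMap C K c) ≤ 1 := (w.v.map_sub _ _).trans (max_le h1.le hcn)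
    rcases h3.lt_or_eq with h4 | h4
    · exact Or.inl h4
    · right
      refine ⟨h4, ?_⟩
      have h5 : red w (f - algebraMap C K c) = red w f - algebraMap (Ct C) (kap w) (rc c) := by
        rw [red_sub w h1.le hcn, red_C w c hc]
      rw [← h5, v_red_of_one q h4, ← exp_zero, exp_lt_exp] at hc'
      change 1 ≤ Red332.od w q _
      omega

end Finite

section Fin

variable {k C : Type*} [NontriviallyNormedField k] [CompleteSpace k] [IsUltrametricDist k]
  [NormedField C] [IsUltrametricDist C] [NormedAlgebra k C] [Algebra.IsAlgebraic k C]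
  [IsAlgClosed C] [hk : Fact (DiscNorm k)]
variable {K : Type*} [Field K] [Algebra C K] [Algebra (RatFunc C) K]
  [IsScalarTower C (RatFunc C) K]

theorem ux_zero : algebraMap (RatFunc C) K (ux (0 : C)) = algebraMap (RatFunc C) K RatFunc.X := by
  rw [ux, map_zero, sub_zero]

/-- polynomials with coefficients of norm at most one in `BI` -/
theorem ex_poly_mem {τ : C} (hτ : ‖τ‖₊ ≤ 1) {a : C[X]} (ha : ∀ i, ‖a.coeff i‖₊ ≤ 1) :
    ex k C τ (algebraMap C[X] (RatFunc C) a) ∈ BI k C := by
  have h1 : ex k C τ (algebraMap C[X] (RatFunc C) a) = aeval (dy k C τ) a :=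
    ratHom_algebraMap _ _ _
  have h2 : dy k C τ ∈ BI k C := add_mem (C_mem_BI hτ) TF_mem_BI
  rw [h1, aeval_eq_sum_range]
  refine sum_mem fun i _ => ?_
  rw [Algebra.smul_def]
  exact mul_mem (C_mem_BI (ha i)) (pow_mem h2 i)

/-- a rational function of norm at most one as a quotient with denominator of Gauss norm one -/
theorem exists_quot (w : Nm C K) (htr : ∀ c : C, ‖c‖₊ ≤ 1 →
    w.v (algebraMap (RatFunc C) K (ux c)) = 1) (r : RatFunc C)
    (hr : w.v (algebraMap (RatFunc C) K r) ≤ 1) :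
    ∃ a b : C[X], (∀ i, ‖a.coeff i‖₊ ≤ 1) ∧ (∀ i, ‖b.coeff i‖₊ ≤ 1) ∧
      w.v (algebraMap (RatFunc C) K (algebraMap C[X] (RatFunc C) b)) = 1 ∧
      r = algebraMap C[X] (RatFunc C) a / algebraMap C[X] (RatFunc C) b := by
  classical
  set x : K := algebraMap (RatFunc C) K RatFunc.X with hx
  have hx1 : w.v x = 1 := by
    have := htr 0 (by simp)
    rwa [ux_zero] at this
  have htrans : Transcendental (Ct C) (red w x) := by
    refine transcendental_red w hx1.le fun c => ?_
    rcases le_or_gt ‖c‖₊ 1 with h | h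
    · have := htr c h
      rw [ux, map_sub, ← IsScalarTower.algebraMap_apply] at this
      exact this.ge
    · have h1 : w.v x < w.v (algebraMap C K c) := by rw [hx1, w.hC]; exact h
      rw [Valuation.map_sub_swap, Valuation.map_sub_eq_of_lt_left _ h1, w.hC]
      exact h.le
  have hal : ∀ p : C[X], algebraMap (RatFunc C) K (algebraMap C[X] (RatFunc C) p) =
      aeval x p := by
    intro p
    rw [← aeval_ratFunc_X, hx, aeval_algebraMap_apply]
  -- Gauss norm
  have gauss : ∀ p : C[X], (∀ i, ‖p.coeff i‖₊ ≤ 1) → (∃ i, ‖p.coeff i‖₊ = 1) →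
      w.v (aeval x p) = 1 := by
    intro p hp ⟨m, hm⟩
    let c : (Ct C)[X] := ∑ m ∈ p.support, monomial m (rc (p.coeff m))
    have hc : ∀ m, rc (p.coeff m) = c.coeff m := by
      intro m
      simp only [c, finsetSum_coeff, coeff_monomial]
      rw [Finset.sum_ite_eq' p.support m]
      split_ifs with h1
      · rfl
      · rw [notMem_support_iff.1 h1, rc_zero]
    have h4 := red_aeval w hx1.le p hp c hc
    have hc0 : c ≠ 0 := by
      intro h0
      have h5 := hc m
      rw [h0, coeff_zero, rc_eq_zero_iff (hp m), hm] at h5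
      exact lt_irrefl _ h5
    have h5 : red w (aeval x p) ≠ 0 := by
      rw [h4]
      intro h0
      exact htrans ⟨c, hc0, h0⟩
    exact (red_ne_zero_iff w (nm_aeval_le w hx1.le p hp)).1 h5
  by_cases hr0 : r = 0
  · exact ⟨0, 1, fun i => by simp, fun i => by
      rw [coeff_one]; split_ifs <;> simp, by rw [map_one, map_one, map_one], by
      rw [hr0, map_zero, zero_div]⟩
  have hn : r.num ≠ 0 := fun h => hr0 (RatFunc.num_eq_zero_iff.1 h)
  obtain ⟨α, a, m, hα, ha1, ha2, ha3⟩ := exists_scaled r.num hn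
  obtain ⟨β, b, m', hβ, hb1, hb2, hb3⟩ := exists_scaled r.denom r.denom_ne_zero
  have hga := gauss a ha2 ⟨m, ha3⟩
  have hgb := gauss b hb2 ⟨m', hb3⟩
  have hrab : r = algebraMap C[X] (RatFunc C) (Polynomial.C (α / β) * a) /
      algebraMap C[X] (RatFunc C) b := by
    conv_lhs => rw [← RatFunc.num_div_denom r, ha1, hb1]
    have hb0 : algebraMap C[X] (RatFunc C) b ≠ 0 := by
      refine RatFunc.algebraMap_ne_zero ?_
      rintro rfl
      rw [coeff_zero, nnnorm_zero] at hb3
      exact zero_ne_one hb3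
    have hβ0 : algebraMap C[X] (RatFunc C) (Polynomial.C β) ≠ 0 :=
      RatFunc.algebraMap_ne_zero (Polynomial.C_ne_zero.2 hβ)
    have e : (Polynomial.C α : C[X]) = Polynomial.C (α / β) * Polynomial.C β := by
      rw [← Polynomial.C_mul, div_mul_cancel₀ _ hβ]
    rw [map_mul, map_mul, e, map_mul, map_mul]
    field_simp
  have hq : ‖α / β‖₊ ≤ 1 := by
    rw [hrab, map_div₀, map_div₀, hal, hal, hgb, div_one, map_mul, map_mul, aeval_C, w.hC, hga,
      mul_one] at hr
    exact hr
  refine ⟨Polynomial.C (α / β) * a, b, fun i => ?_, hb2, by rw [hal]; exact hgb, hrab⟩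
  rw [coeff_C_mul, nnnorm_mul]
  exact mul_le_one' hq (ha2 i)

/-- the expansion of a rational function is integral if the denominator has order zero -/
theorem ex_mem_of {τ : C} (hτ : ‖τ‖₊ ≤ 1) {a b : C[X]} (ha : ∀ i, ‖a.coeff i‖₊ ≤ 1)
    (hb : ∀ i, ‖b.coeff i‖₊ ≤ 1)
    (hb1 : ¬ Ge (E0 k C τ) 1 (algebraMap C[X] (RatFunc C) b)) :
    ex k C τ (algebraMap C[X] (RatFunc C) a / algebraMap C[X] (RatFunc C) b) ∈ BI k C := by
  obtain ⟨b', h1, h2⟩ := ex_poly_mem (k := k) hτ hb
  rw [ge_E0_iff, ← h2] at hb1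
  have h3 : ‖PowerSeries.coeff 0 (b' : PowerSeries C)‖ = 1 := by
    refine le_antisymm (h1 0) ?_
    by_contra h
    exact hb1 (ge_one_of_BI h1 (not_le.1 h))
  rw [map_div₀, ← h2, div_eq_mul_inv]
  exact mul_mem (ex_poly_mem hτ ha) (inv_mem_BI h1 h3)

/-- **almost all places are good** -/
theorem almost_all [FiniteDimensional (RatFunc C) K] {w : Nm C K} (hff : FF w) {z : K}
    (hc : ChartW w z) (f0 : K) (hf0 : w.v f0 ≤ 1) :
    ∃ S : Finset (Pl (Ct C) (kap w)), ∀ q ∉ S,
      ∃ ψ : K →ₐ[C] FD k C, (∀ f, (endF k C).nm (ψ f) = w.v f) ∧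
        (∀ f, f ≠ 0 → (endF k C).od (ψ f) = Red332.od w q f) ∧ ψ f0 ∈ BI k C := by
  classical
  have hx1 : w.v (algebraMap (RatFunc C) K RatFunc.X) = 1 := by
    have := hc.tr 0 (by simp)
    rwa [ux_zero] at this
  set P := minpoly (RatFunc C) z with hP
  choose a b ha hb hb1 hab using fun i => exists_quot w hc.tr (P.coeff i) (hc.int i)
  -- expression of `f0`
  have hint : IsIntegral (RatFunc C) z := Algebra.IsIntegral.isIntegral z
  have hadj : Algebra.adjoin (RatFunc C) {z} = ⊤ := by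
    rw [← IntermediateField.adjoin_simple_toSubalgebra_of_isAlgebraic hint.isAlgebraic, hc.gen]
    rfl
  have hf : f0 ∈ Algebra.adjoin (RatFunc C) {z} := by rw [hadj]; trivial
  rw [Algebra.adjoin_singleton_eq_range_aeval] at hf
  obtain ⟨Q, hQ⟩ := hf
  have hQ' : aeval z Q = f0 := hQ
  -- scaling of the coefficients of `Q`
  have hsc : ∀ i, ∃ c : C, c ≠ 0 ∧
      w.v (algebraMap (RatFunc C) K (algebraMap C (RatFunc C) c * Q.coeff i)) ≤ 1 := by
    intro i
    by_cases h0 : Q.coeff i = 0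
    · exact ⟨1, one_ne_zero, by rw [h0, mul_zero, map_zero, map_zero]; exact zero_le_one⟩
    · obtain ⟨c, hc0, hc1⟩ := exists_C w (algebraMap (RatFunc C) K (Q.coeff i))
        ((_root_.map_ne_zero _).2 h0)
      refine ⟨c⁻¹, inv_ne_zero hc0, ?_⟩
      rw [map_mul, ← IsScalarTower.algebraMap_apply, mul_comm, map_inv₀]
      exact hc1.le
  choose c hc0 hc1 using hsc
  choose a' b' ha' hb' hb1' hab' using fun i =>
    exists_quot w hc.tr (algebraMap C (RatFunc C) (c i) * Q.coeff i) (hc1 i)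
  -- the finite set
  obtain ⟨S1, hS1⟩ := finite_od hff hx1
  obtain ⟨S2, hS2⟩ := finite_od hff hc.z1
  obtain ⟨S3, hS3⟩ := finite_od hff hc.der
  obtain ⟨S4, hS4⟩ := finite_od' hff (Finset.range (P.natDegree + 1))
    (fun i => algebraMap (RatFunc C) K (algebraMap C[X] (RatFunc C) (b i))) (fun i _ => hb1 i)
  obtain ⟨S5, hS5⟩ := finite_od' hff (Finset.range (Q.natDegree + 1))
    (fun i => algebraMap (RatFunc C) K (algebraMap C[X] (RatFunc C) (b' i))) (fun i _ => hb1' i)
  refine ⟨S1 ∪ S2 ∪ S3 ∪ S4 ∪ S5, fun q hq => ?_⟩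
  simp only [Finset.mem_union, not_or] at hq
  obtain ⟨⟨⟨⟨q1, q2⟩, q3⟩, q4⟩, q5⟩ := hq
  -- the residues
  obtain ⟨τ, hτ, hxτ⟩ := exists_res hff q (f := algebraMap (RatFunc C) K RatFunc.X)
    (Or.inr ⟨hx1, (hS1 q q1).ge⟩)
  have hx : Ge (ofPl w q) 1 (algebraMap (RatFunc C) K (ux τ)) := by
    rw [ux, map_sub, ← IsScalarTower.algebraMap_apply]
    exact hxτ
  obtain ⟨ζ, hζ, hz⟩ := exists_res hff q (f := z) (Or.inr ⟨hc.z1, (hS2 q q2).ge⟩)
  have hζ1 : ‖ζ‖₊ = 1 := by
    refine le_antisymm hζ ?_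
    by_contra h
    have h1 : Ge (ofPl w q) 1 z := by
      rw [ge_one_iff_of_sub hz]
      exact ge_one_C.2 (not_le.1 h)
    exact not_ge_of_unit (E := ofPl w q) hc.z1 (hS2 q q2) h1
  obtain ⟨e, hover⟩ := over_E0 (k := k) hc q hτ hx
  have hmem : ∀ (r : RatFunc C) (a b : C[X]), (∀ i, ‖a.coeff i‖₊ ≤ 1) → (∀ i, ‖b.coeff i‖₊ ≤ 1) →
      w.v (algebraMap (RatFunc C) K (algebraMap C[X] (RatFunc C) b)) = 1 →
      Red332.od w q (algebraMap (RatFunc C) K (algebraMap C[X] (RatFunc C) b)) = 0 →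
      r = algebraMap C[X] (RatFunc C) a / algebraMap C[X] (RatFunc C) b →
      ex k C τ r ∈ BI k C := by
    intro r a b ha hb hb1 hb2 hr
    rw [hr]
    refine ex_mem_of hτ ha hb ?_
    rw [← over_ge_one_iff hover]
    exact not_ge_of_unit (E := ofPl w q) hb1 hb2
  have hB : ∀ i, ex k C τ (P.coeff i) ∈ BI k C := by
    intro i
    by_cases hi : i ∈ Finset.range (P.natDegree + 1)
    · exact hmem _ _ _ (ha i) (hb i) (hb1 i) (hS4 q q4 i hi) (hab i)
    · rw [coeff_eq_zero_of_natDegree_lt (by simpa using hi), map_zero]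
      exact zero_mem _
  obtain ⟨ψ, h1, h2, h3, h4⟩ := exists_emb_disc hc q hτ hζ1 hx hz (hS3 q q3) hB
  refine ⟨ψ, h3, h4, ?_⟩
  -- `f0` is a bounded series
  obtain ⟨B, hB'⟩ : ∃ B : BD k C, algebraMap (BD k C) (FD k C) B = ψ f0 := by
    have h5 : ψ f0 = ∑ i ∈ Finset.range (Q.natDegree + 1),
        ex k C τ (Q.coeff i) * ψ z ^ i := by
      rw [← hQ', aeval_eq_sum_range, map_sum]
      refine Finset.sum_congr rfl fun i _ => ?_
      rw [Algebra.smul_def, map_mul, map_pow, h1]
    have h6 : ψ f0 ∈ (algebraMap (BD k C) (FD k C)).range := by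
      rw [h5]
      refine sum_mem fun i hi => mul_mem ?_ (pow_mem ?_ i)
      · obtain ⟨b0, -, hb0⟩ := hmem _ _ _ (ha' i) (hb' i) (hb1' i) (hS5 q q5 i hi) (hab' i)
        rw [map_mul, AlgHom.commutes] at hb0
        refine ⟨algebraMap C (BD k C) (c i)⁻¹ * b0, ?_⟩
        rw [map_mul, hb0, ← IsScalarTower.algebraMap_apply, ← mul_assoc, ← map_mul,
          inv_mul_cancel₀ (hc0 i), map_one, one_mul]
      · obtain ⟨b0, -, hb0⟩ := h2
        exact ⟨b0, hb0⟩
    exact h6
  refine ⟨B, fun n => ?_, hB'⟩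
  have h5 : (endF k C).nm (ψ f0) ≤ 1 := by rw [h3]; exact hf0
  rw [← hB', endF_nm, toEE_algebraMap] at h5
  have h6 : gn (ofBD B : EE k C) ≤ 1 := gv_le_one.1 h5
  have h7 := le_gn (ofBD B : EE k C) (n : ℤ)
  rw [co_ofBD_nat] at h7
  exact h7.trans h6

end Fin

end Crest.Agent.R013.Dir_408
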