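import Mathlib

-- ▼ part R013/StabF_83
section

/-!
# STABF: from orthonormal bases of the finite extensions of the completion `E` of `F`
to an orthonormal basis of a finite separable `K / F` (helper83, row 13)
-/

set_option autoImplicit false
set_option linter.unusedSectionVars false
set_option linter.style.haveILetI false

namespace Crest.Agent.R013.StabF_83

open TensorProduct NNReal
open scoped NNReal

universe u

/-! ### The valuation given by the spectral norm -/

section SV

variable (E L : Type*) [NontriviallyNormedField E] [CompleteSpace E] [IsUltrametricDist E]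
  [Field L] [Algebra E L] [Algebra.IsAlgebraic E L]

/-- The spectral norm as a valuation. -/
noncomputable def sv : Valuation L ℝ≥0 where
  toFun x := (spectralNorm E L x).toNNReal
  map_zero' := by simp [spectralNorm_zero]
  map_one' := by simp [spectralNorm_one]
  map_mul' x y := by
    rw [← Real.toNNReal_mul (spectralNorm_nonneg x)]
    congr 1
    exact spectralAlgNorm_mul (K := E) x y
  map_add_le_max' x y := by
    have h := isNonarchimedean_spectralNorm (K := E) (L := L) x y
    have hm : Monotone Real.toNNReal := fun _ _ h => Real.toNNReal_mono h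
    rw [← hm.map_max]
    exact hm h

theorem coe_sv (x : L) : (sv E L x : ℝ) = spectralNorm E L x :=
  Real.coe_toNNReal _ (spectralNorm_nonneg x)

theorem sv_algebraMap (a : E) : sv E L (algebraMap E L a) = ‖a‖₊ := by
  ext
  rw [coe_sv, spectralNorm_extends]; rfl

theorem sv_smul (a : E) (x : L) : sv E L (a • x) = ‖a‖₊ * sv E L x := by
  rw [Algebra.smul_def, map_mul, sv_algebraMap]

end SV

/-- `b` is an orthonormal basis. -/
def IsON {E L ι : Type*} [NontriviallyNormedField E] [CompleteSpace E] [IsUltrametricDist E]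
    [Field L] [Algebra E L] [Algebra.IsAlgebraic E L] [Fintype ι] (b : ι → L) : Prop :=
  (∀ i, sv E L (b i) ≤ 1) ∧ ∀ (c : ι → E) (i : ι), ‖c i‖₊ ≤ sv E L (∑ j, c j • b j)

section Main

variable {F E K : Type u} [Field F] [NontriviallyNormedField E] [CompleteSpace E]
  [IsUltrametricDist E] [Algebra F E] [Field K] [Algebra F K]
  {I : Type*} [Fintype I] [DecidableEq I] {L : I → Type*} [∀ i, Field (L i)]
  [∀ i, Algebra E (L i)] [∀ i, FiniteDimensional E (L i)]

variable (e : E ⊗[F] K ≃ₐ[E] ∀ i, L i)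

/-- the valuations of `K` -/
noncomputable def wv (i : I) : Valuation K ℝ≥0 :=
  (sv E (L i)).comap
    (((Pi.evalRingHom L i).comp (e : E ⊗[F] K →+* ∀ i, L i)).comp
      (Algebra.TensorProduct.includeRight : K →ₐ[F] E ⊗[F] K).toRingHom)

theorem wv_apply (i : I) (y : K) : wv e i y = sv E (L i) (e ((1 : E) ⊗ₜ[F] y) i) := rfl

theorem e_algebraMap (i : I) (f : F) :
    e ((1 : E) ⊗ₜ[F] (algebraMap F K f)) i = algebraMap E (L i) (algebraMap F E f) := by
  have : (1 : E) ⊗ₜ[F] (algebraMap F K f) = algebraMap E (E ⊗[F] K) (algebraMap F E f) := by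
    rw [Algebra.TensorProduct.algebraMap_apply, Algebra.algebraMap_self, RingHom.id_apply,
      Algebra.algebraMap_eq_smul_one (R := F) (A := K) f,
      Algebra.algebraMap_eq_smul_one (R := F) (A := E) f, TensorProduct.smul_tmul]
  rw [this, AlgEquiv.commutes]
  rfl

theorem wv_algebraMap (i : I) (f : F) : wv e i (algebraMap F K f) = ‖algebraMap F E f‖₊ := by
  rw [wv_apply, e_algebraMap, sv_algebraMap]

include e in
/-- density of `K` in `∏ L i`. -/
theorem dense_prod (hd : DenseRange (algebraMap F E)) (t : E ⊗[F] K) :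
    ∀ ε : ℝ≥0, 0 < ε → ∃ y : K, ∀ i, sv E (L i) (e ((1 : E) ⊗ₜ[F] y) i - e t i) < ε := by
  induction t with
  | zero =>
    intro ε hε
    exact ⟨0, fun i => by simpa using hε⟩
  | tmul a b =>
    intro ε hε
    obtain ⟨M, hM⟩ : ∃ M : ℝ≥0, ∀ i, wv e i b ≤ M := by
      refine ⟨∑ i, wv e i b, fun i => ?_⟩
      exact Finset.single_le_sum (f := fun i => wv e i b) (fun _ _ => zero_le) (Finset.mem_univ i)
    have hδ : 0 < ε / (M + 1) := by positivity
    obtain ⟨f, hf⟩ : ∃ f : F, ‖algebraMap F E f - a‖₊ < ε / (M + 1) := by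
      have := hd.exists_dist_lt a (ε := ((ε / (M + 1) : ℝ≥0) : ℝ)) (by exact_mod_cast hδ)
      obtain ⟨f, hf⟩ := this
      refine ⟨f, ?_⟩
      rw [dist_comm, dist_eq_norm] at hf
      exact_mod_cast hf
    refine ⟨f • b, fun i => ?_⟩
    have h1 : e ((1 : E) ⊗ₜ[F] (f • b)) i - e (a ⊗ₜ[F] b) i =
        (algebraMap F E f - a) • e ((1 : E) ⊗ₜ[F] b) i := by
      have h2 : (1 : E) ⊗ₜ[F] (f • b) = (algebraMap F E f) • ((1 : E) ⊗ₜ[F] b) := by
        rw [← TensorProduct.smul_tmul, TensorProduct.smul_tmul', Algebra.smul_def, smul_eq_mul]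
      have h3 : a ⊗ₜ[F] b = a • ((1 : E) ⊗ₜ[F] b) := by
        rw [TensorProduct.smul_tmul', smul_eq_mul, mul_one]
      rw [h2, h3, map_smul, map_smul, sub_smul]
      rfl
    rw [h1, sv_smul, ← wv_apply]
    calc ‖algebraMap F E f - a‖₊ * wv e i b ≤ (ε / (M + 1)) * M := by
          gcongr
          exact hM i
      _ < (ε / (M + 1)) * (M + 1) := by
          gcongr
          exact lt_add_one M
      _ = ε := by field_simp
  | add x y hx hy =>
    intro ε hε
    obtain ⟨a, ha⟩ := hx ε hε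
    obtain ⟨b, hb⟩ := hy ε hε
    refine ⟨a + b, fun i => ?_⟩
    have : e ((1 : E) ⊗ₜ[F] (a + b)) i - e (x + y) i =
        (e ((1 : E) ⊗ₜ[F] a) i - e x i) + (e ((1 : E) ⊗ₜ[F] b) i - e y i) := by
      rw [TensorProduct.tmul_add, map_add, map_add]
      simp only [Pi.add_apply]
      ring
    rw [this]
    exact (Valuation.map_add _ _ _).trans_lt (max_lt (ha i) (hb i))

/-- density, target form. -/
theorem dense_pi (hd : DenseRange (algebraMap F E)) (a : ∀ i, L i) (ε : ℝ≥0) (hε : 0 < ε) :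
    ∃ y : K, ∀ i, sv E (L i) (e ((1 : E) ⊗ₜ[F] y) i - a i) < ε := by
  obtain ⟨y, hy⟩ := dense_prod e hd (e.symm a) ε hε
  exact ⟨y, fun i => by simpa using hy i⟩

/-- **weak approximation** -/
theorem approx (hd : DenseRange (algebraMap F E)) (a : I → K) (ε : ℝ≥0) (hε : 0 < ε) :
    ∃ y : K, ∀ i, wv e i (y - a i) < ε := by
  obtain ⟨y, hy⟩ := dense_pi e hd (fun i => e ((1 : E) ⊗ₜ[F] (a i)) i) ε hε
  refine ⟨y, fun i => ?_⟩
  rw [wv_apply, TensorProduct.tmul_sub, map_sub]
  exact hy i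

/-- Perturbation: the sup of the `wv e i` of a combination with `E` coefficients of elements close
to an orthonormal family is the max of the coefficients. -/
theorem perturb {J : Type*} [Fintype J] (s : J → ∀ i, L i)
    (hs : ∀ (c : J → E) (j : J), ∃ i, ‖c j‖₊ ≤ sv E (L i) ((∑ l, c l • s l) i))
    (y : J → K) (hy : ∀ j i, sv E (L i) (e ((1 : E) ⊗ₜ[F] (y j)) i - s j i) < 1)
    (c : J → E) (j : J) :
    ∃ i, ‖c j‖₊ ≤ sv E (L i) ((∑ l, c l • e ((1 : E) ⊗ₜ[F] (y l))) i) := by
  classical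
  by_cases hc : c = 0
  · obtain ⟨i, hi⟩ := hs c j
    exact ⟨i, by subst hc; simp⟩
  -- the maximal coefficient
  obtain ⟨m, -, hm⟩ := Finset.exists_max_image Finset.univ (fun l => ‖c l‖₊) ⟨j, Finset.mem_univ j⟩
  have hm0 : 0 < ‖c m‖₊ := by
    rw [nnnorm_pos]
    intro h0
    apply hc
    funext l
    have := hm l (Finset.mem_univ l)
    rw [h0, nnnorm_zero] at this
    simpa using le_antisymm this zero_le
  obtain ⟨i, hi⟩ := hs c m
  refine ⟨i, (hm j (Finset.mem_univ j)).trans ?_⟩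
  -- difference
  have hdiff : sv E (L i) ((∑ l, c l • e ((1 : E) ⊗ₜ[F] (y l))) i - (∑ l, c l • s l) i) < ‖c m‖₊ := by
    have h1 : (∑ l, c l • e ((1 : E) ⊗ₜ[F] (y l))) i - (∑ l, c l • s l) i =
        ∑ l, c l • (e ((1 : E) ⊗ₜ[F] (y l)) i - s l i) := by
      rw [Finset.sum_apply, Finset.sum_apply, ← Finset.sum_sub_distrib]
      refine Finset.sum_congr rfl fun l _ => ?_
      rw [Pi.smul_apply, Pi.smul_apply, smul_sub]
    rw [h1]
    refine Valuation.map_sum_lt _ hm0.ne' fun l _ => ?_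
    rw [sv_smul]
    calc ‖c l‖₊ * sv E (L i) (e ((1 : E) ⊗ₜ[F] (y l)) i - s l i)
        ≤ ‖c m‖₊ * sv E (L i) (e ((1 : E) ⊗ₜ[F] (y l)) i - s l i) := by
          gcongr
          exact hm l (Finset.mem_univ l)
      _ < ‖c m‖₊ * 1 := by
          gcongr
          exact hy l i
      _ = ‖c m‖₊ := mul_one _
  have h2 : sv E (L i) ((∑ l, c l • e ((1 : E) ⊗ₜ[F] (y l))) i) =
      sv E (L i) ((∑ l, c l • s l) i) := by
    have h3 : (∑ l, c l • e ((1 : E) ⊗ₜ[F] (y l))) i =
        (∑ l, c l • s l) i + ((∑ l, c l • e ((1 : E) ⊗ₜ[F] (y l))) i - (∑ l, c l • s l) i) := by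
      ring
    rw [h3]
    exact Valuation.map_add_eq_of_lt_left _ (hdiff.trans_le hi)
  rw [h2]; exact hi

end Main

/-- The output of `STABF`: an orthonormal basis adapted to the valuations. -/
structure Out (F E K : Type u) [Field F] [NontriviallyNormedField E] [Algebra F E] [Field K]
    [Algebra F K] (I : Type u) [Fintype I] where
  /-- the valuations -/
  w : I → Valuation K ℝ≥0
  /-- residue degrees -/
  d : I → ℕ
  /-- the basis -/
  b : Module.Basis (Σ i, Fin (d i)) F K
  w_alg : ∀ i f, w i (algebraMap F K f) = ‖algebraMap F E f‖₊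
  b_le : ∀ i j, w i (b j) ≤ 1
  b_lt : ∀ i j, j.1 ≠ i → w i (b j) < 1
  ge : ∀ (c : (Σ i, Fin (d i)) → F) (j), ∃ i, ‖algebraMap F E (c j)‖₊ ≤ w i (∑ l, c l • b l)
  approx : ∀ (a : I → K) (ε : ℝ≥0), 0 < ε → ∃ y : K, ∀ i, w i (y - a i) < ε

section Main2

variable {F E K : Type u} [Field F] [NontriviallyNormedField E] [CompleteSpace E]
  [IsUltrametricDist E] [Algebra F E] [Field K] [Algebra F K] [FiniteDimensional F K]
  {I : Type u} [Fintype I] {L : I → Type u} [∀ i, Field (L i)]
  [∀ i, Algebra E (L i)] [∀ i, FiniteDimensional E (L i)]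

theorem smul_tmul' (f : F) (y : K) :
    (1 : E) ⊗ₜ[F] (f • y) = (algebraMap F E f) • ((1 : E) ⊗ₜ[F] y) := by
  rw [← TensorProduct.smul_tmul, TensorProduct.smul_tmul', Algebra.smul_def, smul_eq_mul]

theorem exists_out (e : E ⊗[F] K ≃ₐ[E] ∀ i, L i) (hd : DenseRange (algebraMap F E))
    (hON : ∀ i, ∃ b : Module.Basis (Fin (Module.finrank E (L i))) E (L i), IsON (E := E) b) :
    Nonempty (Out F E K I) := by
  classical
  choose β hβ using hON
  let d : I → ℕ := fun i => Module.finrank E (L i)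
  let s : (Σ i, Fin (d i)) → ∀ i, L i := fun j => Pi.single j.1 (β j.1 j.2)
  have hsum : ∀ (c : (Σ i, Fin (d i)) → E) (i : I), (∑ l, c l • s l) i = ∑ l, c ⟨i, l⟩ • β i l := by
    intro c i
    rw [Finset.sum_apply, Fintype.sum_sigma]
    rw [Finset.sum_eq_single i]
    · refine Finset.sum_congr rfl fun l _ => ?_
      simp [s]
    · intro i' _ hi'
      refine Finset.sum_eq_zero fun l _ => ?_
      simp [s, Pi.single_eq_of_ne (Ne.symm hi')]
    · intro h; exact absurd (Finset.mem_univ i) h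
  have hs : ∀ (c : (Σ i, Fin (d i)) → E) (j), ∃ i, ‖c j‖₊ ≤ sv E (L i) ((∑ l, c l • s l) i) := by
    rintro c ⟨i, l⟩
    refine ⟨i, ?_⟩
    rw [hsum]
    exact (hβ i).2 (fun l => c ⟨i, l⟩) l
  have hex : ∀ j : (Σ i, Fin (d i)), ∃ y : K, ∀ i, sv E (L i) (e ((1 : E) ⊗ₜ[F] y) i - s j i) < 1 :=
    fun j => dense_pi e hd (s j) 1 one_pos
  choose y hy using hex
  have hcomb : ∀ (c : (Σ i, Fin (d i)) → F), e ((1 : E) ⊗ₜ[F] (∑ l, c l • y l)) =
      ∑ l, (algebraMap F E (c l)) • e ((1 : E) ⊗ₜ[F] (y l)) := by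
    intro c
    rw [TensorProduct.tmul_sum, map_sum]
    refine Finset.sum_congr rfl fun l _ => ?_
    rw [smul_tmul', map_smul]
  have hge : ∀ (c : (Σ i, Fin (d i)) → F) (j), ∃ i,
      ‖algebraMap F E (c j)‖₊ ≤ wv e i (∑ l, c l • y l) := by
    intro c j
    obtain ⟨i, hi⟩ := perturb e s hs y hy (fun l => algebraMap F E (c l)) j
    refine ⟨i, ?_⟩
    rw [wv_apply, hcomb]
    exact hi
  have hli : LinearIndependent F y := by
    rw [Fintype.linearIndependent_iff]
    intro c hc j
    obtain ⟨i, hi⟩ := hge c j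
    rw [hc, map_zero, nonpos_iff_eq_zero, nnnorm_eq_zero] at hi
    exact (map_eq_zero _).mp hi
  have hcard : Fintype.card (Σ i, Fin (d i)) = Module.finrank F K := by
    rw [Fintype.card_sigma]
    simp only [Fintype.card_fin, d]
    rw [← Module.finrank_pi_fintype, ← e.toLinearEquiv.finrank_eq, Module.finrank_baseChange]
  let b : Module.Basis (Σ i, Fin (d i)) F K := basisOfLinearIndependentOfCardEqFinrank' y hli hcard
  have hb : ∀ j, b j = y j := fun j => by simp [b]
  have hw : ∀ i j, wv e i (y j) ≤ 1 ∧ (j.1 ≠ i → wv e i (y j) < 1) := by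
    intro i j
    have h1 := hy j i
    rw [wv_apply]
    have h2 : e ((1 : E) ⊗ₜ[F] (y j)) i = (e ((1 : E) ⊗ₜ[F] (y j)) i - s j i) + s j i := by ring
    constructor
    · rw [h2]
      refine (Valuation.map_add _ _ _).trans (max_le h1.le ?_)
      by_cases hij : j.1 = i
      · subst hij
        simp only [s, Pi.single_eq_same]
        exact (hβ _).1 _
      · simp [s, Pi.single_eq_of_ne (Ne.symm hij)]
    · intro hij
      have : s j i = 0 := by simp [s, Pi.single_eq_of_ne (Ne.symm hij)]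
      rw [this, sub_zero] at h1
      exact h1
  exact ⟨{
    w := wv e
    d := d
    b := b
    w_alg := wv_algebraMap e
    b_le := fun i j => by rw [hb]; exact (hw i j).1
    b_lt := fun i j h => by rw [hb]; exact (hw i j).2 h
    ge := fun c j => by simp only [hb]; exact hge c j
    approx := approx e hd }⟩

end Main2

end Crest.Agent.R013.StabF_83
end

-- ▼ part R013/T2A_83
section

/-!
# T2A: the chart lemma at a residually separable unramified prime (helper83, row 13, SS-DIR)

`O` a local ring with residue field `κ`, `B` a finite free `O`-algebra, `p` a maximal ideal of `B`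
with `m_O B = p ⊓ J`, `p ⊔ J = ⊤`, and `B / p` separable over `κ`.  Then there is `z ∈ J` and a monic
`F ∈ O[X]` with `F(z) = 0` and `F'(z) ∉ p`.
-/

set_option autoImplicit false
set_option linter.unusedSectionVars false
set_option linter.style.haveILetI false

namespace Crest.Agent.R013.T2A_83

open Polynomial TensorProduct

section General

variable {O B κ : Type*} [CommRing O] [CommRing B] [Algebra O B] [Module.Finite O B]
  [Module.Free O B] [Field κ] [Algebra O κ]

/-- Characteristic polynomial of the multiplication by `z`. -/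
noncomputable def cp (O : Type*) {B : Type*} [CommRing O] [CommRing B] [Algebra O B]
    [Module.Finite O B] [Module.Free O B] (z : B) : O[X] := (Algebra.lmul O B z).charpoly

theorem cp_monic (z : B) : (cp O z).Monic := LinearMap.charpoly_monic _

theorem aeval_cp (z : B) : aeval z (cp O z) = 0 := by
  have h := LinearMap.aeval_self_charpoly (Algebra.lmul O B z)
  have h2 : aeval (Algebra.lmul O B z) (cp O z) = Algebra.lmul O B (aeval z (cp O z)) :=
    aeval_algHom_apply _ _ _
  rw [cp, h] at h2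
  have h3 := congrArg (fun f => f 1) h2
  simpa [cp] using h3.symm

theorem cp_map (κ : Type*) [Field κ] [Algebra O κ] (z : B) :
    (cp O z).map (algebraMap O κ) = cp κ ((1 : κ) ⊗ₜ[O] z) := by
  rw [cp, cp, ← LinearMap.charpoly_baseChange, Algebra.baseChange_lmul]

theorem cp_equiv {κ A A' : Type*} [Field κ] [CommRing A] [Algebra κ A] [Module.Finite κ A]
    [CommRing A'] [Algebra κ A'] [Module.Finite κ A'] (e : A ≃ₐ[κ] A') (z : A) :
    cp κ z = cp κ (e z) := by
  rw [cp, cp, ← LinearEquiv.charpoly_conj e.toLinearEquiv]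
  congr 1
  ext x
  simp [LinearEquiv.conj_apply]

theorem cp_prod {κ A A' : Type*} [Field κ] [CommRing A] [Algebra κ A] [Module.Finite κ A]
    [CommRing A'] [Algebra κ A'] [Module.Finite κ A'] (z : A) (z' : A') :
    cp κ ((z, z') : A × A') = cp κ z * cp κ z' := by
  rw [cp, cp, cp, ← LinearMap.charpoly_prodMap]
  congr 1

theorem cp_nilpotent {κ A : Type*} [Field κ] [CommRing A] [Algebra κ A] [Module.Finite κ A]
    {z : A} (hz : IsNilpotent z) : cp κ z = X ^ Module.finrank κ A := by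
  rw [cp]
  exact (hz.map (Algebra.lmul κ A)).charpoly_eq_X_pow_finrank

theorem cp_minpoly {κ l : Type*} [Field κ] [Field l] [Algebra κ l] [FiniteDimensional κ l]
    {z : l} (hz : Algebra.adjoin κ {z} = ⊤) : cp κ z = minpoly κ z := by
  have hi : IsIntegral κ z := Algebra.IsIntegral.isIntegral z
  let P : PowerBasis κ l := PowerBasis.ofAdjoinEqTop hi hz
  have hg : P.gen = z := PowerBasis.ofAdjoinEqTop_gen hi hz
  have h := charpoly_leftMulMatrix P
  rw [Algebra.leftMulMatrix_apply, LinearMap.charpoly_toMatrix] at h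
  rw [cp, ← hg, ← h]

/-- The algebraic chart lemma. -/
theorem map_cp_eq {l A' : Type*} [Field l] [Algebra κ l] [FiniteDimensional κ l]
    [CommRing A'] [Algebra κ A'] [Module.Finite κ A'] (e : κ ⊗[O] B ≃ₐ[κ] l × A') (z : B)
    (h1 : Algebra.adjoin κ {(e ((1 : κ) ⊗ₜ[O] z)).1} = ⊤)
    (h2 : IsNilpotent (e ((1 : κ) ⊗ₜ[O] z)).2) :
    (cp O z).map (algebraMap O κ) =
      minpoly κ (e ((1 : κ) ⊗ₜ[O] z)).1 * X ^ Module.finrank κ A' := by
  rw [cp_map, cp_equiv e, ← Prod.mk.eta (p := e ((1 : κ) ⊗ₜ[O] z)), cp_prod, cp_minpoly h1,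
    cp_nilpotent h2]

theorem aeval_derivative_ne {l : Type*} [Field l] [Algebra κ l] [FiniteDimensional κ l]
    [Algebra.IsSeparable κ l] (z : l) (hz : z ≠ 0) (m : ℕ) :
    aeval z (derivative (minpoly κ z * X ^ m)) ≠ 0 := by
  rw [derivative_mul, map_add, map_mul, map_mul, minpoly.aeval, zero_mul, add_zero]
  refine mul_ne_zero ?_ (by simpa using pow_ne_zero m hz)
  exact (Algebra.IsSeparable.isSeparable κ z).aeval_derivative_ne_zero (minpoly.aeval κ z)

end General

section Ideal

variable {O B κ : Type*} [CommRing O] [CommRing B] [Algebra O B] [Module.Finite O B]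
  [Module.Free O B] [Field κ] [Algebra O κ]

/-- `κ ⊗ B = B / p × B / J` when `p ∩ J = m B` and `p + J = 1`. -/
theorem exists_equiv (hs : Function.Surjective (algebraMap O κ)) (p J : Ideal B)
    (hpJ : p ⊓ J = (RingHom.ker (algebraMap O κ)).map (algebraMap O B)) (hc : IsCoprime p J)
    [Algebra κ (B ⧸ p)] [IsScalarTower O κ (B ⧸ p)] [Algebra κ (B ⧸ J)]
    [IsScalarTower O κ (B ⧸ J)] :
    ∃ e : κ ⊗[O] B ≃ₐ[κ] (B ⧸ p) × (B ⧸ J), ∀ b : B,
      e ((1 : κ) ⊗ₜ[O] b) = (Ideal.Quotient.mk p b, Ideal.Quotient.mk J b) := by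
  haveI : IsScalarTower O κ ((B ⧸ p) × (B ⧸ J)) := by
    refine ⟨fun a b c => ?_⟩
    ext
    · exact smul_assoc a b c.1
    · exact smul_assoc a b c.2
  let g : B →ₐ[O] (B ⧸ p) × (B ⧸ J) :=
    AlgHom.prod (Ideal.Quotient.mkₐ O p) (Ideal.Quotient.mkₐ O J)
  let f : κ ⊗[O] B →ₐ[κ] (B ⧸ p) × (B ⧸ J) :=
    Algebra.TensorProduct.lift (Algebra.ofId κ _) g (fun _ _ => Commute.all _ _)
  have hf : ∀ b : B, f ((1 : κ) ⊗ₜ[O] b) = (Ideal.Quotient.mk p b, Ideal.Quotient.mk J b) := by
    intro b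
    simp [f, g]
  have hall : ∀ t : κ ⊗[O] B, ∃ b : B, t = (1 : κ) ⊗ₜ[O] b := by
    intro t
    induction t with
    | zero => exact ⟨0, by simp⟩
    | tmul a b =>
      obtain ⟨r, hr⟩ := hs a
      refine ⟨r • b, ?_⟩
      rw [← TensorProduct.smul_tmul, Algebra.smul_def, hr, mul_one]
    | add x y hx hy =>
      obtain ⟨b, rfl⟩ := hx
      obtain ⟨c, rfl⟩ := hy
      exact ⟨b + c, by rw [TensorProduct.tmul_add]⟩
  have hbij : Function.Bijective f := by
    constructor
    · rw [injective_iff_map_eq_zero]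
      intro t ht
      obtain ⟨b, rfl⟩ := hall t
      rw [hf, Prod.mk_eq_zero, Ideal.Quotient.eq_zero_iff_mem, Ideal.Quotient.eq_zero_iff_mem] at ht
      have hb : b ∈ (RingHom.ker (algebraMap O κ)).map (algebraMap O B) := by
        rw [← hpJ]; exact ht
      refine Submodule.span_induction (p := fun b _ => (1 : κ) ⊗ₜ[O] b = 0) ?_ (by simp) ?_ ?_ hb
      · rintro x ⟨r, hr, rfl⟩
        rw [SetLike.mem_coe, RingHom.mem_ker] at hr
        have : algebraMap O B r = r • (1 : B) := Algebra.algebraMap_eq_smul_one r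
        rw [this, ← TensorProduct.smul_tmul, Algebra.smul_def, hr, zero_mul, TensorProduct.zero_tmul]
      · intro x y _ _ hx hy
        rw [TensorProduct.tmul_add, hx, hy, add_zero]
      · intro a x _ hx
        have : (1 : κ) ⊗ₜ[O] (a • x) = ((1 : κ) ⊗ₜ[O] a) * ((1 : κ) ⊗ₜ[O] x) := by
          rw [Algebra.TensorProduct.tmul_mul_tmul, one_mul, smul_eq_mul]
        rw [this, hx, mul_zero]
    · rintro ⟨x, y⟩
      obtain ⟨x, rfl⟩ := Ideal.Quotient.mk_surjective x
      obtain ⟨y, rfl⟩ := Ideal.Quotient.mk_surjective y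
      obtain ⟨u, hu, v, hv, huv⟩ := Ideal.isCoprime_iff_exists.mp hc
      refine ⟨(1 : κ) ⊗ₜ[O] (x * v + y * u), ?_⟩
      rw [hf]
      ext
      · rw [Ideal.Quotient.mk_eq_mk_iff_sub_mem]
        have : x * v + y * u - x = (y - x) * u := by
          linear_combination x * huv
        rw [this]; exact p.mul_mem_left _ hu
      · rw [Ideal.Quotient.mk_eq_mk_iff_sub_mem]
        have : x * v + y * u - y = (x - y) * v := by
          linear_combination y * huv
        rw [this]; exact J.mul_mem_left _ hv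
  exact ⟨AlgEquiv.ofBijective f hbij, hf⟩

/-- **Chart lemma**, ideal form. -/
theorem chart (hs : Function.Surjective (algebraMap O κ)) (p J : Ideal B) [hp : p.IsMaximal]
    (hpJ : p ⊓ J = (RingHom.ker (algebraMap O κ)).map (algebraMap O B)) (hc : IsCoprime p J)
    [Algebra κ (B ⧸ p)] [IsScalarTower O κ (B ⧸ p)]
    (hsep : Algebra.IsSeparable κ (B ⧸ p)) (z : B)
    (hz : Algebra.adjoin κ {(Ideal.Quotient.mk p z : B ⧸ p)} = ⊤) (hzp : z ∉ p)
    (hzJ : z ∈ J.radical) :
    ∃ F : O[X], F.Monic ∧ aeval z F = 0 ∧ aeval z (derivative F) ∉ p := by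
  letI : Field (B ⧸ p) := Ideal.Quotient.field p
  have hker : ∀ a : O, algebraMap O κ a = 0 → algebraMap O (B ⧸ J) a = 0 := by
    intro a ha
    have h1 : algebraMap O B a ∈ p ⊓ J := by
      rw [hpJ]; exact Ideal.mem_map_of_mem _ ha
    rw [IsScalarTower.algebraMap_apply O B (B ⧸ J)]
    exact Ideal.Quotient.eq_zero_iff_mem.mpr h1.2
  let q : κ →+* (B ⧸ J) :=
    (Ideal.Quotient.lift (RingHom.ker (algebraMap O κ)) (algebraMap O (B ⧸ J)) hker).comp
      (RingHom.quotientKerEquivOfSurjective hs).symm.toRingHom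
  have hq : ∀ a : O, q (algebraMap O κ a) = algebraMap O (B ⧸ J) a := by
    intro a
    have : (RingHom.quotientKerEquivOfSurjective hs).symm (algebraMap O κ a) =
        Ideal.Quotient.mk _ a := by
      rw [RingEquiv.symm_apply_eq]; rfl
    simp only [q, RingHom.comp_apply, RingEquiv.toRingHom_eq_coe, RingHom.coe_coe, this]
    exact Ideal.Quotient.lift_mk _ _ _
  letI : Algebra κ (B ⧸ J) := q.toAlgebra
  haveI : IsScalarTower O κ (B ⧸ J) := IsScalarTower.of_algebraMap_eq fun a => (hq a).symm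
  haveI : Module.Finite κ (B ⧸ p) := Module.Finite.of_restrictScalars_finite O κ (B ⧸ p)
  haveI : Module.Finite κ (B ⧸ J) := Module.Finite.of_restrictScalars_finite O κ (B ⧸ J)
  obtain ⟨e, he⟩ := exists_equiv hs p J hpJ hc
  have h1 : (e ((1 : κ) ⊗ₜ[O] z)).1 = Ideal.Quotient.mk p z := by rw [he]
  have h2 : (e ((1 : κ) ⊗ₜ[O] z)).2 = Ideal.Quotient.mk J z := by rw [he]
  have h3 := map_cp_eq e z (by rw [h1]; exact hz) (by
    rw [h2]
    obtain ⟨n, hn⟩ := hzJ
    exact ⟨n, by rw [← map_pow]; exact Ideal.Quotient.eq_zero_iff_mem.mpr hn⟩)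
  refine ⟨cp O z, cp_monic z, aeval_cp z, fun hmem => ?_⟩
  have h4 : aeval (Ideal.Quotient.mk p z : B ⧸ p) (derivative ((cp O z).map (algebraMap O κ))) = 0 := by
    rw [derivative_map, aeval_map_algebraMap]
    have : aeval (Ideal.Quotient.mk p z : B ⧸ p) (derivative (cp O z)) =
        Ideal.Quotient.mkₐ O p (aeval z (derivative (cp O z))) := by
      rw [← aeval_algHom_apply]; rfl
    rw [this]
    exact Ideal.Quotient.eq_zero_iff_mem.mpr hmem
  rw [h3, h1] at h4
  exact aeval_derivative_ne (κ := κ) (Ideal.Quotient.mk p z : B ⧸ p)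
    (fun h => hzp (Ideal.Quotient.eq_zero_iff_mem.mp h)) _ h4

end Ideal

end Crest.Agent.R013.T2A_83
end

-- ▼ part R013/StabG_83

/-!
# Consequences of `StabF_83.Out` (helper83, row 13)
-/

set_option autoImplicit false
set_option linter.unusedSectionVars false
set_option linter.style.haveILetI false

namespace Crest.Agent.R013.StabF_83

open TensorProduct NNReal Polynomial
open scoped NNReal

universe u

/-- from a bound with a constant to a bound without -/
theorem le_of_bound {K : Type*} [Field K] {I : Type*} (w : I → Valuation K ℝ≥0)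
    (v : Valuation K ℝ≥0) (A : ℝ≥0)
    (key : ∀ (y : K) (M : ℝ≥0), (∀ i, w i y ≤ M) → v y ≤ M * A)
    (y : K) (M : ℝ≥0) (hM : ∀ i, w i y ≤ M) : v y ≤ M := by
  have hpow : ∀ n : ℕ, v y ^ n ≤ M ^ n * A := by
    intro n
    rw [← map_pow]
    refine key _ _ fun i => ?_
    rw [map_pow]
    exact pow_le_pow_left' (hM i) n
  by_contra hlt
  push Not at hlt
  by_cases hM0 : M = 0
  · subst hM0
    have := key y 0 hM
    rw [zero_mul] at this
    exact absurd this (not_le.mpr hlt)
  have hr : 1 < v y / M := by rwa [one_lt_div (pos_iff_ne_zero.mpr hM0)]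
  obtain ⟨n, hn⟩ := pow_unbounded_of_one_lt A hr
  have h2 := hpow n
  rw [div_pow, lt_div_iff₀ (by positivity)] at hn
  rw [mul_comm] at h2
  exact absurd h2 (not_le.mpr hn)

/-- weak approximation implies pairwise distinct -/
theorem injective_of_approx {K : Type*} [Field K] {I : Type*} (w : I → Valuation K ℝ≥0)
    (approx : ∀ (a : I → K) (ε : ℝ≥0), 0 < ε → ∃ y : K, ∀ i, w i (y - a i) < ε) :
    Function.Injective w := by
  classical
  intro i j hij
  by_contra hne
  obtain ⟨y, hy⟩ := approx (fun l => if l = i then 1 else 0) 1 one_pos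
  have h1 := hy i
  have h2 := hy j
  simp only [if_true] at h1
  simp only [if_neg (Ne.symm hne), sub_zero] at h2
  rw [← hij] at h2
  have : w i (1 : K) < 1 := by
    have h3 : (1 : K) = y - (y - 1) := by ring
    rw [h3]
    exact (Valuation.map_sub _ _ _).trans_lt (max_lt h2 h1)
  rw [map_one] at this
  exact lt_irrefl _ this

/-- a valuation bounded by the sup of the `w i` (up to a constant) is one of them -/
theorem complete_of_bound {K : Type*} [Field K] {I : Type*} [Fintype I] (w : I → Valuation K ℝ≥0)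
    (approx : ∀ (a : I → K) (ε : ℝ≥0), 0 < ε → ∃ y : K, ∀ i, w i (y - a i) < ε)
    (v : Valuation K ℝ≥0) (A : ℝ≥0)
    (key : ∀ (y : K) (M : ℝ≥0), (∀ i, w i y ≤ M) → v y ≤ M * A) :
    ∃ i, v = w i := by
  classical
  have hidem : ∀ i, ∃ y : K, w i (y - 1) < 1 ∧ ∀ j, j ≠ i → w j y < 1 := by
    intro i
    obtain ⟨y, hy⟩ := approx (fun l => if l = i then 1 else 0) 1 one_pos
    refine ⟨y, by simpa using hy i, fun j hj => ?_⟩
    have := hy j
    simpa [hj] using this
  choose ε hε1 hε2 using hidem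
  have hεi : ∀ i, w i (ε i) = 1 := by
    intro i
    have : ε i = 1 + (ε i - 1) := by ring
    rw [this, Valuation.map_add_eq_of_lt_left _ (by rw [map_one]; exact hε1 i), map_one]
  have hεle : ∀ i j, w j (ε i) ≤ 1 := by
    intro i j
    by_cases h : j = i
    · subst h; exact (hεi _).le
    · exact (hε2 i j h).le
  -- strict version of the bound
  have hlt : ∀ y : K, (∀ i, w i y < 1) → v y < 1 := by
    intro y hy
    by_cases hI : (Finset.univ : Finset I).Nonempty
    · obtain ⟨m, -, hm⟩ := Finset.exists_max_image Finset.univ (fun i => w i y) hI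
      exact (le_of_bound w v A key y _ fun i => hm i (Finset.mem_univ i)).trans_lt (hy m)
    · have h0 := le_of_bound w v A key y 0 fun i => absurd ⟨i, Finset.mem_univ i⟩ hI
      exact h0.trans_lt one_pos
  have hsum : v (∑ i, ε i) = 1 := by
    have h1 : v ((∑ i, ε i) - 1) < 1 := by
      apply hlt
      intro j
      have : (∑ i, ε i) - 1 = (ε j - 1) + ∑ i ∈ Finset.univ.erase j, ε i := by
        rw [← Finset.add_sum_erase _ _ (Finset.mem_univ j)]; ring
      rw [this]
      refine (Valuation.map_add _ _ _).trans_lt (max_lt (hε1 j) ?_)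
      exact Valuation.map_sum_lt _ one_ne_zero fun i hi =>
        hε2 i j (Ne.symm (Finset.ne_of_mem_erase hi))
    have : (∑ i, ε i) = 1 + ((∑ i, ε i) - 1) := by ring
    rw [this, Valuation.map_add_eq_of_lt_left _ (by rw [map_one]; exact h1), map_one]
  obtain ⟨i, hi⟩ : ∃ i, v (ε i) = 1 := by
    by_contra hcon
    push Not at hcon
    have : v (∑ i, ε i) < 1 := by
      refine Valuation.map_sum_lt _ one_ne_zero fun i _ => ?_
      exact lt_of_le_of_ne (le_of_bound w v A key _ _ fun j => hεle i j) (hcon i)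
    rw [hsum] at this
    exact lt_irrefl _ this
  refine ⟨i, ?_⟩
  -- v y ≤ w i y
  have hle : ∀ y : K, y ≠ 0 → v y ≤ w i y := by
    intro y hy
    have hpos : 0 < w i y := pos_iff_ne_zero.mpr ((Valuation.ne_zero_iff _).mpr hy)
    obtain ⟨n, hn⟩ : ∃ n : ℕ, ∀ j, w j (y * ε i ^ n) ≤ w i y := by
      have h1 : ∀ j, ∃ n : ℕ, ∀ m, n ≤ m → w j (y * ε i ^ m) ≤ w i y := by
        intro j
        by_cases hj : j = i
        · subst hj
          exact ⟨0, fun m _ => by rw [map_mul, map_pow, hεi, one_pow, mul_one]⟩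
        · have h2 := hε2 i j hj
          have h3 : Filter.Tendsto (fun n : ℕ => w j y * (w j (ε i)) ^ n) Filter.atTop
              (nhds (w j y * 0)) :=
            (NNReal.tendsto_pow_atTop_nhds_zero_of_lt_one h2).const_mul _
          rw [mul_zero] at h3
          obtain ⟨n, hn⟩ := Filter.eventually_atTop.mp (h3.eventually_le_const hpos)
          exact ⟨n, fun m hm => by rw [map_mul, map_pow]; exact hn m hm⟩
      choose N hN using h1
      refine ⟨∑ j, N j, fun j => hN j _ ?_⟩
      exact Finset.single_le_sum (f := N) (fun _ _ => Nat.zero_le _) (Finset.mem_univ j)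
    have := le_of_bound w v A key _ _ hn
    rwa [map_mul, map_pow, hi, one_pow, mul_one] at this
  ext y
  by_cases hy : y = 0
  · simp [hy]
  refine congrArg _ (le_antisymm (hle y hy) ?_)
  have h1 := hle y⁻¹ (inv_ne_zero hy)
  rw [map_inv₀, map_inv₀] at h1
  have hpos : 0 < w i y := pos_iff_ne_zero.mpr ((Valuation.ne_zero_iff _).mpr hy)
  have hpos' : 0 < v y := pos_iff_ne_zero.mpr ((Valuation.ne_zero_iff _).mpr hy)
  exact (inv_le_inv₀ hpos' hpos).mp h1

namespace Out

variable {F E K : Type u} [Field F] [NontriviallyNormedField E] [IsUltrametricDist E]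
  [Algebra F E] [Field K] [Algebra F K] {I : Type u} [Fintype I] (o : Out F E K I)

theorem sum_le (i : I) (c : (Σ i, Fin (o.d i)) → F) (M : ℝ≥0)
    (hM : ∀ l, ‖algebraMap F E (c l)‖₊ ≤ M) : o.w i (∑ l, c l • o.b l) ≤ M := by
  refine Valuation.map_sum_le _ fun l _ => ?_
  rw [Algebra.smul_def, map_mul, o.w_alg]
  calc _ ≤ M * 1 := mul_le_mul' (hM l) (o.b_le i l)
    _ = M := mul_one M



theorem all_lt_iff (y : K) (M : ℝ≥0) (hM : 0 < M) :
    (∀ i, o.w i y < M) ↔ ∀ l, ‖algebraMap F E (o.b.repr y l)‖₊ < M := by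
  constructor
  · intro h l
    obtain ⟨i, hi⟩ := o.ge (fun l => o.b.repr y l) l
    rw [o.b.sum_repr] at hi
    exact hi.trans_lt (h i)
  · intro h i
    rw [← o.b.sum_repr y]
    refine Valuation.map_sum_lt _ hM.ne' fun l _ => ?_
    rw [Algebra.smul_def, map_mul, o.w_alg]
    calc _ ≤ ‖algebraMap F E (o.b.repr y l)‖₊ * 1 := mul_le_mul' le_rfl (o.b_le i l)
      _ < M := by rw [mul_one]; exact h l

theorem all_le_iff (y : K) (M : ℝ≥0) :
    (∀ i, o.w i y ≤ M) ↔ ∀ l, ‖algebraMap F E (o.b.repr y l)‖₊ ≤ M := by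
  constructor
  · intro h l
    obtain ⟨i, hi⟩ := o.ge (fun l => o.b.repr y l) l
    rw [o.b.sum_repr] at hi
    exact hi.trans (h i)
  · intro h i
    rw [← o.b.sum_repr y]
    exact o.sum_le i _ M h

/-- value groups -/
theorem exists_val (i : I) (y : K) : ∃ f : F, ‖algebraMap F E f‖₊ = o.w i y := by
  classical
  by_cases hy : y = 0
  · exact ⟨0, by simp [hy]⟩
  have hpos : 0 < o.w i y := by
    rw [pos_iff_ne_zero]; exact (Valuation.ne_zero_iff _).mpr hy
  obtain ⟨z, hz⟩ := o.approx (fun j => if j = i then y else 0) (o.w i y) hpos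
  have hzi : o.w i z = o.w i y := by
    have h := hz i
    simp only [if_true] at h
    have : z = y + (z - y) := by ring
    rw [this]
    exact Valuation.map_add_eq_of_lt_left _ h
  have hall : ∀ j, o.w j z ≤ o.w i y := by
    intro j
    by_cases hj : j = i
    · subst hj; exact hzi.le
    · have h := hz j
      simp only [if_neg hj, sub_zero] at h
      exact h.le
  have h1 := (o.all_le_iff z _).mp hall
  by_contra hcon
  push Not at hcon
  have h2 : ∀ l, ‖algebraMap F E (o.b.repr z l)‖₊ < o.w i y := fun l =>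
    lt_of_le_of_ne (h1 l) (hcon _)
  have h3 := (o.all_lt_iff z _ hpos).mpr h2 i
  rw [hzi] at h3
  exact lt_irrefl _ h3

theorem w_injective : Function.Injective o.w := injective_of_approx o.w o.approx

/-- the residues of the `b ⟨i, l⟩` are independent -/
theorem res_ge (i : I) (c : Fin (o.d i) → F) (l : Fin (o.d i)) :
    ‖algebraMap F E (c l)‖₊ ≤ o.w i (∑ l, c l • o.b ⟨i, l⟩) := by
  classical
  obtain ⟨m, -, hm⟩ := Finset.exists_max_image Finset.univ
    (fun l => ‖algebraMap F E (c l)‖₊) ⟨l, Finset.mem_univ l⟩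
  refine (hm l (Finset.mem_univ l)).trans ?_
  by_cases h0 : ‖algebraMap F E (c m)‖₊ = 0
  · rw [h0]; exact zero_le
  let c' : (Σ i, Fin (o.d i)) → F := fun j => if h : j.1 = i then c (h ▸ j.2) else 0
  have hc' : ∀ l, c' ⟨i, l⟩ = c l := fun l => by simp [c']
  have hsum : ∑ j, c' j • o.b j = ∑ l, c l • o.b ⟨i, l⟩ := by
    rw [Fintype.sum_sigma, Finset.sum_eq_single i]
    · exact Finset.sum_congr rfl fun l _ => by rw [hc']
    · intro j _ hj
      refine Finset.sum_eq_zero fun l _ => ?_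
      simp [c', hj]
    · intro h; exact absurd (Finset.mem_univ i) h
  obtain ⟨j, hj⟩ := o.ge c' ⟨i, m⟩
  rw [hc', hsum] at hj
  by_cases hji : j = i
  · subst hji; exact hj
  exfalso
  refine absurd hj (not_le.mpr ?_)
  refine Valuation.map_sum_lt _ h0 fun l _ => ?_
  rw [Algebra.smul_def, map_mul, o.w_alg]
  calc ‖algebraMap F E (c l)‖₊ * o.w j (o.b ⟨i, l⟩)
      ≤ ‖algebraMap F E (c m)‖₊ * o.w j (o.b ⟨i, l⟩) := mul_le_mul' (hm l (Finset.mem_univ l)) le_rfl
    _ < ‖algebraMap F E (c m)‖₊ * 1 := by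
        refine mul_lt_mul_of_pos_left (o.b_lt j ⟨i, l⟩ (Ne.symm hji)) (pos_iff_ne_zero.mpr h0)
    _ = _ := mul_one _

/-- the residues of the `b ⟨i, l⟩` generate -/
theorem res_gen (i : I) (y : K) (hy : o.w i y ≤ 1) : ∃ c : Fin (o.d i) → F,
    (∀ l, ‖algebraMap F E (c l)‖₊ ≤ 1) ∧ o.w i (y - ∑ l, c l • o.b ⟨i, l⟩) < 1 := by
  classical
  obtain ⟨z, hz⟩ := o.approx (fun j => if j = i then y else 0) 1 one_pos
  have hzi : o.w i (z - y) < 1 := by simpa using hz i
  have hall : ∀ j, o.w j z ≤ 1 := by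
    intro j
    by_cases hj : j = i
    · subst hj
      have : z = (z - y) + y := by ring
      rw [this]
      exact (Valuation.map_add _ _ _).trans (max_le hzi.le hy)
    · have h := hz j
      simp only [if_neg hj, sub_zero] at h
      exact h.le
  have h1 := (o.all_le_iff z _).mp hall
  refine ⟨fun l => o.b.repr z ⟨i, l⟩, fun l => h1 _, ?_⟩
  have h2 : z - ∑ l, o.b.repr z ⟨i, l⟩ • o.b ⟨i, l⟩ =
      ∑ j ∈ Finset.univ.erase i, ∑ l, o.b.repr z ⟨j, l⟩ • o.b ⟨j, l⟩ := by
    have h0 : ∑ j, o.b.repr z j • o.b j = z := o.b.sum_repr z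
    rw [Fintype.sum_sigma, ← Finset.add_sum_erase _ _ (Finset.mem_univ i)] at h0
    rw [sub_eq_iff_eq_add, add_comm]
    exact h0.symm
  have h3 : o.w i (z - ∑ l, o.b.repr z ⟨i, l⟩ • o.b ⟨i, l⟩) < 1 := by
    rw [h2]
    refine Valuation.map_sum_lt _ one_ne_zero fun j hj => ?_
    refine Valuation.map_sum_lt _ one_ne_zero fun l _ => ?_
    rw [Algebra.smul_def, map_mul, o.w_alg]
    calc _ ≤ 1 * o.w i (o.b ⟨j, l⟩) := mul_le_mul' (h1 _) le_rfl
      _ < 1 := by rw [one_mul]; exact o.b_lt i ⟨j, l⟩ (Finset.ne_of_mem_erase hj)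
  have h4 : y - ∑ l, o.b.repr z ⟨i, l⟩ • o.b ⟨i, l⟩ =
      (z - ∑ l, o.b.repr z ⟨i, l⟩ • o.b ⟨i, l⟩) - (z - y) := by ring
  rw [h4]
  exact (Valuation.map_sub _ _ _).trans_lt (max_lt h3 hzi)

/-- bound of any valuation extending the norm by the sup -/
theorem exists_bound (v : Valuation K ℝ≥0) (hv : ∀ f, v (algebraMap F K f) = ‖algebraMap F E f‖₊) :
    ∃ A : ℝ≥0, ∀ (y : K) (M : ℝ≥0), (∀ i, o.w i y ≤ M) → v y ≤ M * A := by
  classical
  obtain ⟨A, hA⟩ : ∃ A : ℝ≥0, ∀ l, v (o.b l) ≤ A := by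
    refine ⟨∑ l, v (o.b l), fun l => ?_⟩
    exact Finset.single_le_sum (f := fun l => v (o.b l)) (fun _ _ => zero_le) (Finset.mem_univ l)
  refine ⟨A, fun y M hM => ?_⟩
  have h1 := (o.all_le_iff y _).mp hM
  rw [← o.b.sum_repr y]
  refine Valuation.map_sum_le _ fun l _ => ?_
  rw [Algebra.smul_def, map_mul, hv]
  exact mul_le_mul' (h1 l) (hA l)

theorem exists_le (v : Valuation K ℝ≥0) (hv : ∀ f, v (algebraMap F K f) = ‖algebraMap F E f‖₊)
    (y : K) (M : ℝ≥0) (hM : ∀ i, o.w i y ≤ M) : v y ≤ M := by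
  obtain ⟨A, hA⟩ := o.exists_bound v hv
  exact le_of_bound o.w v A hA y M hM

/-- completeness of the list -/
theorem complete (v : Valuation K ℝ≥0) (hv : ∀ f, v (algebraMap F K f) = ‖algebraMap F E f‖₊) :
    ∃ i, v = o.w i := by
  obtain ⟨A, hA⟩ := o.exists_bound v hv
  exact complete_of_bound o.w o.approx v A hA

end Out

end Crest.Agent.R013.StabF_83
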