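import Mathlib

-- ▼ part R013/Stab1_460
section

/-!
# STAB, part 1: a square system `X_j ^ p + (terms of degree < p) = 0` has a solution over an
algebraically closed field (a complete intersection without zeros at infinity).
-/

namespace Crest.Agent.R013.Stab1_460

open MvPolynomial

variable {K : Type*} [Field K] {ι : Type*}

/-- all monomials of `g` have total degree `< n`. -/
def lt (n : ℕ) (g : MvPolynomial ι K) : Prop := ∀ b : ι →₀ ℕ, n ≤ b.degree → coeff b g = 0

lemma lt_zero (n : ℕ) : lt n (0 : MvPolynomial ι K) := fun b _ => by simp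

lemma lt_add {n : ℕ} {g h : MvPolynomial ι K} (hg : lt n g) (hh : lt n h) : lt n (g + h) :=
  fun b hb => by simp [hg b hb, hh b hb]

lemma lt_neg {n : ℕ} {g : MvPolynomial ι K} (hg : lt n g) : lt n (-g) :=
  fun b hb => by simp [hg b hb]

lemma lt_sub {n : ℕ} {g h : MvPolynomial ι K} (hg : lt n g) (hh : lt n h) : lt n (g - h) :=
  fun b hb => by simp [hg b hb, hh b hb]

lemma lt_smul {n : ℕ} {g : MvPolynomial ι K} (c : K) (hg : lt n g) : lt n (c • g) :=
  fun b hb => by simp [hg b hb]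

lemma lt_mono {n m : ℕ} (h : n ≤ m) {g : MvPolynomial ι K} (hg : lt n g) : lt m g :=
  fun b hb => hg b (h.trans hb)

lemma lt_sum {n : ℕ} {α : Type*} (s : Finset α) (g : α → MvPolynomial ι K)
    (hg : ∀ i ∈ s, lt n (g i)) : lt n (∑ i ∈ s, g i) := by
  classical
  induction s using Finset.induction_on with
  | empty => simpa using lt_zero n
  | insert a s ha ih =>
    rw [Finset.sum_insert ha]
    exact lt_add (hg a (Finset.mem_insert_self a s))
      (ih fun i hi => hg i (Finset.mem_insert_of_mem hi))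

lemma lt_mul {n m : ℕ} {g h : MvPolynomial ι K} (hg : lt n g) (hh : lt (m + 1) h) :
    lt (n + m) (g * h) := by
  classical
  intro b hb
  rw [coeff_mul]
  refine Finset.sum_eq_zero fun x hx => ?_
  have hx' := Finset.HasAntidiagonal.mem_antidiagonal.1 hx
  have hd : x.1.degree + x.2.degree = b.degree := by rw [← hx', map_add]
  by_cases h1 : n ≤ x.1.degree
  · rw [hg _ h1, zero_mul]
  · rw [hh x.2 (by omega), mul_zero]

lemma lt_monomial (a : ι →₀ ℕ) (c : K) : lt (a.degree + 1) (monomial a c) := by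
  classical
  intro b hb
  rw [coeff_monomial, if_neg]
  rintro rfl
  omega

lemma exists_lt (g : MvPolynomial ι K) : ∃ n, lt n g := by
  classical
  refine ⟨g.totalDegree + 1, fun b hb => ?_⟩
  by_contra h
  have h2 : b ∈ g.support := by simpa [mem_support_iff] using h
  have h3 := le_totalDegree h2
  have h4 : b.degree = b.sum fun _ e => e := rfl
  omega

lemma eq_zero_of_lt {g : MvPolynomial ι K} (hg : lt 0 g) : g = 0 := by
  ext b
  simpa using hg b (Nat.zero_le _)

/-- `g` is the monomial `a` plus terms of smaller degree. -/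
def lead (a : ι →₀ ℕ) (g : MvPolynomial ι K) : Prop := lt a.degree (g - monomial a 1)

lemma lead_one : lead (0 : ι →₀ ℕ) (1 : MvPolynomial ι K) := by
  have : (1 : MvPolynomial ι K) - monomial 0 1 = 0 := by simp
  rw [lead, this]
  exact lt_zero _

lemma lead_lt {a : ι →₀ ℕ} {g : MvPolynomial ι K} (h : lead a g) : lt (a.degree + 1) g := by
  have := lt_add (lt_mono (Nat.le_succ _) h) (lt_monomial a (1 : K))
  simpa using this

lemma lead_mul {a b : ι →₀ ℕ} {g h : MvPolynomial ι K} (hg : lead a g) (hh : lead b h) :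
    lead (a + b) (g * h) := by
  have e : g * h - monomial (a + b) 1 =
      (g - monomial a 1) * h + (h - monomial b 1) * monomial a 1 := by
    have : (monomial (a + b) (1 : K)) = monomial a 1 * monomial b 1 := by
      rw [monomial_mul, one_mul]
    rw [this]; ring
  rw [lead, e, map_add]
  refine lt_add (lt_mul hg (lead_lt hh)) ?_
  rw [add_comm]
  exact lt_mul hh (lt_monomial a 1)

lemma lead_pow {a : ι →₀ ℕ} {g : MvPolynomial ι K} (hg : lead a g) (n : ℕ) :
    lead (n • a) (g ^ n) := by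
  induction n with
  | zero => simpa using lead_one
  | succ n ih => rw [succ_nsmul, pow_succ]; exact lead_mul ih hg

lemma lead_prod {α : Type*} (s : Finset α) (a : α → ι →₀ ℕ) (g : α → MvPolynomial ι K)
    (hg : ∀ i ∈ s, lead (a i) (g i)) : lead (∑ i ∈ s, a i) (∏ i ∈ s, g i) := by
  classical
  induction s using Finset.induction_on with
  | empty => simpa using lead_one
  | insert x s hx ih =>
    rw [Finset.sum_insert hx, Finset.prod_insert hx]
    exact lead_mul (hg x (Finset.mem_insert_self x s))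
      (ih fun i hi => hg i (Finset.mem_insert_of_mem hi))

variable [Fintype ι]

/-- the "division" map. -/
noncomputable def Phi (p : ℕ) (f : ι → MvPolynomial ι K) :
    MvPolynomial ι K →ₗ[K] MvPolynomial ι K :=
  (basisMonomials ι K).constr K (fun a => ∏ j, (f j ^ (a j / p) * X j ^ (a j % p)))

lemma Phi_monomial (p : ℕ) (f : ι → MvPolynomial ι K) (a : ι →₀ ℕ) :
    Phi p f (monomial a 1) = ∏ j, (f j ^ (a j / p) * X j ^ (a j % p)) := by
  have := (basisMonomials ι K).constr_basis K
    (fun a => ∏ j, (f j ^ (a j / p) * X j ^ (a j % p))) a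
  rw [coe_basisMonomials] at this
  exact this

lemma Phi_mul (p : ℕ) (hp : 0 < p) (f : ι → MvPolynomial ι K) (j : ι) (h : MvPolynomial ι K) :
    Phi p f (X j ^ p * h) = f j * Phi p f h := by
  classical
  induction h using MvPolynomial.induction_on' with
  | monomial a c =>
    have e1 : (monomial a c : MvPolynomial ι K) = c • monomial a 1 := by
      rw [smul_monomial, smul_eq_mul, mul_one]
    rw [e1, mul_smul_comm, map_smul, map_smul, mul_smul_comm]
    congr 1
    have e2 : (X j : MvPolynomial ι K) ^ p * monomial a 1 = monomial (a + Finsupp.single j p) 1 := by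
      rw [X_pow_eq_monomial, monomial_mul, one_mul, add_comm]
    rw [e2, Phi_monomial, Phi_monomial, ← Finset.mul_prod_erase _ _ (Finset.mem_univ j),
      ← Finset.mul_prod_erase (f := fun j => (f j ^ (a j / p) * X j ^ (a j % p))) _
        (Finset.mem_univ j)]
    have e3 : ∀ i ∈ Finset.univ.erase j,
        (f i ^ ((a + Finsupp.single j p : ι →₀ ℕ) i / p) *
          X i ^ ((a + Finsupp.single j p : ι →₀ ℕ) i % p) : MvPolynomial ι K) =
        (f i ^ (a i / p) * X i ^ (a i % p)) := by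
      intro i hi
      have hij : i ≠ j := Finset.ne_of_mem_erase hi
      rw [Finsupp.add_apply, Finsupp.single_eq_of_ne hij, add_zero]
    rw [Finset.prod_congr rfl e3]
    have e4 : ((a + Finsupp.single j p : ι →₀ ℕ) j / p) = a j / p + 1 := by
      rw [Finsupp.add_apply, Finsupp.single_eq_same, Nat.add_div_right _ hp]
    have e5 : ((a + Finsupp.single j p : ι →₀ ℕ) j % p) = a j % p := by
      rw [Finsupp.add_apply, Finsupp.single_eq_same, Nat.add_mod_right]
    rw [e4, e5]
    ring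
  | add g h hg hh =>
    rw [mul_add, map_add, map_add, hg, hh, mul_add]

lemma Phi_one (p : ℕ) (f : ι → MvPolynomial ι K) : Phi p f 1 = 1 := by
  have : (1 : MvPolynomial ι K) = monomial 0 1 := by simp
  rw [this, Phi_monomial]
  simp

lemma Phi_lead (p : ℕ) (f : ι → MvPolynomial ι K)
    (hf : ∀ j, lead (Finsupp.single j p) (f j)) (a : ι →₀ ℕ) :
    lead a (Phi p f (monomial a 1)) := by
  classical
  rw [Phi_monomial]
  have hX : ∀ j : ι, lead (Finsupp.single j 1) (X j : MvPolynomial ι K) := by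
    intro j
    have : (X j : MvPolynomial ι K) - monomial (Finsupp.single j 1) 1 = 0 := by
      simp [X]
    rw [lead, this]
    exact lt_zero _
  have key := lead_prod Finset.univ
    (fun j => (a j / p) • Finsupp.single j p + (a j % p) • Finsupp.single j 1)
    (fun j => (f j ^ (a j / p) * X j ^ (a j % p)))
    (fun j _ => lead_mul (lead_pow (hf j) _) (lead_pow (hX j) _))
  have e : ∑ j, ((a j / p) • Finsupp.single j p + (a j % p) • Finsupp.single j 1) = a := by
    ext i
    rw [Finsupp.finsetSum_apply, Finset.sum_eq_single i]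
    · simp only [Finsupp.add_apply, Finsupp.smul_apply, Finsupp.single_eq_same, smul_eq_mul,
        mul_one]
      rw [mul_comm]
      exact Nat.div_add_mod _ _
    · intro j _ hj
      simp only [Finsupp.add_apply, Finsupp.smul_apply, smul_eq_mul]
      rw [Finsupp.single_eq_of_ne (Ne.symm hj), Finsupp.single_eq_of_ne (Ne.symm hj)]
      simp
    · simp
  rw [e] at key
  exact key

lemma Phi_sub (p : ℕ) (f : ι → MvPolynomial ι K)
    (hf : ∀ j, lead (Finsupp.single j p) (f j)) (n : ℕ) (g : MvPolynomial ι K)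
    (hg : lt (n + 1) g) : lt n (Phi p f g - g) := by
  classical
  have e : Phi p f g - g =
      ∑ a ∈ g.support, coeff a g • (Phi p f (monomial a 1) - monomial a 1) := by
    conv_lhs => rw [g.as_sum]
    rw [map_sum, ← Finset.sum_sub_distrib]
    refine Finset.sum_congr rfl fun a _ => ?_
    have e1 : (monomial a (coeff a g) : MvPolynomial ι K) = coeff a g • monomial a 1 := by
      rw [smul_monomial, smul_eq_mul, mul_one]
    rw [e1, map_smul, smul_sub]
  rw [e]
  refine lt_sum _ _ fun a ha => lt_smul _ ?_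
  refine lt_mono ?_ (Phi_lead p f hf a)
  by_contra h
  exact (mem_support_iff.1 ha) (hg a (by omega))

lemma Phi_injective (p : ℕ) (f : ι → MvPolynomial ι K)
    (hf : ∀ j, lead (Finsupp.single j p) (f j)) : Function.Injective (Phi p f) := by
  rw [← LinearMap.ker_eq_bot, LinearMap.ker_eq_bot']
  intro g hg
  have key : ∀ n, ∀ g : MvPolynomial ι K, lt n g → Phi p f g = 0 → g = 0 := by
    intro n
    induction n with
    | zero => exact fun g hg _ => eq_zero_of_lt hg
    | succ n ih =>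
      intro g hg h0
      have := Phi_sub p f hf n g hg
      rw [h0, zero_sub] at this
      have := lt_neg this
      rw [neg_neg] at this
      exact ih g this h0
  obtain ⟨n, hn⟩ := exists_lt g
  exact key n g hn hg

lemma Phi_surjective (p : ℕ) (f : ι → MvPolynomial ι K)
    (hf : ∀ j, lead (Finsupp.single j p) (f j)) : Function.Surjective (Phi p f) := by
  intro g
  have key : ∀ n, ∀ g : MvPolynomial ι K, lt n g → ∃ h, Phi p f h = g := by
    intro n
    induction n with
    | zero => exact fun g hg => ⟨0, by rw [map_zero, eq_zero_of_lt hg]⟩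
    | succ n ih =>
      intro g hg
      obtain ⟨h, hh⟩ := ih _ (Phi_sub p f hf n g hg)
      exact ⟨g - h, by rw [map_sub, hh]; ring⟩
  obtain ⟨n, hn⟩ := exists_lt g
  exact key n g hn

/-- A square system of polynomials with leading forms `X_j ^ p` has a common zero. -/
theorem exists_zero [IsAlgClosed K] (p : ℕ) (hp : 0 < p) (f : ι → MvPolynomial ι K)
    (hf : ∀ j, lt p (f j - X j ^ p)) : ∃ x : ι → K, ∀ j, eval x (f j) = 0 := by
  classical
  have hf' : ∀ j, lead (Finsupp.single j p) (f j) := by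
    intro j
    have h := hf j
    rw [X_pow_eq_monomial] at h
    rw [lead]
    simpa [Finsupp.degree_single] using h
  have hne : Ideal.span (Set.range f) ≠ ⊤ := by
    intro htop
    have h1 : (1 : MvPolynomial ι K) ∈ Ideal.span (Set.range f) := by rw [htop]; trivial
    rw [Ideal.mem_span_range_iff_exists_fun] at h1
    obtain ⟨c, hc⟩ := h1
    choose h hh using fun j => Phi_surjective p f hf' (c j)
    have h2 : Phi p f (∑ j, X j ^ p * h j) = Phi p f 1 := by
      rw [map_sum, Phi_one, ← hc]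
      refine Finset.sum_congr rfl fun j _ => ?_
      rw [Phi_mul p hp, hh, mul_comm]
    have h3 := Phi_injective p f hf' h2
    have h4 := congrArg (eval (0 : ι → K)) h3
    simp [hp.ne'] at h4
  obtain ⟨M, hM, hIM⟩ := Ideal.exists_le_maximal _ hne
  obtain ⟨x, hx⟩ := (isMaximal_iff_eq_vanishingIdeal_singleton (K := K)).1 hM
  refine ⟨x, fun j => ?_⟩
  have h5 : f j ∈ M := hIM (Ideal.subset_span ⟨j, rfl⟩)
  rw [hx, mem_vanishingIdeal_singleton_iff, aeval_eq_eval] at h5
  exact h5

/-- The system `d_j ^ p = c_j + ∑ i, B i j * d_i` is solvable. -/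
theorem exists_system [IsAlgClosed K] (p : ℕ) (hp : 2 ≤ p) (B : ι → ι → K) (c : ι → K) :
    ∃ d : ι → K, ∀ j, d j ^ p = c j + ∑ i, B i j * d i := by
  classical
  obtain ⟨x, hx⟩ := exists_zero (K := K) (ι := ι) p (by omega)
    (fun j => X j ^ p - (C (c j) + ∑ i, C (B i j) * X i)) (by
      intro j
      have e : (X j ^ p - (C (c j) + ∑ i, C (B i j) * X i) - X j ^ p : MvPolynomial ι K) =
        -(C (c j) + ∑ i, C (B i j) * X i) := by ring
      rw [e]
      refine lt_neg (lt_add ?_ (lt_sum _ _ fun i _ => ?_))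
      · have := lt_monomial (ι := ι) (0 : ι →₀ ℕ) (c j)
        rw [map_zero] at this
        exact lt_mono (by omega) this
      · have := lt_monomial (ι := ι) (Finsupp.single i 1) (B i j)
        rw [Finsupp.degree_single] at this
        rw [C_mul_X_eq_monomial]
        exact lt_mono (by omega) this)
  refine ⟨x, fun j => ?_⟩
  have := hx j
  simp only [eval_sub, map_pow, eval_X, eval_add, eval_C, map_sum, map_mul] at this
  exact sub_eq_zero.1 this

end Crest.Agent.R013.Stab1_460
end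

-- ▼ part R013/Stab2_460
section

/-!
# STAB, part 2: residues, orthonormal families, `p`-th powers
-/

namespace Crest.Agent.R013.Stab2_460

open Polynomial
open scoped NNReal

variable {N : Type*} [Field N] (w : Valuation N ℝ≥0)

/-! ### the residue function -/

/-- the residue field -/
abbrev kap : Type _ := IsLocalRing.ResidueField w.valuationSubring

open Classical in
/-- the residue of an element of norm `≤ 1` (junk value `0` otherwise). -/
noncomputable def r (y : N) : kap w :=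
  if h : w y ≤ 1 then IsLocalRing.residue w.valuationSubring ⟨y, h⟩ else 0

lemma r_of_le {y : N} (h : w y ≤ 1) :
    r w y = IsLocalRing.residue w.valuationSubring ⟨y, h⟩ := dif_pos h

lemma r_zero : r w 0 = 0 := by
  rw [r_of_le w (y := 0) (by simp)]
  exact map_zero (IsLocalRing.residue w.valuationSubring)

lemma r_one : r w 1 = 1 := by
  rw [r_of_le w (y := 1) (by simp)]
  exact map_one (IsLocalRing.residue w.valuationSubring)

lemma le_add {a b : N} {R : ℝ≥0} (ha : w a ≤ R) (hb : w b ≤ R) : w (a + b) ≤ R :=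
  (w.map_add a b).trans (max_le ha hb)

lemma lt_add {a b : N} {R : ℝ≥0} (ha : w a < R) (hb : w b < R) : w (a + b) < R :=
  (w.map_add a b).trans_lt (max_lt ha hb)

lemma le_sub {a b : N} {R : ℝ≥0} (ha : w a ≤ R) (hb : w b ≤ R) : w (a - b) ≤ R :=
  (w.map_sub a b).trans (max_le ha hb)

lemma lt_sub {a b : N} {R : ℝ≥0} (ha : w a < R) (hb : w b < R) : w (a - b) < R :=
  (w.map_sub a b).trans_lt (max_lt ha hb)

lemma le_sum {α : Type*} (s : Finset α) (a : α → N) {R : ℝ≥0} (h : ∀ i ∈ s, w (a i) ≤ R) :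
    w (∑ i ∈ s, a i) ≤ R := by
  classical
  induction s using Finset.induction_on with
  | empty => simp
  | insert x s hx ih =>
    rw [Finset.sum_insert hx]
    exact le_add w (h x (Finset.mem_insert_self x s))
      (ih fun i hi => h i (Finset.mem_insert_of_mem hi))

lemma lt_sum {α : Type*} (s : Finset α) (a : α → N) {R : ℝ≥0} (hR : 0 < R)
    (h : ∀ i ∈ s, w (a i) < R) : w (∑ i ∈ s, a i) < R := by
  classical
  induction s using Finset.induction_on with
  | empty => simpa using hR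
  | insert x s hx ih =>
    rw [Finset.sum_insert hx]
    exact lt_add w (h x (Finset.mem_insert_self x s))
      (ih fun i hi => h i (Finset.mem_insert_of_mem hi))

lemma r_add {a b : N} (ha : w a ≤ 1) (hb : w b ≤ 1) : r w (a + b) = r w a + r w b := by
  rw [r_of_le w ha, r_of_le w hb, r_of_le w (le_add w ha hb), ← map_add]
  rfl

lemma r_neg {a : N} (ha : w a ≤ 1) : r w (-a) = - r w a := by
  rw [r_of_le w ha, r_of_le w (y := -a) (by rwa [Valuation.map_neg]), ← map_neg]
  rfl

lemma r_sub {a b : N} (ha : w a ≤ 1) (hb : w b ≤ 1) : r w (a - b) = r w a - r w b := by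
  rw [sub_eq_add_neg, r_add w ha (by rwa [Valuation.map_neg]), r_neg w hb, sub_eq_add_neg]

lemma r_mul {a b : N} (ha : w a ≤ 1) (hb : w b ≤ 1) : r w (a * b) = r w a * r w b := by
  have hab : w (a * b) ≤ 1 := by rw [map_mul]; exact mul_le_one' ha hb
  rw [r_of_le w ha, r_of_le w hb, r_of_le w hab]
  exact map_mul (IsLocalRing.residue w.valuationSubring) ⟨a, ha⟩ ⟨b, hb⟩

lemma r_eq_zero {a : N} (ha : w a ≤ 1) : r w a = 0 ↔ w a < 1 := by
  rw [r_of_le w ha, IsLocalRing.residue_eq_zero_iff, Valuation.mem_maximalIdeal_iff]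

lemma r_eq {a b : N} (ha : w a ≤ 1) (hb : w b ≤ 1) : r w a = r w b ↔ w (a - b) < 1 := by
  rw [← r_eq_zero w (le_sub w ha hb), r_sub w ha hb, sub_eq_zero]

lemma r_surj (z : kap w) : ∃ a, w a ≤ 1 ∧ r w a = z := by
  obtain ⟨y, hy⟩ := IsLocalRing.residue_surjective z
  refine ⟨y, y.2, ?_⟩
  rw [r_of_le w (y := (y : N)) y.2]
  exact hy

lemma pow_le_one_w {a : N} (ha : w a ≤ 1) (n : ℕ) : w (a ^ n) ≤ 1 := by
  rw [map_pow]; exact pow_le_one' ha n

lemma r_pow {a : N} (ha : w a ≤ 1) (n : ℕ) : r w (a ^ n) = r w a ^ n := by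
  induction n with
  | zero => simp [r_one]
  | succ n ih => rw [pow_succ, r_mul w (pow_le_one_w w ha n) ha, ih, pow_succ]

lemma r_sum {α : Type*} (s : Finset α) (a : α → N) (h : ∀ i ∈ s, w (a i) ≤ 1) :
    r w (∑ i ∈ s, a i) = ∑ i ∈ s, r w (a i) := by
  classical
  induction s using Finset.induction_on with
  | empty => simp [r_zero]
  | insert x s hx ih =>
    rw [Finset.sum_insert hx, Finset.sum_insert hx, r_add w (h x (Finset.mem_insert_self x s))
      (le_sum w s a fun i hi => h i (Finset.mem_insert_of_mem hi)),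
      ih fun i hi => h i (Finset.mem_insert_of_mem hi)]

lemma natCast_le_one (n : ℕ) : w (n : N) ≤ 1 := by
  induction n with
  | zero => simp
  | succ n ih => rw [Nat.cast_succ]; exact le_add w ih (by simp)

lemma r_natCast (n : ℕ) : r w (n : N) = n := by
  induction n with
  | zero => simp [r_zero]
  | succ n ih => rw [Nat.cast_succ, r_add w (natCast_le_one w n) (by simp), ih, r_one, Nat.cast_succ]

lemma charP_kap (p : ℕ) [Fact p.Prime] (hp : w (p : N) < 1) : CharP (kap w) p := by
  have h0 : ((p : ℕ) : kap w) = 0 := by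
    rw [← r_natCast, r_eq_zero w (natCast_le_one w p)]
    exact hp
  have hprime := (Fact.out : p.Prime)
  rcases CharP.exists (kap w) with ⟨q, hq⟩
  have h1 : q ∣ p := (CharP.cast_eq_zero_iff (kap w) q p).1 h0
  rcases (Nat.dvd_prime hprime).1 h1 with h | h
  · exfalso
    subst h
    exact CharP.false_of_nontrivial_of_char_one (R := kap w)
  · subst h
    exact hq

/-- residues of elements of a subfield `F` -/
def resF (F : Subfield N) : Subfield (kap w) where
  carrier := {z | ∃ y ∈ F, w y ≤ 1 ∧ r w y = z}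
  mul_mem' := by
    rintro _ _ ⟨a, ha, ha1, rfl⟩ ⟨b, hb, hb1, rfl⟩
    exact ⟨a * b, F.mul_mem ha hb, by rw [map_mul]; exact mul_le_one' ha1 hb1, r_mul w ha1 hb1⟩
  one_mem' := ⟨1, F.one_mem, by simp, r_one w⟩
  add_mem' := by
    rintro _ _ ⟨a, ha, ha1, rfl⟩ ⟨b, hb, hb1, rfl⟩
    exact ⟨a + b, F.add_mem ha hb, le_add w ha1 hb1, r_add w ha1 hb1⟩
  zero_mem' := ⟨0, F.zero_mem, by simp, r_zero w⟩
  neg_mem' := by
    rintro _ ⟨a, ha, ha1, rfl⟩
    exact ⟨-a, F.neg_mem ha, by rwa [Valuation.map_neg], r_neg w ha1⟩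
  inv_mem' := by
    rintro _ ⟨a, ha, ha1, rfl⟩
    by_cases h : r w a = 0
    · rw [h, inv_zero]
      exact ⟨0, F.zero_mem, by simp, r_zero w⟩
    · have h1 : w a = 1 := by
        rw [r_eq_zero w ha1, not_lt] at h
        exact le_antisymm ha1 h
      have h0 : a ≠ 0 := by
        rintro rfl
        simp at h1
      have h2 : w a⁻¹ ≤ 1 := by rw [map_inv₀, h1, inv_one]
      refine ⟨a⁻¹, F.inv_mem ha, h2, ?_⟩
      have := r_mul w h2 ha1
      rw [inv_mul_cancel₀ h0, r_one] at this
      exact eq_inv_of_mul_eq_one_left this.symm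

lemma r_mem_resF {F : Subfield N} {y : N} (hy : y ∈ F) (h1 : w y ≤ 1) : r w y ∈ resF w F :=
  ⟨y, hy, h1, rfl⟩

/-! ### orthonormal families -/

/-- `b` is orthonormal over `F`. -/
def ON {ι : Type*} [Fintype ι] (F : Subfield N) (b : ι → N) : Prop :=
  ∀ c : ι → N, (∀ i, c i ∈ F) → ∀ i, w (c i) ≤ w (∑ j, c j * b j)

lemma on_of_unit {ι : Type*} [Fintype ι] (F : Subfield N) (b : ι → N)
    (H : ∀ c : ι → N, (∀ i, c i ∈ F) → (∀ i, w (c i) ≤ 1) → w (∑ j, c j * b j) < 1 →
      ∀ i, w (c i) < 1) : ON w F b := by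
  classical
  intro c hc i
  obtain ⟨i0, -, hi0⟩ := Finset.exists_max_image Finset.univ (fun i => w (c i))
    ⟨i, Finset.mem_univ i⟩
  have hmax : ∀ j, w (c j) ≤ w (c i0) := fun j => hi0 j (Finset.mem_univ j)
  refine (hmax i).trans ?_
  by_cases h0 : w (c i0) = 0
  · rw [h0]; exact zero_le
  have hpos : 0 < w (c i0) := pos_iff_ne_zero.2 h0
  have hc0 : c i0 ≠ 0 := by
    intro h; rw [h] at h0; simp at h0
  by_contra hlt
  rw [not_le] at hlt
  have h1 : w (∑ j, (c j / c i0) * b j) < 1 := by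
    have e : ∑ j, (c j / c i0) * b j = (∑ j, c j * b j) / c i0 := by
      rw [Finset.sum_div]
      exact Finset.sum_congr rfl fun j _ => by ring
    rw [e, map_div₀]
    exact (div_lt_one hpos).2 hlt
  have h2 := H (fun j => c j / c i0) (fun j => F.div_mem (hc j) (hc i0))
    (fun j => by rw [map_div₀]; exact (div_le_one hpos).2 (hmax j)) h1 i0
  rw [div_self hc0, map_one] at h2
  exact lt_irrefl _ h2

lemma on_mul {ι κ : Type*} [Fintype ι] [Fintype κ] {F F1 : Subfield N} (b : ι → N) (b' : κ → N)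
    (hb : ON w F b) (hb' : ON w F1 b') (hF : F ≤ F1) (hbF : ∀ i, b i ∈ F1) :
    ON w F (fun x : ι × κ => b x.1 * b' x.2) := by
  intro c hc x
  obtain ⟨i, k⟩ := x
  have e : ∑ x : ι × κ, c x * (b x.1 * b' x.2) = ∑ k, (∑ i, c (i, k) * b i) * b' k := by
    rw [Fintype.sum_prod_type_right]
    refine Finset.sum_congr rfl fun k _ => ?_
    rw [Finset.sum_mul]
    exact Finset.sum_congr rfl fun i _ => by ring
  rw [e]
  refine (hb (fun i => c (i, k)) (fun i => hc _) i).trans ?_
  exact hb' (fun k => ∑ i, c (i, k) * b i)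
    (fun k => F1.sum_mem fun i _ => F1.mul_mem (hF (hc _)) (hbF i)) k

/-- `F1` has an orthonormal basis over `F`. -/
def Good (F F1 : Subfield N) : Prop :=
  ∃ (n : ℕ) (b : Fin n → N), (∀ i, b i ∈ F1) ∧ (∀ i, w (b i) ≤ 1) ∧ ON w F b ∧
    ∀ y ∈ F1, ∃ c : Fin n → N, (∀ i, c i ∈ F) ∧ y = ∑ j, c j * b j

lemma good_of_fintype {ι : Type*} [Fintype ι] {F F1 : Subfield N} (b : ι → N)
    (h1 : ∀ i, b i ∈ F1) (h2 : ∀ i, w (b i) ≤ 1) (h3 : ON w F b)
    (h4 : ∀ y ∈ F1, ∃ c : ι → N, (∀ i, c i ∈ F) ∧ y = ∑ j, c j * b j) : Good w F F1 := by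
  let e := Fintype.equivFin ι
  refine ⟨Fintype.card ι, b ∘ e.symm, fun i => h1 _, fun i => h2 _, ?_, ?_⟩
  · intro c hc i
    have := h3 (c ∘ e) (fun i => hc _) (e.symm i)
    simp only [Function.comp_apply, Equiv.apply_symm_apply] at this
    refine this.trans (le_of_eq ?_)
    congr 1
    refine Fintype.sum_equiv e _ _ fun j => ?_
    simp
  · intro y hy
    obtain ⟨c, hc, hy⟩ := h4 y hy
    refine ⟨c ∘ e.symm, fun i => hc _, ?_⟩
    rw [hy]
    refine Fintype.sum_equiv e _ _ fun j => ?_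
    simp

lemma good_trans {F F1 F2 : Subfield N} (hF : F ≤ F1) (hF1 : F1 ≤ F2) (h : Good w F F1)
    (h' : Good w F1 F2) : Good w F F2 := by
  obtain ⟨n, b, hb1, hb2, hb3, hb4⟩ := h
  obtain ⟨m, b', hb1', hb2', hb3', hb4'⟩ := h'
  refine good_of_fintype w (fun x : Fin n × Fin m => b x.1 * b' x.2)
    (fun x => F2.mul_mem (hF1 (hb1 _)) (hb1' _))
    (fun x => by rw [map_mul]; exact mul_le_one' (hb2 _) (hb2' _))
    (on_mul w b b' hb3 hb3' hF hb1) ?_
  intro y hy
  obtain ⟨c', hc', hy'⟩ := hb4' y hy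
  choose c hc hcy using fun k => hb4 (c' k) (hc' k)
  refine ⟨fun x => c x.2 x.1, fun x => hc _ _, ?_⟩
  rw [hy', Fintype.sum_prod_type_right]
  refine Finset.sum_congr rfl fun k _ => ?_
  rw [hcy k, Finset.sum_mul]
  exact Finset.sum_congr rfl fun i _ => by ring

/-! ### powers of an element -/

section powers

variable (p : ℕ) [Fact p.Prime]

/-- the polynomial of residues -/
noncomputable def resPoly {n : ℕ} (c : Fin n → N) : (kap w)[X] := ∑ i : Fin n, C (r w (c i)) * X ^ (i : ℕ)

lemma resPoly_eval {n : ℕ} (c : Fin n → N) (hc : ∀ i, w (c i) ≤ 1) {b : N} (hb : w b ≤ 1) :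
    (resPoly w c).eval (r w b) = r w (∑ i, c i * b ^ (i : ℕ)) := by
  rw [r_sum w _ _ (fun i _ => by rw [map_mul]; exact mul_le_one' (hc i) (pow_le_one_w w hb _)),
    resPoly, eval_finsetSum]
  refine Finset.sum_congr rfl fun i _ => ?_
  rw [r_mul w (hc i) (pow_le_one_w w hb _), r_pow w hb, eval_mul, eval_C, eval_pow, eval_X]

lemma resPoly_coeff {n : ℕ} (c : Fin n → N) (i : Fin n) : (resPoly w c).coeff i = r w (c i) := by
  classical
  rw [resPoly, finsetSum_coeff, Finset.sum_eq_single i]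
  · simp
  · intro j _ hj
    rw [coeff_C_mul, coeff_X_pow, if_neg, mul_zero]
    intro h
    exact hj (Fin.ext h.symm)
  · simp

lemma resPoly_degree {n : ℕ} (c : Fin n → N) : (resPoly w c).degree < n := by
  rw [← mem_degreeLT, resPoly]
  refine Submodule.sum_mem _ fun i _ => ?_
  rw [mem_degreeLT]
  refine (degree_C_mul_X_pow_le _ _).trans_lt ?_
  exact_mod_cast i.2

/-- purely inseparable residue: if `b ^ p` is congruent to an element of `F` whose residue is
not a `p`-th power, then the powers of `b` are orthonormal over `F`. -/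
lemma on_insep (F : Subfield N) {b E : N} (hE : E ∈ F) (hE1 : w E ≤ 1)
    (hb : w (b ^ p - E) < 1) (hno : ∀ y ∈ F, ¬ w (E - y ^ p) < 1) :
    ON w F (fun i : Fin p => b ^ (i : ℕ)) := by
  have hprime := (Fact.out : p.Prime)
  have hbp : w (b ^ p) ≤ 1 := by
    have := le_add w hb.le hE1
    simpa using this
  have hb1 : w b ≤ 1 := by
    rw [map_pow] at hbp
    exact (pow_le_one_iff hprime.ne_zero).1 hbp
  have hrb : r w b ^ p = r w E := by
    rw [← r_pow w hb1, r_eq w hbp hE1]; exact hb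
  let K := resF w F
  let a : K := ⟨r w E, r_mem_resF w hE hE1⟩
  have hirr : Irreducible (X ^ p - C a : K[X]) := by
    refine X_pow_sub_C_irreducible_of_prime hprime ?_
    rintro ⟨z, y, hy, hy1, rfl⟩ hz
    have hz' : r w y ^ p = r w E := congrArg Subtype.val hz
    rw [← r_pow w hy1, eq_comm, r_eq w hE1 (pow_le_one_w w hy1 p)] at hz'
    exact hno y hy hz'
  have hmin : minpoly K (r w b) = X ^ p - C a := by
    symm
    refine minpoly.eq_of_irreducible_of_monic hirr ?_ (monic_X_pow_sub_C a hprime.ne_zero)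
    simp only [map_sub, map_pow, aeval_X, aeval_C]
    rw [hrb]
    exact sub_self _
  refine on_of_unit w F _ fun c hc hc1 hlt i => ?_
  let g : K[X] := ∑ i : Fin p, C (⟨r w (c i), r_mem_resF w (hc i) (hc1 i)⟩ : K) * X ^ (i : ℕ)
  have hgmap : g.map (algebraMap K (kap w)) = resPoly w c := by
    simp only [g, Polynomial.map_sum, Polynomial.map_mul, Polynomial.map_C, Polynomial.map_pow,
      Polynomial.map_X]
    rfl
  have hg0 : aeval (r w b) g = 0 := by
    rw [aeval_def, eval₂_eq_eval_map, hgmap, resPoly_eval w c hc1 hb1, r_eq_zero]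
    · exact hlt
    · exact hlt.le
  have hgd : g.degree < p := by
    have := resPoly_degree w c
    rwa [← hgmap, degree_map] at this
  have hg : g = 0 := by
    by_contra hne
    have h1 := minpoly.degree_le_of_ne_zero K (r w b) hne hg0
    rw [hmin, degree_X_pow_sub_C hprime.pos] at h1
    exact absurd (h1.trans_lt hgd) (lt_irrefl _)
  have h3 : (resPoly w c).coeff i = 0 := by
    rw [← hgmap, hg]; simp
  rw [resPoly_coeff, r_eq_zero w (hc1 i)] at h3
  exact h3

/-- Artin-Schreier type: `p` automorphisms fixing `F` moving `b` to `p` elements with distinct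
residues. -/
lemma on_conj (F : Subfield N) {b : N} (hb1 : w b ≤ 1) {n : ℕ} (σ : Fin n → N ≃+* N)
    (hσw : ∀ i y, w (σ i y) = w y) (hσF : ∀ i, ∀ y ∈ F, σ i y = y)
    (hne : ∀ i j, i ≠ j → ¬ w (σ i b - σ j b) < 1) :
    ON w F (fun i : Fin n => b ^ (i : ℕ)) := by
  have hσb : ∀ i, w (σ i b) ≤ 1 := fun i => by rw [hσw]; exact hb1
  refine on_of_unit w F _ fun c hc hc1 hlt i => ?_
  have h0 : resPoly w c = 0 := by
    by_cases hn : n = 0
    · subst hn; exact absurd i.2 (by omega)
    refine eq_zero_of_natDegree_lt_card_of_eval_eq_zero (resPoly w c)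
      (f := fun i : Fin n => r w (σ i b)) ?_ ?_ ?_
    · intro i j hij
      by_contra hne'
      exact hne i j hne' ((r_eq w (hσb i) (hσb j)).1 hij)
    · intro i
      rw [resPoly_eval w c hc1 (hσb i), r_eq_zero]
      · have : ∑ j, c j * (σ i b) ^ (j : ℕ) = σ i (∑ j, c j * b ^ (j : ℕ)) := by
          rw [map_sum]
          refine Finset.sum_congr rfl fun j _ => ?_
          rw [map_mul, map_pow, hσF i _ (hc j)]
        rw [this, hσw]; exact hlt
      · exact le_sum w _ _ fun j _ => by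
          rw [map_mul]; exact mul_le_one' (hc1 j) (pow_le_one_w w (hσb i) _)
    · rw [Fintype.card_fin]
      by_cases hz : resPoly w c = 0
      · rw [hz, natDegree_zero]; omega
      · exact (natDegree_lt_iff_degree_lt hz).2 (resPoly_degree w c)
  have h3 : (resPoly w c).coeff i = 0 := by rw [h0]; simp
  rw [resPoly_coeff, r_eq_zero w (hc1 i)] at h3
  exact h3

end powers

/-! ### the binomial theorem -/

section binom

variable (p : ℕ) [hpp : Fact p.Prime]

lemma add_pow_p {a b : N} {R : ℝ≥0} (ha : w a ^ p ≤ R) (hb : w b ^ p ≤ R) :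
    w ((a + b) ^ p - (a ^ p + b ^ p)) ≤ w (p : N) * R := by
  rw [add_pow_prime_eq' hpp.out]
  have e : a ^ p + b ^ p + p * ∑ k ∈ Finset.Ioo 0 p, a ^ k * b ^ (p - k) * ((p.choose k / p : ℕ) : N)
      - (a ^ p + b ^ p) =
      p * ∑ k ∈ Finset.Ioo 0 p, a ^ k * b ^ (p - k) * ((p.choose k / p : ℕ) : N) := by ring
  rw [e, map_mul]
  refine mul_le_mul_right ?_ _
  refine le_sum w _ _ fun k hk => ?_
  rw [Finset.mem_Ioo] at hk
  rw [map_mul, map_mul, map_pow, map_pow]
  have h1 : w a ^ k * w b ^ (p - k) ≤ (max (w a) (w b)) ^ p := by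
    calc w a ^ k * w b ^ (p - k) ≤ (max (w a) (w b)) ^ k * (max (w a) (w b)) ^ (p - k) := by
          gcongr
          · exact le_max_left _ _
          · exact le_max_right _ _
      _ = (max (w a) (w b)) ^ p := by rw [← pow_add]; congr 1; omega
  have h2 : (max (w a) (w b)) ^ p ≤ R := by
    rcases le_total (w a) (w b) with h | h
    · rw [max_eq_right h]; exact hb
    · rw [max_eq_left h]; exact ha
  calc w a ^ k * w b ^ (p - k) * w ((p.choose k / p : ℕ) : N) ≤ R * 1 :=
        mul_le_mul' (h1.trans h2) (natCast_le_one w _)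
    _ = R := mul_one R

lemma pow_le_of_sum {α : Type*} (s : Finset α) (a : α → N) {R : ℝ≥0} 
    (h : ∀ i ∈ s, w (a i) ^ p ≤ R) : w (∑ i ∈ s, a i) ^ p ≤ R := by
  classical
  rcases s.eq_empty_or_nonempty with h0 | h0
  · rw [h0, Finset.sum_empty, map_zero, zero_pow hpp.out.ne_zero]; exact zero_le
  · obtain ⟨i0, hi0, hm⟩ := Finset.exists_max_image s (fun i => w (a i)) h0
    exact (pow_le_pow_left' (le_sum w s a hm) p).trans (h i0 hi0)

lemma sum_pow_p {α : Type*} (s : Finset α) (a : α → N) {R : ℝ≥0} 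
    (h : ∀ i ∈ s, w (a i) ^ p ≤ R) :
    w ((∑ i ∈ s, a i) ^ p - ∑ i ∈ s, a i ^ p) ≤ w (p : N) * R := by
  classical
  induction s using Finset.induction_on with
  | empty => simp [hpp.out.ne_zero]
  | insert x s hx ih =>
    rw [Finset.sum_insert hx, Finset.sum_insert hx]
    have h' : ∀ i ∈ s, w (a i) ^ p ≤ R := fun i hi => h i (Finset.mem_insert_of_mem hi)
    have h1 := add_pow_p w p (h x (Finset.mem_insert_self x s)) (pow_le_of_sum w p s a h')
    have h2 := ih h'
    have := le_add w h1 h2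
    convert this using 2
    ring

/-- `(1 + z) ^ p` for small `z`. -/
lemma one_add_pow {z : N} (hz : w z ≤ 1) :
    w ((1 + z) ^ p - (1 + z ^ p)) ≤ w (p : N) * w z := by
  rw [add_comm (1 : N) z, add_pow_prime_eq' hpp.out]
  have e : z ^ p + 1 ^ p + p * ∑ k ∈ Finset.Ioo 0 p, z ^ k * 1 ^ (p - k) * ((p.choose k / p : ℕ) : N)
      - (1 + z ^ p) =
      p * ∑ k ∈ Finset.Ioo 0 p, z ^ k * ((p.choose k / p : ℕ) : N) := by
    simp only [one_pow, mul_one]; ring
  rw [e, map_mul]
  refine mul_le_mul_right ?_ _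
  refine le_sum w _ _ fun k hk => ?_
  rw [Finset.mem_Ioo] at hk
  rw [map_mul, map_pow]
  calc w z ^ k * w ((p.choose k / p : ℕ) : N) ≤ w z ^ 1 * 1 :=
        mul_le_mul' (pow_le_pow_right_of_le_one' hz (by omega)) (natCast_le_one w _)
    _ = w z := by rw [mul_one, pow_one]

/-- the Artin-Schreier expansion. -/
lemma as_expand {c0 Z : N} (hc0 : c0 ^ (p - 1) = -p) (hne : c0 ≠ 0) (hc1 : w c0 < 1)
    (hZ : w c0 * w Z ^ 2 < 1) :
    w ((1 + c0 * Z) ^ p - (1 + c0 ^ p * (Z ^ p - Z))) < w c0 ^ p := by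
  have hp := hpp.out
  have hpos : 0 < w c0 := by
    rw [pos_iff_ne_zero]; exact (Valuation.ne_zero_iff w).2 hne
  have hcp : c0 ^ p = -(p * c0) := by
    obtain ⟨m, hm⟩ : ∃ m, p = m + 1 := ⟨p - 1, by have := hp.pos; omega⟩
    have : c0 ^ p = c0 ^ (p - 1) * c0 := by
      rw [← pow_succ]; congr 1; have := hp.pos; omega
    rw [this, hc0]; ring
  have hwp : w (p : N) = w c0 ^ (p - 1) := by
    rw [← map_pow, hc0, Valuation.map_neg]
  rw [add_comm (1 : N) (c0 * Z), add_pow_prime_eq' hp]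
  have hsplit : Finset.Ioo 0 p = insert 1 (Finset.Ioo 1 p) := by
    ext k
    simp only [Finset.mem_Ioo, Finset.mem_insert]
    have := hp.one_lt
    omega
  have h1 : (p.choose 1 / p : ℕ) = 1 := by
    rw [Nat.choose_one_right]; exact Nat.div_self hp.pos
  have e : (c0 * Z) ^ p + 1 ^ p +
      p * ∑ k ∈ Finset.Ioo 0 p, (c0 * Z) ^ k * 1 ^ (p - k) * ((p.choose k / p : ℕ) : N)
      - (1 + c0 ^ p * (Z ^ p - Z)) =
      p * ∑ k ∈ Finset.Ioo 1 p, (c0 * Z) ^ k * ((p.choose k / p : ℕ) : N) := by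
    rw [hsplit, Finset.sum_insert (by simp), h1]
    simp only [one_pow, mul_one, pow_one, Nat.cast_one]
    rw [mul_add, mul_sub, mul_pow]
    have : c0 ^ p * Z = -(p * (c0 * Z)) := by rw [hcp]; ring
    rw [this]; ring
  rw [e, map_mul, hwp]
  have hpp' : w c0 ^ p = w c0 ^ (p - 1) * w c0 := by
    rw [← pow_succ]; congr 1; have := hp.pos; omega
  rw [hpp']
  refine mul_lt_mul_of_pos_left ?_ (pow_pos hpos _)
  refine lt_sum w _ _ hpos fun k hk => ?_
  rw [Finset.mem_Ioo] at hk
  rw [map_mul, map_pow, map_mul]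
  have h2 : (w c0 * w Z) ^ 2 < w c0 := by
    calc (w c0 * w Z) ^ 2 = w c0 * (w c0 * w Z ^ 2) := by ring
      _ < w c0 * 1 := mul_lt_mul_of_pos_left hZ hpos
      _ = w c0 := mul_one _
  have h3 : w c0 * w Z ≤ 1 := by
    by_contra h
    rw [not_le] at h
    have : 1 < (w c0 * w Z) ^ 2 := one_lt_pow₀ h (by norm_num)
    exact absurd (this.trans h2) (not_lt.2 hc1.le)
  calc (w c0 * w Z) ^ k * w ((p.choose k / p : ℕ) : N) ≤ (w c0 * w Z) ^ 2 * 1 :=
        mul_le_mul' (pow_le_pow_right_of_le_one' h3 (by omega)) (natCast_le_one w _)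
    _ < w c0 := by rw [mul_one]; exact h2

end binom

end Crest.Agent.R013.Stab2_460
end

-- ▼ part R013/Stab3_460

/-!
# STAB, part 3: `p`-th powers in a finite extension `F` (with an orthonormal basis) of `H ⊇ C(x)`
-/

namespace Crest.Agent.R013.Stab3_460

open Polynomial Crest.Agent.R013.Stab2_460
open scoped NNReal

variable {N : Type*} [Field N] (w : Valuation N ℝ≥0) (p : ℕ)

/-- the Gauss point situation. -/
structure Setup (C H : Subfield N) (x : N) : Prop where
  hp : w (p : N) < 1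
  alg : IsAlgClosed C
  CH : C ≤ H
  xH : x ∈ H
  x1 : w x ≤ 1
  gauss : ∀ (f : C[X]) (i : ℕ), w (f.coeff i : N) ≤ w (aeval x f)
  dense : ∀ h ∈ H, ∀ ε : ℝ≥0, 0 < ε → ∃ f g : C[X], g ≠ 0 ∧ w (h - aeval x f / aeval x g) < ε

/-- what is needed about an intermediate field `F` for the Kummer step. -/
structure PData (F : Subfield N) (n : ℕ) (t : Fin (n + 1) → N) (γ : ℝ≥0) : Prop where
  γ1 : γ < 1
  pγ : w (p : N) ≤ γ
  t0 : t 0 = 1
  tF : ∀ i, t i ∈ F
  t1 : ∀ i, w (t i) ≤ 1
  P1 : ∀ z : Fin (n + 1) → N, (∀ i, z i ∈ F) → ∀ i, w (z i) ^ p ≤ w (∑ i, t i * z i ^ p)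
  S1 : ∀ u ∈ F, ∃ z : Fin (n + 1) → N, (∀ i, z i ∈ F) ∧ w (u - ∑ i, t i * z i ^ p) ≤ γ * w u
  II : ∀ R : ℝ≥0, 1 ≤ R → R ^ p * γ < 1 → ∀ U ∈ F, w U ≤ R ^ p →
    ∃ W ∈ F, ∃ y : Fin n → N, (∀ i, y i ∈ F) ∧ w W ≤ R ∧
      w (U + W - W ^ p - ∑ i : Fin n, t i.succ * y i ^ p) < 1

lemma exists_bound {α : Type*} [Fintype α] (a : α → ℝ≥0) (h : ∀ i, a i < 1) (c : ℝ≥0)
    (hc : c < 1) : ∃ γ < 1, c ≤ γ ∧ ∀ i, a i ≤ γ := by
  classical
  refine ⟨max c (Finset.univ.sup a), max_lt hc ?_, le_max_left _ _, fun i =>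
    le_max_of_le_right (Finset.le_sup (f := a) (Finset.mem_univ i))⟩
  rw [Finset.sup_lt_iff (by simp)]
  exact fun i _ => h i

lemma pow_sub_pow_lt {a b : N} (ha : w a ≤ 1) (hb : w b ≤ 1) (h : w (a - b) < 1) (n : ℕ) :
    w (a ^ n - b ^ n) < 1 := by
  rw [← r_eq w (pow_le_one_w w ha n) (pow_le_one_w w hb n), r_pow w ha, r_pow w hb,
    (r_eq w ha hb).2 h]

section

variable {w p} {C H : Subfield N} {x : N} (S : Setup w p C H x)
include S

lemma aeval_le {f : C[X]} {R : ℝ≥0} (h : ∀ i, w (f.coeff i : N) ≤ R) : w (aeval x f) ≤ R := by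
  rw [aeval_eq_sum_range]
  refine le_sum w _ _ fun i _ => ?_
  have : (f.coeff i • x ^ i : N) = (f.coeff i : N) * x ^ i := rfl
  rw [this, map_mul]
  calc w (f.coeff i : N) * w (x ^ i) ≤ R * 1 := mul_le_mul' (h i) (pow_le_one_w w S.x1 i)
    _ = R := mul_one R

lemma aeval_mem (f : C[X]) : aeval x f ∈ H := by
  rw [aeval_eq_sum_range]
  refine H.sum_mem fun i _ => ?_
  have : (f.coeff i • x ^ i : N) = (f.coeff i : N) * x ^ i := rfl
  rw [this]
  exact H.mul_mem (S.CH (f.coeff i).2) (H.pow_mem S.xH i)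

lemma exists_coeff {f : C[X]} (hf : f ≠ 0) :
    ∃ i, f.coeff i ≠ 0 ∧ w (aeval x f) = w (f.coeff i : N) := by
  classical
  obtain ⟨i0, hi0, hm⟩ := Finset.exists_max_image f.support (fun i => w (f.coeff i : N))
    (nonempty_support_iff.2 hf)
  refine ⟨i0, mem_support_iff.1 hi0, le_antisymm (aeval_le S fun i => ?_) (S.gauss f i0)⟩
  by_cases hi : i ∈ f.support
  · exact hm i hi
  · rw [notMem_support_iff.1 hi]; simp

lemma aeval_ne_zero {f : C[X]} (hf : f ≠ 0) : aeval x f ≠ 0 := by
  obtain ⟨i, hi, h⟩ := exists_coeff S hf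
  rw [← w.ne_zero_iff, h, w.ne_zero_iff]
  intro h0
  exact hi (Subtype.ext h0)

lemma value_H {h : N} (hH : h ∈ H) (h0 : h ≠ 0) : ∃ c : C, c ≠ 0 ∧ w h = w (c : N) := by
  obtain ⟨f, g, hg, hfg⟩ := S.dense h hH (w h) (pos_iff_ne_zero.2 (w.ne_zero_iff.2 h0))
  have hw : w (aeval x f / aeval x g) = w h := by
    have := Valuation.map_sub_eq_of_lt_left w hfg
    rw [← this]
    congr 1; ring
  have hf : f ≠ 0 := by
    rintro rfl
    rw [map_zero, zero_div, map_zero] at hw
    exact (w.ne_zero_iff.2 h0) hw.symm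
  obtain ⟨i, hi, hfi⟩ := exists_coeff S hf
  obtain ⟨j, hj, hgj⟩ := exists_coeff S hg
  refine ⟨f.coeff i / g.coeff j, div_ne_zero hi hj, ?_⟩
  rw [← hw, map_div₀, hfi, hgj]
  push_cast
  rw [map_div₀]

lemma approx_common {J : Type*} [Fintype J] (h : J → N) (hH : ∀ j, h j ∈ H) {ε : ℝ≥0}
    (hε : 0 < ε) : ∃ (f : J → C[X]) (g : C[X]), w (aeval x g) = 1 ∧
      ∀ j, w (h j - aeval x (f j) / aeval x g) < ε := by
  classical
  choose f g hg hfg using fun j => S.dense (h j) (hH j) ε hε
  set G : C[X] := ∏ j, g j with hG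
  have hG0 : G ≠ 0 := Finset.prod_ne_zero_iff.2 fun j _ => hg j
  obtain ⟨i, hi, hGi⟩ := exists_coeff S hG0
  have hi' : (G.coeff i : N) ≠ 0 := fun h => hi (Subtype.ext h)
  refine ⟨fun j => Polynomial.C (G.coeff i)⁻¹ * (f j * ∏ k ∈ Finset.univ.erase j, g k),
    Polynomial.C (G.coeff i)⁻¹ * G, ?_, fun j => ?_⟩
  · rw [map_mul, aeval_C, map_mul, hGi]
    have : (algebraMap C N (G.coeff i)⁻¹) = (G.coeff i : N)⁻¹ := rfl
    rw [this, map_inv₀, inv_mul_cancel₀ (w.ne_zero_iff.2 hi')]
  · have e : aeval x (Polynomial.C (G.coeff i)⁻¹ * (f j * ∏ k ∈ Finset.univ.erase j, g k)) /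
        aeval x (Polynomial.C (G.coeff i)⁻¹ * G) = aeval x (f j) / aeval x (g j) := by
      have hGj : G = g j * ∏ k ∈ Finset.univ.erase j, g k := by
        rw [hG]; exact (Finset.mul_prod_erase _ _ (Finset.mem_univ j)).symm
      rw [hGj]
      have h1 : aeval x (∏ k ∈ Finset.univ.erase j, g k) ≠ 0 :=
        aeval_ne_zero S (Finset.prod_ne_zero_iff.2 fun k _ => hg k)
      have h2 : aeval x (g j) ≠ 0 := aeval_ne_zero S (hg j)
      have h3 : aeval x (Polynomial.C ((g j * ∏ k ∈ Finset.univ.erase j, g k).coeff i)⁻¹ : C[X]) ≠ 0 := by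
        rw [← hGj]
        exact aeval_ne_zero S (by rw [Ne, C_eq_zero]; exact inv_ne_zero hi)
      have key : ∀ k a b c : N, k ≠ 0 → b ≠ 0 → c ≠ 0 → k * (a * c) / (k * (b * c)) = a / b := by
        intro k a b c hk hb hc
        field_simp
      rw [map_mul, map_mul, map_mul (aeval x) (Polynomial.C _) (g j * _), map_mul (aeval x) (g j)]
      exact key _ _ _ _ h3 h2 h1
    rw [e]
    exact hfg j

omit S in
lemma sum_range_mul (p k : ℕ) (a : ℕ → N) :
    ∑ m ∈ Finset.range (p * k), a m = ∑ s ∈ Finset.range k, ∑ l ∈ Finset.range p, a (p * s + l) := by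
  induction k with
  | zero => simp
  | succ k ih => rw [Nat.mul_succ, Finset.sum_range_add, ih, Finset.sum_range_succ]

/-- decomposition of polynomials. -/
lemma poly_decomp [hpp : Fact p.Prime] (f : C[X]) {R : ℝ≥0} (hR : ∀ i, w (f.coeff i : N) ≤ R) :
    ∃ u : ℕ → C[X], (∀ l i, w ((u l).coeff i : N) ^ p ≤ R) ∧
      (∀ l, (u l).natDegree ≤ f.natDegree / p) ∧
      w (aeval x f - ∑ l ∈ Finset.range p, x ^ l * (aeval x (u l)) ^ p) ≤ w (p : N) * R := by
  classical
  have := S.alg
  have hp0 : 0 < p := hpp.out.pos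
  choose rt hrt using fun c : C => IsAlgClosed.exists_pow_nat_eq c hp0
  set n := f.natDegree with hn
  let u : ℕ → C[X] := fun l => ∑ s ∈ Finset.range (n / p + 1), Polynomial.C (rt (f.coeff (p * s + l))) * X ^ s
  have hrtle : ∀ m, w (rt (f.coeff m) : N) ^ p ≤ R := by
    intro m
    rw [← map_pow]
    have : ((rt (f.coeff m) : C) : N) ^ p = (f.coeff m : N) := by
      rw [← SubmonoidClass.coe_pow, hrt]
    rw [this]; exact hR m
  have hcoeff : ∀ l i, (u l).coeff i = if i ∈ Finset.range (n / p + 1) then rt (f.coeff (p * i + l)) else 0 := by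
    intro l i
    simp only [u, finsetSum_coeff, coeff_C_mul, coeff_X_pow, mul_ite, mul_one, mul_zero]
    rw [Finset.sum_ite_eq]
  refine ⟨u, fun l i => ?_, fun l => ?_, ?_⟩
  · rw [hcoeff]
    split_ifs
    · exact hrtle _
    · simp [hp0.ne']
  · refine natDegree_sum_le_of_forall_le _ _ fun s hs => ?_
    refine (natDegree_C_mul_X_pow_le _ _).trans ?_
    rw [Finset.mem_range] at hs
    omega
  · have hu : ∀ l, aeval x (u l) =
        ∑ s ∈ Finset.range (n / p + 1), (rt (f.coeff (p * s + l)) : N) * x ^ s := by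
      intro l
      simp only [u, map_sum, map_mul, aeval_C, map_pow, aeval_X]
      rfl
    have hf : aeval x f = ∑ l ∈ Finset.range p, x ^ l *
        ∑ s ∈ Finset.range (n / p + 1), ((rt (f.coeff (p * s + l)) : N) * x ^ s) ^ p := by
      have h1 : n < p * (n / p + 1) := by
        have := Nat.lt_mul_div_succ n hp0
        omega
      rw [aeval_eq_sum_range' h1, sum_range_mul, Finset.sum_comm]
      refine Finset.sum_congr rfl fun l _ => ?_
      rw [Finset.mul_sum]
      refine Finset.sum_congr rfl fun s _ => ?_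
      have h2 : ((rt (f.coeff (p * s + l)) : C) : N) ^ p = (f.coeff (p * s + l) : N) := by
        rw [← SubmonoidClass.coe_pow, hrt]
      have h3 : (f.coeff (p * s + l) • x ^ (p * s + l) : N) =
        (f.coeff (p * s + l) : N) * x ^ (p * s + l) := rfl
      rw [mul_pow, h2, h3, ← pow_mul, pow_add, mul_comm p s]
      ring
    rw [hf, ← Finset.sum_sub_distrib]
    refine le_sum w _ _ fun l _ => ?_
    rw [← mul_sub, map_mul, hu]
    have h4 := sum_pow_p w p (Finset.range (n / p + 1))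
      (fun s => (rt (f.coeff (p * s + l)) : N) * x ^ s) (R := R) (fun s _ => by
        rw [map_mul, mul_pow]
        calc w (rt (f.coeff (p * s + l)) : N) ^ p * w (x ^ s) ^ p ≤ R * 1 :=
              mul_le_mul' (hrtle _) (pow_le_one' (pow_le_one_w w S.x1 s) p)
          _ = R := mul_one R)
    rw [Valuation.map_sub_swap] at h4
    calc w (x ^ l) * _ ≤ 1 * (w (p : N) * R) := mul_le_mul' (pow_le_one_w w S.x1 l) h4
      _ = _ := one_mul _

/-- decomposition of elements of `H`. -/
lemma S1_H [hpp : Fact p.Prime] (hp0 : (p : N) ≠ 0) {h : N} (hH : h ∈ H) :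
    ∃ y : ℕ → N, (∀ l, y l ∈ H) ∧ (∀ l, w (y l) ^ p ≤ w h) ∧
      w (h - ∑ l ∈ Finset.range p, x ^ l * (y l) ^ p) ≤ w (p : N) * w h := by
  classical
  by_cases h0 : h = 0
  · refine ⟨fun _ => 0, fun _ => H.zero_mem, fun _ => ?_, ?_⟩
    · simp [hpp.out.ne_zero]
    · simp [h0, hpp.out.ne_zero]
  have hpos : 0 < w (p : N) * w h :=
    mul_pos (pos_iff_ne_zero.2 (w.ne_zero_iff.2 hp0)) (pos_iff_ne_zero.2 (w.ne_zero_iff.2 h0))
  obtain ⟨f, g, hg, hfg⟩ := approx_common S (fun _ : Unit => h) (fun _ => hH) hpos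
  have hfg := hfg ()
  set f := f () with hf
  have hlt : w (p : N) * w h < w h := by
    calc w (p : N) * w h < 1 * w h :=
          mul_lt_mul_of_pos_right S.hp (pos_iff_ne_zero.2 (w.ne_zero_iff.2 h0))
      _ = w h := one_mul _
  have hw : w (aeval x f) = w h := by
    have h1 := Valuation.map_sub_eq_of_lt_left w (hfg.trans hlt)
    have h2 : w (aeval x f / aeval x g) = w h := by
      rw [← h1]; congr 1; ring
    rwa [map_div₀, hg, div_one] at h2
  have hg0 : aeval x g ≠ 0 := by
    intro h; rw [h, map_zero] at hg; exact zero_ne_one hg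
  obtain ⟨u, hu1, -, hu2⟩ := poly_decomp S (f * g ^ (p - 1)) (R := w h) (fun i => by
    refine (S.gauss _ i).trans (le_of_eq ?_)
    rw [map_mul, map_mul, map_pow, map_pow, hg, one_pow, mul_one, hw])
  have hu3 : ∀ l, w (aeval x (u l)) ^ p ≤ w h := by
    intro l
    rw [aeval_eq_sum_range]
    refine pow_le_of_sum w p _ _ fun i _ => ?_
    have : ((u l).coeff i • x ^ i : N) = ((u l).coeff i : N) * x ^ i := rfl
    rw [this, map_mul, mul_pow]
    calc w ((u l).coeff i : N) ^ p * w (x ^ i) ^ p ≤ w h * 1 :=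
          mul_le_mul' (hu1 l i) (pow_le_one' (pow_le_one_w w S.x1 i) p)
      _ = w h := mul_one _
  refine ⟨fun l => aeval x (u l) / aeval x g,
    fun l => H.div_mem (aeval_mem S _) (aeval_mem S _), fun l => ?_, ?_⟩
  · rw [map_div₀, hg, div_one]; exact hu3 l
  · have e : h - ∑ l ∈ Finset.range p, x ^ l * (aeval x (u l) / aeval x g) ^ p =
        (h - aeval x f / aeval x g) + (aeval x (f * g ^ (p - 1)) -
          ∑ l ∈ Finset.range p, x ^ l * (aeval x (u l)) ^ p) / (aeval x g) ^ p := by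
      have h1 : aeval x f / aeval x g = aeval x (f * g ^ (p - 1)) / (aeval x g) ^ p := by
        rw [map_mul, map_pow, div_eq_div_iff hg0 (pow_ne_zero _ hg0), mul_assoc, ← pow_succ]
        congr 2
        have := hpp.out.pos; omega
      have h2 : ∑ l ∈ Finset.range p, x ^ l * (aeval x (u l) / aeval x g) ^ p =
          (∑ l ∈ Finset.range p, x ^ l * (aeval x (u l)) ^ p) / (aeval x g) ^ p := by
        rw [Finset.sum_div]
        exact Finset.sum_congr rfl fun l _ => by rw [div_pow]; ring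
      rw [h1, h2, sub_div]; ring
    rw [e]
    refine le_add w hfg.le ?_
    rw [map_div₀, map_pow, hg, one_pow, div_one]
    exact hu2

end

end Crest.Agent.R013.Stab3_460
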