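import Mathlib
import Crest.Agent.R013.Stab3_460
import Crest.Agent.R013.StabD_83
import Crest.Agent.R013.StabG_83
import Crest.Agent.R013.LU5_935
import Crest.Agent.R013.PL1_109

-- ▼ part R013/Stab4_460
section

/-!
# STAB, part 4: the data `PData` exists for a finite extension `F` of `H` with an orthonormal basis
-/

namespace Crest.Agent.R013.Stab4_460

open Polynomial Crest.Agent.R013.Stab2_460 Crest.Agent.R013.Stab3_460
open scoped NNReal

variable {N : Type*} [Field N] (w : Valuation N ℝ≥0) (p : ℕ)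

/-- a finite family containing `1` whose residues span over `p`-th powers. -/
structure Fam (F : Subfield N) (n : ℕ) (t : Fin (n + 1) → N) : Prop where
  t0 : t 0 = 1
  tF : ∀ i, t i ∈ F
  t1 : ∀ i, w (t i) ≤ 1
  P2 : ∀ u ∈ F, w u ≤ 1 → ∃ z : Fin (n + 1) → N, (∀ i, z i ∈ F) ∧ (∀ i, w (z i) ≤ 1) ∧
    w (u - ∑ i, t i * z i ^ p) < 1

variable {w p}

/-- If `P1` fails, the family can be shortened. -/
lemma fam_shorten [hpp : Fact p.Prime] (hp : w (p : N) < 1) {F : Subfield N}
    {ξ : N} (hξF : ξ ∈ F) (hξ : ξ ^ p = -1) {n : ℕ} {t : Fin (n + 1) → N} (T : Fam w p F n t)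
    (z : Fin (n + 1) → N) (hz : ∀ i, z i ∈ F) (i : Fin (n + 1))
    (hi : w (∑ i, t i * z i ^ p) < w (z i) ^ p) : ∃ n' < n, ∃ t' : Fin (n' + 1) → N, Fam w p F n' t' := by
  classical
  obtain ⟨i0, -, hi0⟩ := Finset.exists_max_image Finset.univ (fun i => w (z i))
    ⟨i, Finset.mem_univ i⟩
  have hmax : ∀ j, w (z j) ≤ w (z i0) := fun j => hi0 j (Finset.mem_univ j)
  have hprime := hpp.out
  have hlt : w (∑ i, t i * z i ^ p) < w (z i0) ^ p := hi.trans_le (pow_le_pow_left' (hmax i) p)
  have hpos : 0 < w (z i0) := by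
    by_contra h
    have : w (z i0) = 0 := le_antisymm (not_lt.1 h) zero_le
    rw [this, zero_pow hprime.ne_zero] at hlt
    exact not_lt_zero hlt
  -- an index `s ≠ 0` with maximal value
  obtain ⟨s, hs0, hs⟩ : ∃ s, s ≠ 0 ∧ w (z s) = w (z i0) := by
    by_contra hcon
    push Not at hcon
    have h0 : i0 = 0 := by
      by_contra h
      exact hcon i0 h rfl
    have hrest : w (∑ j : Fin n, t j.succ * z j.succ ^ p) < w (z i0) ^ p := by
      refine lt_sum w _ _ (pow_pos hpos p) fun j _ => ?_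
      rw [map_mul, map_pow]
      calc w (t j.succ) * w (z j.succ) ^ p ≤ 1 * w (z j.succ) ^ p :=
            mul_le_mul' (T.t1 _) le_rfl
        _ = w (z j.succ) ^ p := one_mul _
        _ < w (z i0) ^ p := by
            refine pow_lt_pow_left₀ (lt_of_le_of_ne (hmax _) (hcon _ (Fin.succ_ne_zero j)))
              zero_le hprime.ne_zero
    rw [Fin.sum_univ_succ, T.t0, one_mul] at hlt
    have h1 : w (z 0 ^ p) < w (z i0) ^ p := by
      have := lt_sub w hlt hrest
      simpa using this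
    rw [map_pow, ← h0] at h1
    exact lt_irrefl _ h1
  obtain ⟨n', rfl⟩ : ∃ n', n = n' + 1 := by
    cases n with
    | zero => exact absurd (Fin.ext (by have := s.2; simp only [Fin.val_zero]; omega)) hs0
    | succ n' => exact ⟨n', rfl⟩
  have hzs : z s ≠ 0 := by
    rw [← w.ne_zero_iff, hs]; exact hpos.ne'
  let y : Fin (n' + 1 + 1) → N := fun k => z k / z s
  have hy1 : ∀ k, w (y k) ≤ 1 := fun k => by
    simp only [y]
    rw [map_div₀, hs]; exact (div_le_one hpos).2 (hmax k)
  have hyF : ∀ k, y k ∈ F := fun k => F.div_mem (hz k) (hz s)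
  have hy : w (∑ k, t k * y k ^ p) < 1 := by
    have e : ∑ k, t k * y k ^ p = (∑ k, t k * z k ^ p) / z s ^ p := by
      rw [Finset.sum_div]
      exact Finset.sum_congr rfl fun k _ => by simp only [y]; rw [div_pow]; ring
    rw [e, map_div₀, map_pow, hs]
    exact (div_lt_one (pow_pos hpos p)).2 hlt
  rw [Fin.sum_univ_succAbove _ s] at hy
  have hys : y s = 1 := div_self hzs
  rw [hys, one_pow, mul_one] at hy
  have hw1 : w (-1 : N) = 1 := by rw [Valuation.map_neg, map_one]
  have hξ1 : w ξ ≤ 1 := by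
    have : w ξ ^ p = 1 := by rw [← map_pow, hξ, hw1]
    exact (pow_le_one_iff hprime.ne_zero).1 this.le
  refine ⟨n', Nat.lt_succ_self _, fun j => t (s.succAbove j), ?_, fun j => T.tF _,
    fun j => T.t1 _, ?_⟩
  · rw [Fin.succAbove_ne_zero_zero hs0, T.t0]
  · intro u hu hu1
    obtain ⟨z', hz'F, hz'1, hz'⟩ := T.P2 u hu hu1
    rw [Fin.sum_univ_succAbove _ s] at hz'
    refine ⟨fun j => z' (s.succAbove j) + ξ * y (s.succAbove j) * z' s,
      fun j => F.add_mem (hz'F _) (F.mul_mem (F.mul_mem hξF (hyF _)) (hz'F _)),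
      fun j => ?_, ?_⟩
    · refine le_add w (hz'1 _) ?_
      rw [map_mul, map_mul]
      exact mul_le_one' (mul_le_one' hξ1 (hy1 _)) (hz'1 _)
    · have h1 : w (∑ j, t (s.succAbove j) *
          ((z' (s.succAbove j) + ξ * y (s.succAbove j) * z' s) ^ p -
            (z' (s.succAbove j) ^ p + (ξ * y (s.succAbove j) * z' s) ^ p))) < 1 := by
        refine lt_sum w _ _ one_pos fun j _ => ?_
        rw [map_mul]
        have h2 := add_pow_p w p (R := 1) (pow_le_one' (hz'1 (s.succAbove j)) p)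
          (b := ξ * y (s.succAbove j) * z' s) (pow_le_one' (by
            rw [map_mul, map_mul]
            exact mul_le_one' (mul_le_one' hξ1 (hy1 _)) (hz'1 _)) p)
        rw [mul_one] at h2
        calc _ ≤ 1 * w (p : N) := mul_le_mul' (T.t1 _) h2
          _ < 1 := by rw [one_mul]; exact hp
      have h3 : w ((t s + ∑ j, t (s.succAbove j) * y (s.succAbove j) ^ p) * z' s ^ p) < 1 := by
        rw [map_mul]
        calc _ ≤ w (t s + ∑ j, t (s.succAbove j) * y (s.succAbove j) ^ p) * 1 :=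
              mul_le_mul' le_rfl (pow_le_one_w w (hz'1 s) p)
          _ < 1 := by rw [mul_one]; exact hy
      have h4 := lt_sub w (lt_add w hz' h3) h1
      have e : u - ∑ j, t (s.succAbove j) *
          (z' (s.succAbove j) + ξ * y (s.succAbove j) * z' s) ^ p =
          u - (t s * z' s ^ p + ∑ j, t (s.succAbove j) * z' (s.succAbove j) ^ p) +
          (t s + ∑ j, t (s.succAbove j) * y (s.succAbove j) ^ p) * z' s ^ p -
          ∑ j, t (s.succAbove j) *
          ((z' (s.succAbove j) + ξ * y (s.succAbove j) * z' s) ^ p -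
            (z' (s.succAbove j) ^ p + (ξ * y (s.succAbove j) * z' s) ^ p)) := by
        simp only [mul_sub, mul_add, Finset.sum_sub_distrib, Finset.sum_add_distrib, mul_pow, hξ,
          add_mul, Finset.sum_mul]
        have e1 : ∑ j, t (s.succAbove j) * (-1 * y (s.succAbove j) ^ p * z' s ^ p) =
            - ∑ j, t (s.succAbove j) * y (s.succAbove j) ^ p * z' s ^ p := by
          rw [← Finset.sum_neg_distrib]
          exact Finset.sum_congr rfl fun j _ => by ring
        rw [e1]
        ring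
      rw [e]
      exact h4

/-- A minimal family satisfies `P1`. -/
lemma fam_min [hpp : Fact p.Prime] (hp : w (p : N) < 1) {F : Subfield N}
    {ξ : N} (hξF : ξ ∈ F) (hξ : ξ ^ p = -1) {n : ℕ} {t : Fin (n + 1) → N} (T : Fam w p F n t) :
    ∃ n, ∃ t : Fin (n + 1) → N, Fam w p F n t ∧
      ∀ z : Fin (n + 1) → N, (∀ i, z i ∈ F) → ∀ i, w (z i) ^ p ≤ w (∑ i, t i * z i ^ p) := by
  classical
  have hex : ∃ n, ∃ t : Fin (n + 1) → N, Fam w p F n t := ⟨n, t, T⟩
  obtain ⟨t', T'⟩ := Nat.find_spec hex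
  refine ⟨Nat.find hex, t', T', fun z hz i => ?_⟩
  by_contra h
  rw [not_le] at h
  obtain ⟨n', hn', h'⟩ := fam_shorten hp hξF hξ T' z hz i h
  exact Nat.find_min hex hn' h'

section

variable {C H : Subfield N} {x : N} (S : Setup w p C H x)
include S

/-- existence of a family. -/
lemma fam_exists [hpp : Fact p.Prime] (hp0 : (p : N) ≠ 0) {F : Subfield N} (hHF : H ≤ F)
    {m : ℕ} {b : Fin m → N} (hb1 : ∀ i, b i ∈ F) (hb2 : ∀ i, w (b i) ≤ 1) (hb3 : ON w H b)
    (hb4 : ∀ y ∈ F, ∃ c : Fin m → N, (∀ i, c i ∈ H) ∧ y = ∑ j, c j * b j) :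
    ∃ n, ∃ t : Fin (n + 1) → N, Fam w p F n t := by
  classical
  let e : Fin p × Fin m ≃ Fin (p * m) := finProdFinEquiv
  refine ⟨p * m, Fin.cons 1 (fun i => x ^ ((e.symm i).1 : ℕ) * b (e.symm i).2), rfl, ?_, ?_, ?_⟩
  · intro i
    refine Fin.cases ?_ (fun i => ?_) i
    · exact F.one_mem
    · exact F.mul_mem (F.pow_mem (hHF S.xH) _) (hb1 _)
  · intro i
    refine Fin.cases ?_ (fun i => ?_) i
    · exact (map_one w).le
    · rw [Fin.cons_succ, map_mul]
      exact mul_le_one' (pow_le_one_w w S.x1 _) (hb2 _)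
  · intro u hu hu1
    obtain ⟨a, haH, rfl⟩ := hb4 u hu
    have ha1 : ∀ j, w (a j) ≤ 1 := fun j => (hb3 a haH j).trans hu1
    choose y hyH hy1 hy2 using fun j => S1_H S hp0 (haH j)
    have hy1' : ∀ j l, w (y j l) ≤ 1 := fun j l =>
      (pow_le_one_iff hpp.out.ne_zero).1 ((hy1 j l).trans (ha1 j))
    refine ⟨Fin.cons 0 (fun i => y (e.symm i).2 (e.symm i).1), ?_, ?_, ?_⟩
    · intro i
      refine Fin.cases ?_ (fun i => ?_) i
      · exact F.zero_mem
      · exact hHF (hyH _ _)
    · intro i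
      refine Fin.cases ?_ (fun i => ?_) i
      · rw [Fin.cons_zero, map_zero]; exact zero_le
      · rw [Fin.cons_succ]; exact hy1' _ _
    · have e1 : ∑ i, (Fin.cons 1 (fun i => x ^ ((e.symm i).1 : ℕ) * b (e.symm i).2) :
          Fin (p * m + 1) → N) i * (Fin.cons 0 (fun i => y (e.symm i).2 (e.symm i).1) :
          Fin (p * m + 1) → N) i ^ p =
          ∑ j, (∑ l ∈ Finset.range p, x ^ l * y j l ^ p) * b j := by
        rw [Fin.sum_univ_succ]
        simp only [Fin.cons_zero, Fin.cons_succ, zero_pow hpp.out.ne_zero, mul_zero, zero_add]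
        rw [← Equiv.sum_comp e]
        simp only [Equiv.symm_apply_apply]
        rw [Fintype.sum_prod_type_right]
        refine Finset.sum_congr rfl fun j _ => ?_
        rw [Finset.sum_range (fun l => x ^ l * y j l ^ p), Finset.sum_mul]
        exact Finset.sum_congr rfl fun l _ => by ring
      rw [e1, ← Finset.sum_sub_distrib]
      refine lt_sum w _ _ one_pos fun j _ => ?_
      rw [← sub_mul, map_mul]
      calc _ ≤ (w (p : N) * w (a j)) * 1 := mul_le_mul' (hy2 j) (hb2 j)
        _ ≤ (w (p : N) * 1) * 1 := by gcongr; exact ha1 j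
        _ < 1 := by rw [mul_one, mul_one]; exact S.hp

/-- the finitely many decompositions. -/
lemma zdata [hpp : Fact p.Prime] {F : Subfield N} (hHF : H ≤ F)
    {m : ℕ} {b : Fin m → N} (hb1 : ∀ i, b i ∈ F) (hb2 : ∀ i, w (b i) ≤ 1) (hb3 : ON w H b)
    (hb4 : ∀ y ∈ F, ∃ c : Fin m → N, (∀ i, c i ∈ H) ∧ y = ∑ j, c j * b j)
    {n : ℕ} {t : Fin (n + 1) → N} (T : Fam w p F n t) :
    ∃ (δ : C[X]) (h : Fin p → Fin m → Fin (n + 1) → Fin m → C[X]) (γ : ℝ≥0),
      w (aeval x δ) = 1 ∧ (∀ l j s k i, w ((h l j s k).coeff i : N) ≤ 1) ∧ γ < 1 ∧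
      w (p : N) ≤ γ ∧ ∀ (l : Fin p) (j : Fin m), w (x ^ (l : ℕ) * b j -
        ∑ s, t s * (∑ k, aeval x (h l j s k) / aeval x δ * b k) ^ p) ≤ γ := by
  classical
  choose z hzF hz1 hz using fun (l : Fin p) (j : Fin m) => T.P2 (x ^ (l : ℕ) * b j)
    (F.mul_mem (F.pow_mem (hHF S.xH) _) (hb1 j))
    (by rw [map_mul]; exact mul_le_one' (pow_le_one_w w S.x1 _) (hb2 _))
  choose a haH ha using fun l j s => hb4 (z l j s) (hzF l j s)
  have ha1 : ∀ l j s k, w (a l j s k) ≤ 1 := by
    intro l j s k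
    have := hb3 (a l j s) (haH l j s) k
    rw [← ha] at this
    exact this.trans (hz1 l j s)
  obtain ⟨f, g, hg, hfg⟩ := approx_common S
    (fun q : Fin p × Fin m × Fin (n + 1) × Fin m => a q.1 q.2.1 q.2.2.1 q.2.2.2)
    (fun q => haH _ _ _ _) one_pos
  have hf1 : ∀ q i, w ((f q).coeff i : N) ≤ 1 := by
    intro q i
    refine (S.gauss _ i).trans ?_
    have h1 : w (aeval x (f q) / aeval x g) ≤ 1 := by
      have := le_sub w (ha1 q.1 q.2.1 q.2.2.1 q.2.2.2) (hfg q).le
      simpa using this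
    rwa [map_div₀, hg, div_one] at h1
  set h : Fin p → Fin m → Fin (n + 1) → Fin m → C[X] := fun l j s k => f (l, j, s, k) with hh
  have hlt : ∀ (l : Fin p) (j : Fin m), w (x ^ (l : ℕ) * b j -
      ∑ s, t s * (∑ k, aeval x (h l j s k) / aeval x g * b k) ^ p) < 1 := by
    intro l j
    have h2 : ∀ s, w (z l j s - ∑ k, aeval x (h l j s k) / aeval x g * b k) < 1 := by
      intro s
      rw [ha, ← Finset.sum_sub_distrib]
      refine lt_sum w _ _ one_pos fun k _ => ?_
      rw [← sub_mul, map_mul]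
      calc _ ≤ w (a l j s k - aeval x (h l j s k) / aeval x g) * 1 :=
            mul_le_mul' le_rfl (hb2 k)
        _ < 1 := by rw [mul_one]; exact hfg (l, j, s, k)
    have h3 : ∀ s, w (∑ k, aeval x (h l j s k) / aeval x g * b k) ≤ 1 := by
      intro s
      have := le_sub w (hz1 l j s) (h2 s).le
      simpa using this
    have h4 : w (∑ s, t s * (z l j s ^ p - (∑ k, aeval x (h l j s k) / aeval x g * b k) ^ p)) < 1 := by
      refine lt_sum w _ _ one_pos fun s _ => ?_
      rw [map_mul]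
      calc _ ≤ 1 * w (z l j s ^ p - (∑ k, aeval x (h l j s k) / aeval x g * b k) ^ p) :=
            mul_le_mul' (T.t1 s) le_rfl
        _ < 1 := by rw [one_mul]; exact pow_sub_pow_lt w (hz1 l j s) (h3 s) (h2 s) p
    have h5 := lt_add w (hz l j) h4
    convert h5 using 2
    simp only [mul_sub, Finset.sum_sub_distrib]
    ring
  obtain ⟨γ, hγ1, hγp, hγ⟩ := exists_bound
    (fun q : Fin p × Fin m => w (x ^ (q.1 : ℕ) * b q.2 -
      ∑ s, t s * (∑ k, aeval x (h q.1 q.2 s k) / aeval x g * b k) ^ p))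
    (fun q => hlt q.1 q.2) (w (p : N)) S.hp
  exact ⟨g, h, γ, hg, fun l j s k i => hf1 _ i, hγ1, hγp, fun l j => hγ (l, j)⟩

end

end Crest.Agent.R013.Stab4_460
end

-- ▼ part R013/Stab5_460
section

/-!
# STAB, part 5: uniform decomposition `S1` and the Artin-Schreier equations `II`
-/

namespace Crest.Agent.R013.Stab5_460

open Polynomial Crest.Agent.R013.Stab2_460 Crest.Agent.R013.Stab3_460
  Crest.Agent.R013.Stab4_460
open scoped NNReal

variable {N : Type*} [Field N] {w : Valuation N ℝ≥0} {p : ℕ}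

section abs

variable {C : Subfield N} [IsAlgClosed C]

lemma II_abs [hpp : Fact p.Prime] {F : Subfield N} (hCF : C ≤ F) {n : ℕ} {t : Fin (n + 1) → N}
    (ht0 : t 0 = 1) (ht1 : ∀ i, w (t i) ≤ 1) {γ : ℝ≥0} (hpγ : w (p : N) ≤ γ)
    {ι : Type*} [Fintype ι] (v : ι → N) (Y : ι → Fin (n + 1) → N) (B : ι → ι → C)
    (hY : ∀ α s, w (Y α s) ≤ 1) (hYF : ∀ α s, Y α s ∈ F)
    (hB : ∀ α β, w (B α β : N) ≤ 1) (hR : ∀ α, w (v α - ∑ s, t s * Y α s ^ p) ≤ γ)
    (hY0 : ∀ α, Y α 0 = ∑ β, (B α β : N) * v β) {R : ℝ≥0} (hR1 : 1 ≤ R) (hRγ : R ^ p * γ < 1)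
    (c : ι → C) (hc : ∀ α, w (c α : N) ≤ R ^ p) :
    ∃ W ∈ F, ∃ y : Fin n → N, (∀ i, y i ∈ F) ∧ w W ≤ R ∧
      w ((∑ α, (c α : N) * v α) + W - W ^ p - ∑ i : Fin n, t i.succ * y i ^ p) < 1 := by
  classical
  have hp := hpp.out
  obtain ⟨d, hd⟩ := Stab1_460.exists_system (K := C) p hp.two_le B c
  have hdR : ∀ j, w (d j : N) ≤ R := by
    intro j
    obtain ⟨j0, -, hj0⟩ := Finset.exists_max_image Finset.univ (fun i => w (d i : N))
      ⟨j, Finset.mem_univ j⟩
    refine (hj0 j (Finset.mem_univ j)).trans ?_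
    by_contra hlt
    rw [not_le] at hlt
    have h1 : w (d j0 : N) ^ p ≤ max (R ^ p) (w (d j0 : N)) := by
      rw [← map_pow]
      have : ((d j0 : C) : N) ^ p = (c j0 : N) + ∑ i, (B i j0 : N) * (d i : N) := by
        have := congrArg (Subtype.val) (hd j0)
        push_cast at this
        exact this
      rw [this]
      refine le_add w ((hc j0).trans (le_max_left _ _)) (le_sum w _ _ fun i _ => ?_)
      rw [map_mul]
      refine le_max_of_le_right ?_
      calc w (B i j0 : N) * w (d i : N) ≤ 1 * w (d j0 : N) :=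
            mul_le_mul' (hB i j0) (hj0 i (Finset.mem_univ i))
        _ = _ := one_mul _
    have h2 : R ^ p < w (d j0 : N) ^ p := pow_lt_pow_left₀ hlt zero_le hp.ne_zero
    have h3 : w (d j0 : N) < w (d j0 : N) ^ p := by
      have h4 : 1 < w (d j0 : N) := hR1.trans_lt hlt
      calc w (d j0 : N) = w (d j0 : N) ^ 1 := (pow_one _).symm
        _ < w (d j0 : N) ^ p := pow_lt_pow_right₀ h4 hp.one_lt
    exact absurd (max_lt h2 h3) (not_lt.2 h1)
  have hdRp : ∀ j, w (d j : N) ^ p ≤ R ^ p := fun j => pow_le_pow_left' (hdR j) p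
  have hdF : ∀ j, (d j : N) ∈ F := fun j => hCF (d j).2
  refine ⟨∑ α, (d α : N) * Y α 0, F.sum_mem fun α _ => F.mul_mem (hdF α) (hYF α 0),
    fun i => ∑ α, (d α : N) * Y α i.succ,
    fun i => F.sum_mem fun α _ => F.mul_mem (hdF α) (hYF α _), ?_, ?_⟩
  · refine le_sum w _ _ fun α _ => ?_
    rw [map_mul]
    calc w (d α : N) * w (Y α 0) ≤ R * 1 := mul_le_mul' (hdR α) (hY α 0)
      _ = R := mul_one R
  · have e1 : (∑ α, (c α : N) * v α) + ∑ α, (d α : N) * Y α 0 = ∑ β, (d β : N) ^ p * v β := by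
      have e2 : ∑ α, (d α : N) * Y α 0 = ∑ β, (∑ α, (B α β : N) * (d α : N)) * v β := by
        simp only [hY0, Finset.mul_sum, Finset.sum_mul]
        rw [Finset.sum_comm]
        exact Finset.sum_congr rfl fun β _ => Finset.sum_congr rfl fun α _ => by ring
      rw [e2, ← Finset.sum_add_distrib]
      refine Finset.sum_congr rfl fun β _ => ?_
      have : ((d β : C) : N) ^ p = (c β : N) + ∑ i, (B i β : N) * (d i : N) := by
        have := congrArg (Subtype.val) (hd β)
        push_cast at this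
        exact this
      rw [this]; ring
    have e3 : (∑ α, (c α : N) * v α) + ∑ α, (d α : N) * Y α 0 - (∑ α, (d α : N) * Y α 0) ^ p -
        ∑ i : Fin n, t i.succ * (∑ α, (d α : N) * Y α i.succ) ^ p =
        ∑ β, (d β : N) ^ p * (v β - ∑ s, t s * Y β s ^ p) -
        ∑ s, t s * ((∑ α, (d α : N) * Y α s) ^ p - ∑ α, ((d α : N) * Y α s) ^ p) := by
      rw [e1]
      simp only [mul_sub, Finset.sum_sub_distrib, mul_pow, Finset.mul_sum]
      rw [Fin.sum_univ_succ (fun s => t s * (∑ α, (d α : N) * Y α s) ^ p), ht0, one_mul,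
        Finset.sum_comm (f := fun x s => (d x : N) ^ p * (t s * Y x s ^ p))]
      have e4 : ∑ y, ∑ x, (d x : N) ^ p * (t y * Y x y ^ p) =
          ∑ x, ∑ i, t x * ((d i : N) ^ p * Y i x ^ p) :=
        Finset.sum_congr rfl fun s _ => Finset.sum_congr rfl fun α _ => by ring
      rw [e4]
      ring
    rw [e3]
    refine lt_sub w (lt_sum w _ _ one_pos fun β _ => ?_) (lt_sum w _ _ one_pos fun s _ => ?_)
    · rw [map_mul, map_pow]
      exact (mul_le_mul' (hdRp β) (hR β)).trans_lt hRγ
    · rw [map_mul]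
      have h5 := sum_pow_p w p Finset.univ (fun α => (d α : N) * Y α s) (R := R ^ p)
        (fun α _ => by
          rw [map_mul, mul_pow]
          calc w (d α : N) ^ p * w (Y α s) ^ p ≤ R ^ p * 1 :=
                mul_le_mul' (hdRp α) (pow_le_one' (hY α s) p)
            _ = R ^ p := mul_one _)
      calc w (t s) * _ ≤ 1 * (γ * R ^ p) :=
            mul_le_mul' (ht1 s) (h5.trans (mul_le_mul' hpγ le_rfl))
        _ = R ^ p * γ := by rw [one_mul, mul_comm]
        _ < 1 := hRγ

end abs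

section

variable {C H : Subfield N} {x : N} (S : Setup w p C H x)
include S

lemma Z_le {m : ℕ} {b : Fin m → N} (hb2 : ∀ i, w (b i) ≤ 1) {δ : C[X]} (hδ : w (aeval x δ) = 1)
    (h : Fin m → C[X]) (hh : ∀ k i, w ((h k).coeff i : N) ≤ 1) :
    w (∑ k, aeval x (h k) / aeval x δ * b k) ≤ 1 := by
  refine le_sum w _ _ fun k _ => ?_
  rw [map_mul, map_div₀, hδ, div_one]
  exact mul_le_one' (aeval_le S (hh k)) (hb2 k)

lemma S1_F [hpp : Fact p.Prime] (hp0 : (p : N) ≠ 0) {F : Subfield N} (hHF : H ≤ F)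
    {m : ℕ} {b : Fin m → N} (hb1 : ∀ i, b i ∈ F) (hb2 : ∀ i, w (b i) ≤ 1) (hb3 : ON w H b)
    (hb4 : ∀ y ∈ F, ∃ c : Fin m → N, (∀ i, c i ∈ H) ∧ y = ∑ j, c j * b j)
    {n : ℕ} {t : Fin (n + 1) → N} (ht1 : ∀ i, w (t i) ≤ 1) {δ : C[X]} (hδ : w (aeval x δ) = 1)
    {h : Fin p → Fin m → Fin (n + 1) → Fin m → C[X]}
    (hh : ∀ l j s k i, w ((h l j s k).coeff i : N) ≤ 1) {γ : ℝ≥0} (hpγ : w (p : N) ≤ γ)
    (hZ : ∀ (l : Fin p) (j : Fin m), w (x ^ (l : ℕ) * b j -
        ∑ s, t s * (∑ k, aeval x (h l j s k) / aeval x δ * b k) ^ p) ≤ γ)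
    {u : N} (hu : u ∈ F) : ∃ z : Fin (n + 1) → N, (∀ i, z i ∈ F) ∧
      w (u - ∑ i, t i * z i ^ p) ≤ γ * w u := by
  classical
  obtain ⟨a, haH, rfl⟩ := hb4 u hu
  have ha1 : ∀ j, w (a j) ≤ w (∑ j, a j * b j) := fun j => hb3 a haH j
  set u := ∑ j, a j * b j with hudef
  choose y hyH hy1 hy2 using fun j => S1_H S hp0 (haH j)
  set Z : Fin p → Fin m → Fin (n + 1) → N :=
    fun l j s => ∑ k, aeval x (h l j s k) / aeval x δ * b k with hZdef
  have hZF : ∀ l j s, Z l j s ∈ F := fun l j s => F.sum_mem fun k _ =>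
    F.mul_mem (F.div_mem (hHF (aeval_mem S _)) (hHF (aeval_mem S _))) (hb1 k)
  have hZ1 : ∀ l j s, w (Z l j s) ≤ 1 := fun l j s => Z_le S hb2 hδ _ (hh l j s)
  refine ⟨fun s => ∑ q : Fin p × Fin m, y q.2 q.1 * Z q.1 q.2 s, fun s =>
    F.sum_mem fun q _ => F.mul_mem (hHF (hyH _ _)) (hZF _ _ _), ?_⟩
  have e : u - ∑ s, t s * (∑ q : Fin p × Fin m, y q.2 q.1 * Z q.1 q.2 s) ^ p =
      ∑ j, (a j - ∑ l ∈ Finset.range p, x ^ l * y j l ^ p) * b j +
      ∑ q : Fin p × Fin m, y q.2 q.1 ^ p * (x ^ (q.1 : ℕ) * b q.2 - ∑ s, t s * Z q.1 q.2 s ^ p) -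
      ∑ s, t s * ((∑ q : Fin p × Fin m, y q.2 q.1 * Z q.1 q.2 s) ^ p -
        ∑ q : Fin p × Fin m, (y q.2 q.1 * Z q.1 q.2 s) ^ p) := by
    simp only [mul_sub, sub_mul, Finset.sum_sub_distrib, mul_pow, Finset.mul_sum]
    have e1 : ∑ j, (∑ l ∈ Finset.range p, x ^ l * y j l ^ p) * b j =
        ∑ q : Fin p × Fin m, y q.2 q.1 ^ p * (x ^ (q.1 : ℕ) * b q.2) := by
      rw [Fintype.sum_prod_type_right]
      refine Finset.sum_congr rfl fun j _ => ?_
      rw [Finset.sum_range (fun l => x ^ l * y j l ^ p), Finset.sum_mul]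
      exact Finset.sum_congr rfl fun l _ => by ring
    have e2 : ∑ q : Fin p × Fin m, ∑ s, y q.2 q.1 ^ p * (t s * Z q.1 q.2 s ^ p) =
        ∑ s, ∑ q : Fin p × Fin m, t s * (y q.2 q.1 ^ p * Z q.1 q.2 s ^ p) := by
      rw [Finset.sum_comm]
      exact Finset.sum_congr rfl fun s _ => Finset.sum_congr rfl fun q _ => by ring
    rw [e1, e2]
    ring
  rw [e]
  refine le_sub w (le_add w (le_sum w _ _ fun j _ => ?_) (le_sum w _ _ fun q _ => ?_))
    (le_sum w _ _ fun s _ => ?_)
  · rw [map_mul]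
    calc _ ≤ (w (p : N) * w (a j)) * 1 := mul_le_mul' (hy2 j) (hb2 j)
      _ ≤ γ * w u := by rw [mul_one]; exact mul_le_mul' hpγ (ha1 j)
  · rw [map_mul, map_pow]
    calc _ ≤ w (a q.2) * γ := mul_le_mul' (hy1 _ _) (hZ _ _)
      _ ≤ γ * w u := by rw [mul_comm]; exact mul_le_mul' le_rfl (ha1 _)
  · rw [map_mul]
    have h5 := sum_pow_p w p Finset.univ (fun q : Fin p × Fin m => y q.2 q.1 * Z q.1 q.2 s)
      (R := w u) (fun q _ => by
        rw [map_mul, mul_pow]
        calc w (y q.2 q.1) ^ p * w (Z q.1 q.2 s) ^ p ≤ w (a q.2) * 1 :=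
              mul_le_mul' (hy1 _ _) (pow_le_one' (hZ1 _ _ _) p)
          _ ≤ w u := by rw [mul_one]; exact ha1 _)
    calc w (t s) * _ ≤ 1 * (γ * w u) :=
          mul_le_mul' (ht1 s) (h5.trans (mul_le_mul' hpγ le_rfl))
      _ = γ * w u := one_mul _

lemma II_F [hpp : Fact p.Prime] {F : Subfield N} (hHF : H ≤ F)
    {m : ℕ} {b : Fin m → N} (hb1 : ∀ i, b i ∈ F) (hb2 : ∀ i, w (b i) ≤ 1) (hb3 : ON w H b)
    (hb4 : ∀ y ∈ F, ∃ c : Fin m → N, (∀ i, c i ∈ H) ∧ y = ∑ j, c j * b j)
    {n : ℕ} {t : Fin (n + 1) → N} (ht0 : t 0 = 1) (ht1 : ∀ i, w (t i) ≤ 1)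
    {δ : C[X]} (hδ : w (aeval x δ) = 1)
    {h : Fin p → Fin m → Fin (n + 1) → Fin m → C[X]}
    (hh : ∀ l j s k i, w ((h l j s k).coeff i : N) ≤ 1) {γ : ℝ≥0} (hpγ : w (p : N) ≤ γ)
    (hZ : ∀ (l : Fin p) (j : Fin m), w (x ^ (l : ℕ) * b j -
        ∑ s, t s * (∑ k, aeval x (h l j s k) / aeval x δ * b k) ^ p) ≤ γ)
    {R : ℝ≥0} (hR1 : 1 ≤ R) (hRγ : R ^ p * γ < 1) {U : N} (hU : U ∈ F) (hUR : w U ≤ R ^ p) :
    ∃ W ∈ F, ∃ y : Fin n → N, (∀ i, y i ∈ F) ∧ w W ≤ R ∧
      w (U + W - W ^ p - ∑ i : Fin n, t i.succ * y i ^ p) < 1 := by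
  classical
  have hp := hpp.out
  have hCalg := S.alg
  have hRp1 : 1 ≤ R ^ p := one_le_pow₀ hR1
  obtain ⟨a, haH, hUa⟩ := hb4 U hU
  have ha1 : ∀ j, w (a j) ≤ R ^ p := fun j => by
    have := hb3 a haH j
    rw [← hUa] at this
    exact this.trans hUR
  obtain ⟨f, g1, hg1, hfg⟩ := approx_common S a haH one_pos
  have hf1 : ∀ j, w (aeval x (f j)) ≤ R ^ p := by
    intro j
    have h1 : w (aeval x (f j) / aeval x g1) ≤ R ^ p := by
      have := le_sub w (ha1 j) ((hfg j).le.trans hRp1)
      simpa using this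
    rwa [map_div₀, hg1, div_one] at h1
  have hδ0 : aeval x δ ≠ 0 := by
    intro h; rw [h, map_zero] at hδ; exact zero_ne_one hδ
  have hg0 : aeval x g1 ≠ 0 := by
    intro h; rw [h, map_zero] at hg1; exact zero_ne_one hg1
  set Z : Fin p → Fin m → Fin (n + 1) → N :=
    fun l j s => ∑ k, aeval x (h l j s k) / aeval x δ * b k with hZdef
  have hZF : ∀ l j s, Z l j s ∈ F := fun l j s => F.sum_mem fun k _ =>
    F.mul_mem (F.div_mem (hHF (aeval_mem S _)) (hHF (aeval_mem S _))) (hb1 k)
  have hZ1 : ∀ l j s, w (Z l j s) ≤ 1 := fun l j s => Z_le S hb2 hδ _ (hh l j s)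
  -- denominators
  set G : C[X] := g1 * δ with hG
  have hGw : w (aeval x G) = 1 := by rw [hG, map_mul, map_mul, hδ, hg1, one_mul]
  have hG0 : aeval x G ≠ 0 := by
    intro h; rw [h, map_zero] at hGw; exact zero_ne_one hGw
  set q : C[X] := δ ^ (p - 2) * g1 ^ (p - 1) with hq
  have hqw : w (aeval x q) = 1 := by
    rw [hq, map_mul, map_mul, map_pow, map_pow, map_pow, map_pow, hδ, hg1]; simp
  have hqG : aeval x q * (aeval x G * aeval x δ) = aeval x G ^ p := by
    rw [hq, hG]
    simp only [map_mul, map_pow]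
    obtain ⟨k, hk⟩ : ∃ k, p = k + 2 := ⟨p - 2, by have := hp.two_le; omega⟩
    have h1 : p - 2 = k := by omega
    have h2 : p - 1 = k + 1 := by omega
    rw [h1, h2]
    rw [hk]
    ring
  -- degrees
  obtain ⟨D0, hD0⟩ : ∃ D0, ∀ l j s k, (h l j s k).natDegree ≤ D0 := by
    refine ⟨Finset.univ.sup (fun q : Fin p × Fin m × Fin (n + 1) × Fin m =>
      (h q.1 q.2.1 q.2.2.1 q.2.2.2).natDegree), fun l j s k => ?_⟩
    exact Finset.le_sup (f := (fun q : Fin p × Fin m × Fin (n + 1) × Fin m =>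
      (h q.1 q.2.1 q.2.2.1 q.2.2.2).natDegree)) (Finset.mem_univ (l, j, s, k))
  obtain ⟨N1, hN1⟩ : ∃ N1, ∀ j, (f j * δ).natDegree ≤ N1 :=
    ⟨Finset.univ.sup (fun j => (f j * δ).natDegree), fun j =>
      Finset.le_sup (f := fun j => (f j * δ).natDegree) (Finset.mem_univ j)⟩
  set N0 := 2 * D0 + q.natDegree + δ.natDegree + N1 + 1 with hN0
  -- the family
  set v : Fin N0 × Fin m → N := fun α => x ^ (α.1 : ℕ) * b α.2 / (aeval x G * aeval x δ) with hv
  have hXq : ∀ i : ℕ, ∀ k, w ((X ^ i * q : C[X]).coeff k : N) ≤ 1 := by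
    intro i k
    refine (S.gauss _ k).trans ?_
    rw [map_mul, map_pow, aeval_X, map_mul, hqw, mul_one]
    exact pow_le_one_w w S.x1 i
  choose u hu1 hu2 hu3 using fun i : ℕ => poly_decomp S (X ^ i * q) (R := 1) (hXq i)
  have hu1' : ∀ i l k, w ((u i l).coeff k : N) ≤ 1 := fun i l k =>
    (pow_le_one_iff hp.ne_zero).1 (hu1 i l k)
  have huw : ∀ i l, w (aeval x (u i l)) ≤ 1 := fun i l => aeval_le S (hu1' i l)
  set Hk : Fin N0 × Fin m → Fin (n + 1) → Fin m → C[X] :=
    fun α s k => ∑ l : Fin p, u α.1 l * h l α.2 s k with hHk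
  have hHdeg : ∀ α s k, (Hk α s k).natDegree < N0 := by
    intro α s k
    have h1 : (Hk α s k).natDegree ≤ (α.1 + q.natDegree) / p + D0 := by
      refine natDegree_sum_le_of_forall_le _ _ fun l _ => ?_
      refine natDegree_mul_le.trans (add_le_add ?_ (hD0 _ _ _ _))
      refine (hu2 _ _).trans (Nat.div_le_div_right ?_)
      refine natDegree_mul_le.trans ?_
      rw [natDegree_X_pow]
    have h2 : (α.1 + q.natDegree) / p ≤ (α.1 + q.natDegree) / 2 :=
      Nat.div_le_div_left hp.two_le (by norm_num)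
    have h3 : (α.1 : ℕ) < N0 := α.1.2
    omega
  have hHw : ∀ α s k, w (aeval x (Hk α s k)) ≤ 1 := by
    intro α s k
    simp only [hHk, map_sum]
    refine le_sum w _ _ fun l _ => ?_
    rw [map_mul, map_mul]
    exact mul_le_one' (huw _ _) (aeval_le S (hh _ _ _ _))
  set Y : Fin N0 × Fin m → Fin (n + 1) → N :=
    fun α s => ∑ l : Fin p, aeval x (u α.1 l) * Z l α.2 s / aeval x G with hY
  have hY1 : ∀ α s, w (Y α s) ≤ 1 := by
    intro α s
    refine le_sum w _ _ fun l _ => ?_
    rw [map_div₀, hGw, div_one, map_mul]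
    exact mul_le_one' (huw _ _) (hZ1 _ _ _)
  have hYF : ∀ α s, Y α s ∈ F := fun α s => F.sum_mem fun l _ =>
    F.div_mem (F.mul_mem (hHF (aeval_mem S _)) (hZF _ _ _)) (hHF (aeval_mem S _))
  have hYH : ∀ α s, Y α s = ∑ β, ((Hk α s β.2).coeff β.1 : N) * v β := by
    intro α s
    have h1 : ∀ k, aeval x (Hk α s k) = ∑ i : Fin N0, ((Hk α s k).coeff i : N) * x ^ (i : ℕ) := by
      intro k
      rw [aeval_eq_sum_range' (hHdeg α s k), Finset.sum_range]
      rfl
    have h2 : Y α s = ∑ k, aeval x (Hk α s k) * b k / (aeval x G * aeval x δ) := by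
      simp only [hY, hZdef, hHk, map_sum, map_mul, Finset.mul_sum, Finset.sum_mul, Finset.sum_div]
      rw [Finset.sum_comm]
      refine Finset.sum_congr rfl fun k _ => Finset.sum_congr rfl fun l _ => ?_
      field_simp
    rw [h2, Fintype.sum_prod_type_right]
    refine Finset.sum_congr rfl fun k _ => ?_
    rw [h1 k, Finset.sum_mul, Finset.sum_div]
    refine Finset.sum_congr rfl fun i _ => ?_
    simp only [hv]
    ring
  have hvY : ∀ α, w (v α - ∑ s, t s * Y α s ^ p) ≤ γ := by
    intro α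
    have e : v α - ∑ s, t s * Y α s ^ p =
        ((aeval x (X ^ (α.1 : ℕ) * q) - ∑ l ∈ Finset.range p, x ^ l * aeval x (u α.1 l) ^ p) * b α.2 +
        ∑ l : Fin p, aeval x (u α.1 l) ^ p * (x ^ (l : ℕ) * b α.2 - ∑ s, t s * Z l α.2 s ^ p) -
        ∑ s, t s * ((∑ l : Fin p, aeval x (u α.1 l) * Z l α.2 s) ^ p -
          ∑ l : Fin p, (aeval x (u α.1 l) * Z l α.2 s) ^ p)) / aeval x G ^ p := by
      have e0 : v α = aeval x (X ^ (α.1 : ℕ) * q) * b α.2 / aeval x G ^ p := by
        simp only [hv]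
        have hq0 : aeval x q ≠ 0 := by
          intro h; rw [h, map_zero] at hqw; exact zero_ne_one hqw
        have hXq2 : aeval x (X ^ (α.1 : ℕ) * q) = x ^ (α.1 : ℕ) * aeval x q := by
          rw [map_mul (aeval x) (X ^ (α.1 : ℕ)) q, map_pow, aeval_X]
        rw [← hqG, hXq2]
        have hGδ : aeval x G * aeval x δ ≠ 0 := mul_ne_zero hG0 hδ0
        rw [div_eq_div_iff hGδ (mul_ne_zero hq0 hGδ)]
        ring
      have e1 : ∀ s, t s * Y α s ^ p =
          t s * (∑ l : Fin p, aeval x (u α.1 l) * Z l α.2 s) ^ p / aeval x G ^ p := by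
        intro s
        simp only [hY]
        rw [← Finset.sum_div, div_pow]; ring
      rw [e0, Finset.sum_congr rfl fun s _ => e1 s, ← Finset.sum_div, ← sub_div]
      congr 1
      simp only [mul_sub, sub_mul, Finset.sum_sub_distrib, mul_pow, Finset.mul_sum]
      have e3 : (∑ l ∈ Finset.range p, x ^ l * aeval x (u α.1 l) ^ p) * b α.2 =
          ∑ l : Fin p, aeval x (u α.1 l) ^ p * (x ^ (l : ℕ) * b α.2) := by
        rw [Finset.sum_range (fun l => x ^ l * aeval x (u α.1 l) ^ p), Finset.sum_mul]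
        exact Finset.sum_congr rfl fun l _ => by ring
      have e2 : ∑ l : Fin p, ∑ s, aeval x (u α.1 l) ^ p * (t s * Z l α.2 s ^ p) =
          ∑ s, ∑ l : Fin p, t s * (aeval x (u α.1 l) ^ p * Z l α.2 s ^ p) := by
        rw [Finset.sum_comm]
        exact Finset.sum_congr rfl fun s _ => Finset.sum_congr rfl fun q _ => by ring
      rw [e3, e2]
      ring
    rw [e, map_div₀, map_pow, hGw, one_pow, div_one]
    refine le_sub w (le_add w ?_ (le_sum w _ _ fun l _ => ?_)) (le_sum w _ _ fun s _ => ?_)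
    · rw [map_mul]
      calc _ ≤ (w (p : N) * 1) * 1 := mul_le_mul' (hu3 _) (hb2 _)
        _ ≤ γ := by rw [mul_one, mul_one]; exact hpγ
    · rw [map_mul, map_pow]
      calc _ ≤ 1 * γ := mul_le_mul' (pow_le_one' (huw _ _) p) (hZ _ _)
        _ = γ := one_mul _
    · rw [map_mul]
      have h5 := sum_pow_p w p Finset.univ (fun l : Fin p => aeval x (u α.1 l) * Z l α.2 s)
        (R := 1) (fun l _ => by
          rw [map_mul, mul_pow]
          exact mul_le_one' (pow_le_one' (huw _ _) p) (pow_le_one' (hZ1 _ _ _) p))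
      calc w (t s) * _ ≤ 1 * (γ * 1) :=
            mul_le_mul' (ht1 s) (h5.trans (mul_le_mul' hpγ le_rfl))
        _ = γ := by rw [one_mul, mul_one]
  have hBw : ∀ α β : Fin N0 × Fin m, w ((Hk α 0 β.2).coeff β.1 : N) ≤ 1 := fun α β =>
    (S.gauss _ _).trans (hHw _ _ _)
  have hcw : ∀ α : Fin N0 × Fin m, w (((f α.2 * δ * δ).coeff α.1 : C) : N) ≤ R ^ p := by
    intro α
    refine (S.gauss _ _).trans ?_
    rw [map_mul, map_mul, map_mul, map_mul, hδ, mul_one, mul_one]
    exact hf1 _
  obtain ⟨W, hWF, y, hyF, hWR, hW⟩ := II_abs (w := w) (C := C) (S.CH.trans hHF) ht0 ht1 hpγ v Y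
    (fun α β => (Hk α 0 β.2).coeff β.1) hY1 hYF hBw hvY (fun α => hYH α 0) hR1 hRγ
    (fun α => (f α.2 * δ * δ).coeff α.1) hcw
  refine ⟨W, hWF, y, hyF, hWR, ?_⟩
  have hUv : w (U - ∑ α : Fin N0 × Fin m, (((f α.2 * δ * δ).coeff α.1 : C) : N) * v α) < 1 := by
    have e : ∑ α : Fin N0 × Fin m, (((f α.2 * δ * δ).coeff α.1 : C) : N) * v α =
        ∑ j, aeval x (f j) / aeval x g1 * b j := by
      rw [Fintype.sum_prod_type_right]
      refine Finset.sum_congr rfl fun j _ => ?_
      have h1 : aeval x (f j * δ * δ) = ∑ i : Fin N0, (((f j * δ * δ).coeff i : C) : N) * x ^ (i : ℕ) := by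
        rw [aeval_eq_sum_range' (n := N0), Finset.sum_range]
        · rfl
        · have h2 : (f j * δ * δ).natDegree ≤ N1 + δ.natDegree :=
            natDegree_mul_le.trans (add_le_add (hN1 j) le_rfl)
          omega
      have h3 : aeval x (f j) / aeval x g1 * b j =
          aeval x (f j * δ * δ) * b j / (aeval x G * aeval x δ) := by
        rw [hG]
        simp only [map_mul]
        field_simp
      rw [h3, h1, Finset.sum_mul, Finset.sum_div]
      refine Finset.sum_congr rfl fun i _ => ?_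
      simp only [hv]
      ring
    rw [e, hUa, ← Finset.sum_sub_distrib]
    refine lt_sum w _ _ one_pos fun j _ => ?_
    rw [← sub_mul, map_mul]
    calc _ ≤ w (a j - aeval x (f j) / aeval x g1) * 1 := mul_le_mul' le_rfl (hb2 j)
      _ < 1 := by rw [mul_one]; exact hfg j
  have := lt_add w hUv hW
  convert this using 2
  ring

/-- **Main result of this part**: `PData` for a finite extension with orthonormal basis. -/
theorem exists_pdata [hpp : Fact p.Prime] (hp0 : (p : N) ≠ 0) {F : Subfield N} (hHF : H ≤ F)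
    (hgood : Good w H F) : ∃ (n : ℕ) (t : Fin (n + 1) → N) (γ : ℝ≥0), PData w p F n t γ := by
  have hCalg := S.alg
  obtain ⟨m, b, hb1, hb2, hb3, hb4⟩ := hgood
  obtain ⟨n0, t0, T0⟩ := fam_exists S hp0 hHF hb1 hb2 hb3 hb4
  obtain ⟨ξ, hξ⟩ := IsAlgClosed.exists_pow_nat_eq (-1 : C) hpp.out.pos
  have hξ' : (ξ : N) ^ p = -1 := by
    have := congrArg Subtype.val hξ
    push_cast at this
    exact this
  obtain ⟨n, t, T, hP1⟩ := fam_min S.hp (hHF (S.CH ξ.2)) hξ' T0
  obtain ⟨δ, h, γ, hδ, hh, hγ1, hpγ, hZ⟩ := zdata S hHF hb1 hb2 hb3 hb4 T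
  exact ⟨n, t, γ, hγ1, hpγ, T.t0, T.tF, T.t1, hP1,
    fun u hu => S1_F S hp0 hHF hb1 hb2 hb3 hb4 T.t1 hδ hh hpγ hZ hu,
    fun R hR1 hRγ U hU hUR => II_F S hHF hb1 hb2 hb3 hb4 T.t0 T.t1 hδ hh hpγ hZ hR1 hRγ hU hUR⟩

end

end Crest.Agent.R013.Stab5_460
end

-- ▼ part R013/Stab6_460
section

/-!
# STAB, part 6: the Kummer step
-/

namespace Crest.Agent.R013.Stab6_460

open Polynomial Crest.Agent.R013.Stab2_460 Crest.Agent.R013.Stab3_460
open scoped NNReal

variable {N : Type*} [Field N] {w : Valuation N ℝ≥0} {p : ℕ}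

lemma eq_of_lt {a b : N} (h : w (a - b) < w b) : w a = w b := by
  have := Valuation.map_add_eq_of_lt_right w h
  rwa [sub_add_cancel] at this

lemma exists_R (p : ℕ) (hp : p ≠ 0) {m : ℝ≥0} (hm : m < 1) :
    ∃ R : ℝ≥0, 1 < R ∧ R ^ p * m < 1 := by
  obtain ⟨m', hm1, hm2⟩ := exists_between hm
  have hm0 : 0 < m' := zero_le.trans_lt hm1
  set s : ℝ≥0 := m' ^ ((p : ℝ)⁻¹) with hs
  have hsp : s ^ p = m' := NNReal.rpow_inv_natCast_pow _ hp
  have hs1 : s < 1 := by
    by_contra h
    rw [not_lt] at h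
    have := one_le_pow₀ h (n := p)
    rw [hsp] at this
    exact absurd hm2 (not_lt.2 this)
  have hs0 : 0 < s := by
    rw [pos_iff_ne_zero]
    intro h
    rw [h, zero_pow hp] at hsp
    exact hm0.ne hsp
  refine ⟨s⁻¹, (one_lt_inv₀ hs0).2 hs1, ?_⟩
  rw [inv_pow, hsp, inv_mul_eq_div]
  exact (div_lt_one hm0).2 hm1

/-- the value of `ζ - 1` for a `p`-th root of unity. -/
lemma w_root_sub_one [hpp : Fact p.Prime] (hp : w (p : N) < 1) {z : N} (hz : z ≠ 0)
    (h1 : (1 + z) ^ p = 1) : w z ^ (p - 1) = w (p : N) := by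
  have hprime := hpp.out
  have hwz : w (1 + z) = 1 := by
    have : w (1 + z) ^ p = 1 := by rw [← map_pow, h1, map_one]
    exact (pow_eq_one_iff_of_nonneg zero_le hprime.ne_zero).1 this
  have hz1 : w z ≤ 1 := by
    have := le_sub w hwz.le (map_one w).le
    simpa using this
  have hz2 : w z < 1 := by
    have h2 := one_add_pow w p hz1
    rw [h1] at h2
    have e : (1 : N) - (1 + z ^ p) = -z ^ p := by ring
    rw [e, Valuation.map_neg, map_pow] at h2
    have h3 : w z ^ p < 1 := by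
      refine (h2.trans (mul_le_mul' le_rfl hz1)).trans_lt ?_
      rw [mul_one]; exact hp
    exact (pow_lt_one_iff hprime.ne_zero).1 h3
  have hwz0 : 0 < w z := pos_iff_ne_zero.2 (w.ne_zero_iff.2 hz)
  have h3 : z ^ p = -(p * (z + ∑ k ∈ Finset.Ioo 1 p, z ^ k * ((p.choose k / p : ℕ) : N))) := by
    rw [add_comm (1 : N) z, add_pow_prime_eq' hprime] at h1
    have hsplit : Finset.Ioo 0 p = insert 1 (Finset.Ioo 1 p) := by
      ext k
      simp only [Finset.mem_Ioo, Finset.mem_insert]
      have := hprime.one_lt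
      omega
    have h4 : (p.choose 1 / p : ℕ) = 1 := by
      rw [Nat.choose_one_right]; exact Nat.div_self hprime.pos
    rw [hsplit, Finset.sum_insert (by simp), h4] at h1
    simp only [one_pow, mul_one, pow_one, Nat.cast_one] at h1
    linear_combination h1
  have h5 : w (∑ k ∈ Finset.Ioo 1 p, z ^ k * ((p.choose k / p : ℕ) : N)) < w z := by
    refine lt_sum w _ _ hwz0 fun k hk => ?_
    rw [Finset.mem_Ioo] at hk
    rw [map_mul, map_pow]
    calc w z ^ k * w ((p.choose k / p : ℕ) : N) ≤ w z ^ 2 * 1 :=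
          mul_le_mul' (pow_le_pow_right_of_le_one' hz1 (by omega)) (natCast_le_one w _)
      _ = w z * w z := by rw [mul_one, sq]
      _ < w z * 1 := mul_lt_mul_of_pos_left hz2 hwz0
      _ = w z := mul_one _
  have h6 : w (z + ∑ k ∈ Finset.Ioo 1 p, z ^ k * ((p.choose k / p : ℕ) : N)) = w z := by
    rw [Valuation.map_add_eq_of_lt_left w h5]
  have h7 : w z ^ p = w (p : N) * w z := by
    rw [← map_pow, h3, Valuation.map_neg, map_mul, h6]
  have h8 : w z ^ p = w z ^ (p - 1) * w z := by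
    rw [← pow_succ]; congr 1; have := hprime.pos; omega
  rw [h8] at h7
  exact mul_right_cancel₀ hwz0.ne' h7

/-- data for the Kummer step -/
structure KData (w : Valuation N ℝ≥0) (p : ℕ) (C F : Subfield N) (α : N) (c0 : N) : Prop where
  hp : w (p : N) < 1
  hp0 : (p : N) ≠ 0
  alg : IsAlgClosed C
  CF : C ≤ F
  val : ∀ y : N, y ≠ 0 → ∃ c ∈ C, w y = w c
  α0 : α ≠ 0
  αF : α ^ p ∈ F
  c0C : c0 ∈ C
  c0p : c0 ^ (p - 1) = -p
  conj : ∃ (σ : Fin p → N ≃+* N) (ζ : Fin p → N), (∀ i y, w (σ i y) = w y) ∧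
    (∀ i, ∀ y ∈ F, σ i y = y) ∧ (∀ i, σ i α = ζ i * α) ∧ (∀ i, ζ i ^ p = 1) ∧
    Function.Injective ζ

/-- conclusion of the Kummer step -/
def Concl (w : Valuation N ℝ≥0) (p : ℕ) (F : Subfield N) (α : N) : Prop :=
  ∃ β : N, w β ≤ 1 ∧ ON w F (fun i : Fin p => β ^ (i : ℕ)) ∧
    ∃ v ∈ F, ∃ e ∈ F, ∃ c ∈ F, v ≠ 0 ∧ c ≠ 0 ∧ β = (v * α - e) / c

section

variable {C F : Subfield N} {α c0 : N} [hpp : Fact p.Prime] (K : KData w p C F α c0)
include K

lemma c0_ne : c0 ≠ 0 := by
  intro h
  have := K.c0p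
  rw [h, zero_pow (by have := hpp.out.one_lt; omega)] at this
  exact K.hp0 (by simpa using this.symm)

lemma w_c0_pow : w c0 ^ (p - 1) = w (p : N) := by
  rw [← map_pow, K.c0p, Valuation.map_neg]

lemma w_c0_lt : w c0 < 1 := by
  have h : w c0 ^ (p - 1) < 1 := by rw [w_c0_pow K]; exact K.hp
  exact (pow_lt_one_iff (by have := hpp.out.one_lt; omega)).1 h

lemma w_c0_pos : 0 < w c0 := pos_iff_ne_zero.2 (w.ne_zero_iff.2 (c0_ne K))

lemma pow_succ_sub (a : ℝ≥0) : a ^ p = a ^ (p - 1) * a := by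
  rw [← pow_succ]; congr 1; have := hpp.out.pos; omega

/-- case (ii). -/
lemma case_ii {v : N} (hv : v ∈ F) (hv0 : v ≠ 0) {E : N} (hE : E ∈ F) (hα : (v * α) ^ p = 1 + E)
    (hα1 : w (v * α) ≤ 1) (hEρ : w c0 ^ p < w E) (hno : ∀ y ∈ F, ¬ w (E - y ^ p) < w E) :
    Concl w p F α := by
  have hprime := hpp.out
  set z := v * α - 1 with hz
  have hz1 : w z ≤ 1 := le_sub w hα1 (map_one w).le
  have h1 : w (E - z ^ p) ≤ w (p : N) * w z := by
    have := one_add_pow w p hz1
    have e : 1 + z = v * α := by rw [hz]; ring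
    rw [e, hα] at this
    convert this using 2
    ring
  have hcz : w c0 < w z := by
    by_contra h
    rw [not_lt] at h
    have h2 : w z ^ p ≤ w c0 ^ p := pow_le_pow_left' h p
    have h3 : w (p : N) * w z ≤ w c0 ^ p := by
      rw [pow_succ_sub K, w_c0_pow K]; exact mul_le_mul' le_rfl h
    have h4 : w E ≤ w c0 ^ p := by
      have := le_add w (h1.trans h3) (b := z ^ p) (by rw [map_pow]; exact h2)
      simpa using this
    exact absurd hEρ (not_lt.2 h4)
  have hwz0 : 0 < w z := zero_le.trans_lt hcz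
  have h5 : w (E - z ^ p) < w (z ^ p) := by
    refine h1.trans_lt ?_
    rw [map_pow, pow_succ_sub K (w z), ← w_c0_pow K]
    refine mul_lt_mul_of_pos_right ?_ hwz0
    exact pow_lt_pow_left₀ hcz zero_le (by have := hprime.one_lt; omega)
  have h6 : w E = w (z ^ p) := eq_of_lt h5
  have hz0 : z ≠ 0 := w.ne_zero_iff.1 hwz0.ne'
  obtain ⟨c, hc, hzc⟩ := K.val z hz0
  have hc0 : c ≠ 0 := by rw [← w.ne_zero_iff, ← hzc]; exact hwz0.ne'
  have hcF : c ∈ F := K.CF hc
  have hwcp : 0 < w c ^ p := pow_pos (by rw [← hzc]; exact hwz0) p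
  refine ⟨z / c, ?_, ?_, v, hv, 1, F.one_mem, c, hcF, hv0, hc0, rfl⟩
  · rw [map_div₀, hzc, div_self (by rw [← hzc]; exact hwz0.ne')]
  · refine on_insep w p F (E := E / c ^ p) (F.div_mem hE (F.pow_mem hcF _)) ?_ ?_ ?_
    · rw [map_div₀, h6, map_pow, map_pow, hzc, div_self hwcp.ne']
    · rw [div_pow, ← sub_div, map_div₀, map_pow, Valuation.map_sub_swap]
      refine (div_lt_one hwcp).2 ?_
      rw [← hzc, ← map_pow]; exact h5
    · intro y hy hlt
      refine hno (c * y) (F.mul_mem hcF hy) ?_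
      have e : E - (c * y) ^ p = (E / c ^ p - y ^ p) * c ^ p := by
        rw [mul_pow]; field_simp
      rw [e, map_mul, map_pow, h6, map_pow, hzc]
      calc _ < 1 * w c ^ p := mul_lt_mul_of_pos_right hlt hwcp
        _ = w c ^ p := one_mul _

/-- case (iii). -/
lemma case_iii {v : N} (hv : v ∈ F) (hv0 : v ≠ 0) {E : N} (hα : (v * α) ^ p = 1 + E)
    (hα1 : w (v * α) = 1) (hEρ : w E ≤ w c0 ^ p) : Concl w p F α := by
  have hprime := hpp.out
  set z := v * α - 1 with hz
  have hz1 : w z ≤ 1 := le_sub w hα1.le (map_one w).le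
  have h1 : w (E - z ^ p) ≤ w (p : N) * w z := by
    have := one_add_pow w p hz1
    have e : 1 + z = v * α := by rw [hz]; ring
    rw [e, hα] at this
    convert this using 2
    ring
  have hzc : w z ≤ w c0 := by
    by_contra h
    rw [not_le] at h
    have hwz0 : 0 < w z := zero_le.trans_lt h
    have h5 : w (E - z ^ p) < w (z ^ p) := by
      refine h1.trans_lt ?_
      rw [map_pow, pow_succ_sub K (w z), ← w_c0_pow K]
      refine mul_lt_mul_of_pos_right ?_ hwz0
      exact pow_lt_pow_left₀ h zero_le (by have := hprime.one_lt; omega)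
    have h6 : w E = w (z ^ p) := eq_of_lt h5
    rw [h6, map_pow] at hEρ
    exact absurd (pow_lt_pow_left₀ h zero_le hprime.ne_zero) (not_lt.2 hEρ)
  have hc0F : c0 ∈ F := K.CF K.c0C
  obtain ⟨σ, ζ, hσw, hσF, hσα, hζ, hinj⟩ := K.conj
  refine ⟨z / c0, ?_, ?_, v, hv, 1, F.one_mem, c0, hc0F, hv0, c0_ne K, rfl⟩
  · rw [map_div₀]; exact (div_le_one (w_c0_pos K)).2 hzc
  · refine on_conj w F ?_ σ hσw hσF ?_
    · rw [map_div₀]; exact (div_le_one (w_c0_pos K)).2 hzc
    · intro i j hij hlt
      have e : σ i (z / c0) - σ j (z / c0) = (ζ i - ζ j) * (v * α) / c0 := by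
        have h7 : ∀ i, σ i (z / c0) = (ζ i * (v * α) - 1) / c0 := by
          intro i
          rw [map_div₀, hσF i c0 hc0F, hz, map_sub, map_mul, hσF i v hv, hσα, map_one]
          ring
        rw [h7, h7]; ring
      rw [e, map_div₀, map_mul, hα1, mul_one] at hlt
      -- value of ζ i - ζ j
      have hζw : ∀ i, w (ζ i) = 1 := by
        intro i
        have : w (ζ i) ^ p = 1 := by rw [← map_pow, hζ, map_one]
        exact (pow_eq_one_iff_of_nonneg zero_le hprime.ne_zero).1 this
      have hζ0 : ζ j ≠ 0 := by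
        rw [← w.ne_zero_iff, hζw]; exact one_ne_zero
      set y := ζ i / ζ j - 1 with hy
      have hy0 : y ≠ 0 := by
        rw [hy, Ne, sub_eq_zero, div_eq_one_iff_eq hζ0]
        exact fun h => hij (hinj h)
      have hyp : (1 + y) ^ p = 1 := by
        rw [hy, add_sub_cancel, div_pow, hζ, hζ, div_one]
      have hwy := w_root_sub_one K.hp hy0 hyp
      rw [← w_c0_pow K] at hwy
      have hwy2 : w y = w c0 :=
        (pow_left_inj₀ zero_le zero_le (by have := hprime.one_lt; omega)).1 hwy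
      have e2 : ζ i - ζ j = y * ζ j := by
        rw [hy]; field_simp
      rw [e2, map_mul, hζw, mul_one, hwy2, div_self (w_c0_pos K).ne'] at hlt
      exact lt_irrefl _ hlt

variable {n : ℕ} {t : Fin (n + 1) → N} {γ : ℝ≥0} (P : PData w p F n t γ)
include P

/-- sums without the term `t 0 = 1` are not close to `p`-th powers. -/
lemma not_power {z : Fin n → N} (hz : ∀ i, z i ∈ F)
    (h0 : 0 < w (∑ i : Fin n, t i.succ * z i ^ p)) {y : N} (hy : y ∈ F) :
    ¬ w ((∑ i : Fin n, t i.succ * z i ^ p) - y ^ p) < w (∑ i : Fin n, t i.succ * z i ^ p) := by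
  have hCalg := K.alg
  intro hlt
  obtain ⟨ξ, hξ⟩ := IsAlgClosed.exists_pow_nat_eq (-1 : C) hpp.out.pos
  have hξ' : (ξ : N) ^ p = -1 := by
    have := congrArg Subtype.val hξ
    push_cast at this
    exact this
  have hξF : (ξ : N) ∈ F := K.CF ξ.2
  have key := P.P1 (Fin.cons ((ξ : N) * y) z) (fun i => by
    refine Fin.cases ?_ (fun i => ?_) i
    · exact F.mul_mem hξF hy
    · exact hz i)
  have e : ∑ i, t i * (Fin.cons ((ξ : N) * y) z : Fin (n + 1) → N) i ^ p =
      (∑ i : Fin n, t i.succ * z i ^ p) - y ^ p := by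
    rw [Fin.sum_univ_succ]
    simp only [Fin.cons_zero, Fin.cons_succ, P.t0, mul_pow, hξ']
    ring
  rw [e] at key
  have h2 : ∀ i : Fin n, w (z i) ^ p < w (∑ i : Fin n, t i.succ * z i ^ p) := fun i => by
    have := key i.succ
    rw [Fin.cons_succ] at this
    exact this.trans_lt hlt
  refine lt_irrefl (w (∑ i : Fin n, t i.succ * z i ^ p)) ?_
  refine lt_sum w _ _ h0 fun i _ => ?_
  rw [map_mul, map_pow]
  calc w (t i.succ) * w (z i) ^ p ≤ 1 * w (z i) ^ p := mul_le_mul' (P.t1 _) le_rfl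
    _ = w (z i) ^ p := one_mul _
    _ < _ := h2 i

/-- Step II. -/
lemma step_II {R : ℝ≥0} (hR1 : 1 < R) (hRγ : R ^ p * γ < 1) (hRc : w c0 * R ^ 2 < 1)
    {v : N} (hv : v ∈ F) (hv0 : v ≠ 0) {u : N} (hu : u ∈ F) (hα : (v * α) ^ p = 1 + u)
    (hα1 : w (v * α) = 1) (huR : w u ≤ w c0 ^ p * R ^ p) : Concl w p F α := by
  have hprime := hpp.out
  have hc0F : c0 ∈ F := K.CF K.c0C
  have hc0ne := c0_ne K
  have hρ : 0 < w c0 ^ p := pow_pos (w_c0_pos K) p
  set U := u / c0 ^ p with hU
  have hUF : U ∈ F := F.div_mem hu (F.pow_mem hc0F _)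
  have hUR : w U ≤ R ^ p := by
    rw [hU, map_div₀, map_pow]
    exact (div_le_iff₀ hρ).2 (by rw [mul_comm]; exact huR)
  obtain ⟨W, hWF, y, hyF, hWR, hW⟩ := P.II R hR1.le hRγ U hUF hUR
  have hcW2 : w c0 * w W ^ 2 < 1 :=
    (mul_le_mul' le_rfl (pow_le_pow_left' hWR 2)).trans_lt hRc
  have hcW : w (c0 * W) < 1 := by
    rw [map_mul]
    refine (mul_le_mul' le_rfl (hWR.trans ?_)).trans_lt hRc
    exact le_self_pow₀ hR1.le (by norm_num)
  set q := 1 + c0 * W with hq
  have hqw : w q = 1 := Valuation.map_one_add_of_lt w hcW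
  have hq0 : q ≠ 0 := by rw [← w.ne_zero_iff, hqw]; exact one_ne_zero
  have hqF : q ∈ F := F.add_mem F.one_mem (F.mul_mem hc0F hWF)
  set E1 := ∑ i : Fin n, t i.succ * y i ^ p with hE1
  have hE1F : E1 ∈ F := F.sum_mem fun i _ => F.mul_mem (P.tF _) (F.pow_mem (hyF i) _)
  set u2 := (1 + u - q ^ p) / q ^ p with hu2
  have hu2F : u2 ∈ F := F.div_mem (F.sub_mem (F.add_mem F.one_mem hu) (F.pow_mem hqF _))
    (F.pow_mem hqF _)
  have hv' : v / q ∈ F := F.div_mem hv hqF
  have hα' : (v / q * α) ^ p = 1 + u2 := by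
    have : v / q * α = v * α / q := by ring
    rw [this, div_pow, hα, hu2]
    have hqp : q ^ p ≠ 0 := pow_ne_zero _ hq0
    field_simp
    ring
  have hα1' : w (v / q * α) = 1 := by
    have : v / q * α = v * α / q := by ring
    rw [this, map_div₀, hα1, hqw, div_one]
  have hdiff : w (u2 * q ^ p - c0 ^ p * E1) < w c0 ^ p := by
    have hqp : q ^ p ≠ 0 := pow_ne_zero _ hq0
    have hcp : c0 ^ p ≠ 0 := pow_ne_zero _ hc0ne
    have e : u2 * q ^ p - c0 ^ p * E1 = c0 ^ p * (U + W - W ^ p - E1) -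
        (q ^ p - (1 + c0 ^ p * (W ^ p - W))) := by
      have h1 : u2 * q ^ p = 1 + u - q ^ p := by rw [hu2]; field_simp
      have h2 : c0 ^ p * U = u := by rw [hU]; field_simp
      rw [h1]
      linear_combination -h2
    rw [e]
    refine lt_sub w ?_ (as_expand w p K.c0p hc0ne (w_c0_lt K) hcW2)
    rw [map_mul, map_pow]
    calc _ < w c0 ^ p * 1 := mul_lt_mul_of_pos_left hW hρ
      _ = _ := mul_one _
  have hu2w : w (u2 * q ^ p) = w u2 := by rw [map_mul, map_pow, hqw, one_pow, mul_one]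
  by_cases hE : 1 < w E1
  · -- case ii
    have h3 : w c0 ^ p < w (c0 ^ p * E1) := by
      rw [map_mul, map_pow]
      calc w c0 ^ p = w c0 ^ p * 1 := (mul_one _).symm
        _ < _ := mul_lt_mul_of_pos_left hE hρ
    have h4 : w u2 = w (c0 ^ p * E1) := by
      rw [← hu2w]
      exact eq_of_lt (hdiff.trans h3)
    refine case_ii K hv' (div_ne_zero hv0 hq0) hu2F hα' hα1'.le (by rw [h4]; exact h3) ?_
    intro y' hy' hlt
    have h5 : w (c0 ^ p * E1 - (y' * q) ^ p) < w (c0 ^ p * E1) := by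
      have e : c0 ^ p * E1 - (y' * q) ^ p = (u2 - y' ^ p) * q ^ p - (u2 * q ^ p - c0 ^ p * E1) := by
        ring
      rw [e]
      refine lt_sub w ?_ (hdiff.trans h3)
      rw [map_mul, map_pow, hqw, one_pow, mul_one, ← h4]
      exact hlt
    refine not_power K P hyF (zero_le.trans_lt hE) (y := y' * q / c0)
      (F.div_mem (F.mul_mem hy' hqF) hc0F) ?_
    have e : E1 - (y' * q / c0) ^ p = (c0 ^ p * E1 - (y' * q) ^ p) / c0 ^ p := by
      have hcp : c0 ^ p ≠ 0 := pow_ne_zero _ hc0ne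
      rw [div_pow]; field_simp
    rw [← hE1, e, map_div₀, map_pow, div_lt_iff₀ hρ]
    rwa [map_mul, map_pow, mul_comm (w c0 ^ p)] at h5
  · rw [not_lt] at hE
    refine case_iii K hv' (div_ne_zero hv0 hq0) hα' hα1' ?_
    rw [← hu2w]
    have h6 : w (c0 ^ p * E1) ≤ w c0 ^ p := by
      rw [map_mul, map_pow]
      calc _ ≤ w c0 ^ p * 1 := mul_le_mul' le_rfl hE
        _ = _ := mul_one _
    have := le_add w hdiff.le h6
    simpa using this

/-- the induction. -/
lemma main_induction' {R : ℝ≥0} (hR1 : 1 < R) (hRγ : R ^ p * γ < 1) (hRc : w c0 * R ^ 2 < 1)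
    {θ : ℝ≥0} (hθγ : γ ≤ θ) (hθR : R⁻¹ ≤ θ) (k : ℕ) :
    ∀ v ∈ F, v ≠ 0 → ∀ u ∈ F, (v * α) ^ p = 1 + u → w (v * α) = 1 → w u < 1 →
      w u * θ ^ k ≤ w c0 ^ p * R ^ p → Concl w p F α := by
  have hprime := hpp.out
  induction k with
  | zero =>
    intro v hv hv0 u hu hα hα1 hu1 hk
    rw [pow_zero, mul_one] at hk
    exact step_II K P hR1 hRγ hRc hv hv0 hu hα hα1 hk
  | succ k ih =>
    intro v hv hv0 u hu hα hα1 hu1 hk
    by_cases huR : w u ≤ w c0 ^ p * R ^ p
    · exact step_II K P hR1 hRγ hRc hv hv0 hu hα hα1 huR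
    rw [not_le] at huR
    have hρ : 0 < w c0 ^ p := pow_pos (w_c0_pos K) p
    have hu0 : u ≠ 0 := by
      rw [← w.ne_zero_iff]; exact (zero_le.trans_lt huR).ne'
    -- the p-th root of the value
    obtain ⟨s, hs⟩ : ∃ s : ℝ≥0, s ^ p = w u :=
      ⟨w u ^ ((p : ℝ)⁻¹), NNReal.rpow_inv_natCast_pow _ hprime.ne_zero⟩
    have hsR : w c0 * R < s := by
      by_contra h
      rw [not_lt] at h
      have := pow_le_pow_left' h p
      rw [hs, mul_pow] at this
      exact absurd huR (not_lt.2 this)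
    have hs0 : 0 < s := zero_le.trans_lt hsR
    have hcs : w c0 < s := by
      refine lt_of_le_of_lt ?_ hsR
      calc w c0 = w c0 * 1 := (mul_one _).symm
        _ ≤ w c0 * R := mul_le_mul' le_rfl hR1.le
    obtain ⟨z, hzF, hz⟩ := P.S1 u hu
    have hsum : w (∑ i, t i * z i ^ p) ≤ w u := by
      have h1 : w (u - ∑ i, t i * z i ^ p) ≤ w u := by
        refine hz.trans ?_
        calc γ * w u ≤ 1 * w u := mul_le_mul' P.γ1.le le_rfl
          _ = w u := one_mul _
      have := le_sub w (le_refl (w u)) h1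
      simpa using this
    have hzw : ∀ i, w (z i) ^ p ≤ w u := fun i => (P.P1 z hzF i).trans hsum
    have hz0s : w (z 0) ≤ s := by
      have := hzw 0
      rw [← hs] at this
      exact (pow_le_pow_iff_left₀ zero_le zero_le hprime.ne_zero).1 this
    have hz0lt : w (z 0) < 1 := (pow_lt_one_iff hprime.ne_zero).1 ((hzw 0).trans_lt hu1)
    set q := 1 + z 0 with hq
    have hqw : w q = 1 := Valuation.map_one_add_of_lt w hz0lt
    have hq0 : q ≠ 0 := by rw [← w.ne_zero_iff, hqw]; exact one_ne_zero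
    have hqF : q ∈ F := F.add_mem F.one_mem (hzF 0)
    set E0 := ∑ i : Fin n, t i.succ * z i.succ ^ p with hE0
    set u2 := (1 + u - q ^ p) / q ^ p with hu2
    have hu2F : u2 ∈ F := F.div_mem (F.sub_mem (F.add_mem F.one_mem hu) (F.pow_mem hqF _))
      (F.pow_mem hqF _)
    have hv' : v / q ∈ F := F.div_mem hv hqF
    have hqp : q ^ p ≠ 0 := pow_ne_zero _ hq0
    have hα' : (v / q * α) ^ p = 1 + u2 := by
      have : v / q * α = v * α / q := by ring
      rw [this, div_pow, hα, hu2]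
      field_simp
      ring
    have hα1' : w (v / q * α) = 1 := by
      have : v / q * α = v * α / q := by ring
      rw [this, map_div₀, hα1, hqw, div_one]
    have hu2w : w (u2 * q ^ p) = w u2 := by rw [map_mul, map_pow, hqw, one_pow, mul_one]
    set Q := max (γ * w u) (w (p : N) * s) with hQ
    have hdiff : w (u2 * q ^ p - E0) ≤ Q := by
      have e : u2 * q ^ p - E0 = (u - ∑ i, t i * z i ^ p) - (q ^ p - (1 + z 0 ^ p)) := by
        have h1 : u2 * q ^ p = 1 + u - q ^ p := by rw [hu2]; field_simp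
        rw [h1, Fin.sum_univ_succ, P.t0]
        ring
      rw [e]
      refine le_sub w (hz.trans (le_max_left _ _)) ?_
      refine (one_add_pow w p hz0lt.le).trans ((mul_le_mul' le_rfl hz0s).trans (le_max_right _ _))
    have hρQ : w c0 ^ p < Q := by
      refine lt_of_lt_of_le ?_ (le_max_right _ _)
      rw [pow_succ_sub K, w_c0_pow K]
      exact mul_lt_mul_of_pos_left hcs (pos_iff_ne_zero.2 (w.ne_zero_iff.2 K.hp0))
    by_cases hE : Q < w E0
    · have h4 : w u2 = w E0 := by
        rw [← hu2w]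
        exact eq_of_lt (hdiff.trans_lt hE)
      refine case_ii K hv' (div_ne_zero hv0 hq0) hu2F hα' hα1'.le (by rw [h4]; exact hρQ.trans hE) ?_
      intro y' hy' hlt
      refine not_power K P (z := fun i => z i.succ) (fun i => hzF _) (zero_le.trans_lt hE)
        (y := y' * q) (F.mul_mem hy' hqF) ?_
      have e : (∑ i : Fin n, t i.succ * z i.succ ^ p) - (y' * q) ^ p =
          (u2 - y' ^ p) * q ^ p - (u2 * q ^ p - E0) := by
        rw [← hE0]; ring
      rw [e, ← hE0]
      refine lt_sub w ?_ (hdiff.trans_lt hE)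
      rw [map_mul, map_pow, hqw, one_pow, mul_one, ← h4]
      exact hlt
    · rw [not_lt] at hE
      have h7 : w u2 ≤ Q := by
        rw [← hu2w]
        have := le_add w hdiff hE
        simpa using this
      have h8 : Q ≤ θ * w u := by
        refine max_le (mul_le_mul' hθγ le_rfl) ?_
        have h9 : w (p : N) * s ≤ R⁻¹ * w u := by
          rw [← hs, pow_succ_sub K s, ← w_c0_pow K, ← mul_assoc]
          refine mul_le_mul' ?_ le_rfl
          rw [inv_mul_eq_div, le_div_iff₀ (zero_le.trans_lt hR1)]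
          calc w c0 ^ (p - 1) * R ≤ w c0 ^ (p - 1) * R ^ (p - 1) :=
                mul_le_mul' le_rfl (le_self_pow₀ hR1.le (by have := hprime.one_lt; omega))
            _ = (w c0 * R) ^ (p - 1) := (mul_pow _ _ _).symm
            _ ≤ s ^ (p - 1) := pow_le_pow_left' hsR.le _
        exact h9.trans (mul_le_mul' hθR le_rfl)
      have h10 : w u2 ≤ θ * w u := h7.trans h8
      have hwuQ : Q < 1 := by
        refine max_lt ?_ ?_
        · calc γ * w u ≤ γ * 1 := mul_le_mul' le_rfl hu1.le
            _ < 1 := by rw [mul_one]; exact P.γ1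
        · have hs1 : s ≤ 1 := by
            by_contra h
            rw [not_le] at h
            have := one_lt_pow₀ h hprime.ne_zero
            rw [hs] at this
            exact absurd hu1 (not_lt.2 this.le)
          calc w (p : N) * s ≤ w (p : N) * 1 := mul_le_mul' le_rfl hs1
            _ < 1 := by rw [mul_one]; exact K.hp
      refine ih (v / q) hv' (div_ne_zero hv0 hq0) u2 hu2F hα' hα1' (h7.trans_lt hwuQ) ?_
      calc w u2 * θ ^ k ≤ (θ * w u) * θ ^ k := mul_le_mul' h10 le_rfl
        _ = w u * θ ^ (k + 1) := by rw [pow_succ]; ring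
        _ ≤ _ := hk

/-- **The Kummer step.** -/
theorem kummer_step : Concl w p F α := by
  have hprime := hpp.out
  obtain ⟨R, hR1, hRm⟩ := exists_R p hprime.ne_zero (max_lt P.γ1 (w_c0_lt K))
  have hRγ : R ^ p * γ < 1 := (mul_le_mul' le_rfl (le_max_left _ _)).trans_lt hRm
  have hRc : w c0 * R ^ 2 < 1 := by
    refine lt_of_le_of_lt ?_ ((mul_le_mul' (le_refl (R ^ p)) (le_max_right γ (w c0))).trans_lt hRm)
    rw [mul_comm]
    exact mul_le_mul' (pow_le_pow_right₀ hR1.le hprime.two_le) le_rfl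
  set θ := max γ R⁻¹ with hθ
  have hθ1 : θ < 1 := max_lt P.γ1 (inv_lt_one_of_one_lt₀ hR1)
  -- scale
  obtain ⟨c, hc, hαc⟩ := K.val α K.α0
  have hwα : 0 < w α := pos_iff_ne_zero.2 (w.ne_zero_iff.2 K.α0)
  have hc0 : c ≠ 0 := by rw [← w.ne_zero_iff, ← hαc]; exact hwα.ne'
  have hcF : c ∈ F := K.CF hc
  have hα1 : w (c⁻¹ * α) = 1 := by
    rw [map_mul, map_inv₀, ← hαc, inv_mul_cancel₀ hwα.ne']
  set a := (c⁻¹ * α) ^ p with ha
  have haF : a ∈ F := by
    rw [ha, mul_pow]
    exact F.mul_mem (F.pow_mem (F.inv_mem hcF) _) K.αF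
  have haw : w a = 1 := by rw [ha, map_pow, hα1, one_pow]
  by_cases hno : ∀ y ∈ F, ¬ w (a - y ^ p) < 1
  · refine ⟨c⁻¹ * α, hα1.le, on_insep w p F haF haw.le ?_ hno, c⁻¹, F.inv_mem hcF, 0, F.zero_mem,
      1, F.one_mem, inv_ne_zero hc0, one_ne_zero, by simp⟩
    rw [← ha, sub_self, map_zero]; exact one_pos
  · push Not at hno
    obtain ⟨y, hyF, hy⟩ := hno
    have hyw : w y = 1 := by
      have h1 : w (y ^ p) = 1 := by
        have h2 : w (y ^ p - a) < w a := by rw [Valuation.map_sub_swap, haw]; exact hy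
        rw [eq_of_lt h2, haw]
      rw [map_pow] at h1
      exact (pow_eq_one_iff_of_nonneg zero_le hprime.ne_zero).1 h1
    have hy0 : y ≠ 0 := by rw [← w.ne_zero_iff, hyw]; exact one_ne_zero
    set u := (a - y ^ p) / y ^ p with hu
    have huF : u ∈ F := F.div_mem (F.sub_mem haF (F.pow_mem hyF _)) (F.pow_mem hyF _)
    have hu1 : w u < 1 := by
      rw [hu, map_div₀, map_pow, hyw, one_pow, div_one]; exact hy
    have hyp : y ^ p ≠ 0 := pow_ne_zero _ hy0
    have hα' : (c⁻¹ / y * α) ^ p = 1 + u := by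
      have : c⁻¹ / y * α = c⁻¹ * α / y := by ring
      rw [this, div_pow, ← ha, hu]
      field_simp
      ring
    have hα1' : w (c⁻¹ / y * α) = 1 := by
      have : c⁻¹ / y * α = c⁻¹ * α / y := by ring
      rw [this, map_div₀, hα1, hyw, div_one]
    have hpos : 0 < w c0 ^ p * R ^ p :=
      mul_pos (pow_pos (w_c0_pos K) p) (pow_pos (zero_le.trans_lt hR1) p)
    obtain ⟨k, hk⟩ := NNReal.exists_pow_lt_of_lt_one hpos hθ1
    refine main_induction' K P hR1 hRγ hRc (le_max_left _ _) (le_max_right _ _) k (c⁻¹ / y)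
      (F.div_mem (F.inv_mem hcF) hyF) (div_ne_zero (inv_ne_zero hc0) hy0) u huF hα' hα1' hu1 ?_
    calc w u * θ ^ k ≤ 1 * θ ^ k := mul_le_mul' hu1.le le_rfl
      _ = θ ^ k := one_mul _
      _ ≤ _ := hk.le

end

end Crest.Agent.R013.Stab6_460
end

-- ▼ part R013/Stab7_460
section

/-!
# STAB, part 7: Galois theory: Lagrange resolvents, one step of the tower
-/

namespace Crest.Agent.R013.Stab7_460

open Polynomial Crest.Agent.R013.Stab2_460 Crest.Agent.R013.Stab3_460
  Crest.Agent.R013.Stab6_460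
open scoped NNReal

/-! ### Lagrange resolvents -/

section lagrange

variable {N : Type*} [Field N] {p : ℕ}

/-- Lagrange resolvent -/
noncomputable def lag (p : ℕ) (σ : N ≃+* N) (η : N) (y : N) : N :=
  ∑ i ∈ Finset.range p, η ^ i * (σ ^ i) y

lemma lag_eigen (hp : 0 < p) (σ : N ≃+* N) {η : N} (hη : η ^ p = 1) (hση : σ η = η) {y : N}
    (hy : (σ ^ p) y = y) : η * σ (lag p σ η y) = lag p σ η y := by
  obtain ⟨k, rfl⟩ : ∃ k, p = k + 1 := ⟨p - 1, by omega⟩
  rw [lag, map_sum, Finset.mul_sum]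
  have h1 : ∀ i, η * σ (η ^ i * (σ ^ i) y) = η ^ (i + 1) * (σ ^ (i + 1)) y := by
    intro i
    rw [map_mul, map_pow, hση, pow_succ' σ i]
    have : (σ * σ ^ i) y = σ ((σ ^ i) y) := rfl
    rw [this]; ring
  simp only [h1]
  rw [Finset.sum_range_succ (fun i => η ^ (i + 1) * (σ ^ (i + 1)) y), Finset.sum_range_succ' (fun i => η ^ i * (σ ^ i) y),
    hη, hy]
  simp

lemma lag_sum (hp : 0 < p) (σ : N ≃+* N) {ζ : N} (hζ : IsPrimitiveRoot ζ p) (y : N) :
    ∑ k ∈ Finset.range p, lag p σ (ζ ^ k) y = p * y := by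
  simp only [lag]
  rw [Finset.sum_comm]
  have h1 : ∀ i ∈ Finset.range p, ∑ k ∈ Finset.range p, (ζ ^ k) ^ i * (σ ^ i) y =
      if i = 0 then (p : N) * y else 0 := by
    intro i hi
    rw [Finset.mem_range] at hi
    rw [← Finset.sum_mul]
    split_ifs with h0
    · subst h0; simp
    · have h2 : ∑ k ∈ Finset.range p, (ζ ^ k) ^ i = ∑ k ∈ Finset.range p, (ζ ^ i) ^ k :=
        Finset.sum_congr rfl fun k _ => by rw [← pow_mul, ← pow_mul, mul_comm]
      have h3 : (∑ k ∈ Finset.range p, (ζ ^ i) ^ k) * (ζ ^ i - 1) = 0 := by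
        rw [geom_sum_mul, ← pow_mul, mul_comm, pow_mul, hζ.pow_eq_one, one_pow, sub_self]
      have h4 : ζ ^ i - 1 ≠ 0 := sub_ne_zero.2 (hζ.pow_ne_one_of_pos_of_lt h0 hi)
      rw [h2, (mul_eq_zero.1 h3).resolve_right h4, zero_mul]
  rw [Finset.sum_congr rfl h1, Finset.sum_ite_eq' (Finset.range p) 0]
  simp [hp]

end lagrange

/-! ### one step -/

section step

variable {N : Type*} [Field N] {w : Valuation N ℝ≥0} {p : ℕ}

/-- One Kummer step: `F ≤ F1` subfields, `σ` acts on `F1` with fixed field `F`, order `p`. -/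
theorem one_step [hpp : Fact p.Prime] (hp : w (p : N) < 1) (hp0 : (p : N) ≠ 0) {C H F F1 : Subfield N}
    {x : N} (S : Setup w p C H x) (hHF : H ≤ F) (hFF1 : F ≤ F1) (hgood : Good w H F)
    (hval : ∀ y : N, y ≠ 0 → ∃ c ∈ C, w y = w c)
    (σ : N ≃+* N) (hσw : ∀ y, w (σ y) = w y) (hσF1 : ∀ y ∈ F1, σ y ∈ F1)
    (hσp : ∀ y ∈ F1, (σ ^ p) y = y) (hσF : ∀ y ∈ F1, σ y = y ↔ y ∈ F)
    (hne : ∃ y ∈ F1, σ y ≠ y) : Good w F F1 := by
  classical
  have hprime := hpp.out
  have hCalg := S.alg
  have hCF : C ≤ F := S.CH.trans hHF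
  have hσC : ∀ c ∈ F, σ c = c := fun c hc => (hσF c (hFF1 hc)).2 hc
  have hp0C : ((p : ℕ) : C) ≠ 0 := by
    intro h
    apply hp0
    have := congrArg Subtype.val h
    push_cast at this
    exact this
  have : NeZero ((p : ℕ) : C) := ⟨hp0C⟩
  obtain ⟨ζ', hζ'⟩ := HasEnoughRootsOfUnity.exists_primitiveRoot C p
  have hζN : IsPrimitiveRoot (ζ' : N) p := hζ'.map_of_injective (f := C.subtype) Subtype.val_injective
  -- the powers of σ on F1
  have hσiF1 : ∀ i : ℕ, ∀ y ∈ F1, (σ ^ i) y ∈ F1 := by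
    intro i
    induction i with
    | zero => intro y hy; exact hy
    | succ i ih => intro y hy; rw [pow_succ']; exact hσF1 _ (ih y hy)
  have hσiF : ∀ i : ℕ, ∀ y ∈ F, (σ ^ i) y = y := by
    intro i
    induction i with
    | zero => intro y hy; rfl
    | succ i ih =>
      intro y hy
      rw [pow_succ']
      have : (σ * σ ^ i) y = σ ((σ ^ i) y) := rfl
      rw [this, ih y hy, hσC y hy]
  have hσiw : ∀ i : ℕ, ∀ y, w ((σ ^ i) y) = w y := by
    intro i
    induction i with
    | zero => intro y; rfl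
    | succ i ih =>
      intro y
      rw [pow_succ']
      have : (σ * σ ^ i) y = σ ((σ ^ i) y) := rfl
      rw [this, hσw, ih y]
  have hlagF1 : ∀ η ∈ F, ∀ y ∈ F1, lag p σ η y ∈ F1 := fun η hη y hy =>
    F1.sum_mem fun i _ => F1.mul_mem (F1.pow_mem (hFF1 hη) _) (hσiF1 i y hy)
  -- an eigenvector
  obtain ⟨α, η, hαF1, hα0, hηC, hη, hη1, hσα⟩ : ∃ α η : N, α ∈ F1 ∧ α ≠ 0 ∧ η ∈ C ∧ η ^ p = 1 ∧
      η ≠ 1 ∧ η * σ α = α := by
    obtain ⟨z, hzF1, hz⟩ := hne
    by_contra hcon
    push Not at hcon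
    have h1 : ∀ k ∈ Finset.range p, k ≠ 0 → lag p σ ((ζ' : N) ^ k) z = 0 := by
      intro k hk hk0
      rw [Finset.mem_range] at hk
      by_contra hne
      have hζk : (ζ' : N) ^ k ∈ C := C.pow_mem ζ'.2 k
      refine hcon _ ((ζ' : N) ^ k) (hlagF1 _ (hCF hζk) z hzF1) hne hζk ?_
        (hζN.pow_ne_one_of_pos_of_lt hk0 hk) ?_
      · rw [← pow_mul, mul_comm, pow_mul, hζN.pow_eq_one, one_pow]
      · exact lag_eigen hprime.pos σ (by rw [← pow_mul, mul_comm, pow_mul, hζN.pow_eq_one, one_pow])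
          (hσC _ (hCF hζk)) (hσp z hzF1)
    have h2 := lag_sum hprime.pos σ hζN z
    rw [Finset.sum_eq_single_of_mem 0 (Finset.mem_range.2 hprime.pos) h1, pow_zero] at h2
    have h3 : σ (lag p σ 1 z) = lag p σ 1 z := by
      have := lag_eigen hprime.pos σ (η := 1) (one_pow p) (map_one σ) (hσp z hzF1)
      rwa [one_mul] at this
    rw [h2, map_mul, map_natCast] at h3
    exact hz (mul_left_cancel₀ hp0 h3)
  have hηF : η ∈ F := hCF hηC
  have hη0 : η ≠ 0 := by
    rintro rfl
    rw [zero_pow hprime.ne_zero] at hη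
    exact zero_ne_one hη
  have hηprim : IsPrimitiveRoot η p := by
    have h1 : orderOf η = p := orderOf_eq_prime hη hη1
    rw [← h1]; exact IsPrimitiveRoot.orderOf η
  have hσα' : σ α = η⁻¹ * α := by
    rw [eq_inv_mul_iff_mul_eq₀ hη0]; exact hσα
  have hσiα : ∀ i : ℕ, (σ ^ i) α = (η⁻¹) ^ i * α := by
    intro i
    induction i with
    | zero => simp
    | succ i ih =>
      rw [pow_succ']
      have : (σ * σ ^ i) α = σ ((σ ^ i) α) := rfl
      rw [this, ih, map_mul, map_pow, map_inv₀, hσC η hηF, hσα']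
      ring
  have hηinv : IsPrimitiveRoot η⁻¹ p := hηprim.inv
  obtain ⟨c0', hc0'⟩ := IsAlgClosed.exists_pow_nat_eq (-(p : C)) (n := p - 1)
    (by have := hprime.one_lt; omega)
  have hc0 : (c0' : N) ^ (p - 1) = -p := by
    have := congrArg Subtype.val hc0'
    push_cast at this
    exact this
  have K : KData w p C F α (c0' : N) := by
    refine ⟨hp, hp0, S.alg, hCF, hval, hα0, ?_, c0'.2, hc0,
      fun i => σ ^ (i : ℕ), fun i => (η⁻¹) ^ (i : ℕ), fun i y => hσiw i y, fun i y hy => hσiF i y hy,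
      fun i => hσiα i, ?_, ?_⟩
    · rw [← hσF _ (F1.pow_mem hαF1 p), map_pow, hσα', mul_pow, inv_pow, hη, inv_one, one_mul]
    · intro i
      rw [← pow_mul, mul_comm, pow_mul, hηinv.pow_eq_one, one_pow]
    · intro i j hij
      exact Fin.ext (hηinv.pow_inj i.2 j.2 hij)
  obtain ⟨n, t, γ, P⟩ := Stab5_460.exists_pdata S hp0 hHF hgood
  obtain ⟨β, hβ1, hβon, v, hv, e, he, c, hc, hv0, hc0ne, hβ⟩ := kummer_step K P
  have hβF1 : β ∈ F1 := by
    rw [hβ]
    exact F1.div_mem (F1.sub_mem (F1.mul_mem (hFF1 hv) hαF1) (hFF1 he)) (hFF1 hc)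
  refine ⟨p, fun i => β ^ (i : ℕ), fun i => F1.pow_mem hβF1 _, fun i => pow_le_one_w w hβ1 _,
    hβon, fun y hy => ?_⟩
  -- spanning
  have hfk : ∀ k : ℕ, ∃ f ∈ F, lag p σ (η ^ k) y = f * α ^ k := by
    intro k
    refine ⟨lag p σ (η ^ k) y / α ^ k, ?_, by field_simp⟩
    have hmem : lag p σ (η ^ k) y ∈ F1 := hlagF1 _ (F.pow_mem hηF k) y hy
    rw [← hσF _ (F1.div_mem hmem (F1.pow_mem hαF1 k)), map_div₀, map_pow, hσα', mul_pow]
    have h1 := lag_eigen hprime.pos σ (η := η ^ k)
      (by rw [← pow_mul, mul_comm, pow_mul, hη, one_pow]) (hσC _ (F.pow_mem hηF k)) (hσp y hy)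
    have h2 : σ (lag p σ (η ^ k) y) = (η ^ k)⁻¹ * lag p σ (η ^ k) y := by
      rw [eq_inv_mul_iff_mul_eq₀ (pow_ne_zero k hη0)]; exact h1
    rw [h2, inv_pow]
    have h3 : (η ^ k)⁻¹ ≠ 0 := inv_ne_zero (pow_ne_zero k hη0)
    rw [mul_div_mul_left _ _ h3]
  choose f hfF hf using hfk
  have hysum : y = ∑ k ∈ Finset.range p, (f k / p) * α ^ k := by
    have h1 := lag_sum hprime.pos σ hηprim y
    simp only [hf] at h1
    have h2 : ∑ k ∈ Finset.range p, (f k / p) * α ^ k = (∑ k ∈ Finset.range p, f k * α ^ k) / p := by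
      rw [Finset.sum_div]
      exact Finset.sum_congr rfl fun k _ => by ring
    rw [h2, h1]; field_simp
  have hpF : (p : N) ∈ F := natCast_mem F p
  let q : F[X] := ∑ k ∈ Finset.range p, Polynomial.C (⟨f k / p, F.div_mem (hfF k) hpF⟩ : F) * X ^ k
  let l : F[X] := Polynomial.C (⟨c / v, F.div_mem hc hv⟩ : F) * X + Polynomial.C (⟨e / v, F.div_mem he hv⟩ : F)
  have hl : aeval β l = α := by
    simp only [l, map_add, map_mul, aeval_C, aeval_X]
    have h1 : algebraMap F N ⟨c / v, F.div_mem hc hv⟩ = c / v := rfl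
    have h2 : algebraMap F N ⟨e / v, F.div_mem he hv⟩ = e / v := rfl
    rw [h1, h2, hβ]
    field_simp
    ring
  have hq : aeval α q = y := by
    rw [hysum]
    simp only [q, map_sum, map_mul, aeval_C, map_pow, aeval_X]
    rfl
  have hqd : q.natDegree < p := by
    have : q.natDegree ≤ p - 1 := by
      refine natDegree_sum_le_of_forall_le _ _ fun k hk => ?_
      refine (natDegree_C_mul_X_pow_le _ _).trans ?_
      rw [Finset.mem_range] at hk
      omega
    have := hprime.pos
    omega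
  have hld : l.natDegree ≤ 1 := natDegree_linear_le
  have hcomp : (q.comp l).natDegree < p := by
    refine lt_of_le_of_lt natDegree_comp_le ?_
    calc q.natDegree * l.natDegree ≤ q.natDegree * 1 := Nat.mul_le_mul_left _ hld
      _ < p := by rw [mul_one]; exact hqd
  refine ⟨fun i => ((q.comp l).coeff i : N), fun i => ((q.comp l).coeff i).2, ?_⟩
  have h4 : aeval β (q.comp l) = y := by
    rw [aeval_comp, hl, hq]
  rw [← h4, aeval_eq_sum_range' hcomp, Finset.sum_range]
  rfl

end step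

end Crest.Agent.R013.Stab7_460
end

-- ▼ part R013/Stab8_460
section

/-!
# STAB, part 8: finite Galois extensions
-/

namespace Crest.Agent.R013.Stab8_460

open Polynomial Crest.Agent.R013.Stab2_460 Crest.Agent.R013.Stab3_460
  Crest.Agent.R013.Stab6_460 Crest.Agent.R013.Stab7_460
open scoped NNReal IntermediateField

variable {N : Type*} [Field N] {w : Valuation N ℝ≥0} {p : ℕ}

/-! ### linear independence of residues -/

lemma on_of_li {ι : Type*} [Fintype ι] (F : Subfield N) (b : ι → N) (hb : ∀ i, w (b i) ≤ 1)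
    (hli : LinearIndependent (resF w F) (fun i => r w (b i))) : ON w F b := by
  refine on_of_unit w F b fun c hc hc1 hlt i => ?_
  rw [Fintype.linearIndependent_iff] at hli
  have h1 := hli (fun i => ⟨r w (c i), r_mem_resF w (hc i) (hc1 i)⟩) (by
    have h2 : r w (∑ j, c j * b j) = 0 := (r_eq_zero w hlt.le).2 hlt
    rw [r_sum w _ _ (fun j _ => by rw [map_mul]; exact mul_le_one' (hc1 j) (hb j))] at h2
    rw [← h2]
    refine Finset.sum_congr rfl fun j _ => ?_
    rw [r_mul w (hc1 j) (hb j)]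
    rfl) i
  have h3 : r w (c i) = 0 := congrArg Subtype.val h1
  exact (r_eq_zero w (hc1 i)).1 h3

lemma li_of_on {ι : Type*} [Fintype ι] {F : Subfield N} {b : ι → N} (h : ON w F b) :
    LinearIndependent F b := by
  rw [Fintype.linearIndependent_iff]
  intro g hg i
  have h1 := h (fun i => (g i : N)) (fun i => (g i).2) i
  have h2 : ∑ j, (g j : N) * b j = 0 := hg
  rw [h2, map_zero] at h1
  have h3 : (g i : N) = 0 := w.zero_iff.1 (le_antisymm h1 zero_le)
  exact Subtype.ext h3

lemma finite_res (H : Subfield N) [FiniteDimensional H N] : FiniteDimensional (resF w H) (kap w) := by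
  classical
  have h : Module.rank (resF w H) (kap w) ≤ Module.finrank H N := by
    refine rank_le fun s hs => ?_
    choose b hb1 hb using fun z : s => r_surj w (z : kap w)
    have h1 : ON w H b := on_of_li H b hb1 (by
      have : (fun i => r w (b i)) = fun i : s => (i : kap w) := funext fun i => hb i
      rw [this]; exact hs)
    have h2 := (li_of_on h1).fintype_card_le_finrank
    simpa using h2
  exact Module.rank_lt_aleph0_iff.1 (h.trans_lt (Cardinal.natCast_lt_aleph0))

/-! ### lifting polynomials -/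

/-- `q` lifts `q'`. -/
def Lifts (H : Subfield N) (q : H[X]) (q' : (resF w H)[X]) : Prop :=
  ∀ i, w (q.coeff i : N) ≤ 1 ∧ r w (q.coeff i : N) = (q'.coeff i : kap w)

lemma lifts_eval {H : Subfield N} {q : H[X]} {q' : (resF w H)[X]} (h : Lifts H q q') {y : N}
    (hy : w y ≤ 1) : w (aeval y q) ≤ 1 ∧ r w (aeval y q) = aeval (r w y) q' := by
  classical
  set n := max q.natDegree q'.natDegree + 1 with hn
  have h1 : aeval y q = ∑ i ∈ Finset.range n, (q.coeff i : N) * y ^ i :=
    aeval_eq_sum_range' (by omega) y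
  have h2 : aeval (r w y) q' = ∑ i ∈ Finset.range n, (q'.coeff i : kap w) * r w y ^ i :=
    aeval_eq_sum_range' (by omega) (r w y)
  have h3 : ∀ i ∈ Finset.range n, w ((q.coeff i : N) * y ^ i) ≤ 1 := fun i _ => by
    rw [map_mul]; exact mul_le_one' (h i).1 (pow_le_one_w w hy i)
  refine ⟨?_, ?_⟩
  · rw [h1]; exact le_sum w _ _ h3
  · rw [h1, h2, r_sum w _ _ h3]
    refine Finset.sum_congr rfl fun i _ => ?_
    rw [r_mul w (h i).1 (pow_le_one_w w hy i), r_pow w hy, (h i).2]

lemma lifts_derivative {H : Subfield N} {q : H[X]} {q' : (resF w H)[X]} (h : Lifts H q q') :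
    Lifts H (derivative q) (derivative q') := by
  intro i
  rw [coeff_derivative, coeff_derivative]
  push_cast
  have h1 : w ((i : N) + 1) ≤ 1 := le_add w (natCast_le_one w i) (map_one w).le
  refine ⟨?_, ?_⟩
  · rw [map_mul]; exact mul_le_one' (h _).1 h1
  · rw [r_mul w (h _).1 h1, (h _).2, r_add w (natCast_le_one w i) (map_one w).le, r_natCast, r_one]

lemma exists_lifts (H : Subfield N) (q' : (resF w H)[X]) : ∃ q : H[X], Lifts H q q' ∧
    q.natDegree ≤ q'.natDegree ∧ (q'.Monic → q.Monic ∧ q.natDegree = q'.natDegree) := by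
  classical
  have hL : ∀ z : resF w H, ∃ y : H, w (y : N) ≤ 1 ∧ r w (y : N) = (z : kap w) := by
    rintro ⟨z, y, hy, hy1, hyz⟩
    exact ⟨⟨y, hy⟩, hy1, hyz⟩
  choose L hL1 hL2 using hL
  let L' : resF w H → H := fun z => if z = 1 then 1 else L z
  have hL'1 : ∀ z, w (L' z : N) ≤ 1 := by
    intro z
    simp only [L']
    split_ifs
    · push_cast; simp
    · exact hL1 z
  have hL'2 : ∀ z, r w (L' z : N) = (z : kap w) := by
    intro z
    simp only [L']
    split_ifs with h
    · subst h; push_cast; exact r_one w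
    · exact hL2 z
  set d := q'.natDegree with hd
  let q : H[X] := ∑ i ∈ Finset.range (d + 1), Polynomial.C (L' (q'.coeff i)) * X ^ i
  have hcoeff : ∀ i, q.coeff i = if i ∈ Finset.range (d + 1) then L' (q'.coeff i) else 0 := by
    intro i
    simp only [q, finsetSum_coeff, coeff_C_mul, coeff_X_pow, mul_ite, mul_one, mul_zero]
    rw [Finset.sum_ite_eq]
  have hdeg : q.natDegree ≤ d := by
    refine natDegree_sum_le_of_forall_le _ _ fun i hi => ?_
    refine (natDegree_C_mul_X_pow_le _ _).trans ?_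
    rw [Finset.mem_range] at hi
    omega
  refine ⟨q, fun i => ?_, hdeg, fun hm => ?_⟩
  · rw [hcoeff]
    split_ifs with h
    · exact ⟨hL'1 _, hL'2 _⟩
    · rw [Finset.mem_range, not_lt] at h
      have : q'.coeff i = 0 := coeff_eq_zero_of_natDegree_lt (by omega)
      rw [this]
      push_cast
      exact ⟨by simp, r_zero w⟩
  · have h1 : q.coeff d = 1 := by
      rw [hcoeff, if_pos (by simp)]
      have : q'.coeff d = 1 := hm
      rw [this]; simp [L']
    have h2 : q.Monic := monic_of_natDegree_le_of_coeff_eq_one d hdeg h1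
    refine ⟨h2, le_antisymm hdeg ?_⟩
    refine le_natDegree_of_ne_zero ?_
    rw [h1]; exact one_ne_zero

/-! ### the unramified part -/

section

variable {C H : Subfield N} {x : N} 

/-- the separable part of the residue field is generated by one element. -/
lemma exists_residue_gen [hpp : Fact p.Prime] (hp : w (p : N) < 1) (H : Subfield N)
    [FiniteDimensional H N] : ∃ z : kap w, IsSeparable (resF w H) z ∧
      ∀ y : kap w, ∃ m : ℕ, y ^ p ^ m ∈ (resF w H)⟮z⟯ := by
  have hfin := finite_res (w := w) H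
  have hchar := charP_kap w p hp
  set K := resF w H with hK
  obtain ⟨z, hz⟩ := Field.exists_primitive_element K (separableClosure K (kap w))
  refine ⟨(z : kap w), ?_, ?_⟩
  · exact mem_separableClosure_iff.1 z.2
  · intro y
    have hc : CharP (separableClosure K (kap w)) p :=
      ((algebraMap (separableClosure K (kap w)) (kap w)).charP_iff
        (algebraMap (separableClosure K (kap w)) (kap w)).injective p).2 hchar
    have he : ExpChar (separableClosure K (kap w)) p := ExpChar.prime hpp.out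
    obtain ⟨m, u, hu⟩ := IsPurelyInseparable.pow_mem (separableClosure K (kap w)) p y
    refine ⟨m, ?_⟩
    rw [← hu]
    have h1 : u ∈ (⊤ : IntermediateField K (separableClosure K (kap w))) := trivial
    rw [← hz] at h1
    have h2 : K⟮(z : kap w)⟯ = (K⟮z⟯).map (separableClosure K (kap w)).val := by
      rw [IntermediateField.adjoin_map, Set.image_singleton]; rfl
    rw [h2]
    exact ⟨u, h1, rfl⟩

end

end Crest.Agent.R013.Stab8_460
end

-- ▼ part R013/Stab9_460
section

/-!
# STAB, part 9: finite Galois extensions: inertia, the tower, the main theorem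
-/

namespace Crest.Agent.R013.Stab9_460

open Polynomial Crest.Agent.R013.Stab2_460 Crest.Agent.R013.Stab3_460
  Crest.Agent.R013.Stab6_460 Crest.Agent.R013.Stab7_460 Crest.Agent.R013.Stab8_460
open scoped NNReal IntermediateField

variable {N : Type*} [Field N] {w : Valuation N ℝ≥0} {p : ℕ}

/-- Hensel's lemma for `N` and polynomials over `H`. -/
def Hens (w : Valuation N ℝ≥0) (H : Subfield N) : Prop :=
  ∀ g : H[X], g.Monic → (∀ i, w (g.coeff i : N) ≤ 1) → ∀ θ0 : N, w θ0 ≤ 1 →
    w (aeval θ0 g) < 1 → w (aeval θ0 (derivative g)) = 1 → ∃ θ : N, aeval θ g = 0 ∧ w (θ - θ0) < 1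

/-- the group preserving `w`. -/
def Inv (w : Valuation N ℝ≥0) (H : Subfield N) : Prop := ∀ (σ : N ≃ₐ[H] N) (y : N), w (σ y) = w y

section

variable {C H : Subfield N} {x : N} (S : Setup w p C H x) [FiniteDimensional H N] [IsGalois H N]
  (hinv : Inv w H)

include S hinv in
lemma val_N (y : N) (hy : y ≠ 0) : ∃ c ∈ C, w y = w c := by
  classical
  have hCalg := S.alg
  have h1 := Algebra.norm_eq_prod_automorphisms (K := H) (L := N) y
  have h2 : w (algebraMap H N (Algebra.norm H y)) = w y ^ (Fintype.card (N ≃ₐ[H] N)) := by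
    rw [h1, map_prod, Finset.prod_congr rfl fun σ _ => hinv σ y, Finset.prod_const,
      Finset.card_univ]
  have hn0 : (algebraMap H N (Algebra.norm H y)) ≠ 0 := by
    rw [Ne, ← w.zero_iff, h2]
    exact pow_ne_zero _ (w.ne_zero_iff.2 hy)
  obtain ⟨c, -, hc⟩ := value_H S (Algebra.norm H y).2 hn0
  have hcard : 0 < Fintype.card (N ≃ₐ[H] N) := Fintype.card_pos
  obtain ⟨d, hd⟩ := IsAlgClosed.exists_pow_nat_eq c hcard
  refine ⟨d, d.2, ?_⟩
  have h3 : w (d : N) ^ (Fintype.card (N ≃ₐ[H] N)) = w (c : N) := by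
    rw [← map_pow, ← hd]; push_cast; rfl
  have h4 : w (((Algebra.norm H y : H)) : N) = w (c : N) := hc
  have h5 : w y ^ (Fintype.card (N ≃ₐ[H] N)) = w (d : N) ^ (Fintype.card (N ≃ₐ[H] N)) := by
    rw [h3, ← h4]; exact h2.symm
  exact (pow_left_inj₀ zero_le zero_le hcard.ne').1 h5

/-- generator of the unramified part. -/
lemma exists_theta [hpp : Fact p.Prime] (hp : w (p : N) < 1) (H : Subfield N)
    [FiniteDimensional H N] (hens : Hens w H) : ∃ θ : N, w θ ≤ 1 ∧
      Good w H (H⟮θ⟯).toSubfield ∧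
      ∀ y : N, w y ≤ 1 → ∃ m : ℕ, ∃ q : H[X], w (y ^ p ^ m - aeval θ q) < 1 := by
  classical
  have hfin := finite_res (w := w) H
  obtain ⟨z, hzsep, hz⟩ := exists_residue_gen (w := w) hp H
  set K := resF w H with hK
  have hzint : IsIntegral K z := Algebra.IsIntegral.isIntegral z
  set g' := minpoly K z with hg'
  obtain ⟨g, hgl, -, hgm⟩ := exists_lifts H g'
  obtain ⟨hgmonic, hgdeg⟩ := hgm (minpoly.monic hzint)
  obtain ⟨θ0, hθ01, hθ0⟩ := r_surj w z
  have h1 : w (aeval θ0 g) < 1 := by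
    obtain ⟨h2, h3⟩ := lifts_eval hgl hθ01
    rw [← r_eq_zero w h2, h3, hθ0]
    exact minpoly.aeval K z
  have h4 : w (aeval θ0 (derivative g)) = 1 := by
    obtain ⟨h2, h3⟩ := lifts_eval (lifts_derivative hgl) hθ01
    refine le_antisymm h2 ?_
    by_contra h5
    rw [not_le, ← r_eq_zero w h2, h3, hθ0] at h5
    exact hzsep.aeval_derivative_ne_zero (minpoly.aeval K z) h5
  obtain ⟨θ, hθg, hθ⟩ := hens g hgmonic (fun i => (hgl i).1) θ0 hθ01 h1 h4
  have hθ1 : w θ ≤ 1 := by
    have := le_add w hθ.le hθ01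
    simpa using this
  have hrθ : r w θ = z := by rw [← hθ0, r_eq w hθ1 hθ01]; exact hθ
  refine ⟨θ, hθ1, ?_, ?_⟩
  · refine ⟨g'.natDegree, fun i => θ ^ (i : ℕ), fun i => ?_, fun i => pow_le_one_w w hθ1 _, ?_,
      fun y hy => ?_⟩
    · exact (H⟮θ⟯).toSubfield.pow_mem (IntermediateField.mem_adjoin_simple_self H θ) _
    · refine on_of_li H _ (fun i => pow_le_one_w w hθ1 _) ?_
      have h6 := linearIndependent_pow (K := K) z
      have h7 : (fun i : Fin g'.natDegree => r w (θ ^ (i : ℕ))) =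
          fun i : Fin g'.natDegree => z ^ (i : ℕ) := by
        funext i; rw [r_pow w hθ1, hrθ]
      rw [h7]; exact h6
    · have hθint : IsIntegral H θ := Algebra.IsIntegral.isIntegral θ
      have hy' : y ∈ (H⟮θ⟯).toSubalgebra := hy
      rw [IntermediateField.adjoin_simple_toSubalgebra_of_isAlgebraic hθint.isAlgebraic,
        Algebra.adjoin_singleton_eq_range_aeval] at hy'
      obtain ⟨q, hq⟩ := hy'
      have h8 : aeval θ (q %ₘ g) = y := by
        rw [← hq]; exact aeval_modByMonic_eq_self_of_root hθg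
      have hpos : 0 < g.natDegree := by
        rw [hgdeg]; exact minpoly.natDegree_pos hzint
      have hg1 : g ≠ 1 := by rintro rfl; simp at hpos
      have h9 : (q %ₘ g).natDegree < g'.natDegree := by
        rw [← hgdeg]; exact natDegree_modByMonic_lt q hgmonic hg1
      refine ⟨fun i => ((q %ₘ g).coeff i : N), fun i => ((q %ₘ g).coeff i).2, ?_⟩
      rw [← h8, aeval_eq_sum_range' h9, Finset.sum_range]
      rfl
  · intro y hy
    obtain ⟨m, hm⟩ := hz (r w y)
    have hm' : r w y ^ p ^ m ∈ (K⟮z⟯).toSubalgebra := hm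
    rw [IntermediateField.adjoin_simple_toSubalgebra_of_isAlgebraic hzint.isAlgebraic,
      Algebra.adjoin_singleton_eq_range_aeval] at hm'
    obtain ⟨q', hq'⟩ := hm'
    obtain ⟨q, hql, -, -⟩ := exists_lifts H q'
    obtain ⟨h2, h3⟩ := lifts_eval hql hθ1
    refine ⟨m, q, ?_⟩
    rw [← r_eq w (pow_le_one_w w hy _) h2, h3, r_pow w hy, hrθ]
    exact hq'.symm

lemma aut_aeval {H : Subfield N} (σ : N ≃ₐ[H] N) {θ : N} (hσ : σ θ = θ) (q : H[X]) :
    σ (aeval θ q) = aeval θ q := by
  have := (aeval_algHom_apply (σ : N →ₐ[H] N) θ q)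
  have h2 : (σ : N →ₐ[H] N) θ = θ := hσ
  rw [h2] at this
  exact this.symm

include S hinv in
/-- elements of the inertia group act trivially on residues. -/
lemma inertia [hpp : Fact p.Prime] {θ : N}
    (hθ : ∀ y : N, w y ≤ 1 → ∃ m : ℕ, ∃ q : H[X], w (y ^ p ^ m - aeval θ q) < 1)
    (σ : N ≃ₐ[H] N) (hσ : σ θ = θ) (y : N) (hy : y ≠ 0) : w (σ y - y) < w y := by
  have hchar := charP_kap w p S.hp
  obtain ⟨c, hc, hyc⟩ := val_N S hinv y hy
  have hwy : 0 < w y := pos_iff_ne_zero.2 (w.ne_zero_iff.2 hy)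
  have hc0 : c ≠ 0 := by rw [← w.ne_zero_iff, ← hyc]; exact hwy.ne'
  set y' := y / c with hy'
  have hy'1 : w y' = 1 := by rw [hy', map_div₀, hyc, div_self (by rw [← hyc]; exact hwy.ne')]
  obtain ⟨m, q, hq⟩ := hθ y' hy'1.le
  have h1 : w ((σ y') ^ p ^ m - aeval θ q) < 1 := by
    have := hinv σ (y' ^ p ^ m - aeval θ q)
    rw [map_sub, map_pow, aut_aeval σ hσ] at this
    rw [this]; exact hq
  have h2 : w ((σ y') ^ p ^ m - y' ^ p ^ m) < 1 := by
    have := lt_sub w h1 hq
    simpa using this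
  have hσy1 : w (σ y') ≤ 1 := by rw [hinv]; exact hy'1.le
  rw [← r_eq w (pow_le_one_w w hσy1 _) (pow_le_one_w w hy'1.le _), r_pow w hσy1,
    r_pow w hy'1.le] at h2
  have h3 : r w (σ y') = r w y' := by
    have hinj : Function.Injective (iterateFrobenius (kap w) p m) :=
      (iterateFrobenius (kap w) p m).injective
    apply hinj
    rw [iterateFrobenius_def, iterateFrobenius_def]
    exact h2
  rw [r_eq w hσy1 hy'1.le] at h3
  have hσc : σ c = c := by
    have : σ (algebraMap H N ⟨c, S.CH hc⟩) = algebraMap H N ⟨c, S.CH hc⟩ := σ.commutes _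
    exact this
  have e : σ y - y = (σ y' - y') * c := by
    have h4 : y = y' * c := by rw [hy']; field_simp
    conv_lhs => rw [h4]
    rw [map_mul, hσc]; ring
  rw [e, map_mul, hyc]
  calc w (σ y' - y') * w c < 1 * w c := mul_lt_mul_of_pos_right h3 (by rw [← hyc]; exact hwy)
    _ = w c := one_mul _

include S hinv in
/-- the inertia group is a `p`-group. -/
lemma inertia_card [hpp : Fact p.Prime] {θ : N}
    (hθ : ∀ y : N, w y ≤ 1 → ∃ m : ℕ, ∃ q : H[X], w (y ^ p ^ m - aeval θ q) < 1) :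
    ∃ n, Nat.card (IntermediateField.fixingSubgroup H⟮θ⟯) = p ^ n := by
  classical
  refine ⟨_, Nat.eq_prime_pow_of_unique_prime_dvd Nat.card_pos.ne' (p := p) ?_⟩
  intro q hq hdvd
  by_contra hqp
  have : Fact q.Prime := ⟨hq⟩
  obtain ⟨σ', hσ'⟩ := exists_prime_orderOf_dvd_card' q hdvd
  set σ : N ≃ₐ[H] N := (σ' : N ≃ₐ[H] N) with hσdef
  have hσq : orderOf σ = q := by rw [hσdef, Subgroup.orderOf_coe]; exact hσ'
  have hθ1 : ∀ i : ℕ, (σ ^ i) θ = θ := by
    intro i
    have h1 : σ ^ i ∈ IntermediateField.fixingSubgroup H⟮θ⟯ := pow_mem σ'.2 i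
    rw [IntermediateField.mem_fixingSubgroup_iff] at h1
    exact h1 θ (IntermediateField.mem_adjoin_simple_self H θ)
  have hne : ∃ z, σ z ≠ z := by
    by_contra h
    push Not at h
    have : σ = 1 := AlgEquiv.ext h
    rw [this, orderOf_one] at hσq
    exact hq.one_lt.ne hσq
  obtain ⟨z, hz⟩ := hne
  set y := z - σ z with hy
  have hy0 : y ≠ 0 := by rw [hy, sub_ne_zero]; exact fun h => hz h.symm
  have hwy : 0 < w y := pos_iff_ne_zero.2 (w.ne_zero_iff.2 hy0)
  have hsum : ∑ i ∈ Finset.range q, (σ ^ i) y = 0 := by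
    have h1 : ∀ i : ℕ, (σ ^ i) y = (σ ^ i) z - (σ ^ (i + 1)) z := by
      intro i
      rw [hy, map_sub, pow_succ]
      rfl
    simp only [h1]
    rw [Finset.sum_range_sub', ← hσq, pow_orderOf_eq_one, pow_zero, sub_self]
  have h2 : w (∑ i ∈ Finset.range q, ((σ ^ i) y - y)) < w y :=
    lt_sum w _ _ hwy fun i _ => inertia S hinv hθ (σ ^ i) (hθ1 i) y hy0
  rw [Finset.sum_sub_distrib, hsum, zero_sub, Valuation.map_neg, Finset.sum_const,
    Finset.card_range, nsmul_eq_mul, map_mul] at h2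
  have h3 : w (q : N) = 1 := by
    refine le_antisymm (natCast_le_one w q) ?_
    by_contra h4
    rw [not_le, ← r_eq_zero w (natCast_le_one w q), r_natCast] at h4
    have hchar := charP_kap w p S.hp
    have h5 := (CharP.cast_eq_zero_iff (kap w) p q).1 h4
    exact hqp ((Nat.prime_dvd_prime_iff_eq hpp.out hq).1 h5).symm
  rw [h3, one_mul] at h2
  exact lt_irrefl _ h2

include S hinv in
/-- the tower. -/
lemma tower [hpp : Fact p.Prime] (hp0 : (p : N) ≠ 0) (n : ℕ) :
    ∀ S' : Subgroup (N ≃ₐ[H] N), Nat.card S' = p ^ n →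
      Good w H (IntermediateField.fixedField S').toSubfield → Good w H ⊤ := by
  classical
  have hprime := hpp.out
  induction n with
  | zero =>
    intro S' hS' hgood
    rw [pow_zero] at hS'
    have h1 : S' = ⊥ := Subgroup.card_eq_one.1 hS'
    rw [h1, IntermediateField.fixedField_bot] at hgood
    convert hgood
    ext y; simp
  | succ n ih =>
    intro S' hS' hgood
    -- a normal subgroup of index `p`
    obtain ⟨K, hK⟩ := Sylow.exists_subgroup_card_pow_prime (G := S') p (n := n)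
      (by rw [hS']; exact pow_dvd_pow p (Nat.le_succ n))
    have hindex : K.index = p := by
      have h1 := K.card_mul_index
      rw [hK, hS', pow_succ] at h1
      exact Nat.eq_of_mul_eq_mul_left (pow_pos hprime.pos n) h1
    have hnormal : K.Normal := by
      refine Subgroup.normal_of_index_eq_minFac_card ?_
      rw [hindex, hS', Nat.Prime.pow_minFac hprime (Nat.succ_ne_zero n)]
    set T : Subgroup (N ≃ₐ[H] N) := K.map S'.subtype with hT
    have hTcard : Nat.card T = p ^ n := by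
      rw [← hK]
      exact (Nat.card_congr (K.equivMapOfInjective S'.subtype S'.subtype_injective).toEquiv).symm
    have hTS' : T ≤ S' := Subgroup.map_subtype_le K
    -- an element outside
    have hKtop : K ≠ ⊤ := by
      rintro rfl
      rw [Subgroup.index_top] at hindex
      exact hprime.one_lt.ne hindex
    obtain ⟨σ', hσ'⟩ : ∃ σ' : S', σ' ∉ K := by
      by_contra h
      push Not at h
      exact hKtop ((Subgroup.eq_top_iff' K).2 h)
    set σ : N ≃ₐ[H] N := (σ' : N ≃ₐ[H] N) with hσdef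
    have hquot : Nat.card (S' ⧸ K) = p := by rw [← hindex]; rfl
    have hσbar : (QuotientGroup.mk σ' : S' ⧸ K) ≠ 1 := by
      rwa [Ne, QuotientGroup.eq_one_iff]
    set F := (IntermediateField.fixedField S').toSubfield with hF
    set F1 := (IntermediateField.fixedField T).toSubfield with hF1
    have memF : ∀ y, y ∈ F ↔ ∀ τ ∈ S', τ y = y := fun y =>
      IntermediateField.mem_fixedField_iff S' y
    have memF1 : ∀ y, y ∈ F1 ↔ ∀ τ ∈ T, τ y = y := fun y =>
      IntermediateField.mem_fixedField_iff T y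
    have memT : ∀ τ : S', (τ : N ≃ₐ[H] N) ∈ T ↔ τ ∈ K := by
      intro τ
      rw [hT, Subgroup.mem_map]
      constructor
      · rintro ⟨τ', hτ', h⟩
        have : τ' = τ := Subtype.ext h
        rwa [← this]
      · intro h; exact ⟨τ, h, rfl⟩
    have hHF : H ≤ F := by
      intro h hh
      rw [memF]
      intro τ _
      exact τ.commutes ⟨h, hh⟩
    have hFF1 : F ≤ F1 := by
      intro y hy
      rw [memF] at hy
      rw [memF1]
      exact fun τ hτ => hy τ (hTS' hτ)
    have hσpow : ∀ i : ℕ, ∀ y : N, ((σ : N ≃+* N) ^ i) y = (σ ^ i) y := by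
      intro i
      induction i with
      | zero => intro y; rfl
      | succ i ih =>
        intro y
        rw [pow_succ', pow_succ']
        have h1 : ((σ : N ≃+* N) * (σ : N ≃+* N) ^ i) y = (σ : N ≃+* N) (((σ : N ≃+* N) ^ i) y) := rfl
        have h2 : (σ * σ ^ i) y = σ ((σ ^ i) y) := rfl
        rw [h1, h2, ih]; rfl
    have hstep : Good w F F1 := by
      refine one_step S.hp hp0 S hHF hFF1 hgood (fun y hy => val_N S hinv y hy) (σ : N ≃+* N)
        (fun y => hinv σ y) ?_ ?_ ?_ ?_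
      · intro y hy
        rw [memF1] at hy ⊢
        intro τ hτ
        have hτ' : τ ∈ S' := hTS' hτ
        have h1 : (σ'⁻¹ * ⟨τ, hτ'⟩ * σ' : S') ∈ K := by
          have := hnormal.conj_mem ⟨τ, hτ'⟩ ((memT ⟨τ, hτ'⟩).1 hτ) σ'⁻¹
          simpa using this
        have h2 := hy _ ((memT _).2 h1)
        have h3 : ((σ'⁻¹ * ⟨τ, hτ'⟩ * σ' : S') : N ≃ₐ[H] N) y = σ⁻¹ (τ (σ y)) := rfl
        rw [h3] at h2
        have h4 := congrArg σ h2
        have h5 : σ (σ⁻¹ (τ (σ y))) = τ (σ y) := by
          have : (σ * σ⁻¹) (τ (σ y)) = τ (σ y) := by rw [mul_inv_cancel]; rfl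
          exact this
        rw [h5] at h4
        exact h4
      · intro y hy
        rw [hσpow]
        rw [memF1] at hy
        have h1 : σ' ^ p ∈ K := by
          rw [← QuotientGroup.eq_one_iff, QuotientGroup.mk_pow, ← hquot]
          exact pow_card_eq_one'
        exact hy _ ((memT (σ' ^ p)).2 h1)
      · intro y hy
        constructor
        · intro h
          rw [memF]
          intro τ hτ
          -- τ = σ ^ i * κ
          have hp' : (Nat.card (S' ⧸ K)).Prime := by rw [hquot]; exact hprime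
          have : Fact (Nat.card (S' ⧸ K)).Prime := ⟨hp'⟩
          have h1 := mem_zpowers_of_prime_card (G := S' ⧸ K) rfl hσbar (g' := QuotientGroup.mk ⟨τ, hτ⟩)
          obtain ⟨i, hi⟩ := Subgroup.mem_zpowers_iff.1 h1
          have h2 : ((σ' ^ i)⁻¹ * ⟨τ, hτ⟩ : S') ∈ K := by
            rw [← QuotientGroup.eq]
            rw [← hi]; rfl
          have h3 := (memF1 y).1 hy _ ((memT _).2 h2)
          have h4 : (((σ' ^ i)⁻¹ * ⟨τ, hτ⟩ : S') : N ≃ₐ[H] N) y = (σ ^ i)⁻¹ (τ y) := rfl
          rw [h4] at h3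
          have hfix : σ ∈ MulAction.stabilizer (N ≃ₐ[H] N) y := by
            rw [MulAction.mem_stabilizer_iff]; exact h
          have h5 : σ ^ i ∈ MulAction.stabilizer (N ≃ₐ[H] N) y := zpow_mem hfix i
          rw [MulAction.mem_stabilizer_iff] at h5
          have h6 : (σ ^ i) y = y := h5
          have h7 := congrArg (σ ^ i) h3
          have h8 : (σ ^ i) ((σ ^ i)⁻¹ (τ y)) = τ y := by
            have : ((σ ^ i) * (σ ^ i)⁻¹) (τ y) = τ y := by rw [mul_inv_cancel]; rfl
            exact this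
          rw [h8, h6] at h7
          exact h7
        · intro h
          exact (memF y).1 h σ σ'.2
      · by_contra hcon
        push Not at hcon
        have h1 : σ ∈ IntermediateField.fixingSubgroup (IntermediateField.fixedField T) := by
          rw [IntermediateField.mem_fixingSubgroup_iff]
          exact fun y hy => hcon y hy
        rw [IntermediateField.fixingSubgroup_fixedField] at h1
        exact hσ' ((memT σ').1 h1)
    exact ih T hTcard (good_trans w hHF hFF1 hgood hstep)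

include S hinv in
/-- **STAB for finite Galois extensions**. -/
theorem stab_galois [hpp : Fact p.Prime] (hp0 : (p : N) ≠ 0) (hens : Hens w H) :
    Good w H ⊤ := by
  obtain ⟨θ, -, hgood, hθ⟩ := exists_theta S.hp H hens
  obtain ⟨n, hn⟩ := inertia_card S hinv hθ
  refine tower S hinv hp0 n _ hn ?_
  rw [IsGalois.fixedField_fixingSubgroup]
  exact hgood

end

end Crest.Agent.R013.Stab9_460
end

-- ▼ part R013/Stab10_460
section

/-!
# STAB, part 10: abstract form, subspaces, Hensel in an algebraically closed field, final theorem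
-/

namespace Crest.Agent.R013.Stab10_460

open Polynomial Crest.Agent.R013.Stab2_460 Crest.Agent.R013.Stab3_460
  Crest.Agent.R013.Stab6_460 Crest.Agent.R013.Stab7_460 Crest.Agent.R013.Stab8_460
  Crest.Agent.R013.Stab9_460
open scoped NNReal IntermediateField

/-! ### Hensel's lemma -/

section hensel

variable {H Om : Type*} [Field H] [Field Om] [Algebra H Om] [IsAlgClosed Om] [CharZero H]
  [Algebra.IsAlgebraic H Om] (w : Valuation Om ℝ≥0)


omit [CharZero H] [Algebra.IsAlgebraic H Om] in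
lemma exists_root_near {g : Om[X]} (hg : g.Monic) {θ0 : Om} (h0 : w (g.eval θ0) < 1) :
    ∃ a, g.eval a = 0 ∧ w (a - θ0) < 1 := by
  by_contra hcon
  push Not at hcon
  have h1 := (IsAlgClosed.splits g).eval_eq_prod_roots_of_monic hg θ0
  rw [h1, map_multiset_prod, Multiset.map_map] at h0
  refine absurd h0 (not_lt.2 (Multiset.one_le_prod ?_))
  intro c hc
  rw [Multiset.mem_map] at hc
  obtain ⟨a, ha, rfl⟩ := hc
  have ha' : g.eval a = 0 := (mem_roots'.1 ha).2
  have := hcon a ha'
  rw [Function.comp_apply, Valuation.map_sub_swap]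
  exact this

omit [IsAlgClosed Om] [CharZero H] [Algebra.IsAlgebraic H Om] in
lemma root_unique {g : Om[X]} (hgc : ∀ i, w (g.coeff i) ≤ 1) {θ0 a b : Om}
    (hθ : w θ0 ≤ 1) (h1 : w ((derivative g).eval θ0) = 1) (ha : g.eval a = 0) (hb : g.eval b = 0)
    (ha1 : w (a - θ0) < 1) (hb1 : w (b - θ0) < 1) : a = b := by
  have haw : w a ≤ 1 := by
    have := le_add w ha1.le hθ
    simpa using this
  have hbw : w b ≤ 1 := by
    have := le_add w hb1.le hθ
    simpa using this
  let O := w.valuationSubring.toSubring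
  have hcoe : (↑g.coeffs : Set Om) ⊆ O := by
    intro c hc
    obtain ⟨i, -, rfl⟩ := mem_coeffs_iff.1 (Finset.mem_coe.1 hc)
    exact hgc i
  set G : O[X] := g.toSubring O hcoe with hG
  have hGm : G.map O.subtype = g := map_toSubring g O hcoe
  have hev : ∀ y : O, ((G.eval y : O) : Om) = g.eval (y : Om) := by
    intro y
    conv_rhs => rw [← hGm]
    rw [eval_map]
    exact (eval₂_at_apply O.subtype y).symm
  have hGm' : (derivative G).map O.subtype = derivative g := by rw [← derivative_map, hGm]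
  have hev' : ∀ y : O, (((derivative G).eval y : O) : Om) = (derivative g).eval (y : Om) := by
    intro y
    conv_rhs => rw [← hGm']
    rw [eval_map]
    exact (eval₂_at_apply O.subtype y).symm
  have hOle : ∀ y : O, w (y : Om) ≤ 1 := fun y => y.2
  let a' : O := ⟨a, haw⟩
  let b' : O := ⟨b, hbw⟩
  let t' : O := ⟨θ0, hθ⟩
  have hga : w ((derivative g).eval a) = 1 := by
    obtain ⟨k, hk⟩ := sub_dvd_eval_sub a' t' (derivative G)
    have hk' := congrArg (Subtype.val) hk
    have e1 : (derivative g).eval a - (derivative g).eval θ0 = (a - θ0) * (k : Om) := by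
      have := hev' a'
      have h2 := hev' t'
      rw [← this, ← h2]
      exact hk'
    have h3 : w ((derivative g).eval a - (derivative g).eval θ0) < w ((derivative g).eval θ0) := by
      rw [e1, h1, map_mul]
      calc w (a - θ0) * w (k : Om) ≤ w (a - θ0) * 1 := mul_le_mul' le_rfl (hOle k)
        _ < 1 := by rw [mul_one]; exact ha1
    rw [eq_of_lt h3, h1]
  obtain ⟨k, hk⟩ := binomExpansion G a' (b' - a')
  have hk' := congrArg (Subtype.val) hk
  have e2 : g.eval b = g.eval a + (derivative g).eval a * (b - a) + (k : Om) * (b - a) ^ 2 := by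
    have h2 := hev (a' + (b' - a'))
    have h3 := hev a'
    have h4 := hev' a'
    have h5 : ((a' + (b' - a') : O) : Om) = b := by
      change a + (b - a) = b
      ring
    rw [h5] at h2
    rw [← h2, ← h3, ← h4]
    exact hk'
  rw [ha, hb, zero_add] at e2
  by_contra hne
  have hba : b - a ≠ 0 := sub_ne_zero.2 (Ne.symm hne)
  have e3 : (derivative g).eval a = - ((k : Om) * (b - a)) := by
    have h6 : ((derivative g).eval a + (k : Om) * (b - a)) * (b - a) = 0 := by
      rw [e2]; ring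
    have h7 := (mul_eq_zero.1 h6).resolve_right hba
    linear_combination h7
  have h8 : w (b - a) < 1 := by
    have := lt_sub w hb1 ha1
    simpa using this
  rw [e3, Valuation.map_neg, map_mul] at hga
  have h9 : w (k : Om) * w (b - a) < 1 :=
    (mul_le_mul' (hOle k) le_rfl).trans_lt (by rw [one_mul]; exact h8)
  exact h9.ne hga

end hensel

end Crest.Agent.R013.Stab10_460
end

-- ▼ part R013/Stab11_460
section

/-!
# STAB, part 11: the abstract theorem
-/

namespace Crest.Agent.R013.Stab11_460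

open Polynomial Module Crest.Agent.R013.Stab2_460 Crest.Agent.R013.Stab3_460
  Crest.Agent.R013.Stab6_460 Crest.Agent.R013.Stab7_460 Crest.Agent.R013.Stab8_460
  Crest.Agent.R013.Stab9_460 Crest.Agent.R013.Stab10_460
open scoped NNReal IntermediateField

/-- transfer of algebraic closedness along an isomorphism (any universes). -/
theorem isAlgClosed_of_equiv {k k' : Type*} [Field k] [Field k'] (e : k ≃+* k')
    [IsAlgClosed k] : IsAlgClosed k' := by
  apply IsAlgClosed.of_exists_root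
  intro p hmp hp
  have hpe : degree (p.map e.symm.toRingHom) ≠ 0 := by
    rw [degree_map]
    exact ne_of_gt (degree_pos_of_irreducible hp)
  rcases IsAlgClosed.exists_root (k := k) (p.map e.symm.toRingHom) hpe with ⟨x, hx⟩
  use e x
  rw [IsRoot] at hx
  apply e.symm.injective
  rw [map_zero, ← hx]
  clear hx hpe hp hmp
  induction p using Polynomial.induction_on <;> simp_all

/-- **STAB for finite Galois extensions**, types. -/
theorem stab_types {C H N : Type*} [Field C] [Field H] [Field N] [Algebra C H] [Algebra C N]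
    [Algebra H N] [IsScalarTower C H N] [IsAlgClosed C] [FiniteDimensional H N] [IsGalois H N]
    (w : Valuation N ℝ≥0) (p : ℕ) [Fact p.Prime] (hp : w (p : N) < 1) (hp0 : (p : N) ≠ 0)
    (hinv : ∀ (σ : N ≃ₐ[H] N) y, w (σ y) = w y) (x : H) (hx1 : w (algebraMap H N x) ≤ 1)
    (gauss : ∀ (f : C[X]) i, w (algebraMap C N (f.coeff i)) ≤ w (algebraMap H N (aeval x f)))
    (dense : ∀ h : H, ∀ ε : ℝ≥0, 0 < ε → ∃ f g : C[X], g ≠ 0 ∧
      w (algebraMap H N (h - aeval x f / aeval x g)) < ε)
    (hens : ∀ g : H[X], g.Monic → (∀ i, w (algebraMap H N (g.coeff i)) ≤ 1) → ∀ θ0 : N,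
      w θ0 ≤ 1 → w (aeval θ0 g) < 1 → w (aeval θ0 (derivative g)) = 1 →
      ∃ θ : N, aeval θ g = 0 ∧ w (θ - θ0) < 1) :
    ∃ (n : ℕ) (b : Basis (Fin n) H N), (∀ i, w (b i) ≤ 1) ∧
      ∀ y i, w (algebraMap H N (b.repr y i)) ≤ w y := by
  classical
  set C' : Subfield N := (algebraMap C N).fieldRange with hC'
  set H' : Subfield N := (algebraMap H N).fieldRange with hH'
  let eC : C ≃+* C' := (algebraMap C N).rangeRestrictFieldEquiv
  let eH : H ≃+* H' := (algebraMap H N).rangeRestrictFieldEquiv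
  have heC : ∀ c : C, ((eC c : C') : N) = algebraMap C N c := fun c => rfl
  have heH : ∀ c : H, ((eH c : H') : N) = algebraMap H N c := fun c => rfl
  have hcompH : (algebraMap H' N).comp (eH : H →+* H') =
      ((RingEquiv.refl N : N ≃+* N) : N →+* N).comp (algebraMap H N) := by
    ext c; rfl
  have hfd : FiniteDimensional H' N := Module.Finite.of_equiv_equiv eH (RingEquiv.refl N) hcompH
  have hgal : IsGalois H' N := IsGalois.of_equiv_equiv (f := eH) (g := RingEquiv.refl N) hcompH
  have hCalg : IsAlgClosed C' := isAlgClosed_of_equiv eC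
  -- evaluation of polynomials
  have hevC : ∀ f : C[X], aeval (algebraMap H N x) (f.map (eC : C →+* C')) =
      algebraMap H N (aeval x f) := by
    intro f
    rw [aeval_def, eval₂_map]
    have : (algebraMap C' N).comp (eC : C →+* C') = algebraMap C N := by ext c; rfl
    rw [this, ← aeval_def, aeval_algebraMap_apply]
  have hevH : ∀ (f : H[X]) (y : N), aeval y (f.map (eH : H →+* H')) = aeval y f := by
    intro f y
    rw [aeval_def, eval₂_map]
    have : (algebraMap H' N).comp (eH : H →+* H') = algebraMap H N := by ext c; rfl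
    rw [this, ← aeval_def]
  have hS : Setup w p C' H' (algebraMap H N x) := by
    refine ⟨hp, hCalg, ?_, ⟨x, rfl⟩, hx1, ?_, ?_⟩
    · rintro _ ⟨c, rfl⟩
      exact ⟨algebraMap C H c, (IsScalarTower.algebraMap_apply C H N c).symm⟩
    · intro f i
      have hf : f = (f.map (eC.symm : C' →+* C)).map (eC : C →+* C') := by
        rw [Polynomial.map_map]
        have : (eC : C →+* C').comp (eC.symm : C' →+* C) = RingHom.id C' := by
          ext c; simp
        rw [this, Polynomial.map_id]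
      set f0 := f.map (eC.symm : C' →+* C) with hf0
      have h1 := gauss f0 i
      rw [← hevC, ← hf] at h1
      refine le_trans (le_of_eq ?_) h1
      congr 1
      rw [hf0, coeff_map]
      have : ((eC (eC.symm (f.coeff i)) : C') : N) = algebraMap C N (eC.symm (f.coeff i)) := heC _
      rw [eC.apply_symm_apply] at this
      exact this
    · rintro _ ⟨h, rfl⟩ ε hε
      obtain ⟨f, g, hg, hfg⟩ := dense h ε hε
      refine ⟨f.map (eC : C →+* C'), g.map (eC : C →+* C'), ?_, ?_⟩
      · exact (Polynomial.map_ne_zero_iff (f := (eC : C →+* C')) eC.injective).2 hg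
      · rw [hevC, hevC, ← map_div₀, ← map_sub]
        exact hfg
  have hInv : Inv w H' := by
    intro σ y
    let σ' : N ≃ₐ[H] N := AlgEquiv.ofRingEquiv (f := (σ : N ≃+* N)) (fun h => by
      have : σ (algebraMap H' N (eH h)) = algebraMap H' N (eH h) := σ.commutes _
      exact this)
    exact hinv σ' y
  have hHens : Hens w H' := by
    intro g hg hgc θ0 hθ h1 h2
    have hgf : g = (g.map (eH.symm : H' →+* H)).map (eH : H →+* H') := by
      rw [Polynomial.map_map]
      have : (eH : H →+* H').comp (eH.symm : H' →+* H) = RingHom.id H' := by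
        ext c; simp
      rw [this, Polynomial.map_id]
    set g0 := g.map (eH.symm : H' →+* H) with hg0
    have hder : derivative g = (derivative g0).map (eH : H →+* H') := by
      rw [← derivative_map, ← hgf]
    obtain ⟨θ, hθg, hθ1⟩ := hens g0 (hg.map _) (fun i => by
      rw [hg0, coeff_map]
      have : ((eH (eH.symm (g.coeff i)) : H') : N) = algebraMap H N (eH.symm (g.coeff i)) := heH _
      rw [eH.apply_symm_apply] at this
      have h3 := hgc i
      rw [this] at h3
      exact h3) θ0 hθ (by rw [← hevH, ← hgf]; exact h1) (by rw [← hevH, ← hder]; exact h2)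
    exact ⟨θ, by rw [hgf, hevH]; exact hθg, hθ1⟩
  obtain ⟨n, b, -, hb1, hb2, hb3⟩ := stab_galois hS hInv hp0 hHens
  have hon : ∀ c : Fin n → H, ∀ i, w (algebraMap H N (c i)) ≤ w (∑ j, c j • b j) := by
    intro c i
    have := hb2 (fun j => algebraMap H N (c j)) (fun j => ⟨c j, rfl⟩) i
    simpa [Algebra.smul_def] using this
  have hli : LinearIndependent H b := by
    rw [Fintype.linearIndependent_iff]
    intro g hg i
    have h1 := hon g i
    rw [hg, map_zero] at h1
    have h3 : algebraMap H N (g i) = 0 := w.zero_iff.1 (le_antisymm h1 zero_le)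
    exact (algebraMap H N).injective (by rw [h3, map_zero])
  have hspan : ⊤ ≤ Submodule.span H (Set.range b) := by
    intro y _
    obtain ⟨c, hc, hy⟩ := hb3 y trivial
    choose c' hc' using hc
    rw [hy]
    refine Submodule.sum_mem _ fun j _ => ?_
    rw [← hc' j, ← Algebra.smul_def]
    exact Submodule.smul_mem _ _ (Submodule.subset_span ⟨j, rfl⟩)
  refine ⟨n, Basis.mk hli hspan, fun i => by rw [Basis.mk_apply]; exact hb1 i, fun y i => ?_⟩
  have h1 := hon (fun j => (Basis.mk hli hspan).repr y j) i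
  refine h1.trans (le_of_eq ?_)
  congr 1
  conv_rhs => rw [← (Basis.mk hli hspan).sum_repr y]
  refine Finset.sum_congr rfl fun j _ => ?_
  rw [Basis.mk_apply]

/-! ### subspaces -/

section sub

variable {H N : Type*} [Field H] [Field N] [Algebra H N] (w : Valuation N ℝ≥0)

/-- the coefficient bound determines the norm. -/
lemma exists_coord {n : ℕ} (b : Basis (Fin n) H N) (hb1 : ∀ i, w (b i) ≤ 1)
    (hb2 : ∀ y i, w (algebraMap H N (b.repr y i)) ≤ w y) {y : N} (hy : y ≠ 0) :
    ∃ i, w (algebraMap H N (b.repr y i)) = w y := by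
  classical
  by_contra hcon
  push Not at hcon
  have h1 : w (∑ j, b.repr y j • b j) < w y := by
    refine lt_sum w _ _ (pos_iff_ne_zero.2 (w.ne_zero_iff.2 hy)) fun j _ => ?_
    rw [Algebra.smul_def, map_mul]
    calc _ ≤ w (algebraMap H N (b.repr y j)) * 1 := mul_le_mul' le_rfl (hb1 j)
      _ < w y := by rw [mul_one]; exact lt_of_le_of_ne (hb2 y j) (hcon j)
  rw [b.sum_repr y] at h1
  exact lt_irrefl _ h1

theorem subspace_on {n : ℕ} (b : Basis (Fin n) H N) (hb1 : ∀ i, w (b i) ≤ 1)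
    (hb2 : ∀ y i, w (algebraMap H N (b.repr y i)) ≤ w y) (m : ℕ) :
    ∀ V : Submodule H N, finrank H V ≤ m →
      ∃ (k : ℕ) (e : Fin k → N), (∀ i, e i ∈ V) ∧ (∀ i, w (e i) ≤ 1) ∧
        (∀ c : Fin k → H, ∀ i, w (algebraMap H N (c i)) ≤ w (∑ j, c j • e j)) ∧
        ∀ y ∈ V, ∃ c : Fin k → H, y = ∑ j, c j • e j := by
  classical
  have hfd : FiniteDimensional H N := b.finiteDimensional_of_finite
  induction m with
  | zero =>
    intro V hV
    have hV0 : V = ⊥ := Submodule.finrank_eq_zero.1 (Nat.le_zero.1 hV)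
    refine ⟨0, Fin.elim0, fun i => i.elim0, fun i => i.elim0, fun c i => i.elim0, fun y hy => ?_⟩
    rw [hV0, Submodule.mem_bot] at hy
    exact ⟨Fin.elim0, by simp [hy]⟩
  | succ m ih =>
    intro V hV
    by_cases hV0 : V = ⊥
    · refine ⟨0, Fin.elim0, fun i => i.elim0, fun i => i.elim0, fun c i => i.elim0,
        fun y hy => ?_⟩
      rw [hV0, Submodule.mem_bot] at hy
      exact ⟨Fin.elim0, by simp [hy]⟩
    obtain ⟨y0, hy0V, hy0⟩ := V.ne_bot_iff.1 hV0
    obtain ⟨i0, hi0⟩ := exists_coord w b hb1 hb2 hy0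
    have hwy : 0 < w y0 := pos_iff_ne_zero.2 (w.ne_zero_iff.2 hy0)
    have hc0 : b.repr y0 i0 ≠ 0 := by
      intro h; rw [h, map_zero, map_zero] at hi0; exact hwy.ne hi0
    set e0 : N := (b.repr y0 i0)⁻¹ • y0 with he0
    have he0V : e0 ∈ V := V.smul_mem _ hy0V
    have he01 : w e0 = 1 := by
      rw [he0, Algebra.smul_def, map_mul, map_inv₀, map_inv₀, hi0, inv_mul_cancel₀ hwy.ne']
    have he0i : b.repr e0 i0 = 1 := by
      rw [he0, map_smul, Finsupp.smul_apply, smul_eq_mul, inv_mul_cancel₀ hc0]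
    set V' : Submodule H N := V ⊓ LinearMap.ker (b.coord i0) with hV'
    have hV'lt : V' < V := by
      refine lt_of_le_of_ne inf_le_left fun h => ?_
      have : e0 ∈ V' := by rw [h]; exact he0V
      have h2 : b.coord i0 e0 = 0 := (Submodule.mem_inf.1 this).2
      rw [Basis.coord_apply, he0i] at h2
      exact one_ne_zero h2
    have hfr := Submodule.finrank_lt_finrank_of_lt hV'lt
    obtain ⟨k, e, heV, he1, hon, hsp⟩ := ih V' (by omega)
    refine ⟨k + 1, Fin.cons e0 e, ?_, ?_, ?_, ?_⟩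
    · intro i
      refine Fin.cases ?_ (fun i => ?_) i
      · exact he0V
      · exact (Submodule.mem_inf.1 (heV i)).1
    · intro i
      refine Fin.cases ?_ (fun i => ?_) i
      · exact he01.le
      · exact he1 i
    · intro c
      set z := ∑ j, c j • (Fin.cons e0 e : Fin (k + 1) → N) j with hz
      have hz2 : z = c 0 • e0 + ∑ j : Fin k, c j.succ • e j := by
        rw [hz, Fin.sum_univ_succ]; rfl
      have hz' : ∑ j : Fin k, c j.succ • e j ∈ V' :=
        Submodule.sum_mem _ fun j _ => V'.smul_mem _ (heV j)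
      have hrepr : b.repr z i0 = c 0 := by
        have h2 : b.coord i0 (∑ j : Fin k, c j.succ • e j) = 0 := (Submodule.mem_inf.1 hz').2
        rw [Basis.coord_apply] at h2
        rw [hz2, map_add, Finsupp.add_apply, h2, add_zero, map_smul, Finsupp.smul_apply, he0i,
          smul_eq_mul, mul_one]
      have h0 : w (algebraMap H N (c 0)) ≤ w z := by
        rw [← hrepr]; exact hb2 z i0
      have h1 : w (∑ j : Fin k, c j.succ • e j) ≤ w z := by
        have e1 : ∑ j : Fin k, c j.succ • e j = z - c 0 • e0 := by rw [hz2]; ring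
        rw [e1]
        refine le_sub w le_rfl ?_
        rw [Algebra.smul_def, map_mul, he01, mul_one]
        exact h0
      intro i
      refine Fin.cases ?_ (fun i => ?_) i
      · exact h0
      · exact (hon (fun j => c j.succ) i).trans h1
    · intro y hy
      have h1 : y - b.repr y i0 • e0 ∈ V' := by
        refine Submodule.mem_inf.2 ⟨V.sub_mem hy (V.smul_mem _ he0V), ?_⟩
        rw [LinearMap.mem_ker, map_sub, map_smul, Basis.coord_apply, Basis.coord_apply, he0i,
          smul_eq_mul, mul_one, sub_self]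
      obtain ⟨c, hc⟩ := hsp _ h1
      refine ⟨Fin.cons (b.repr y i0) c, ?_⟩
      rw [Fin.sum_univ_succ]
      simp only [Fin.cons_zero, Fin.cons_succ]
      rw [← hc]; ring

end sub

/-! ### the final theorem -/

section final

variable {C H Om : Type*} [Field C] [Field H] [Field Om] [Algebra C H] [Algebra C Om]
  [Algebra H Om] [IsScalarTower C H Om] [IsAlgClosed C] [CharZero C] [IsAlgClosed Om]
  [Algebra.IsAlgebraic H Om]

/-- **Stability theorem** (Grauert-Remmert) for the Gauss point, over any algebraically closed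
valued field `C` of characteristic `0` and residue characteristic `p`: every finite extension `L`
of the henselian field `H` (in which `C(x)` is dense) has an orthonormal basis. -/
theorem stab (w : Valuation Om ℝ≥0) (p : ℕ) [hpp : Fact p.Prime] (hp : w (p : Om) < 1)
    (hinv : ∀ (σ : Om ≃ₐ[H] Om) y, w (σ y) = w y) (x : H) (hx1 : w (algebraMap H Om x) ≤ 1)
    (gauss : ∀ (f : C[X]) i, w (algebraMap C Om (f.coeff i)) ≤ w (algebraMap H Om (aeval x f)))
    (dense : ∀ h : H, ∀ ε : ℝ≥0, 0 < ε → ∃ f g : C[X], g ≠ 0 ∧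
      w (algebraMap H Om (h - aeval x f / aeval x g)) < ε)
    (L : IntermediateField H Om) [FiniteDimensional H L] :
    ∃ b : Basis (Fin (finrank H L)) H L, (∀ i, w (b i : Om) ≤ 1) ∧
      ∀ (c : Fin (finrank H L) → H) i, w (algebraMap H Om (c i)) ≤
        w ((∑ j, c j • b j : L) : Om) := by
  classical
  have hcharH : CharZero H := charZero_of_injective_algebraMap (algebraMap C H).injective
  have hcharO : CharZero Om := charZero_of_injective_algebraMap (algebraMap C Om).injective
  set N : IntermediateField H Om := IntermediateField.normalClosure H L Om with hN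
  have hLN : L ≤ N := IntermediateField.le_normalClosure L
  have hac : IsAlgClosure H Om := ⟨inferInstance, inferInstance⟩
  have hnorm : Normal H Om := IsAlgClosure.normal H Om
  have hfdN : FiniteDimensional H N := normalClosure.is_finiteDimensional H L Om
  have hnormN : Normal H N := normalClosure.normal H L Om
  have hgalN : IsGalois H N := isGalois_iff.mpr ⟨inferInstance, hnormN⟩
  set wN : Valuation N ℝ≥0 := w.comap (algebraMap N Om) with hwN
  have hwNa : ∀ y : N, wN y = w (y : Om) := fun y => rfl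
  have hp0 : ((p : ℕ) : N) ≠ 0 := by
    have : CharZero N := charZero_of_injective_algebraMap (algebraMap H N).injective
    exact Nat.cast_ne_zero.2 hpp.out.ne_zero
  have hinvN : ∀ (σ : N ≃ₐ[H] N) y, wN (σ y) = wN y := by
    intro σ y
    rw [hwNa, hwNa, ← hinv (σ.liftNormal Om) (y : Om)]
    have := σ.liftNormal_commutes Om y
    congr 1
    exact this.symm
  have hensN : ∀ g : H[X], g.Monic → (∀ i, wN (algebraMap H N (g.coeff i)) ≤ 1) → ∀ θ0 : N,
      wN θ0 ≤ 1 → wN (aeval θ0 g) < 1 → wN (aeval θ0 (derivative g)) = 1 →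
      ∃ θ : N, aeval θ g = 0 ∧ wN (θ - θ0) < 1 := by
    intro g hg hgc θ0 hθ h1 h2
    set G : Om[X] := g.map (algebraMap H Om) with hG
    have hGm : G.Monic := hg.map _
    have hGc : ∀ i, w (G.coeff i) ≤ 1 := fun i => by rw [hG, coeff_map]; exact hgc i
    have hev : ∀ (q : H[X]) (y : N), (q.map (algebraMap H Om)).eval (y : Om) = ((aeval y q : N) : Om) := by
      intro q y
      rw [eval_map_algebraMap]
      exact (aeval_algebraMap_apply Om y q)
    have h1' : w (G.eval (θ0 : Om)) < 1 := by rw [hG, hev]; exact h1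
    obtain ⟨a, ha, ha1⟩ := exists_root_near w hGm h1'
    have h2' : w ((derivative G).eval (θ0 : Om)) = 1 := by
      rw [hG, derivative_map, hev]; exact h2
    have hcharN : CharZero N := charZero_of_injective_algebraMap (algebraMap H N).injective
    have halgN : Algebra.IsAlgebraic N Om := Algebra.IsAlgebraic.tower_top (K := H) N
    have hacN : IsAlgClosure N Om := ⟨inferInstance, halgN⟩
    have hgalNO : IsGalois N Om := isGalois_iff.mpr ⟨inferInstance, IsAlgClosure.normal N Om⟩
    have hfix : ∀ τ : Om ≃ₐ[N] Om, τ a = a := by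
      intro τ
      have hτ : ∀ y, w (τ y) = w y := fun y => hinv (τ.restrictScalars H) y
      have h3 : G.eval (τ a) = 0 := by
        have h4 : aeval a g = 0 := by rw [← eval_map_algebraMap]; exact ha
        have h5 := aeval_algHom_apply ((τ.restrictScalars H : Om ≃ₐ[H] Om) : Om →ₐ[H] Om) a g
        rw [h4, map_zero] at h5
        rw [hG, eval_map_algebraMap]
        exact h5
      have h6 : w (τ a - (θ0 : Om)) < 1 := by
        have h7 : τ (algebraMap N Om θ0) = algebraMap N Om θ0 := τ.commutes θ0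
        have h8 : τ a - (θ0 : Om) = τ (a - (θ0 : Om)) := by
          rw [map_sub]
          congr 1
          exact h7.symm
        rw [h8, hτ]
        exact ha1
      exact root_unique w hGc (by exact hθ) h2' h3 ha h6 ha1
    have hmem := (InfiniteGalois.mem_bot_iff_fixed (k := N) (K := Om) a).2 hfix
    obtain ⟨θ, hθa⟩ := IntermediateField.mem_bot.1 hmem
    refine ⟨θ, ?_, ?_⟩
    · have h9 : ((aeval θ g : N) : Om) = 0 := by
        rw [← hev]
        have : (θ : Om) = a := hθa
        rw [this]; exact ha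
      exact Subtype.ext h9
    · rw [hwNa]
      have : ((θ - θ0 : N) : Om) = a - (θ0 : Om) := by
        rw [← hθa]; rfl
      rw [this]
      exact ha1
  obtain ⟨n, b, hb1, hb2⟩ := stab_types (C := C) (H := H) (N := N) wN p
    (by rw [hwNa]; push_cast; exact hp) hp0 hinvN x hx1 gauss dense hensN
  -- the subspace
  set V : Submodule H N := (Subalgebra.toSubmodule L.toSubalgebra).comap N.val.toLinearMap with hV
  have hVmem : ∀ y : N, y ∈ V ↔ (y : Om) ∈ L := fun y => Iff.rfl
  obtain ⟨k, e, heV, he1, hon, hsp⟩ := subspace_on wN b hb1 hb2 (finrank H V) V le_rfl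
  let e' : Fin k → L := fun i => ⟨(e i : Om), (hVmem _).1 (heV i)⟩
  have hsum : ∀ c : Fin k → H, ((∑ j, c j • e' j : L) : Om) = ((∑ j, c j • e j : N) : Om) := by
    intro c
    have h1 : ((∑ j, c j • e' j : L) : Om) = ∑ j, c j • (e j : Om) := by
      rw [← IntermediateField.algebraMap_apply, map_sum]
      rfl
    have h2 : ((∑ j, c j • e j : N) : Om) = ∑ j, c j • (e j : Om) := by
      rw [← IntermediateField.algebraMap_apply, map_sum]
      rfl
    rw [h1, h2]
  have hon' : ∀ (c : Fin k → H) i, w (algebraMap H Om (c i)) ≤ w ((∑ j, c j • e' j : L) : Om) := by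
    intro c i
    rw [hsum]
    exact hon c i
  have hli : LinearIndependent H e' := by
    rw [Fintype.linearIndependent_iff]
    intro g hg i
    have h1 := hon' g i
    rw [hg] at h1
    have h2 : w ((0 : L) : Om) = 0 := by push_cast; exact map_zero w
    rw [h2] at h1
    have h3 : algebraMap H Om (g i) = 0 := w.zero_iff.1 (le_antisymm h1 zero_le)
    exact (algebraMap H Om).injective (by rw [h3, map_zero])
  have hspan : ⊤ ≤ Submodule.span H (Set.range e') := by
    intro y _
    obtain ⟨c, hc⟩ := hsp ⟨(y : Om), hLN y.2⟩ ((hVmem _).2 y.2)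
    have h1 : y = ∑ j, c j • e' j := by
      apply Subtype.ext
      rw [hsum, ← hc]
    rw [h1]
    exact Submodule.sum_mem _ fun j _ => Submodule.smul_mem _ _ (Submodule.subset_span ⟨j, rfl⟩)
  have hk : finrank H L = k := by
    have := Module.finrank_eq_card_basis (Basis.mk hli hspan)
    simpa using this
  refine ⟨(Basis.mk hli hspan).reindex (finCongr hk.symm), fun i => ?_, fun c i => ?_⟩
  · rw [Basis.reindex_apply, Basis.mk_apply]
    exact he1 _
  · have h1 := hon' (c ∘ finCongr hk.symm) ((finCongr hk.symm).symm i)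
    simp only [Function.comp_apply, Equiv.apply_symm_apply] at h1
    refine h1.trans (le_of_eq ?_)
    congr 2
    refine Fintype.sum_equiv (finCongr hk.symm) _ _ fun j => ?_
    rw [Basis.reindex_apply, Basis.mk_apply, Equiv.symm_apply_apply]

end final

end Crest.Agent.R013.Stab11_460
end

-- ▼ part R013/Stab12_460
section

/-!
# STAB, part 12: the complete case, in terms of the spectral norm
-/

namespace Crest.Agent.R013.Stab12_460

open Polynomial Module
open scoped NNReal

section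

variable (E : Type*) [NontriviallyNormedField E] [IsUltrametricDist E] [CompleteSpace E]
  (L : Type*) [Field L] [Algebra E L] [Algebra.IsAlgebraic E L]

/-- the spectral norm as a valuation. -/
noncomputable def specVal : Valuation L ℝ≥0 where
  toFun y := ⟨spectralNorm E L y, spectralNorm_nonneg y⟩
  map_zero' := by ext; exact spectralNorm_zero
  map_one' := by ext; exact spectralNorm_one
  map_mul' a b := by ext; exact spectralAlgNorm_mul a b
  map_add_le_max' a b := by
    have := isNonarchimedean_spectralNorm (K := E) (L := L) a b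
    rcases le_max_iff.1 this with h | h
    · exact le_max_of_le_left (NNReal.coe_le_coe.mp h)
    · exact le_max_of_le_right (NNReal.coe_le_coe.mp h)


end

/-- **Stability theorem**, complete case: `E` is complete, `C(x)` is dense in `E` with the Gauss
norm, `C` algebraically closed: every finite extension `L` of `E` has an orthonormal basis. -/
theorem stab_complete {C : Type*} [Field C] [IsAlgClosed C] [CharZero C]
    {E : Type*} [NontriviallyNormedField E] [IsUltrametricDist E] [CompleteSpace E] [Algebra C E]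
    (p : ℕ) [hpp : Fact p.Prime] (hp : ‖(p : E)‖ < 1) (x : E) (hx : ‖x‖ ≤ 1)
    (gauss : ∀ (f : C[X]) (i : ℕ), ‖algebraMap C E (f.coeff i)‖ ≤ ‖aeval x f‖)
    (dense : ∀ h : E, ∀ ε : ℝ, 0 < ε → ∃ f g : C[X], g ≠ 0 ∧ ‖h - aeval x f / aeval x g‖ < ε)
    (L : Type*) [Field L] [Algebra E L] [FiniteDimensional E L] :
    ∃ b : Basis (Fin (finrank E L)) E L, (∀ i, spectralNorm E L (b i) ≤ 1) ∧
      ∀ (c : Fin (finrank E L) → E) i, ‖c i‖ ≤ spectralNorm E L (∑ j, c j • b j) := by
  classical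
  set Om := AlgebraicClosure E with hOm
  set w := specVal E Om with hw
  have hwE : ∀ h : E, (w (algebraMap E Om h) : ℝ) = ‖h‖ := fun h => spectralNorm_extends h
  have halgL : Algebra.IsAlgebraic E L := Algebra.IsAlgebraic.of_finite E L
  let φ : L →ₐ[E] Om := IsAlgClosed.lift
  set L' : IntermediateField E Om := φ.fieldRange with hL'
  let e : L ≃ₐ[E] L' := AlgEquiv.ofInjectiveField φ
  have hfd : FiniteDimensional E L' := e.toLinearEquiv.finiteDimensional
  have hfr : finrank E L' = finrank E L := (e.toLinearEquiv.finrank_eq).symm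
  obtain ⟨b, hb1, hb2⟩ := Stab11_460.stab (C := C) (H := E) (Om := Om) w p
    (by
      rw [← NNReal.coe_lt_coe]
      have := hwE (p : E)
      rw [map_natCast] at this
      rw [this]; exact hp)
    (fun σ y => by
      apply NNReal.coe_injective
      exact (spectralNorm_eq_of_equiv σ y).symm)
    x (by rw [← NNReal.coe_le_coe, hwE]; exact hx)
    (fun f i => by
      rw [← NNReal.coe_le_coe, hwE]
      exact (hwE _).trans_le (gauss f i))
    (fun h ε hε => by
      obtain ⟨f, g, hg, hfg⟩ := dense h ε hε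
      refine ⟨f, g, hg, ?_⟩
      rw [← NNReal.coe_lt_coe, hwE]
      exact hfg) L'
  have hspec : ∀ y : L, (w (φ y) : ℝ) = spectralNorm E L y := by
    intro y
    change spectralNorm E Om (φ y) = spectralNorm E L y
    unfold spectralNorm
    rw [minpoly.algHom_eq φ φ.injective]
  have hecoe : ∀ y : L, ((e y : L') : Om) = φ y := fun y => rfl
  have hspec' : ∀ z : L', (w (z : Om) : ℝ) = spectralNorm E L (e.symm z) := by
    intro z
    rw [← hspec, ← hecoe, e.apply_symm_apply]
  refine ⟨(b.map e.symm.toLinearEquiv).reindex (finCongr hfr), fun i => ?_, fun c i => ?_⟩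
  · rw [Basis.reindex_apply, Basis.map_apply]
    have := hspec' (b ((finCongr hfr).symm i))
    refine le_trans (le_of_eq this.symm) ?_
    exact_mod_cast hb1 _
  · have h1 := hb2 (c ∘ finCongr hfr) ((finCongr hfr).symm i)
    simp only [Function.comp_apply, Equiv.apply_symm_apply] at h1
    rw [← NNReal.coe_le_coe, hwE, hspec'] at h1
    refine h1.trans (le_of_eq ?_)
    congr 1
    rw [map_sum]
    refine Fintype.sum_equiv (finCongr hfr) _ _ fun j => ?_
    rw [map_smul, Basis.reindex_apply, Basis.map_apply, Equiv.symm_apply_apply]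
    rfl

end Crest.Agent.R013.Stab12_460
end

-- ▼ part R013/StabR_460

/-!
# STAB → STABF, and the Gauss points of `RatFunc C`

`stab_complete` (460) is turned into the hypothesis `hON` of helper83's `stabF`; completion of a
field with a rank one valuation; the output of `STABF` over every type 2 point of the line.
-/

set_option autoImplicit false

namespace Crest.Agent.R013.StabR_460

open Polynomial Module
open scoped NNReal
open Crest.Agent.R013.StabF_83 (IsON Out sv coe_sv)

universe u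

/-- hypothesis `hON` of `stabF`. -/
theorem hON {C : Type*} [Field C] [IsAlgClosed C] [CharZero C] {E : Type u}
    [NontriviallyNormedField E] [IsUltrametricDist E] [CompleteSpace E] [Algebra C E]
    (p : ℕ) [hpp : Fact p.Prime] (hp : ‖(p : E)‖ < 1) (x : E) (hx : ‖x‖ ≤ 1)
    (gauss : ∀ (f : C[X]) (i : ℕ), ‖algebraMap C E (f.coeff i)‖ ≤ ‖aeval x f‖)
    (dense : ∀ h : E, ∀ ε : ℝ, 0 < ε → ∃ f g : C[X], g ≠ 0 ∧ ‖h - aeval x f / aeval x g‖ < ε)
    (L : Type u) [Field L] [Algebra E L] [FiniteDimensional E L] :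
    ∃ b : Module.Basis (Fin (finrank E L)) E L, IsON (E := E) b := by
  obtain ⟨b, h1, h2⟩ := Stab12_460.stab_complete p hp x hx gauss dense L
  refine ⟨b, fun i => ?_, fun c i => ?_⟩
  · rw [← NNReal.coe_le_coe, coe_sv]; exact h1 i
  · rw [← NNReal.coe_le_coe, coe_sv]; exact h2 c i

/-- **Completion** of a field with a nontrivial rank one valuation. -/
theorem exists_completion (F : Type u) [Field F] (w0 : Valuation F ℝ≥0) (hnt : ∃ c, 1 < w0 c) :
    ∃ (E : Type u) (_ : NontriviallyNormedField E) (_ : CompleteSpace E)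
      (_ : IsUltrametricDist E) (_ : Algebra F E), DenseRange (algebraMap F E) ∧
      ∀ f, ‖algebraMap F E f‖₊ = w0 f := by
  let nF : NormedField F := (LU5_935.absOf w0).toNormedField
  have hn : ∀ z : F, ‖z‖ = w0 z := fun z => rfl
  have hu : IsUltrametricDist F := by
    apply IsUltrametricDist.isUltrametricDist_of_isNonarchimedean_norm
    intro x y
    rw [hn, hn, hn]
    exact_mod_cast w0.map_add x y
  let E := UniformSpace.Completion F
  have hnc : ∀ z : F, ‖algebraMap F E z‖ = w0 z := fun z => UniformSpace.Completion.norm_coe z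
  let hnn : NontriviallyNormedField E :=
    { (inferInstance : NormedField E) with
      non_trivial := by
        obtain ⟨c, hc⟩ := hnt
        exact ⟨algebraMap F E c, by rw [hnc]; exact_mod_cast hc⟩ }
  have hult : IsUltrametricDist E := by
    apply IsUltrametricDist.isUltrametricDist_of_isNonarchimedean_norm
    intro x y
    induction x, y using UniformSpace.Completion.induction_on₂ with
    | hp => exact isClosed_le (by fun_prop) (by fun_prop)
    | ih x y =>
      rw [← UniformSpace.Completion.coe_add, UniformSpace.Completion.norm_coe,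
        UniformSpace.Completion.norm_coe, UniformSpace.Completion.norm_coe]
      exact IsUltrametricDist.norm_add_le_max x y
  exact ⟨E, hnn, inferInstance, hult, inferInstance, UniformSpace.Completion.denseRange_coe,
    fun f => NNReal.coe_injective (hnc f)⟩

/-- **STABF for the Gauss point of an abstract `F = C(x)`**. -/
theorem out_of_gauss {C : Type*} [Field C] [IsAlgClosed C] [CharZero C] (F : Type u) [Field F]
    [Algebra C F] (w0 : Valuation F ℝ≥0) (p : ℕ) [hpp : Fact p.Prime] (hp : w0 (p : F) < 1)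
    (x : F) (hx : w0 x ≤ 1)
    (gauss : ∀ (f : C[X]) (i : ℕ), w0 (algebraMap C F (f.coeff i)) ≤ w0 (aeval x f))
    (frac : ∀ h : F, ∃ f g : C[X], g ≠ 0 ∧ h = aeval x f / aeval x g)
    (K : Type u) [Field K] [Algebra F K] [FiniteDimensional F K] :
    ∃ (E : Type u) (_ : NontriviallyNormedField E) (_ : CompleteSpace E)
      (_ : IsUltrametricDist E) (_ : Algebra F E), DenseRange (algebraMap F E) ∧
      (∀ f, ‖algebraMap F E f‖₊ = w0 f) ∧
      ∃ (I : Type u) (_ : Fintype I), Nonempty (Out F E K I) := by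
  have hcF : CharZero F := charZero_of_injective_algebraMap (algebraMap C F).injective
  have hnt : ∃ c, 1 < w0 c := by
    refine ⟨((p : F))⁻¹, ?_⟩
    rw [map_inv₀]
    have hp0 : w0 (p : F) ≠ 0 := by
      rw [Valuation.ne_zero_iff]
      exact Nat.cast_ne_zero.2 hpp.out.ne_zero
    exact (one_lt_inv₀ (pos_iff_ne_zero.2 hp0)).2 hp
  obtain ⟨E, i1, i2, i3, i4, hd, hw⟩ := exists_completion F w0 hnt
  refine ⟨E, i1, i2, i3, i4, hd, hw, ?_⟩
  let aCE : Algebra C E := ((algebraMap F E).comp (algebraMap C F)).toAlgebra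
  have hsc : IsScalarTower C F E := IsScalarTower.of_algebraMap_eq fun _ => rfl
  have hn : ∀ f : F, ‖algebraMap F E f‖ = w0 f := fun f => by
    have := congrArg NNReal.toReal (hw f)
    rwa [coe_nnnorm] at this
  have hae : ∀ f : C[X], aeval (algebraMap F E x) f = algebraMap F E (aeval x f) := fun f =>
    aeval_algebraMap_apply E x f
  refine StabF_83.stabF F E K hd fun L _ _ _ => ?_
  refine hON (C := C) p ?_ (algebraMap F E x) ?_ ?_ ?_ L
  · have := hn (p : F)
    rw [map_natCast] at this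
    rw [this]
    exact_mod_cast hp
  · rw [hn]; exact_mod_cast hx
  · intro f i
    rw [hae, IsScalarTower.algebraMap_apply C F E, hn, hn]
    exact_mod_cast gauss f i
  · intro h ε hε
    obtain ⟨a, ha⟩ := hd.exists_dist_lt h hε
    obtain ⟨f, g, hg, hfg⟩ := frac a
    refine ⟨f, g, hg, ?_⟩
    rw [hae, hae, ← map_div₀, ← hfg, ← dist_eq_norm]
    exact ha

/-- the coordinate `(X - a)/ρ` of a disc. -/
noncomputable def coord {C : Type*} [Field C] (a ρ : C) : RatFunc C :=
  (RatFunc.X - RatFunc.C a) / RatFunc.C ρ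

section Line

variable {C : Type*} [Field C] (v : Valuation C ℝ≥0)

lemma aeval_coord (a ρ : C) (f : C[X]) :
    aeval (coord a ρ) f = algebraMap C[X] (RatFunc C)
      (f.comp (Polynomial.C ρ⁻¹ * (X - Polynomial.C a))) := by
  have h1 : coord a ρ = algebraMap C[X] (RatFunc C) (Polynomial.C ρ⁻¹ * (X - Polynomial.C a)) := by
    rw [map_mul, PL_109.algebraMap_X_sub, RatFunc.algebraMap_C, coord, div_eq_inv_mul, map_inv₀]
  rw [h1, aeval_algebraMap_apply]
  rfl

lemma gaussR_aeval (a ρ : C) (hr : v ρ ≠ 0) (f : C[X]) (i : ℕ) :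
    v (f.coeff i) ≤ PL_109.gaussR v a (v ρ) hr (aeval (coord a ρ) f) := by
  rw [aeval_coord, PL_109.gaussR_algebraMap]
  have h1 : taylor a (f.comp (Polynomial.C ρ⁻¹ * (X - Polynomial.C a))) =
      f.comp (Polynomial.C ρ⁻¹ * X) := by
    rw [taylor_apply, comp_assoc]
    congr 1
    simp
  rw [h1]
  refine le_trans ?_ (PL_109.le_gf v (v ρ) _ i)
  rw [comp_C_mul_X_coeff, map_mul, map_pow, map_inv₀, mul_assoc, ← mul_pow,
    inv_mul_cancel₀ hr, one_pow, mul_one]

lemma frac_coord (a ρ : C) (hρ : ρ ≠ 0) (h : RatFunc C) :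
    ∃ f g : C[X], g ≠ 0 ∧ h = aeval (coord a ρ) f / aeval (coord a ρ) g := by
  have key : ∀ q : C[X], aeval (coord a ρ) (q.comp (Polynomial.C ρ * X + Polynomial.C a)) =
      algebraMap C[X] (RatFunc C) q := by
    intro q
    rw [aeval_coord, comp_assoc]
    congr 1
    have : (Polynomial.C ρ * X + Polynomial.C a).comp (Polynomial.C ρ⁻¹ * (X - Polynomial.C a)) =
        X := by
      simp only [add_comp, mul_comp, C_comp, X_comp]
      rw [← mul_assoc, ← Polynomial.C_mul, mul_inv_cancel₀ hρ]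
      simp
    rw [this, comp_X]
  refine ⟨h.num.comp (Polynomial.C ρ * X + Polynomial.C a),
    h.denom.comp (Polynomial.C ρ * X + Polynomial.C a), ?_, ?_⟩
  · intro h0
    have := key h.denom
    rw [h0, map_zero] at this
    exact RatFunc.denom_ne_zero h ((map_eq_zero_iff _ (IsFractionRing.injective C[X]
      (RatFunc C))).1 this.symm)
  · rw [key, key, RatFunc.num_div_denom]

end Line

/-- **STABF at every type 2 point of the line**: `C` algebraically closed of characteristic `0`
with a valuation `v`, `v p < 1`; `a` a centre, `ρ ≠ 0`; `K / C(X)` finite. -/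
theorem out_gaussR {C : Type u} [Field C] [IsAlgClosed C] [CharZero C] (v : Valuation C ℝ≥0)
    (p : ℕ) [hpp : Fact p.Prime] (hp : v (p : C) < 1) (a ρ : C) (hρ : ρ ≠ 0) (hr : v ρ ≠ 0)
    (K : Type u) [Field K] [Algebra (RatFunc C) K] [FiniteDimensional (RatFunc C) K] :
    ∃ (E : Type u) (_ : NontriviallyNormedField E) (_ : CompleteSpace E)
      (_ : IsUltrametricDist E) (_ : Algebra (RatFunc C) E),
      DenseRange (algebraMap (RatFunc C) E) ∧
      (∀ f, ‖algebraMap (RatFunc C) E f‖₊ = PL_109.gaussR v a (v ρ) hr f) ∧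
      ∃ (I : Type u) (_ : Fintype I), Nonempty (Out (RatFunc C) E K I) := by
  refine out_of_gauss (C := C) (RatFunc C) (PL_109.gaussR v a (v ρ) hr) p ?_ (coord a ρ) ?_ ?_
    (frac_coord a ρ hρ) K
  · have : ((p : ℕ) : RatFunc C) = RatFunc.C (p : C) := by rw [map_natCast]
    rw [this, PL_109.gaussR_C]; exact hp
  · rw [coord, map_div₀, PL_109.gaussR_C, PL_109.gaussR_X_sub, sub_self, map_zero,
      max_eq_left zero_le, div_self hr]
  · intro f i
    have : algebraMap C (RatFunc C) (f.coeff i) = RatFunc.C (f.coeff i) := rfl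
    rw [this, PL_109.gaussR_C]
    exact gaussR_aeval v a ρ hr f i


end Crest.Agent.R013.StabR_460
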