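import Crest.Agent.R013.EE7_809
import Crest.Agent.R013.StabG_83
import Crest.Agent.R013.Red7_332
import Crest.Agent.R013.Ins3_240
import Crest.Agent.R013.CE1_280
import Crest.Agent.R013.Red1_332
import Crest.Agent.R013.RR12_948
import Crest.Agent.R013.LiftA_168
import Mathlib
import Crest.Agent.R013.StabR_460
import Crest.Agent.R013.Good6_408
import Crest.Agent.R013.Red12_332
import Crest.Agent.R013.CAn4_243

-- ▼ part R013/End1_809
section

/-!
# Row 13, leaf SS-END (helper809): the embedding of `K` in `EE k C` attached to an end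
-/

set_option autoImplicit false
set_option linter.unusedSectionVars false
open Filter Topology
open scoped NNReal
open Crest.Agent.R013.Cell_408 (FinDef DiscNorm exists_max BD)
open Crest.Agent.R013.Red332
open Crest.Agent.R013.RR8_948 Crest.Agent.R013.RR20_948

namespace Crest.Agent.R013.EE809

open Polynomial

section PolyGe

variable {C : Type*} [NormedField C] [IsUltrametricDist C] {F : Type*} [Field F] [Algebra C F]
  {E : End2 C F}

theorem ge_zpow {t : F} (ht : E.nm t = 1) (ht' : E.od t = 1) (n : ℤ) : Ge E n (t ^ n) := by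
  right
  rw [map_zpow₀, ht, one_zpow, E.od_zpow (E.ne_zero_of_one ht), ht', mul_one]
  exact ⟨rfl, le_rfl⟩

theorem ge_neg_pow {D : ℤ} {a : F} (h : Ge E (-D) a) (n : ℕ) : Ge E (-(n * D)) (a ^ n) := by
  induction n with
  | zero => simpa using Ge.one
  | succ n ih =>
    rw [pow_succ]
    exact (ih.mul h).anti (by push_cast; linarith)

theorem ge_natCast (n : ℕ) : Ge E 0 (n : F) := by
  have h : (n : F) = algebraMap C F (n : C) := by simp
  rw [h]
  apply Ge.const
  rw [← NNReal.coe_le_coe, coe_nnnorm, NNReal.coe_one]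
  exact IsUltrametricDist.norm_natCast_le_one C n

/-- polynomials with bounded coefficients at close points -/
theorem eval_close {R : F[X]} {D D0 N : ℤ} (hD0 : 0 ≤ D0) (hR : ∀ i, Ge E (-D) (R.coeff i))
    {a b : F} (ha : Ge E (-D0) a) (hb : Ge E (-D0) b) (hab : Ge E N (a - b)) :
    Ge E (N - D - R.natDegree * D0) (R.eval a - R.eval b) := by
  rw [eval_eq_sum_range, eval_eq_sum_range, ← Finset.sum_sub_distrib]
  refine Ge.sum _ fun i hi => ?_
  have hi' : i ≤ R.natDegree := Nat.lt_succ_iff.1 (Finset.mem_range.1 hi)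
  rw [← mul_sub]
  rcases Nat.eq_zero_or_pos i with h0 | h0
  · rw [h0, pow_zero, pow_zero, sub_self, mul_zero]; exact Ge.zero _
  obtain ⟨j, rfl⟩ : ∃ j, i = j + 1 := ⟨i - 1, by omega⟩
  rw [← (Commute.all a b).geom_sum₂_mul]
  have h1 : Ge E (-(j * D0)) (∑ l ∈ Finset.range (j + 1), a ^ l * b ^ (j + 1 - 1 - l)) := by
    refine Ge.sum _ fun l hl => ?_
    have hl' : l ≤ j := Nat.lt_succ_iff.1 (Finset.mem_range.1 hl)
    refine ((ge_neg_pow ha l).mul (ge_neg_pow hb (j + 1 - 1 - l))).anti ?_
    rw [Nat.add_sub_cancel, Nat.cast_sub hl']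
    linarith
  refine ((hR (j + 1)).mul (h1.mul hab)).anti ?_
  have h2 : (j : ℤ) * D0 ≤ R.natDegree * D0 := by
    refine mul_le_mul_of_nonneg_right ?_ hD0
    exact_mod_cast (by omega : j ≤ R.natDegree)
  linarith

/-- common bound of the coefficients -/
theorem exists_coeff_bound {R : F[X]} (hR : ∀ i, E.nm (R.coeff i) ≤ 1) :
    ∃ D : ℤ, 0 ≤ D ∧ ∀ i, Ge E (-D) (R.coeff i) := by
  choose m hm using fun i => Ge.exists (hR i)
  obtain ⟨D, hD⟩ : ∃ D : ℤ, 0 ≤ D ∧ ∀ i ∈ Finset.range (R.natDegree + 1), -D ≤ m i := by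
    refine ⟨∑ i ∈ Finset.range (R.natDegree + 1), |m i|, Finset.sum_nonneg fun i _ => abs_nonneg _,
      fun i hi => ?_⟩
    have h1 : |m i| ≤ ∑ i ∈ Finset.range (R.natDegree + 1), |m i| :=
      Finset.single_le_sum (f := fun i => |m i|) (fun i _ => abs_nonneg _) hi
    have h2 := neg_abs_le (m i)
    omega
  refine ⟨D, hD.1, fun i => ?_⟩
  by_cases hi : i ∈ Finset.range (R.natDegree + 1)
  · exact (hm i).anti (hD.2 i hi)
  · rw [coeff_eq_zero_of_natDegree_lt (by simpa using hi)]
    exact Ge.zero _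

/-- bound of the Taylor coefficients -/
theorem taylor_ge {R : F[X]} {D D0 : ℤ} (hD0 : 0 ≤ D0) (hR : ∀ i, Ge E (-D) (R.coeff i))
    {a : F} (ha : Ge E (-D0) a) (i : ℕ) :
    Ge E (-(D + R.natDegree * D0)) ((taylor a R).coeff i) := by
  rw [taylor_coeff, hasseDeriv_apply, sum_over_range, eval_finsetSum]
  · refine Ge.sum _ fun j hj => ?_
    have hj' : j ≤ R.natDegree := Nat.lt_succ_iff.1 (Finset.mem_range.1 hj)
    rw [eval_monomial]
    refine (((ge_natCast (E := E) (j.choose i)).mul (hR j)).mul (ge_neg_pow ha (j - i))).anti ?_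
    have h2 : ((j - i : ℕ) : ℤ) * D0 ≤ R.natDegree * D0 := by
      refine mul_le_mul_of_nonneg_right ?_ hD0
      exact_mod_cast (by omega : j - i ≤ R.natDegree)
    linarith
  · intro n; simp

/-- approximate value near a root -/
theorem eval_near_root {R : F[X]} {z a : F} (hz : R.eval z = 0) {D M e : ℤ}
    (hD : ∀ i, Ge E (-D) ((taylor z R).coeff i)) (h1 : Ge E e (R.derivative.eval z))
    (hM : D + e ≤ M) (hM0 : 0 ≤ M) (ha : Ge E M (a - z)) : Ge E (M + e) (R.eval a) := by
  have h2 : R.eval a = ∑ i ∈ Finset.range (R.natDegree + 2), (taylor z R).coeff i * (a - z) ^ i := by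
    have : a = (a - z) + z := by ring
    conv_lhs => rw [this, ← taylor_eval]
    rw [eval_eq_sum_range' (n := R.natDegree + 2)]
    rw [natDegree_taylor]; omega
  rw [h2]
  refine Ge.sum _ fun i hi => ?_
  rcases Nat.lt_or_ge i 2 with h | h
  · rcases Nat.lt_or_ge i 1 with h' | h'
    · have : i = 0 := by omega
      rw [this, taylor_coeff_zero, hz, zero_mul]
      exact Ge.zero _
    · have : i = 1 := by omega
      rw [this, taylor_coeff_one, pow_one]
      exact (h1.mul ha).anti (by linarith)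
  · have h3 : Ge E ((i : ℤ) * M) ((a - z) ^ i) := by
      have := ge_neg_pow (D := -M) (a := a - z) (by rwa [neg_neg]) i
      exact this.anti (by linarith)
    refine ((hD i).mul h3).anti ?_
    have h4 : (2 : ℤ) * M ≤ i * M := by
      refine mul_le_mul_of_nonneg_right ?_ hM0
      exact_mod_cast h
    linarith

end PolyGe

section Approx

variable {C : Type*} [NormedField C] [IsUltrametricDist C] {K : Type*} [Field K] [Algebra C K]
  [Algebra (RatFunc C) K] [IsScalarTower C (RatFunc C) K]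

/-- approximation by rational functions of the uniformiser -/
theorem exists_approx {E : End2 C K} (ht : E.nm (xK C K) = 1) (ht' : E.od (xK C K) = 1)
    (hres : ∀ f, Ge E 0 f → ∃ c : C, ‖c‖₊ ≤ 1 ∧ Ge E 1 (f - algebraMap C K c)) {m : ℤ} {f : K}
    (hf : Ge E m f) (N : ℤ) : ∃ g : RatFunc C, Ge E N (f - algebraMap (RatFunc C) K g) := by
  have key : ∀ n : ℕ, ∃ g : RatFunc C, Ge E (m + n) (f - algebraMap (RatFunc C) K g) := by
    intro n
    induction n with
    | zero => exact ⟨0, by simpa using hf⟩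
    | succ n ih =>
      obtain ⟨g, hg⟩ := ih
      set t := xK C K with htdef
      have ht0 : t ≠ 0 := E.ne_zero_of_one ht
      have h1 : Ge E 0 ((f - algebraMap (RatFunc C) K g) * t ^ (-(m + n : ℤ))) :=
        (hg.mul (ge_zpow ht ht' _)).anti (by linarith)
      obtain ⟨c, hc, hc1⟩ := hres _ h1
      refine ⟨g + algebraMap C (RatFunc C) c * RatFunc.X ^ (m + n : ℤ), ?_⟩
      have h2 : f - algebraMap (RatFunc C) K (g + algebraMap C (RatFunc C) c * RatFunc.X ^ (m + n : ℤ))
          = ((f - algebraMap (RatFunc C) K g) * t ^ (-(m + n : ℤ)) - algebraMap C K c) *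
            t ^ (m + n : ℤ) := by
        rw [map_add, map_mul, ← IsScalarTower.algebraMap_apply C (RatFunc C) K, map_zpow₀]
        have h3 : algebraMap (RatFunc C) K RatFunc.X = t := rfl
        rw [h3, sub_mul, mul_assoc, ← zpow_add₀ ht0, neg_add_cancel, zpow_zero]
        ring
      rw [h2]
      exact (hc1.mul (ge_zpow ht ht' _)).anti (by push_cast; linarith)
  obtain ⟨g, hg⟩ := key (N - m).toNat
  refine ⟨g, hg.anti ?_⟩
  have := Int.self_le_toNat (N - m)
  omega

end Approx

section Main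

variable {k : Type*} [NontriviallyNormedField k] [CompleteSpace k]
variable {C : Type*} [NormedField C] [IsUltrametricDist C] [NormedAlgebra k C]
variable [Algebra.IsAlgebraic k C] [IsUltrametricDist k] [IsAlgClosed C] [hk : Fact (DiscNorm k)]
variable {K : Type*} [Field K] [Algebra C K] [Algebra (RatFunc C) K] [IsScalarTower C (RatFunc C) K]

/-- `z` is a chart element at the end `E`; `x` has norm one and order one -/
structure Chart (E : End2 C K) (z : K) : Prop where
  ht : E.nm (xK C K) = 1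
  ht' : E.od (xK C K) = 1
  res : ∀ f, Ge E 0 f → ∃ c : C, ‖c‖₊ ≤ 1 ∧ Ge E 1 (f - algebraMap C K c)
  gen : IntermediateField.adjoin (RatFunc C) {z} = ⊤
  int : ∀ n, E.nm (algebraMap (RatFunc C) K ((minpoly (RatFunc C) z).coeff n)) ≤ 1
  der : E.nm (aeval z (derivative (minpoly (RatFunc C) z))) = 1
  z1 : E.nm z = 1
  app : ∀ y, E.nm y ≤ 1 → ∃ Q : (RatFunc C)[X],
    (∀ n, E.nm (algebraMap (RatFunc C) K (Q.coeff n)) ≤ 1) ∧ E.nm (y - aeval z Q) < 1
  uniq : ∀ v : Valuation K ℝ≥0, (∀ f, v (algebraMap (RatFunc C) K f) =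
    E.nm (algebraMap (RatFunc C) K f)) → v z = 1 → v = E.nm

variable {E : End2 C K} {z : K}

/-- comparison of `C(X) → K` and `C(X) → EE` -/
theorem Chart.rat_ge (h : Chart E z) (f : RatFunc C) (m : ℤ) :
    Ge E m (algebraMap (RatFunc C) K f) ↔ Ge (endE k C) m (expn k C f) :=
  EE809.rat_ge (E := E) (E' := endE k C) (φ := IsScalarTower.toAlgHom C (RatFunc C) K)
    (φ' := expn k C) h.ht h.ht' (by rw [expn_X]; exact nm_T) (by rw [expn_X]; exact od_T1) f m

theorem Chart.rat_nm (h : Chart E z) (f : RatFunc C) :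
    E.nm (algebraMap (RatFunc C) K f) = gv k C (expn k C f) :=
  (rat_end (E := E) (E' := endE k C) (φ := IsScalarTower.toAlgHom C (RatFunc C) K)
    (φ' := expn k C) h.ht h.ht' (by rw [expn_X]; exact nm_T) (by rw [expn_X]; exact od_T1) f).1

theorem Chart.rat_od (h : Chart E z) {f : RatFunc C} (hf : f ≠ 0) :
    E.od (algebraMap (RatFunc C) K f) = od (expn k C f) :=
  (rat_end (E := E) (E' := endE k C) (φ := IsScalarTower.toAlgHom C (RatFunc C) K)
    (φ' := expn k C) h.ht h.ht' (by rw [expn_X]; exact nm_T) (by rw [expn_X]; exact od_T1) f).2 hf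

/-- **the root**: an element of `Ep` close to all the approximations of `z` -/
theorem Chart.exists_root [FiniteDimensional (RatFunc C) K] (h : Chart E z) :
    ∃ ζ : EE k C, ζ ∈ Ep k C ∧
      ((minpoly (RatFunc C) z).map (expn k C : RatFunc C →+* EE k C)).eval ζ = 0 ∧
      ∃ (D0 : ℤ) (g : ℤ → RatFunc C), 0 ≤ D0 ∧ Ge E (-D0) z ∧
        ∃ M0 : ℤ, ∀ M, M0 ≤ M → Ge E (M + 1) (z - algebraMap (RatFunc C) K (g M)) ∧
          Ge (endE k C) (M + 1) (ζ - expn k C (g M)) := by
  classical
  set F := RatFunc C with hF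
  set P : F[X] := minpoly F z with hPdef
  set PK : K[X] := P.map (algebraMap F K) with hPK
  have hPKco : ∀ i, PK.coeff i = algebraMap F K (P.coeff i) := fun i => coeff_map _ _
  have hPKz : PK.eval z = 0 := by rw [hPK, eval_map_algebraMap]; exact minpoly.aeval F z
  have hder : PK.derivative.eval z = aeval z (derivative P) := by
    rw [hPK, derivative_map, eval_map_algebraMap]
  -- order bounds
  obtain ⟨D, hD, hDi⟩ := exists_coeff_bound (E := E) (R := PK) (fun i => by rw [hPKco]; exact h.int i)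
  have hder1 : E.nm (PK.derivative.eval z) = 1 := by rw [hder]; exact h.der
  obtain ⟨D', hD', hD'i⟩ := exists_coeff_bound (E := E) (R := PK.derivative) (fun i => by
    rw [coeff_derivative, map_mul, hPKco]
    have h1 := (ge_natCast (E := E) (i + 1)).le_one
    push_cast at h1
    exact mul_le_one' (h.int _) h1)
  set e : ℤ := E.od (PK.derivative.eval z) with he
  obtain ⟨m0, hm0⟩ := Ge.exists h.z1.le
  set D0 : ℤ := |m0| with hD0def
  have hD0 : 0 ≤ D0 := abs_nonneg _
  have hzD : Ge E (-D0) z := hm0.anti (neg_abs_le _)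
  -- approximations
  choose g hg using fun M : ℤ => exists_approx h.ht h.ht' h.res hzD (M + 1)
  set n : ℤ := (P.natDegree : ℤ) with hn
  have hn0 : 0 ≤ n := by positivity
  have hdegPK : PK.natDegree = P.natDegree := natDegree_map _
  have hdegPK' : (PK.derivative.natDegree : ℤ) ≤ n := by
    have := natDegree_derivative_le PK
    rw [hdegPK] at this
    rw [hn]; exact_mod_cast (by omega)
  -- threshold
  set M0 : ℤ := D + D' + 2 * (n * D0) + |e| + D0 + 1 with hM0
  have hnD : 0 ≤ n * D0 := mul_nonneg hn0 hD0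
  have he0 := abs_nonneg e
  have he1 := le_abs_self e
  have he2 := neg_abs_le e
  -- properties at level `M ≥ M0`
  have hclose : ∀ M, M0 ≤ M → Ge E (-D0) (algebraMap F K (g M)) := by
    intro M hM
    have h1 : algebraMap F K (g M) = z - (z - algebraMap F K (g M)) := by ring
    rw [h1]
    exact hzD.sub ((hg M).anti (by linarith))
  have hα1 : ∀ M, M0 ≤ M → E.nm (PK.derivative.eval (algebraMap F K (g M))) = 1 ∧
      E.od (PK.derivative.eval (algebraMap F K (g M))) = e := by
    intro M hM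
    refine Ge.od_eq hder1 ?_
    refine (eval_close hD0 hD'i hzD (hclose M hM) (hg M)).anti ?_
    have h2 : (PK.derivative.natDegree : ℤ) * D0 ≤ n * D0 := mul_le_mul_of_nonneg_right hdegPK' hD0
    rw [← he]
    linarith
  have hα0 : ∀ M, M0 ≤ M → Ge E (M + 1 + e) (PK.eval (algebraMap F K (g M))) := by
    intro M hM
    refine eval_near_root hPKz (D := D + n * D0) (fun i => ?_) (Ge.of_one hder1) ?_ (by linarith) ?_
    · have := taylor_ge hD0 hDi hzD i
      rwa [hdegPK, ← hn] at this
    · linarith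
    · have h1 := (hg M).neg
      rwa [neg_sub] at h1
  -- the polynomial over EE
  set PE : (EE k C)[X] := P.map (expn k C : F →+* EE k C) with hPE
  have hPEE : ∀ i, PE.coeff i ∈ Ep k C := fun i => by rw [hPE, coeff_map]; exact expn_mem_Ep _
  have htay : ∀ M i, (taylor (expn k C (g M)) PE).coeff i = expn k C ((taylor (g M) P).coeff i) := by
    intro M i
    rw [hPE]
    have h1 : (expn k C (g M) : EE k C) = (expn k C : F →+* EE k C) (g M) := rfl
    rw [h1, ← map_taylor, coeff_map]
    rfl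
  have htayK : ∀ M i, (taylor (algebraMap F K (g M)) PK).coeff i =
      algebraMap F K ((taylor (g M) P).coeff i) := by
    intro M i
    rw [hPK, ← map_taylor, coeff_map]
  have hnwt : ∀ M i, nwt PE (expn k C (g M)) i =
      expn k C (-((taylor (g M) P).coeff i / (taylor (g M) P).coeff 1)) := by
    intro M i
    rw [nwt, htay, htay, map_neg, map_div₀]
  have hq : ∀ M, M0 ≤ M → ∀ (m : ℤ) (i : ℕ), Ge E m ((taylor (algebraMap F K (g M)) PK).coeff i) →
      Ge (endE k C) (m - e) (nwt PE (expn k C (g M)) i) := by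
    intro M hM m i hi
    rw [hnwt, ← h.rat_ge, map_neg, map_div₀, ← htayK, ← htayK]
    obtain ⟨h1, h2⟩ := hα1 M hM
    rw [← taylor_coeff_one] at h1 h2
    have h3 := Ge.inv h1
    rw [h2] at h3
    rw [div_eq_mul_inv]
    exact ((hi.mul h3).neg).anti (by linarith)
  have hnew : ∀ M, M0 ≤ M → PE.derivative.eval (expn k C (g M)) ≠ 0 ∧
      Ge (endE k C) (M + 1) (nwt PE (expn k C (g M)) 0) ∧
      ∀ i : ℕ, 2 ≤ i → Ge (endE k C) (1 - ((i : ℤ) - 1) * M) (nwt PE (expn k C (g M)) i) := by
    intro M hM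
    refine ⟨?_, ?_, fun i hi => ?_⟩
    · rw [← taylor_coeff_one, htay]
      intro h0
      rw [map_eq_zero] at h0
      obtain ⟨h1, -⟩ := hα1 M hM
      rw [← taylor_coeff_one, htayK, h0, map_zero, map_zero] at h1
      exact zero_ne_one h1
    · have h1 := hα0 M hM
      rw [← taylor_coeff_zero] at h1
      exact (hq M hM _ 0 h1).anti (by linarith)
    · have h1 := taylor_ge hD0 hDi (hclose M hM) i
      rw [hdegPK, ← hn] at h1
      refine (hq M hM _ i h1).anti ?_
      have hM1 : 0 ≤ M := by linarith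
      have h2 : (1 : ℤ) * M ≤ ((i : ℤ) - 1) * M := by
        refine mul_le_mul_of_nonneg_right ?_ hM1
        have : (2 : ℤ) ≤ i := by exact_mod_cast hi
        linarith
      linarith
  -- roots
  have hroot : ∀ M, M0 ≤ M → ∃ ζ : EE k C, ζ ∈ Ep k C ∧ PE.eval ζ = 0 ∧
      Ge (endE k C) (M + 1) (ζ - expn k C (g M)) := by
    intro M hM
    obtain ⟨h1, h2, h3⟩ := hnew M hM
    obtain ⟨⟨x, e1, e2, e3⟩, -⟩ := newton2 hPEE (expn_mem_Ep (g M)) M h1 h2 h3
    refine ⟨expn k C (g M) + x, add_mem (expn_mem_Ep _) e1, e3, ?_⟩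
    rwa [add_sub_cancel_left]
  obtain ⟨ζ, hζE, hζ0, hζ1⟩ := hroot M0 le_rfl
  refine ⟨ζ, hζE, hζ0, D0, g, hD0, hzD, M0, fun M hM => ⟨hg M, ?_⟩⟩
  obtain ⟨ζ', hζ'E, hζ'0, hζ'1⟩ := hroot M hM
  have hgg : Ge (endE k C) (M0 + 1) (expn k C (g M) - expn k C (g M0)) := by
    rw [← map_sub, ← h.rat_ge, map_sub]
    have h1 : algebraMap F K (g M) - algebraMap F K (g M0) =
        (z - algebraMap F K (g M0)) - (z - algebraMap F K (g M)) := by ring
    rw [h1]
    exact (hg M0).sub ((hg M).anti (by linarith))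
  obtain ⟨h1, h2, h3⟩ := hnew M0 le_rfl
  obtain ⟨-, huniq⟩ := newton2 hPEE (expn_mem_Ep (g M0)) M0 h1 h2 h3
  have h4 := huniq (ζ - expn k C (g M0)) (ζ' - expn k C (g M0)) (sub_mem hζE (expn_mem_Ep _))
    (sub_mem hζ'E (expn_mem_Ep _)) hζ1 (by
      have h5 : ζ' - expn k C (g M0) = (ζ' - expn k C (g M)) + (expn k C (g M) - expn k C (g M0)) := by
        ring
      rw [h5]
      exact (hζ'1.anti (by linarith)).add hgg) (by rw [add_sub_cancel]; exact hζ0)
      (by rw [add_sub_cancel]; exact hζ'0)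
  have h5 : ζ = ζ' := sub_left_injective h4
  rw [h5]
  exact hζ'1

/-- **THEOREM END1**: the embedding attached to an end. -/
theorem Chart.exists_emb [FiniteDimensional (RatFunc C) K] (h : Chart E z) :
    ∃ ψ : K →ₐ[C] EE k C, ψ (xK C K) = T 1 ∧ (∀ f, ψ f ∈ Ep k C) ∧ (∀ f, gv k C (ψ f) = E.nm f) ∧
      ∀ f, f ≠ 0 → od (ψ f) = E.od f := by
  classical
  obtain ⟨ζ, hζE, hζ0, D0, g, hD0, hzD, M0, hM0⟩ := h.exists_root (k := k)
  -- polynomials in `z`
  have key : ∀ Q : (RatFunc C)[X], (∀ n, E.nm (algebraMap (RatFunc C) K (Q.coeff n)) ≤ 1) →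
      E.nm (aeval z Q) = 1 →
      gv k C ((Q.map (expn k C : RatFunc C →+* EE k C)).eval ζ) = 1 ∧
        od ((Q.map (expn k C : RatFunc C →+* EE k C)).eval ζ) = E.od (aeval z Q) := by
    intro Q hQ hQ1
    set QK : K[X] := Q.map (algebraMap (RatFunc C) K) with hQK
    set QE : (EE k C)[X] := Q.map (expn k C : RatFunc C →+* EE k C) with hQE
    have hQKco : ∀ i, QK.coeff i = algebraMap (RatFunc C) K (Q.coeff i) := fun i => coeff_map _ _
    have hQEco : ∀ i, QE.coeff i = expn k C (Q.coeff i) := fun i => coeff_map _ _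
    have hQz : QK.eval z = aeval z Q := by rw [hQK, eval_map_algebraMap]
    obtain ⟨D, hD, hDi⟩ := exists_coeff_bound (E := E) (R := QK) (fun i => by rw [hQKco]; exact hQ i)
    have hDi' : ∀ i, Ge (endE k C) (-D) (QE.coeff i) := fun i => by
      rw [hQEco, ← h.rat_ge, ← hQKco]; exact hDi i
    set n : ℤ := (Q.natDegree : ℤ) with hn
    have hn0 : 0 ≤ n := by positivity
    have hnD : 0 ≤ n * D0 := mul_nonneg hn0 hD0
    set e := E.od (aeval z Q) with he
    set M : ℤ := max M0 0 + D + n * D0 + |e| + D0 + 1 with hM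
    have he0 := abs_nonneg e
    have he1 := le_abs_self e
    have hmax1 := le_max_left M0 0
    have hmax2 := le_max_right M0 0
    obtain ⟨h1, h2⟩ := hM0 M (by linarith)
    have hgK : Ge E (-D0) (algebraMap (RatFunc C) K (g M)) := by
      have h1' : algebraMap (RatFunc C) K (g M) = z - (z - algebraMap (RatFunc C) K (g M)) := by ring
      rw [h1']
      exact hzD.sub (h1.anti (by linarith))
    have hgE : Ge (endE k C) (-D0) (expn k C (g M)) := h.rat_ge _ _ |>.1 hgK
    have hζD : Ge (endE k C) (-D0) ζ := by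
      have h1' : ζ = expn k C (g M) + (ζ - expn k C (g M)) := by ring
      rw [h1']
      exact hgE.add (h2.anti (by linarith))
    have hdeg1 : QK.natDegree = Q.natDegree := natDegree_map _
    have hdeg2 : QE.natDegree = Q.natDegree := natDegree_map _
    have c1 := eval_close hD0 hDi hzD hgK h1
    rw [hdeg1, ← hn] at c1
    have c2 := eval_close hD0 hDi' hgE hζD (by
      have := h2.neg
      rwa [neg_sub] at this)
    rw [hdeg2, ← hn] at c2
    have hQK1 : E.nm (QK.eval z) = 1 := by rw [hQz]; exact hQ1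
    obtain ⟨d1, d2⟩ := Ge.od_eq (g := QK.eval (algebraMap (RatFunc C) K (g M))) hQK1
      (c1.anti (by rw [hQz, ← he]; linarith))
    have hQg : QK.eval (algebraMap (RatFunc C) K (g M)) = algebraMap (RatFunc C) K (Q.eval (g M)) := by
      rw [hQK, eval_map, eval₂_at_apply]
    have hQgE : QE.eval (expn k C (g M)) = expn k C (Q.eval (g M)) := by
      have : (expn k C (g M) : EE k C) = (expn k C : RatFunc C →+* EE k C) (g M) := rfl
      rw [hQE, eval_map, this, eval₂_at_apply]
      rfl
    have hne : Q.eval (g M) ≠ 0 := by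
      intro h0
      rw [hQg, h0, map_zero, map_zero] at d1
      exact zero_ne_one d1
    have d3 : (endE k C).nm (QE.eval (expn k C (g M))) = 1 := by
      rw [hQgE, endE_nm, ← h.rat_nm, ← hQg, d1]
    have d4 : (endE k C).od (QE.eval (expn k C (g M))) = e := by
      rw [hQgE, endE_od, ← h.rat_od hne, ← hQg, d2, hQz]
    obtain ⟨d5, d6⟩ := Ge.od_eq (g := QE.eval ζ) d3 (c2.anti (by rw [d4]; linarith))
    exact ⟨d5, by rw [← endE_od, d6, d4]⟩
  -- the embedding
  letI : Algebra (RatFunc C) (EE k C) := (expn k C : RatFunc C →+* EE k C).toAlgebra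
  have halg : ∀ f : RatFunc C, algebraMap (RatFunc C) (EE k C) f = expn k C f := fun _ => rfl
  have hint : IsIntegral (RatFunc C) z := Algebra.IsIntegral.isIntegral z
  have hadj : Algebra.adjoin (RatFunc C) {z} = ⊤ := by
    rw [← IntermediateField.adjoin_simple_toSubalgebra_of_isAlgebraic hint.isAlgebraic, h.gen]
    rfl
  let pb := PowerBasis.ofAdjoinEqTop hint hadj
  have hgen : pb.gen = z := rfl
  let ψ0 : K →ₐ[RatFunc C] EE k C := pb.lift ζ (by
    rw [hgen, ← eval_map_algebraMap]
    exact hζ0)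
  have hψz : ψ0 z = ζ := by
    have := pb.lift_gen ζ (by rw [hgen, ← eval_map_algebraMap]; exact hζ0)
    exact this
  have hψF : ∀ f : RatFunc C, ψ0 (algebraMap (RatFunc C) K f) = expn k C f := fun f => ψ0.commutes f
  have hψQ : ∀ Q : (RatFunc C)[X], ψ0 (aeval z Q) =
      (Q.map (expn k C : RatFunc C →+* EE k C)).eval ζ := by
    intro Q
    rw [← aeval_algHom_apply, hψz, ← eval_map_algebraMap]
    rfl
  -- the norm
  have hnm : (gv k C).comap (ψ0 : K →+* EE k C) = E.nm := by
    apply h.uniq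
    · intro f
      rw [Valuation.comap_apply]
      show gv k C (ψ0 _) = _
      rw [hψF, h.rat_nm (k := k)]
    · rw [Valuation.comap_apply]
      show gv k C (ψ0 z) = 1
      have h1 := (key Polynomial.X (fun n => by
        rw [coeff_X]
        split_ifs
        · rw [map_one, map_one]
        · rw [map_zero, map_zero]; exact zero_le_one) (by rw [aeval_X]; exact h.z1)).1
      rw [map_X, eval_X] at h1
      rw [hψz]; exact h1
  have hnm' : ∀ f, gv k C (ψ0 f) = E.nm f := fun f => by
    rw [← hnm]; rfl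
  have hψC : ∀ c : C, ψ0 (algebraMap C K c) = algebraMap C (EE k C) c := by
    intro c
    rw [IsScalarTower.algebraMap_apply C (RatFunc C) K, hψF]
    exact (expn k C).commutes c
  refine ⟨{ ψ0.toRingHom with commutes' := hψC }, ?_, fun f => ?_, hnm', fun f hf => ?_⟩
  · show ψ0 (algebraMap (RatFunc C) K RatFunc.X) = T 1
    rw [hψF, expn_X]
  · show ψ0 f ∈ Ep k C
    have hf : f ∈ Algebra.adjoin (RatFunc C) {z} := by rw [hadj]; trivial
    rw [Algebra.adjoin_singleton_eq_range_aeval] at hf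
    obtain ⟨Q, hQ⟩ := hf
    have hQ' : aeval z Q = f := hQ
    rw [← hQ', hψQ, eval_eq_sum_range]
    refine sum_mem fun i _ => mul_mem ?_ (pow_mem hζE i)
    rw [coeff_map]
    exact expn_mem_Ep _
  · show od (ψ0 f) = E.od f
    obtain ⟨c, hc0, hc1, hc2⟩ := E.exists_one hf
    set f' := f * (algebraMap C K c)⁻¹ with hf'
    obtain ⟨Q, hQ, hQf⟩ := h.app f' hc1.le
    have hQ1 : E.nm (aeval z Q) = 1 := by
      have h1 : aeval z Q = f' - (f' - aeval z Q) := by ring
      rw [h1, Valuation.map_sub_eq_of_lt_left _ (by rw [hc1]; exact hQf), hc1]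
    have h1 : E.od (aeval z Q) = E.od f' := E.od_congr (f := f') (g := aeval z Q) (by rw [hc1]; exact hQf)
    obtain ⟨h2, h3⟩ := key Q hQ hQ1
    have h4 : od (ψ0 f') = od (ψ0 (aeval z Q)) := by
      have := (endE k C).od_congr (f := ψ0 (aeval z Q)) (g := ψ0 f') (by
        rw [endE_nm, endE_nm, ← map_sub, hnm', hnm', Valuation.map_sub_swap, hQ1]
        exact hQf)
      exact this
    have h5 : od (ψ0 f') = E.od f' := by rw [h4, hψQ, h3, h1]
    have h6 : od (ψ0 f') = od (ψ0 f) := by
      rw [hf', map_mul, map_inv₀, hψC, ← endE_od, (endE k C).od_mul _ _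
        (by rw [Ne, map_eq_zero]; exact hf) (inv_ne_zero (by rw [Ne, map_eq_zero]; exact hc0)),
        (endE k C).od_inv (by rw [Ne, map_eq_zero]; exact hc0), (endE k C).od_C c hc0]
      simp [endE_od]
    rw [← h6, h5, hc2]

end Main

end Crest.Agent.R013.EE809
end

-- ▼ part R013/StabH_83
section

/-!
# T2A at the level of `StabF_83.Out`: the chart element (helper83, row 13)
-/

set_option autoImplicit false
set_option linter.unusedSectionVars false
set_option linter.style.haveILetI false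

namespace Crest.Agent.R013.StabF_83

open NNReal Polynomial
open scoped NNReal

universe u

theorem separable_of_root {κ l : Type*} [Field κ] [Field l] [Algebra κ l] (x : l) (P : κ[X])
    (h0 : aeval x P = 0) (h1 : aeval x (derivative P) ≠ 0) : IsSeparable κ x := by
  have hP : P ≠ 0 := by
    rintro rfl
    simp at h1
  have hint : IsIntegral κ x := by
    rw [← isAlgebraic_iff_isIntegral]
    exact ⟨P, hP, h0⟩
  obtain ⟨q, hq⟩ := minpoly.dvd κ x h0
  rw [IsSeparable, Polynomial.separable_iff_derivative_ne_zero (minpoly.irreducible hint)]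
  intro hd
  apply h1
  rw [hq, derivative_mul, hd, zero_mul, zero_add, map_mul, minpoly.aeval, zero_mul]

theorem exists_primitive_of_finite {F K : Type*} [Field F] [Field K] [Algebra F K]
    [FiniteDimensional F K] [Algebra.IsSeparable F K] (z0 u : K)
    (hu : IntermediateField.adjoin F {u} = ⊤) (c : ℕ → F) (hc : Function.Injective c) :
    ∃ n, IntermediateField.adjoin F {z0 + c n • u} = ⊤ := by
  haveI : Finite (IntermediateField F K) :=
    Field.finite_intermediateField_of_exists_primitive_element F K ⟨u, hu⟩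
  obtain ⟨n, m, hnm, h⟩ := Finite.exists_ne_map_eq_of_infinite
    (fun n => IntermediateField.adjoin F {z0 + c n • u})
  refine ⟨n, ?_⟩
  set M := IntermediateField.adjoin F {z0 + c n • u} with hM
  have h1 : z0 + c n • u ∈ M := IntermediateField.mem_adjoin_simple_self F _
  have h2 : z0 + c m • u ∈ M := by
    have : z0 + c m • u ∈ IntermediateField.adjoin F {z0 + c m • u} :=
      IntermediateField.mem_adjoin_simple_self F _
    rwa [← h] at this
  have h3 : (c n - c m) • u ∈ M := by
    have := M.sub_mem h1 h2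
    rwa [add_sub_add_left_eq_sub, ← sub_smul] at this
  have h4 : u ∈ M := by
    have hne : c n - c m ≠ 0 := sub_ne_zero.mpr fun h => hnm (hc h)
    have := M.smul_mem h3 (x := (c n - c m)⁻¹)
    rwa [inv_smul_smul₀ hne] at this
  rw [eq_top_iff, ← hu, IntermediateField.adjoin_simple_le_iff]
  exact h4

namespace Out

variable {F E K : Type u} [Field F] [NontriviallyNormedField E] [IsUltrametricDist E]
  [Algebra F E] [Field K] [Algebra F K] {I : Type u} [Fintype I] (o : Out F E K I)

variable (F E) in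
/-- ring of integers of `F` -/
noncomputable def OF : ValuationSubring F :=
  ((NormedField.valuation (K := E)).comap (algebraMap F E)).valuationSubring


theorem mem_max (f : OF F E) :
    f ∈ IsLocalRing.maximalIdeal (OF F E) ↔ ‖algebraMap F E (f : F)‖₊ < 1 := by
  exact Valuation.mem_maximalIdeal_iff _ _

/-- the unit ball of the sup of the `w i`, as a subalgebra over the integers of `F`. -/
def B : Subalgebra (OF F E) K where
  carrier := {y | ∀ i, o.w i y ≤ 1}
  mul_mem' {x y} hx hy i := by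
    rw [map_mul]; exact mul_le_one' (hx i) (hy i)
  add_mem' {x y} hx hy i := (Valuation.map_add _ _ _).trans (max_le (hx i) (hy i))
  algebraMap_mem' r i := by
    have : (algebraMap (OF F E) K r) = algebraMap F K (r : F) := rfl
    rw [this, o.w_alg]; exact r.2


/-- basis of `B` -/
noncomputable def basisB : Module.Basis (Σ i, Fin (o.d i)) (OF F E) o.B :=
  Module.Basis.ofEquivFun
    { toFun := fun y j => ⟨o.b.repr (y : K) j, (o.all_le_iff (y : K) 1).mp y.2 j⟩
      map_add' := fun x y => by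
        funext j; ext; simp
      map_smul' := fun r y => by
        funext j; ext
        have : ((r • y : o.B) : K) = (r : F) • (y : K) := rfl
        simp [this]
      invFun := fun c => ⟨∑ j, (c j : F) • o.b j, fun i => o.sum_le i _ 1 fun l => (c l).2⟩
      left_inv := fun y => by
        ext
        exact o.b.sum_repr (y : K)
      right_inv := fun c => by
        funext j; ext
        show o.b.repr (∑ j, (c j : F) • o.b j) j = (c j : F)
        rw [o.b.repr_sum_self] }

instance : Module.Free (OF F E) o.B := Module.Free.of_basis o.basisB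
instance : Module.Finite (OF F E) o.B := Module.Finite.of_basis o.basisB


/-- the maximal ideal of `w i` -/
def pI (i : I) : Ideal o.B where
  carrier := {y | o.w i (y : K) < 1}
  add_mem' {x y} hx hy := by
    show o.w i ((x : K) + (y : K)) < 1
    exact (Valuation.map_add _ _ _).trans_lt (max_lt hx hy)
  zero_mem' := by simp
  smul_mem' c x hx := by
    have : ((c • x : o.B) : K) = (c : K) * (x : K) := rfl
    show o.w i ((c • x : o.B) : K) < 1
    rw [this, map_mul]
    calc o.w i (c : K) * o.w i (x : K) ≤ 1 * o.w i (x : K) := mul_le_mul' (c.2 i) le_rfl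
      _ < 1 := by rw [one_mul]; exact hx

theorem mem_pI (i : I) (y : o.B) : y ∈ o.pI i ↔ o.w i (y : K) < 1 := Iff.rfl

/-- the complementary ideal -/
def jI (i : I) : Ideal o.B where
  carrier := {y | ∀ j, j ≠ i → o.w j (y : K) < 1}
  add_mem' {x y} hx hy j hj := by
    show o.w j ((x : K) + (y : K)) < 1
    exact (Valuation.map_add _ _ _).trans_lt (max_lt (hx j hj) (hy j hj))
  zero_mem' := by intro j _; simp
  smul_mem' c x hx j hj := by
    have : ((c • x : o.B) : K) = (c : K) * (x : K) := rfl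
    show o.w j ((c • x : o.B) : K) < 1
    rw [this, map_mul]
    calc o.w j (c : K) * o.w j (x : K) ≤ 1 * o.w j (x : K) := mul_le_mul' (c.2 j) le_rfl
      _ < 1 := by rw [one_mul]; exact hx j hj

/-- adapted approximation inside `B` -/
theorem exists_B (i : I) (y : K) (hy : o.w i y ≤ 1) : ∃ z : o.B, o.w i ((z : K) - y) < 1 ∧
    z ∈ o.jI i := by
  classical
  obtain ⟨z, hz⟩ := o.approx (fun j => if j = i then y else 0) 1 one_pos
  have hzi : o.w i (z - y) < 1 := by simpa using hz i
  have hzj : ∀ j, j ≠ i → o.w j z < 1 := by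
    intro j hj
    have h := hz j
    simpa only [if_neg hj, sub_zero] using h
  have hall : ∀ j, o.w j z ≤ 1 := by
    intro j
    by_cases hj : j = i
    · subst hj
      have : z = (z - y) + y := by ring
      rw [this]
      exact (Valuation.map_add _ _ _).trans (max_le hzi.le hy)
    · exact (hzj j hj).le
  exact ⟨⟨z, hall⟩, hzi, hzj⟩

instance pI_max (i : I) : (o.pI i).IsMaximal := by
  rw [Ideal.isMaximal_iff]
  constructor
  · rw [mem_pI]; simp
  · intro J' x hle hx hxJ
    rw [mem_pI, not_lt] at hx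
    have hx1 : o.w i (x : K) = 1 := le_antisymm (x.2 i) hx
    have hx0 : (x : K) ≠ 0 := by
      intro h; rw [h, map_zero] at hx1; exact zero_ne_one hx1
    obtain ⟨z, hz, -⟩ := o.exists_B i (x : K)⁻¹ (by rw [map_inv₀, hx1, inv_one])
    have h1 : z * x - 1 ∈ o.pI i := by
      rw [mem_pI]
      have : ((z * x - 1 : o.B) : K) = ((z : K) - (x : K)⁻¹) * (x : K) := by
        push_cast
        field_simp
      rw [this, map_mul, hx1, mul_one]
      exact hz
    have h2 : (1 : o.B) = z * x - (z * x - 1) := by ring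
    rw [h2]
    exact J'.sub_mem (J'.mul_mem_left z hxJ) (hle h1)

theorem coprime (i : I) : IsCoprime (o.pI i) (o.jI i) := by
  rw [Ideal.isCoprime_iff_exists]
  obtain ⟨z, hz, hzj⟩ := o.exists_B i 1 (by simp)
  refine ⟨1 - z, ?_, z, hzj, by ring⟩
  rw [mem_pI]
  have : ((1 - z : o.B) : K) = -((z : K) - 1) := by push_cast; ring
  rw [this, Valuation.map_neg]
  exact hz

theorem inf_eq (i : I) : o.pI i ⊓ o.jI i =
    (RingHom.ker (algebraMap (OF F E) (IsLocalRing.ResidueField (OF F E)))).map
      (algebraMap (OF F E) o.B) := by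
  classical
  have hker : ∀ r : OF F E, r ∈ RingHom.ker (algebraMap (OF F E)
      (IsLocalRing.ResidueField (OF F E))) ↔ ‖algebraMap F E (r : F)‖₊ < 1 := by
    intro r
    rw [RingHom.mem_ker, IsLocalRing.ResidueField.algebraMap_eq, IsLocalRing.residue_eq_zero_iff,
      mem_max]
  apply le_antisymm
  · intro y hy
    have hall : ∀ j, o.w j (y : K) < 1 := by
      intro j
      by_cases h : j = i
      · subst h; exact hy.1
      · exact hy.2 j h
    have hc := (o.all_lt_iff (y : K) 1 one_pos).mp hall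
    rw [← o.basisB.sum_repr y]
    refine Ideal.sum_mem _ fun j _ => ?_
    rw [Algebra.smul_def]
    refine Ideal.mul_mem_right _ _ (Ideal.mem_map_of_mem _ ?_)
    rw [hker]
    exact hc j
  · rw [Ideal.map_le_iff_le_comap]
    intro r hr
    rw [hker] at hr
    have h1 : ∀ j, o.w j ((algebraMap (OF F E) o.B r : o.B) : K) < 1 := by
      intro j
      have : ((algebraMap (OF F E) o.B r : o.B) : K) = algebraMap F K (r : F) := rfl
      rw [this, o.w_alg]; exact hr
    exact ⟨h1 i, fun j _ => h1 j⟩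

/-- the map from the residue field of `F` to the residue field of `w i` -/
noncomputable def redMap (i : I) : IsLocalRing.ResidueField (OF F E) →+* (o.B ⧸ o.pI i) :=
  Ideal.Quotient.lift (IsLocalRing.maximalIdeal (OF F E))
    ((Ideal.Quotient.mk (o.pI i)).comp (algebraMap (OF F E) o.B)) (by
      intro a ha
      rw [mem_max] at ha
      rw [RingHom.comp_apply, Ideal.Quotient.eq_zero_iff_mem, mem_pI]
      show o.w i (algebraMap F K (a : F)) < 1
      rwa [o.w_alg])

theorem exists_scaled (π : F) (hπ0 : π ≠ 0) (hπ1 : ‖algebraMap F E π‖₊ < 1) (y : K) :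
    ∃ N : ℕ, ∀ i, o.w i ((π ^ N) • y) ≤ 1 := by
  obtain ⟨C, hC⟩ : ∃ C : ℝ≥0, ∀ i, o.w i y ≤ C :=
    ⟨∑ i, o.w i y, fun i => Finset.single_le_sum (f := fun i => o.w i y)
      (fun _ _ => zero_le) (Finset.mem_univ i)⟩
  obtain ⟨N, hN⟩ := _root_.exists_pow_lt_of_lt_one (show (0 : ℝ≥0) < (C + 1)⁻¹ by positivity) hπ1
  refine ⟨N, fun i => ?_⟩
  rw [Algebra.smul_def, map_mul, o.w_alg, map_pow, nnnorm_pow]
  calc _ ≤ (C + 1)⁻¹ * (C + 1) := mul_le_mul' hN.le ((hC i).trans (le_self_add))
    _ = 1 := inv_mul_cancel₀ (by positivity)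


/-- **T2A**: chart element at `w i`, from separability of the residue extension. -/
theorem chart_out [FiniteDimensional F K] [Algebra.IsSeparable F K] (i : I)
    (hd : DenseRange (algebraMap F E))
    (hsep : ∀ y, o.w i y = 1 → ∃ P : F[X], (∀ n, ‖algebraMap F E (P.coeff n)‖₊ ≤ 1) ∧
      o.w i (aeval y P) < 1 ∧ o.w i (aeval y (derivative P)) = 1) :
    ∃ z : K, (∀ n, ‖algebraMap F E ((minpoly F z).coeff n)‖₊ ≤ 1) ∧
      o.w i (aeval z (derivative (minpoly F z))) = 1 ∧ o.w i z = 1 ∧
      (∀ j, j ≠ i → o.w j z < 1) ∧ IntermediateField.adjoin F {z} = ⊤ ∧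
      ∀ y, o.w i y ≤ 1 → ∃ Q : F[X], (∀ n, ‖algebraMap F E (Q.coeff n)‖₊ ≤ 1) ∧
        o.w i (y - aeval z Q) < 1 := by
  classical
  let κ := IsLocalRing.ResidueField (OF F E)
  letI : Field (o.B ⧸ o.pI i) := Ideal.Quotient.field (o.pI i)
  letI : Algebra κ (o.B ⧸ o.pI i) := (o.redMap i).toAlgebra
  haveI : IsScalarTower (OF F E) κ (o.B ⧸ o.pI i) := IsScalarTower.of_algebraMap_eq fun a => rfl
  haveI : Module.Finite κ (o.B ⧸ o.pI i) :=
    Module.Finite.of_restrictScalars_finite (OF F E) κ (o.B ⧸ o.pI i)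
  -- evaluation compatibilities
  have hcoe : ∀ (y : o.B) (P : (OF F E)[X]), ((aeval y P : o.B) : K) =
      aeval (y : K) (P.map (algebraMap (OF F E) F)) := by
    intro y P
    rw [aeval_map_algebraMap]
    exact (aeval_algebraMap_apply K y P).symm
  have hred : ∀ (y : o.B) (P : (OF F E)[X]), Ideal.Quotient.mk (o.pI i) (aeval y P) =
      aeval (Ideal.Quotient.mk (o.pI i) y : o.B ⧸ o.pI i) (P.map (algebraMap (OF F E) κ)) := by
    intro y P
    rw [aeval_map_algebraMap]
    exact (aeval_algebraMap_apply (o.B ⧸ o.pI i) y P).symm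
  -- lifting polynomials with coefficients of norm at most one
  have hlift : ∀ P : F[X], (∀ n, ‖algebraMap F E (P.coeff n)‖₊ ≤ 1) →
      ∃ P' : (OF F E)[X], P'.map (algebraMap (OF F E) F) = P := by
    intro P hP
    have hl : P ∈ Polynomial.lifts (algebraMap (OF F E) F) := by
      rw [Polynomial.lifts_iff_coeff_lifts]
      intro n
      exact ⟨⟨P.coeff n, hP n⟩, rfl⟩
    exact hl
  have hsepκ : Algebra.IsSeparable κ (o.B ⧸ o.pI i) := by
    constructor
    intro x
    obtain ⟨y, rfl⟩ := Ideal.Quotient.mk_surjective x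
    by_cases hy : y ∈ o.pI i
    · rw [Ideal.Quotient.eq_zero_iff_mem.mpr hy]
      rw [← map_zero (algebraMap κ (o.B ⧸ o.pI i))]
      exact isSeparable_algebraMap _
    · have hy1 : o.w i (y : K) = 1 := le_antisymm (y.2 i) (not_lt.mp hy)
      obtain ⟨P, hP, h0, h1⟩ := hsep (y : K) hy1
      obtain ⟨P', hP'⟩ := hlift P hP
      refine separable_of_root _ (P'.map (algebraMap (OF F E) κ)) ?_ ?_
      · rw [← hred, Ideal.Quotient.eq_zero_iff_mem, mem_pI, hcoe, hP']
        exact h0
      · rw [derivative_map, ← hred, Ne, Ideal.Quotient.eq_zero_iff_mem, mem_pI, hcoe,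
          ← derivative_map, hP', h1]
        exact lt_irrefl 1
  obtain ⟨α, hα, hα0⟩ : ∃ α : o.B ⧸ o.pI i, IntermediateField.adjoin κ {α} = ⊤ ∧ α ≠ 0 := by
    obtain ⟨α, hα⟩ := Field.exists_primitive_element κ (o.B ⧸ o.pI i)
    by_cases h : α = 0
    · refine ⟨1, ?_, one_ne_zero⟩
      rw [h, IntermediateField.adjoin_zero] at hα
      rw [IntermediateField.adjoin_one, hα]
    · exact ⟨α, hα, h⟩
  have hαa : Algebra.adjoin κ {α} = ⊤ := by
    rw [← IntermediateField.adjoin_simple_toSubalgebra_of_isAlgebraic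
      (Algebra.IsAlgebraic.isAlgebraic α), hα]
    rfl
  -- lift alpha
  obtain ⟨y0, hy0⟩ := Ideal.Quotient.mk_surjective α
  have hy0n : y0 ∉ o.pI i := fun h => hα0 (by rw [← hy0]; exact Ideal.Quotient.eq_zero_iff_mem.mpr h)
  obtain ⟨z0, hz0, hz0J⟩ := o.exists_B i (y0 : K) (y0.2 i)
  have hz0α : Ideal.Quotient.mk (o.pI i) z0 = α := by
    rw [← hy0, Ideal.Quotient.eq, mem_pI]
    exact hz0
  -- perturbation
  obtain ⟨π, hπ0, hπ1⟩ : ∃ π : F, π ≠ 0 ∧ ‖algebraMap F E π‖₊ < 1 := by
    obtain ⟨x, hx0, hx1⟩ := NormedField.exists_norm_lt_one E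
    obtain ⟨f, hf⟩ := hd.exists_dist_lt x hx0
    rw [dist_eq_norm] at hf
    have hnf : ‖algebraMap F E f‖ ≤ ‖x‖ := by
      have h1 : ‖algebraMap F E f - x‖ < ‖x‖ := by rwa [norm_sub_rev]
      have : algebraMap F E f = x + (algebraMap F E f - x) := by ring
      rw [this]
      exact (IsUltrametricDist.norm_add_le_max _ _).trans (max_le le_rfl h1.le)
    refine ⟨f, ?_, ?_⟩
    · rintro rfl
      rw [map_zero, sub_zero] at hf
      exact lt_irrefl _ hf
    · rw [← NNReal.coe_lt_coe, coe_nnnorm]; exact hnf.trans_lt hx1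
  obtain ⟨u0, hu0⟩ := Field.exists_primitive_element F K
  obtain ⟨N, hN⟩ := o.exists_scaled π hπ0 hπ1 u0
  have hπN : π ^ N ≠ 0 := pow_ne_zero _ hπ0
  have hu : IntermediateField.adjoin F {π ^ N • u0} = ⊤ := by
    rw [eq_top_iff, ← hu0, IntermediateField.adjoin_simple_le_iff]
    have := (IntermediateField.adjoin F {π ^ N • u0}).smul_mem
      (IntermediateField.mem_adjoin_simple_self F _) (x := (π ^ N)⁻¹)
    rwa [inv_smul_smul₀ hπN] at this
  have hinj : Function.Injective (fun n : ℕ => π ^ (n + 1)) := by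
    intro a b hab
    have h1 : ‖algebraMap F E π‖₊ ^ (a + 1) = ‖algebraMap F E π‖₊ ^ (b + 1) := by
      have := congrArg (fun f => ‖algebraMap F E f‖₊) hab
      simpa only [map_pow, nnnorm_pow] using this
    have h0 : 0 < ‖algebraMap F E π‖₊ := by
      rw [nnnorm_pos, Ne, map_eq_zero]; exact hπ0
    have := pow_right_injective₀ h0 hπ1.ne h1
    omega
  obtain ⟨n, hn⟩ := exists_primitive_of_finite (z0 : K) (π ^ N • u0) hu _ hinj
  set e : K := π ^ (n + 1) • (π ^ N • u0) with he
  have hesmall : ∀ j, o.w j e < 1 := by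
    intro j
    rw [he, Algebra.smul_def, map_mul, o.w_alg, map_pow, nnnorm_pow]
    calc _ ≤ ‖algebraMap F E π‖₊ ^ (n + 1) * 1 := mul_le_mul' le_rfl (hN j)
      _ = ‖algebraMap F E π‖₊ ^ (n + 1) := mul_one _
      _ < 1 := pow_lt_one₀ zero_le hπ1 (Nat.succ_ne_zero n)
  let eB : o.B := ⟨e, fun j => (hesmall j).le⟩
  let z : o.B := z0 + eB
  have hzc : (z : K) = (z0 : K) + e := rfl
  have hzα : Ideal.Quotient.mk (o.pI i) z = α := by
    rw [← hz0α, Ideal.Quotient.eq, mem_pI]
    have : ((z - z0 : o.B) : K) = e := by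
      show (z : K) - (z0 : K) = e
      rw [hzc]; ring
    rw [this]; exact hesmall i
  have hzJ : z ∈ o.jI i := (o.jI i).add_mem hz0J fun j _ => hesmall j
  have hzp : z ∉ o.pI i := fun h => hα0 (by rw [← hzα]; exact Ideal.Quotient.eq_zero_iff_mem.mpr h)
  obtain ⟨P, hPm, hP0, hP1⟩ := T2A_83.chart (O := OF F E) (κ := κ)
    IsLocalRing.residue_surjective (o.pI i) (o.jI i) (o.inf_eq i) (o.coprime i) hsepκ z
    (by rw [hzα]; exact hαa) hzp (Ideal.le_radical hzJ)
  have hint : IsIntegral (OF F E) z := ⟨P, hPm, hP0⟩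
  haveI : IsDomain o.B := inferInstance
  have hmp : minpoly F (z : K) = (minpoly (OF F E) z).map (algebraMap (OF F E) F) := by
    have h1 : minpoly (OF F E) (z : K) = minpoly (OF F E) z :=
      minpoly.algebraMap_eq (B := o.B) (B' := K) Subtype.val_injective z
    rw [← h1]
    exact minpoly.isIntegrallyClosed_eq_field_fractions' F (hint.map (IsScalarTower.toAlgHom (OF F E) o.B K))
  have hzi : o.w i (z : K) = 1 := le_antisymm (z.2 i) (not_lt.mp hzp)
  refine ⟨(z : K), ?_, ?_, hzi, hzJ, hn, ?_⟩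
  · intro m
    rw [hmp, coeff_map]
    exact ((minpoly (OF F E) z).coeff m).2
  · obtain ⟨Q, hQ⟩ := minpoly.isIntegrallyClosed_dvd hint hP0
    have h2 : aeval z (derivative P) = aeval z (derivative (minpoly (OF F E) z)) * aeval z Q := by
      conv_lhs => rw [hQ]
      rw [derivative_mul, map_add, map_mul, map_mul, minpoly.aeval, zero_mul, add_zero]
    rw [hmp, derivative_map, ← hcoe]
    have h3 : o.w i ((aeval z (derivative (minpoly (OF F E) z)) : o.B) : K) ≤ 1 :=
      (aeval z (derivative (minpoly (OF F E) z)) : o.B).2 i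
    refine le_antisymm h3 (not_lt.mp fun h4 => hP1 ?_)
    rw [h2]
    exact (o.pI i).mul_mem_right _ h4
  · intro y hy
    obtain ⟨y', hy', -⟩ := o.exists_B i y hy
    have hmem : (Ideal.Quotient.mk (o.pI i) y' : o.B ⧸ o.pI i) ∈ Algebra.adjoin κ {α} := by
      rw [hαa]; trivial
    rw [Algebra.adjoin_singleton_eq_range_aeval] at hmem
    obtain ⟨q, hq⟩ := hmem
    obtain ⟨Q, hQ⟩ := Polynomial.map_surjective (algebraMap (OF F E) κ)
      IsLocalRing.residue_surjective q
    refine ⟨Q.map (algebraMap (OF F E) F), fun m => ?_, ?_⟩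
    · rw [coeff_map]; exact (Q.coeff m).2
    · rw [← hcoe]
      have h1 : y' - aeval z Q ∈ o.pI i := by
        rw [← Ideal.Quotient.eq, hred, hQ, hzα]
        exact hq.symm
      rw [mem_pI] at h1
      have h2 : y - ((aeval z Q : o.B) : K) =
          -((y' : K) - y) + ((y' - aeval z Q : o.B) : K) := by
        have : ((y' - aeval z Q : o.B) : K) = (y' : K) - ((aeval z Q : o.B) : K) := rfl
        rw [this]; ring
      rw [h2]
      refine (Valuation.map_add _ _ _).trans_lt (max_lt ?_ h1)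
      rw [Valuation.map_neg]; exact hy'

end Out

end Crest.Agent.R013.StabF_83
end

-- ▼ part R013/End2_809
section

/-!
# Row 13, leaf SS-END (helper809): chart elements at an end from STABF and a uniformiser
-/

set_option autoImplicit false
set_option linter.unusedSectionVars false
open Filter Topology
open scoped NNReal
open WithZero
open Crest.Agent.R013.Cell_408 (FinDef DiscNorm exists_max BD)
open Crest.Agent.R013.Red332 hiding od od_C od_mul od_inv od_pow od_one
open Crest.Agent.R013.RR7_948 Crest.Agent.R013.RR8_948 Crest.Agent.R013.RR14_948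
open Crest.Agent.R013.RR15_948 Crest.Agent.R013.RR20_948
open Crest.Agent.R013.StabF_83

namespace Crest.Agent.R013.EE809

open Polynomial

/-! ### separability over `k(t)`, `t` a uniformiser -/

section Sep

theorem isSeparable_of_span {k F K : Type*} [Field k] [Field F] [Field K] [Algebra k F]
    [Algebra k K] [Algebra F K] [IsScalarTower k F K] [FiniteDimensional F K] {t : F}
    (hΩ : ∀ ω : Ω[K⁄k], ∃ g : K, ω = g • KaehlerDifferential.D k K (algebraMap F K t)) :
    Algebra.IsSeparable F K := by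
  have h1 : Subsingleton Ω[K⁄F] := by
    refine subsingleton_of_forall_eq 0 fun ω => ?_
    obtain ⟨ω', rfl⟩ := KaehlerDifferential.map_surjective k F K ω
    obtain ⟨g, rfl⟩ := hΩ ω'
    rw [map_smul, KaehlerDifferential.map_D]
    have : KaehlerDifferential.D F K (algebraMap K K (algebraMap F K t)) = 0 :=
      Derivation.map_algebraMap (KaehlerDifferential.D F K) t
    rw [this, smul_zero]
  have h2 : Algebra.FormallyUnramified F K := ⟨h1⟩
  exact Algebra.FormallyUnramified.isSeparable F K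

variable {k : Type*} [Field k] {K : Type*} [Field K] [Algebra k K] [Algebra (RatFunc k) K]
  [IsScalarTower k (RatFunc k) K] [FiniteDimensional (RatFunc k) K]
  [Algebra.IsSeparable (RatFunc k) K]

/-- `K` is separable over `k(t)` if `t` is a uniformiser of a place -/
theorem ratAlg_isSeparable_of_unif [PerfectField k] (P : Pl k K) {t : K} (ht : P.v t = exp (-1))
    (htr : Transcendental k t) : @Algebra.IsSeparable (RatFunc k) K _ _ (ratAlg t htr) := by
  have hd := del_uniformizer_ne_zero P ht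
  refine @isSeparable_of_span k (RatFunc k) K _ _ _ _ _ (ratAlg t htr) (ratAlg_tower t htr)
    (ratAlg_finite t htr) RatFunc.X ?_
  intro ω
  have hX : @algebraMap (RatFunc k) K _ _ (ratAlg t htr) RatFunc.X = t := ratHom_X t htr
  rw [hX]
  obtain ⟨g, hg⟩ := exists_smul_D_xK k K ω
  refine ⟨g * (del k K t)⁻¹, ?_⟩
  rw [D_eq k K t, smul_smul, mul_assoc, inv_mul_cancel₀ hd, mul_one, hg]

end Sep

/-! ### lifting from the residue field -/

section Lift

variable {C : Type*} [NormedField C] [IsUltrametricDist C] {K : Type*} [Field K] [Algebra C K]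
  (w : Nm C K)

/-- the residue map -/
noncomputable def rs : w.v.valuationSubring →+* kap w :=
  IsLocalRing.residue w.v.valuationSubring

theorem rs_eq {f : K} (h : w.v f ≤ 1) : rs w ⟨f, h⟩ = red w f := (red_def w h).symm

theorem rs_eq' (f : w.v.valuationSubring) : rs w f = red w (f : K) := rs_eq w f.2

theorem red_sum {ι : Type*} (s : Finset ι) (f : ι → K) (h : ∀ i ∈ s, w.v (f i) ≤ 1) :
    red w (∑ i ∈ s, f i) = ∑ i ∈ s, red w (f i) := by
  classical
  induction s using Finset.induction_on with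
  | empty => rw [Finset.sum_empty, Finset.sum_empty, red_zero]
  | insert i s hi ih =>
    rw [Finset.sum_insert hi, Finset.sum_insert hi, red_add, ih fun j hj => h j (Finset.mem_insert_of_mem hj)]
    · exact h i (Finset.mem_insert_self _ _)
    · exact Valuation.map_sum_le _ fun j hj => h j (Finset.mem_insert_of_mem hj)

theorem v_aeval_le {t : K} (ht : w.v t ≤ 1) {p : C[X]} (hp : ∀ n, ‖p.coeff n‖₊ ≤ 1) :
    w.v (aeval t p) ≤ 1 := by
  rw [aeval_eq_sum_range]
  refine Valuation.map_sum_le _ fun i _ => ?_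
  rw [Algebra.smul_def, map_mul, map_pow, w.hC]
  exact mul_le_one' (hp i) (pow_le_one' ht i)

/-- reduction of a polynomial in `t` -/
theorem red_aeval {t : K} (ht : w.v t ≤ 1) {p : C[X]} {p' : (Ct C)[X]} (hp : ∀ n, ‖p.coeff n‖₊ ≤ 1)
    (hpp : ∀ n, rc (p.coeff n) = p'.coeff n) : red w (aeval t p) = aeval (red w t) p' := by
  have hN : ∃ N, p.natDegree < N ∧ p'.natDegree < N :=
    ⟨max p.natDegree p'.natDegree + 1, by omega, by omega⟩
  obtain ⟨N, hN1, hN2⟩ := hN
  rw [aeval_eq_sum_range' hN1, aeval_eq_sum_range' hN2, red_sum]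
  · refine Finset.sum_congr rfl fun i _ => ?_
    have h1 : w.v (algebraMap C K (p.coeff i)) ≤ 1 := by rw [w.hC]; exact hp i
    rw [Algebra.smul_def, Algebra.smul_def, red_mul w h1 (by
      rw [map_pow]; exact pow_le_one' ht i), red_C w _ (hp i), red_pow w ht, hpp]
  · intro i _
    rw [Algebra.smul_def, map_mul, map_pow, w.hC]
    exact mul_le_one' (hp i) (pow_le_one' ht i)

omit [Algebra C K] in
theorem lift_poly (p' : (Ct C)[X]) :
    ∃ p : C[X], (∀ n, ‖p.coeff n‖₊ ≤ 1) ∧ ∀ n, rc (p.coeff n) = p'.coeff n := by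
  classical
  choose c hc hc' using fun n => rc_surj (C := C) (p'.coeff n)
  refine ⟨∑ n ∈ Finset.range (p'.natDegree + 1), monomial n (c n), fun n => ?_, fun n => ?_⟩
  · rw [finsetSum_coeff]
    simp only [coeff_monomial]
    rw [Finset.sum_ite_eq' ]
    split_ifs
    · exact hc n
    · rw [nnnorm_zero]; exact zero_le_one
  · rw [finsetSum_coeff]
    simp only [coeff_monomial]
    rw [Finset.sum_ite_eq' ]
    split_ifs with h
    · exact hc' n
    · rw [rc_zero, coeff_eq_zero_of_natDegree_lt (by simpa using h)]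

/-- lifting rational functions -/
theorem lift_rat {φ : RatFunc C →ₐ[C] K} (ht : w.v (φ RatFunc.X) = 1)
    {φ' : RatFunc (Ct C) →ₐ[Ct C] kap w} (hφ : φ' RatFunc.X = red w (φ RatFunc.X))
    (r : RatFunc (Ct C)) : ∃ f : RatFunc C, w.v (φ f) ≤ 1 ∧ red w (φ f) = φ' r := by
  obtain ⟨p, hp, hp'⟩ := lift_poly r.num
  obtain ⟨d, hd, hd'⟩ := lift_poly r.denom
  have hφp : ∀ p : C[X], φ (algebraMap C[X] (RatFunc C) p) = aeval (φ RatFunc.X) p := by
    intro p
    have h : (φ.comp (IsScalarTower.toAlgHom C C[X] (RatFunc C))) = aeval (φ RatFunc.X) := by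
      apply Polynomial.algHom_ext
      simp
    exact congrArg (fun f => f p) h
  have hφ'p : ∀ p : (Ct C)[X], φ' (algebraMap (Ct C)[X] (RatFunc (Ct C)) p) =
      aeval (φ' RatFunc.X) p := by
    intro p
    have h : (φ'.comp (IsScalarTower.toAlgHom (Ct C) (Ct C)[X] (RatFunc (Ct C)))) =
        aeval (φ' RatFunc.X) := by
      apply Polynomial.algHom_ext
      simp
    exact congrArg (fun f => f p) h
  have h1 := red_aeval w ht.le hp hp'
  have h2 := red_aeval w ht.le hd hd'
  rw [← hφ, ← hφ'p] at h1 h2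
  have h3 : red w (aeval (φ RatFunc.X) d) ≠ 0 := by
    rw [h2, Ne, map_eq_zero, FaithfulSMul.algebraMap_eq_zero_iff]
    exact r.denom_ne_zero
  have h4 : w.v (aeval (φ RatFunc.X) d) = 1 :=
    (red_ne_zero_iff w (v_aeval_le w ht.le hd)).1 h3
  refine ⟨algebraMap C[X] (RatFunc C) p / algebraMap C[X] (RatFunc C) d, ?_, ?_⟩
  · rw [map_div₀, map_div₀, hφp, hφp, h4, div_one]
    exact v_aeval_le w ht.le hp
  · rw [map_div₀, hφp, hφp, div_eq_mul_inv, red_mul w (v_aeval_le w ht.le hp)
      (by rw [map_inv₀, h4, inv_one]), red_inv w h4, h1, h2, ← div_eq_mul_inv, ← map_div₀,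
      RatFunc.num_div_denom]

/-- lifting a separable equation -/
theorem lift_sep {φ : RatFunc C →ₐ[C] K} (ht : w.v (φ RatFunc.X) = 1)
    {φ' : RatFunc (Ct C) →ₐ[Ct C] kap w} (hφ : φ' RatFunc.X = red w (φ RatFunc.X))
    {y : K} (hy : w.v y ≤ 1) {p : (RatFunc (Ct C))[X]} (hp : p.eval₂ (φ' : RatFunc (Ct C) →+* kap w)
      (red w y) = 0) (hp' : p.derivative.eval₂ (φ' : RatFunc (Ct C) →+* kap w) (red w y) ≠ 0) :
    ∃ P : (RatFunc C)[X], (∀ n, w.v (φ (P.coeff n)) ≤ 1) ∧
      w.v (P.eval₂ (φ : RatFunc C →+* K) y) < 1 ∧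
      w.v (P.derivative.eval₂ (φ : RatFunc C →+* K) y) = 1 := by
  classical
  choose f hf hf' using fun n => lift_rat w ht hφ (p.coeff n)
  set P : (RatFunc C)[X] := ∑ n ∈ Finset.range (p.natDegree + 1), monomial n (f n) with hP
  have hPco : ∀ n, P.coeff n = if n ∈ Finset.range (p.natDegree + 1) then f n else 0 := by
    intro n
    rw [hP, finsetSum_coeff]
    simp only [coeff_monomial]
    rw [Finset.sum_ite_eq']
  have hPle : ∀ n, w.v (φ (P.coeff n)) ≤ 1 := by
    intro n
    rw [hPco]
    split_ifs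
    · exact hf n
    · rw [map_zero, map_zero]; exact zero_le_one
  have hPred : ∀ n, red w (φ (P.coeff n)) = φ' (p.coeff n) := by
    intro n
    rw [hPco]
    split_ifs with h
    · exact hf' n
    · rw [map_zero, red_zero, coeff_eq_zero_of_natDegree_lt (by simpa using h), map_zero]
  -- the polynomial over the valuation ring
  have hl : P.map (φ : RatFunc C →+* K) ∈ Polynomial.lifts (algebraMap w.v.valuationSubring K) := by
    rw [Polynomial.lifts_iff_coeff_lifts]
    intro n
    refine ⟨⟨φ (P.coeff n), hPle n⟩, ?_⟩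
    rw [coeff_map]
    rfl
  obtain ⟨PO, hPO⟩ := hl
  have hPO' : PO.map (algebraMap w.v.valuationSubring K) = P.map (φ : RatFunc C →+* K) := hPO
  have hPOr : PO.map (rs w) = p.map (φ' : RatFunc (Ct C) →+* kap w) := by
    ext n
    rw [coeff_map, coeff_map, rs_eq']
    have h1 := congrArg (fun q => q.coeff n) hPO'
    simp only [coeff_map] at h1
    have h2 : ((PO.coeff n : w.v.valuationSubring) : K) = φ (P.coeff n) := h1
    rw [h2, hPred]
    rfl
  have hev : ∀ Q : (w.v.valuationSubring)[X],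
      rs w (Q.eval ⟨y, hy⟩) = (Q.map (rs w)).eval (red w y) := by
    intro Q
    rw [eval_map, ← rs_eq w hy, eval₂_at_apply]
  have hev2 : ∀ Q : (w.v.valuationSubring)[X],
      ((Q.eval ⟨y, hy⟩ : w.v.valuationSubring) : K) =
        (Q.map (algebraMap w.v.valuationSubring K)).eval y := by
    intro Q
    rw [eval_map]
    exact (eval₂_at_apply (algebraMap w.v.valuationSubring K) ⟨y, hy⟩).symm
  refine ⟨P, hPle, ?_, ?_⟩
  · rw [← eval_map, ← hPO', ← hev2, ← red_eq_zero_iff w (PO.eval ⟨y, hy⟩).2, ← rs_eq', hev, hPOr,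
      eval_map, hp]
  · rw [← eval_map, ← derivative_map, ← hPO', derivative_map, ← hev2,
      ← red_ne_zero_iff w (PO.derivative.eval ⟨y, hy⟩).2, ← rs_eq', hev, ← derivative_map, hPOr,
      derivative_map, eval_map]
    exact hp'

end Lift

/-! ### the chart -/

section ChartOut

universe u

variable {k : Type*} [NontriviallyNormedField k] [CompleteSpace k]
variable {C : Type u} [NormedField C] [IsUltrametricDist C] [NormedAlgebra k C]
variable [Algebra.IsAlgebraic k C] [IsUltrametricDist k] [IsAlgClosed C] [hk : Fact (DiscNorm k)]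
variable {K : Type u} [Field K] [Algebra C K] [Algebra (RatFunc C) K] [IsScalarTower C (RatFunc C) K]

/-- the residue field of an end is `Ct C` -/
theorem end_res (w : Nm C K) [Algebra (RatFunc (Ct C)) (kap w)]
    [IsScalarTower (Ct C) (RatFunc (Ct C)) (kap w)] [FiniteDimensional (RatFunc (Ct C)) (kap w)]
    [Algebra.IsSeparable (RatFunc (Ct C)) (kap w)] (q : Pl (Ct C) (kap w)) (f : K)
    (hf : Ge (ofPl w q) 0 f) : ∃ c : C, ‖c‖₊ ≤ 1 ∧ Ge (ofPl w q) 1 (f - algebraMap C K c) := by
  have hnm : ∀ g, (ofPl w q).nm g = w.v g := fun _ => rfl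
  have hod : ∀ g, (ofPl w q).od g = Red332.od w q g := fun _ => rfl
  rcases hf with h | ⟨h, h'⟩
  · refine ⟨0, by rw [nnnorm_zero]; exact zero_le_one, Or.inl ?_⟩
    rw [map_zero, sub_zero]; exact h
  · rw [hnm] at h
    rw [hod] at h'
    have h1 : q.v (red w f) ≤ 1 := by
      rw [v_red_of_one q h, ← exp_zero, exp_le_exp]; omega
    obtain ⟨c', hc'⟩ := CE1_280.exists_residue q h1
    obtain ⟨c, hc, rfl⟩ := rc_surj c'
    refine ⟨c, hc, ?_⟩
    have h2 : w.v (algebraMap C K c) ≤ 1 := by rw [w.hC]; exact hc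
    rw [← red_C w c hc, ← red_sub w h.le h2] at hc'
    have h3 : w.v (f - algebraMap C K c) ≤ 1 := (Valuation.map_sub _ _ _).trans (max_le h.le h2)
    rcases h3.lt_or_eq with h4 | h4
    · exact Or.inl h4
    · right
      refine ⟨h4, ?_⟩
      rw [hod]
      rw [v_red_of_one q h4, ← exp_zero, exp_lt_exp] at hc'
      omega

/-- **chart elements exist** at the end `(w, q)` if `x` has norm one and order one. -/
theorem exists_chart [CharZero C] [FiniteDimensional (RatFunc C) K] {E' : Type u}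
    [NontriviallyNormedField E'] [CompleteSpace E'] [IsUltrametricDist E'] [Algebra (RatFunc C) E']
    {I : Type u} [Fintype I] (o : Out (RatFunc C) E' K I) (hd : DenseRange (algebraMap (RatFunc C) E'))
    (hE : ∀ f, ‖algebraMap (RatFunc C) E' f‖₊ = gv k C (expn k C f))
    (w : Nm C K) [Algebra (RatFunc (Ct C)) (kap w)]
    [IsScalarTower (Ct C) (RatFunc (Ct C)) (kap w)] [FiniteDimensional (RatFunc (Ct C)) (kap w)]
    [Algebra.IsSeparable (RatFunc (Ct C)) (kap w)] (q : Pl (Ct C) (kap w))
    (ht : w.v (xK C K) = 1) (ht' : Red332.od w q (xK C K) = 1) :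
    ∃ z : K, Chart (ofPl w q) z := by
  classical
  have hE1 : (ofPl w q).nm (xK C K) = 1 := ht
  have hE2 : (ofPl w q).od (xK C K) = 1 := ht'
  -- the norm of `C(X)`
  have hnorm : ∀ f : RatFunc C, w.v (algebraMap (RatFunc C) K f) = ‖algebraMap (RatFunc C) E' f‖₊ := by
    intro f
    rw [hE]
    exact (rat_end (E := ofPl w q) (E' := endE k C) (φ := IsScalarTower.toAlgHom C (RatFunc C) K)
      (φ' := expn k C) hE1 hE2 (by rw [expn_X]; exact nm_T) (by rw [expn_X]; exact od_T1) f).1
  obtain ⟨i, hi⟩ := o.complete w.v hnorm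
  -- the residue of `x`
  have hq : q.v (red w (xK C K)) = exp (-1) := by rw [v_red_of_one q ht, ht']
  have htr : Transcendental (Ct C) (red w (xK C K)) := by
    intro halg
    have h1 : q.v (red w (xK C K)) = 1 := by
      have hne : red w (xK C K) ≠ 0 := red_ne_zero w ht
      obtain ⟨c, hc⟩ : ∃ c : Ct C, algebraMap (Ct C) (kap w) c = red w (xK C K) := by
        have hint : IsIntegral (Ct C) (red w (xK C K)) := halg.isIntegral
        have := IsAlgClosed.degree_eq_one_of_irreducible (Ct C) (minpoly.irreducible hint)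
        exact minpoly.mem_range_of_degree_eq_one (Ct C) _ this
      rw [← hc]
      refine q.const c ?_
      rintro rfl
      rw [map_zero] at hc
      exact hne hc.symm
    rw [h1, ← exp_zero, exp_inj] at hq
    omega
  have hsep := ratAlg_isSeparable_of_unif q hq htr
  have hfin := @ratAlg_finite (Ct C) _ (kap w) _ _ _ _ _ (red w (xK C K)) htr
  -- separable equations
  have hsep' : ∀ y, o.w i y = 1 → ∃ P : (RatFunc C)[X],
      (∀ n, ‖algebraMap (RatFunc C) E' (P.coeff n)‖₊ ≤ 1) ∧
      o.w i (aeval y P) < 1 ∧ o.w i (aeval y (derivative P)) = 1 := by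
    intro y hy
    rw [← hi] at hy
    have hint : @IsIntegral (RatFunc (Ct C)) (kap w) _ _ (ratAlg (red w (xK C K)) htr) (red w y) :=
      @Algebra.IsIntegral.isIntegral _ _ _ _ (ratAlg (red w (xK C K)) htr)
        (@Algebra.IsIntegral.of_finite _ _ _ _ (ratAlg (red w (xK C K)) htr) hfin) _
    have hs : @IsSeparable (RatFunc (Ct C)) (kap w) _ _ (ratAlg (red w (xK C K)) htr) (red w y) :=
      @Algebra.IsSeparable.isSeparable _ _ _ _ (ratAlg (red w (xK C K)) htr) hsep _
    obtain ⟨P, hP1, hP2, hP3⟩ := lift_sep w (φ := IsScalarTower.toAlgHom C (RatFunc C) K) ht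
      (φ' := ratHom (red w (xK C K)) htr) (ratHom_X _ _) (y := y) hy.le
      (p := @minpoly (RatFunc (Ct C)) (kap w) _ _ (ratAlg (red w (xK C K)) htr) (red w y))
      (@minpoly.aeval _ _ _ _ (ratAlg (red w (xK C K)) htr) (red w y))
      (@Polynomial.Separable.aeval_derivative_ne_zero _ _ _ _ _ (ratAlg (red w (xK C K)) htr) _ hs _
        (@minpoly.aeval _ _ _ _ (ratAlg (red w (xK C K)) htr) (red w y)))
    refine ⟨P, fun n => ?_, ?_, ?_⟩
    · rw [← hnorm]; exact hP1 n
    · rw [← hi]; exact hP2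
    · rw [← hi]; exact hP3
  obtain ⟨z, h1, h2, h3, h4, h5, h6⟩ := o.chart_out i hd hsep'
  refine ⟨z, ?_⟩
  constructor
  · exact hE1
  · exact hE2
  · exact fun f hf => end_res w q f hf
  · exact h5
  · intro n
    show w.v _ ≤ 1
    rw [hnorm]; exact h1 n
  · show w.v _ = 1
    rw [hi]; exact h2
  · show w.v _ = 1
    rw [hi]; exact h3
  · intro y hy
    have hy' : o.w i y ≤ 1 := by rw [← hi]; exact hy
    obtain ⟨Q, hQ1, hQ2⟩ := h6 y hy'
    refine ⟨Q, fun n => ?_, ?_⟩
    · show w.v _ ≤ 1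
      rw [hnorm]; exact hQ1 n
    · show w.v _ < 1
      rw [hi]; exact hQ2
  · intro v hv hvz
    have hv' : ∀ f, v (algebraMap (RatFunc C) K f) = ‖algebraMap (RatFunc C) E' f‖₊ := by
      intro f
      rw [hv, ← hnorm]
      rfl
    obtain ⟨j, hj⟩ := o.complete v hv'
    show v = w.v
    by_cases hij : j = i
    · rw [hj, hi, hij]
    · have := h4 j hij
      rw [← hj, hvz] at this
      exact absurd this (lt_irrefl 1)

end ChartOut

end Crest.Agent.R013.EE809
end

-- ▼ part R013/Good7_408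
section

/-!
# DIR-Z: elements with prescribed norms and orders at finitely many ends of type 2 norms
-/

set_option autoImplicit false
set_option linter.unusedSectionVars false

noncomputable section

namespace Crest.Agent.R013.Good_408

open Module WithZero
open Crest.Agent.R013.RR7_948 Crest.Agent.R013.Red332 Crest.Agent.R013.RR12_948
open scoped NNReal

variable {C : Type*} [NormedField C] [IsUltrametricDist C] {K : Type*} [Field K] [Algebra C K]

/-- an element with prescribed order at one end of a norm, and of norm `≤ 1`, large order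
at finitely many other ends -/
theorem exists_end_elt {I : Type*} [Finite I] (w : I → Nm C K)
    (ff : ∀ i, ∃ _ : Algebra (RatFunc (Ct C)) (kap (w i)),
      IsScalarTower (Ct C) (RatFunc (Ct C)) (kap (w i)) ∧
      FiniteDimensional (RatFunc (Ct C)) (kap (w i)) ∧
      Algebra.IsSeparable (RatFunc (Ct C)) (kap (w i)))
    (approx : ∀ a : I → K, ∃ y : K, ∀ i, (w i).v (y - a i) < 1)
    (s : Finset (Σ i, Pl (Ct C) (kap (w i)))) (t0 : Σ i, Pl (Ct C) (kap (w i))) (l N : ℤ) :
    ∃ z : K, (w t0.1).v z = 1 ∧ Red332.od (w t0.1) t0.2 z = l ∧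
      ∀ t ∈ s, t ≠ t0 → (w t.1).v z < 1 ∨
        ((w t.1).v z = 1 ∧ N ≤ Red332.od (w t.1) t.2 z) := by
  classical
  obtain ⟨i0, P0⟩ := t0
  obtain ⟨h1, h2, h3, h4⟩ := ff i0
  let S : Finset (Pl (Ct C) (kap (w i0))) :=
    insert P0 (s.preimage (fun P => (⟨i0, P⟩ : Σ i, Pl (Ct C) (kap (w i))))
      (Function.Injective.injOn fun P Q h => by
        have := congrArg (fun t : (Σ i, Pl (Ct C) (kap (w i))) => t) h
        exact eq_of_heq (Sigma.mk.inj_iff.1 this).2))
  obtain ⟨g, hg0, hg⟩ := exists_prescribed (k := Ct C) (K := kap (w i0)) S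
    (fun P => if P = P0 then -l else -N)
  obtain ⟨f, hf1, hf⟩ := red_surj (w i0) g
  have hf1' : (w i0).v f = 1 := (red_ne_zero_iff (w i0) hf1).1 (by rw [hf]; exact hg0)
  obtain ⟨z, hz⟩ := approx (fun i => if i = i0 then f else 0)
  have hz0 : (w i0).v (z - f) < 1 := by
    have := hz i0
    rwa [if_pos rfl] at this
  have hz1 : (w i0).v z = 1 := by
    have e : z = f + (z - f) := by ring
    rw [e, Valuation.map_add_eq_of_lt_left _ (by rw [hf1']; exact hz0), hf1']
  have hzr : red (w i0) z = g := by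
    rw [(red_eq_iff (w i0) hz1.le hf1).2 hz0, hf]
  have hod : ∀ P ∈ S, Red332.od (w i0) P z = -(if P = P0 then -l else -N) := by
    intro P hP
    rw [od_of_one P hz1, hzr, hg P hP, log_exp]
  refine ⟨z, hz1, ?_, ?_⟩
  · have := hod P0 (Finset.mem_insert_self _ _)
    rw [if_pos rfl, neg_neg] at this
    exact this
  · rintro ⟨i, P⟩ ht hne
    by_cases hi : i = i0
    · subst hi
      have hPP : P ≠ P0 := fun h => hne (by rw [h])
      refine Or.inr ⟨hz1, ?_⟩
      have := hod P (Finset.mem_insert_of_mem (Finset.mem_preimage.2 ht))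
      rw [if_neg hPP, neg_neg] at this
      exact this.ge
    · left
      have := hz i
      rwa [if_neg hi, sub_zero] at this

/-- approximation for finitely many different norms -/
theorem approx_of_inj {I : Type*} [Finite I] (w : I → Nm C K) (hw : Function.Injective w)
    (hnt : ∃ c : C, ‖c‖₊ ≠ 0 ∧ ‖c‖₊ ≠ 1) (a : I → K) : ∃ y : K, ∀ i, (w i).v (y - a i) < 1 :=
by
  have h1 : Function.Injective fun i => (w i).v := fun i j h =>
    hw (Nm.ext' fun f => by rw [show (w i).v = (w j).v from h])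
  have h2 : ∀ i c, (w i).v (algebraMap C K c) = (NormedField.valuation (K := C)) c :=
    fun i c => (w i).hC c
  exact LiftA_168.weak_approx (k := C) (v0 := NormedField.valuation (K := C)) hnt
    (fun i => (w i).v) h1 h2 a 1 one_pos

/-- **family of elements with prescribed norms and orders**, for finitely many different ends -/
theorem exists_family {I : Type*} [Finite I] (w : I → Nm C K)
    (ff : ∀ i, ∃ _ : Algebra (RatFunc (Ct C)) (kap (w i)),
      IsScalarTower (Ct C) (RatFunc (Ct C)) (kap (w i)) ∧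
      FiniteDimensional (RatFunc (Ct C)) (kap (w i)) ∧
      Algebra.IsSeparable (RatFunc (Ct C)) (kap (w i)))
    (approx : ∀ a : I → K, ∃ y : K, ∀ i, (w i).v (y - a i) < 1)
    {J : Type*} [Fintype J] (m : J → ℕ) (en : J → Σ i, Pl (Ct C) (kap (w i)))
    (hen : Function.Injective en) :
    ∃ z : (Σ j, Fin (m j)) → K, (∀ p : (Σ j, Fin (m j)), (w (en p.1).1).v (z p) = 1) ∧
      (∀ p : (Σ j, Fin (m j)),
        Red332.od (w (en p.1).1) (en p.1).2 (z p) = ((p.2 : ℕ) : ℤ)) ∧
      (∀ (p : (Σ j, Fin (m j))) (j : J), j ≠ p.1 → (w (en j).1).v (z p) < 1 ∨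
        ((w (en j).1).v (z p) = 1 ∧
          (m j : ℤ) ≤ Red332.od (w (en j).1) (en j).2 (z p))) := by
  classical
  have h : ∀ p : (Σ j, Fin (m j)), ∃ z : K, (w (en p.1).1).v z = 1 ∧
      Red332.od (w (en p.1).1) (en p.1).2 z = ((p.2 : ℕ) : ℤ) ∧
      ∀ t ∈ Finset.univ.image en, t ≠ en p.1 → (w t.1).v z < 1 ∨
        ((w t.1).v z = 1 ∧ ((∑ j, m j : ℕ) : ℤ) ≤ Red332.od (w t.1) t.2 z) := fun p =>
    exists_end_elt w ff approx (Finset.univ.image en) (en p.1) _ _
  choose z h1 h2 h3 using h
  refine ⟨z, h1, h2, fun p j hj => ?_⟩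
  rcases h3 p (en j) (Finset.mem_image_of_mem _ (Finset.mem_univ j)) (fun h => hj (hen h)) with
    h | h
  · exact Or.inl h
  · refine Or.inr ⟨h.1, le_trans ?_ h.2⟩
    exact_mod_cast Finset.single_le_sum (f := m) (fun i _ => Nat.zero_le _) (Finset.mem_univ j)

end Crest.Agent.R013.Good_408
end
end

-- ▼ part R013/StabR2_460
section

/-!
# StabR2: `StabR_460` for a norm of `RatFunc C` given by its values on `X - b` (or by the Gauss
property), for direct use with any concrete construction of the norm.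
-/

set_option autoImplicit false

namespace Crest.Agent.R013.StabR_460

open Polynomial Module
open scoped NNReal
open Crest.Agent.R013.StabF_83 (IsON Out sv coe_sv)

universe u

variable {C : Type u} [Field C] [IsAlgClosed C] [CharZero C] (v : Valuation C ℝ≥0)

/-- `STABF` for a norm `w0` of `RatFunc C` known on constants and on the `X - b`:
`w0 (X - b) = max |ρ| |a - b|`. -/
theorem out_of_linear (w0 : Valuation (RatFunc C) ℝ≥0) (p : ℕ) [hpp : Fact p.Prime]
    (hp : v (p : C) < 1) (a ρ : C) (hρ : ρ ≠ 0)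
    (h0 : ∀ c, w0 (RatFunc.C c) = v c)
    (h1 : ∀ b, w0 (RatFunc.X - RatFunc.C b) = max (v ρ) (v (a - b)))
    (K : Type u) [Field K] [Algebra (RatFunc C) K] [FiniteDimensional (RatFunc C) K] :
    ∃ (E : Type u) (_ : NontriviallyNormedField E) (_ : CompleteSpace E)
      (_ : IsUltrametricDist E) (_ : Algebra (RatFunc C) E),
      DenseRange (algebraMap (RatFunc C) E) ∧
      (∀ f, ‖algebraMap (RatFunc C) E f‖₊ = w0 f) ∧
      ∃ (I : Type u) (_ : Fintype I), Nonempty (Out (RatFunc C) E K I) := by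
  have hr : v ρ ≠ 0 := (Valuation.ne_zero_iff v).2 hρ
  have hw : w0 = PL_109.gaussR v a (v ρ) hr := by
    apply PL_109.ext_of_linear
    · intro c; rw [h0, PL_109.gaussR_C]
    · intro b; rw [h1, PL_109.gaussR_X_sub]
  rw [hw]
  exact out_gaussR v p hp a ρ hρ hr K

/-- `STABF` for the unit Gauss norm: `w0` extends `v` and `w0 (∑ c_i X^i) = max v c_i`. -/
theorem out_of_gaussNorm (w0 : Valuation (RatFunc C) ℝ≥0) (p : ℕ) [hpp : Fact p.Prime]
    (hp : v (p : C) < 1) (h0 : ∀ c, w0 (RatFunc.C c) = v c) (hX : w0 RatFunc.X = 1)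
    (hg : ∀ (f : C[X]) (i : ℕ), v (f.coeff i) ≤ w0 (algebraMap C[X] (RatFunc C) f))
    (K : Type u) [Field K] [Algebra (RatFunc C) K] [FiniteDimensional (RatFunc C) K] :
    ∃ (E : Type u) (_ : NontriviallyNormedField E) (_ : CompleteSpace E)
      (_ : IsUltrametricDist E) (_ : Algebra (RatFunc C) E),
      DenseRange (algebraMap (RatFunc C) E) ∧
      (∀ f, ‖algebraMap (RatFunc C) E f‖₊ = w0 f) ∧
      ∃ (I : Type u) (_ : Fintype I), Nonempty (Out (RatFunc C) E K I) := by
  refine out_of_linear v w0 p hp 0 1 one_ne_zero h0 (fun b => ?_) K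
  rw [map_one, zero_sub, Valuation.map_neg]
  apply le_antisymm
  · refine (Valuation.map_sub w0 _ _).trans ?_
    rw [hX, h0]
  · have e : (RatFunc.X - RatFunc.C b : RatFunc C) =
        algebraMap C[X] (RatFunc C) (X - Polynomial.C b) := by
      rw [map_sub, RatFunc.algebraMap_X, RatFunc.algebraMap_C]
    rw [e]
    apply max_le
    · have := hg (X - Polynomial.C b) 1
      simpa [Polynomial.coeff_C] using this
    · have := hg (X - Polynomial.C b) 0
      simpa using this


end Crest.Agent.R013.StabR_460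
end

-- ▼ part R013/End3_809

/-!
# Row 13, leaf SS-END (helper809): the embedding of `K` at every end, and good annuli at the ends
-/

set_option autoImplicit false
set_option linter.unusedSectionVars false
open Filter Topology
open scoped NNReal
open WithZero
open Crest.Agent.R013.Cell_408 (FinDef DiscNorm exists_max BD)
open Crest.Agent.R013.Red332 hiding od od_C od_mul od_inv od_pow od_one red_sum red_aeval
open Crest.Agent.R013.RR7_948 Crest.Agent.R013.RR8_948 Crest.Agent.R013.RR14_948
open Crest.Agent.R013.RR15_948 Crest.Agent.R013.RR20_948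
open Crest.Agent.R013.StabF_83

namespace Crest.Agent.R013.EE809

open Polynomial Module

section emb

universe u

variable (k : Type*) [NontriviallyNormedField k] [CompleteSpace k] [IsUltrametricDist k]
variable {C : Type u} [NormedField C] [IsUltrametricDist C] [NormedAlgebra k C]
variable [Algebra.IsAlgebraic k C] [IsAlgClosed C] [hk : Fact (DiscNorm k)]

variable (C) in
/-- the end `X = 0` of the Gauss norm of `C(X)` -/
noncomputable def endX : End2 C (RatFunc C) := (endE k C).comap (expn k C)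

theorem endX_nm (f : RatFunc C) : (endX k C).nm f = gv k C (expn k C f) := rfl

theorem endX_od (f : RatFunc C) : (endX k C).od f = od (expn k C f) := rfl

theorem endX_X : (endX k C).nm RatFunc.X = 1 := by
  rw [endX_nm, expn_X]; exact nm_T

theorem endX_X' : (endX k C).od RatFunc.X = 1 := by
  rw [endX_od, expn_X]; exact od_T1

theorem le_endX (p : C[X]) (i : ℕ) :
    ‖p.coeff i‖₊ ≤ (endX k C).nm (algebraMap C[X] (RatFunc C) p) := by
  by_cases hp : p = 0
  · rw [hp, coeff_zero, nnnorm_zero]; exact zero_le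
  obtain ⟨m, h0, h1, h2⟩ := exists_lead hp
  rw [endX_nm, expn_poly]
  have h3 := (poly_end (E := endE k C) nm_T od_T1 h0 h1 h2).1
  rw [endE_nm] at h3
  rw [h3]
  exact h1 i

/-- `STABF` at the Gauss norm -/
theorem exists_out [CharZero C] (p : ℕ) [Fact p.Prime] (hp : ‖(p : C)‖ < 1)
    (K : Type u) [Field K] [Algebra (RatFunc C) K] [FiniteDimensional (RatFunc C) K] :
    ∃ (E : Type u) (_ : NontriviallyNormedField E) (_ : CompleteSpace E)
      (_ : IsUltrametricDist E) (_ : Algebra (RatFunc C) E),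
      DenseRange (algebraMap (RatFunc C) E) ∧
      (∀ f, ‖algebraMap (RatFunc C) E f‖₊ = (endX k C).nm f) ∧
      ∃ (I : Type u) (_ : Fintype I), Nonempty (Out (RatFunc C) E K I) :=
  StabR_460.out_of_gaussNorm (NormedField.valuation (K := C)) (endX k C).nm p hp
    (fun c => (endX k C).hC c) (endX_X k) (fun f i => le_endX k f i) K

theorem exists_emb_x [CharZero C] (p : ℕ) [Fact p.Prime] (hp : ‖(p : C)‖ < 1)
    {K : Type u} [Field K] [Algebra C K] [Algebra (RatFunc C) K] [IsScalarTower C (RatFunc C) K]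
    [FiniteDimensional (RatFunc C) K] (w : Nm C K) (hff : FF w) (q : Pl (Ct C) (kap w))
    (ht : w.v (xK C K) = 1) (ht' : Red332.od w q (xK C K) = 1) :
    ∃ ψ : K →ₐ[C] EE k C, (∀ f, ψ f ∈ Ep k C) ∧ (∀ f, gv k C (ψ f) = w.v f) ∧
      ∀ f, f ≠ 0 → od (ψ f) = Red332.od w q f := by
  obtain ⟨i1, i2, i3, i4⟩ := hff
  obtain ⟨E', j1, j2, j3, j4, hd, hE, I, j5, ⟨o⟩⟩ := exists_out k p hp K
  obtain ⟨z, hz⟩ := exists_chart (k := k) o hd hE w q ht ht'
  obtain ⟨ψ, -, h1, h2, h3⟩ := hz.exists_emb (k := k)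
  exact ⟨ψ, h1, h2, h3⟩

theorem transc_of_od {K : Type*} [Field K] [Algebra C K] {w : Nm C K} {q : Pl (Ct C) (kap w)}
    {t : K} (h : Red332.od w q t ≠ 0) (h0 : t ≠ 0) : Transcendental C t := by
  intro halg
  have hint : IsIntegral C t := halg.isIntegral
  have h1 := IsAlgClosed.degree_eq_one_of_irreducible C (minpoly.irreducible hint)
  obtain ⟨c, hc⟩ := minpoly.mem_range_of_degree_eq_one C _ h1
  apply h
  rw [← hc]
  refine Red332.od_C q ?_
  rintro rfl
  rw [map_zero] at hc
  exact h0 hc.symm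

/-- **THEOREM END1.** At every end of `K` there is an embedding of `K` in `EE k C` with values in
`Ep k C`. -/
theorem exists_emb_end [CharZero C] (p : ℕ) [Fact p.Prime] (hp : ‖(p : C)‖ < 1)
    {K : Type u} [Field K] [Algebra C K] [Algebra (RatFunc C) K] [IsScalarTower C (RatFunc C) K]
    [FiniteDimensional (RatFunc C) K] (w : Nm C K) (hff : FF w) (q : Pl (Ct C) (kap w)) :
    ∃ ψ : K →ₐ[C] EE k C, (∀ f, ψ f ∈ Ep k C) ∧ (∀ f, gv k C (ψ f) = w.v f) ∧
      ∀ f, f ≠ 0 → od (ψ f) = Red332.od w q f := by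
  obtain ⟨t, ht, ht'⟩ := Red332.od_surj q 1
  have h0 : t ≠ 0 := (ofPl w q).ne_zero_of_one ht
  have htr : Transcendental C t := transc_of_od (q := q) (by rw [ht']; exact one_ne_zero) h0
  have hx : @xK C _ K _ (ratAlg t htr) = t := ratAlg_xK t htr
  exact @exists_emb_x k _ _ _ C _ _ _ _ _ _ _ p _ hp K _ _ (ratAlg t htr) (ratAlg_tower t htr)
    (ratAlg_finite t htr) w hff q (by rw [hx]; exact ht) (by rw [hx]; exact ht')

end emb

end Crest.Agent.R013.EE809
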