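import Crest.Agent.R013.PL1_109
import Mathlib

-- ▼ part R013/PL2_109
section

/-!
# R013 / PL2_109 : chains of discs without common point give immediate norms (type 4)
-/

set_option autoImplicit false

open scoped NNReal
open Polynomial

namespace Crest.Agent.R013.PL_109

variable {C : Type*} [Field C] (v : Valuation C ℝ≥0)

/-- inclusion of closed discs -/
def Rel (E D : C × ℝ≥0) : Prop := v (E.1 - D.1) ≤ D.2 ∧ E.2 ≤ D.2

variable {v}

theorem Rel.refl (D : C × ℝ≥0) : Rel v D D := ⟨by simp, le_rfl⟩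

theorem Rel.trans {E D F : C × ℝ≥0} (h1 : Rel v E D) (h2 : Rel v D F) : Rel v E F := by
  refine ⟨?_, h1.2.trans h2.2⟩
  have h3 : E.1 - F.1 = (E.1 - D.1) + (D.1 - F.1) := by ring
  rw [h3]
  exact (v.map_add _ _).trans (max_le (h1.1.trans h2.2) h2.1)

variable (v)

/-- a chain of closed discs of `C` without common point -/
structure EmptyChain (𝒞 : Set (C × ℝ≥0)) : Prop where
  ne : 𝒞.Nonempty
  pos : ∀ D ∈ 𝒞, D.2 ≠ 0
  tot : ∀ D ∈ 𝒞, ∀ E ∈ 𝒞, Rel v D E ∨ Rel v E D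
  emp : ∀ b : C, ∃ D ∈ 𝒞, D.2 < v (b - D.1)

/-- Gauss norm of a closed disc -/
noncomputable def gD (D : C × ℝ≥0) (f : C[X]) : ℝ≥0 := gf v D.2 (taylor D.1 f)

theorem gD_mul {D : C × ℝ≥0} (hD : D.2 ≠ 0) (f g : C[X]) : gD v D (f * g) = gD v D f * gD v D g := by
  rw [gD, taylor_mul, gf_mul v hD]; rfl

theorem gD_add (D : C × ℝ≥0) (f g : C[X]) : gD v D (f + g) ≤ max (gD v D f) (gD v D g) := by
  rw [gD, map_add]; exact gf_add v _ _ _

theorem gD_C (D : C × ℝ≥0) (c : C) : gD v D (Polynomial.C c) = v c := by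
  rw [gD, taylor_C, gf_C]

theorem gD_X_sub (D : C × ℝ≥0) (b : C) :
    gD v D (X - Polynomial.C b) = max D.2 (v (D.1 - b)) := by
  rw [gD, map_sub, taylor_X, taylor_C, add_sub_assoc, ← Polynomial.C_sub, gf_X_sub]

/-- the Gauss norm of `f` is constant below `D` -/
def Stab (𝒞 : Set (C × ℝ≥0)) (f : C[X]) (D : C × ℝ≥0) : Prop :=
  ∀ E ∈ 𝒞, Rel v E D → gD v E f = gD v D f

variable {v} {𝒞 : Set (C × ℝ≥0)}

theorem Stab.mono {f : C[X]} {D E : C × ℝ≥0} (h : Stab v 𝒞 f D) (hE : E ∈ 𝒞) (hED : Rel v E D) :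
    Stab v 𝒞 f E := by
  intro F hF hFE
  rw [h F hF (hFE.trans hED), h E hE hED]

theorem EmptyChain.min (h : EmptyChain v 𝒞) {D E : C × ℝ≥0} (hD : D ∈ 𝒞) (hE : E ∈ 𝒞) :
    ∃ F ∈ 𝒞, Rel v F D ∧ Rel v F E := by
  rcases h.tot D hD E hE with h1 | h1
  · exact ⟨D, hD, Rel.refl D, h1⟩
  · exact ⟨E, hE, h1, Rel.refl E⟩

theorem v_eq_of_lt {E D : C × ℝ≥0} (b : C) (hb : D.2 < v (b - D.1)) (hE : Rel v E D) :
    v (E.1 - b) = v (b - D.1) := by
  have h1 : E.1 - b = (E.1 - D.1) + -(b - D.1) := by ring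
  rw [h1, Valuation.map_add_eq_of_lt_right, Valuation.map_neg]
  rw [Valuation.map_neg]
  exact hE.1.trans_lt hb

theorem EmptyChain.exists_stab_X_sub (h : EmptyChain v 𝒞) (b : C) :
    ∃ D ∈ 𝒞, Stab v 𝒞 (X - Polynomial.C b) D ∧ D.2 < v (b - D.1) ∧
      gD v D (X - Polynomial.C b) = v (b - D.1) := by
  obtain ⟨D, hD, hb⟩ := h.emp b
  have key : ∀ E ∈ 𝒞, Rel v E D → gD v E (X - Polynomial.C b) = v (b - D.1) := by
    intro E _ hED
    rw [gD_X_sub, v_eq_of_lt b hb hED, max_eq_right (hED.2.trans hb.le)]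
  refine ⟨D, hD, fun E hE hED => ?_, hb, key D hD (Rel.refl D)⟩
  rw [key E hE hED, key D hD (Rel.refl D)]

theorem EmptyChain.exists_stab [IsAlgClosed C] (h : EmptyChain v 𝒞) (f : C[X]) :
    ∃ D ∈ 𝒞, Stab v 𝒞 f D := by
  have key : ∀ m : Multiset C, ∃ D ∈ 𝒞, Stab v 𝒞 ((m.map fun b => X - Polynomial.C b).prod) D := by
    intro m
    induction m using Multiset.induction_on with
    | empty =>
      obtain ⟨D, hD⟩ := h.ne
      refine ⟨D, hD, fun E _ _ => ?_⟩
      rw [Multiset.map_zero, Multiset.prod_zero, ← Polynomial.C_1, gD_C, gD_C]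
    | cons b m ih =>
      obtain ⟨D1, hD1, h1⟩ := ih
      obtain ⟨D2, hD2, h2, -⟩ := h.exists_stab_X_sub b
      obtain ⟨D, hD, hr1, hr2⟩ := h.min hD1 hD2
      refine ⟨D, hD, fun E hE hED => ?_⟩
      rw [Multiset.map_cons, Multiset.prod_cons, gD_mul v (h.pos E hE), gD_mul v (h.pos D hD),
        (h1.mono hD hr1) E hE hED, (h2.mono hD hr2) E hE hED]
  have hs : f.Splits := IsAlgClosed.splits f
  obtain ⟨D, hD, h1⟩ := key f.roots
  refine ⟨D, hD, fun E hE hED => ?_⟩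
  rw [hs.eq_prod_roots, gD_mul v (h.pos E hE), gD_mul v (h.pos D hD), gD_C, gD_C, h1 E hE hED]

/-- the limit norm -/
noncomputable def lim [IsAlgClosed C] (h : EmptyChain v 𝒞) (f : C[X]) : ℝ≥0 :=
  gD v (h.exists_stab f).choose f

theorem lim_eq [IsAlgClosed C] (h : EmptyChain v 𝒞) {f : C[X]} {D : C × ℝ≥0} (hD : D ∈ 𝒞)
    (hs : Stab v 𝒞 f D) : lim h f = gD v D f := by
  obtain ⟨h1, h2⟩ := (h.exists_stab f).choose_spec
  rw [lim]
  obtain ⟨F, hF, hr1, hr2⟩ := h.min h1 hD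
  rw [← h2 F hF hr1, hs F hF hr2]

/-- the limit valuation on polynomials -/
noncomputable def limV [IsAlgClosed C] (h : EmptyChain v 𝒞) : Valuation C[X] ℝ≥0 where
  toFun := lim h
  map_zero' := by
    obtain ⟨D, hD, hs⟩ := h.exists_stab (0 : C[X])
    rw [lim_eq h hD hs, gD, map_zero, gf_zero]
  map_one' := by
    obtain ⟨D, hD, hs⟩ := h.exists_stab (1 : C[X])
    rw [lim_eq h hD hs, ← Polynomial.C_1, gD_C, map_one]
  map_mul' f g := by
    obtain ⟨D1, hD1, h1⟩ := h.exists_stab f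
    obtain ⟨D2, hD2, h2⟩ := h.exists_stab g
    obtain ⟨D3, hD3, h3⟩ := h.exists_stab (f * g)
    obtain ⟨D4, hD4, r1, r2⟩ := h.min hD1 hD2
    obtain ⟨D, hD, r3, r4⟩ := h.min hD3 hD4
    rw [lim_eq h hD (h1.mono hD (r4.trans r1)), lim_eq h hD (h2.mono hD (r4.trans r2)),
      lim_eq h hD (h3.mono hD r3), gD_mul v (h.pos D hD)]
  map_add_le_max' f g := by
    obtain ⟨D1, hD1, h1⟩ := h.exists_stab f
    obtain ⟨D2, hD2, h2⟩ := h.exists_stab g
    obtain ⟨D3, hD3, h3⟩ := h.exists_stab (f + g)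
    obtain ⟨D4, hD4, r1, r2⟩ := h.min hD1 hD2
    obtain ⟨D, hD, r3, r4⟩ := h.min hD3 hD4
    rw [lim_eq h hD (h1.mono hD (r4.trans r1)), lim_eq h hD (h2.mono hD (r4.trans r2)),
      lim_eq h hD (h3.mono hD r3)]
    exact gD_add v D f g

theorem limV_apply [IsAlgClosed C] (h : EmptyChain v 𝒞) (f : C[X]) : limV h f = lim h f := rfl

theorem limV_ne_zero [IsAlgClosed C] (h : EmptyChain v 𝒞) (f : C[X]) (hf : f ≠ 0) :
    limV h f ≠ 0 := by
  obtain ⟨D, hD, hs⟩ := h.exists_stab f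
  rw [limV_apply, lim_eq h hD hs, gD]
  exact gf_ne_zero v (h.pos D hD) (fun h0 => hf ((taylor_eq_zero D.1 f).1 h0))

/-- **type 4 norms**: a chain of closed discs without common point defines an immediate norm. -/
theorem EmptyChain.exists_norm [IsAlgClosed C] (h : EmptyChain v 𝒞) :
    ∃ w : Valuation (RatFunc C) ℝ≥0, (∀ c, w (RatFunc.C c) = v c) ∧
      (∀ b, ∃ D ∈ 𝒞, D.2 < v (b - D.1) ∧ w (RatFunc.X - RatFunc.C b) = v (b - D.1)) ∧
      (∀ D ∈ 𝒞, w (RatFunc.X - RatFunc.C D.1) ≤ D.2) ∧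
      (∀ b, ∃ c, w (RatFunc.X - RatFunc.C c) < w (RatFunc.X - RatFunc.C b)) := by
  have hA : ∀ b, ∃ D ∈ 𝒞, D.2 < v (b - D.1) ∧
      extR (limV h) (limV_ne_zero h) (RatFunc.X - RatFunc.C b) = v (b - D.1) := by
    intro b
    obtain ⟨D, hD, hs, hb, he⟩ := h.exists_stab_X_sub b
    refine ⟨D, hD, hb, ?_⟩
    rw [← algebraMap_X_sub, extR_algebraMap, limV_apply, lim_eq h hD hs, he]
  have hB : ∀ D ∈ 𝒞, extR (limV h) (limV_ne_zero h) (RatFunc.X - RatFunc.C D.1) ≤ D.2 := by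
    intro D hD
    obtain ⟨E, hE, hs, -, -⟩ := h.exists_stab_X_sub D.1
    obtain ⟨F, hF, r1, r2⟩ := h.min hD hE
    rw [← algebraMap_X_sub, extR_algebraMap, limV_apply, lim_eq h hF (hs.mono hF r2), gD_X_sub]
    exact max_le r1.2 r1.1
  refine ⟨extR (limV h) (limV_ne_zero h), fun c => ?_, hA, hB, fun b => ?_⟩
  · obtain ⟨D, hD, hs⟩ := h.exists_stab (Polynomial.C c)
    rw [← RatFunc.algebraMap_C, extR_algebraMap, limV_apply, lim_eq h hD hs, gD_C]
  · obtain ⟨D, hD, hb, he⟩ := hA b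
    exact ⟨D.1, by rw [he]; exact (hB D hD).trans_lt hb⟩

end Crest.Agent.R013.PL_109
end

-- ▼ part R013/SSZorn_315
section

/-!
# SS-ZORN (row 13): globalisation of the local structure of covers of the line

Abstract replacement for the compactness of the Berkovich line in the proof of semistable
reduction. `C` is a field with a valuation `v : C → ℝ≥0`. Two predicates are given:
`gD a r` ("the open disc `{v (x-a) < r}` is good") and `gA a r₁ r₂` ("the open annulus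
`{r₁ < v (x-a) < r₂}` is good"), hereditary in the obvious sense, and good near every point of
type 2 (`T2out`, `T2in`), type 3 (`T3`), type 1 and 4 (`T14`). Conclusion: every closed disc
has a finite tree decomposition `FD`.
-/

set_option autoImplicit false

open scoped NNReal

namespace Crest.Agent.R013.SSZorn_315

variable {C : Type*} [Field C] (v : Valuation C ℝ≥0)

/-- value radius: a non-zero value of `v`. -/
def IsVal (r : ℝ≥0) : Prop := r ≠ 0 ∧ ∃ c : C, v c = r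

/-- Finite tree decomposition of the closed disc `{v (x-a) ≤ r}` into the vertices `η_{b,s}`,
good open discs and good open annuli. `S` is the finite set of exceptional directions at the
vertex `η_{a,r}`; in the direction of `c ∈ S` there is a good annulus `{s c < v (x-c) < r}` and
the closed disc `{v (x-c) ≤ s c}` is decomposed in the same way. -/
inductive FD (gD : C → ℝ≥0 → Prop) (gA : C → ℝ≥0 → ℝ≥0 → Prop) : C → ℝ≥0 → Prop
  | mk (a : C) (r : ℝ≥0) (S : Finset C) (s : C → ℝ≥0)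
      (hr : IsVal v r)
      (hS : ∀ c ∈ S, v (c - a) ≤ r)
      (hSS : ∀ c ∈ S, ∀ d ∈ S, v (c - d) < r → c = d)
      (hs : ∀ c ∈ S, s c < r)
      (hD : ∀ c, v (c - a) ≤ r → (∀ d ∈ S, r ≤ v (c - d)) → gD c r)
      (hA : ∀ c ∈ S, gA c (s c) r)
      (hrec : ∀ c ∈ S, FD gD gA c (s c)) : FD gD gA a r

/-- The hypotheses: heredity and local goodness. -/
structure Local (gD : C → ℝ≥0 → Prop) (gA : C → ℝ≥0 → ℝ≥0 → Prop) : Prop where
  /-- sub-discs of good open discs are good -/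
  h1 : ∀ a r a' r', gD a r → v (a' - a) < r → r' ≤ r → gD a' r'
  /-- concentric sub-annuli of good annuli are good -/
  h2 : ∀ a r₁ r₂ r₁' r₂', gA a r₁ r₂ → r₁ ≤ r₁' → r₁' < r₂' → r₂' ≤ r₂ → gA a r₁' r₂'
  /-- open discs inside good annuli are good -/
  h3 : ∀ a r₁ r₂ c r, gA a r₁ r₂ → r₁ < v (c - a) → v (c - a) < r₂ → r ≤ v (c - a) → gD c r
  /-- outward direction at a type 2 point -/
  T2out : ∀ a r, IsVal v r → ∃ r₂, r < r₂ ∧ gA a r r₂
  /-- inward directions at a type 2 point -/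
  T2in : ∀ a r, IsVal v r → ∃ S : Finset C, (∀ c ∈ S, v (c - a) ≤ r) ∧
    (∀ c, v (c - a) ≤ r → (∀ d ∈ S, r ≤ v (c - d)) → gD c r) ∧
    ∀ c ∈ S, ∃ s, IsVal v s ∧ s < r ∧ gA c s r
  /-- type 3 points -/
  T3 : ∀ a r, 0 < r → ¬ IsVal v r → ∃ r₁ r₂, IsVal v r₁ ∧ r₁ < r ∧ r < r₂ ∧ gA a r₁ r₂
  /-- type 1 and type 4 points, given as chains of closed discs whose intersection contains no
  disc of positive radius -/
  T14 : ∀ 𝒞 : Set (C × ℝ≥0), 𝒞.Nonempty → (∀ D ∈ 𝒞, IsVal v D.2) →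
    (∀ D ∈ 𝒞, ∀ E ∈ 𝒞, (v (D.1 - E.1) ≤ E.2 ∧ D.2 ≤ E.2) ∨ (v (E.1 - D.1) ≤ D.2 ∧ E.2 ≤ D.2)) →
    (¬ ∃ b s, 0 < s ∧ ∀ D ∈ 𝒞, v (b - D.1) ≤ D.2 ∧ s ≤ D.2) →
    ∃ D ∈ 𝒞, ∃ R, D.2 < R ∧ gD D.1 R

variable {v} {gD : C → ℝ≥0 → Prop} {gA : C → ℝ≥0 → ℝ≥0 → Prop}

theorem v_sub_le (a b c : C) : v (a - c) ≤ max (v (a - b)) (v (b - c)) := by
  have := v.map_add (a - b) (b - c)
  simpa using this

theorem v_sub_comm (a b : C) : v (a - b) = v (b - a) := Valuation.map_sub_swap v a b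

/-- `FD` only depends on the closed disc. -/
theorem FD.congr {a : C} {r : ℝ≥0} (h : FD v gD gA a r) {a' : C} (haa : v (a' - a) ≤ r) :
    FD v gD gA a' r := by
  cases h with
  | mk _ _ S s hr hS hSS hs hD hA hrec =>
    refine FD.mk a' r S s hr (fun c hc => ?_) hSS hs (fun c hc hd => ?_) hA hrec
    · refine (v_sub_le c a a').trans (max_le (hS c hc) ?_)
      rw [v_sub_comm]; exact haa
    · exact hD c ((v_sub_le c a' a).trans (max_le hc haa)) hd

theorem FD.isVal {a : C} {r : ℝ≥0} (h : FD v gD gA a r) : IsVal v r := by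
  cases h; assumption

/-- a finite set can be thinned to representatives of the classes modulo `v (c - d) < r` -/
theorem exists_reps (S : Finset C) (r : ℝ≥0) (hr : 0 < r) :
    ∃ T ⊆ S, (∀ c ∈ T, ∀ d ∈ T, v (c - d) < r → c = d) ∧ ∀ c ∈ S, ∃ d ∈ T, v (c - d) < r := by
  classical
  induction S using Finset.induction_on with
  | empty => exact ⟨∅, by simp, by simp, by simp⟩
  | insert x S hx ih =>
    obtain ⟨T, hTS, hT1, hT2⟩ := ih
    by_cases h : ∃ d ∈ T, v (x - d) < r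
    · refine ⟨T, hTS.trans (Finset.subset_insert _ _), hT1, ?_⟩
      intro c hc
      rcases Finset.mem_insert.1 hc with rfl | hc
      · exact h
      · exact hT2 c hc
    · push Not at h
      refine ⟨insert x T, Finset.insert_subset_insert _ hTS, ?_, ?_⟩
      · intro c hc d hd hcd
        rcases Finset.mem_insert.1 hc with hc | hc <;> rcases Finset.mem_insert.1 hd with hd | hd
        · rw [hc, hd]
        · exact absurd (hc ▸ hcd) (not_lt.2 (h d hd))
        · rw [v_sub_comm] at hcd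
          exact absurd (hd ▸ hcd) (not_lt.2 (h c hc))
        · exact hT1 c hc d hd hcd
      · intro c hc
        rcases Finset.mem_insert.1 hc with hc | hc
        · exact ⟨c, hc ▸ Finset.mem_insert_self _ _, by simpa using hr⟩
        · obtain ⟨d, hd, hcd⟩ := hT2 c hc
          exact ⟨d, Finset.mem_insert_of_mem hd, hcd⟩

/-- constructor of `FD` without the disjointness of directions and with one-step inheritance -/
theorem FD.mk' {a : C} {r : ℝ≥0} (hr : IsVal v r) (S : Finset C)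
    (hS : ∀ c ∈ S, v (c - a) ≤ r)
    (hD : ∀ c, v (c - a) ≤ r → (∀ d ∈ S, r ≤ v (c - d)) → gD c r)
    (hrec : ∀ c ∈ S, ∃ s, s < r ∧ gA c s r ∧ FD v gD gA c s) : FD v gD gA a r := by
  classical
  have hr0 : 0 < r := pos_iff_ne_zero.2 hr.1
  obtain ⟨T, hTS, hT1, hT2⟩ := exists_reps (v := v) S r hr0
  choose! s hs hA hF using hrec
  refine FD.mk a r T s hr (fun c hc => hS c (hTS hc)) hT1 (fun c hc => hs c (hTS hc)) ?_
    (fun c hc => hA c (hTS hc)) (fun c hc => hF c (hTS hc))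
  intro c hc hd
  refine hD c hc fun e he => ?_
  by_contra hlt
  push Not at hlt
  obtain ⟨d, hdT, hed⟩ := hT2 e he
  have := hd d hdT
  have h2 := (v_sub_le (v := v) c e d).trans_lt (max_lt hlt hed)
  exact absurd this (not_le.2 h2)

/-- a closed disc inside a good open disc of larger radius -/
theorem FD.of_gD (L : Local v gD gA) {a : C} {r R : ℝ≥0} (hr : IsVal v r) (hR : r < R)
    (h : gD a R) : FD v gD gA a r := by
  refine FD.mk' hr ∅ (by simp) (fun c hc _ => ?_) (by simp)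
  exact L.h1 a R c r h (hc.trans_lt hR) hR.le

/-- adding an annulus -/
theorem FD.of_gA (L : Local v gD gA) {a : C} {r₁ r r₂ : ℝ≥0} (hr : IsVal v r) (h1 : r₁ < r)
    (h2 : r < r₂) (h : gA a r₁ r₂) (hF : FD v gD gA a r₁) : FD v gD gA a r := by
  refine FD.mk' hr {a} (by simp) (fun c hc hd => ?_) ?_
  · have hc' : v (c - a) = r := le_antisymm hc (hd a (by simp))
    exact L.h3 a r₁ r₂ c r h (by rw [hc']; exact h1) (by rw [hc']; exact h2) hc'.ge
  · intro c hc
    rw [Finset.mem_singleton] at hc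
    subst hc
    exact ⟨r₁, h1, L.h2 _ _ _ _ _ h le_rfl h1 h2.le, hF⟩

/-- **Globalisation**: local goodness implies that every closed disc has a finite tree
decomposition. -/
theorem fd_of_local (L : Local v gD gA) (a₀ : C) (r₀ : ℝ≥0) (hr₀ : IsVal v r₀) :
    FD v gD gA a₀ r₀ := by
  classical
  by_contra hbad
  -- the set of bad closed discs
  let B : Type _ := {D : C × ℝ≥0 // IsVal v D.2 ∧ ¬ FD v gD gA D.1 D.2}
  let rel : B → B → Prop := fun D E => v (D.1.1 - E.1.1) ≤ E.1.2 ∧ D.1.2 ≤ E.1.2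
  have hmax := maxChain_spec (r := rel)
  -- the maximal chain can be chosen to contain the given disc? not needed: it is nonempty
  set 𝒞 : Set B := maxChain rel with h𝒞
  have hne : 𝒞.Nonempty := by
    by_contra hemp
    rw [Set.not_nonempty_iff_eq_empty] at hemp
    have hch : IsChain rel ({⟨(a₀, r₀), hr₀, hbad⟩} : Set B) := by
      intro x hx y hy hxy
      rw [Set.mem_singleton_iff] at hx hy
      exact absurd (hx.trans hy.symm) hxy
    have := hmax.2 hch (by rw [hemp]; exact Set.empty_subset _)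
    rw [hemp] at this
    exact (Set.singleton_ne_empty _) this.symm
  have hrefl : ∀ D : B, rel D D := fun D => ⟨by simp, le_rfl⟩
  have hchain : ∀ D ∈ 𝒞, ∀ E ∈ 𝒞, rel D E ∨ rel E D := by
    intro D hD E hE
    by_cases h : D = E
    · left; rw [h]; exact hrefl E
    · exact hmax.1 hD hE h
  -- a bad disc strictly below the chain is impossible
  have hbelow : ∀ (b : C) (s : ℝ≥0), IsVal v s → (∀ D ∈ 𝒞, v (b - D.1.1) ≤ D.1.2 ∧ s < D.1.2) →
      FD v gD gA b s := by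
    intro b s hs hlt
    by_contra hF
    let E : B := ⟨(b, s), hs, hF⟩
    have hch : IsChain rel (insert E 𝒞) := by
      refine hmax.1.insert ?_
      intro D hD _
      left
      exact ⟨(hlt D hD).1, (hlt D hD).2.le⟩
    have h2 := hmax.2 hch (Set.subset_insert _ _)
    have hE : E ∈ 𝒞 := by
      have : E ∈ insert E (maxChain rel) := Set.mem_insert _ _
      rw [← h2] at this
      exact this
    exact absurd (hlt E hE).2 (lt_irrefl _)
  -- case distinction
  by_cases hcase : ∃ b s, 0 < s ∧ ∀ D ∈ 𝒞, v (b - D.1.1) ≤ D.1.2 ∧ s ≤ D.1.2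
  · obtain ⟨b, s, hs0, hb⟩ := hcase
    -- all members are discs around b
    let R : Set ℝ≥0 := {r | ∃ D ∈ 𝒞, D.1.2 = r}
    have hRne : R.Nonempty := by
      obtain ⟨D, hD⟩ := hne
      exact ⟨D.1.2, D, hD, rfl⟩
    set ρ := sInf R with hρ
    have hρs : s ≤ ρ := le_csInf hRne (by rintro r ⟨D, hD, rfl⟩; exact (hb D hD).2)
    have hρ0 : 0 < ρ := hs0.trans_le hρs
    have hρle : ∀ D ∈ 𝒞, ρ ≤ D.1.2 := fun D hD => csInf_le (OrderBot.bddBelow R) ⟨D, hD, rfl⟩
    have hmem : ∀ D ∈ 𝒞, ¬ FD v gD gA b D.1.2 := by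
      intro D hD hF
      refine D.2.2 (hF.congr ?_)
      rw [v_sub_comm]; exact (hb D hD).1
    have hclose : ∀ r₂, ρ < r₂ → ∃ D ∈ 𝒞, D.1.2 < r₂ := by
      intro r₂ hr₂
      obtain ⟨r, ⟨D, hD, rfl⟩, hr⟩ := exists_lt_of_csInf_lt hRne hr₂
      exact ⟨D, hD, hr⟩
    by_cases hval : IsVal v ρ
    · -- type 2
      have hnF : ¬ FD v gD gA b ρ := by
        intro hF
        obtain ⟨r₂, hr₂, hA⟩ := L.T2out b ρ hval
        obtain ⟨D, hD, hDr⟩ := hclose r₂ hr₂
        rcases (hρle D hD).eq_or_lt with heq | hlt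
        · exact hmem D hD (heq ▸ hF)
        · exact hmem D hD (FD.of_gA L D.2.1 hlt hDr hA hF)
      apply hnF
      obtain ⟨S, hS, hSD, hSA⟩ := L.T2in b ρ hval
      refine FD.mk' hval S hS hSD ?_
      intro c hc
      obtain ⟨s', hs', hlt, hA⟩ := hSA c hc
      refine ⟨s', hlt, hA, hbelow c s' hs' ?_⟩
      intro D hD
      refine ⟨?_, hlt.trans_le (hρle D hD)⟩
      refine (v_sub_le c b D.1.1).trans (max_le ((hS c hc).trans (hρle D hD)) (hb D hD).1)
    · -- type 3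
      obtain ⟨r₁, r₂, hv1, h1, h2, hA⟩ := L.T3 b ρ hρ0 hval
      obtain ⟨D, hD, hDr⟩ := hclose r₂ h2
      have hF1 : FD v gD gA b r₁ := hbelow b r₁ hv1 fun E hE =>
        ⟨(hb E hE).1, h1.trans_le (hρle E hE)⟩
      exact hmem D hD (FD.of_gA L D.2.1 (h1.trans_le (hρle D hD)) hDr hA hF1)
  · -- types 1 and 4
    let 𝒟 : Set (C × ℝ≥0) := {D | ∃ h, (⟨D, h⟩ : B) ∈ 𝒞}
    have h1 : 𝒟.Nonempty := by
      obtain ⟨D, hD⟩ := hne
      exact ⟨D.1, D.2, hD⟩
    have h2 : ∀ D ∈ 𝒟, IsVal v D.2 := by rintro D ⟨h, -⟩; exact h.1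
    have h3 : ∀ D ∈ 𝒟, ∀ E ∈ 𝒟, (v (D.1 - E.1) ≤ E.2 ∧ D.2 ≤ E.2) ∨
        (v (E.1 - D.1) ≤ D.2 ∧ E.2 ≤ D.2) := by
      rintro D ⟨hD, hD'⟩ E ⟨hE, hE'⟩
      exact hchain _ hD' _ hE'
    have h4 : ¬ ∃ b s, 0 < s ∧ ∀ D ∈ 𝒟, v (b - D.1) ≤ D.2 ∧ s ≤ D.2 := by
      rintro ⟨b, s, hs, hb⟩
      exact hcase ⟨b, s, hs, fun D hD => hb D.1 ⟨D.2, hD⟩⟩
    obtain ⟨D, ⟨hD, hD'⟩, R, hR, hg⟩ := L.T14 𝒟 h1 h2 h3 h4
    exact hD.2 (FD.of_gD L hD.1 hR hg)

/-! ### Convenient forms of the hypotheses -/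


/-! ### The flat form: a finite set of vertices -/

variable (v) in
/-- closed disc inclusion -/
def DLe (D E : C × ℝ≥0) : Prop := v (D.1 - E.1) ≤ E.2 ∧ D.2 ≤ E.2

/-- A finite set `V` of closed discs (type 2 points) inside the closed disc `R`, closed under
joins, such that every direction without vertices is a good open disc, and every edge (pair of
adjacent vertices) is a good open annulus. -/
structure Tree (v : Valuation C ℝ≥0) (gD : C → ℝ≥0 → Prop) (gA : C → ℝ≥0 → ℝ≥0 → Prop)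
    (R : C × ℝ≥0) (V : Finset (C × ℝ≥0)) : Prop where
  root : R ∈ V
  isVal : ∀ D ∈ V, IsVal v D.2
  le_root : ∀ D ∈ V, DLe v D R
  antisymm : ∀ D ∈ V, ∀ E ∈ V, DLe v D E → DLe v E D → D = E
  join : ∀ D ∈ V, ∀ E ∈ V, DLe v D E ∨ DLe v E D ∨
    ∃ F ∈ V, DLe v D F ∧ DLe v E F ∧ F.2 = v (D.1 - E.1) ∧ D.2 < F.2 ∧ E.2 < F.2
  disc : ∀ D ∈ V, ∀ c, v (c - D.1) ≤ D.2 → (∀ E ∈ V, v (E.1 - c) < D.2 → D.2 ≤ E.2) → gD c D.2
  ann : ∀ D ∈ V, ∀ E ∈ V, DLe v E D → E.2 < D.2 →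
    (∀ F ∈ V, DLe v E F → DLe v F D → F = E ∨ F = D) → gA E.1 E.2 D.2

theorem DLe.trans {D E F : C × ℝ≥0} (h : DLe v D E) (h' : DLe v E F) : DLe v D F :=
  ⟨(v_sub_le _ E.1 _).trans (max_le (h.1.trans h'.2) h'.1), h.2.trans h'.2⟩

theorem FD.exists_tree {a : C} {r : ℝ≥0} (h : FD v gD gA a r) :
    ∃ V : Finset (C × ℝ≥0), Tree v gD gA (a, r) V := by
  classical
  induction h with
  | mk a r S s hr hS hSS hs hD hA hrec ih =>
    choose! W hW using ih
    set V : Finset (C × ℝ≥0) := insert (a, r) (S.biUnion W) with hV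
    have hmem : ∀ D ∈ V, D = (a, r) ∨ ∃ c ∈ S, D ∈ W c := by
      intro D hD
      rcases Finset.mem_insert.1 hD with h | h
      · exact Or.inl h
      · obtain ⟨c, hc, hcD⟩ := Finset.mem_biUnion.1 h
        exact Or.inr ⟨c, hc, hcD⟩
    have hmem' : ∀ c ∈ S, ∀ D ∈ W c, D ∈ V := fun c hc D hD =>
      Finset.mem_insert_of_mem (Finset.mem_biUnion.2 ⟨c, hc, hD⟩)
    have hroot : (a, r) ∈ V := Finset.mem_insert_self _ _
    -- vertices of `W c` lie in the open disc around `c`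
    have hin : ∀ c ∈ S, ∀ D ∈ W c, v (D.1 - c) < r ∧ D.2 < r := by
      intro c hc D hD
      have := (hW c hc).le_root D hD
      exact ⟨this.1.trans_lt (hs c hc), this.2.trans_lt (hs c hc)⟩
    have hle : ∀ c ∈ S, ∀ D ∈ W c, DLe v D (a, r) := by
      intro c hc D hD
      exact ⟨(v_sub_le _ c _).trans (max_le (hin c hc D hD).1.le (hS c hc)), (hin c hc D hD).2.le⟩
    -- two vertices in different directions
    have hfar : ∀ c ∈ S, ∀ d ∈ S, c ≠ d → ∀ D ∈ W c, ∀ E ∈ W d, v (D.1 - E.1) = r := by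
      intro c hc d hd hcd D hDc E hEd
      have h1 : r ≤ v (c - d) := by
        by_contra hlt
        push Not at hlt
        exact hcd (hSS c hc d hd hlt)
      have h2 : v (D.1 - E.1) ≤ r := by
        refine (v_sub_le _ a _).trans (max_le (hle c hc D hDc).1 ?_)
        rw [v_sub_comm]; exact (hle d hd E hEd).1
      refine le_antisymm h2 ?_
      by_contra hlt
      push Not at hlt
      have h3 : v (c - d) < r := by
        refine (v_sub_le _ D.1 _).trans_lt (max_lt ?_ ?_)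
        · rw [v_sub_comm]; exact (hin c hc D hDc).1
        · refine (v_sub_le _ E.1 _).trans_lt (max_lt hlt (hin d hd E hEd).1)
      exact absurd h1 (not_le.2 h3)
    have hnle : ∀ c ∈ S, ∀ d ∈ S, ∀ D ∈ W c, ∀ E ∈ W d, DLe v D E → c = d := by
      intro c hc d hd D hDc E hEd hDE
      by_contra hcd
      have := hfar c hc d hd hcd D hDc E hEd
      have h2 := hDE.1
      rw [this] at h2
      exact absurd h2 (not_le.2 (hin d hd E hEd).2)
    have hnr : ∀ c ∈ S, ∀ D ∈ W c, ¬ DLe v (a, r) D := by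
      intro c hc D hDc h
      exact absurd h.2 (not_le.2 (hin c hc D hDc).2)
    refine ⟨V, hroot, ?_, ?_, ?_, ?_, ?_, ?_⟩
    · intro D hD
      rcases hmem D hD with rfl | ⟨c, hc, hDc⟩
      · exact hr
      · exact (hW c hc).isVal D hDc
    · intro D hD
      rcases hmem D hD with rfl | ⟨c, hc, hDc⟩
      · exact ⟨by simp, le_rfl⟩
      · exact hle c hc D hDc
    · intro D hD E hE hDE hED
      rcases hmem D hD with h | ⟨c, hc, hDc⟩ <;> rcases hmem E hE with h' | ⟨d, hd, hEd⟩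
      · rw [h, h']
      · exact absurd (h ▸ hDE) (hnr d hd E hEd)
      · exact absurd (h' ▸ hED) (hnr c hc D hDc)
      · obtain rfl := hnle c hc d hd D hDc E hEd hDE
        exact (hW c hc).antisymm D hDc E hEd hDE hED
    · intro D hD E hE
      rcases hmem E hE with h' | ⟨d, hd, hEd⟩
      · left
        rcases hmem D hD with h | ⟨c, hc, hDc⟩
        · rw [h, h']; exact ⟨by simp, le_rfl⟩
        · rw [h']; exact hle c hc D hDc
      · rcases hmem D hD with h | ⟨c, hc, hDc⟩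
        · right; left; rw [h]; exact hle d hd E hEd
        · by_cases hcd : c = d
          · subst hcd
            rcases (hW c hc).join D hDc E hEd with h | h | ⟨F, hF, h⟩
            · exact Or.inl h
            · exact Or.inr (Or.inl h)
            · exact Or.inr (Or.inr ⟨F, hmem' c hc F hF, h⟩)
          · right; right
            exact ⟨(a, r), hroot, hle c hc D hDc, hle d hd E hEd,
              (hfar c hc d hd hcd D hDc E hEd).symm, (hin c hc D hDc).2, (hin d hd E hEd).2⟩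
    · intro D hDV c' hc' hno
      rcases hmem D hDV with rfl | ⟨c, hc, hDc⟩
      · refine hD c' hc' fun d hd => ?_
        by_contra hlt
        push Not at hlt
        have h1 := hno (d, s d) (hmem' d hd _ (hW d hd).root)
          (show v (d - c') < r by rw [v_sub_comm]; exact hlt)
        exact absurd h1 (not_le.2 (hs d hd))
      · exact (hW c hc).disc D hDc c' hc' fun E hE => hno E (hmem' c hc E hE)
    · intro D hD E hE hED hlt hno
      rcases hmem D hD with rfl | ⟨c, hc, hDc⟩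
      · rcases hmem E hE with h | ⟨d, hd, hEd⟩
        · rw [h] at hlt; exact absurd hlt (lt_irrefl _)
        · have hroot' := (hW d hd).root
          rcases hno (d, s d) (hmem' d hd _ hroot') ((hW d hd).le_root E hEd)
            (hle d hd _ hroot') with h | h
          · rw [← h]; exact hA d hd
          · exact absurd (congrArg Prod.snd h) (hs d hd).ne
      · rcases hmem E hE with h | ⟨d, hd, hEd⟩
        · exact absurd (h ▸ hED) (hnr c hc D hDc)
        · obtain rfl := hnle d hd c hc E hEd D hDc hED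
          exact (hW d hd).ann D hDc E hEd hED hlt fun F hF => hno F (hmem' d hd F hF)

/-- The final statement: local goodness gives a finite tree of vertices in every closed disc. -/
theorem exists_tree (L : Local v gD gA) (a : C) (r : ℝ≥0) (hr : IsVal v r) :
    ∃ V : Finset (C × ℝ≥0), Tree v gD gA (a, r) V :=
  (fd_of_local L a r hr).exists_tree

end Crest.Agent.R013.SSZorn_315
namespace Crest.Agent.R013.SSZorn_315.Local
end Crest.Agent.R013.SSZorn_315.Local
end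

-- ▼ part R013/SSG1_109

/-!
# R013 / SSG1_109 : assembly of the local half of semistable reduction over the line (L12)

`GD a ρ` ("the open disc `|x-a| < |ρ|` is good"), `GA a σ ρ` ("the open annulus
`|σ| < |x-a| < |ρ|` is good"), `GI ρ` ("the disc `|x| > |ρ|` at infinity is good") are arbitrary
predicates. Inputs: `SubIn` (heredity), `OneIn` (type 1 points and infinity), `DirIn`, `EndIn`
(type 2 points), `Spr3`, `Spr4` (types 3 and 4). Output: the hypotheses of `SSZorn_315` for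
predicates which moreover avoid a given finite set of closed discs.
-/

set_option autoImplicit false

open scoped NNReal

namespace Crest.Agent.R013.SSG_109

open Crest.Agent.R013.SSZorn_315 Crest.Agent.R013.PL_109

variable {C : Type*} [Field C] (v : Valuation C ℝ≥0)
variable (GD : C → C → Prop) (GA : C → C → C → Prop) (GI : C → Prop)

/-- heredity of good cells -/
structure SubIn : Prop where
  s1 : ∀ a ρ a' ρ', GD a ρ → v (a' - a) < v ρ → ρ' ≠ 0 → v ρ' ≤ v ρ → GD a' ρ'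
  s2 : ∀ a σ ρ c τ, GA a σ ρ → v σ < v (c - a) → v (c - a) < v ρ → τ ≠ 0 → v τ ≤ v (c - a) →
    GD c τ
  s3 : ∀ a σ ρ σ' ρ', GA a σ ρ → v σ ≤ v σ' → v σ' < v ρ' → v ρ' ≤ v ρ → GA a σ' ρ'
  sInf : ∀ ρ ρ', GI ρ → v ρ ≤ v ρ' → GI ρ'

/-- type 1 points and infinity -/
def OneIn : Prop := (∀ a, ∃ ρ, ρ ≠ 0 ∧ GD a ρ) ∧ ∃ ρ, ρ ≠ 0 ∧ GI ρ

/-- type 2 points: almost all directions are good discs -/
def DirIn : Prop := ∀ a ρ, ρ ≠ 0 → ∃ S : Finset C, ∀ c, v (c - a) ≤ v ρ →
  (∀ d ∈ S, v ρ ≤ v (c - d)) → GD c ρ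

/-- type 2 points: annuli in all directions -/
def EndIn : Prop := ∀ a ρ, ρ ≠ 0 → (∃ σ, σ ≠ 0 ∧ v σ < v ρ ∧ GA a σ ρ) ∧ ∃ σ, v ρ < v σ ∧ GA a ρ σ

/-- type 3 points -/
def Spr3 : Prop := ∀ w : Valuation (RatFunc C) ℝ≥0, (∀ c, w (RatFunc.C c) = v c) → ∀ a,
  (∀ c, w (RatFunc.X - RatFunc.C a) ≠ v c) → ∃ σ ρ, σ ≠ 0 ∧ v σ < w (RatFunc.X - RatFunc.C a) ∧
    w (RatFunc.X - RatFunc.C a) < v ρ ∧ GA a σ ρ

/-- type 4 points -/
def Spr4 : Prop := ∀ w : Valuation (RatFunc C) ℝ≥0, (∀ c, w (RatFunc.C c) = v c) →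
  (∀ b, ∃ c, w (RatFunc.X - RatFunc.C c) < w (RatFunc.X - RatFunc.C b)) →
  ∃ r₀, (∃ c, w (RatFunc.X - RatFunc.C c) < r₀) ∧
    ∀ a ρ, w (RatFunc.X - RatFunc.C a) < v ρ → v ρ < r₀ → GD a ρ

/-- all inputs -/
structure Inp : Prop where
  sub : SubIn v GD GA GI
  one : OneIn GD GI
  dir : DirIn v GD
  fin : EndIn v GA
  spr3 : Spr3 v GA
  spr4 : Spr4 v GD

variable {v}

theorem v_eq_of_lt' {a b c : C} (h : v (a - b) < v (c - b)) : v (c - a) = v (c - b) := by
  have h1 : c - a = (c - b) - (a - b) := by ring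
  rw [h1]
  exact Valuation.map_sub_eq_of_lt_left v h

theorem v_pos_ne {c : C} {r : ℝ≥0} (h : r < v c) : c ≠ 0 := by
  rintro rfl
  rw [map_zero] at h
  exact absurd h (not_lt.2 zero_le)

/-- distance of the closed disc `t` to `a` -/
noncomputable def dst (v : Valuation C ℝ≥0) (t : C × ℝ≥0) (a : C) : ℝ≥0 := max (v (t.1 - a)) t.2

theorem dst_ne_zero {t : C × ℝ≥0} (ht : IsVal v t.2) (a : C) : dst v t a ≠ 0 := by
  have h : 0 < t.2 := pos_iff_ne_zero.2 ht.1
  exact (h.trans_le (le_max_right _ _)).ne'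

theorem isVal_dst {t : C × ℝ≥0} (ht : IsVal v t.2) (a : C) : IsVal v (dst v t a) := by
  refine ⟨dst_ne_zero ht a, ?_⟩
  rw [dst]
  rcases max_choice (v (t.1 - a)) t.2 with h | h
  · rw [h]; exact ⟨_, rfl⟩
  · rw [h]; exact ht.2

theorem le_dst_of_lt {t : C × ℝ≥0} {a a' : C} {r : ℝ≥0} (h : r ≤ dst v t a) (ha : v (a' - a) < r) :
    r ≤ dst v t a' := by
  rw [dst, le_max_iff] at h ⊢
  rcases h with h | h
  · left
    rw [v_eq_of_lt' (ha.trans_le h)]
    exact h
  · right; exact h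

/-- disc predicate -/
def gD (T : Finset (C × ℝ≥0)) (a : C) (r : ℝ≥0) : Prop :=
  ∃ ρ, ρ ≠ 0 ∧ r ≤ v ρ ∧ GD a ρ ∧ ∀ t ∈ T, r ≤ dst v t a

/-- annulus predicate -/
def gA (T : Finset (C × ℝ≥0)) (a : C) (r₁ r₂ : ℝ≥0) : Prop :=
  ∃ σ ρ, σ ≠ 0 ∧ v σ ≤ r₁ ∧ r₂ ≤ v ρ ∧ v σ < v ρ ∧ GA a σ ρ ∧
    ∀ t ∈ T, dst v t a ≤ r₁ ∨ r₂ ≤ dst v t a

/-- a finite set of values above `r` : a common bound -/
theorem exists_above (T : Finset (C × ℝ≥0)) (a : C) (r R : ℝ≥0) (hR : r < R) :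
    ∃ r₂, r < r₂ ∧ r₂ ≤ R ∧ ∀ t ∈ T, r < dst v t a → r₂ ≤ dst v t a := by
  classical
  induction T using Finset.induction_on with
  | empty => exact ⟨R, hR, le_rfl, by simp⟩
  | insert x T hx ih =>
    obtain ⟨r₂, h1, h2, h3⟩ := ih
    by_cases hx' : r < dst v x a
    · refine ⟨min r₂ (dst v x a), lt_min h1 hx', (min_le_left _ _).trans h2, ?_⟩
      intro t ht hlt
      rcases Finset.mem_insert.1 ht with rfl | ht
      · exact min_le_right _ _
      · exact (min_le_left _ _).trans (h3 t ht hlt)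
    · refine ⟨r₂, h1, h2, ?_⟩
      intro t ht hlt
      rcases Finset.mem_insert.1 ht with rfl | ht
      · exact absurd hlt hx'
      · exact h3 t ht hlt

/-- a finite set of values below `r` : a common bound which is a value -/
theorem exists_below (T : Finset (C × ℝ≥0)) (hT : ∀ t ∈ T, IsVal v t.2) (a : C) (r s : ℝ≥0)
    (hs : s < r) (hsv : IsVal v s) :
    ∃ r₁, IsVal v r₁ ∧ s ≤ r₁ ∧ r₁ < r ∧ ∀ t ∈ T, dst v t a < r → dst v t a ≤ r₁ := by
  classical
  induction T using Finset.induction_on with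
  | empty => exact ⟨s, hsv, le_rfl, hs, by simp⟩
  | insert x T hx ih =>
    obtain ⟨r₁, h0, h1, h2, h3⟩ := ih fun t ht => hT t (Finset.mem_insert_of_mem ht)
    by_cases hx' : dst v x a < r
    · refine ⟨max r₁ (dst v x a), ?_, h1.trans (le_max_left _ _), max_lt h2 hx', ?_⟩
      · rcases max_choice r₁ (dst v x a) with h | h
        · rw [h]; exact h0
        · rw [h]; exact isVal_dst (hT x (Finset.mem_insert_self _ _)) a
      intro t ht hlt
      rcases Finset.mem_insert.1 ht with rfl | ht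
      · exact le_max_right _ _
      · exact (h3 t ht hlt).trans (le_max_left _ _)
    · refine ⟨r₁, h0, h1, h2, ?_⟩
      intro t ht hlt
      rcases Finset.mem_insert.1 ht with rfl | ht
      · exact absurd hlt hx'
      · exact h3 t ht hlt

/-- in a chain without common disc of positive radius one finds a disc not containing any of
finitely many given closed discs and lying below a given one -/
theorem exists_avoid {𝒞 : Set (C × ℝ≥0)}
    (htot : ∀ D ∈ 𝒞, ∀ E ∈ 𝒞, Rel v D E ∨ Rel v E D)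
    (hno : ¬ ∃ b s, 0 < s ∧ ∀ D ∈ 𝒞, v (b - D.1) ≤ D.2 ∧ s ≤ D.2)
    (T : Finset (C × ℝ≥0)) (hT : ∀ t ∈ T, IsVal v t.2) {D₀ : C × ℝ≥0} (hD₀ : D₀ ∈ 𝒞) :
    ∃ D ∈ 𝒞, Rel v D D₀ ∧ ∀ t ∈ T, D.2 < dst v t D.1 := by
  classical
  induction T using Finset.induction_on with
  | empty => exact ⟨D₀, hD₀, Rel.refl _, by simp⟩
  | insert x T hx ih =>
    obtain ⟨D, hD, h1, h2⟩ := ih fun t ht => hT t (Finset.mem_insert_of_mem ht)
    have hxv := hT x (Finset.mem_insert_self _ _)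
    have h3 : ∃ E ∈ 𝒞, E.2 < dst v x E.1 := by
      by_contra hcon
      push Not at hcon
      exact hno ⟨x.1, x.2, pos_iff_ne_zero.2 hxv.1, fun E hE =>
        ⟨(le_max_left _ _).trans (hcon E hE), (le_max_right _ _).trans (hcon E hE)⟩⟩
    obtain ⟨E, hE, h4⟩ := h3
    -- passing to a smaller disc keeps the property
    have hmono : ∀ t : C × ℝ≥0, ∀ F G : C × ℝ≥0, Rel v F G → G.2 < dst v t G.1 →
        F.2 < dst v t F.1 := by
      intro t F G hFG hG
      rw [dst, lt_max_iff] at hG ⊢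
      rcases hG with hG | hG
      · left
        rw [v_eq_of_lt' (hFG.1.trans_lt hG)]
        exact hFG.2.trans_lt hG
      · right; exact hFG.2.trans_lt hG
    rcases htot D hD E hE with h | h
    · refine ⟨D, hD, h1, ?_⟩
      intro t ht
      rcases Finset.mem_insert.1 ht with rfl | ht
      · exact hmono _ _ _ h h4
      · exact h2 t ht
    · refine ⟨E, hE, h.trans h1, ?_⟩
      intro t ht
      rcases Finset.mem_insert.1 ht with rfl | ht
      · exact h4
      · exact hmono _ _ _ h (h2 t ht)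

variable {GD GA GI}

/-- **Local goodness** in the sense of `SSZorn_315`, avoiding a finite set of closed discs. -/
theorem local_of [IsAlgClosed C] (I : Inp v GD GA GI) (T : Finset (C × ℝ≥0))
    (hT : ∀ t ∈ T, IsVal v t.2) : Local v (gD (v := v) GD T) (gA (v := v) GA T) where
  h1 := by
    rintro a r a' r' ⟨ρ, h1, h2, h3, h4⟩ ha hr
    refine ⟨ρ, h1, hr.trans h2, I.sub.s1 a ρ a' ρ h3 (ha.trans_le h2) h1 le_rfl, fun t ht => ?_⟩
    exact hr.trans (le_dst_of_lt (h4 t ht) ha)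
  h2 := by
    rintro a r₁ r₂ r₁' r₂' ⟨σ, ρ, h0, h1, h2, h3, h4, h5⟩ h6 h7 h8
    refine ⟨σ, ρ, h0, h1.trans h6, h8.trans h2, h3, h4, fun t ht => ?_⟩
    rcases h5 t ht with h | h
    · exact Or.inl (h.trans h6)
    · exact Or.inr (h8.trans h)
  h3 := by
    rintro a r₁ r₂ c r ⟨σ, ρ, h0, h1, h2, h3, h4, h5⟩ h6 h7 h8
    have hne : c - a ≠ 0 := v_pos_ne h6
    refine ⟨c - a, hne, h8, I.sub.s2 a σ ρ c (c - a) h4 (h1.trans_lt h6) (h7.trans_le h2) hne le_rfl,
      fun t ht => ?_⟩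
    rcases h5 t ht with h | h
    · have h9 : v (t.1 - a) < v (c - a) := ((le_max_left _ _).trans h).trans_lt h6
      have h10 : v (c - t.1) = v (c - a) := v_eq_of_lt' h9
      rw [dst, Valuation.map_sub_swap, h10]
      exact h8.trans (le_max_left _ _)
    · exact h8.trans ((h7.le).trans (le_dst_of_lt h h7))
  T2out := by
    rintro a r ⟨hr0, ρ, rfl⟩
    have hρ : ρ ≠ 0 := fun h => hr0 (by rw [h, map_zero])
    obtain ⟨-, σ, h1, h2⟩ := I.fin a ρ hρ
    obtain ⟨r₂, h3, h4, h5⟩ := exists_above (v := v) T a (v ρ) (v σ) h1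
    refine ⟨r₂, h3, ρ, σ, hρ, le_rfl, h4, h1, h2, fun t ht => ?_⟩
    rcases le_or_gt (dst v t a) (v ρ) with h | h
    · exact Or.inl h
    · exact Or.inr (h5 t ht h)
  T2in := by
    classical
    rintro a r ⟨hr0, ρ, rfl⟩
    have hρ : ρ ≠ 0 := fun h => hr0 (by rw [h, map_zero])
    obtain ⟨S, hS⟩ := I.dir a ρ hρ
    refine ⟨(S ∪ T.image Prod.fst).filter fun c => v (c - a) ≤ v ρ, fun c hc =>
      (Finset.mem_filter.1 hc).2, fun c hc hd => ?_, fun c hc => ?_⟩
    · have hfar : ∀ d, ¬ (v (d - a) ≤ v ρ) → v ρ ≤ v (c - d) := by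
        intro d hd'
        push Not at hd'
        rw [Valuation.map_sub_swap, v_eq_of_lt' (hc.trans_lt hd')]
        exact hd'.le
      refine ⟨ρ, hρ, le_rfl, hS c hc fun d hdS => ?_, fun t ht => ?_⟩
      · by_cases h : v (d - a) ≤ v ρ
        · exact hd d (Finset.mem_filter.2 ⟨Finset.mem_union_left _ hdS, h⟩)
        · exact hfar d h
      · rw [dst, Valuation.map_sub_swap]
        refine le_trans ?_ (le_max_left _ _)
        by_cases h : v (t.1 - a) ≤ v ρ
        · exact hd t.1 (Finset.mem_filter.2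
            ⟨Finset.mem_union_right _ (Finset.mem_image_of_mem _ ht), h⟩)
        · exact hfar t.1 h
    · obtain ⟨⟨σ, h0, h1, h2⟩, -⟩ := I.fin c ρ hρ
      have hσ : IsVal v (v σ) := ⟨(Valuation.ne_zero_iff v).2 h0, σ, rfl⟩
      obtain ⟨r₁, h3, h4, h5, h6⟩ := exists_below T hT c (v ρ) (v σ) h1 hσ
      refine ⟨r₁, h3, h5, σ, ρ, h0, h4, le_rfl, h1, h2, fun t ht => ?_⟩
      rcases lt_or_ge (dst v t c) (v ρ) with h | h
      · exact Or.inl (h6 t ht h)
      · exact Or.inr h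
  T3 := by
    intro a r hr hnv
    have hr' : r ≠ 0 := hr.ne'
    have hw : gaussR v a r hr' (RatFunc.X - RatFunc.C a) = r := by
      rw [gaussR_X_sub]; simp
    obtain ⟨σ, ρ, h0, h1, h2, h3⟩ := I.spr3 (gaussR v a r hr') (gaussR_C v a hr') a (by
      intro c
      rw [hw]
      intro h
      exact hnv ⟨hr', c, h.symm⟩)
    rw [hw] at h1 h2
    have hσ : IsVal v (v σ) := ⟨(Valuation.ne_zero_iff v).2 h0, σ, rfl⟩
    obtain ⟨r₁, h4, h5, h6, h7⟩ := exists_below T hT a r (v σ) h1 hσ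
    obtain ⟨r₂, h8, h9, h10⟩ := exists_above (v := v) T a r (v ρ) h2
    refine ⟨r₁, r₂, h4, h6, h8, σ, ρ, h0, h5, h9, h1.trans h2, h3, fun t ht => ?_⟩
    rcases lt_trichotomy (dst v t a) r with h | h | h
    · exact Or.inl (h7 t ht h)
    · exact absurd (h ▸ isVal_dst (hT t ht) a) hnv
    · exact Or.inr (h10 t ht h)
  T14 := by
    intro 𝒞 hne hval htot hno
    have htot' : ∀ D ∈ 𝒞, ∀ E ∈ 𝒞, Rel v D E ∨ Rel v E D := htot
    by_cases hb : ∃ b, ∀ D ∈ 𝒞, v (b - D.1) ≤ D.2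
    · -- type 1
      obtain ⟨b, hb⟩ := hb
      obtain ⟨ρ, h0, h1⟩ := I.one.1 b
      have hρ : 0 < v ρ := pos_iff_ne_zero.2 ((Valuation.ne_zero_iff v).2 h0)
      have h2 : ∃ D ∈ 𝒞, D.2 < v ρ := by
        by_contra hcon
        push Not at hcon
        exact hno ⟨b, v ρ, hρ, fun D hD => ⟨hb D hD, hcon D hD⟩⟩
      obtain ⟨D₀, hD₀, h3⟩ := h2
      obtain ⟨D, hD, h4, h5⟩ := exists_avoid htot' hno T hT hD₀
      have h6 : D.2 < v ρ := h4.2.trans_lt h3
      obtain ⟨R, h7, h8, h9⟩ := exists_above (v := v) T D.1 D.2 (v ρ) h6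
      refine ⟨D, hD, R, h7, ρ, h0, h8, I.sub.s1 b ρ D.1 ρ h1 ?_ h0 le_rfl, fun t ht =>
        h9 t ht (h5 t ht)⟩
      rw [Valuation.map_sub_swap]
      exact (hb D hD).trans_lt h6
    · -- type 4
      push Not at hb
      have hE : EmptyChain v 𝒞 := ⟨hne, fun D hD => (hval D hD).1, htot', hb⟩
      obtain ⟨w, hw0, hw1, hw2, hw3⟩ := hE.exists_norm
      obtain ⟨r₀, ⟨c, hc⟩, h1⟩ := I.spr4 w hw0 hw3
      obtain ⟨D₀, hD₀, h2, h3⟩ := hw1 c
      obtain ⟨D, hD, h4, h5⟩ := exists_avoid htot' hno T hT hD₀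
      have h6 : v (c - D.1) = v (c - D₀.1) := v_eq_of_lt' (h4.1.trans_lt h2)
      have h7 : D.2 < v (c - D.1) := by rw [h6]; exact h4.2.trans_lt h2
      obtain ⟨R, h8, h9, h10⟩ := exists_above (v := v) T D.1 D.2 (v (c - D.1)) h7
      refine ⟨D, hD, R, h8, c - D.1, v_pos_ne h7, h9, h1 D.1 (c - D.1) ?_ ?_, fun t ht =>
        h10 t ht (h5 t ht)⟩
      · exact (hw2 D hD).trans_lt h7
      · rw [h6, ← h3]; exact hc

end Crest.Agent.R013.SSG_109
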