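import Mathlib
import Crest.Agent.R013.Gl2_946
import Crest.Agent.R013.Desc3_372
import Crest.Agent.R013.Desc4_372

-- ▼ part R013/LemC1_623
section

/-!
# Constant extensions of circle fields (row 13, leaf LEMW / B-ANN, part 1)

`k` complete, `Ω` a normed field over `k`.  The norm of an algebraic element depends only on its
minimal polynomial; if the norm of `Ω` is the Gauss norm on `k[y]`, it is the Gauss norm on `κ[y]`,
`κ` the algebraic closure of `k` in `Ω`.
-/

set_option autoImplicit false
set_option linter.unusedSectionVars false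

namespace Crest.Agent.R013.LemC623

open Polynomial Crest.Agent.R013.Gl946

section gauss

variable {k : Type*} [NontriviallyNormedField k] [CompleteSpace k] [IsUltrametricDist k]
  {Ω : Type*} [NormedField Ω] [NormedAlgebra k Ω]

theorem norm_alg {c : Ω} (hc : IsAlgebraic k c) : ‖c‖ = spectralValue (minpoly k c) := by
  have h := NormedAlgebra.norm_eq_spectralNorm (K := k) (L := algebraicClosure k Ω)
    ⟨c, (mem_algebraicClosure_iff).2 hc⟩
  have h2 : minpoly k (⟨c, (mem_algebraicClosure_iff).2 hc⟩ : algebraicClosure k Ω) =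
      minpoly k c := (minpoly.algebraMap_eq (algebraMap (algebraicClosure k Ω) Ω).injective _).symm
  rw [spectralNorm, h2] at h
  exact h

/-- Conjugate elements have the same norm. -/
theorem norm_conj {c c' : Ω} (hc : IsAlgebraic k c) (h : minpoly k c = minpoly k c') :
    ‖c‖ = ‖c'‖ := by
  have hc' : IsAlgebraic k c' := by
    rw [isAlgebraic_iff_isIntegral]
    by_contra h0
    rw [minpoly.eq_zero h0] at h
    exact minpoly.ne_zero hc.isIntegral h
  rw [norm_alg hc, norm_alg hc', h]

theorem norm_algEquiv (F : IntermediateField k Ω) [Algebra.IsAlgebraic k F] (τ : F ≃ₐ[k] F)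
    (c : F) : ‖τ c‖ = ‖c‖ := by
  have hc : IsAlgebraic k ((τ c : F) : Ω) :=
    (Algebra.IsAlgebraic.isAlgebraic (R := k) (τ c)).algebraMap
  change ‖((τ c : F) : Ω)‖ = ‖(c : Ω)‖
  refine norm_conj hc ?_
  have h1 : ∀ x : F, minpoly k (x : Ω) = minpoly k x := fun x =>
    minpoly.algebraMap_eq (algebraMap F Ω).injective x
  rw [h1, h1]
  exact minpoly.algEquiv_eq τ c

/-- the norm as an absolute value -/
noncomputable def nabs (F : Type*) [NormedField F] : AbsoluteValue F ℝ :=
  { toFun := norm
    map_mul' := norm_mul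
    nonneg' := norm_nonneg
    eq_zero' := fun _ => norm_eq_zero
    add_le' := norm_add_le }


theorem nabs_na (F : Type*) [NormedField F] [IsUltrametricDist F] : IsNonarchimedean (nabs F) :=
  fun a b => IsUltrametricDist.norm_add_le_max a b

/-- the Gauss norm of radius one. -/
noncomputable def gn {F : Type*} [NormedField F] (f : F[X]) : ℝ := f.gaussNorm (nabs F) 1

theorem gn_mul {F : Type*} [NormedField F] [IsUltrametricDist F] (f g : F[X]) :
    gn (f * g) = gn f * gn g := gaussNorm_mul (nabs_na F) one_pos f g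

theorem gn_one {F : Type*} [NormedField F] : gn (1 : F[X]) = 1 := by
  rw [gn, ← C_1, gaussNorm_C]
  exact norm_one

theorem gn_prod {F : Type*} [NormedField F] [IsUltrametricDist F] {ι : Type*} (s : Finset ι)
    (f : ι → F[X]) : gn (∏ i ∈ s, f i) = ∏ i ∈ s, gn (f i) := by
  classical
  induction s using Finset.induction_on with
  | empty => rw [Finset.prod_empty, Finset.prod_empty, gn_one]
  | insert i s hi ih => rw [Finset.prod_insert hi, Finset.prod_insert hi, gn_mul, ih]

theorem coeff_le_gn {F : Type*} [NormedField F] (f : F[X]) (i : ℕ) : ‖f.coeff i‖ ≤ gn f := by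
  have := f.le_gaussNorm (nabs F) zero_le_one i
  rwa [one_pow, mul_one] at this

theorem gn_nonneg {F : Type*} [NormedField F] (f : F[X]) : 0 ≤ gn f :=
  gaussNorm_nonneg _ _ zero_le_one

theorem exists_gn {F : Type*} [NormedField F] (f : F[X]) : ∃ i, gn f = ‖f.coeff i‖ := by
  obtain ⟨i, hi⟩ := exists_eq_gaussNorm (nabs F) 1 f
  rw [one_pow, mul_one] at hi
  exact ⟨i, hi⟩

theorem gn_le {F : Type*} [NormedField F] {f : F[X]} {B : ℝ} (h : ∀ i, ‖f.coeff i‖ ≤ B) :
    gn f ≤ B := by
  obtain ⟨i, hi⟩ := exists_gn f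
  rw [hi]; exact h i

theorem gn_congr {F F' : Type*} [NormedField F] [NormedField F'] {f : F[X]} {f' : F'[X]}
    (h : ∀ i, ‖f.coeff i‖ = ‖f'.coeff i‖) : gn f = gn f' := by
  refine le_antisymm (gn_le fun i => ?_) (gn_le fun i => ?_)
  · rw [h]; exact coeff_le_gn _ _
  · rw [← h]; exact coeff_le_gn _ _

variable [IsUltrametricDist Ω]

theorem norm_aeval_le {F : Type*} [NormedField F] [NormedAlgebra F Ω] {y : Ω} (hy : ‖y‖ ≤ 1)
    (f : F[X]) : ‖aeval y f‖ ≤ gn f := by
  rw [aeval_eq_sum_range]
  refine IsUltrametricDist.norm_sum_le_of_forall_le_of_nonneg (gn_nonneg f) fun i _ => ?_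
  rw [norm_smul, norm_pow]
  calc ‖f.coeff i‖ * ‖y‖ ^ i ≤ gn f * 1 :=
        mul_le_mul (coeff_le_gn f i) (pow_le_one₀ (norm_nonneg _) hy) (by positivity) (gn_nonneg f)
    _ = gn f := mul_one _

theorem gn_eq_of_isGauss {F : Type*} [NormedField F] [NormedAlgebra F Ω] {y : Ω}
    (hG : IsGauss F y) (f : F[X]) : ‖aeval y f‖ = gn f := by
  refine le_antisymm (norm_aeval_le hG.norm_le f) ?_
  obtain ⟨i, hi⟩ := exists_gn f
  rw [hi]; exact hG.coeff_le f i

/-- **The norm of `Ω` is the Gauss norm on `F[y]`, `F/k` finite Galois.** -/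
theorem isGauss_galois {y : Ω} (hG : IsGauss k y) (F : IntermediateField k Ω)
    [FiniteDimensional k F] [IsGalois k F] (f : F[X]) : ‖aeval y f‖ = gn f := by
  classical
  have hle : ∀ f : F[X], ‖aeval y f‖ ≤ gn f := by
    intro f
    rw [aeval_eq_sum_range]
    refine IsUltrametricDist.norm_sum_le_of_forall_le_of_nonneg (gn_nonneg f) fun i _ => ?_
    rw [Algebra.smul_def, norm_mul, norm_pow]
    calc ‖algebraMap F Ω (f.coeff i)‖ * ‖y‖ ^ i ≤ gn f * 1 :=
          mul_le_mul (coeff_le_gn f i) (pow_le_one₀ (norm_nonneg _) hG.norm_le) (by positivity)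
            (gn_nonneg f)
      _ = gn f := mul_one _
  by_cases h0 : gn f = 0
  · refine le_antisymm (hle f) ?_
    rw [h0]; exact norm_nonneg _
  have hpos : 0 < gn f := lt_of_le_of_ne (gn_nonneg f) (Ne.symm h0)
  refine le_antisymm (hle f) ?_
  -- the product of the conjugates
  set Fp : F[X] := ∏ τ : Gal(F/k), f.map (τ : F →+* F) with hFp
  have hgτ : ∀ τ : Gal(F/k), gn (f.map (τ : F →+* F)) = gn f := by
    intro τ
    refine gn_congr fun i => ?_
    rw [coeff_map]
    exact norm_algEquiv F τ _
  have hgFp : gn Fp = gn f ^ Fintype.card Gal(F/k) := by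
    rw [hFp, gn_prod, Finset.prod_congr rfl fun τ _ => hgτ τ, Finset.prod_const, Finset.card_univ]
  -- descends to `k`
  have hfix : ∀ σ : Gal(F/k), Fp.map (σ : F →+* F) = Fp := by
    intro σ
    rw [hFp, Polynomial.map_prod]
    refine Fintype.prod_equiv (Equiv.mulLeft σ) _ _ fun τ => ?_
    rw [Polynomial.map_map]
    rfl
  obtain ⟨F0, hF0⟩ : ∃ F0 : k[X], F0.map (algebraMap k F) = Fp := by
    have : Fp ∈ lifts (algebraMap k F) := by
      rw [lifts_iff_coeff_lifts]
      intro i
      have hmem : Fp.coeff i ∈ (⊥ : IntermediateField k F) := by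
        rw [IsGalois.mem_bot_iff_fixed]
        intro σ
        conv_rhs => rw [← hfix σ]
        rw [coeff_map]; rfl
      exact IntermediateField.mem_bot.1 hmem
    obtain ⟨q, hq⟩ := this
    exact ⟨q, hq⟩
  have hgF0 : gn F0 = gn Fp := by
    refine gn_congr fun i => ?_
    rw [← hF0, coeff_map, norm_algebraMap']
  have hval : ‖aeval y Fp‖ = gn Fp := by
    rw [← hgF0, ← gn_eq_of_isGauss hG F0, ← hF0, aeval_map_algebraMap]
  have hprod : aeval y Fp = ∏ τ : Gal(F/k), aeval y (f.map (τ : F →+* F)) := by
    rw [hFp, map_prod]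
  have hone : f.map ((1 : Gal(F/k)) : F →+* F) = f := by
    have : ((1 : Gal(F/k)) : F →+* F) = RingHom.id F := rfl
    rw [this, Polynomial.map_id]
  rw [hprod, norm_prod, hgFp, ← Finset.mul_prod_erase Finset.univ _ (Finset.mem_univ 1), hone,
    ← Finset.card_univ, ← Finset.card_erase_add_one (Finset.mem_univ (1 : Gal(F/k))),
    pow_succ] at hval
  have h3 : ∏ τ ∈ Finset.univ.erase (1 : Gal(F/k)), ‖aeval y (f.map (τ : F →+* F))‖ ≤
      gn f ^ (Finset.univ.erase (1 : Gal(F/k))).card := by
    rw [← Finset.prod_const]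
    refine Finset.prod_le_prod (fun _ _ => norm_nonneg _) fun τ _ => ?_
    rw [← hgτ τ]; exact hle _
  have hpw : 0 < gn f ^ (Finset.univ.erase (1 : Gal(F/k))).card := pow_pos hpos _
  have h4 : gn f ^ (Finset.univ.erase (1 : Gal(F/k))).card * gn f ≤
      ‖aeval y f‖ * gn f ^ (Finset.univ.erase (1 : Gal(F/k))).card := by
    rw [← hval]
    exact mul_le_mul_of_nonneg_left h3 (norm_nonneg _)
  rw [mul_comm] at h4
  exact le_of_mul_le_mul_right h4 hpw

/-- **The norm of `Ω` is the Gauss norm on `F[y]`, `F/k` algebraic.** -/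
theorem gauss_alg [CharZero k] [IsAlgClosed Ω] {y : Ω} (hG : IsGauss k y)
    (F : IntermediateField k Ω) [Algebra.IsAlgebraic k F] (f : F[X]) : ‖aeval y f‖ = gn f := by
  classical
  -- a finite Galois extension containing the coefficients
  set S : Finset Ω := (f.support.image fun i => ((f.coeff i : F) : Ω)) with hS
  have hSi : ∀ x ∈ S, IsIntegral k x := by
    intro x hx
    rw [hS, Finset.mem_image] at hx
    obtain ⟨i, -, rfl⟩ := hx
    exact ((Algebra.IsAlgebraic.isAlgebraic (R := k) (f.coeff i)).algebraMap (A := Ω)).isIntegral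
  set p : k[X] := ∏ x ∈ S, minpoly k x with hp
  have hp0 : p ≠ 0 := Finset.prod_ne_zero_iff.2 fun x hx => minpoly.ne_zero (hSi x hx)
  set N : IntermediateField k Ω := IntermediateField.adjoin k (p.rootSet Ω) with hN
  have hsp : p.IsSplittingField k N :=
    IntermediateField.adjoin_rootSet_isSplittingField (IsAlgClosed.splits _)
  have hfd : FiniteDimensional k N := IsSplittingField.finiteDimensional N p
  have hnorm : Normal k N := Normal.of_isSplittingField p
  have hgal : IsGalois k N := ⟨⟩
  have hcN : ∀ i, ((f.coeff i : F) : Ω) ∈ N := by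
    intro i
    by_cases hi : i ∈ f.support
    · apply IntermediateField.subset_adjoin
      rw [mem_rootSet]
      refine ⟨hp0, ?_⟩
      have hmem : ((f.coeff i : F) : Ω) ∈ S := Finset.mem_image.2 ⟨i, hi, rfl⟩
      rw [hp, map_prod]
      exact Finset.prod_eq_zero hmem (minpoly.aeval _ _)
    · rw [notMem_support_iff.1 hi]; exact zero_mem _
  obtain ⟨g, hg⟩ : ∃ g : N[X], g.map (algebraMap N Ω) = f.map (algebraMap F Ω) := by
    have : f.map (algebraMap F Ω) ∈ lifts (algebraMap N Ω) := by
      rw [lifts_iff_coeff_lifts]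
      intro i
      rw [coeff_map]
      exact ⟨⟨_, hcN i⟩, rfl⟩
    obtain ⟨q, hq⟩ := this
    exact ⟨q, hq⟩
  have h1 : aeval y f = aeval y g := by
    rw [aeval_def, aeval_def, ← eval_map, ← eval_map, hg]
  have h2 : gn g = gn f := by
    refine gn_congr fun i => ?_
    have := congrArg (fun p => coeff p i) hg
    simp only [coeff_map] at this
    have e1 : ‖g.coeff i‖ = ‖algebraMap N Ω (g.coeff i)‖ := rfl
    have e2 : ‖f.coeff i‖ = ‖algebraMap F Ω (f.coeff i)‖ := rfl
    rw [e1, e2, this]
  rw [h1, isGauss_galois hG N g, h2]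

end gauss

end Crest.Agent.R013.LemC623
end

-- ▼ part R013/LemC2_623

/-!
# Constant extensions of circle fields (row 13, leaf LEMW / B-ANN, part 2)

`E` a circle field over `k`, `Ω` an algebraically closed normed field over `E`.  Then `k` is
algebraically closed in `E`, and for every finite `k'/k` inside `Ω` the compositum
`E' = lev E Ω k'` is a circle field over `k'`.
-/

set_option autoImplicit false
set_option linter.unusedSectionVars false
set_option linter.style.haveILetI false

namespace Crest.Agent.R013.LemC623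

open Polynomial Crest.Agent.R013.Gl946 Crest.Agent.R013.Desc_372 Crest.Agent.R013.Desc_372.CE

/-- uniformisers exist when balls are compact. -/
theorem exists_unif (F : Type*) [NontriviallyNormedField F] [IsUltrametricDist F] [ProperSpace F] :
    ∃ π : F, IsUnif π := by
  have hcl : IsClosed (Metric.ball (0 : F) 1) := IsUltrametricDist.isClosed_ball 0 1
  have hK : IsCompact (Metric.ball (0 : F) 1) :=
    Metric.isCompact_of_isClosed_isBounded hcl Metric.isBounded_ball
  obtain ⟨a, ha0, ha1⟩ := NormedField.exists_norm_lt_one F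
  obtain ⟨x, hx, hmax⟩ := hK.exists_isMaxOn ⟨a, by simpa using ha1⟩
    (continuous_norm (E := F)).continuousOn
  have hx1 : ‖x‖ < 1 := by simpa using hx
  have hle : ∀ a : F, ‖a‖ < 1 → ‖a‖ ≤ ‖x‖ := fun a ha => hmax (by simpa using ha)
  exact ⟨x, ha0.trans_le (hle a ha1), hx1, hle⟩

section setup

variable {k : Type*} [NontriviallyNormedField k] [CompleteSpace k] [IsUltrametricDist k]
  [CharZero k] {E : Type*} [NormedField E] [NormedAlgebra k E] [IsUltrametricDist E]
  {Ω : Type*} [NormedField Ω] [NormedAlgebra k Ω] [NormedAlgebra E Ω] [IsScalarTower k E Ω]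
  [IsUltrametricDist Ω] [IsAlgClosed Ω] {y : E}

theorem isGauss_map (hG : IsGauss k y) : IsGauss k (algebraMap E Ω y) where
  norm_le := by rw [norm_algebraMap']; exact hG.norm_le
  coeff_le f i := by
    rw [aeval_algebraMap_apply, norm_algebraMap']; exact hG.coeff_le f i

omit [NormedField Ω] [NormedAlgebra k Ω] [NormedAlgebra E Ω] [IsScalarTower k E Ω]
  [IsUltrametricDist Ω] [IsAlgClosed Ω] in
/-- `k` is algebraically closed in `E`. -/
theorem algClosed_in (Ω : Type*) [NormedField Ω] [NormedAlgebra k Ω] [NormedAlgebra E Ω]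
    [IsScalarTower k E Ω] [IsUltrametricDist Ω] [IsAlgClosed Ω] (hG : IsGauss k y)
    (hd : DenseRat k y) : algebraicClosure k E = ⊥ := by
  rw [eq_bot_iff]
  intro c hc
  rw [mem_algebraicClosure_iff] at hc
  have hc' : IsAlgebraic k (algebraMap E Ω c) := hc.algebraMap
  set F : IntermediateField k Ω := algebraicClosure k Ω with hF
  have key : ∀ ε : ℝ, 0 < ε → ∃ a : k, ‖c - algebraMap k E a‖ < ε := by
    intro ε hε
    obtain ⟨f, g, hg, hfg⟩ := hd c ε hε
    have hgy := hG.aeval_ne_zero hg
    set c' : F := ⟨algebraMap E Ω c, mem_algebraicClosure_iff.2 hc'⟩ with hc'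
    set h : F[X] := C c' * g.map (algebraMap k F) - f.map (algebraMap k F) with hh
    have h1 := gauss_alg (isGauss_map (Ω := Ω) hG) F h
    have h2 : aeval (algebraMap E Ω y) h = algebraMap E Ω (c * aeval y g - aeval y f) := by
      rw [hh, map_sub, map_mul, aeval_C, aeval_map_algebraMap, aeval_map_algebraMap, map_sub,
        map_mul, aeval_algebraMap_apply, aeval_algebraMap_apply]
      rfl
    have h3 : ‖c * aeval y g - aeval y f‖ < ε * ‖aeval y g‖ := by
      have e : c * aeval y g - aeval y f = (c - aeval y f / aeval y g) * aeval y g := by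
        field_simp
      rw [e, norm_mul]
      exact mul_lt_mul_of_pos_right hfg (norm_pos_iff.2 hgy)
    rw [h2, norm_algebraMap'] at h1
    have h4 : ‖aeval y g‖ = gn g := gn_eq_of_isGauss hG g
    obtain ⟨i, hi⟩ := exists_gn g
    have hgi : g.coeff i ≠ 0 := by
      intro h0
      rw [h0, norm_zero] at hi
      rw [hi, norm_eq_zero] at h4
      exact hgy h4
    have h5 : ‖h.coeff i‖ < ε * ‖g.coeff i‖ := by
      refine lt_of_le_of_lt (coeff_le_gn h i) ?_
      rw [← h1, ← hi, ← h4]
      exact h3
    have h6 : ((h.coeff i : F) : Ω) = algebraMap E Ω (c * algebraMap k E (g.coeff i) -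
        algebraMap k E (f.coeff i)) := by
      rw [hh, coeff_sub, coeff_C_mul, coeff_map, coeff_map, map_sub, map_mul,
        ← IsScalarTower.algebraMap_apply, ← IsScalarTower.algebraMap_apply]
      rfl
    have h7 : ‖h.coeff i‖ = ‖c * algebraMap k E (g.coeff i) - algebraMap k E (f.coeff i)‖ := by
      rw [← norm_algebraMap' Ω (c * algebraMap k E (g.coeff i) - algebraMap k E (f.coeff i)), ← h6]
      rfl
    refine ⟨f.coeff i / g.coeff i, ?_⟩
    have hgi' : algebraMap k E (g.coeff i) ≠ 0 := by simpa using hgi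
    have e : c - algebraMap k E (f.coeff i / g.coeff i) =
        (c * algebraMap k E (g.coeff i) - algebraMap k E (f.coeff i)) /
          algebraMap k E (g.coeff i) := by
      rw [map_div₀]; field_simp
    rw [e, norm_div, norm_algebraMap', div_lt_iff₀ (norm_pos_iff.2 hgi), ← h7]
    exact h5
  have hcl : IsClosed (Set.range (algebraMap k E)) :=
    (algebraMap_isometry k E).isClosedEmbedding.isClosed_range
  have hmem : c ∈ closure (Set.range (algebraMap k E)) := by
    rw [Metric.mem_closure_iff]
    intro ε hε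
    obtain ⟨a, ha⟩ := key ε hε
    exact ⟨_, ⟨a, rfl⟩, by rw [dist_eq_norm]; exact ha⟩
  rw [hcl.closure_eq] at hmem
  exact IntermediateField.mem_bot.2 hmem

/-! ### finite levels -/

variable (E) in
/-- `E k'` as a normed algebra over `k'`. -/
noncomputable instance levNA (k' : IntermediateField k Ω) : NormedAlgebra k' (lev E Ω k') :=
  { levAlg E Ω k' with
    norm_smul_le := fun c x => by
      rw [Algebra.smul_def, norm_mul]
      rfl }

theorem ce_E (hG : IsGauss k y) (hd : DenseRat k y) (k' : IntermediateField k Ω)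
    [Algebra.IsAlgebraic k k'] : CE k k' E (lev E Ω k') :=
  ce_inside k E (algClosed_in Ω hG hd) k'

theorem finite_E (hG : IsGauss k y) (hd : DenseRat k y) (k' : IntermediateField k Ω)
    [FiniteDimensional k k'] : FiniteDimensional E (lev E Ω k') := by
  haveI := ce_E hG hd k'
  exact Module.Finite.of_basis (basisR k k' E (lev E Ω k') (Module.finBasis k k'))

theorem complete_E [CompleteSpace E] (hG : IsGauss k y) (hd : DenseRat k y)
    (k' : IntermediateField k Ω) [FiniteDimensional k k'] : CompleteSpace (lev E Ω k') := by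
  haveI := finite_E hG hd k'
  letI : NontriviallyNormedField E :=
    { (inferInstance : NormedField E) with
      non_trivial := by
        obtain ⟨a, ha⟩ := NormedField.exists_one_lt_norm k
        exact ⟨algebraMap k E a, by rw [norm_algebraMap']; exact ha⟩ }
  exact FiniteDimensional.complete E (lev E Ω k')

theorem complete_k (k' : IntermediateField k Ω) [FiniteDimensional k k'] : CompleteSpace k' :=
  FiniteDimensional.complete k k'

theorem proper_k [ProperSpace k] (k' : IntermediateField k Ω) [FiniteDimensional k k'] :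
    ProperSpace k' := FiniteDimensional.proper k k'

/-- `k'` is nontrivially normed -/
@[reducible] def nnK (k' : IntermediateField k Ω) : NontriviallyNormedField k' :=
  { (inferInstance : NormedField k') with
    non_trivial := by
      obtain ⟨a, ha⟩ := NormedField.exists_one_lt_norm k
      exact ⟨algebraMap k k' a, by rw [norm_algebraMap']; exact ha⟩ }

theorem exists_unif_k [ProperSpace k] (k' : IntermediateField k Ω) [FiniteDimensional k k'] :
    ∃ π' : k', IsUnif π' := by
  letI := nnK k'
  haveI := proper_k k'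
  exact exists_unif k'

/-- `y` in the level `k'` -/
noncomputable def yl (y : E) (k' : IntermediateField k Ω) : lev E Ω k' := algebraMap E (lev E Ω k') y

theorem coe_yl (y : E) (k' : IntermediateField k Ω) : ((yl y k' : lev E Ω k') : Ω) =
    algebraMap E Ω y := rfl

theorem coe_aeval_lev (y : E) (k' : IntermediateField k Ω) (f : k'[X]) :
    ((aeval (yl y k') f : lev E Ω k') : Ω) = aeval (algebraMap E Ω y) f := by
  have h := aeval_algebraMap_apply Ω (yl y k') f
  have e : algebraMap (lev E Ω k') Ω (yl y k') = algebraMap E Ω y := rfl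
  rw [e] at h
  exact h.symm

/-- **The Gauss norm at the level `k'`.** -/
theorem isGauss_lev (hG : IsGauss k y) (k' : IntermediateField k Ω) [Algebra.IsAlgebraic k k'] :
    IsGauss k' (yl y k') where
  norm_le := by
    change ‖((yl y k' : lev E Ω k') : Ω)‖ ≤ 1
    rw [coe_yl, norm_algebraMap']; exact hG.norm_le
  coeff_le f i := by
    change _ ≤ ‖((aeval (yl y k') f : lev E Ω k') : Ω)‖
    rw [coe_aeval_lev, gauss_alg (isGauss_map hG) k' f]
    exact coeff_le_gn f i

/-- the embedding `E → E'` is isometric -/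
theorem norm_algMap_lev (k' : IntermediateField k Ω) (z : E) :
    ‖algebraMap E (lev E Ω k') z‖ = ‖z‖ := norm_algebraMap' _ z

theorem aeval_yl (y : E) (k' : IntermediateField k Ω) (f : k[X]) :
    aeval (yl y k') (f.map (algebraMap k k')) = algebraMap E (lev E Ω k') (aeval y f) := by
  apply Subtype.ext
  rw [coe_aeval_lev, aeval_map_algebraMap]
  change _ = algebraMap E Ω (aeval y f)
  rw [aeval_algebraMap_apply]

/-- elements approximated by rational functions -/
theorem dense_lev (hG : IsGauss k y) (hd : DenseRat k y) (k' : IntermediateField k Ω)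
    [Algebra.IsAlgebraic k k'] : DenseRat k' (yl y k') := by
  haveI := ce_E hG hd k'
  have hG' := isGauss_lev hG k'
  -- the set of limits of rational functions is closed under addition and multiplication by constants
  have hadd : ∀ x x' : lev E Ω k',
      (∀ ε : ℝ, 0 < ε → ∃ f g : k'[X], g ≠ 0 ∧ ‖x - aeval (yl y k') f / aeval (yl y k') g‖ < ε) →
      (∀ ε : ℝ, 0 < ε → ∃ f g : k'[X], g ≠ 0 ∧ ‖x' - aeval (yl y k') f / aeval (yl y k') g‖ < ε) →
      ∀ ε : ℝ, 0 < ε → ∃ f g : k'[X], g ≠ 0 ∧
        ‖x + x' - aeval (yl y k') f / aeval (yl y k') g‖ < ε := by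
    intro x x' hx hx' ε hε
    obtain ⟨f, g, hg, h1⟩ := hx ε hε
    obtain ⟨f', g', hg', h1'⟩ := hx' ε hε
    refine ⟨f * g' + g * f', g * g', mul_ne_zero hg hg', ?_⟩
    have e : x + x' - aeval (yl y k') (f * g' + g * f') / aeval (yl y k') (g * g') =
        (x - aeval (yl y k') f / aeval (yl y k') g) +
          (x' - aeval (yl y k') f' / aeval (yl y k') g') := by
      have n1 := hG'.aeval_ne_zero hg
      have n2 := hG'.aeval_ne_zero hg'
      rw [map_add, map_mul, map_mul, map_mul]
      field_simp
      ring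
    rw [e]
    exact (nadd _ _).trans_lt (max_lt h1 h1')
  intro x
  obtain ⟨n, c, e, hx⟩ := exists_sum k k' E (lev E Ω k') x
  rw [hx]
  refine Finset.sum_induction _ (fun x => ∀ ε : ℝ, 0 < ε → ∃ f g : k'[X], g ≠ 0 ∧
    ‖x - aeval (yl y k') f / aeval (yl y k') g‖ < ε) hadd ?_ ?_
  · intro ε hε
    exact ⟨0, 1, one_ne_zero, by simpa using hε⟩
  · intro i _ ε hε
    obtain ⟨B, hB0, hB⟩ : ∃ B : ℝ, 0 < B ∧ ‖algebraMap k' (lev E Ω k') (c i)‖ ≤ B :=
      ⟨‖algebraMap k' (lev E Ω k') (c i)‖ + 1, by positivity, by linarith⟩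
    obtain ⟨f, g, hg, h1⟩ := hd (e i) (ε / B) (div_pos hε hB0)
    refine ⟨C (c i) * f.map (algebraMap k k'), g.map (algebraMap k k'), ?_, ?_⟩
    · rw [Ne, Polynomial.map_eq_zero]; exact hg
    · rw [map_mul, aeval_C, aeval_yl, aeval_yl, mul_div_assoc, ← mul_sub, ← map_div₀, ← map_sub,
        norm_mul, norm_algMap_lev]
      calc _ ≤ B * ‖e i - aeval y f / aeval y g‖ := by gcongr
        _ < B * (ε / B) := by gcongr
        _ = ε := by field_simp

end setup

end Crest.Agent.R013.LemC623
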