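import Mathlib
import Crest.Agent.R013.Rk2b_894
import Crest.Agent.R013.A2a_275

-- ▼ part R013/FKS_48
section

set_option autoImplicit false

open Polynomial Filter Topology
open scoped NNReal

namespace Crest.Agent.R013.FKS_48

section approx

variable {F : Type*} [Field F]

/-- inequivalent rank one valuations: an element small for the first and at least one for the second -/
theorem exists_lt_one_le (w₁ w₂ : Valuation F ℝ≥0) (nt₁ : ∃ a, a ≠ 0 ∧ w₁ a ≠ 1)
    (hne : ¬ w₁.IsEquiv w₂) : ∃ a, a ≠ 0 ∧ w₁ a < 1 ∧ 1 ≤ w₂ a := by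
  by_contra hcon
  push Not at hcon
  apply hne
  -- `w₁ a < 1 → w₂ a < 1`
  have h1 : ∀ a, a ≠ 0 → w₁ a < 1 → w₂ a < 1 := hcon
  -- an element with `w₁ b < 1`
  obtain ⟨b, hb0, hb⟩ : ∃ b, b ≠ 0 ∧ w₁ b < 1 := by
    obtain ⟨a, ha0, ha⟩ := nt₁
    rcases lt_or_gt_of_ne ha with h | h
    · exact ⟨a, ha0, h⟩
    · refine ⟨a⁻¹, inv_ne_zero ha0, ?_⟩
      rw [map_inv₀]
      exact inv_lt_one_of_one_lt₀ h
  have hb2 := h1 b hb0 hb
  have hwb1 : 0 < w₁ b := by
    rw [pos_iff_ne_zero]
    exact (Valuation.ne_zero_iff _).2 hb0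
  have hwb2 : 0 < w₂ b := by
    rw [pos_iff_ne_zero]
    exact (Valuation.ne_zero_iff _).2 hb0
  rw [Valuation.isEquiv_iff_val_lt_one]
  intro x
  rcases eq_or_ne x 0 with rfl | hx
  · simp
  refine ⟨h1 x hx, fun h => ?_⟩
  by_contra h3
  push Not at h3
  -- `w₁ x ≥ 1`, `w₂ x < 1`: `x⁻¹` has `w₁ ≤ 1`; consider `b * x⁻ⁿ`
  have hwx2 : 0 < w₂ x := by
    rw [pos_iff_ne_zero]
    exact (Valuation.ne_zero_iff _).2 hx
  obtain ⟨n, hn⟩ : ∃ n : ℕ, (w₂ x) ^ n < w₂ b := exists_pow_lt_of_lt_one hwb2 h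
  have h4 : w₁ (b * (x⁻¹) ^ n) < 1 := by
    rw [map_mul, map_pow, map_inv₀]
    calc w₁ b * (w₁ x)⁻¹ ^ n ≤ w₁ b * 1 := by
          gcongr
          exact pow_le_one₀ (by positivity) (inv_le_one_of_one_le₀ h3)
      _ < 1 := by rwa [mul_one]
  have h5 := h1 _ (mul_ne_zero hb0 (pow_ne_zero _ (inv_ne_zero hx))) h4
  rw [map_mul, map_pow, map_inv₀, inv_pow] at h5
  rw [← div_eq_mul_inv, div_lt_one (by positivity)] at h5
  exact absurd h5 (not_lt.2 hn.le)

end approx

section action

variable {Ω : Type*} [Field Ω] {H : Type*} [Group H] [MulSemiringAction H Ω]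

/-- invariant version of `exists_lt_one_le` -/
theorem exists_fixed_lt_one_le (hfin : ∀ a : Ω, (MulAction.orbit H a).Finite)
    (w₁ w₂ : Valuation Ω ℝ≥0) (h₁ : ∀ (σ : H) a, w₁ (σ • a) = w₁ a)
    (h₂ : ∀ (σ : H) a, w₂ (σ • a) = w₂ a) (nt₁ : ∃ a, a ≠ 0 ∧ w₁ a ≠ 1)
    (hne : ¬ w₁.IsEquiv w₂) : ∃ a, a ≠ 0 ∧ (∀ σ : H, σ • a = a) ∧ w₁ a < 1 ∧ 1 ≤ w₂ a := by
  obtain ⟨a, ha0, ha1, ha2⟩ := exists_lt_one_le w₁ w₂ nt₁ hne
  have hn : ∀ b ∈ (hfin a).toFinset, b ≠ 0 ∧ w₁ b = w₁ a ∧ w₂ b = w₂ a := by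
    intro b hb
    rw [Set.Finite.mem_toFinset] at hb
    obtain ⟨σ, rfl⟩ := hb
    exact ⟨by
      intro h
      apply ha0
      have := congrArg (fun z => σ⁻¹ • z) h
      simpa using this, h₁ σ a, h₂ σ a⟩
  have hcard : (hfin a).toFinset.card ≠ 0 := by
    rw [Finset.card_ne_zero]
    exact ⟨a, by
      rw [Set.Finite.mem_toFinset]
      exact MulAction.mem_orbit_self a⟩
  refine ⟨∏ b ∈ (hfin a).toFinset, b, Finset.prod_ne_zero_iff.2 fun b hb => (hn b hb).1, ?_, ?_, ?_⟩
  · intro σ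
    rw [Finset.smul_prod']
    refine Finset.prod_nbij (fun b => σ • b) ?_ ?_ ?_ ?_
    · intro b hb
      rw [Set.Finite.mem_toFinset] at hb ⊢
      exact (MulAction.mem_orbit_iff.2 (by
        obtain ⟨τ, rfl⟩ := hb
        exact ⟨σ * τ, mul_smul σ τ a⟩))
    · intro b _ c _ h
      exact MulAction.injective σ h
    · intro b hb
      rw [Finset.mem_coe, Set.Finite.mem_toFinset] at hb
      obtain ⟨τ, rfl⟩ := hb
      refine ⟨σ⁻¹ • τ • a, ?_, by simp⟩
      rw [Finset.mem_coe, Set.Finite.mem_toFinset]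
      exact ⟨σ⁻¹ * τ, mul_smul _ _ _⟩
    · intro b _
      rfl
  · rw [map_prod, Finset.prod_congr rfl fun b hb => (hn b hb).2.1, Finset.prod_const]
    exact pow_lt_one₀ (by positivity) ha1 hcard
  · rw [map_prod, Finset.prod_congr rfl fun b hb => (hn b hb).2.2, Finset.prod_const]
    exact one_le_pow₀ ha2

/-- the approximation idempotents -/
theorem exists_idem (hfin : ∀ a : Ω, (MulAction.orbit H a).Finite)
    (w₁ w₂ : Valuation Ω ℝ≥0) (h₁ : ∀ (σ : H) a, w₁ (σ • a) = w₁ a)
    (h₂ : ∀ (σ : H) a, w₂ (σ • a) = w₂ a) (nt₁ : ∃ a, a ≠ 0 ∧ w₁ a ≠ 1)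
    (nt₂ : ∃ a, a ≠ 0 ∧ w₂ a ≠ 1) (hne : ¬ w₁.IsEquiv w₂) (ε : ℝ≥0) (hε : 0 < ε) :
    ∃ e : Ω, (∀ σ : H, σ • e = e) ∧ w₁ e < ε ∧ w₂ (1 - e) < ε := by
  obtain ⟨a, ha0, haf, ha1, ha2⟩ := exists_fixed_lt_one_le hfin w₁ w₂ h₁ h₂ nt₁ hne
  obtain ⟨b, hb0, hbf, hb2, hb1⟩ := exists_fixed_lt_one_le hfin w₂ w₁ h₂ h₁ nt₂
    (fun h => hne h.symm)
  have hwb1 : 0 < w₁ b := lt_of_lt_of_le one_pos hb1
  have hwb2 : 0 < w₂ b := by
    rw [pos_iff_ne_zero]
    exact (Valuation.ne_zero_iff _).2 hb0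
  have hwa1 : 0 < w₁ a := by
    rw [pos_iff_ne_zero]
    exact (Valuation.ne_zero_iff _).2 ha0
  set c : Ω := a / b with hc
  have hcf : ∀ σ : H, σ • c = c := by
    intro σ
    rw [hc, div_eq_mul_inv, smul_mul', haf, smul_inv'', hbf]
  have hc1 : w₁ c < 1 := by
    rw [hc, map_div₀, div_lt_one hwb1]
    exact lt_of_lt_of_le ha1 hb1
  have hc2 : 1 < w₂ c := by
    rw [hc, map_div₀, one_lt_div hwb2]
    exact lt_of_lt_of_le hb2 ha2
  obtain ⟨n, hn⟩ : ∃ n : ℕ, (w₁ c) ^ n < ε := exists_pow_lt_of_lt_one hε hc1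
  obtain ⟨m, hm⟩ : ∃ m : ℕ, (w₂ c)⁻¹ ^ m < ε :=
    exists_pow_lt_of_lt_one hε (inv_lt_one_of_one_lt₀ hc2)
  set N := n + m + 1 with hN
  have hc1N : w₁ (c ^ N) < ε := by
    rw [map_pow]
    refine lt_of_le_of_lt ?_ hn
    exact pow_le_pow_of_le_one (by positivity) hc1.le (by omega)
  have hc1N' : w₁ (c ^ N) < 1 := by
    rw [map_pow]
    exact pow_lt_one₀ (by positivity) hc1 (by omega)
  have hc2N : 1 < w₂ (c ^ N) := by
    rw [map_pow]
    exact one_lt_pow₀ hc2 (by omega)
  have hd1 : w₁ (1 + c ^ N) = 1 := by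
    rw [Valuation.map_add_eq_of_lt_left _ (by rwa [map_one]), map_one]
  have hd2 : w₂ (1 + c ^ N) = w₂ (c ^ N) := by
    rw [Valuation.map_add_eq_of_lt_right _ (by rwa [map_one])]
  have hd0 : 1 + c ^ N ≠ 0 := by
    intro h
    rw [h, map_zero] at hd1
    exact zero_ne_one hd1
  refine ⟨c ^ N / (1 + c ^ N), ?_, ?_, ?_⟩
  · intro σ
    rw [div_eq_mul_inv, smul_mul', smul_inv'', smul_add, smul_one, smul_pow', hcf]
  · rw [map_div₀, hd1, div_one]
    exact hc1N
  · have h1 : 1 - c ^ N / (1 + c ^ N) = (1 + c ^ N)⁻¹ := by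
      field_simp
      ring
    rw [h1, map_inv₀, hd2, map_pow, ← inv_pow]
    refine lt_of_le_of_lt ?_ hm
    exact pow_le_pow_of_le_one (by positivity) (inv_le_one_of_one_le₀ hc2.le) (by omega)

theorem smul_prod_orbit {a : Ω} (hO : (MulAction.orbit H a).Finite) (σ : H) (z : Ω) :
    ∏ b ∈ hO.toFinset, (σ • z - b) = σ • ∏ b ∈ hO.toFinset, (z - b) := by
  rw [Finset.smul_prod']
  symm
  refine Finset.prod_nbij (fun b => σ • b) ?_ ?_ ?_ ?_
  · intro b hb
    rw [Set.Finite.mem_toFinset] at hb ⊢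
    obtain ⟨τ, rfl⟩ := hb
    exact ⟨σ * τ, mul_smul σ τ a⟩
  · intro b _ c _ h
    exact MulAction.injective σ h
  · intro b hb
    rw [Finset.mem_coe, Set.Finite.mem_toFinset] at hb
    obtain ⟨τ, rfl⟩ := hb
    refine ⟨σ⁻¹ • τ • a, ?_, by simp⟩
    rw [Finset.mem_coe, Set.Finite.mem_toFinset]
    exact ⟨σ⁻¹ * τ, mul_smul _ _ _⟩
  · intro b _
    rw [smul_sub]

/-- a lower bound for the distances in a finite set -/
theorem exists_sep (w : Valuation Ω ℝ≥0) (A : Finset Ω) :
    ∃ ρ : ℝ≥0, 0 < ρ ∧ ∀ b ∈ A, ∀ c ∈ A, w (b - c) < ρ → b = c := by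
  classical
  set P := ((A ×ˢ A).filter fun q => q.1 ≠ q.2).image fun q => w (q.1 - q.2) with hP
  by_cases hne : P.Nonempty
  · refine ⟨P.min' hne, ?_, ?_⟩
    · have h0 : ∀ t ∈ P, 0 < t := by
        intro t ht
        rw [hP, Finset.mem_image] at ht
        obtain ⟨q, hq, h2⟩ := ht
        rw [← h2, pos_iff_ne_zero]
        rw [Finset.mem_filter] at hq
        exact (Valuation.ne_zero_iff _).2 (sub_ne_zero.2 hq.2)
      exact h0 _ (Finset.min'_mem P hne)
    · intro b hb c hc h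
      by_contra hbc
      refine absurd (Finset.min'_le P (w (b - c)) ?_) (not_le.2 h)
      rw [hP, Finset.mem_image]
      exact ⟨(b, c), Finset.mem_filter.2 ⟨Finset.mem_product.2 ⟨hb, hc⟩, hbc⟩, rfl⟩
  · refine ⟨1, one_pos, ?_⟩
    intro b hb c hc _
    by_contra hbc
    apply hne
    exact ⟨w (b - c), by
      rw [hP, Finset.mem_image]
      exact ⟨(b, c), Finset.mem_filter.2 ⟨Finset.mem_product.2 ⟨hb, hc⟩, hbc⟩, rfl⟩⟩

/-- a factor of a small product is small -/
theorem exists_root_near [IsAlgClosed Ω] (w : Valuation Ω ℝ≥0) (g : Polynomial Ω) (hg : g.Monic) (z : Ω)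
    {ρ : ℝ≥0} (h : w (g.eval z) < ρ ^ g.natDegree) : ∃ β ∈ g.roots, w (z - β) < ρ := by
  by_contra hcon
  push Not at hcon
  have h1 : g = (g.roots.map fun β => X - C β).prod := by
    have := (IsAlgClosed.splits g).eq_prod_roots
    rw [hg.leadingCoeff, C_1, one_mul] at this
    exact this
  have h2 : g.eval z = (g.roots.map fun β => z - β).prod := by
    conv_lhs => rw [h1]
    rw [eval_multiset_prod, Multiset.map_map]
    simp
  have h3 : Multiset.card g.roots = g.natDegree := (IsAlgClosed.splits g).natDegree_eq_card_roots.symm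
  have h4 : ρ ^ g.natDegree ≤ w (g.eval z) := by
    rw [h2, map_multiset_prod, Multiset.map_map, ← h3]
    have : ∀ s : Multiset Ω, (∀ β ∈ s, ρ ≤ w (z - β)) →
        ρ ^ Multiset.card s ≤ (s.map (⇑w ∘ fun β => z - β)).prod := by
      intro s
      induction s using Multiset.induction_on with
      | empty => intro _; simp
      | cons b s ih =>
        intro hs
        rw [Multiset.card_cons, Multiset.map_cons, Multiset.prod_cons, pow_succ, mul_comm]
        refine mul_le_mul' (hs b (Multiset.mem_cons_self b s)) (ih fun β hβ => hs β ?_)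
        exact Multiset.mem_cons_of_mem hβ
    exact this _ hcon
  exact absurd h (not_lt.2 h4)

/-- **F. K. Schmidt.** -/
theorem fk_schmidt [IsAlgClosed Ω] (hfin : ∀ a : Ω, (MulAction.orbit H a).Finite)
    (w₁ w₂ : Valuation Ω ℝ≥0) (h₁ : ∀ (σ : H) a, w₁ (σ • a) = w₁ a)
    (h₂ : ∀ (σ : H) a, w₂ (σ • a) = w₂ a) (nt₁ : ∃ a, a ≠ 0 ∧ w₁ a ≠ 1)
    (nt₂ : ∃ a, a ≠ 0 ∧ w₂ a ≠ 1) (hne : ¬ w₁.IsEquiv w₂) (σ : H) (α : Ω) : σ • α = α := by
  classical
  set O := (hfin α).toFinset with hO
  have hαO : α ∈ O := by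
    rw [hO, Set.Finite.mem_toFinset]
    exact MulAction.mem_orbit_self α
  set n := O.card with hn
  -- the points `c i`
  obtain ⟨a, ha0, haf, ha1, -⟩ := exists_fixed_lt_one_le hfin w₁ w₂ h₁ h₂ nt₁ hne
  have hwa : 0 < w₁ a := by
    rw [pos_iff_ne_zero]
    exact (Valuation.ne_zero_iff _).2 ha0
  have hcinj : Function.Injective (fun i : ℕ => a ^ i) := by
    intro i j hij
    have h := congrArg w₁ hij
    simp only [map_pow] at h
    exact pow_right_injective₀ hwa ha1.ne h
  set A : Finset Ω := (Finset.range n).image fun i => a ^ i with hA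
  have hAcard : A.card = n := by
    rw [hA, Finset.card_image_of_injective _ hcinj, Finset.card_range]
  have hAf : ∀ c ∈ A, ∀ τ : H, τ • c = c := by
    intro c hc τ
    rw [hA, Finset.mem_image] at hc
    obtain ⟨i, -, rfl⟩ := hc
    rw [smul_pow', haf]
  obtain ⟨ρ₁, hρ₁, hs₁⟩ := exists_sep w₁ O
  obtain ⟨ρ₂, hρ₂, hs₂⟩ := exists_sep w₂ A
  -- bounds
  set B₁ : ℝ≥0 := w₁ (∏ c ∈ A, (α - c)) + 1 with hB₁
  set B₂ : ℝ≥0 := (∑ c ∈ A, w₂ (∏ b ∈ O, (c - b))) + 1 with hB₂
  have hB₁p : 0 < B₁ := by positivity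
  have hB₂p : 0 < B₂ := by positivity
  set ε : ℝ≥0 := min (ρ₁ ^ n / B₁) (ρ₂ ^ n / B₂) with hε
  have hεp : 0 < ε := by
    rw [hε, lt_min_iff]
    exact ⟨by positivity, by positivity⟩
  obtain ⟨e, hef, he1, he2⟩ := exists_idem hfin w₁ w₂ h₁ h₂ nt₁ nt₂ hne ε hεp
  -- the polynomial
  set f : Polynomial Ω := ∏ b ∈ O, (X - C b) with hf
  set h : Polynomial Ω := ∏ c ∈ A, (X - C c) with hh
  have hfm : f.Monic := monic_prod_of_monic _ _ fun b _ => monic_X_sub_C b
  have hhm : h.Monic := monic_prod_of_monic _ _ fun b _ => monic_X_sub_C b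
  have hfd : f.natDegree = n := by
    rw [hf, natDegree_prod_of_monic _ _ fun b _ => monic_X_sub_C b]
    simp [hn]
  have hhd : h.natDegree = n := by
    rw [hh, natDegree_prod_of_monic _ _ fun b _ => monic_X_sub_C b]
    simp [hAcard]
  set g : Polynomial Ω := f + C e * (h - f) with hg
  have hdeg : (C e * (h - f)).degree < f.degree := by
    have h0 : (C e * (h - f)).degree ≤ (h - f).degree := by
      calc (C e * (h - f)).degree ≤ (C e).degree + (h - f).degree := degree_mul_le _ _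
        _ ≤ 0 + (h - f).degree := by
            gcongr
            exact degree_C_le
        _ = (h - f).degree := zero_add _
    refine lt_of_le_of_lt h0 ?_
    have h3 : h.degree = f.degree := by
      rw [degree_eq_natDegree hhm.ne_zero, degree_eq_natDegree hfm.ne_zero, hfd, hhd]
    rw [← h3]
    exact degree_sub_lt_left h3 hhm.ne_zero (by rw [hfm.leadingCoeff, hhm.leadingCoeff])
  have hgm : g.Monic := hfm.add_of_left hdeg
  have hgd : g.natDegree = n := by
    rw [hg, natDegree_add_eq_left_of_degree_lt hdeg, hfd]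
  have hfe : ∀ z, f.eval z = ∏ b ∈ O, (z - b) := fun z => by
    rw [hf, eval_prod]
    simp
  have hhe : ∀ z, h.eval z = ∏ c ∈ A, (z - c) := fun z => by
    rw [hh, eval_prod]
    simp
  have hge : ∀ z, g.eval z = f.eval z + e * (h.eval z - f.eval z) := fun z => by
    rw [hg]
    simp
  -- invariance
  have hfσ : ∀ (τ : H) z, f.eval (τ • z) = τ • f.eval z := fun τ z => by
    rw [hfe, hfe]
    exact smul_prod_orbit (hfin α) τ z
  have hhσ : ∀ (τ : H) z, h.eval (τ • z) = τ • h.eval z := fun τ z => by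
    rw [hhe, hhe, Finset.smul_prod']
    refine Finset.prod_congr rfl fun c hc => ?_
    rw [smul_sub, hAf c hc]
  have hgσ : ∀ (τ : H) z, g.eval (τ • z) = τ • g.eval z := fun τ z => by
    rw [hge, hge, hfσ, hhσ, smul_add, smul_mul', hef, smul_sub]
  -- a root near α
  have hfα : f.eval α = 0 := by
    rw [hfe]
    exact Finset.prod_eq_zero hαO (sub_self α)
  obtain ⟨β, hβ, hβα⟩ : ∃ β ∈ g.roots, w₁ (α - β) < ρ₁ := by
    apply exists_root_near w₁ g hgm α
    rw [hgd, hge, hfα, zero_add, sub_zero, map_mul, hhe]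
    have h3 : w₁ (∏ c ∈ A, (α - c)) < B₁ := by
      rw [hB₁]
      exact lt_add_one _
    calc w₁ e * w₁ (∏ c ∈ A, (α - c)) ≤ ε * w₁ (∏ c ∈ A, (α - c)) := by gcongr
      _ < ε * B₁ := by gcongr
      _ ≤ ρ₁ ^ n / B₁ * B₁ := by
          gcongr
          exact min_le_left _ _
      _ = ρ₁ ^ n := div_mul_cancel₀ _ hB₁p.ne'
  -- roots near the `c`
  have hnear : ∀ c ∈ A, ∃ β ∈ g.roots, w₂ (c - β) < ρ₂ := by
    intro c hc
    apply exists_root_near w₂ g hgm c
    have hhc : h.eval c = 0 := by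
      rw [hhe]
      exact Finset.prod_eq_zero hc (sub_self c)
    have h3 : g.eval c = (1 - e) * f.eval c := by
      rw [hge, hhc]
      ring
    rw [hgd, h3, map_mul, hfe]
    have h4 : w₂ (∏ b ∈ O, (c - b)) < B₂ := by
      rw [hB₂]
      refine lt_of_le_of_lt ?_ (lt_add_one _)
      exact Finset.single_le_sum (f := fun c => w₂ (∏ b ∈ O, (c - b))) (fun i _ => bot_le) hc
    calc w₂ (1 - e) * w₂ (∏ b ∈ O, (c - b)) ≤ ε * w₂ (∏ b ∈ O, (c - b)) := by gcongr
      _ < ε * B₂ := by gcongr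
      _ ≤ ρ₂ ^ n / B₂ * B₂ := by
          gcongr
          exact min_le_right _ _
      _ = ρ₂ ^ n := div_mul_cancel₀ _ hB₂p.ne'
  choose! r hr1 hr2 using hnear
  have hult : ∀ c ∈ A, ∀ c' ∈ A, ∀ z, w₂ (c - z) < ρ₂ → w₂ (c' - z) < ρ₂ → c = c' := by
    intro c hc c' hc' z h3 h4
    apply hs₂ c hc c' hc'
    have : c - c' = (c - z) - (c' - z) := by ring
    rw [this]
    exact lt_of_le_of_lt (Valuation.map_sub _ _ _) (max_lt h3 h4)
  have hinj : Set.InjOn r A := by
    intro c hc c' hc' hcc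
    refine hult c hc c' hc' (r c) (hr2 c hc) ?_
    rw [hcc]
    exact hr2 c' hc'
  have himg : A.image r = g.roots.toFinset := by
    apply Finset.eq_of_subset_of_card_le
    · intro z hz
      rw [Finset.mem_image] at hz
      obtain ⟨c, hc, rfl⟩ := hz
      rw [Multiset.mem_toFinset]
      exact hr1 c hc
    · rw [Finset.card_image_of_injOn hinj, hAcard]
      calc g.roots.toFinset.card ≤ Multiset.card g.roots := Multiset.toFinset_card_le _
        _ ≤ g.natDegree := card_roots' g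
        _ = n := hgd
  -- every root is fixed
  have hfixed : ∀ z ∈ g.roots, ∀ τ : H, τ • z = z := by
    intro z hz τ
    have hz1 : z ∈ A.image r := by
      rw [himg, Multiset.mem_toFinset]
      exact hz
    have hz2 : τ • z ∈ A.image r := by
      rw [himg, Multiset.mem_toFinset, mem_roots hgm.ne_zero, IsRoot.def, hgσ]
      rw [mem_roots hgm.ne_zero, IsRoot.def] at hz
      rw [hz, smul_zero]
    rw [Finset.mem_image] at hz1 hz2
    obtain ⟨c, hc, hcz⟩ := hz1
    obtain ⟨c', hc', hcz'⟩ := hz2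
    have h3 : w₂ (c - τ • z) < ρ₂ := by
      have h5 : c - τ • z = τ • (c - z) := by rw [smul_sub, hAf c hc]
      rw [h5, h₂, ← hcz]
      exact hr2 c hc
    have h4 : w₂ (c' - τ • z) < ρ₂ := by
      rw [← hcz']
      exact hr2 c' hc'
    have hcc := hult c hc c' hc' (τ • z) h3 h4
    rw [← hcz', ← hcc, hcz]
  have hβf := hfixed β hβ σ
  apply hs₁
  · rw [hO, Set.Finite.mem_toFinset]
    exact ⟨σ, rfl⟩
  · exact hαO
  · have h3 : w₁ (σ • α - β) < ρ₁ := by
      have h5 : σ • α - β = σ • (α - β) := by rw [smul_sub, hβf]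
      rw [h5, h₁]
      exact hβα
    have : σ • α - α = (σ • α - β) - (α - β) := by ring
    rw [this]
    exact lt_of_le_of_lt (Valuation.map_sub _ _ _) (max_lt h3 hβα)

end action

end Crest.Agent.R013.FKS_48
end

-- ▼ part R013/Rk2c_894
section

/-!
R013 / A-RK2, part 3 (helper894): residual valuations of rank one and F. K. Schmidt's theorem on the
residue field of a norm.
-/

set_option autoImplicit false

namespace Crest.Agent.R013.Rk2_894

open scoped NNReal
open WithZero Valuation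

theorem exists_hom_nnreal (Γ₀ : Type*) [LinearOrderedCommGroupWithZero Γ₀] [MulArchimedean Γ₀] :
    ∃ f : Γ₀ →*₀ ℝ≥0, StrictMono f := by
  obtain ⟨f, hf⟩ :=
    Archimedean.exists_orderAddMonoidHom_real_injective (Additive Γ₀ˣ)
  let e := AddMonoidHom.toMultiplicativeRight (α := Γ₀ˣ) (β := ℝ) f
  have he : StrictMono e := by
    simp only [AddMonoidHom.coe_toMultiplicativeRight, AddMonoidHom.coe_coe, e]
    exact StrictMono.comp strictMono_id (f.monotone'.strictMono_of_injective hf)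
  let rf : Multiplicative ℝ →* ℝ≥0ˣ := {
    toFun x := Units.mk0 (.mk ((2 : ℝ) ^ (log (M := ℝ) x)) (by positivity)) <| by
      simp only [ne_eq, NNReal.eq_iff, NNReal.coe_mk, NNReal.coe_zero]
      positivity
    map_one' := by ext; simp
    map_mul' _ _ := by ext; simp [Real.rpow_add]
    }
  have H : StrictMono (map' (rf.comp e)) := by
    refine map'_strictMono ?_
    intro a b h
    simpa [← Units.val_lt_val, ← NNReal.coe_lt_coe, rf] using he h
  exact ⟨withZeroUnitsEquiv.toMonoidWithZeroHom.comp <| (map' (rf.comp e)).comp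
      withZeroUnitsEquiv.symm.toMonoidWithZeroHom,
    withZeroUnitsEquiv_strictMono.comp <| H.comp
      withZeroUnitsEquiv_symm_strictMono⟩

theorem arch_of_unif {k : Type*} [Field k] {Γ : Type*} [LinearOrderedCommGroupWithZero Γ]
    (v : Valuation k Γ) (hsurj : Function.Surjective v) (c : k) (hc0 : c ≠ 0) (hc : v c < 1)
    (h : ∀ e : k, e ≠ 0 → ∃ m : ℕ, 0 < m ∧ ∃ n : ℤ, v (e ^ m * c ^ n) = 1) : MulArchimedean Γ := by
  refine ⟨fun x y hy => ?_⟩
  obtain ⟨a, rfl⟩ := hsurj x
  obtain ⟨b, rfl⟩ := hsurj y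
  rcases le_or_gt (v a) 1 with ha | ha
  · exact ⟨0, by simpa using ha⟩
  have ha0 : a ≠ 0 := by
    rintro rfl
    simp at ha
  have hb0 : b ≠ 0 := by
    rintro rfl
    simp at hy
  obtain ⟨m, hm, n, hmn⟩ := h a ha0
  obtain ⟨m', hm', n', hmn'⟩ := h b hb0
  have hvc : v c ≠ 0 := (Valuation.ne_zero_iff v).2 hc0
  set g : Γ := (v c)⁻¹ with hg
  have hg1 : 1 < g := (one_lt_inv₀ (zero_lt_iff.2 hvc)).2 hc
  have hg0 : g ≠ 0 := ne_of_gt (lt_trans zero_lt_one hg1)
  have key : ∀ (d : k) (i : ℕ) (j : ℤ), v (d ^ i * c ^ j) = 1 → v d ^ i = g ^ j := by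
    intro d i j hd
    rw [map_mul, map_pow, map_zpow₀] at hd
    rw [hg, inv_zpow]
    exact eq_inv_of_mul_eq_one_left hd
  have h1 := key a m n hmn
  have h2 := key b m' n' hmn'
  have hn' : 0 < n' := by
    have h3 : 1 < g ^ n' := by
      rw [← h2]
      exact one_lt_pow₀ hy hm'.ne'
    rw [← zpow_zero g] at h3
    exact (zpow_lt_zpow_iff_right₀ hg1).1 h3
  refine ⟨m' * n.toNat, ?_⟩
  calc v a ≤ v a ^ m := le_self_pow₀ ha.le hm.ne'
    _ = g ^ n := h1
    _ ≤ g ^ (n' * (n.toNat : ℤ)) := by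
        refine zpow_le_zpow_right₀ hg1.le ?_
        have := Int.self_le_toNat n
        nlinarith [Int.natCast_nonneg n.toNat]
    _ = v b ^ (m' * n.toNat) := by
        rw [pow_mul, h2, zpow_mul, zpow_natCast]

section Residual

variable {M : Type*} [Field M] (w : Valuation M ℝ≥0)

theorem mem_of_lt (A : ValuationSubring M) (hA : A ≤ w.valuationSubring) {x : M} (hx : w x < 1) :
    x ∈ A := by
  by_contra h
  have h1 : x⁻¹ ∈ A := (A.mem_or_inv_mem x).resolve_left h
  have h2 : w x⁻¹ ≤ 1 := (w.mem_valuationSubring_iff _).1 (hA h1)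
  have hx0 : x ≠ 0 := by
    rintro rfl
    exact h A.zero_mem
  have hwx : w x ≠ 0 := (Valuation.ne_zero_iff w).2 hx0
  rw [map_inv₀] at h2
  exact absurd hx (not_lt.2 ((inv_le_one₀ (zero_lt_iff.2 hwx)).1 h2))

/-- the residual valuation ring -/
noncomputable def resVR (A : ValuationSubring M) (hA : A ≤ w.valuationSubring) :
    ValuationSubring (IsLocalRing.ResidueField w.valuationSubring) where
  toSubring := (A.toSubring.comap w.valuationSubring.subtype).map
    (IsLocalRing.residue w.valuationSubring)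
  mem_or_inv_mem' := by
    intro e
    obtain ⟨z, rfl⟩ := IsLocalRing.residue_surjective e
    rcases A.mem_or_inv_mem (z : M) with h | h
    · exact Or.inl ⟨z, h, rfl⟩
    · right
      by_cases hz : IsLocalRing.residue w.valuationSubring z = 0
      · rw [hz, inv_zero]
        exact ((A.toSubring.comap w.valuationSubring.subtype).map
          (IsLocalRing.residue w.valuationSubring)).zero_mem
      refine ⟨⟨(z : M)⁻¹, hA h⟩, h, ?_⟩
      apply eq_inv_of_mul_eq_one_left
      rw [← map_mul]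
      have hz0 : (z : M) ≠ 0 := by
        intro h0
        apply hz
        rw [show z = 0 from Subtype.ext h0, map_zero]
      have : (⟨(z : M)⁻¹, hA h⟩ : w.valuationSubring) * z = 1 :=
        Subtype.ext (inv_mul_cancel₀ hz0)
      rw [this, map_one]

theorem residue_mem_resVR {A : ValuationSubring M} {hA : A ≤ w.valuationSubring}
    (z : w.valuationSubring) :
    IsLocalRing.residue w.valuationSubring z ∈ resVR w A hA ↔ (z : M) ∈ A := by
  constructor
  · rintro ⟨z', hz', h⟩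
    have h1 : z' - z ∈ IsLocalRing.maximalIdeal w.valuationSubring := by
      rw [← IsLocalRing.residue_eq_zero_iff, _root_.map_sub, h, sub_self]
    have h2 : w ((z' - z : w.valuationSubring) : M) < 1 := by
      have := (w.valuationSubring.valuation_lt_one_iff (z' - z)).1 h1
      rwa [← Valuation.isEquiv_valuation_valuationSubring w |>.lt_one_iff_lt_one] at this
    have h3 : ((z' - z : w.valuationSubring) : M) ∈ A := mem_of_lt w A hA h2
    have h4 : (z : M) = (z' : M) - ((z' - z : w.valuationSubring) : M) := by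
      push_cast; ring
    rw [h4]
    exact sub_mem hz' h3
  · intro h
    exact ⟨z, h, rfl⟩

/-- real valued residual valuation -/
theorem exists_resVal (A : ValuationSubring M) (hA : A ≤ w.valuationSubring) (X : M) (hX : w X = 1)
    (hXA : A.valuation X < 1)
    (hd : ∀ z : M, w z = 1 → ∃ m : ℕ, 0 < m ∧ ∃ n : ℤ, A.valuation (z ^ m * X ^ n) = 1) :
    ∃ u : Valuation (IsLocalRing.ResidueField w.valuationSubring) ℝ≥0,
      ∀ z : w.valuationSubring, u (IsLocalRing.residue _ z) ≤ 1 ↔ (z : M) ∈ A := by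
  classical
  set V := resVR w A hA with hV
  set Xo : w.valuationSubring := ⟨X, by rw [w.mem_valuationSubring_iff, hX]⟩ with hXo
  have hunit : ∀ z : w.valuationSubring, IsLocalRing.residue w.valuationSubring z ≠ 0 ↔
      w (z : M) = 1 := by
    intro z
    have h1 : w (z : M) ≤ 1 := (w.mem_valuationSubring_iff _).1 z.2
    rw [Ne, IsLocalRing.residue_eq_zero_iff]
    have h2 : z ∈ IsLocalRing.maximalIdeal w.valuationSubring ↔ w (z : M) < 1 := by
      rw [w.valuationSubring.valuation_lt_one_iff z,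
        (Valuation.isEquiv_valuation_valuationSubring w).lt_one_iff_lt_one]
    rw [h2, not_lt]
    exact ⟨fun h => le_antisymm h1 h, fun h => h.ge⟩
  -- inverses of residues
  have hinv : ∀ z : w.valuationSubring, w (z : M) = 1 → ∃ z' : w.valuationSubring,
      (z' : M) = (z : M)⁻¹ ∧ IsLocalRing.residue w.valuationSubring z' =
        (IsLocalRing.residue w.valuationSubring z)⁻¹ := by
    intro z hz
    have hz0 : (z : M) ≠ 0 := by
      intro h0; rw [h0, map_zero] at hz; exact zero_ne_one hz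
    have hzi : (z : M)⁻¹ ∈ w.valuationSubring := by
      rw [w.mem_valuationSubring_iff, map_inv₀, hz, inv_one]
    refine ⟨⟨(z : M)⁻¹, hzi⟩, rfl, ?_⟩
    apply eq_inv_of_mul_eq_one_left
    rw [← map_mul, show (⟨(z : M)⁻¹, hzi⟩ : w.valuationSubring) * z = 1 from
        Subtype.ext (inv_mul_cancel₀ hz0), map_one]
  have hle : ∀ z : w.valuationSubring, V.valuation (IsLocalRing.residue _ z) ≤ 1 ↔
      A.valuation (z : M) ≤ 1 := by
    intro z
    rw [V.valuation_le_one_iff, hV, residue_mem_resVR, ← A.valuation_le_one_iff]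
  have hge : ∀ z : w.valuationSubring, w (z : M) = 1 →
      (1 ≤ V.valuation (IsLocalRing.residue _ z) ↔ 1 ≤ A.valuation (z : M)) := by
    intro z hz
    obtain ⟨z', hz', hr⟩ := hinv z hz
    have h1 := hle z'
    have hz0 : (z : M) ≠ 0 := by
      intro h0; rw [h0, map_zero] at hz; exact zero_ne_one hz
    rw [hr, hz', map_inv₀, map_inv₀, inv_le_one₀, inv_le_one₀] at h1
    · exact h1
    · exact zero_lt_iff.2 ((Valuation.ne_zero_iff _).2 hz0)
    · exact zero_lt_iff.2 ((Valuation.ne_zero_iff _).2 ((hunit z).2 hz))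
  have harch : MulArchimedean V.ValueGroup := by
    refine arch_of_unif V.valuation V.valuation_surjective (IsLocalRing.residue _ Xo) ?_ ?_ ?_
    · rw [hunit]; exact hX
    · rw [← not_le, hge Xo hX, not_le]; exact hXA
    · intro e he
      obtain ⟨z, rfl⟩ := IsLocalRing.residue_surjective e
      have hz := (hunit z).1 he
      obtain ⟨m, hm, n, hmn⟩ := hd z hz
      refine ⟨m, hm, n, ?_⟩
      -- the element `z ^ m * X ^ n` of the ring
      have h1 : w ((z : M) ^ m * X ^ n) = 1 := by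
        rw [map_mul, map_pow, map_zpow₀, hz, hX, one_pow, one_zpow, one_mul]
      set y : w.valuationSubring := ⟨(z : M) ^ m * X ^ n, by rw [w.mem_valuationSubring_iff, h1]⟩
        with hy
      have h2 : IsLocalRing.residue w.valuationSubring y =
          IsLocalRing.residue _ z ^ m * IsLocalRing.residue _ Xo ^ n := by
        rcases Int.eq_nat_or_neg n with ⟨j, rfl | rfl⟩
        · rw [zpow_natCast, ← map_pow, ← map_pow, ← map_mul]
          congr 1
          apply Subtype.ext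
          rw [hy]
          push_cast
          rw [zpow_natCast]
        · obtain ⟨X', hX', hr⟩ := hinv Xo hX
          rw [zpow_neg, ← inv_zpow, ← hr, zpow_natCast, ← map_pow, ← map_pow, ← map_mul]
          congr 1
          apply Subtype.ext
          rw [hy]
          push_cast
          rw [hX', zpow_neg, inv_pow, zpow_natCast]
      rw [← h2]
      refine le_antisymm ((hle y).2 hmn.le) ((hge y h1).2 hmn.ge)
  obtain ⟨f, hf⟩ := exists_hom_nnreal V.ValueGroup
  refine ⟨V.valuation.map f hf.monotone, fun z => ?_⟩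
  rw [← residue_mem_resVR w (hA := hA), ← hV, ← V.valuation_le_one_iff, Valuation.map_apply,
    ← map_one f, hf.le_iff_le]

/-- a residual valuation of a `τ`-invariant valuation ring is invariant under the residual action -/
theorem resVal_inv (τ : M ≃+* M) (hw : ∀ a, w (τ a) = w a) (A : ValuationSubring M)
    (hτA : ∀ a, A.valuation (τ a) = A.valuation a)
    (u : Valuation (IsLocalRing.ResidueField w.valuationSubring) ℝ≥0)
    (hu : ∀ z : w.valuationSubring, u (IsLocalRing.residue _ z) ≤ 1 ↔ (z : M) ∈ A)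
    (z z' : w.valuationSubring) (hz : (z' : M) = τ (z : M)) :
    u (IsLocalRing.residue _ z') = u (IsLocalRing.residue _ z) := by
  have hle : ∀ z z' : w.valuationSubring, w (z : M) = 1 → w (z' : M) = 1 →
      A.valuation (z' : M) = A.valuation (z : M) →
      u (IsLocalRing.residue _ z') ≤ u (IsLocalRing.residue _ z) := by
    intro z z' hz1 hz1' hv
    have hz0 : (z : M) ≠ 0 := by
      intro h0; rw [h0, map_zero] at hz1; exact zero_ne_one hz1
    have h1 : (z' : M) / z ∈ w.valuationSubring := by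
      rw [w.mem_valuationSubring_iff, map_div₀, hz1, hz1', div_one]
    have h2 : (z' : M) / z ∈ A := by
      rw [← A.valuation_le_one_iff, map_div₀, hv,
        div_self ((Valuation.ne_zero_iff _).2 hz0)]
    have h3 : z' = ⟨(z' : M) / z, h1⟩ * z := Subtype.ext (by
      push_cast
      rw [div_mul_cancel₀ _ hz0])
    rw [h3, map_mul, map_mul]
    exact mul_le_of_le_one_left' ((hu ⟨_, h1⟩).2 h2)
  by_cases hz1 : w (z : M) = 1
  · have hz1' : w (z' : M) = 1 := by rw [hz, hw, hz1]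
    exact le_antisymm (hle z z' hz1 hz1' (by rw [hz, hτA]))
      (hle z' z hz1' hz1 (by rw [hz, hτA]))
  · have h0 : ∀ y : w.valuationSubring, w (y : M) ≠ 1 → IsLocalRing.residue _ y = 0 := by
      intro y hy
      rw [IsLocalRing.residue_eq_zero_iff, w.valuationSubring.valuation_lt_one_iff y,
        ← (Valuation.isEquiv_valuation_valuationSubring w).lt_one_iff_lt_one]
      exact lt_of_le_of_ne ((w.mem_valuationSubring_iff _).1 y.2) hy
    rw [h0 z hz1, h0 z' (by rw [hz, hw]; exact hz1)]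

/-- **F. K. Schmidt on the residue field of a norm** -/
theorem fks_residue [IsAlgClosed (IsLocalRing.ResidueField w.valuationSubring)] (τ : M ≃+* M)
    (hper : ∀ a, ∃ N, 0 < N ∧ (⇑τ)^[N] a = a) (hw : ∀ a, w (τ a) = w a)
    (A A' : ValuationSubring M) (hA : A ≤ w.valuationSubring) (hA' : A' ≤ w.valuationSubring)
    (hτA : ∀ a, A.valuation (τ a) = A.valuation a)
    (hτA' : ∀ a, A'.valuation (τ a) = A'.valuation a)
    (X X' : M) (hX : w X = 1) (hX' : w X' = 1) (hXA : A.valuation X < 1)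
    (hXA' : A'.valuation X' < 1)
    (hd : ∀ z : M, w z = 1 → ∃ m : ℕ, 0 < m ∧ ∃ n : ℤ, A.valuation (z ^ m * X ^ n) = 1)
    (hd' : ∀ z : M, w z = 1 → ∃ m : ℕ, 0 < m ∧ ∃ n : ℤ, A'.valuation (z ^ m * X' ^ n) = 1)
    (hne : ∃ z, w z ≤ 1 ∧ z ∈ A ∧ z ∉ A') (a : M) (ha : w a ≤ 1) : w (τ a - a) < 1 := by
  classical
  set O := w.valuationSubring with hO
  -- the restriction of `τ` to the ring
  let τO : O ≃+* O :=
    { toFun := fun z => ⟨τ z, by rw [w.mem_valuationSubring_iff, hw]; exact z.2⟩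
      invFun := fun z => ⟨τ.symm z, by
        rw [w.mem_valuationSubring_iff, ← hw, τ.apply_symm_apply]; exact z.2⟩
      left_inv := fun z => Subtype.ext (τ.symm_apply_apply _)
      right_inv := fun z => Subtype.ext (τ.apply_symm_apply _)
      map_mul' := fun x y => Subtype.ext (map_mul τ _ _)
      map_add' := fun x y => Subtype.ext (_root_.map_add τ _ _) }
  have hτO : ∀ z : O, ((τO z : O) : M) = τ z := fun _ => rfl
  let σ : IsLocalRing.ResidueField O ≃+* IsLocalRing.ResidueField O :=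
    IsLocalRing.ResidueField.mapEquiv τO
  have hσ : ∀ z : O, σ (IsLocalRing.residue O z) = IsLocalRing.residue O (τO z) := fun _ => rfl
  obtain ⟨u, hu⟩ := exists_resVal w A hA X hX hXA hd
  obtain ⟨u', hu'⟩ := exists_resVal w A' hA' X' hX' hXA' hd'
  have hiter : ∀ (N : ℕ) (z : O), (((⇑τO)^[N] z : O) : M) = (⇑τ)^[N] (z : M) := by
    intro N
    induction N with
    | zero => intro z; rfl
    | succ N ih =>
      intro z
      rw [Function.iterate_succ_apply, Function.iterate_succ_apply, ih, hτO]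
  have hσpow : ∀ (N : ℕ) (z : O), (σ ^ N : RingAut _) (IsLocalRing.residue O z) =
      IsLocalRing.residue O ((⇑τO)^[N] z) := by
    intro N
    induction N with
    | zero => intro z; rfl
    | succ N ih =>
      intro z
      rw [pow_succ, RingAut.mul_apply, hσ, ih, Function.iterate_succ_apply]
  have hfin : ∀ e : IsLocalRing.ResidueField O,
      (MulAction.orbit (Subgroup.zpowers (σ : RingAut (IsLocalRing.ResidueField O))) e).Finite := by
    intro e
    obtain ⟨z, rfl⟩ := IsLocalRing.residue_surjective e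
    obtain ⟨N, hN0, hN⟩ := hper (z : M)
    have h1 : (σ ^ N : RingAut _) (IsLocalRing.residue O z) = IsLocalRing.residue O z := by
      rw [hσpow]
      congr 1
      apply Subtype.ext
      rw [hiter, hN]
    have h2 : (σ ^ N : RingAut (IsLocalRing.ResidueField O)) ∈
        MulAction.stabilizer (RingAut (IsLocalRing.ResidueField O)) (IsLocalRing.residue O z) := h1
    refine Set.Finite.subset (Set.Finite.image (fun i : ℕ => (σ ^ i : RingAut _)
      (IsLocalRing.residue O z)) (Set.finite_lt_nat N)) ?_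
    rintro _ ⟨⟨g, hg⟩, rfl⟩
    obtain ⟨j, rfl⟩ := Subgroup.mem_zpowers_iff.1 hg
    have hNz : (N : ℤ) ≠ 0 := by exact_mod_cast hN0.ne'
    refine ⟨(j % N).toNat, ?_, ?_⟩
    · have h3 := Int.emod_lt_of_pos j (show (0 : ℤ) < N by exact_mod_cast hN0)
      have h4 := Int.emod_nonneg j hNz
      change (j % N).toNat < N
      omega
    · change (σ ^ (j % N).toNat : RingAut _) (IsLocalRing.residue O z) =
        (σ ^ j : RingAut _) (IsLocalRing.residue O z)
      have h5 : (σ ^ j : RingAut (IsLocalRing.ResidueField O)) =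
          σ ^ (j % N).toNat * (σ ^ N) ^ (j / N) := by
        rw [← zpow_natCast σ (j % N).toNat, ← zpow_natCast σ N, ← zpow_mul, ← zpow_add,
          Int.toNat_of_nonneg (Int.emod_nonneg j hNz), Int.emod_add_mul_ediv]
      have h6 : ((σ ^ N) ^ (j / N) : RingAut (IsLocalRing.ResidueField O)) ∈
        MulAction.stabilizer (RingAut (IsLocalRing.ResidueField O)) (IsLocalRing.residue O z) :=
        zpow_mem h2 _
      rw [h5, RingAut.mul_apply]
      congr 1
      exact h6.symm
  -- invariance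
  have hinv : ∀ (B : ValuationSubring M) (_ : ∀ a, B.valuation (τ a) = B.valuation a)
      (v : Valuation (IsLocalRing.ResidueField O) ℝ≥0)
      (_ : ∀ z : O, v (IsLocalRing.residue _ z) ≤ 1 ↔ (z : M) ∈ B)
      (g : Subgroup.zpowers (σ : RingAut (IsLocalRing.ResidueField O)))
      (e : IsLocalRing.ResidueField O), v (g • e) = v e := by
    intro B hB v hv g e
    have h1 : ∀ e, v (σ e) = v e := by
      intro e
      obtain ⟨z, rfl⟩ := IsLocalRing.residue_surjective e
      rw [hσ]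
      exact resVal_inv w τ hw B hB v hv z (τO z) (hτO z)
    let S : Subgroup (RingAut (IsLocalRing.ResidueField O)) :=
      { carrier := {g | ∀ e, v (g e) = v e}
        one_mem' := fun _ => rfl
        mul_mem' := fun {a b} ha hb e => by
          rw [RingAut.mul_apply, ha, hb]
        inv_mem' := fun {a} ha e => by
          have := ha (a⁻¹ e)
          rw [← RingAut.mul_apply, mul_inv_cancel, RingAut.one_apply] at this
          exact this.symm }
    have h2 : Subgroup.zpowers (σ : RingAut (IsLocalRing.ResidueField O)) ≤ S := by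
      rw [Subgroup.zpowers_le]
      exact h1
    exact h2 g.2 e
  have hu1 : ∀ z : O, w (z : M) = 1 → IsLocalRing.residue O z ≠ 0 := by
    intro z hz
    rw [Ne, IsLocalRing.residue_eq_zero_iff, O.valuation_lt_one_iff z,
      ← (Valuation.isEquiv_valuation_valuationSubring w).lt_one_iff_lt_one, hz]
    exact lt_irrefl _
  -- nontriviality
  have hnt : ∀ (B : ValuationSubring M) (Y : M) (_ : w Y = 1) (_ : B.valuation Y < 1)
      (v : Valuation (IsLocalRing.ResidueField O) ℝ≥0)
      (_ : ∀ z : O, v (IsLocalRing.residue _ z) ≤ 1 ↔ (z : M) ∈ B), ∃ a, a ≠ 0 ∧ v a ≠ 1 := by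
    intro B Y hY hYB v hv
    have hY0 : Y ≠ 0 := by
      rintro rfl
      rw [map_zero] at hY
      exact zero_ne_one hY
    have h1 : w Y⁻¹ = 1 := by rw [map_inv₀, hY, inv_one]
    refine ⟨IsLocalRing.residue O ⟨Y⁻¹, by rw [w.mem_valuationSubring_iff, h1]⟩, hu1 _ h1, ?_⟩
    intro h2
    have h3 := (hv _).1 h2.le
    rw [← B.valuation_le_one_iff] at h3
    change B.valuation Y⁻¹ ≤ 1 at h3
    rw [map_inv₀, inv_le_one₀ (zero_lt_iff.2 ((Valuation.ne_zero_iff _).2 hY0))] at h3
    exact absurd hYB (not_lt.2 h3)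
  have hneq : ¬ u.IsEquiv u' := by
    intro h
    obtain ⟨z, hz1, hz2, hz3⟩ := hne
    have h1 := (hu ⟨z, hz1⟩).2 hz2
    rw [h.le_one_iff_le_one, hu'] at h1
    exact hz3 h1
  have key := FKS_48.fk_schmidt hfin u u' (hinv A hτA u hu) (hinv A' hτA' u' hu')
    (hnt A X hX hXA u hu) (hnt A' X' hX' hXA' u' hu') hneq
    (⟨σ, Subgroup.mem_zpowers _⟩ : Subgroup.zpowers (σ : RingAut (IsLocalRing.ResidueField O)))
    (IsLocalRing.residue O ⟨a, ha⟩)
  have h1 : IsLocalRing.residue O (τO ⟨a, ha⟩) = IsLocalRing.residue O ⟨a, ha⟩ := key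
  rw [← sub_eq_zero, ← _root_.map_sub, IsLocalRing.residue_eq_zero_iff, O.valuation_lt_one_iff,
    ← (Valuation.isEquiv_valuation_valuationSubring w).lt_one_iff_lt_one] at h1
  exact h1

end Residual

end Crest.Agent.R013.Rk2_894
end

-- ▼ part R013/Rk2_894

/-!
R013 / A-RK2 (helper894): the end of the uniqueness proof. Compactness on the finite levels of the
fixed field of `τ`, conjugation of the norm, and F. K. Schmidt's theorem on the residue field.
-/

set_option autoImplicit false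

namespace Crest.Agent.R013.Rk2_894

open Crest.Agent.R013
open scoped NNReal
open Polynomial Filter

section Torsion

/-- values of algebraic elements are torsion over the values of the base field -/
theorem exists_pow_value {F N Γ : Type*} [Field F] [Field N] [Algebra F N]
    [Algebra.IsAlgebraic F N] [LinearOrderedCommGroupWithZero Γ] (w : Valuation N Γ) (z : N)
    (hz : z ≠ 0) : ∃ m : ℕ, 0 < m ∧ ∃ f : F, f ≠ 0 ∧ w (z ^ m) = w (algebraMap F N f) := by
  classical
  have hint : IsIntegral F z := (Algebra.IsAlgebraic.isAlgebraic (R := F) z).isIntegral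
  set P := minpoly F z with hP
  have hP0 : P ≠ 0 := minpoly.ne_zero hint
  have hroot : aeval z P = 0 := minpoly.aeval F z
  have hsupp : P.support.Nonempty := Polynomial.support_nonempty.2 hP0
  obtain ⟨i, hi, hmax⟩ := Finset.exists_max_image P.support
    (fun i => w (algebraMap F N (P.coeff i) * z ^ i)) hsupp
  have hne : ∀ j ∈ P.support, algebraMap F N (P.coeff j) * z ^ j ≠ 0 := fun j hj =>
    mul_ne_zero ((_root_.map_ne_zero _).2 (Polynomial.mem_support_iff.1 hj)) (pow_ne_zero _ hz)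
  have hex : ∃ j ∈ P.support, j ≠ i ∧ w (algebraMap F N (P.coeff j) * z ^ j) =
      w (algebraMap F N (P.coeff i) * z ^ i) := by
    by_contra hcon
    push Not at hcon
    have h1 : ∀ j ∈ P.support.erase i, w (algebraMap F N (P.coeff j) * z ^ j) <
        w (algebraMap F N (P.coeff i) * z ^ i) := by
      intro j hj
      have hj' := Finset.mem_of_mem_erase hj
      exact lt_of_le_of_ne (hmax j hj') (hcon j hj' (Finset.ne_of_mem_erase hj))
    have h2 : w (∑ j ∈ P.support.erase i, algebraMap F N (P.coeff j) * z ^ j) <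
        w (algebraMap F N (P.coeff i) * z ^ i) :=
      Valuation.map_sum_lt w ((Valuation.ne_zero_iff w).2 (hne i hi)) h1
    have h3 : algebraMap F N (P.coeff i) * z ^ i +
        ∑ j ∈ P.support.erase i, algebraMap F N (P.coeff j) * z ^ j = 0 := by
      rw [Finset.add_sum_erase P.support (fun j => algebraMap F N (P.coeff j) * z ^ j) hi, ← hroot,
        Polynomial.aeval_def, Polynomial.eval₂_eq_sum, Polynomial.sum_def]
    rw [← eq_neg_iff_add_eq_zero] at h3
    rw [h3, Valuation.map_neg] at h2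
    exact lt_irrefl _ h2
  obtain ⟨j, hj, hji, hv⟩ := hex
  -- general step
  have key : ∀ a b : ℕ, a ∈ P.support → b ∈ P.support → a < b →
      w (algebraMap F N (P.coeff a) * z ^ a) = w (algebraMap F N (P.coeff b) * z ^ b) →
      ∃ m : ℕ, 0 < m ∧ ∃ f : F, f ≠ 0 ∧ w (z ^ m) = w (algebraMap F N f) := by
    intro a b ha hb hab h
    have ha0 := Polynomial.mem_support_iff.1 ha
    have hb0 := Polynomial.mem_support_iff.1 hb
    refine ⟨b - a, Nat.sub_pos_of_lt hab, P.coeff a / P.coeff b, div_ne_zero ha0 hb0, ?_⟩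
    have h4 : w (z ^ a) ≠ 0 := (Valuation.ne_zero_iff w).2 (pow_ne_zero _ hz)
    have h5 : w (algebraMap F N (P.coeff b)) ≠ 0 :=
      (Valuation.ne_zero_iff w).2 ((_root_.map_ne_zero _).2 hb0)
    rw [map_div₀, map_div₀, eq_div_iff h5]
    apply mul_right_cancel₀ h4
    rw [← map_mul w (algebraMap F N (P.coeff a)), h, map_mul, mul_right_comm, ← map_mul, ← pow_add,
      Nat.sub_add_cancel hab.le, mul_comm]
  rcases lt_or_gt_of_ne hji with h | h
  · exact key j i hj hi h hv
  · exact key i j hi hj h hv.symm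

end Torsion

section AlgClosed

theorem isAlgClosed_residue {M Ω : Type*} [Field M] [Field Ω] [Algebra M Ω] [IsAlgClosed Ω]
    (W : Valuation Ω ℝ≥0)
    (hd : ∀ a : Ω, ∀ ε : ℝ≥0, 0 < ε → ∃ b : M, W (a - algebraMap M Ω b) < ε) :
    IsAlgClosed (IsLocalRing.ResidueField (W.comap (algebraMap M Ω)).valuationSubring) := by
  classical
  set w := W.comap (algebraMap M Ω) with hw
  set O := w.valuationSubring with hO
  refine IsAlgClosed.of_exists_root _ fun p hp hirr => ?_
  have hlift : p ∈ Polynomial.lifts (IsLocalRing.residue O) := by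
    rw [Polynomial.lifts_iff_coeff_lifts]
    intro n
    exact IsLocalRing.residue_surjective _
  obtain ⟨P, hPp, hdeg, hPm⟩ := Polynomial.lifts_and_natDegree_eq_and_monic hlift hp
  -- the ring hom to the ring of `W`
  let φ : O →+* W.valuationSubring :=
    ((algebraMap M Ω).comp O.subtype).codRestrict W.valuationSubring.toSubring fun x => x.2
  have hφ : ∀ x : O, ((φ x : W.valuationSubring) : Ω) = algebraMap M Ω (x : M) := fun _ => rfl
  set Q := P.map φ with hQ
  have hQm : Q.Monic := hPm.map φ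
  have hQdeg : (Q.map W.valuationSubring.subtype).degree ≠ 0 := by
    rw [Polynomial.degree_map_eq_of_injective (Subtype.coe_injective), hQ,
      hPm.degree_map φ, Polynomial.degree_eq_natDegree hPm.ne_zero, hdeg]
    have := hirr.natDegree_pos
    exact_mod_cast this.ne'
  obtain ⟨z, hz⟩ := IsAlgClosed.exists_root _ hQdeg
  have hzint : IsIntegral W.valuationSubring z := ⟨Q, hQm, by
    rw [Polynomial.IsRoot, Polynomial.eval_map] at hz
    exact hz⟩
  obtain ⟨z', hz'⟩ := IsIntegrallyClosed.isIntegral_iff.1 hzint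
  change (z' : Ω) = z at hz'
  have hz'0 : Q.eval z' = 0 := by
    apply Subtype.coe_injective
    rw [Polynomial.IsRoot, ← hz', Polynomial.eval_map] at hz
    change ((Q.eval z' : W.valuationSubring) : Ω) = 0
    rw [← hz]
    exact (Polynomial.hom_eval₂ Q (RingHom.id _) W.valuationSubring.subtype z')
  obtain ⟨b, hb⟩ := hd z 1 one_pos
  have hbW : W (algebraMap M Ω b) ≤ 1 := by
    have h1 : algebraMap M Ω b = z - (z - algebraMap M Ω b) := by ring
    rw [h1]
    refine (Valuation.map_sub W _ _).trans (max_le ?_ hb.le)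
    rw [← hz']
    exact z'.2
  let b' : O := ⟨b, hbW⟩
  refine ⟨IsLocalRing.residue O b', ?_⟩
  rw [← hPp, Polynomial.eval_map, Polynomial.eval₂_hom, IsLocalRing.residue_eq_zero_iff,
    O.valuation_lt_one_iff, ← (Valuation.isEquiv_valuation_valuationSubring w).lt_one_iff_lt_one]
  change W (algebraMap M Ω (P.eval b' : O)) < 1
  rw [← hφ]
  have h2 : φ (P.eval b') = Q.eval (φ b') := by
    rw [hQ, Polynomial.eval_map, Polynomial.eval₂_hom]
  obtain ⟨c, hc⟩ := Polynomial.sub_dvd_eval_sub (φ b') z' Q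
  rw [hz'0, sub_zero] at hc
  rw [h2, hc]
  push_cast
  rw [map_mul]
  have h3 : W (((φ b' : W.valuationSubring) : Ω) - z') < 1 := by
    rw [hφ, ← Valuation.map_neg, neg_sub, hz']
    exact hb
  calc W (((φ b' : W.valuationSubring) : Ω) - z') * W (c : Ω)
      ≤ W (((φ b' : W.valuationSubring) : Ω) - z') * 1 := by gcongr; exact c.2
    _ < 1 := by rw [mul_one]; exact h3

end AlgClosed

section Main

theorem comap_val_eq {E N : Type*} [Field E] [Field N] [Algebra E N] {B : ValuationSubring N}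
    {A : ValuationSubring E} (h : B.comap (algebraMap E N) = A) {x y : E} (hx : x ≠ 0)
    (hy : y ≠ 0) :
    B.valuation (algebraMap E N x) = B.valuation (algebraMap E N y) ↔
      A.valuation x = A.valuation y := by
  rw [val_eq_iff B ((_root_.map_ne_zero _).2 hx) ((_root_.map_ne_zero _).2 hy),
    val_eq_iff A hx hy, ← h, ValuationSubring.mem_comap, ValuationSubring.mem_comap, map_div₀,
    map_div₀]


/-- one of the two valuation rings at the top level, and all its properties -/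
theorem top_ring {F M : Type*} [Field F] [Field M] [CharZero F] [Algebra F M]
    [Algebra.IsAlgebraic F M] (v₀ : Valuation F ℝ≥0) {l : ℕ} (hl : l.Prime) (τ : M ≃ₐ[F] M)
    (hpro : ∀ a : M, ∃ n, (τ ^ l ^ n) a = a) {X ζ : F} {t : M} (hX0 : X ≠ 0)
    (ht : t ^ l = algebraMap F M X) (hτ : τ t = algebraMap F M ζ * t) (hζ : ζ ^ l = 1)
    (A₀ : ValuationSubring F)
    (w : Valuation M ℝ≥0) (hw₀ : w.comap (algebraMap F M) = v₀)
    (hd : ∀ f : F, v₀ f = 1 → ∃ n : ℤ, A₀.valuation (f * X ^ n) = 1)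
    {A Y : ∀ L : Lev τ, ValuationSubring L.1} (hAY : ∀ L, A L ≤ Y L)
    (hA₀ : ∀ L, (A L).comap (algebraMap F L.1) = A₀)
    (hn : ∀ L : Lev τ, ∀ b : L.1, (A L).valuation (b ^ l) ≠ (A L).valuation (algebraMap F L.1 X))
    (hwY : ∀ b : fixE τ, w (b : M) ≤ 1 ↔ b ∈ lim Y) :
    ∃ B : ValuationSubring M, B ≤ w.valuationSubring ∧ B.comap (algebraMap F M) = A₀ ∧
      (∀ a, B.valuation (τ a) = B.valuation a) ∧
      (∀ z : M, w z = 1 → ∃ m : ℕ, 0 < m ∧ ∃ n : ℤ,
        B.valuation (z ^ m * (algebraMap F M X) ^ n) = 1) := by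
  have hper := exists_per hl τ hpro
  have hXM : algebraMap F M X ≠ 0 := (_root_.map_ne_zero _).2 hX0
  have hXE : algebraMap F (fixE τ) X ≠ 0 := (_root_.map_ne_zero _).2 hX0
  obtain ⟨B, hB⟩ := exists_extend (N := M) (lim A)
  have hτB : ∀ a, B.valuation (τ a) = B.valuation a := by
    refine tau_inv hl τ hpro X ζ t hX0 ht hτ hζ B.valuation ?_
    intro b hb hcon
    have hb0 : b ≠ 0 := by
      rintro rfl
      rw [zero_pow hl.ne_zero, map_zero] at hcon
      exact hXM ((Valuation.zero_iff _).1 hcon.symm)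
    have hbE0 : (⟨b, hb⟩ : fixE τ) ≠ 0 := fun h0 => hb0 (congrArg Subtype.val h0)
    refine lim_nonpow hl hX0 hn ⟨b, hb⟩ ?_
    rw [← comap_val_eq hB (pow_ne_zero l hbE0) hXE]
    exact hcon
  have hBw : B ≤ w.valuationSubring := by
    intro z hz
    rw [Valuation.mem_valuationSubring_iff]
    refine le_one_of_inv τ hper B.valuation w hτB ?_ z ((B.valuation_le_one_iff z).2 hz)
    intro b hb hb1
    have h1 : (⟨b, hb⟩ : fixE τ) ∈ lim A := by
      rw [← hB, ValuationSubring.mem_comap, ← B.valuation_le_one_iff]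
      exact hb1
    exact (hwY ⟨b, hb⟩).2 (lim_mono hAY h1)
  have hBA : B.comap (algebraMap F M) = A₀ := by
    rw [IsScalarTower.algebraMap_eq F (fixE τ) M, ← ValuationSubring.comap_comap, hB,
      lim_comap hA₀]
  refine ⟨B, hBw, hBA, hτB, ?_⟩
  intro z hz
  have hz0 : z ≠ 0 := by
    rintro rfl
    rw [map_zero] at hz
    exact zero_ne_one hz
  obtain ⟨m, hm, f, hf0, hmf⟩ := exists_pow_value (F := F) B.valuation z hz0
  have hfM : algebraMap F M f ≠ 0 := (_root_.map_ne_zero _).2 hf0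
  -- the value of `f`
  have h1 := (val_eq_iff B (pow_ne_zero m hz0) hfM).1 hmf
  have h2 : w (z ^ m) = 1 := by rw [map_pow, hz, one_pow]
  have h3 : w (algebraMap F M f) = 1 := by
    have h4 := (w.mem_valuationSubring_iff _).1 (hBw h1.1)
    have h5 := (w.mem_valuationSubring_iff _).1 (hBw h1.2)
    have hwf : w (algebraMap F M f) ≠ 0 := (Valuation.ne_zero_iff w).2 hfM
    rw [map_div₀, h2, one_div, inv_le_one₀ (zero_lt_iff.2 hwf)] at h4
    rw [map_div₀, h2, div_one] at h5
    exact le_antisymm h5 h4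
  have h4 : v₀ f = 1 := by rw [← hw₀]; exact h3
  obtain ⟨n, hn⟩ := hd f h4
  refine ⟨m, hm, n, ?_⟩
  have h5 : f * X ^ n ≠ 0 := mul_ne_zero hf0 (zpow_ne_zero n hX0)
  have h6 : B.valuation (algebraMap F M (f * X ^ n)) = B.valuation (algebraMap F M 1) :=
    (comap_val_eq hBA h5 one_ne_zero).2 (by rw [hn, map_one])
  rw [map_mul, map_zpow₀, map_mul, map_one, map_one] at h6
  rw [map_mul, hmf, h6]

/-- **A-RK2**: compactness and F. K. Schmidt. -/
theorem rk2_false {F M Ω : Type*} [Field F] [Field M] [Field Ω] [CharZero F] [Algebra F M]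
    [Algebra F Ω] [Algebra M Ω] [IsScalarTower F M Ω] [IsAlgClosed Ω] [Algebra.IsAlgebraic F Ω]
    (v₀ : Valuation F ℝ≥0) (hnt : ∃ a, 1 < v₀ a)
    (hdense : ∀ W : Valuation Ω ℝ≥0, W.comap (algebraMap F Ω) = v₀ →
      ∀ a : Ω, ∀ ε : ℝ≥0, 0 < ε → ∃ b : M, W (a - algebraMap M Ω b) < ε)
    (l : ℕ) (hl : l.Prime) (τ : M ≃ₐ[F] M) (hpro : ∀ a : M, ∃ n, (τ ^ l ^ n) a = a)
    (X ζ : F) (t : M) (ht : t ^ l = algebraMap F M X) (hτ : τ t = algebraMap F M ζ * t)
    (hζ : ζ ^ l = 1) (hζ1 : v₀ (ζ - 1) = 1)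
    (A₀ A₁ : ValuationSubring F) (hX : v₀ X = 1) (h0 : A₀.valuation X < 1)
    (h1 : 1 < A₁.valuation X)
    (hd0 : ∀ f : F, v₀ f = 1 → ∃ n : ℤ, A₀.valuation (f * X ^ n) = 1)
    (hd1 : ∀ f : F, v₀ f = 1 → ∃ n : ℤ, A₁.valuation (f * X ^ n) = 1)
    (data : ∀ L : IntermediateField F M, FiniteDimensional F L → (∀ a ∈ L, τ a = a) →
      ∃ Y A A' : ValuationSubring L, A ≤ Y ∧ A' ≤ Y ∧
        Y.comap (algebraMap F L) = v₀.valuationSubring ∧ A.comap (algebraMap F L) = A₀ ∧
        A'.comap (algebraMap F L) = A₁ ∧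
        (∀ b : L, A.valuation (b ^ l) ≠ A.valuation (algebraMap F L X)) ∧
        (∀ b : L, A'.valuation (b ^ l) ≠ A'.valuation (algebraMap F L X))) : False := by
  classical
  have hX0 : X ≠ 0 := by
    rintro rfl
    rw [map_zero] at hX
    exact zero_ne_one hX
  have hMalg : Algebra.IsAlgebraic F M := Algebra.IsAlgebraic.tower_bot F M Ω
  have hper := exists_per hl τ hpro
  have hXM : algebraMap F M X ≠ 0 := (_root_.map_ne_zero _).2 hX0
  choose Y A A' hAY hA'Y hYc hAc hA'c hAn hA'n using data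
  -- the limit on `M` and on `Ω`
  obtain ⟨YM, hYM⟩ := exists_extend (N := M) (lim (τ := τ) fun L => Y L.1 L.2.1 L.2.2)
  obtain ⟨YΩ, hYΩ⟩ := exists_extend (N := Ω) YM
  have hYF : YΩ.comap (algebraMap F Ω) = v₀.valuationSubring := by
    rw [IsScalarTower.algebraMap_eq F M Ω, ← ValuationSubring.comap_comap, hYΩ,
      IsScalarTower.algebraMap_eq F (fixE τ) M, ← ValuationSubring.comap_comap, hYM]
    exact lim_comap fun L => hYc L.1 L.2.1 L.2.2
  obtain ⟨W₀, hW₀, -⟩ := A2a_275.exists_ext_lift (K := F) (M := F) (Ω := Ω) v₀ hnt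
  have hsep : Algebra.IsSeparable F Ω := inferInstance
  have hGal : IsGalois F Ω := by
    have : Normal F Ω := normal_iff.2 fun x =>
      ⟨(Algebra.IsAlgebraic.isAlgebraic (R := F) x).isIntegral, IsAlgClosed.splits _⟩
    exact IsGalois.mk
  obtain ⟨σ, hσ⟩ := Hens_899.exists_conj (K := F) W₀ YΩ.valuation (fun a => by
    rw [YΩ.valuation_le_one_iff, ← ValuationSubring.mem_comap, hYF, v₀.mem_valuationSubring_iff,
      ← hW₀, Valuation.comap_apply])
  -- the norm
  set W : Valuation Ω ℝ≥0 := W₀.comap (σ : Ω →+* Ω) with hW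
  have hWF : W.comap (algebraMap F Ω) = v₀ := by
    rw [← hW₀]
    ext a
    rw [hW, Valuation.comap_apply, Valuation.comap_apply, Valuation.comap_apply]
    congr 1
    congr 1
    exact σ.commutes a
  have hWY : ∀ x, W x ≤ 1 ↔ x ∈ YΩ := fun x => (hσ x).trans (YΩ.valuation_le_one_iff x)
  set w : Valuation M ℝ≥0 := W.comap (algebraMap M Ω) with hw
  have hwF : w.comap (algebraMap F M) = v₀ := by
    rw [← hWF]
    refine Valuation.ext fun a => ?_
    change W (algebraMap M Ω (algebraMap F M a)) = W (algebraMap F Ω a)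
    rw [← IsScalarTower.algebraMap_apply]
  have hwY : ∀ b : fixE τ, w (b : M) ≤ 1 ↔ b ∈ lim (τ := τ) fun L => Y L.1 L.2.1 L.2.2 := by
    intro b
    rw [← hYM, ValuationSubring.mem_comap, ← hYΩ, ValuationSubring.mem_comap, ← hWY]
    rfl
  -- the two valuation rings
  obtain ⟨B, hBw, hBA, hτB, hdB⟩ := top_ring v₀ hl τ hpro hX0 ht hτ hζ A₀ w hwF hd0
    (A := fun L => A L.1 L.2.1 L.2.2) (Y := fun L => Y L.1 L.2.1 L.2.2)
    (fun L => hAY L.1 L.2.1 L.2.2) (fun L => hAc L.1 L.2.1 L.2.2)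
    (fun L => hAn L.1 L.2.1 L.2.2) hwY
  obtain ⟨B', hBw', hBA', hτB', hdB'⟩ := top_ring v₀ hl τ hpro hX0 ht hτ hζ A₁ w hwF hd1
    (A := fun L => A' L.1 L.2.1 L.2.2) (Y := fun L => Y L.1 L.2.1 L.2.2)
    (fun L => hA'Y L.1 L.2.1 L.2.2) (fun L => hA'c L.1 L.2.1 L.2.2)
    (fun L => hA'n L.1 L.2.1 L.2.2) hwY
  -- the norm is `τ`-invariant
  have hτw : ∀ a, w (τ a) = w a := by
    intro a
    rcases eq_or_ne a 0 with rfl | ha
    · rw [map_zero]
    have hτa : τ a ≠ 0 := (_root_.map_ne_zero τ).2 ha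
    have h2 := (val_eq_iff B hτa ha).1 (hτB a)
    have h3 := (w.mem_valuationSubring_iff _).1 (hBw h2.1)
    have h4 := (w.mem_valuationSubring_iff _).1 (hBw h2.2)
    have hwa : w a ≠ 0 := (Valuation.ne_zero_iff w).2 ha
    have hwτa : w (τ a) ≠ 0 := (Valuation.ne_zero_iff w).2 hτa
    rw [map_div₀, div_le_one₀ (zero_lt_iff.2 hwa)] at h3
    rw [map_div₀, div_le_one₀ (zero_lt_iff.2 hwτa)] at h4
    exact le_antisymm h3 h4
  have hAC : IsAlgClosed (IsLocalRing.ResidueField w.valuationSubring) :=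
    isAlgClosed_residue W (hdense W hWF)
  have hwX : w (algebraMap F M X) = 1 := by
    rw [← hX, ← hwF]; rfl
  -- the values of `X`
  have hBX : B.valuation (algebraMap F M X) < 1 := by
    rw [← not_le]
    intro h
    have h2 : (algebraMap F M X)⁻¹ ∈ B := by
      rw [← B.valuation_le_one_iff, map_inv₀,
        inv_le_one₀ (zero_lt_iff.2 ((Valuation.ne_zero_iff _).2 hXM))]
      exact h
    rw [← map_inv₀, ← ValuationSubring.mem_comap, hBA, ← A₀.valuation_le_one_iff, map_inv₀,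
      inv_le_one₀ (zero_lt_iff.2 ((Valuation.ne_zero_iff _).2 hX0))] at h2
    exact absurd h0 (not_lt.2 h2)
  have hBX' : ¬ B'.valuation (algebraMap F M X) ≤ 1 := by
    intro h
    rw [B'.valuation_le_one_iff, ← ValuationSubring.mem_comap, hBA',
      ← A₁.valuation_le_one_iff] at h
    exact absurd h1 (not_lt.2 h)
  have hBX'i : B'.valuation (algebraMap F M X)⁻¹ < 1 := by
    rw [map_inv₀, inv_lt_one₀ (zero_lt_iff.2 ((Valuation.ne_zero_iff _).2 hXM))]
    exact not_le.1 hBX'
  have hit : ∀ (N : ℕ) (a : M), (⇑(τ : M ≃+* M))^[N] a = (τ ^ N) a := by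
    intro N
    induction N with
    | zero => intro a; rfl
    | succ N ih =>
      intro a
      rw [Function.iterate_succ_apply, ih, pow_succ, AlgEquiv.mul_apply]
      rfl
  have hwt : w t = 1 := by
    have h2 : w t ^ l = 1 := by rw [← map_pow, ht, hwX]
    exact (pow_eq_one_iff_of_nonneg zero_le hl.ne_zero).1 h2
  have key := fks_residue w (τ : M ≃+* M)
    (fun a => by
      obtain ⟨N, hN, h⟩ := hper a
      exact ⟨N, hN, by rw [hit, h]⟩) hτw B B' hBw hBw' hτB hτB'
    (algebraMap F M X) (algebraMap F M X)⁻¹ hwX (by rw [map_inv₀, hwX, inv_one]) hBX hBX'i hdB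
    (fun z hz => by
      obtain ⟨m, hm, n, hmn⟩ := hdB' z hz
      exact ⟨m, hm, -n, by rw [inv_zpow', neg_neg]; exact hmn⟩)
    ⟨algebraMap F M X, hwX.le, (B.valuation_le_one_iff _).1 hBX.le, fun h =>
      hBX' ((B'.valuation_le_one_iff _).2 h)⟩ t hwt.le
  have h2 : w (τ t - t) = 1 := by
    have h3 : τ t - t = algebraMap F M (ζ - 1) * t := by
      rw [hτ, map_sub, map_one]; ring
    have h4 : w (algebraMap F M (ζ - 1)) = 1 := by
      rw [← hζ1, ← hwF]; rfl
    rw [h3, map_mul, hwt, h4, one_mul]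
  exact absurd h2 (ne_of_lt key)

end Main

end Crest.Agent.R013.Rk2_894
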