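import Mathlib
import Crest.Agent.R013.Syl_831

-- ▼ part R013/Tau1_512
section

/-!
# A-TAU, part 1: local Galois theory in abstract form   (row 13, helper512)

`k ⊆ Ω` Galois, `Ω` algebraically closed of characteristic `0`, `w` a Galois invariant valuation
on `Ω`.  `MU w` = roots of unity of order prime to the residue characteristic.  No ramification
theory: everything is proved with Lagrange resolvents and values.
-/

set_option autoImplicit false
set_option linter.unusedSectionVars false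

open scoped NNReal
open Crest.Agent.R013.Fp4_831

namespace Crest.Agent.R013.Tau1_512

/-! ### Krull topology -/

section Krull

variable {k Ω : Type*} [Field k] [Field Ω] [Algebra k Ω]

lemma isOpen_apply_eq [Algebra.IsIntegral k Ω] (a b : Ω) : IsOpen {g : Ω ≃ₐ[k] Ω | g a = b} := by
  rcases Set.eq_empty_or_nonempty {g : Ω ≃ₐ[k] Ω | g a = b} with h | ⟨g₀, hg₀⟩
  · rw [h]; exact isOpen_empty
  · have h1 : {g : Ω ≃ₐ[k] Ω | g a = b} = (fun g => g₀⁻¹ * g) ⁻¹'
        (MulAction.stabilizer (Ω ≃ₐ[k] Ω) a : Set (Ω ≃ₐ[k] Ω)) := by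
      ext g
      change g a = b ↔ g₀⁻¹ (g a) = a
      have hg₀' : g₀ a = b := hg₀
      constructor
      · intro h
        rw [h, ← hg₀']
        exact AlgEquiv.symm_apply_apply g₀ a
      · intro h
        have h2 := congrArg g₀ h
        rw [hg₀'] at h2
        rw [← h2]
        exact (AlgEquiv.apply_symm_apply g₀ (g a)).symm
    rw [h1]
    exact (stabilizer_isOpen_of_isIntegral a).preimage (by fun_prop)

lemma isClosed_apply_eq [Algebra.IsIntegral k Ω] (a b : Ω) :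
    IsClosed {g : Ω ≃ₐ[k] Ω | g a = b} := by
  have h : {g : Ω ≃ₐ[k] Ω | g a = b}ᶜ = ⋃ c : {c : Ω // c ≠ b}, {g : Ω ≃ₐ[k] Ω | g a = c} := by
    ext g
    simp
  rw [← isOpen_compl_iff, h]
  exact isOpen_iUnion fun c => isOpen_apply_eq a c

lemma isClosed_apply_ne [Algebra.IsIntegral k Ω] (a b : Ω) :
    IsClosed {g : Ω ≃ₐ[k] Ω | g a ≠ b} := by
  have h : {g : Ω ≃ₐ[k] Ω | g a ≠ b} = {g : Ω ≃ₐ[k] Ω | g a = b}ᶜ := rfl
  rw [h, isClosed_compl_iff]
  exact isOpen_apply_eq a b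

variable [IsGalois k Ω]

/-- an open normal subgroup fixing `x` -/
lemma exists_openNormal_fix (x : Ω) :
    ∃ N : OpenNormalSubgroup (Ω ≃ₐ[k] Ω), ∀ g ∈ N, g x = x := by
  obtain ⟨N, hN⟩ := exists_openNormal_le (MulAction.stabilizer (Ω ≃ₐ[k] Ω) x)
    (stabilizer_isOpen_of_isIntegral x)
  exact ⟨N, fun g hg => hN hg⟩

lemma exists_pow_fix {l : ℕ} {P : Subgroup (Ω ≃ₐ[k] Ω)} (hP : IsProl l P)
    {g : Ω ≃ₐ[k] Ω} (hg : g ∈ P) (x : Ω) : ∃ n, (g ^ l ^ n) x = x := by
  obtain ⟨N, hN⟩ := exists_openNormal_fix (k := k) x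
  obtain ⟨n, hn⟩ := hP g hg N
  exact ⟨n, hN _ hn⟩

end Krull

/-! ### Valuations and roots of unity -/

section Val

variable {Ω : Type*} [Field Ω] (w : Valuation Ω ℝ≥0)

/-- Roots of unity of order a unit for `w`. -/
def MU : Set Ω := {z | ∃ N : ℕ, 0 < N ∧ w (N : Ω) = 1 ∧ z ^ N = 1}

variable {w}


lemma w_of_pow_eq_one {z : Ω} {N : ℕ} (hN : 0 < N) (hz : z ^ N = 1) : w z = 1 := by
  have h : w z ^ N = 1 := by rw [← map_pow, hz, map_one]
  exact (pow_eq_one_iff_of_nonneg zero_le hN.ne').1 h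

lemma w_MU {z : Ω} (hz : z ∈ MU w) : w z = 1 := by
  obtain ⟨N, hN, -, h⟩ := hz
  exact w_of_pow_eq_one hN h

lemma ne_zero_MU {z : Ω} (hz : z ∈ MU w) : z ≠ 0 := by
  rintro rfl
  have := w_MU hz
  simp at this

lemma mul_mem_MU {z z' : Ω} (hz : z ∈ MU w) (hz' : z' ∈ MU w) : z * z' ∈ MU w := by
  obtain ⟨N, hN, h1, h2⟩ := hz
  obtain ⟨N', hN', h1', h2'⟩ := hz'
  refine ⟨N * N', by positivity, by rw [Nat.cast_mul, map_mul, h1, h1', one_mul], ?_⟩
  rw [mul_pow, pow_mul, h2, mul_comm N N', pow_mul, h2', one_pow, one_pow, one_mul]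

lemma inv_mem_MU {z : Ω} (hz : z ∈ MU w) : z⁻¹ ∈ MU w := by
  obtain ⟨N, hN, h1, h2⟩ := hz
  exact ⟨N, hN, h1, by rw [inv_pow, h2, inv_one]⟩

lemma map_mem_MU {k : Type*} [Field k] [Algebra k Ω] (g : Ω ≃ₐ[k] Ω) {z : Ω} (hz : z ∈ MU w) :
    g z ∈ MU w := by
  obtain ⟨N, hN, h1, h2⟩ := hz
  exact ⟨N, hN, h1, by rw [← map_pow, h2, map_one]⟩

/-- (L1) nontrivial roots of unity of unit order are not congruent to `1`. -/
lemma w_sub_one {z : Ω} (hz : z ∈ MU w) (h1 : z ≠ 1) : w (z - 1) = 1 := by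
  obtain ⟨N, hN, hwN, hzN⟩ := id hz
  refine le_antisymm ?_ ?_
  · refine (w.map_sub _ _).trans ?_
    simp [w_MU hz]
  · by_contra hcon
    push Not at hcon
    have hpow : ∀ i : ℕ, w (z ^ i - 1) < 1 := by
      intro i
      induction i with
      | zero => simp
      | succ i ih =>
        have h2 : z ^ (i + 1) - 1 = z * (z ^ i - 1) + (z - 1) := by ring
        rw [h2]
        refine (w.map_add _ _).trans_lt (max_lt ?_ hcon)
        rw [map_mul, w_MU hz, one_mul]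
        exact ih
    have hs : ∑ i ∈ Finset.range N, z ^ i = 0 := by
      have h3 := mul_geom_sum z N
      rw [hzN, sub_self] at h3
      exact (mul_eq_zero.1 h3).resolve_left (sub_ne_zero.2 h1)
    have h4 : (N : Ω) = ∑ i ∈ Finset.range N, (1 - z ^ i) := by
      rw [Finset.sum_sub_distrib, hs]
      simp
    have h5 : w (N : Ω) < 1 := by
      rw [h4]
      apply Valuation.map_sum_lt _ one_ne_zero
      intro i _
      rw [Valuation.map_sub_swap]
      exact hpow i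
    exact absurd hwN h5.ne

lemma w_sub_of_ne {z z' : Ω} (hz : z ∈ MU w) (hz' : z' ∈ MU w) (h : z ≠ z') :
    w (z - z') = 1 := by
  have h0 := ne_zero_MU hz'
  have h1 : z - z' = (z * z'⁻¹ - 1) * z' := by
    field_simp
  have h2 : z * z'⁻¹ ≠ 1 := by
    intro h3
    exact h (by rw [← div_eq_mul_inv, div_eq_one_iff_eq h0] at h3; exact h3)
  rw [h1, map_mul, w_sub_one (mul_mem_MU hz (inv_mem_MU hz')) h2, w_MU hz', one_mul]

/-- (LV) coefficients of a polynomial from its values at points with unit differences. -/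
lemma coeff_le_of_eval (s : Finset Ω) (hs : ∀ a ∈ s, w a ≤ 1)
    (hd : ∀ a ∈ s, ∀ b ∈ s, a ≠ b → w (a - b) = 1) (B : ℝ≥0) (q : Polynomial Ω)
    (hq : q.degree < s.card) (hB : ∀ a ∈ s, w (q.eval a) ≤ B) (i : ℕ) : w (q.coeff i) ≤ B := by
  classical
  induction s using Finset.induction_on generalizing q i with
  | empty =>
    simp only [Finset.card_empty, Nat.cast_zero] at hq
    have : q = 0 := by
      by_contra h
      have := Polynomial.zero_le_degree_iff.2 h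
      exact absurd hq (not_lt.2 this)
    simp [this]
  | insert a s ha ih =>
    have hs' : ∀ b ∈ s, w b ≤ 1 := fun b hb => hs b (Finset.mem_insert_of_mem hb)
    have hd' : ∀ b ∈ s, ∀ c ∈ s, b ≠ c → w (b - c) = 1 := fun b hb c hc =>
      hd b (Finset.mem_insert_of_mem hb) c (Finset.mem_insert_of_mem hc)
    set r := q /ₘ (Polynomial.X - Polynomial.C a) with hr
    have hqr : q = Polynomial.C (q.eval a) + (Polynomial.X - Polynomial.C a) * r := by
      have := Polynomial.modByMonic_add_div q (Polynomial.X - Polynomial.C a)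
      rw [Polynomial.modByMonic_X_sub_C_eq_C_eval] at this
      exact this.symm
    have hrdeg : r.degree < s.card := by
      rw [Finset.card_insert_of_notMem ha] at hq
      by_cases hr0 : r = 0
      · rw [hr0, Polynomial.degree_zero]
        exact WithBot.bot_lt_coe _
      have hq0 : q ≠ 0 := by
        intro h0
        apply hr0
        rw [hr, h0, Polynomial.zero_divByMonic]
      rw [Polynomial.degree_eq_natDegree hq0] at hq
      rw [Polynomial.degree_eq_natDegree hr0]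
      have h1 : r.natDegree = q.natDegree - 1 := by
        rw [hr, Polynomial.natDegree_divByMonic _ (Polynomial.monic_X_sub_C a),
          Polynomial.natDegree_X_sub_C]
      have h2 : q.natDegree < s.card + 1 := by exact_mod_cast hq
      have h3 : 0 < q.natDegree := by
        by_contra h4
        have h5 : q.natDegree = 0 := by omega
        apply hr0
        rw [hr, Polynomial.divByMonic_eq_zero_iff (Polynomial.monic_X_sub_C a)]
        rw [Polynomial.degree_eq_natDegree hq0, h5, Polynomial.degree_X_sub_C]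
        exact_mod_cast zero_lt_one
      have h6 : r.natDegree < s.card := by omega
      exact_mod_cast h6
    have hrB : ∀ b ∈ s, w (r.eval b) ≤ B := by
      intro b hb
      have hab : b ≠ a := fun h => ha (h ▸ hb)
      have h1 : q.eval b = q.eval a + (b - a) * r.eval b := by
        conv_lhs => rw [hqr]
        simp
      have h2 : w (r.eval b) = w (q.eval b - q.eval a) := by
        have h3 : q.eval b - q.eval a = (b - a) * r.eval b := by rw [h1]; ring
        rw [h3, map_mul, hd b (Finset.mem_insert_of_mem hb) a (Finset.mem_insert_self a s) hab,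
          one_mul]
      rw [h2]
      exact (w.map_sub _ _).trans (max_le (hB b (Finset.mem_insert_of_mem hb))
        (hB a (Finset.mem_insert_self a s)))
    have key : ∀ j, w (r.coeff j) ≤ B := fun j => ih hs' hd' r hrdeg hrB j
    have hqa : w (q.eval a) ≤ B := hB a (Finset.mem_insert_self a s)
    have ha1 : w a ≤ 1 := hs a (Finset.mem_insert_self a s)
    rw [hqr, Polynomial.coeff_add, sub_mul, Polynomial.coeff_sub, Polynomial.coeff_C_mul]
    have haj : w (a * r.coeff i) ≤ B := by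
      rw [map_mul]
      exact (mul_le_of_le_one_left zero_le ha1).trans (key i)
    refine (w.map_add _ _).trans (max_le ?_ ((w.map_sub _ _).trans (max_le ?_ haj)))
    · cases i with
      | zero => simpa using hqa
      | succ i => simp
    · cases i with
      | zero => simp
      | succ i =>
        rw [Polynomial.coeff_X_mul]
        exact key i

end Val

/-! ### Galois invariant valuations -/

section Inv

variable {k Ω : Type*} [Field k] [Field Ω] [Algebra k Ω] {w : Valuation Ω ℝ≥0}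

/-- (L3) -/
lemma w_map_sub_lt (hinv : ∀ (g : Ω ≃ₐ[k] Ω) x, w (g x) = w x)
    (hres : ∀ x : Ω, w x = 1 → ∃ z ∈ MU w, w (x - z) < 1)
    {g : Ω ≃ₐ[k] Ω} (hg : ∀ z ∈ MU w, g z = z) {x : Ω} (hx : w x = 1) : w (g x - x) < 1 := by
  obtain ⟨z, hz, hxz⟩ := hres x hx
  have h1 : g x - x = g (x - z) - (x - z) := by
    rw [map_sub, hg z hz]; ring
  rw [h1]
  refine (w.map_sub _ _).trans_lt (max_lt ?_ hxz)
  rw [hinv]; exact hxz

/-- (L4) -/
lemma exists_w_pow [IsGalois k Ω] [IsAlgClosed Ω]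
    (hinv : ∀ (g : Ω ≃ₐ[k] Ω) x, w (g x) = w x) {r : ℝ≥0}
    (hdisc : ∀ c : k, c ≠ 0 → ∃ n : ℤ, w (algebraMap k Ω c) = r ^ n) {y : Ω} (hy : y ≠ 0) :
    ∃ n : ℤ, w y ^ (minpoly k y).natDegree = r ^ n := by
  have hint : IsIntegral k y := Algebra.IsIntegral.isIntegral y
  have hc0 : (minpoly k y).coeff 0 ≠ 0 := minpoly.coeff_zero_ne_zero hint hy
  obtain ⟨n, hn⟩ := hdisc _ hc0
  refine ⟨n, ?_⟩
  rw [← hn]
  set f := (minpoly k y).map (algebraMap k Ω) with hf
  have hmon : f.Monic := (minpoly.monic hint).map _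
  have hsplit : f.Splits := IsAlgClosed.splits f
  have h1 : f.coeff 0 = (-1) ^ f.natDegree * f.roots.prod :=
    hsplit.coeff_zero_eq_prod_roots_of_monic hmon
  have h2 : f.coeff 0 = algebraMap k Ω ((minpoly k y).coeff 0) := by
    rw [hf, Polynomial.coeff_map]
  rw [← h2, h1, map_mul, map_pow, Valuation.map_neg, map_one, one_pow, one_mul]
  have h3 : ∀ x ∈ f.roots, w x = w y := by
    intro x hx
    rw [Polynomial.mem_roots hmon.ne_zero, hf, Polynomial.IsRoot.def, Polynomial.eval_map_algebraMap]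
      at hx
    obtain ⟨g, hg⟩ := minpoly.exists_algEquiv_of_root (K := k) (L := Ω)
      (Algebra.IsAlgebraic.isAlgebraic y) hx
    rw [← hg, hinv]
  rw [map_multiset_prod, Multiset.map_congr rfl h3, Multiset.map_const', Multiset.prod_replicate,
    ← hsplit.natDegree_eq_card_roots, hf, Polynomial.natDegree_map]

end Inv

end Crest.Agent.R013.Tau1_512
end

-- ▼ part R013/Tau2_512
section

/-!
# A-TAU, part 2: the main lemmas   (row 13, helper512)

(INJ) `g ∈ P` fixing the roots of unity of unit order and all `ϖ^(1/l^n)` is trivial;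
(SURJ) some `τ ∈ P` fixes the roots of unity of unit order and moves `ϖ^(1/l)`;
(CYC) some `φ ∈ P` acts on `μ_(l^∞)` with infinite order.
-/

set_option autoImplicit false
set_option linter.unusedSectionVars false

open scoped NNReal
open Crest.Agent.R013.Fp4_831
open Crest.Agent.R013.Tau1_512

namespace Crest.Agent.R013.Tau2_512

variable {k Ω : Type*} [Field k] [Field Ω] [Algebra k Ω]

/-- The local hypotheses. -/
structure Hyp (k : Type*) {Ω : Type*} [Field k] [Field Ω] [Algebra k Ω] (w : Valuation Ω ℝ≥0)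
    (l : ℕ) (ϖ : k) : Prop where
  inv : ∀ (g : Ω ≃ₐ[k] Ω) (x : Ω), w (g x) = w x
  prime : l.Prime
  wl : w (l : Ω) = 1
  pi_ne : ϖ ≠ 0
  pi_lt : w (algebraMap k Ω ϖ) < 1
  disc : ∀ c : k, c ≠ 0 → ∃ n : ℤ, w (algebraMap k Ω c) = w (algebraMap k Ω ϖ) ^ n
  res : ∀ x : Ω, w x = 1 → ∃ z ∈ MU w, w (x - z) < 1
  mufin : ∀ F : IntermediateField k Ω, FiniteDimensional k F →
    {z : Ω | z ∈ F ∧ ∃ n : ℕ, z ^ l ^ n = 1}.Finite

section Compact

variable [IsGalois k Ω]

/-- intersections of decreasing sequences of closed subsets of the Galois group -/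
lemma exists_mem_of_decr (A : ℕ → Set (Ω ≃ₐ[k] Ω)) (hcl : ∀ n, IsClosed (A n))
    (hne : ∀ n, (A n).Nonempty) (hdecr : ∀ n, A (n + 1) ⊆ A n) :
    ∃ g, ∀ n, g ∈ A n := by
  obtain ⟨g, hg⟩ := IsCompact.nonempty_iInter_of_sequence_nonempty_isCompact_isClosed A
    hdecr hne (hcl 0).isCompact hcl
  exact ⟨g, fun n => Set.mem_iInter.1 hg n⟩

end Compact

section Inj

variable {w : Valuation Ω ℝ≥0} {l : ℕ} {ϖ : k} {P : Subgroup (Ω ≃ₐ[k] Ω)}

lemma mem_MU_of_pow (H : Hyp k w l ϖ) {z : Ω} {n : ℕ} (hz : z ^ l ^ n = 1) : z ∈ MU w :=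
  ⟨l ^ n, pow_pos H.prime.pos n, by rw [Nat.cast_pow, map_pow, H.wl, one_pow], hz⟩

/-- Lagrange resolvents: an automorphism of order `l` on `x` has an eigenvector with eigenvalue a
nontrivial `l`-th root of unity. -/
lemma exists_eigen [CharZero Ω] [IsAlgClosed Ω] (hl : l.Prime) {h : Ω ≃ₐ[k] Ω}
    (hmu : ∀ z : Ω, z ^ l = 1 → h z = z)
    {x : Ω} (hx : h x ≠ x) (hxl : (h ^ l) x = x) :
    ∃ y η : Ω, y ≠ 0 ∧ η ^ l = 1 ∧ η ≠ 1 ∧ h y = η * y := by
  have hl0 : (l : Ω) ≠ 0 := Nat.cast_ne_zero.2 hl.ne_zero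
  have : NeZero (l : Ω) := ⟨hl0⟩
  have : NeZero l := ⟨hl.ne_zero⟩
  obtain ⟨ζ, hζ⟩ := HasEnoughRootsOfUnity.exists_primitiveRoot Ω l
  let Y : Ω → Ω := fun η => ∑ t ∈ Finset.range l, η ^ t * (h ^ t) x
  have hY : ∀ η : Ω, η ^ l = 1 → h (Y η) = η⁻¹ * Y η := by
    intro η hη
    have hη0 : η ≠ 0 := by
      rintro rfl
      rw [zero_pow hl.ne_zero] at hη
      exact zero_ne_one hη
    have h1 : η * h (Y η) = ∑ t ∈ Finset.range l, η ^ (t + 1) * (h ^ (t + 1)) x := by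
      simp only [Y]
      rw [map_sum, Finset.mul_sum]
      refine Finset.sum_congr rfl fun t _ => ?_
      rw [map_mul, map_pow, hmu η hη, pow_succ' η t, mul_assoc]
      congr 2
      rw [pow_succ']
      rfl
    have h2 : ∑ t ∈ Finset.range l, η ^ (t + 1) * (h ^ (t + 1)) x = Y η := by
      have h3 := Finset.sum_range_succ' (fun t => η ^ t * (h ^ t) x) l
      have h4 := Finset.sum_range_succ (fun t => η ^ t * (h ^ t) x) l
      rw [h4] at h3
      simp only [hη, hxl, pow_zero, one_mul] at h3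
      have h5 : (1 : Ω ≃ₐ[k] Ω) x = x := rfl
      rw [h5] at h3
      exact (add_right_cancel h3).symm
    exact (eq_inv_mul_iff_mul_eq₀ hη0).2 (h1.trans h2)
  have hsum : ∑ j ∈ Finset.range l, Y (ζ ^ j) = l * x := by
    simp only [Y]
    rw [Finset.sum_comm]
    have h1 : ∀ t ∈ Finset.range l, t ≠ 0 → ∑ j ∈ Finset.range l, (ζ ^ j) ^ t * (h ^ t) x = 0 := by
      intro t ht ht0
      rw [← Finset.sum_mul]
      have h2 : ∑ j ∈ Finset.range l, (ζ ^ j) ^ t = 0 := by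
        have h3 : ∀ j ∈ Finset.range l, (ζ ^ j) ^ t = (ζ ^ t) ^ j := by
          intro j _
          rw [← pow_mul, ← pow_mul, mul_comm]
        rw [Finset.sum_congr rfl h3]
        have h4 := mul_geom_sum (ζ ^ t) l
        rw [← pow_mul, mul_comm t l, pow_mul, hζ.pow_eq_one, one_pow, sub_self] at h4
        refine (mul_eq_zero.1 h4).resolve_left (sub_ne_zero.2 ?_)
        intro h5
        have h6 := hζ.dvd_of_pow_eq_one t h5
        exact absurd (Nat.le_of_dvd (Nat.pos_of_ne_zero ht0) h6) (not_le.2 (Finset.mem_range.1 ht))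
      rw [h2, zero_mul]
    rw [Finset.sum_eq_single_of_mem 0 (Finset.mem_range.2 hl.pos) h1]
    simp
  by_contra hcon
  push Not at hcon
  have hzero : ∀ j ∈ Finset.range l, j ≠ 0 → Y (ζ ^ j) = 0 := by
    intro j hj hj0
    by_contra hne
    have h1 : (ζ ^ j) ^ l = 1 := by rw [← pow_mul, mul_comm, pow_mul, hζ.pow_eq_one, one_pow]
    refine hcon (Y (ζ ^ j)) ((ζ ^ j)⁻¹) hne (by rw [inv_pow, h1, inv_one]) ?_ (hY _ h1)
    intro h2
    rw [inv_eq_one] at h2
    have h6 := hζ.dvd_of_pow_eq_one j h2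
    exact absurd (Nat.le_of_dvd (Nat.pos_of_ne_zero hj0) h6) (not_le.2 (Finset.mem_range.1 hj))
  rw [Finset.sum_eq_single_of_mem 0 (Finset.mem_range.2 hl.pos) hzero, pow_zero] at hsum
  have h1 := hY 1 (one_pow l)
  rw [inv_one, one_mul, hsum, map_mul, map_natCast] at h1
  exact hx (mul_left_cancel₀ hl0 h1)

/-- (INJ) -/
theorem inj [CharZero Ω] [IsGalois k Ω] [IsAlgClosed Ω] (H : Hyp k w l ϖ) (hP : IsProl l P)
    {vp : ℕ → Ω}
    (hvp0 : vp 0 = algebraMap k Ω ϖ) (hvp : ∀ n, vp (n + 1) ^ l = vp n)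
    {g : Ω ≃ₐ[k] Ω} (hg : g ∈ P) (hgMU : ∀ z ∈ MU w, g z = z) (hgvp : ∀ n, g (vp n) = vp n) :
    g = 1 := by
  by_contra hne
  obtain ⟨x, hx⟩ : ∃ x, g x ≠ x := by
    by_contra hcon
    push Not at hcon
    exact hne (AlgEquiv.ext hcon)
  classical
  have hex := exists_pow_fix hP hg x
  obtain ⟨n, hn⟩ : ∃ n, Nat.find hex = n + 1 := by
    apply Nat.exists_eq_succ_of_ne_zero
    intro h0
    have h1 := Nat.find_spec hex
    rw [h0, pow_zero, pow_one] at h1
    exact hx h1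
  have hxn1 : (g ^ l ^ (n + 1)) x = x := hn ▸ Nat.find_spec hex
  have hxn : (g ^ l ^ n) x ≠ x := Nat.find_min hex (by omega)
  set h := g ^ l ^ n with hh
  have hpowfix : ∀ (y : Ω) (m : ℕ), g y = y → (g ^ m) y = y := by
    intro y m hy
    induction m with
    | zero => rfl
    | succ m ih =>
      rw [pow_succ]
      change (g ^ m) (g y) = y
      rw [hy, ih]
  have hhMU : ∀ z ∈ MU w, h z = z := fun z hz => hpowfix z _ (hgMU z hz)
  have hhvp : ∀ n, h (vp n) = vp n := fun n => hpowfix _ _ (hgvp n)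
  have hhl : (h ^ l) x = x := by
    rw [hh, ← pow_mul, ← pow_succ]
    exact hxn1
  obtain ⟨y, η, hy0, hηl, hη1, hhy⟩ := exists_eigen H.prime
    (fun z hz => hhMU z (mem_MU_of_pow H (n := 1) (by rwa [pow_one]))) hxn hhl
  have hηMU : η ∈ MU w := mem_MU_of_pow H (n := 1) (by rwa [pow_one])
  -- the value of `y`
  obtain ⟨m, hm⟩ := exists_w_pow H.inv H.disc hy0
  set d := (minpoly k y).natDegree with hd
  have hd0 : d ≠ 0 := (minpoly.natDegree_pos (Algebra.IsIntegral.isIntegral y)).ne'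
  obtain ⟨b, s, hls, hds⟩ := Nat.exists_eq_pow_mul_and_not_dvd hd0 l H.prime.ne_one
  have hwpos : 0 < w y := pos_iff_ne_zero.2 (by rwa [Ne, map_eq_zero])
  have hvpb : ∀ b, vp b ^ l ^ b = algebraMap k Ω ϖ := by
    intro b
    induction b with
    | zero => rw [pow_zero, pow_one, hvp0]
    | succ b ih => rw [pow_succ', pow_mul, hvp, ih]
  have hvpne : ∀ b, vp b ≠ 0 := by
    intro b h0
    have h1 := hvpb b
    rw [h0, zero_pow (pow_pos H.prime.pos b).ne'] at h1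
    exact H.pi_ne ((map_eq_zero (algebraMap k Ω)).1 h1.symm)
  have hval : w y ^ s = w (vp b) ^ m := by
    have h1 : (w y ^ s) ^ l ^ b = (w (vp b) ^ m) ^ l ^ b := by
      rw [← pow_mul, mul_comm s, ← hds, hm, ← hvpb b, map_pow, ← zpow_natCast, ← zpow_natCast,
        ← zpow_mul, ← zpow_mul, mul_comm]
    exact (pow_left_inj₀ zero_le zero_le (pow_pos H.prime.pos b).ne').1 h1
  -- Bezout
  have hcop : IsCoprime (s : ℤ) (l : ℤ) := by
    rw [Nat.isCoprime_iff_coprime, Nat.coprime_comm]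
    exact (Nat.Prime.coprime_iff_not_dvd H.prime).2 hls
  obtain ⟨u, v, huv⟩ := hcop
  set c := vp b ^ (m * u) * (y ^ l) ^ v with hc
  have hyl0 : y ^ l ≠ 0 := pow_ne_zero _ hy0
  have hc0 : c ≠ 0 := mul_ne_zero (zpow_ne_zero _ (hvpne b)) (zpow_ne_zero _ hyl0)
  have hwc : w y = w c := by
    rw [hc, map_mul, map_zpow₀, map_zpow₀, map_pow, zpow_mul, ← hval, ← zpow_natCast (w y) s,
      ← zpow_natCast (w y) l, ← zpow_mul, ← zpow_mul, ← zpow_add₀ hwpos.ne',
      show (s : ℤ) * u + l * v = 1 by rw [mul_comm (s : ℤ), mul_comm (l : ℤ)]; exact huv, zpow_one]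
  have hhc : h c = c := by
    rw [hc, map_mul, map_zpow₀, map_zpow₀, map_pow, hhvp, hhy, mul_pow, hηl, one_mul]
  have hux : w (y / c) = 1 := by
    rw [map_div₀, hwc, div_self]
    rwa [Ne, map_eq_zero]
  have h1 := w_map_sub_lt H.inv H.res hhMU hux
  have h2 : h (y / c) - y / c = (η - 1) * (y / c) := by
    rw [map_div₀, hhy, hhc]; ring
  rw [h2, map_mul, hux, mul_one, w_sub_one hηMU hη1] at h1
  exact lt_irrefl _ h1

end Inj

end Crest.Agent.R013.Tau2_512
end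

-- ▼ part R013/Tau3_512
section

/-!
# A-TAU, part 3: (SURJ)   (row 13, helper512)
-/

set_option autoImplicit false
set_option linter.unusedSectionVars false

open scoped NNReal IntermediateField
open Crest.Agent.R013.Fp4_831
open Crest.Agent.R013.Tau1_512
open Crest.Agent.R013.Tau2_512

namespace Crest.Agent.R013.Tau3_512

variable {k Ω : Type*} [Field k] [Field Ω] [Algebra k Ω]
variable {w : Valuation Ω ℝ≥0} {l : ℕ} {ϖ : k} {P : Subgroup (Ω ≃ₐ[k] Ω)}

/-- An element of `F(ζ)`, `ζ` a root of unity of unit order, has the value of an element of `F`. -/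
lemma exists_same_value {F : Type*} [Field F] [CharZero F] [Algebra F Ω] [IsGalois F Ω]
    [IsAlgClosed Ω] (hinv : ∀ (g : Ω ≃ₐ[F] Ω) x, w (g x) = w x)
    {ζ : Ω} (hζ : ζ ∈ MU w) {a : Ω} (ha : a ∈ F⟮ζ⟯) (ha0 : a ≠ 0) :
    ∃ c : F, c ≠ 0 ∧ w (algebraMap F Ω c) = w a := by
  classical
  have hint : IsIntegral F ζ := Algebra.IsIntegral.isIntegral ζ
  obtain ⟨N, hN, hwN, hζN⟩ := id hζ
  obtain ⟨q, hqd, hq⟩ := (IntermediateField.adjoin.powerBasis hint).exists_eq_aeval ⟨a, ha⟩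
  rw [IntermediateField.adjoin.powerBasis_dim] at hqd
  have hqa : Polynomial.aeval ζ q = a := by
    have h1 := congrArg (algebraMap F⟮ζ⟯ Ω) hq
    rw [← Polynomial.aeval_algebraMap_apply, IntermediateField.adjoin.powerBasis_gen,
      IntermediateField.AdjoinSimple.algebraMap_gen] at h1
    exact h1.symm
  set m := minpoly F ζ with hm
  have hmsep : m.Separable := (minpoly.irreducible hint).separable
  have hcard := Polynomial.card_rootSet_eq_natDegree (K := Ω) hmsep (IsAlgClosed.splits _)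
  set s := (m.rootSet Ω).toFinset with hs
  have hscard : s.card = m.natDegree := by rw [hs, Set.toFinset_card, hcard]
  have hroot : ∀ b ∈ s, ∃ g : Ω ≃ₐ[F] Ω, g ζ = b := by
    intro b hb
    rw [hs, Set.mem_toFinset, Polynomial.mem_rootSet] at hb
    exact minpoly.exists_algEquiv_of_root' (Algebra.IsAlgebraic.isAlgebraic ζ) hb.2
  have hsMU : ∀ b ∈ s, b ∈ MU w := by
    intro b hb
    obtain ⟨g, rfl⟩ := hroot b hb
    exact map_mem_MU g hζ
  have hle : ∀ i, w (algebraMap F Ω (q.coeff i)) ≤ w a := by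
    intro i
    have := coeff_le_of_eval (w := w) s (fun b hb => (w_MU (hsMU b hb)).le)
      (fun b hb b' hb' hne => w_sub_of_ne (hsMU b hb) (hsMU b' hb') hne) (w a)
      (q.map (algebraMap F Ω)) ?_ ?_ i
    · rwa [Polynomial.coeff_map] at this
    · rw [hscard]
      rw [Polynomial.degree_map]
      exact (Polynomial.degree_le_natDegree).trans_lt (by exact_mod_cast hqd)
    · intro b hb
      obtain ⟨g, rfl⟩ := hroot b hb
      rw [Polynomial.eval_map_algebraMap]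
      have h1 : Polynomial.aeval (g ζ) q = g a := by
        rw [← hqa]
        exact Polynomial.aeval_algHom_apply g.toAlgHom ζ q
      rw [h1, hinv]
  have hge : ∃ i, w a ≤ w (algebraMap F Ω (q.coeff i)) := by
    by_contra hcon
    push Not at hcon
    have h1 : w a < w a := by
      conv_lhs => rw [← hqa, Polynomial.aeval_eq_sum_range]
      apply Valuation.map_sum_lt
      · rwa [Ne, map_eq_zero]
      · intro i _
        rw [Algebra.smul_def, map_mul, map_pow, w_MU hζ, one_pow, mul_one]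
        exact hcon i
    exact lt_irrefl _ h1
  obtain ⟨i, hi⟩ := hge
  have heq := le_antisymm (hle i) hi
  refine ⟨q.coeff i, ?_, heq⟩
  intro h0
  rw [h0, map_zero, map_zero] at heq
  exact ha0 ((map_eq_zero w).1 heq.symm)

/-- the degree over `k` of an element fixed by `P` is prime to `l` -/
lemma not_dvd_natDegree [IsGalois k Ω] (hco : IsCoSylow l P) {c : Ω} (hc : ∀ g ∈ P, g c = c) :
    ¬ l ∣ (minpoly k c).natDegree := by
  have hint : IsIntegral k c := Algebra.IsIntegral.isIntegral c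
  have h1 : (minpoly k c).natDegree = (k⟮c⟯).fixingSubgroup.index := by
    rw [← IntermediateField.finrank_eq_fixingSubgroup_index, IntermediateField.adjoin.finrank hint]
  obtain ⟨N, hN⟩ := exists_openNormal_fix (k := k) c
  have hle : P ⊔ (N : Subgroup (Ω ≃ₐ[k] Ω)) ≤ (k⟮c⟯).fixingSubgroup := by
    refine sup_le ?_ ?_
    · intro g hg
      rw [IntermediateField.mem_fixingSubgroup_iff]
      exact (IntermediateField.forall_mem_adjoin_smul_eq_self_iff k (S := {c}) g).2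
        (by rintro x rfl; exact hc g hg)
    · intro g hg
      rw [IntermediateField.mem_fixingSubgroup_iff]
      exact (IntermediateField.forall_mem_adjoin_smul_eq_self_iff k (S := {c}) g).2
        (by rintro x rfl; exact hN g hg)
  rw [h1]
  intro h2
  exact hco.not_dvd N (h2.trans (Subgroup.index_dvd_of_le hle))

/-- (SURJ) -/
theorem surj [CharZero Ω] [IsGalois k Ω] [IsAlgClosed Ω] (H : Hyp k w l ϖ)
    (hco : IsCoSylow l P) {a : Ω} (ha : a ^ l = algebraMap k Ω ϖ) :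
    ∃ τ ∈ P, (∀ z ∈ MU w, τ z = z) ∧ τ a ≠ a := by
  by_contra hcon
  push Not at hcon
  -- Step 1
  obtain ⟨N, hN, hwN, hfix⟩ : ∃ N : ℕ, 0 < N ∧ w (N : Ω) = 1 ∧
      ∀ τ ∈ P, (∀ z : Ω, z ^ N = 1 → τ z = z) → τ a = a := by
    by_contra hno
    push Not at hno
    let ι := {N : ℕ // 0 < N ∧ w (N : Ω) = 1}
    let A : ι → Set (Ω ≃ₐ[k] Ω) := fun N =>
      (P : Set (Ω ≃ₐ[k] Ω)) ∩ ((⋂ z : {z : Ω // z ^ (N : ℕ) = 1}, {g | g (z : Ω) = z}) ∩
        {g | g a ≠ a})
    have : Nonempty ι := ⟨⟨1, one_pos, by simp⟩⟩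
    have hAcl : ∀ i, IsClosed (A i) := fun i =>
      hco.closed.inter ((isClosed_iInter fun z => isClosed_apply_eq _ _).inter
        (isClosed_apply_ne _ _))
    have hdir : Directed (· ⊇ ·) A := by
      rintro ⟨N, hN, hwN⟩ ⟨N', hN', hwN'⟩
      refine ⟨⟨N * N', Nat.mul_pos hN hN', by rw [Nat.cast_mul, map_mul, hwN, hwN', one_mul]⟩,
        ?_, ?_⟩
      · rintro g ⟨h1, h2, h3⟩
        refine ⟨h1, ?_, h3⟩
        rw [Set.mem_iInter] at h2 ⊢
        rintro ⟨z, hz⟩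
        exact h2 ⟨z, by change z ^ (N * N') = 1; rw [pow_mul, hz, one_pow]⟩
      · rintro g ⟨h1, h2, h3⟩
        refine ⟨h1, ?_, h3⟩
        rw [Set.mem_iInter] at h2 ⊢
        rintro ⟨z, hz⟩
        exact h2 ⟨z, by change z ^ (N * N') = 1; rw [mul_comm, pow_mul, hz, one_pow]⟩
    have hne : ∀ i, (A i).Nonempty := by
      rintro ⟨N, hN, hwN⟩
      obtain ⟨τ, h1, h2, h3⟩ := hno N hN hwN
      exact ⟨τ, h1, Set.mem_iInter.2 fun z => h2 z z.2, h3⟩
    obtain ⟨g, hg⟩ := IsCompact.nonempty_iInter_of_directed_nonempty_isCompact_isClosed A hdir hne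
      (fun i => (hAcl i).isCompact) hAcl
    rw [Set.mem_iInter] at hg
    have hgP : g ∈ P := (hg (Classical.arbitrary ι)).1
    have hga : g a ≠ a := (hg (Classical.arbitrary ι)).2.2
    refine hga (hcon g hgP ?_)
    rintro z ⟨M, hM, hwM, hzM⟩
    have h1 := (hg ⟨M, hM, hwM⟩).2.1
    rw [Set.mem_iInter] at h1
    exact h1 ⟨z, hzM⟩
  -- Step 2
  have : NeZero (N : Ω) := ⟨Nat.cast_ne_zero.2 hN.ne'⟩
  have : NeZero N := ⟨hN.ne'⟩
  have hl0 := H.prime.ne_zero
  obtain ⟨ζ, hζ⟩ := HasEnoughRootsOfUnity.exists_primitiveRoot Ω N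
  have hζMU : ζ ∈ MU w := ⟨N, hN, hwN, hζ.pow_eq_one⟩
  let F := IntermediateField.fixedField P
  have hF : F.fixingSubgroup = P := InfiniteGalois.fixingSubgroup_fixedField ⟨P, hco.closed⟩
  have ha0 : a ≠ 0 := by
    rintro rfl
    rw [zero_pow hl0] at ha
    exact H.pi_ne ((map_eq_zero (algebraMap k Ω)).1 ha.symm)
  have hres : ∀ σ : Ω ≃ₐ[F] Ω, σ.restrictScalars k ∈ P := by
    intro σ
    rw [← hF, IntermediateField.mem_fixingSubgroup_iff]
    intro x hx
    exact σ.commutes ⟨x, hx⟩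
  have haF : a ∈ F⟮ζ⟯ := by
    rw [← InfiniteGalois.fixedField_fixingSubgroup F⟮ζ⟯, IntermediateField.mem_fixedField_iff]
    intro σ hσ
    have h1 : σ ζ = ζ := by
      rw [IntermediateField.mem_fixingSubgroup_iff] at hσ
      exact hσ ζ (IntermediateField.mem_adjoin_simple_self F ζ)
    refine hfix (σ.restrictScalars k) (hres σ) ?_
    intro z hz
    obtain ⟨i, -, rfl⟩ := hζ.eq_pow_of_pow_eq_one hz
    change σ (ζ ^ i) = ζ ^ i
    rw [map_pow, h1]
  -- Step 3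
  obtain ⟨c, hc0, hc⟩ := exists_same_value (F := F)
    (fun σ x => H.inv (σ.restrictScalars k) x) hζMU haF ha0
  -- Step 4
  have hcP : ∀ g ∈ P, g (c : Ω) = c := by
    intro g hg
    exact (IntermediateField.mem_fixedField_iff P (c : Ω)).1 c.2 g hg
  have hnd := not_dvd_natDegree hco hcP
  have hc0' : (c : Ω) ≠ 0 := by simpa using hc0
  obtain ⟨n, hn⟩ := exists_w_pow H.inv H.disc hc0'
  set d := (minpoly k (c : Ω)).natDegree with hd
  have hpos : 0 < w (algebraMap k Ω ϖ) := by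
    rw [pos_iff_ne_zero, Ne, map_eq_zero, map_eq_zero]
    exact H.pi_ne
  have hc' : w (c : Ω) = w a := hc
  have h1 : w (algebraMap k Ω ϖ) ^ (d : ℤ) = w (algebraMap k Ω ϖ) ^ (n * l) := by
    rw [zpow_mul, ← hn, hc']
    conv_lhs => rw [← ha]
    rw [map_pow, zpow_natCast, zpow_natCast, ← pow_mul, ← pow_mul, mul_comm]
  have h2 : (d : ℤ) = n * l := zpow_right_injective₀ hpos H.pi_lt.ne h1
  have h3 : (l : ℤ) ∣ (d : ℤ) := ⟨n, by rw [h2, mul_comm]⟩
  exact hnd (Int.natCast_dvd_natCast.1 h3)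

end Crest.Agent.R013.Tau3_512
end

-- ▼ part R013/Tau4_512
section

/-!
# A-TAU, part 4: (CYC)   (row 13, helper512)
-/

set_option autoImplicit false
set_option linter.unusedSectionVars false

open scoped NNReal IntermediateField
open Crest.Agent.R013.Fp4_831
open Crest.Agent.R013.Tau1_512
open Crest.Agent.R013.Tau2_512

namespace Crest.Agent.R013.Tau4_512

variable {k Ω : Type*} [Field k] [Field Ω] [Algebra k Ω]
variable {w : Valuation Ω ℝ≥0} {l : ℕ} {ϖ : k} {P : Subgroup (Ω ≃ₐ[k] Ω)}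

section Mu

variable [CharZero Ω] [IsAlgClosed Ω]

lemma exists_prim (hl : l.Prime) (n : ℕ) : ∃ ζ : Ω, IsPrimitiveRoot ζ (l ^ n) := by
  have h0 : l ^ n ≠ 0 := pow_ne_zero _ hl.ne_zero
  have : NeZero ((l ^ n : ℕ) : Ω) := ⟨Nat.cast_ne_zero.2 h0⟩
  have : NeZero (l ^ n) := ⟨h0⟩
  exact HasEnoughRootsOfUnity.exists_primitiveRoot Ω (l ^ n)

/-- (B1) -/
lemma triv_of_pow (hl : l.Prime) {ψ : Ω ≃ₐ[k] Ω} (h2 : ∀ z : Ω, z ^ l ^ 2 = 1 → ψ z = z)
    (hψ : ∀ (n : ℕ) (z : Ω), z ^ l ^ n = 1 → (ψ ^ l) z = z) :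
    ∀ (n : ℕ) (z : Ω), z ^ l ^ n = 1 → ψ z = z := by
  intro n
  induction n with
  | zero =>
    intro z hz
    rw [pow_zero, pow_one] at hz
    rw [hz, map_one]
  | succ n ih =>
    intro z hz
    have hz0 : z ≠ 0 := by
      rintro rfl
      rw [zero_pow (pow_pos hl.pos _).ne'] at hz
      exact zero_ne_one hz
    have h3 : ψ (z ^ l) = z ^ l := ih (z ^ l) (by rw [← pow_mul, ← pow_succ']; exact hz)
    obtain ⟨y, hy⟩ := IsAlgClosed.exists_pow_nat_eq z hl.pos
    have hy0 : y ≠ 0 := by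
      rintro rfl
      rw [zero_pow hl.ne_zero] at hy
      exact hz0 hy.symm
    set δ := ψ y / y with hδ
    have hψy : ψ y = y * δ := by rw [hδ]; field_simp
    have hδl : z * δ ^ l = ψ z := by
      rw [← hy, map_pow, hψy, mul_pow]
    have hδ2 : δ ^ l ^ 2 = 1 := by
      have h4 : z ^ l * (δ ^ l) ^ l = z ^ l := by
        rw [← mul_pow, hδl, ← map_pow, h3]
      have h5 : (δ ^ l) ^ l = 1 := mul_left_cancel₀ (pow_ne_zero l hz0) (by rw [h4, mul_one])
      rw [← pow_mul, ← sq] at h5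
      exact h5
    have hψδ : ψ δ = δ := h2 δ hδ2
    have hpow : ∀ j : ℕ, (ψ ^ j) y = y * δ ^ j := by
      intro j
      induction j with
      | zero => simp
      | succ j ihj =>
        rw [pow_succ']
        change ψ ((ψ ^ j) y) = _
        rw [ihj, map_mul, map_pow, hψδ, hψy, pow_succ']
        ring
    have h6 : (ψ ^ l) y = y := hψ (n + 2) y (by
      rw [show l ^ (n + 2) = l * l ^ (n + 1) by ring, pow_mul, hy, hz])
    rw [hpow] at h6
    have h7 : δ ^ l = 1 := mul_left_cancel₀ hy0 (by rw [h6, mul_one])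
    rw [← hδl, h7, mul_one]

/-- (B2) -/
lemma triv_of_pow_pow (hl : l.Prime) {φ : Ω ≃ₐ[k] Ω} (h2 : ∀ z : Ω, z ^ l ^ 2 = 1 → φ z = z)
    (e : ℕ) (hφ : ∀ (n : ℕ) (z : Ω), z ^ l ^ n = 1 → (φ ^ l ^ e) z = z) :
    ∀ (n : ℕ) (z : Ω), z ^ l ^ n = 1 → φ z = z := by
  induction e with
  | zero => simpa using hφ
  | succ e ih =>
    apply ih
    apply triv_of_pow hl
    · intro z hz
      have h3 : ∀ j : ℕ, (φ ^ j) z = z := by
        intro j
        induction j with
        | zero => rfl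
        | succ j ihj =>
          rw [pow_succ']
          change φ ((φ ^ j) z) = z
          rw [ihj, h2 z hz]
      exact h3 _
    · intro n z hz
      rw [← pow_mul, ← pow_succ]
      exact hφ n z hz

end Mu

section Cyc

variable [CharZero k] [CharZero Ω] [IsAlgClosed Ω] [IsGalois k Ω]

/-- the stabiliser of a primitive `l ^ N`-th root of unity is the kernel of the cyclotomic
character mod `l ^ N` -/
lemma mem_ker_iff {N : ℕ} {ζ : Ω} [NeZero (l ^ N)] (hζ : IsPrimitiveRoot ζ (l ^ N))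
    (g : Ω ≃ₐ[k] Ω) : g ∈ (hζ.autToPow k).ker ↔ g ζ = ζ := by
  rw [MonoidHom.mem_ker]
  have hspec := hζ.autToPow_spec k g
  constructor
  · intro h
    rw [← hspec, h]
    by_cases hN : l ^ N = 1
    · have : ζ = 1 := by
        have := hζ.pow_eq_one
        rwa [hN, pow_one] at this
      rw [this, one_pow]
    · have : Fact (1 < l ^ N) := ⟨lt_of_le_of_ne (Nat.pos_of_ne_zero (NeZero.ne _)) (Ne.symm hN)⟩
      rw [Units.val_one, ZMod.val_one, pow_one]
  · intro h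
    rw [h] at hspec
    by_cases hN : l ^ N = 1
    · have hsub : ∀ n : ℕ, n = 1 → Subsingleton (ZMod n) := by
        rintro n rfl
        infer_instance
      have := hsub _ hN
      exact Units.ext (Subsingleton.elim _ _)
    · have h1l : 1 < l ^ N := lt_of_le_of_ne (Nat.pos_of_ne_zero (NeZero.ne _)) (Ne.symm hN)
      have h1 : ζ ^ ((hζ.autToPow k g : ZMod (l ^ N))).val = ζ ^ (1 : ℕ) := by
        rw [hspec, pow_one]
      have h2 := hζ.pow_inj (ZMod.val_lt _) h1l h1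
      apply Units.ext
      rw [Units.val_one, ← ZMod.natCast_zmod_val ((hζ.autToPow k g : ZMod (l ^ N))), h2,
        Nat.cast_one]

/-- The index of the stabiliser of a primitive `l ^ N`-th root of unity is bounded if the elements
of `P` trivial on `μ_(l ^ 2)` are trivial on all `μ_(l ^ n)`. -/
lemma finrank_bound (hl : l.Prime) (hco : IsCoSylow l P)
    (htriv : ∀ φ ∈ P, (∀ z : Ω, z ^ l ^ 2 = 1 → φ z = z) →
      ∀ (n : ℕ) (z : Ω), z ^ l ^ n = 1 → φ z = z) {N : ℕ} {ζ : Ω}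
    (hζ : IsPrimitiveRoot ζ (l ^ N)) :
    Module.finrank k k⟮ζ⟯ ≤ (l ^ 2).totient * (l - 1) := by
  have : NeZero (l ^ N) := ⟨pow_ne_zero _ hl.ne_zero⟩
  have : NeZero (l ^ 2) := ⟨pow_ne_zero _ hl.ne_zero⟩
  obtain ⟨ξ, hξ⟩ := exists_prim (Ω := Ω) hl 2
  set K := (hζ.autToPow k).ker with hK
  set K2 := (hξ.autToPow k).ker with hK2
  have hidx : ∀ {n : ℕ} {z : Ω} [NeZero (l ^ n)] (hz : IsPrimitiveRoot z (l ^ n)),
      (hz.autToPow k).ker.index ∣ (l ^ n).totient := by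
    intro n z _ hz
    rw [Subgroup.index_ker, ← ZMod.card_units_eq_totient, ← Nat.card_eq_fintype_card]
    exact Subgroup.card_subgroup_dvd_card _
  have hopen : IsOpen (K : Set (Ω ≃ₐ[k] Ω)) := by
    have h1 : (K : Set (Ω ≃ₐ[k] Ω)) = {g | g ζ = ζ} := by
      ext g
      exact mem_ker_iff hζ g
    rw [h1]
    exact isOpen_apply_eq ζ ζ
  let KN : OpenNormalSubgroup (Ω ≃ₐ[k] Ω) := ⟨⟨K, hopen⟩, inferInstanceAs K.Normal⟩
  have hKN : ¬ l ∣ (P ⊔ K).index := hco.not_dvd KN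
  have hK0 : K.index ≠ 0 := index_ne_zero_of_isOpen K hopen
  have h1 : K.relIndex P * (K ⊔ P).index = K.index := by
    rw [← Subgroup.relIndex_sup_left]; exact Subgroup.relIndex_mul_index le_sup_left
  have h2 : (K ⊔ P).index ∣ l - 1 := by
    rcases Nat.eq_zero_or_pos N with rfl | hN
    · have h3 : (K ⊔ P).index ∣ (l ^ 0).totient := (Subgroup.index_dvd_of_le le_sup_left).trans
        (hidx hζ)
      rw [pow_zero, Nat.totient_one] at h3
      rw [Nat.dvd_one.1 h3]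
      exact one_dvd _
    · have h3 : (K ⊔ P).index ∣ (l ^ N).totient := (Subgroup.index_dvd_of_le le_sup_left).trans
        (hidx hζ)
      rw [Nat.totient_prime_pow hl hN] at h3
      refine Nat.Coprime.dvd_of_dvd_mul_left ?_ h3
      rw [Nat.coprime_comm]
      apply Nat.Coprime.pow_left
      rw [sup_comm]
      exact (Nat.Prime.coprime_iff_not_dvd hl).2 hKN
  have h4 : K.relIndex P ∣ (l ^ 2).totient := by
    have h5 : K2 ⊓ P ≤ K := by
      rintro g ⟨hg, hgP⟩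
      have h6 : g ξ = ξ := (mem_ker_iff hξ g).1 hg
      refine (mem_ker_iff hζ g).2 (htriv g hgP ?_ N ζ hζ.pow_eq_one)
      intro z hz
      obtain ⟨i, -, rfl⟩ := hξ.eq_pow_of_pow_eq_one hz
      rw [map_pow, h6]
    have h7 : K.relIndex P ∣ K2.relIndex P := by
      rw [← Subgroup.inf_relIndex_right K2 P]
      exact Subgroup.relIndex_dvd_of_le_left P h5
    exact h7.trans ((Subgroup.relIndex_dvd_index_of_normal K2 P).trans (hidx hξ))
  have h8 : K.index ≤ (l ^ 2).totient * (l - 1) := by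
    rw [← h1]
    exact Nat.mul_le_mul
      (Nat.le_of_dvd (Nat.totient_pos.2 (pow_pos hl.pos 2)) h4)
      (Nat.le_of_dvd (Nat.sub_pos_of_lt hl.one_lt) h2)
  have h9 : K ≤ (k⟮ζ⟯).fixingSubgroup := by
    intro g hg
    rw [IntermediateField.mem_fixingSubgroup_iff]
    exact (IntermediateField.forall_mem_adjoin_smul_eq_self_iff k (S := {ζ}) g).2
      (by rintro x rfl; exact (mem_ker_iff hζ g).1 hg)
  rw [IntermediateField.finrank_eq_fixingSubgroup_index]
  exact (Nat.le_of_dvd (Nat.pos_of_ne_zero hK0) (Subgroup.index_dvd_of_le h9)).trans h8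

/-- (CYC) -/
theorem cyc (H : Hyp k w l ϖ) (hco : IsCoSylow l P) (hP : IsProl l P) :
    ∃ φ ∈ P, ∀ m : ℕ, 0 < m → ∃ (n : ℕ) (z : Ω), z ^ l ^ n = 1 ∧ (φ ^ m) z ≠ z := by
  have hl := H.prime
  obtain ⟨φ, hφP, hφ2, n₀, z₀, hz₀, hφz₀⟩ : ∃ φ ∈ P, (∀ z : Ω, z ^ l ^ 2 = 1 → φ z = z) ∧
      ∃ (n : ℕ) (z : Ω), z ^ l ^ n = 1 ∧ φ z ≠ z := by
    by_contra hcon
    push Not at hcon
    choose ζ hζ using fun n => exists_prim (Ω := Ω) hl n
    have hbound : ∀ n, Module.finrank k k⟮ζ n⟯ ≤ (l ^ 2).totient * (l - 1) := fun n =>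
      finrank_bound hl hco hcon (hζ n)
    have hfd : ∀ n, FiniteDimensional k k⟮ζ n⟯ := fun n =>
      IntermediateField.adjoin.finiteDimensional (Algebra.IsIntegral.isIntegral _)
    obtain ⟨N₀, hN₀⟩ : ∃ N₀, ∀ N, Module.finrank k k⟮ζ N⟯ ≤ Module.finrank k k⟮ζ N₀⟯ := by
      have hbdd : BddAbove (Set.range fun n => Module.finrank k k⟮ζ n⟯) :=
        ⟨_, by rintro _ ⟨n, rfl⟩; exact hbound n⟩
      obtain ⟨N₀, hN₀⟩ := Nat.sSup_mem (Set.range_nonempty _) hbdd
      exact ⟨N₀, fun N => by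
        have h1 : Module.finrank k k⟮ζ N₀⟯ = sSup (Set.range fun n => Module.finrank k k⟮ζ n⟯) :=
          hN₀
        rw [h1]
        exact le_csSup hbdd ⟨N, rfl⟩⟩
    have hmono : ∀ {m n : ℕ}, m ≤ n → k⟮ζ m⟯ ≤ k⟮ζ n⟯ := by
      intro m n hmn
      rw [IntermediateField.adjoin_simple_le_iff]
      have : NeZero (l ^ n) := ⟨pow_ne_zero _ hl.ne_zero⟩
      obtain ⟨i, -, hi⟩ := (hζ n).eq_pow_of_pow_eq_one (ξ := ζ m) (by
        obtain ⟨j, rfl⟩ := Nat.exists_eq_add_of_le hmn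
        rw [pow_add, pow_mul, (hζ m).pow_eq_one, one_pow])
      rw [← hi]
      exact pow_mem (IntermediateField.mem_adjoin_simple_self k _) i
    have hall : ∀ n, ζ n ∈ k⟮ζ N₀⟯ := by
      intro n
      rcases le_total n N₀ with h | h
      · exact hmono h (IntermediateField.mem_adjoin_simple_self k _)
      · have h1 : k⟮ζ N₀⟯ = k⟮ζ n⟯ :=
          IntermediateField.eq_of_le_of_finrank_le (hmono h) (hN₀ n)
        rw [h1]
        exact IntermediateField.mem_adjoin_simple_self k _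
    have hfin := H.mufin k⟮ζ N₀⟯ (hfd N₀)
    have hinj : Function.Injective ζ := by
      intro m n hmn
      have h1 := (hζ m).eq_orderOf
      rw [hmn, ← (hζ n).eq_orderOf] at h1
      exact Nat.pow_right_injective hl.two_le h1
    have hinf : Set.Infinite {z : Ω | z ∈ k⟮ζ N₀⟯ ∧ ∃ n : ℕ, z ^ l ^ n = 1} :=
      Set.infinite_of_injective_forall_mem hinj (fun n => ⟨hall n, n, (hζ n).pow_eq_one⟩)
    exact hinf hfin
  refine ⟨φ, hφP, ?_⟩
  intro m hm
  by_contra hcon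
  push Not at hcon
  obtain ⟨e, m', hm', rfl⟩ := Nat.exists_eq_pow_mul_and_not_dvd hm.ne' l hl.ne_one
  refine hφz₀ (triv_of_pow_pow hl hφ2 e ?_ n₀ z₀ hz₀)
  intro n z hz
  obtain ⟨j, hj⟩ := exists_pow_fix hP (pow_mem hφP (l ^ e)) z
  have h1 : ((φ ^ l ^ e) ^ m') z = z := by
    rw [← pow_mul]
    exact hcon n z hz
  have hcop : IsCoprime (m' : ℤ) ((l ^ j : ℕ) : ℤ) := by
    rw [Nat.isCoprime_iff_coprime]
    apply Nat.Coprime.pow_right
    rw [Nat.coprime_comm]
    exact (Nat.Prime.coprime_iff_not_dvd hl).2 hm'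
  obtain ⟨u, v, huv⟩ := hcop
  set ψ := φ ^ l ^ e with hψ
  have h2 : ψ ^ m' ∈ MulAction.stabilizer (Ω ≃ₐ[k] Ω) z := h1
  have h3 : ψ ^ l ^ j ∈ MulAction.stabilizer (Ω ≃ₐ[k] Ω) z := hj
  have h4 : ψ = (ψ ^ m') ^ u * (ψ ^ l ^ j) ^ v := by
    rw [← zpow_natCast ψ m', ← zpow_natCast ψ (l ^ j), ← zpow_mul, ← zpow_mul, ← zpow_add,
      mul_comm (m' : ℤ), mul_comm ((l ^ j : ℕ) : ℤ), huv, zpow_one]
  have h5 : ψ ∈ MulAction.stabilizer (Ω ≃ₐ[k] Ω) z := by
    rw [h4]
    exact mul_mem (zpow_mem h2 u) (zpow_mem h3 v)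
  exact h5

end Cyc

end Crest.Agent.R013.Tau4_512
end

-- ▼ part R013/Tau5_512

/-!
# A-TAU, part 5: the main theorem in abstract form   (row 13, helper512)

`exists_tauData : Hyp k w l ϖ → IsCoSylow l P → IsProl l P → ∃ τ φ vp, TauData w l ϖ P τ φ vp`.
-/

set_option autoImplicit false
set_option linter.unusedSectionVars false

open scoped NNReal IntermediateField
open Crest.Agent.R013.Fp4_831
open Crest.Agent.R013.Tau1_512
open Crest.Agent.R013.Tau2_512

namespace Crest.Agent.R013.Tau5_512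

variable {k Ω : Type*} [Field k] [Field Ω] [Algebra k Ω]
variable {w : Valuation Ω ℝ≥0} {l : ℕ} {ϖ : k} {P : Subgroup (Ω ≃ₐ[k] Ω)}

/-- The closure of the group generated by `τ`. -/
def Cl (τ : Ω ≃ₐ[k] Ω) : Subgroup (Ω ≃ₐ[k] Ω) := (Subgroup.zpowers τ).topologicalClosure

/-- The tame generator `τ` and the Frobenius like element `φ` of an `l`-Sylow subgroup `P` of
`Gal(Ω/k)`. -/
structure TauData (w : Valuation Ω ℝ≥0) (l : ℕ) (ϖ : k) (P : Subgroup (Ω ≃ₐ[k] Ω))
    (τ φ : Ω ≃ₐ[k] Ω) (vp : ℕ → Ω) : Prop where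
  /-- `τ` and `φ` are in `P` -/
  tau_mem : τ ∈ P
  phi_mem : φ ∈ P
  /-- (T1) `τ` fixes the roots of unity of unit order -/
  tau_MU : ∀ z ∈ MU w, τ z = z
  /-- (T2) `vp n = ϖ ^ (1 / l ^ n)`, `τ (vp n) / vp n` is a primitive `l ^ n`-th root of unity -/
  vp_zero : vp 0 = algebraMap k Ω ϖ
  vp_succ : ∀ n, vp (n + 1) ^ l = vp n
  vp_prim : ∀ n, IsPrimitiveRoot (τ (vp n) / vp n) (l ^ n)
  /-- (T3) -/
  mem_Cl : ∀ g ∈ P, (∀ z ∈ MU w, g z = z) → g ∈ Cl τ
  /-- (T4) -/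
  conj_mem : ∀ g ∈ P, g * τ * g⁻¹ ∈ Cl τ
  /-- (T5) -/
  phi_pow : ∀ m : ℕ, 0 < m → ∃ (n : ℕ) (z : Ω), z ^ l ^ n = 1 ∧ (φ ^ m) z ≠ z
  /-- (T6) -/
  conj_eq : ∀ g ∈ P, ∀ a n : ℕ, (∀ z : Ω, z ^ l ^ n = 1 → g z = z ^ a) →
    ∃ t ∈ Cl τ, g * τ * g⁻¹ = τ ^ a * t ^ l ^ n
  /-- (T7) -/
  between : ∀ a b : ℝ≥0, a < b → ∀ j : ℕ, ∃ x : Ω, (τ ^ l ^ j) x = x ∧ a < w x ∧ w x < b ∧
    ∀ y : Ω, y ^ l = x → (τ ^ l ^ j) y ≠ y
  /-- (T9) units of the fixed field of `τ ^ (l ^ j)` are `l`-divisible -/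
  unit_div : ∀ (j : ℕ) (x y : Ω), (τ ^ l ^ j) x = x → w x = 1 → y ^ l = x → (τ ^ l ^ j) y = y
  /-- (T10) the fixed field of `τ ^ (l ^ j)` modulo `l`-th powers is generated by `vp j` -/
  mod_pow : ∀ (j : ℕ) (x : Ω), (τ ^ l ^ j) x = x → x ≠ 0 → ∃ (i : ℤ) (y : Ω),
    (τ ^ l ^ j) y = y ∧ x = vp j ^ i * y ^ l

section Basic

variable [IsGalois k Ω]

lemma self_mem_Cl (τ : Ω ≃ₐ[k] Ω) : τ ∈ Cl τ :=
  (Subgroup.zpowers τ).le_topologicalClosure (Subgroup.mem_zpowers τ)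

lemma isClosed_Cl (τ : Ω ≃ₐ[k] Ω) : IsClosed (Cl τ : Set (Ω ≃ₐ[k] Ω)) :=
  Subgroup.isClosed_topologicalClosure _

lemma Cl_le {τ : Ω ≃ₐ[k] Ω} {D : Subgroup (Ω ≃ₐ[k] Ω)} (hD : IsClosed (D : Set (Ω ≃ₐ[k] Ω)))
    (hτ : τ ∈ D) : Cl τ ≤ D :=
  Subgroup.topologicalClosure_minimal _ (by rwa [Subgroup.zpowers_le]) hD

/-- what is fixed by `τ` is fixed by its closure -/
lemma Cl_fix {τ g : Ω ≃ₐ[k] Ω} (hg : g ∈ Cl τ) {x : Ω} (hx : τ x = x) : g x = x := by
  have h1 : Cl τ ≤ MulAction.stabilizer (Ω ≃ₐ[k] Ω) x :=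
    Cl_le (Subgroup.isClosed_of_isOpen _ (stabilizer_isOpen_of_isIntegral x)) hx
  exact h1 hg


lemma pow_apply_of_fix {g : Ω ≃ₐ[k] Ω} {x : Ω} (hx : g x = x) (m : ℕ) : (g ^ m) x = x := by
  induction m with
  | zero => rfl
  | succ m ih =>
    rw [pow_succ']
    change g ((g ^ m) x) = x
    rw [ih, hx]

/-- `g x = z x` with `z` fixed by `g` -/
lemma pow_apply_mul {g : Ω ≃ₐ[k] Ω} {x z : Ω} (hx : g x = z * x) (hz : g z = z) (m : ℕ) :
    (g ^ m) x = z ^ m * x := by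
  induction m with
  | zero => simp
  | succ m ih =>
    rw [pow_succ']
    change g ((g ^ m) x) = _
    rw [ih, map_mul, map_pow, hx, hz]
    ring

/-- an element of a pro-`l` group multiplying `x` by a fixed `N`-th root of unity, `l ∤ N`, fixes
`x` -/
lemma fix_of_coprime {g : Ω ≃ₐ[k] Ω} (hl : l.Prime) (hpro : ∀ x : Ω, ∃ n, (g ^ l ^ n) x = x)
    {x z : Ω} {N : ℕ} (hN : ¬ l ∣ N) (hx : g x = z * x) (hz : g z = z) (hzN : z ^ N = 1) :
    g x = x := by
  rcases eq_or_ne x 0 with rfl | hx0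
  · rw [map_zero]
  obtain ⟨n, hn⟩ := hpro x
  rw [pow_apply_mul hx hz] at hn
  have h1 : z ^ l ^ n = 1 := mul_right_cancel₀ hx0 (by rw [hn, one_mul])
  have h2 : orderOf z ∣ l ^ n := orderOf_dvd_of_pow_eq_one h1
  have h3 : orderOf z ∣ N := orderOf_dvd_of_pow_eq_one hzN
  have h4 : Nat.Coprime (l ^ n) N := Nat.Coprime.pow_left n ((Nat.Prime.coprime_iff_not_dvd hl).2 hN)
  have h5 : orderOf z = 1 := Nat.eq_one_of_dvd_coprimes h4 h2 h3
  rw [hx, orderOf_eq_one_iff.1 h5, one_mul]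

end Basic

section Main

variable [CharZero k] [CharZero Ω] [IsAlgClosed Ω] [IsGalois k Ω]

/-- elements of the closure of `⟨τ⟩` with prescribed action on the `vp n` -/
lemma exists_Cl (hP : IsProl l P) (H : Hyp k w l ϖ) {τ : Ω ≃ₐ[k] Ω} {vp : ℕ → Ω}
    (hvp0 : vp 0 = algebraMap k Ω ϖ) (hvp : ∀ n, vp (n + 1) ^ l = vp n)
    (hcl : IsClosed (P : Set (Ω ≃ₐ[k] Ω))) (hτP : τ ∈ P)
    (hτMU : ∀ z ∈ MU w, τ z = z) (hprim : ∀ n, IsPrimitiveRoot (τ (vp n) / vp n) (l ^ n))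
    (e : ℕ) (s : Ω ≃ₐ[k] Ω) (hs : s ∈ P) (hsMU : ∀ z ∈ MU w, s z = z)
    (hse : s (vp e) = vp e) : ∃ t ∈ Cl τ, s = t ^ l ^ e := by
  have hl := H.prime
  have hvpb : ∀ b, vp b ^ l ^ b = algebraMap k Ω ϖ := by
    intro b
    induction b with
    | zero => rw [pow_zero, pow_one, hvp0]
    | succ b ih => rw [pow_succ', pow_mul, hvp, ih]
  have hvpne : ∀ b, vp b ≠ 0 := by
    intro b h0
    have h1 := hvpb b
    rw [h0, zero_pow (pow_pos hl.pos b).ne'] at h1
    exact H.pi_ne ((map_eq_zero (algebraMap k Ω)).1 h1.symm)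
  have hpow : ∀ m n, vp (m + n) ^ l ^ n = vp m := by
    intro m n
    induction n with
    | zero => simp
    | succ n ih => rw [← add_assoc, pow_succ', pow_mul, hvp, ih]
  let A : ℕ → Set (Ω ≃ₐ[k] Ω) := fun n => (Cl τ : Set (Ω ≃ₐ[k] Ω)) ∩
    (fun t => t ^ l ^ e) ⁻¹' {g | g (vp (e + n)) = s (vp (e + n))}
  obtain ⟨t, ht⟩ := exists_mem_of_decr A
    (fun n => (isClosed_Cl τ).inter ((isClosed_apply_eq _ _).preimage (continuous_pow _)))
    (fun n => by
      have hζ := hprim (e + n)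
      set ζ := τ (vp (e + n)) / vp (e + n) with hζdef
      have : NeZero (l ^ (e + n)) := ⟨pow_ne_zero _ hl.ne_zero⟩
      have hτv : τ (vp (e + n)) = ζ * vp (e + n) := by
        rw [hζdef]; field_simp [hvpne (e + n)]
      have hτζ : τ ζ = ζ := hτMU ζ (mem_MU_of_pow H hζ.pow_eq_one)
      have h1 : (s (vp (e + n)) / vp (e + n)) ^ l ^ n = 1 := by
        rw [div_pow, ← map_pow, hpow, hse, div_self (hvpne e)]
      obtain ⟨i, -, hi⟩ := hζ.eq_pow_of_pow_eq_one (ξ := s (vp (e + n)) / vp (e + n)) (by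
        rw [pow_add, mul_comm, pow_mul, h1, one_pow])
      have hi' : s (vp (e + n)) = ζ ^ i * vp (e + n) := by
        rw [hi]; field_simp [hvpne (e + n)]
      have h2 : l ^ (e + n) ∣ i * l ^ n := by
        apply hζ.dvd_of_pow_eq_one
        rw [pow_mul, hi, h1]
      rw [pow_add] at h2
      obtain ⟨c, rfl⟩ := Nat.dvd_of_mul_dvd_mul_right (pow_pos hl.pos n) h2
      refine ⟨τ ^ c, pow_mem (self_mem_Cl τ) c, ?_⟩
      change ((τ ^ c) ^ l ^ e) (vp (e + n)) = s (vp (e + n))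
      rw [hi', ← pow_mul, mul_comm c, pow_apply_mul hτv hτζ])
    (fun n => by
      rintro t ⟨ht1, ht2⟩
      refine ⟨ht1, ?_⟩
      change (t ^ l ^ e) (vp (e + n)) = s (vp (e + n))
      have ht2' : (t ^ l ^ e) (vp (e + (n + 1))) = s (vp (e + (n + 1))) := ht2
      rw [← add_assoc] at ht2'
      rw [← hvp (e + n), map_pow, ht2', map_pow])
  have htC : t ∈ Cl τ := (ht 0).1
  refine ⟨t, htC, ?_⟩
  have htP : t ∈ P := Cl_le hcl hτP htC
  have htMU : ∀ z ∈ MU w, (t ^ l ^ e) z = z := fun z hz =>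
    pow_apply_of_fix (Cl_fix htC (hτMU z hz)) _
  have key : (t ^ l ^ e)⁻¹ * s = 1 := by
    refine inj H hP hvp0 hvp (mul_mem (inv_mem (pow_mem htP _)) hs) ?_ ?_
    · intro z hz
      change (t ^ l ^ e)⁻¹ (s z) = z
      rw [hsMU z hz]
      nth_rewrite 1 [← htMU z hz]
      exact AlgEquiv.symm_apply_apply _ _
    · intro n
      have h3 : (t ^ l ^ e) (vp (e + n)) = s (vp (e + n)) := (ht n).2
      have h4 : ((t ^ l ^ e)⁻¹ * s) (vp (e + n)) = vp (e + n) := by
        change (t ^ l ^ e)⁻¹ (s (vp (e + n))) = _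
        rw [← h3]
        exact AlgEquiv.symm_apply_apply _ _
      have h5 : vp n = vp (n + e) ^ l ^ e := (hpow n e).symm
      rw [h5, map_pow, add_comm n e, h4]
  exact (inv_mul_eq_one.1 key).symm

/-- (T9), (T10) and (T7) for an element `g` (`= τ ^ l ^ j`) of `P` fixing `MU` and `v = vp j` and
moving the `l`-th root `v'` of `v`. -/
lemma unit_div_aux (H : Hyp k w l ϖ) {g : Ω ≃ₐ[k] Ω} (hg : ∀ z ∈ MU w, g z = z) {x y : Ω}
    (hx : g x = x) (hwx : w x = 1) (hy : y ^ l = x) : g y = y := by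
  have hwy : w y = 1 := by
    have h : w y ^ l = 1 := by rw [← map_pow, hy, hwx]
    exact (pow_eq_one_iff_of_nonneg zero_le H.prime.ne_zero).1 h
  have hy0 : y ≠ 0 := by
    rintro rfl
    simp at hwy
  set η := g y / y with hη
  have hgy : g y = η * y := by rw [hη]; field_simp
  have hηl : η ^ l = 1 := by
    rw [hη, div_pow, ← map_pow, hy, hx, div_self]
    rw [← hy]
    exact pow_ne_zero _ hy0
  by_cases h1 : η = 1
  · rw [hgy, h1, one_mul]
  · have hηMU : η ∈ MU w := mem_MU_of_pow H (n := 1) (by rwa [pow_one])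
    have h2 := w_map_sub_lt H.inv H.res hg hwy
    have h3 : g y - y = (η - 1) * y := by rw [hgy]; ring
    rw [h3, map_mul, hwy, mul_one, w_sub_one hηMU h1] at h2
    exact absurd h2 (lt_irrefl _)

lemma mod_pow_aux (H : Hyp k w l ϖ) {g : Ω ≃ₐ[k] Ω} (hg : ∀ z ∈ MU w, g z = z) {vp : ℕ → Ω}
    (hvp0 : vp 0 = algebraMap k Ω ϖ) (hvp : ∀ n, vp (n + 1) ^ l = vp n) (j : ℕ)
    (hprim : ∀ n, IsPrimitiveRoot (g (vp (j + n)) / vp (j + n)) (l ^ n))
    {x : Ω} (hx : g x = x) (hx0 : x ≠ 0) :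
    ∃ (i : ℤ) (y : Ω), g y = y ∧ x = vp j ^ i * y ^ l := by
  have hl := H.prime
  have hpow : ∀ m n, vp (m + n) ^ l ^ n = vp m := by
    intro m n
    induction n with
    | zero => simp
    | succ n ih => rw [← add_assoc, pow_succ', pow_mul, hvp, ih]
  have hvpb : ∀ b, vp b ^ l ^ b = algebraMap k Ω ϖ := by
    intro b
    rw [← hvp0, ← hpow 0 b, zero_add]
  have hvpne : ∀ b, vp b ≠ 0 := by
    intro b h0
    have h1 := hvpb b
    rw [h0, zero_pow (pow_pos hl.pos b).ne'] at h1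
    exact H.pi_ne ((map_eq_zero (algebraMap k Ω)).1 h1.symm)
  obtain ⟨m, hm⟩ := exists_w_pow H.inv H.disc hx0
  set d := (minpoly k x).natDegree with hd
  have hd0 : d ≠ 0 := (minpoly.natDegree_pos (Algebra.IsIntegral.isIntegral x)).ne'
  obtain ⟨b, s, hls, hds⟩ := Nat.exists_eq_pow_mul_and_not_dvd hd0 l hl.ne_one
  -- `w x ^ s = w (vp (j + b)) ^ m'` with `m' = m * l ^ j`
  have hval : w x ^ s = w (vp (j + b)) ^ (m * (l ^ j : ℕ)) := by
    have h1 : (w x ^ s) ^ l ^ b = (w (vp (j + b)) ^ (m * (l ^ j : ℕ))) ^ l ^ b := by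
      rw [← pow_mul, mul_comm s, ← hds, hm, ← hvpb (j + b), map_pow, ← zpow_natCast,
        ← zpow_natCast, ← zpow_mul, ← zpow_mul]
      congr 1
      rw [pow_add]
      push_cast
      ring
    exact (pow_left_inj₀ zero_le zero_le (pow_pos hl.pos b).ne').1 h1
  set m' : ℤ := m * (l ^ j : ℕ) with hm'
  -- the unit `x ^ s / vp (j + b) ^ m'`
  set ζ := g (vp (j + b)) / vp (j + b) with hζdef
  have hζ : IsPrimitiveRoot ζ (l ^ b) := hprim b
  have hgv : g (vp (j + b)) = ζ * vp (j + b) := by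
    rw [hζdef]; field_simp [hvpne (j + b)]
  have hζ0 : ζ ≠ 0 := hζ.ne_zero (pow_ne_zero _ hl.ne_zero)
  have hζMU : ζ ^ m' ∈ MU w := by
    apply mem_MU_of_pow H (n := b)
    rw [← zpow_natCast, ← zpow_mul, mul_comm, zpow_mul, zpow_natCast, hζ.pow_eq_one, one_zpow]
  set q := x ^ s / vp (j + b) ^ m' with hq
  have hwq : w q = 1 := by
    rw [hq, map_div₀, map_pow, map_zpow₀, hval, div_self]
    apply zpow_ne_zero
    rw [Ne, map_eq_zero]
    exact hvpne _
  have hgq : g q = (ζ ^ m')⁻¹ * q := by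
    rw [hq, map_div₀, map_pow, map_zpow₀, hgv, hx, mul_zpow]
    field_simp
  have h1 : (ζ ^ m')⁻¹ = 1 := by
    by_contra hne
    have h2 := w_map_sub_lt H.inv H.res hg hwq
    have h3 : g q - q = ((ζ ^ m')⁻¹ - 1) * q := by rw [hgq]; ring
    rw [h3, map_mul, hwq, mul_one, w_sub_one (inv_mem_MU hζMU) hne] at h2
    exact lt_irrefl _ h2
  rw [inv_eq_one] at h1
  obtain ⟨m'', hm''⟩ : ((l ^ b : ℕ) : ℤ) ∣ m' := (hζ.zpow_eq_one_iff_dvd m').1 h1
  have hq' : x ^ s = vp j ^ m'' * q := by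
    have h2 : vp (j + b) ^ m' = vp j ^ m'' := by
      rw [hm'', zpow_mul, zpow_natCast, hpow]
    rw [hq, h2]
    field_simp [zpow_ne_zero m'' (hvpne j)]
  have hgq1 : g q = q := by rw [hgq, h1, inv_one, one_mul]
  obtain ⟨r, hr⟩ := IsAlgClosed.exists_pow_nat_eq q hl.pos
  have hgr : g r = r := unit_div_aux H hg hgq1 hwq hr
  have hq0 : q ≠ 0 := by
    intro h0
    rw [h0, map_zero] at hwq
    exact zero_ne_one hwq
  -- Bezout
  have hcop : IsCoprime (s : ℤ) (l : ℤ) := by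
    rw [Nat.isCoprime_iff_coprime, Nat.coprime_comm]
    exact (Nat.Prime.coprime_iff_not_dvd hl).2 hls
  obtain ⟨u, v, huv⟩ := hcop
  refine ⟨m'' * u, r ^ u * x ^ v, ?_, ?_⟩
  · rw [map_mul, map_zpow₀, map_zpow₀, hgr, hx]
  · have h4 : x = (x ^ s) ^ u * (x ^ l) ^ v := by
      rw [← zpow_natCast, ← zpow_natCast, ← zpow_mul, ← zpow_mul, ← zpow_add₀ hx0,
        mul_comm (s : ℤ), mul_comm (l : ℤ), huv, zpow_one]
    have e : ∀ (z : Ω) (i : ℤ), (z ^ l) ^ i = (z ^ i) ^ l := by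
      intro z i
      rw [← zpow_natCast, ← zpow_natCast, ← zpow_mul, ← zpow_mul, mul_comm]
    conv_lhs => rw [h4, hq', ← hr]
    rw [mul_zpow, mul_pow, zpow_mul, e r u, e x v]
    ring

lemma between_aux (H : Hyp k w l ϖ) {g : Ω ≃ₐ[k] Ω} (hg : ∀ z ∈ MU w, g z = z)
    (hpro : ∀ x : Ω, ∃ n, (g ^ l ^ n) x = x)
    {v v' : Ω} (hv0 : v ≠ 0) (hv1 : w v < 1) (hgv : g v = v) (hv' : v' ^ l = v)
    (hgv' : g v' ≠ v') {a b : ℝ≥0} (hab : a < b) :
    ∃ x : Ω, g x = x ∧ a < w x ∧ w x < b ∧ ∀ y : Ω, y ^ l = x → g y ≠ y := by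
  have hl := H.prime
  have hl2 := hl.two_le
  wlog ha : 0 < a generalizing a
  · have ha0 : a = 0 := nonpos_iff_eq_zero.1 (not_lt.1 ha)
    have hb2 : 0 < b / 2 := by
      have : 0 < b := by rwa [ha0] at hab
      positivity
    have hb3 : b / 2 < b := NNReal.half_lt_self (ne_of_gt (by rwa [ha0] at hab))
    obtain ⟨x, h1, h2, h3, h4⟩ := this hb3 hb2
    exact ⟨x, h1, by rw [ha0]; exact hb2.trans h2, h3, h4⟩
  have hb0 : 0 < b := ha.trans hab
  have hwv : 0 < w v := pos_iff_ne_zero.2 (by rwa [Ne, map_eq_zero])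
  -- choose a large exponent `N`, prime to `l`, with `w N = 1`
  obtain ⟨M, hM⟩ : ∃ M : ℕ, (a / b) ^ M < w v ^ 2 := by
    have h1 : a / b < 1 := (div_lt_one hb0).2 hab
    exact exists_pow_lt_of_lt_one (pow_pos hwv 2) h1
  obtain ⟨N, hMN, hlN, hwN⟩ : ∃ N : ℕ, M < N ∧ ¬ l ∣ N ∧ w (N : Ω) = 1 := by
    set A := l * (M + 1) + 1 with hA
    set B := l * (M + 1) * A + 1 with hB
    have hMA : M < A := by nlinarith
    have hMB : M < B := by nlinarith
    have hlA : ¬ l ∣ A := by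
      intro h
      have h2 : l ∣ 1 := (Nat.dvd_add_right (Dvd.intro _ rfl)).1 h
      exact hl.one_lt.ne' (Nat.dvd_one.1 h2)
    have hlB : ¬ l ∣ B := by
      intro h
      have h2 : l ∣ 1 := (Nat.dvd_add_right ⟨(M + 1) * A, by ring⟩).1 h
      exact hl.one_lt.ne' (Nat.dvd_one.1 h2)
    have hle : ∀ n : ℕ, w (n : Ω) ≤ 1 := by
      intro n
      induction n with
      | zero => simp
      | succ n ih =>
        rw [Nat.cast_succ]
        exact (w.map_add _ _).trans (max_le ih (by rw [map_one]))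
    by_cases h : w (A : Ω) = 1
    · exact ⟨A, hMA, hlA, h⟩
    · refine ⟨B, hMB, hlB, le_antisymm (hle B) ?_⟩
      by_contra hcon
      push Not at hcon
      have h2 : (1 : Ω) = (B : Ω) - ((l * (M + 1) : ℕ) : Ω) * (A : Ω) := by
        rw [hB]; push_cast; ring
      have h3 : w (1 : Ω) < 1 := by
        rw [h2]
        refine (w.map_sub _ _).trans_lt (max_lt hcon ?_)
        rw [map_mul]
        exact (mul_le_of_le_one_left zero_le (hle _)).trans_lt (lt_of_le_of_ne (hle A) h)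
      rw [map_one] at h3
      exact lt_irrefl _ h3
  have hN0 : 0 < N := (Nat.zero_le M).trans_lt hMN
  obtain ⟨β, hβ⟩ := IsAlgClosed.exists_pow_nat_eq v hN0
  have hβ0 : β ≠ 0 := by
    rintro rfl
    rw [zero_pow hN0.ne'] at hβ
    exact hv0 hβ.symm
  have hwβ : 0 < w β := pos_iff_ne_zero.2 (by rwa [Ne, map_eq_zero])
  have hwβ1 : w β < 1 := by
    by_contra hcon
    push Not at hcon
    have h1 : 1 ≤ w β ^ N := one_le_pow_of_one_le' hcon N
    rw [← map_pow, hβ] at h1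
    exact absurd hv1 (not_lt.2 h1)
  -- `g β = β`
  have hgβ : g β = β := by
    set ξ := g β / β with hξ
    have h1 : g β = ξ * β := by rw [hξ]; field_simp
    have h2 : ξ ^ N = 1 := by
      rw [hξ, div_pow, ← map_pow, hβ, hgv, div_self hv0]
    exact fix_of_coprime hl hpro hlN h1 (hg ξ ⟨N, hN0, hwN, h2⟩) h2
  -- step size
  have hstep : a / b < w β ^ 2 := by
    by_contra hcon
    push Not at hcon
    have h1 : (w β ^ 2) ^ N ≤ (a / b) ^ N := pow_le_pow_left' hcon N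
    have h2 : (w β ^ 2) ^ N = w v ^ 2 := by
      rw [← pow_mul, mul_comm, pow_mul, ← map_pow, hβ]
    rw [h2] at h1
    have h3 : (a / b) ^ N ≤ (a / b) ^ M :=
      pow_le_pow_of_le_one zero_le ((div_le_one hb0).2 hab.le) hMN.le
    exact absurd hM (not_lt.2 (h1.trans h3))
  -- the first power below `b`
  obtain ⟨r, hr1, hr2⟩ : ∃ r : ℤ, w β ^ r < b ∧ b ≤ w β ^ (r - 1) := by
    obtain ⟨n, hn1, hn2⟩ := NNReal.exists_mem_Ico_zpow (x := b) (y := (w β)⁻¹) hb0.ne'
      ((one_lt_inv₀ hwβ).2 hwβ1)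
    -- `(w β)⁻¹ ^ n ≤ b < (w β)⁻¹ ^ (n + 1)`
    rw [inv_zpow', ] at hn1 hn2
    rcases hn1.lt_or_eq with h | h
    · exact ⟨-n, h, by
        rw [show -n - 1 = -(n + 1) by ring]
        exact hn2.le⟩
    · refine ⟨-n + 1, ?_, ?_⟩
      · rw [zpow_add_one₀ hwβ.ne', h]
        exact mul_lt_of_lt_one_right hb0 hwβ1
      · rw [add_sub_cancel_right, h]
  have hr3 : a < w β ^ (r + 1) := by
    have h1 : w β ^ (r + 1) = w β ^ (r - 1) * w β ^ 2 := by
      rw [← zpow_natCast (w β) 2, ← zpow_add₀ hwβ.ne']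
      congr 1
      push_cast
      ring
    rw [h1]
    have h2 : a < b * w β ^ 2 := by
      rw [div_lt_iff₀ hb0] at hstep
      rwa [mul_comm]
    exact h2.trans_le (mul_le_mul_left hr2 _)
  have hr4 : w β ^ (r + 1) < b := by
    rw [zpow_add_one₀ hwβ.ne']
    exact (mul_lt_of_lt_one_right (zpow_pos hwβ r) hwβ1).trans hr1
  have hr5 : a < w β ^ r := by
    refine hr3.trans ?_
    rw [zpow_add_one₀ hwβ.ne']
    exact mul_lt_of_lt_one_right (zpow_pos hwβ r) hwβ1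
  -- not an `l`-th power
  have hnot : ∀ r : ℤ, ¬ (l : ℤ) ∣ r → ∀ y : Ω, y ^ l = β ^ r → g y ≠ y := by
    intro r hlr y hy hgy
    have hv'0 : v' ≠ 0 := by
      rintro rfl
      rw [zero_pow hl.ne_zero] at hv'
      exact hv0 hv'.symm
    -- `(y ^ N / v' ^ r) ^ l = 1`
    set η := y ^ N / v' ^ r with hη
    have hηl : η ^ l = 1 := by
      rw [hη, div_pow, ← pow_mul, mul_comm N, pow_mul, hy, ← zpow_natCast (v' ^ r) l, ← zpow_mul,
        mul_comm r, zpow_mul, zpow_natCast, hv', ← zpow_natCast (β ^ r) N, ← zpow_mul, mul_comm r,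
        zpow_mul, zpow_natCast, hβ, div_self]
      exact zpow_ne_zero _ hv0
    have hηMU : η ∈ MU w := mem_MU_of_pow H (n := 1) (by rwa [pow_one])
    have h1 : g (v' ^ r) = v' ^ r := by
      have h2 : v' ^ r = y ^ N / η := by
        have hη0 : η ≠ 0 := ne_zero_MU hηMU
        rw [eq_div_iff hη0, hη]
        field_simp [zpow_ne_zero r hv'0]
      rw [h2, map_div₀, map_pow, hgy, hg η hηMU]
    -- hence `ξ ^ r = 1` for `ξ = g v' / v'`
    set ξ := g v' / v' with hξ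
    have hξ1 : ξ ≠ 1 := by
      intro h
      rw [hξ, div_eq_one_iff_eq hv'0] at h
      exact hgv' h
    have hξl : ξ ^ l = 1 := by rw [hξ, div_pow, ← map_pow, hv', hgv, div_self hv0]
    have hξr : ξ ^ r = 1 := by
      rw [hξ, div_zpow, ← map_zpow₀, h1, div_self (zpow_ne_zero _ hv'0)]
    have hord : orderOf ξ = l := by
      have h2 : orderOf ξ ∣ l := orderOf_dvd_of_pow_eq_one hξl
      rcases (Nat.dvd_prime hl).1 h2 with h3 | h3
      · exact absurd (orderOf_eq_one_iff.1 h3) hξ1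
      · exact h3
    apply hlr
    have hξ0 : ξ ≠ 0 := by
      intro h
      rw [h, zero_pow hl.ne_zero] at hξl
      exact zero_ne_one hξl
    have h4 : (Units.mk0 ξ hξ0) ^ r = 1 := by
      apply Units.ext
      rw [Units.val_zpow_eq_zpow_val, Units.val_mk0, Units.val_one, hξr]
    have h5 := orderOf_dvd_iff_zpow_eq_one.2 h4
    rw [← orderOf_units, Units.val_mk0, hord] at h5
    exact h5
  by_cases hlr : (l : ℤ) ∣ r
  · refine ⟨β ^ (r + 1), by rw [map_zpow₀, hgβ], by rwa [map_zpow₀], by rwa [map_zpow₀],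
      hnot (r + 1) ?_⟩
    intro h
    have h1 : (l : ℤ) ∣ 1 := (Int.dvd_add_right hlr).1 h
    have h2 : l ∣ 1 := by exact_mod_cast h1
    exact hl.one_lt.ne' (Nat.dvd_one.1 h2)
  · exact ⟨β ^ r, by rw [map_zpow₀, hgβ], by rwa [map_zpow₀], by rwa [map_zpow₀], hnot r hlr⟩

/-- **A-TAU, abstract form.** -/
theorem exists_tauData (H : Hyp k w l ϖ) (hco : IsCoSylow l P) (hP : IsProl l P) :
    ∃ (τ φ : Ω ≃ₐ[k] Ω) (vp : ℕ → Ω), TauData w l ϖ P τ φ vp := by
  classical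
  have hl := H.prime
  -- the system `vp`
  choose rt hrt using fun x : Ω => IsAlgClosed.exists_pow_nat_eq x hl.pos
  obtain ⟨vp, hvp0, hvp⟩ : ∃ vp : ℕ → Ω, vp 0 = algebraMap k Ω ϖ ∧
      ∀ n, vp (n + 1) ^ l = vp n :=
    ⟨fun n => Nat.rec (algebraMap k Ω ϖ) (fun _ x => rt x) n, rfl, fun n => hrt _⟩
  have hpow : ∀ m n, vp (m + n) ^ l ^ n = vp m := by
    intro m n
    induction n with
    | zero => simp
    | succ n ih => rw [← add_assoc, pow_succ', pow_mul, hvp, ih]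
  have hvpb : ∀ b, vp b ^ l ^ b = algebraMap k Ω ϖ := by
    intro b
    rw [← hvp0, ← hpow 0 b, zero_add]
  have hvpne : ∀ b, vp b ≠ 0 := by
    intro b h0
    have h1 := hvpb b
    rw [h0, zero_pow (pow_pos hl.pos b).ne'] at h1
    exact H.pi_ne ((map_eq_zero (algebraMap k Ω)).1 h1.symm)
  obtain ⟨τ, hτP, hτMU, hτ1⟩ := Tau3_512.surj H hco (a := vp 1) ((hvp 0).trans hvp0)
  obtain ⟨φ, hφP, hφ⟩ := Tau4_512.cyc H hco hP
  have hτ0 : τ (vp 0) = vp 0 := by rw [hvp0]; exact τ.commutes ϖ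
  have hprim : ∀ n, IsPrimitiveRoot (τ (vp n) / vp n) (l ^ n) := by
    intro n
    have h1 : (τ (vp n) / vp n) ^ l ^ n = 1 := by
      rw [div_pow, ← map_pow, hvpb, τ.commutes, div_self]
      rw [Ne, map_eq_zero]
      exact H.pi_ne
    rcases Nat.eq_zero_or_pos n with rfl | hn
    · rw [pow_zero, IsPrimitiveRoot.one_right_iff]
      rw [hτ0, div_self (hvpne 0)]
    · obtain ⟨m, rfl⟩ := Nat.exists_eq_succ_of_ne_zero hn.ne'
      have : Fact l.Prime := ⟨hl⟩
      refine IsPrimitiveRoot.iff_orderOf.2 (orderOf_eq_prime_pow ?_ h1)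
      rw [div_pow, ← map_pow, Nat.succ_eq_add_one, add_comm m 1, hpow 1 m,
        div_eq_one_iff_eq (hvpne 1)]
      exact hτ1
  have hpro : ∀ (j : ℕ) (x : Ω), ∃ n, ((τ ^ l ^ j) ^ l ^ n) x = x := fun j x =>
    exists_pow_fix hP (pow_mem hτP _) x
  have hτj : ∀ j, ∀ z ∈ MU w, (τ ^ l ^ j) z = z := fun j z hz => pow_apply_of_fix (hτMU z hz) _
  have hτv : ∀ n, τ (vp n) = (τ (vp n) / vp n) * vp n := by
    intro n
    field_simp [hvpne n]
  have hζMU : ∀ n, τ (vp n) / vp n ∈ MU w := fun n => mem_MU_of_pow H (hprim n).pow_eq_one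
  have hτjv : ∀ j n, (τ ^ l ^ j) (vp n) = (τ (vp n) / vp n) ^ l ^ j * vp n := fun j n =>
    pow_apply_mul (hτv n) (hτMU _ (hζMU n)) _
  have hfixj : ∀ j, (τ ^ l ^ j) (vp j) = vp j := by
    intro j
    rw [hτjv, (hprim j).pow_eq_one, one_mul]
  have hprimj : ∀ j n, IsPrimitiveRoot ((τ ^ l ^ j) (vp (j + n)) / vp (j + n)) (l ^ n) := by
    intro j n
    rw [hτjv, mul_div_assoc, div_self (hvpne _), mul_one]
    exact (hprim (j + n)).pow (pow_pos hl.pos _) (pow_add l j n)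
  have hmemCl : ∀ g ∈ P, (∀ z ∈ MU w, g z = z) → g ∈ Cl τ := by
    intro g hg hgMU
    obtain ⟨t, ht, rfl⟩ := exists_Cl hP H hvp0 hvp hco.closed hτP hτMU hprim 0 g hg hgMU
      (by rw [hvp0]; exact g.commutes ϖ)
    rwa [pow_zero, pow_one]
  have hconj : ∀ g ∈ P, g * τ * g⁻¹ ∈ Cl τ := by
    intro g hg
    refine hmemCl _ (mul_mem (mul_mem hg hτP) (inv_mem hg)) ?_
    intro z hz
    change g (τ (g⁻¹ z)) = z
    rw [hτMU _ (map_mem_MU g⁻¹ hz)]
    exact AlgEquiv.apply_symm_apply g z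
  refine ⟨τ, φ, vp, hτP, hφP, hτMU, hvp0, hvp, hprim, hmemCl, hconj, hφ, ?_, ?_, ?_, ?_⟩
  · intro g hg a n hgz
    have hs : (τ ^ a)⁻¹ * (g * τ * g⁻¹) ∈ Cl τ :=
      mul_mem (inv_mem (pow_mem (self_mem_Cl τ) a)) (hconj g hg)
    have hsP : (τ ^ a)⁻¹ * (g * τ * g⁻¹) ∈ P := Cl_le hco.closed hτP hs
    have hsMU : ∀ z ∈ MU w, ((τ ^ a)⁻¹ * (g * τ * g⁻¹)) z = z := fun z hz =>
      Cl_fix hs (hτMU z hz)
    obtain ⟨t, ht, hst⟩ := exists_Cl hP H hvp0 hvp hco.closed hτP hτMU hprim n _ hsP hsMU (by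
      set ζ := τ (vp n) / vp n with hζ
      set ξ := g⁻¹ (vp n) / vp n with hξ
      have hξn : ξ ^ l ^ n = 1 := by
        rw [hξ, div_pow, ← map_pow, hvpb, AlgEquiv.commutes, div_self]
        rw [Ne, map_eq_zero]
        exact H.pi_ne
      have h1 : g⁻¹ (vp n) = ξ * vp n := by rw [hξ]; field_simp [hvpne n]
      have h2 : g (g⁻¹ (vp n)) = vp n := AlgEquiv.apply_symm_apply g _
      have h3 : (g * τ * g⁻¹) (vp n) = ζ ^ a * vp n := by
        change g (τ (g⁻¹ (vp n))) = _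
        have h4 : τ (g⁻¹ (vp n)) = ζ * g⁻¹ (vp n) := by
          rw [h1, map_mul, hτMU ξ (mem_MU_of_pow H hξn), hτv]
          ring
        rw [h4, map_mul, h2, hgz ζ (hprim n).pow_eq_one]
      change (τ ^ a)⁻¹ ((g * τ * g⁻¹) (vp n)) = vp n
      rw [h3, ← pow_apply_mul (hτv n) (hτMU _ (hζMU n))]
      exact AlgEquiv.symm_apply_apply (τ ^ a) _)
    exact ⟨t, ht, by rw [← hst, mul_inv_cancel_left]⟩
  · intro a b hab j
    refine between_aux H (hτj j) (hpro j) (hvpne j) ?_ (hfixj j) (hvp j) ?_ hab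
    · by_contra hcon
      push Not at hcon
      have h1 : 1 ≤ w (vp j) ^ l ^ j := one_le_pow_of_one_le' hcon _
      rw [← map_pow, hvpb] at h1
      exact absurd H.pi_lt (not_lt.2 h1)
    · intro h
      have h1 := hprimj j 1
      rw [h, div_self (hvpne (j + 1)), pow_one] at h1
      have h2 := h1.eq_orderOf
      rw [orderOf_one] at h2
      exact hl.ne_one h2
  · intro j x y hx hwx hy
    exact unit_div_aux H (hτj j) hx hwx hy
  · intro j x hx hx0
    exact mod_pow_aux H (hτj j) hvp0 hvp j (hprimj j) hx hx0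

end Main

end Crest.Agent.R013.Tau5_512
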