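import Crest.Agent.R013.Gl14_946
import Crest.Agent.R013.RR20_948

-- ▼ part R013/Gl15_946
section

/-!
# Patching, part 15: the cutting theorem over a base with `K → FP`.
-/

set_option autoImplicit false
set_option linter.unusedSectionVars false

namespace Crest.Agent.R013.Gl946

open Module Filter Topology Polynomial TensorProduct
open scoped NNReal
open Crest.Agent.R013.A2a_275 (Cpl toCpl norm_toCpl)
open Crest.Agent.R013.SE_669 (cl)
open Crest.NumberTheoryR.Sect (IsPlace)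

/-- Lift of a homomorphism through an injective one. -/
theorem lift_range {R Kb Ω : Type*} [CommRing R] [CommRing Kb] [CommRing Ω] (i : Kb →+* Ω)
    (hi : Function.Injective i) (g : R →+* Ω) (h : ∀ a, ∃ b, i b = g a) :
    ∃ gb : R →+* Kb, ∀ a, i (gb a) = g a := by
  choose b hb using h
  refine ⟨{ toFun := b, map_one' := ?_, map_mul' := ?_, map_zero' := ?_, map_add' := ?_ }, hb⟩
  · apply hi; rw [hb, map_one, map_one]
  · intro a a'; apply hi; rw [hb, map_mul, map_mul, hb, hb]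
  · apply hi; rw [hb, map_zero, map_zero]
  · intro a a'; apply hi; rw [hb, map_add, map_add, hb, hb]

/-- A homomorphism `L → Ω_v` extending `N → Ω_v` comes from an automorphism of `Kb` over `N`. -/
theorem conj_of_h {N L Kb : Type*} [Field N] [Field L] [Field Kb] [IsAlgClosed Kb]
    [Algebra N L] [Algebra N Kb] [Algebra L Kb] [IsScalarTower N L Kb]
    [Algebra.IsAlgebraic N L] [Algebra.IsAlgebraic N Kb] (v : Valuation Kb ℝ≥0)
    (h : L →+* Cpl v) (hN : ∀ n : N, h (algebraMap N L n) = toCpl v (algebraMap N Kb n)) :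
    ∃ s : Kb ≃ₐ[N] Kb, ∀ l : L, h l = toCpl v (s (algebraMap L Kb l)) := by
  obtain ⟨hb, hhb⟩ := lift_range (toCpl v) (toCpl v).injective h fun a =>
    mem_range_of_integral (F := N) (toCpl v) (algebraMap N Kb) h hN a
      (Algebra.IsAlgebraic.isAlgebraic a).isIntegral
  let hbN : L →ₐ[N] Kb := { hb with
    commutes' := fun n => by
      apply (toCpl v).injective
      exact (hhb _).trans (hN n) }
  have : Normal N Kb := by
    have : IsAlgClosure N Kb := ⟨inferInstance, inferInstance⟩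
    exact IsAlgClosure.normal N Kb
  let s0 : Kb →ₐ[N] Kb := hbN.liftNormal Kb
  have hs0 : ∀ l : L, s0 (algebraMap L Kb l) = hb l := fun l => hbN.liftNormal_commutes Kb l
  refine ⟨AlgEquiv.ofBijective s0 (AlgHom.normal_bijective N Kb Kb _), fun l => ?_⟩
  rw [← hhb l, ← hs0 l]
  rfl

theorem rL_injective {E F L : Type*} [Field E] [Field F] [Field L] [Algebra F E] [Algebra F L] :
    Function.Injective (rL E F L) :=
  Algebra.TensorProduct.includeRight_injective (algebraMap F E).injective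

theorem algebraMap_eq_rL {E F L : Type*} [Field E] [Field F] [Field L] [Algebra F E] [Algebra F L]
    (f : F) : algebraMap E (E ⊗[F] L) (algebraMap F E f) = rL E F L (algebraMap F L f) := by
  change (algebraMap F E f) ⊗ₜ[F] (1 : L) = (1 : E) ⊗ₜ[F] (algebraMap F L f)
  rw [Algebra.algebraMap_eq_smul_one, Algebra.algebraMap_eq_smul_one, TensorProduct.smul_tmul]

section Cut1

variable {E F N L Kb : Type*} [Field E] [Field F] [Field N] [Field L] [Field Kb]
  [IsAlgClosed Kb] [Algebra F E] [Algebra F N] [Algebra F L] [Algebra N L] [IsScalarTower F N L]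
  [Algebra F Kb] [Algebra N Kb] [Algebra L Kb] [IsScalarTower F N Kb] [IsScalarTower N L Kb]
  [FiniteDimensional F L] [FiniteDimensional N L]
variable {D : PatchDatum E} (hF0 : ∀ z, z ∈ D.F0 ↔ ∃ f : F, algebraMap F E f = z) {d n : ℕ}
  (C : CutData D (E ⊗[F] L) d n)
  (hCL : C.L = (rL E F L).range) (hCN : C.N = ((rL E F L).comp (algebraMap N L)).range)

theorem algebraMap_eq_rLN (N : Type*) [Field N] [Algebra F N] [Algebra N L] [IsScalarTower F N L]
    (f : F) : algebraMap E (E ⊗[F] L) (algebraMap F E f) =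
      rL E F L (algebraMap N L (algebraMap F N f)) := by
  rw [← IsScalarTower.algebraMap_apply F N L]
  exact algebraMap_eq_rL f

include hCL in
theorem exists_rho : ∃ ρ : C.L →+* L, ∀ (l : L) (h : rL E F L l ∈ C.L), ρ ⟨rL E F L l, h⟩ = l := by
  let e : L ≃+* C.L := RingEquiv.ofBijective ((rL E F L).codRestrict C.L
      fun l => by rw [hCL]; exact ⟨l, rfl⟩) ⟨fun a b hab => rL_injective
        (congrArg Subtype.val hab), fun z => by
          obtain ⟨f, hf⟩ := (SetLike.ext_iff.1 hCL _).1 z.2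
          exact ⟨f, Subtype.ext hf⟩⟩
  exact ⟨e.symm.toRingHom, fun l h => e.symm_apply_apply l⟩

variable {C}
variable (G : C.Glued)

include hCN in
theorem rLN_mem_N (x : N) : rL E F L (algebraMap N L x) ∈ C.N := by rw [hCN]; exact ⟨x, rfl⟩

/-- The glued algebra as an `F`-subalgebra. -/
def GA : Subalgebra F (E ⊗[F] L) :=
  { G.A with
    algebraMap_mem' := fun f => by
      rw [IsScalarTower.algebraMap_apply F E (E ⊗[F] L)]
      exact G.F0_mem_A ((hF0 _).2 ⟨f, rfl⟩) }


theorem GA_fg : (Subalgebra.toSubmodule (GA hF0 G)).FG := by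
  classical
  refine ⟨Finset.univ.image G.b, ?_⟩
  apply le_antisymm
  · rw [Submodule.span_le]
    intro x hx
    rw [Finset.coe_image, Finset.coe_univ, Set.image_univ] at hx
    obtain ⟨i, rfl⟩ := hx
    exact (G.hA _).2 (basis_mem_cs _ _ i)
  · intro x hx
    have hx' := (G.hA x).1 hx
    choose f hf using fun i => (hF0 _).1 (hx' i)
    rw [← G.b.sum_repr x]
    refine Submodule.sum_mem _ fun i _ => ?_
    rw [← hf i, algebraMap_smul]
    refine Submodule.smul_mem _ _ (Submodule.subset_span ?_)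
    rw [Finset.coe_image, Finset.coe_univ, Set.image_univ]
    exact ⟨i, rfl⟩

/-- Forgetful map. -/
def GAto : GA hF0 G →+* G.A where
  toFun a := ⟨a.1, a.2⟩
  map_one' := rfl
  map_mul' _ _ := rfl
  map_zero' := rfl
  map_add' _ _ := rfl

theorem GA_integral (a : GA hF0 G) : IsIntegral F a := by
  have h1 : IsIntegral F (a : E ⊗[F] L) := IsIntegral.of_mem_of_fg _ (GA_fg hF0 G) _ a.2
  exact (isIntegral_algHom_iff (GA hF0 G).val Subtype.val_injective).1 h1

include hF0 in
theorem gb_of_g (w : Valuation Kb ℝ≥0) (g : G.A →+* Cpl w)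
    (hg : ∀ (f : F) (h : algebraMap E (E ⊗[F] L) (algebraMap F E f) ∈ G.A),
      g ⟨_, h⟩ = toCpl w (algebraMap F Kb f)) :
    ∃ gb : G.A →+* Kb, ∀ a, toCpl w (gb a) = g a := by
  refine lift_range (toCpl w) (toCpl w).injective g fun a => ?_
  obtain ⟨b, hb⟩ := mem_range_of_integral (F := F) (R := GA hF0 G) (toCpl w) (algebraMap F Kb)
    (g.comp (GAto hF0 G)) (fun f => by
      refine Eq.trans ?_ (hg f (G.F0_mem_A ((hF0 _).2 ⟨f, rfl⟩)))
      change g ⟨_, _⟩ = g ⟨_, _⟩
      congr 1) ⟨a.1, a.2⟩ (GA_integral hF0 G _)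
  exact ⟨b, hb⟩

include hF0 in
theorem exists_A' (gb : G.A →+* Kb)
    (hgb : ∀ (f : F) (h : algebraMap E (E ⊗[F] L) (algebraMap F E f) ∈ G.A),
      gb ⟨_, h⟩ = algebraMap F Kb f) :
    ∃ A' : IntermediateField F Kb, FiniteDimensional F A' ∧ ∀ x, x ∈ A' ↔ ∃ a, gb a = x := by
  let gF : GA hF0 G →ₐ[F] Kb := { gb.comp (GAto hF0 G) with
    commutes' := fun f => hgb f (G.F0_mem_A ((hF0 _).2 ⟨f, rfl⟩)) }
  have hgF : ∀ a : GA hF0 G, gF a = gb ⟨a.1, a.2⟩ := fun a => rfl
  have hfg : (Subalgebra.toSubmodule gF.range).FG := by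
    have h1 : (⊤ : Submodule F (GA hF0 G)).FG :=
      (Submodule.fg_top _).2 (GA_fg hF0 G)
    have h2 := h1.map gF.toLinearMap
    rw [Submodule.map_top] at h2
    exact h2
  have hfin : Module.Finite F gF.range := Module.Finite.iff_fg.2 hfg
  have halg : ∀ x ∈ gF.range, IsAlgebraic F x := fun x hx =>
    (IsIntegral.of_mem_of_fg _ hfg x hx).isAlgebraic
  refine ⟨gF.range.toIntermediateField fun x hx => ?_, ?_, fun x => ?_⟩
  · exact gF.range.inv_mem_of_algebraic (x := ⟨x, hx⟩) (halg x hx)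
  · exact hfin
  · constructor
    · rintro ⟨a, rfl⟩; exact ⟨⟨a.1, a.2⟩, rfl⟩
    · rintro ⟨a, rfl⟩; exact ⟨⟨a.1, a.2⟩, rfl⟩

include hF0 hCL hCN in
/-- The homomorphism `A → Kb` attached to a norm `w` on the `RU` side. -/
theorem exists_gb (w : Valuation Kb ℝ≥0) (Φ : D.RU →+* Cpl w)
    (hΦ : ∀ (f : F) (h : algebraMap F E f ∈ D.RU), Φ ⟨_, h⟩ = toCpl w (algebraMap F Kb f))
    (hΦY : ∀ r, Φ r ∈ clS w (algebraMap F Kb).fieldRange) :
    ∃ gb : G.A →+* Kb, (∀ (x : N) (h : rL E F L (algebraMap N L x) ∈ G.A),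
      gb ⟨_, h⟩ = algebraMap N Kb x) ∧
      ∀ S : Subfield Kb, (algebraMap F Kb).fieldRange ≤ S → (∀ a, gb a ∈ S) →
        ∀ l : L, algebraMap L Kb l ∈ cl w S := by
  obtain ⟨ρ, hρ⟩ := exists_rho C hCL
  have hmem : ∀ l : L, rL E F L l ∈ C.L := fun l => by rw [hCL]; exact ⟨l, rfl⟩
  have hcomp : ∀ (z : E) (hz : z ∈ D.F0), ((toCpl w).comp ((algebraMap L Kb).comp ρ))
      ⟨algebraMap E _ z, C.F0_mem_L hz⟩ = Φ ⟨z, D.F0_le_RU z hz⟩ := by
    intro z hz
    obtain ⟨f, rfl⟩ := (hF0 z).1 hz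
    rw [hΦ]
    have e1 : (⟨algebraMap E (E ⊗[F] L) (algebraMap F E f), C.F0_mem_L hz⟩ : C.L) =
        ⟨rL E F L (algebraMap F L f), hmem _⟩ := Subtype.ext (algebraMap_eq_rL f)
    rw [e1]
    change toCpl w (algebraMap L Kb (ρ _)) = _
    rw [hρ, IsScalarTower.algebraMap_apply F N L, ← IsScalarTower.algebraMap_apply N L Kb,
      ← IsScalarTower.algebraMap_apply F N Kb]
  obtain ⟨g, hgN, hgY⟩ := G.homU' Φ ((toCpl w).comp ((algebraMap L Kb).comp ρ)) hcomp
  have hgN' : ∀ (x : N) (h : rL E F L (algebraMap N L x) ∈ G.A), g ⟨_, h⟩ =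
      toCpl w (algebraMap N Kb x) := by
    intro x h
    rw [hgN _ (rLN_mem_N hCN x)]
    change toCpl w (algebraMap L Kb (ρ _)) = _
    rw [hρ, ← IsScalarTower.algebraMap_apply N L Kb]
  obtain ⟨gb, hgb⟩ := gb_of_g hF0 G w g (fun f h => by
    have e1 : (⟨algebraMap E (E ⊗[F] L) (algebraMap F E f), h⟩ : G.A) =
        ⟨rL E F L (algebraMap N L (algebraMap F N f)), G.hN (rLN_mem_N hCN _)⟩ := by
      exact Subtype.ext (algebraMap_eq_rLN N f)
    rw [e1, hgN', ← IsScalarTower.algebraMap_apply F N Kb])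
  refine ⟨gb, fun x h => ?_, fun S hFS hS l => ?_⟩
  · apply (toCpl w).injective
    rw [hgb, hgN']
  · rw [← mem_clS_iff]
    have h1 := hgY (clS w S).toSubring (fun z => clS_mono w hFS (hΦY z)) (fun a => by
      rw [← hgb a]; exact toCpl_mem_clS w S (hS a)) ⟨rL E F L l, hmem l⟩
    change toCpl w (algebraMap L Kb (ρ _)) ∈ _ at h1
    rw [hρ] at h1
    exact h1

include hCL hCN in
/-- Local analysis, outside the circle. -/
theorem local_out [Algebra.IsAlgebraic N Kb] (v : Valuation Kb ℝ≥0) (gb : G.A →+* Kb)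
    (hgbN : ∀ (x : N) (h : rL E F L (algebraMap N L x) ∈ G.A), gb ⟨_, h⟩ = algebraMap N Kb x)
    (h : C.L →+* Cpl v)
    (hh : ∀ (x : E ⊗[F] L) (hx : x ∈ C.N), h ⟨x, C.hN hx⟩ = toCpl v (gb ⟨x, G.hN hx⟩))
    (hY : ∀ (Y : Subring (Cpl v)), (∀ z ∈ clS v (algebraMap F Kb).fieldRange, z ∈ Y) →
      (∀ l, h l ∈ Y) → ∀ a, toCpl v (gb a) ∈ Y) :
    ∃ s : Kb ≃ₐ[N] Kb, ∀ a, gb a ∈ cl v (Set.range fun l : L => s (algebraMap L Kb l)) := by
  have hmem : ∀ l : L, rL E F L l ∈ C.L := fun l => by rw [hCL]; exact ⟨l, rfl⟩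
  let hL : L →+* Cpl v := h.comp ((rL E F L).codRestrict C.L hmem)
  have hhL : ∀ l, hL l = h ⟨rL E F L l, hmem l⟩ := fun l => rfl
  obtain ⟨s, hs⟩ := conj_of_h (N := N) (L := L) v hL (fun x => by
    rw [hhL, hh _ (rLN_mem_N hCN x), hgbN])
  refine ⟨s, fun a => ?_⟩
  set S : Subfield Kb := ((s : Kb →+* Kb).comp (algebraMap L Kb)).fieldRange with hS
  have hSset : (Set.range fun l : L => s (algebraMap L Kb l)) = (S : Set Kb) := rfl
  rw [hSset, ← mem_clS_iff]
  refine hY (clS v S).toSubring (fun z hz => clS_mono v ?_ hz) (fun l => ?_) a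
  · rintro _ ⟨f, rfl⟩
    refine ⟨algebraMap F L f, ?_⟩
    change s (algebraMap L Kb (algebraMap F L f)) = _
    rw [IsScalarTower.algebraMap_apply F N L, ← IsScalarTower.algebraMap_apply N L Kb, s.commutes,
      ← IsScalarTower.algebraMap_apply F N Kb]
  · obtain ⟨l', hl'⟩ := (SetLike.ext_iff.1 hCL _).1 l.2
    have e1 : l = ⟨rL E F L l', hmem l'⟩ := Subtype.ext hl'.symm
    rw [e1, ← hhL, hs]
    exact toCpl_mem_clS v S ⟨l', rfl⟩

end Cut1

/-! ### The cutting theorem, level 1 -/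

section T1

variable {k E : Type*} [NontriviallyNormedField k] [CompleteSpace k] [IsUltrametricDist k]
  [NontriviallyNormedField E] [NormedAlgebra k E] [IsUltrametricDist E] [CompleteSpace E] {y : E}
variable {F K N L Kb : Type*} [Field F] [Field K] [Field N] [Field L] [Field Kb] [IsAlgClosed Kb]
  [CharZero F]
  [Algebra F E] [Algebra K E] [Algebra F K] [Algebra F N] [Algebra F L]
  [Algebra K N] [Algebra K L] [Algebra N L] [IsScalarTower F K E] [IsScalarTower F K N]
  [IsScalarTower F K L] [IsScalarTower F N L] [IsScalarTower K N L]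
  [Algebra F Kb] [Algebra K Kb] [Algebra N Kb] [Algebra L Kb] [IsScalarTower F K Kb]
  [IsScalarTower F N Kb] [IsScalarTower K N Kb] [IsScalarTower N L Kb]
  [Algebra k F] [IsScalarTower k F E] [Algebra k Kb] [IsScalarTower k F Kb]

/-- **The cutting theorem, level 1.**  `F = k(y) ≤ K ≤ N ≤ L ≤ Kb`, `K → FP ⊂ E`, and `N` is dense
in `L` for every norm over the norm of `E`.  Then the cover `N` of the region `K → FP` of the disc
`|y| < 1` and the cover `L` elsewhere are glued to `A'`. -/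
theorem cut_level1 (hG : IsGauss k y) {π : k} (hπ : IsUnif π) (hd : DenseRat k y)
    [FiniteDimensional F K] [FiniteDimensional F N] [FiniteDimensional F L]
    [FiniteDimensional K N] [FiniteDimensional N L]
    [Algebra.IsAlgebraic F Kb] [Algebra.IsAlgebraic K Kb] [Algebra.IsAlgebraic N Kb]
    (hF0 : ∀ z, z ∈ KY hG ↔ ∃ f : F, algebraMap F E f = z)
    (hK : ∀ f : K, algebraMap K E f ∈ FP hG hπ hd)
    (hdense : ∀ v : Valuation Kb ℝ≥0,
      (∀ f : K, v (algebraMap K Kb f) = ‖algebraMap K E f‖₊) →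
      ∀ l : L, algebraMap L Kb l ∈ cl v (Set.range (algebraMap N Kb)))
    (w : Valuation Kb ℝ≥0) (hw : ∀ c : k, w (algebraMap k Kb c) = ‖c‖₊)
    (yF : F) (hyF : algebraMap F E yF = y) (hwy : 1 ≤ w (algebraMap F Kb yF)) :
    ∃ A' : IntermediateField F Kb, FiniteDimensional F A' ∧ (∀ x : N, algebraMap N Kb x ∈ A') ∧
      (∀ l : L, algebraMap L Kb l ∈ cl w (A' : Set Kb)) ∧
      (∀ v : Valuation Kb ℝ≥0, ((∀ c : k, v (algebraMap k Kb c) = ‖c‖₊) ∨ IsPlace k v) →
        (∃ s : Kb ≃ₐ[N] Kb, ∀ a ∈ A', a ∈ cl v (Set.range fun l : L => s (algebraMap L Kb l))) ∨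
        (∀ a ∈ A', a ∈ cl v (Set.range (algebraMap N Kb)))) ∧
      (∀ v : Valuation Kb ℝ≥0, (∃ Φ : FP hG hπ hd →+* Cpl v,
        (∀ f : K, Φ ⟨algebraMap K E f, hK f⟩ = toCpl v (algebraMap K Kb f)) ∧
        ∀ r, Φ r ∈ clS v (algebraMap N Kb).fieldRange) →
        ∀ a ∈ A', a ∈ cl v (Set.range (algebraMap N Kb))) := by
  classical
  have hcK : CharZero K := charZero_of_injective_algebraMap (algebraMap F K).injective
  have hcN : CharZero N := charZero_of_injective_algebraMap (algebraMap F N).injective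
  -- the splitting over `E ⊗ N`
  obtain ⟨α, hα⟩ := Field.exists_primitive_element N L
  have hαint : IsIntegral N α := IsIntegral.of_finite N α
  have hadj : Algebra.adjoin N {α} = ⊤ := by
    have := IntermediateField.adjoin_simple_toSubalgebra_of_isAlgebraic hαint.isAlgebraic
    rw [← this, hα]; rfl
  have hmin : minpoly N (algebraMap L Kb α) = minpoly N α :=
    minpoly.algebraMap_eq (algebraMap L Kb).injective α
  obtain ⟨ε', orth, idem, hsum, spl, inj⟩ := exists_split (E := E) (K := K) α hadj (fun 𝔫 => by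
    have := split_of_dense (E := E) (K := K) (N := N) (algebraMap L Kb α) (fun v hv ε hε => by
      obtain ⟨_, ⟨x, rfl⟩, hx⟩ := hdense v hv α ε hε
      exact ⟨x, hx⟩) 𝔫
    rwa [hmin] at this)
  have hF : ∀ f : F, algebraMap F E f ∈ FP hG hπ hd := fun f =>
    KY_le_FP hG hπ hd ((hF0 _).2 ⟨f, rfl⟩)
  obtain ⟨I⟩ := exists_idemData (FP hG hπ hd) hF hK
  obtain ⟨C, hCL, hCN, hCe⟩ := exists_cutData (gaussDatum hG hπ hd) hF0 hF hK I ε' orth idem hsum
    spl inj
  obtain ⟨G⟩ := C.exists_glued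
  have hmemF : ∀ f : F, algebraMap F E f ∈ (gaussDatum hG hπ hd).F0 := fun f => (hF0 _).2 ⟨f, rfl⟩
  have hNmem : ∀ x : N, rL E F L (algebraMap N L x) ∈ G.A := fun x => G.hN (rLN_mem_N hCN x)
  obtain ⟨Φw, hΦw, hΦwY⟩ := exists_mapRU_val hG hF0 w hw yF hyF hwy
  obtain ⟨gb, hgbN, hgbL⟩ := exists_gb (D := gaussDatum hG hπ hd) hF0 hCL hCN G w Φw hΦw hΦwY
  have hgbF : ∀ (f : F) (h : algebraMap E (E ⊗[F] L) (algebraMap F E f) ∈ G.A),
      gb ⟨_, h⟩ = algebraMap F Kb f := by
    intro f h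
    have e1 : (⟨algebraMap E (E ⊗[F] L) (algebraMap F E f), h⟩ : G.A) =
        ⟨rL E F L (algebraMap N L (algebraMap F N f)), hNmem _⟩ :=
      Subtype.ext (algebraMap_eq_rLN N f)
    rw [e1, hgbN, ← IsScalarTower.algebraMap_apply F N Kb]
  obtain ⟨A', hA'fin, hA'⟩ := exists_A' (D := gaussDatum hG hπ hd) hF0 G gb hgbF
  -- the element `e`
  set φ : (gaussDatum hG hπ hd).FP →+* E ⊗[F] L :=
    (algebraMap E (E ⊗[F] L)).comp (gaussDatum hG hπ hd).FP.subtype with hφ
  let zz : Fin (I.G.natDegree + 1) → (gaussDatum hG hπ hd).FP := fun i => I.G.coeff i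
  let xx : Fin (I.G.natDegree + 1) → C.N := fun i =>
    ⟨rL E F L (algebraMap N L (algebraMap K N (I.θ ^ (i : ℕ)))), rLN_mem_N hCN _⟩
  have hepres : C.e = ∑ i, (zz i : E) • (xx i : E ⊗[F] L) := by
    refine hCe.trans ((I.e_eq_sum φ _).trans ?_)
    refine Finset.sum_congr rfl fun i _ => ?_
    change algebraMap E _ _ * rL E F L (algebraMap K L _) = _
    rw [IsScalarTower.algebraMap_apply K N L, Algebra.smul_def]
    rfl
  have hval : ∀ (v : Valuation Kb ℝ≥0) (Φ : FP hG hπ hd →+* Cpl v),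
      ∑ i, Φ (zz i) * ((toCpl v).comp gb) ⟨xx i, G.hN (xx i).2⟩ =
      I.e Φ ((toCpl v).comp (algebraMap K Kb)) := by
    intro v Φ
    rw [I.e_eq_sum]
    refine Finset.sum_congr rfl fun i _ => ?_
    change Φ (I.G.coeff i) * toCpl v (gb ⟨rL E F L (algebraMap N L (algebraMap K N _)), _⟩) =
      Φ (I.G.coeff i) * toCpl v (algebraMap K Kb _)
    rw [hgbN, ← IsScalarTower.algebraMap_apply K N Kb]
  have hFP : ∀ (v : Valuation Kb ℝ≥0) (Φ : FP hG hπ hd →+* Cpl v)
      (_ : ∀ (f : F) (h : algebraMap F E f ∈ FP hG hπ hd),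
        Φ ⟨algebraMap F E f, h⟩ = toCpl v (algebraMap F Kb f)),
      ∀ (z : E) (hz : z ∈ (gaussDatum hG hπ hd).F0),
      ((toCpl v).comp gb) ⟨algebraMap E _ z, G.F0_mem_A hz⟩ =
        Φ ⟨z, (gaussDatum hG hπ hd).F0_le_FP hz⟩ := by
    intro v Φ hΦ z hz
    obtain ⟨f, rfl⟩ := (hF0 z).1 hz
    refine Eq.trans ?_ (hΦ f _).symm
    change toCpl v (gb _) = _
    rw [hgbF]
  have hFrange : ∀ v : Valuation Kb ℝ≥0, clS v (algebraMap F Kb).fieldRange ≤
      clS v (algebraMap N Kb).fieldRange := fun v => clS_mono v (by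
    rintro _ ⟨f, rfl⟩
    exact ⟨algebraMap F N f, (IsScalarTower.algebraMap_apply F N Kb f).symm⟩)
  have hin : ∀ (v : Valuation Kb ℝ≥0) (Φ : FP hG hπ hd →+* Cpl v)
      (_ : ∀ (f : F) (h : algebraMap F E f ∈ FP hG hπ hd),
        Φ ⟨algebraMap F E f, h⟩ = toCpl v (algebraMap F Kb f))
      (_ : ∀ r, Φ r ∈ clS v (algebraMap N Kb).fieldRange)
      (_ : toCpl v (algebraMap K Kb I.θ) = Φ ⟨algebraMap K E I.θ, hK I.θ⟩),
      ∀ a ∈ A', a ∈ cl v (Set.range (algebraMap N Kb)) := by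
    intro v Φ hΦ hΦY hθ a ha
    obtain ⟨a, rfl⟩ := (hA' a).1 ha
    have h1 : ∑ i, Φ (zz i) * ((toCpl v).comp gb) ⟨xx i, G.hN (xx i).2⟩ = 1 := by
      rw [hval]
      exact I.e_inside Φ _ hθ
    have h2 := G.homPin (Ω := Cpl v) Φ ((toCpl v).comp gb) (hFP v Φ hΦ) zz xx hepres h1
      (clS v (algebraMap N Kb).fieldRange).toSubring hΦY (fun x hx => by
        obtain ⟨x', hx'⟩ := (SetLike.ext_iff.1 hCN _).1 hx
        have e1 : (⟨x, G.hN hx⟩ : G.A) = ⟨rL E F L (algebraMap N L x'), hNmem _⟩ :=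
          Subtype.ext hx'.symm
        rw [e1]
        change toCpl v (gb _) ∈ _
        rw [hgbN]
        exact toCpl_mem_clS v _ ⟨x', rfl⟩) a
    exact (mem_clS_iff v _ _).1 h2
  refine ⟨A', hA'fin, fun x => (hA' _).2 ⟨⟨_, hNmem x⟩, hgbN _ _⟩, fun l => ?_, fun v hv => ?_,
    fun v hv => ?_⟩
  · refine hgbL A'.toSubfield ?_ (fun a => (hA' _).2 ⟨a, rfl⟩) l
    rintro _ ⟨f, rfl⟩
    exact A'.algebraMap_mem f
  · rcases exists_map_val hG hF0 hπ hd v hv with ⟨Φ, hΦ, hΦY⟩ | ⟨Φ, hΦ, hΦY⟩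
    · left
      obtain ⟨h, hh1, hh2⟩ := G.homU (Ω := Cpl v) Φ ((toCpl v).comp gb) (fun z hz => by
        obtain ⟨f, rfl⟩ := (hF0 z).1 hz
        refine Eq.trans ?_ (hΦ f _).symm
        change toCpl v (gb _) = _
        rw [hgbF])
      obtain ⟨s, hs⟩ := local_out hCL hCN G v gb hgbN h hh1 (fun Y h1 h2 =>
        hh2 Y (fun z => h1 _ (hΦY z)) h2)
      refine ⟨s, fun a ha => ?_⟩
      obtain ⟨a, rfl⟩ := (hA' a).1 ha
      exact hs a
    · by_cases hθ : toCpl v (algebraMap K Kb I.θ) = Φ ⟨algebraMap K E I.θ, hK I.θ⟩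
      · exact Or.inr (hin v Φ hΦ (fun r => hFrange v (hΦY r)) hθ)
      · left
        have h0 : ∑ i, Φ (zz i) * ((toCpl v).comp gb) ⟨xx i, G.hN (xx i).2⟩ = 0 := by
          rw [hval]
          refine I.e_outside Φ _ (fun f => ?_) hθ
          change toCpl v (algebraMap K Kb (algebraMap F K f)) = _
          rw [← IsScalarTower.algebraMap_apply]
          exact (hΦ f _).symm
        obtain ⟨h, hh1, hh2⟩ := G.homPout (Ω := Cpl v) Φ ((toCpl v).comp gb) (hFP v Φ hΦ) zz xx
          hepres h0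
        obtain ⟨s, hs⟩ := local_out hCL hCN G v gb hgbN h hh1 (fun Y h1 h2 =>
          hh2 Y (fun z => h1 _ (hΦY z)) h2)
        refine ⟨s, fun a ha => ?_⟩
        obtain ⟨a, rfl⟩ := (hA' a).1 ha
        exact hs a
  · obtain ⟨Φ, hΦ, hΦY⟩ := hv
    refine hin v Φ (fun f h => ?_) hΦY (hΦ I.θ).symm
    have e1 : (⟨algebraMap F E f, h⟩ : FP hG hπ hd) =
        ⟨algebraMap K E (algebraMap F K f), hK _⟩ :=
      Subtype.ext (IsScalarTower.algebraMap_apply F K E f)
    rw [e1, hΦ, ← IsScalarTower.algebraMap_apply]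

end T1

end Crest.Agent.R013.Gl946
end

-- ▼ part R013/Gl16_946
section

/-!
# Patching, part 16: power series in the disc field, and their values at a place.
-/

set_option autoImplicit false

namespace Crest.Agent.R013.Gl946

open Module Filter Topology Polynomial
open scoped NNReal
open Crest.Agent.R013.A2a_275 (Cpl toCpl norm_toCpl)
open Crest.Agent.R013.SE_669 (cl)
open Crest.NumberTheoryR.Sect (IsPlace)

section Series

variable {k E : Type*} [NormedField k] [NormedField E] [NormedAlgebra k E] [IsUltrametricDist E]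
  [CompleteSpace E] {y : E} (hG : IsGauss k y)

/-- The truncated polynomial. -/
noncomputable def tr {k : Type*} [Semiring k] (G : ℕ → k) (n : ℕ) : k[X] :=
  ∑ i ∈ Finset.range n, monomial i (G i)

theorem aeval_tr {k R : Type*} [CommSemiring k] [CommSemiring R] [Algebra k R] (G : ℕ → k) (n : ℕ)
    (y : R) : aeval y (tr G n) = ∑ i ∈ Finset.range n, algebraMap k R (G i) * y ^ i := by
  rw [tr, map_sum]
  exact Finset.sum_congr rfl fun i _ => aeval_monomial _

theorem coeff_tr {k : Type*} [Semiring k] (G : ℕ → k) (n i : ℕ) (hi : i < n) :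
    (tr G n).coeff i = G i := by
  classical
  rw [tr, finsetSum_coeff]
  simp only [coeff_monomial]
  rw [Finset.sum_ite_eq' (Finset.range n) i]
  rw [if_pos (Finset.mem_range.2 hi)]

theorem exists_series (G : ℕ → k) (h : Tendsto (fun i => ‖G i‖) atTop (𝓝 0)) :
    ∃ g ∈ AP hG, Tendsto (fun n => aeval y (tr G n)) atTop (𝓝 g) ∧
      (∀ n, ∃ T ∈ AP hG, g = aeval y (tr G n) + y ^ n * T) ∧ ∀ i, ‖G i‖ ≤ ‖g‖ := by
  have key : ∀ G : ℕ → k, Tendsto (fun i => ‖G i‖) atTop (𝓝 0) →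
      Summable (fun i => algebraMap k E (G i) * y ^ i) ∧
      (∑' i, algebraMap k E (G i) * y ^ i) ∈ AP hG := by
    intro G h
    have hs : Summable (fun i => algebraMap k E (G i) * y ^ i) := by
      apply NonarchimedeanAddGroup.summable_of_tendsto_cofinite_zero
      rw [Nat.cofinite_eq_atTop]
      refine squeeze_zero_norm (fun i => ?_) h
      rw [norm_mul, norm_pow, norm_algebraMap']
      calc ‖G i‖ * ‖y‖ ^ i ≤ ‖G i‖ * 1 :=
            mul_le_mul_of_nonneg_left (pow_le_one₀ (norm_nonneg _) hG.norm_le) (norm_nonneg _)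
        _ = ‖G i‖ := mul_one _
    refine ⟨hs, ?_⟩
    refine (isClosed_AP hG).mem_of_tendsto hs.hasSum.tendsto_sum_nat (Eventually.of_forall ?_)
    intro n
    have := aeval_tr G n y
    rw [← this]
    exact aeval_mem_AP hG _
  obtain ⟨hs, hmem⟩ := key G h
  have htend : Tendsto (fun n => aeval y (tr G n)) atTop
      (𝓝 (∑' i, algebraMap k E (G i) * y ^ i)) := by
    have := hs.hasSum.tendsto_sum_nat
    simpa only [aeval_tr] using this
  refine ⟨_, hmem, htend, fun n => ?_, fun i => ?_⟩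
  · have hn : Tendsto (fun i => ‖G (i + n)‖) atTop (𝓝 0) := (tendsto_add_atTop_iff_nat n).2 h
    obtain ⟨hs', hmem'⟩ := key (fun i => G (i + n)) hn
    refine ⟨_, hmem', ?_⟩
    rw [← hs.sum_add_tsum_nat_add n, aeval_tr, ← tsum_mul_left]
    congr 1
    refine tsum_congr fun i => ?_
    rw [pow_add]; ring
  · refine ge_of_tendsto htend.norm (eventually_atTop.2 ⟨i + 1, fun n hn => ?_⟩)
    have := hG.coeff_le (tr G n) i
    rwa [coeff_tr G n i (by omega)] at this

theorem AP_le_FP [CompleteSpace k] {π : k} (hπ : IsUnif π) (hd : DenseRat k y) {a : E}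
    (ha : a ∈ AP hG) : a ∈ FP hG hπ hd :=
  (mem_FP hG hπ hd _).2 ⟨a, ha, 1, one_ne_zero, by simp⟩

/-- Continuity of `Φ` along power series. -/
theorem tendsto_map [CompleteSpace k] {π : k} (hπ : IsUnif π) (hd : DenseRat k y)
    {Ω : Type*} [NormedField Ω] (Φ : FP hG hπ hd →+* Ω)
    (hΦ : ∀ a (_ : a ∈ AP hG) (ha' : a ∈ FP hG hπ hd), ‖Φ ⟨a, ha'⟩‖ ≤ 1)
    (hyFP : y ∈ FP hG hπ hd) (hy : ‖Φ ⟨y, hyFP⟩‖ < 1) (G : ℕ → k) (g : E) (hg : g ∈ AP hG)
    (hT : ∀ n, ∃ T ∈ AP hG, g = aeval y (tr G n) + y ^ n * T) :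
    Tendsto (fun n => Φ ⟨aeval y (tr G n), AP_le_FP hG hπ hd (aeval_mem_AP hG _)⟩) atTop
      (𝓝 (Φ ⟨g, AP_le_FP hG hπ hd hg⟩)) := by
  have hlim : Tendsto (fun n : ℕ => ‖Φ ⟨y, hyFP⟩‖ ^ n) atTop (𝓝 0) :=
    tendsto_pow_atTop_nhds_zero_of_lt_one (norm_nonneg _) hy
  rw [tendsto_iff_norm_sub_tendsto_zero]
  refine squeeze_zero (fun n => norm_nonneg _) (fun n => ?_) hlim
  obtain ⟨T, hTAP, e⟩ := hT n
  have e1 : (⟨g, AP_le_FP hG hπ hd hg⟩ : FP hG hπ hd) =
      ⟨aeval y (tr G n), AP_le_FP hG hπ hd (aeval_mem_AP hG _)⟩ +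
        ⟨y, hyFP⟩ ^ n * ⟨T, AP_le_FP hG hπ hd hTAP⟩ := Subtype.ext e
  rw [e1, map_add, map_mul, map_pow, sub_add_cancel_left, norm_neg, norm_mul, norm_pow]
  calc _ ≤ ‖Φ ⟨y, hyFP⟩‖ ^ n * 1 :=
        mul_le_mul_of_nonneg_left (hΦ _ hTAP _) (by positivity)
    _ = _ := mul_one _

end Series

section MapsP

variable {k E : Type*} [NontriviallyNormedField k] [CompleteSpace k] [IsUltrametricDist k]
  [NormedField E] [NormedAlgebra k E] [IsUltrametricDist E] [CompleteSpace E] {y : E}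
  (hG : IsGauss k y)
variable {F Kb : Type*} [Field F] [Field Kb] [Algebra F E] [Algebra F Kb] [Algebra k F]
  [IsScalarTower k F E] [Algebra k Kb] [IsScalarTower k F Kb]
  (hF0 : ∀ z, z ∈ KY hG ↔ ∃ f : F, algebraMap F E f = z)

include hF0 in
/-- The map on `FP` for a place `v` with `v y < 1`, with its bound. -/
theorem exists_mapFP_val {π : k} (hπ : IsUnif π) (hd : DenseRat k y)
    (v : Valuation Kb ℝ≥0) (hv : IsPlace k v)
    (yF : F) (hyF : algebraMap F E yF = y) (hvy : v (algebraMap F Kb yF) < 1) :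
    ∃ Φ : FP hG hπ hd →+* Cpl v, (∀ (f : F) (h : algebraMap F E f ∈ FP hG hπ hd),
        Φ ⟨algebraMap F E f, h⟩ = toCpl v (algebraMap F Kb f)) ∧
        (∀ r, Φ r ∈ clS v (algebraMap F Kb).fieldRange) ∧
        ∀ a (_ : a ∈ AP hG) (ha' : a ∈ FP hG hπ hd), ‖Φ ⟨a, ha'⟩‖ ≤ 1 := by
  obtain ⟨σ, hσ, hσ'⟩ := exists_sigma hG hF0
  have hmemF : ∀ f : F, algebraMap F E f ∈ KY hG := fun f => (hF0 _).2 ⟨f, rfl⟩
  have hconst : ∀ c : k, toCpl v (algebraMap F Kb (σ ⟨algebraMap k E c, const_mem_KY hG c⟩)) =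
      toCpl v (algebraMap k Kb c) := by
    intro c
    have e1 : (⟨algebraMap k E c, const_mem_KY hG c⟩ : KY hG) =
        ⟨algebraMap F E (algebraMap k F c), hmemF _⟩ := by
      ext; exact IsScalarTower.algebraMap_apply k F E c
    rw [e1, hσ', ← IsScalarTower.algebraMap_apply]
  have hy : ‖((toCpl v).comp ((algebraMap F Kb).comp σ)) ⟨y, y_mem_KY hG⟩‖ < 1 := by
    change ‖toCpl v (algebraMap F Kb (σ _))‖ < _
    have e1 : (⟨y, y_mem_KY hG⟩ : KY hG) = ⟨algebraMap F E yF, hmemF _⟩ := Subtype.ext hyF.symm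
    rw [e1, hσ', norm_toCpl]
    exact_mod_cast hvy
  obtain ⟨Φ, h1, h2, h3⟩ := mapFP_place' hG hπ hd ((toCpl v).comp ((algebraMap F Kb).comp σ)) (by
      intro c
      change ‖toCpl v (algebraMap F Kb (σ _))‖ ≤ _
      rw [hconst, norm_toCpl]
      by_cases hc : c = 0
      · rw [hc, map_zero, map_zero]; simp
      · rw [hv.1 c hc]; simp) hy.le X monic_X (by
      intro i hi
      rw [natDegree_X] at hi
      have : i = 0 := by omega
      subst this
      rw [coeff_X_zero, norm_zero]; exact zero_lt_one) (by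
      have e1 : (⟨aeval y (X : k[X]), aeval_mem_KY hG X⟩ : KY hG) = ⟨y, y_mem_KY hG⟩ :=
        Subtype.ext (aeval_X y)
      rw [e1]; exact hy)
    (clS v (algebraMap F Kb).fieldRange) (isClosed_clS _ _)
    (fun z => toCpl_mem_clS v _ ⟨σ z, rfl⟩)
  refine ⟨Φ, fun f h => ?_, h2, h3⟩
  rw [h1 _ (hmemF f)]
  change toCpl v (algebraMap F Kb (σ _)) = _
  rw [hσ']

end MapsP

end Crest.Agent.R013.Gl946
end

-- ▼ part R013/Gl17_946
section

/-!
# Patching, part 17: the cutting theorem inside a valued algebraically closed field.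
-/

set_option autoImplicit false

namespace Crest.Agent.R013.Gl946

open Module Filter Topology Polynomial
open scoped NNReal
open Crest.Agent.R013.A2a_275 (Cpl toCpl norm_toCpl)
open Crest.Agent.R013.SE_669 (cl)
open Crest.NumberTheoryR.Sect (IsPlace)

/-- `C(y)`. -/
noncomputable abbrev FF (C : Type*) {Kb : Type*} [Field C] [Field Kb] [Algebra C Kb] (yb : Kb) :
    IntermediateField C Kb := IntermediateField.adjoin C {yb}

/-- The completion of `C(y)`. -/
noncomputable abbrev EE (C : Type*) {Kb : Type*} [Field C] [Field Kb] [Algebra C Kb]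
    (v0 : Valuation Kb ℝ≥0) (yb : Kb) : Subfield (Cpl v0) := clS v0 (FF C yb).toSubfield

/-- `f = G(y)/H(y)` in the completion. -/
structure Pres (C : Type*) {Kb : Type*} [NormedField C] [Field Kb] [Algebra C Kb]
    (v0 : Valuation Kb ℝ≥0) (yb f : Kb) (G H : ℕ → C) : Prop where
  ne : ∃ i, H i ≠ 0
  tG : Tendsto (fun i => ‖G i‖) atTop (𝓝 0)
  tH : Tendsto (fun i => ‖H i‖) atTop (𝓝 0)
  lim : Tendsto (fun n => v0 (f * aeval yb (tr H n) - aeval yb (tr G n))) atTop (𝓝 0)

/-- Level 1 with ring homomorphisms instead of algebra structures. -/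
theorem cut_level1_hom {k E : Type*} [NontriviallyNormedField k] [CompleteSpace k]
    [IsUltrametricDist k] [NontriviallyNormedField E] [NormedAlgebra k E] [IsUltrametricDist E]
    [CompleteSpace E] {y : E} (hG : IsGauss k y) {π : k} (hπ : IsUnif π) (hd : DenseRat k y)
    {F K N L Kb : Type*} [Field F] [Field K] [Field N] [Field L] [Field Kb] [IsAlgClosed Kb]
    [CharZero F] [Algebra F E] [Algebra F Kb] [Algebra k F] [IsScalarTower k F E] [Algebra k Kb]
    [IsScalarTower k F Kb] [Algebra.IsAlgebraic F Kb]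
    (aKE : K →+* E) (aFK : F →+* K) (aKN : K →+* N) (aNL : N →+* L) (aLKb : L →+* Kb)
    (hFKE : ∀ f, aKE (aFK f) = algebraMap F E f)
    (hFKb : ∀ f, aLKb (aNL (aKN (aFK f))) = algebraMap F Kb f)
    (hfin : (aNL.comp (aKN.comp aFK)).Finite)
    (hF0 : ∀ z, z ∈ KY hG ↔ ∃ f : F, algebraMap F E f = z)
    (hK : ∀ f : K, aKE f ∈ FP hG hπ hd)
    (hdense : ∀ v : Valuation Kb ℝ≥0, (∀ f : K, v (aLKb (aNL (aKN f))) = ‖aKE f‖₊) →
      ∀ l : L, aLKb l ∈ cl v (Set.range fun x : N => aLKb (aNL x)))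
    (w : Valuation Kb ℝ≥0) (hw : ∀ c : k, w (algebraMap k Kb c) = ‖c‖₊)
    (yF : F) (hyF : algebraMap F E yF = y) (hwy : 1 ≤ w (algebraMap F Kb yF)) :
    ∃ A' : IntermediateField F Kb, FiniteDimensional F A' ∧ (∀ x : N, aLKb (aNL x) ∈ A') ∧
      (∀ l : L, aLKb l ∈ cl w (A' : Set Kb)) ∧
      (∀ v : Valuation Kb ℝ≥0, ((∀ c : k, v (algebraMap k Kb c) = ‖c‖₊) ∨ IsPlace k v) →
        (∃ s : Kb ≃+* Kb, (∀ x : N, s (aLKb (aNL x)) = aLKb (aNL x)) ∧
          ∀ a ∈ A', a ∈ cl v (Set.range fun l : L => s (aLKb l))) ∨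
        (∀ a ∈ A', a ∈ cl v (Set.range fun x : N => aLKb (aNL x)))) ∧
      (∀ v : Valuation Kb ℝ≥0, (∃ Φ : FP hG hπ hd →+* Cpl v,
        (∀ f : K, Φ ⟨aKE f, hK f⟩ = toCpl v (aLKb (aNL (aKN f)))) ∧
        ∀ r, Φ r ∈ clS v (algebraMap F Kb).fieldRange) →
        ∀ a ∈ A', a ∈ cl v (Set.range fun x : N => aLKb (aNL x))) := by
  let i1 : Algebra F K := aFK.toAlgebra
  let i2 : Algebra K N := aKN.toAlgebra
  let i3 : Algebra F N := (aKN.comp aFK).toAlgebra
  let i4 : Algebra N L := aNL.toAlgebra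
  let i5 : Algebra K L := (aNL.comp aKN).toAlgebra
  let i6 : Algebra F L := (aNL.comp (aKN.comp aFK)).toAlgebra
  let i7 : Algebra L Kb := aLKb.toAlgebra
  let i8 : Algebra N Kb := (aLKb.comp aNL).toAlgebra
  let i9 : Algebra K Kb := (aLKb.comp (aNL.comp aKN)).toAlgebra
  let i10 : Algebra K E := aKE.toAlgebra
  have t1 : IsScalarTower F K E := IsScalarTower.of_algebraMap_eq fun f => (hFKE f).symm
  have t2 : IsScalarTower F K N := IsScalarTower.of_algebraMap_eq fun _ => rfl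
  have t3 : IsScalarTower F K L := IsScalarTower.of_algebraMap_eq fun _ => rfl
  have t4 : IsScalarTower F N L := IsScalarTower.of_algebraMap_eq fun _ => rfl
  have t5 : IsScalarTower K N L := IsScalarTower.of_algebraMap_eq fun _ => rfl
  have t6 : IsScalarTower K N Kb := IsScalarTower.of_algebraMap_eq fun _ => rfl
  have t7 : IsScalarTower N L Kb := IsScalarTower.of_algebraMap_eq fun _ => rfl
  have t8 : IsScalarTower F K Kb := IsScalarTower.of_algebraMap_eq fun f => (hFKb f).symm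
  have t9 : IsScalarTower F N Kb := IsScalarTower.of_algebraMap_eq fun f => (hFKb f).symm
  have f0 : FiniteDimensional F L := hfin
  have f1 : FiniteDimensional F N := FiniteDimensional.of_injective
    (IsScalarTower.toAlgHom F N L).toLinearMap aNL.injective
  have f2 : FiniteDimensional F K := FiniteDimensional.of_injective
    (IsScalarTower.toAlgHom F K N).toLinearMap aKN.injective
  have f3 : FiniteDimensional K N := Module.Finite.of_restrictScalars_finite F K N
  have f4 : FiniteDimensional N L := Module.Finite.of_restrictScalars_finite F N L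
  have a1 : Algebra.IsAlgebraic K Kb := Algebra.IsAlgebraic.tower_top (K := F) K
  have a2 : Algebra.IsAlgebraic N Kb := Algebra.IsAlgebraic.tower_top (K := F) N
  obtain ⟨A', h1, h2, h3, h4, h5⟩ := cut_level1 (F := F) (K := K) (N := N) (L := L)
    (Kb := Kb) hG hπ hd hF0 hK hdense w hw yF hyF hwy
  refine ⟨A', h1, h2, h3, fun v hv => ?_, fun v hv => h5 v ?_⟩
  · rcases h4 v hv with ⟨s, hs⟩ | h
    · exact Or.inl ⟨s.toRingEquiv, fun x => s.commutes x, hs⟩
    · exact Or.inr h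
  · obtain ⟨Φ, hΦ, hΦ'⟩ := hv
    refine ⟨Φ, hΦ, fun r => clS_mono v ?_ (hΦ' r)⟩
    rintro _ ⟨f, rfl⟩
    exact ⟨algebraMap F N f, (IsScalarTower.algebraMap_apply F N Kb f).symm⟩

section EData

variable (C : Type*) {Kb : Type*} [NontriviallyNormedField C] [Field Kb] [Algebra C Kb]
  (v0 : Valuation Kb ℝ≥0) (yb : Kb)

/-- `C(y) → E`. -/
noncomputable def jF : FF C yb →+* EE C v0 yb :=
  ((toCpl v0).comp (algebraMap (FF C yb) Kb)).codRestrict (EE C v0 yb)
    fun f => toCpl_mem_clS v0 _ f.2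

theorem norm_jF (f : FF C yb) : ‖jF C v0 yb f‖ = v0 f := norm_toCpl v0 _

variable {C} in
theorem norm_jF_const (hv0 : ∀ c : C, v0 (algebraMap C Kb c) = ‖c‖₊) (c : C) :
    ‖jF C v0 yb (algebraMap C (FF C yb) c)‖ = ‖c‖ := by
  have h1 : ‖jF C v0 yb (algebraMap C (FF C yb) c)‖ = v0 (algebraMap C Kb c) := norm_jF C v0 yb _
  rw [h1, hv0]; rfl

/-- The normed field `E`. -/
@[instance_reducible]
noncomputable def instE (hv0 : ∀ c : C, v0 (algebraMap C Kb c) = ‖c‖₊) :
    NontriviallyNormedField (EE C v0 yb) :=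
  { (inferInstance : NormedField (EE C v0 yb)) with
    non_trivial := by
      obtain ⟨c, hc⟩ := NormedField.exists_one_lt_norm C
      refine ⟨jF C v0 yb (algebraMap C _ c), ?_⟩
      have h1 := norm_jF_const v0 yb hv0 c
      change 1 < ‖jF C v0 yb (algebraMap C _ c)‖
      rw [h1]; exact hc }

/-- The `C(y)`-algebra `E`. -/
@[instance_reducible]
noncomputable def algFE : Algebra (FF C yb) (EE C v0 yb) := (jF C v0 yb).toAlgebra

/-- The `C`-algebra `E`. -/
@[instance_reducible]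
noncomputable def algCE (hv0 : ∀ c : C, v0 (algebraMap C Kb c) = ‖c‖₊) :
    letI := instE C v0 yb hv0
    NormedAlgebra C (EE C v0 yb) :=
  letI := instE C v0 yb hv0
  { ((jF C v0 yb).comp (algebraMap C (FF C yb))).toAlgebra with
    norm_smul_le := by
      intro c z
      have h1 := norm_jF_const v0 yb hv0 c
      change ‖jF C v0 yb (algebraMap C _ c) * z‖ ≤ _
      rw [norm_mul]
      exact (congrArg (· * ‖z‖) h1).le }

end EData

/-- **The cutting theorem, level 2.** -/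
theorem cut_level2 {C Kb : Type*} [NontriviallyNormedField C] [CompleteSpace C]
    [IsUltrametricDist C] [Field Kb] [IsAlgClosed Kb] [CharZero Kb] [Algebra C Kb] {ϖ : C}
    (hϖ : IsUnif ϖ) (v0 : Valuation Kb ℝ≥0) (hv0 : ∀ c : C, v0 (algebraMap C Kb c) = ‖c‖₊)
    (yb : Kb) (hy1 : v0 yb ≤ 1) (hgauss : ∀ (f : C[X]) i, ‖f.coeff i‖₊ ≤ v0 (aeval yb f))
    [Algebra.IsAlgebraic (FF C yb) Kb]
    (K N L : IntermediateField (FF C yb) Kb) (hKN : K ≤ N) (hNL : N ≤ L)
    [FiniteDimensional (FF C yb) L]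
    (S : Set Kb) (hS : K = IntermediateField.adjoin (FF C yb) S)
    (hpres : ∀ f ∈ S, ∃ G H : ℕ → C, Pres C v0 yb f G H)
    (hdense : ∀ v : Valuation Kb ℝ≥0, (∀ f ∈ K, v f = v0 f) → ∀ l ∈ L, l ∈ cl v (N : Set Kb))
    (w : Valuation Kb ℝ≥0) (hw : ∀ c : C, w (algebraMap C Kb c) = ‖c‖₊) (hwy : 1 ≤ w yb) :
    ∃ A' : IntermediateField (FF C yb) Kb, FiniteDimensional (FF C yb) A' ∧ N ≤ A' ∧
      (∀ l ∈ L, l ∈ cl w (A' : Set Kb)) ∧
      (∀ v : Valuation Kb ℝ≥0, ((∀ c : C, v (algebraMap C Kb c) = ‖c‖₊) ∨ IsPlace C v) →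
        (∃ s : Kb ≃+* Kb, (∀ x ∈ N, s x = x) ∧ ∀ a ∈ A', a ∈ cl v (s '' (L : Set Kb))) ∨
        (∀ a ∈ A', a ∈ cl v (N : Set Kb))) ∧
      (∀ v : Valuation Kb ℝ≥0, IsPlace C v → v yb < 1 →
        (∀ f ∈ S, ∃ G H : ℕ → C, Pres C v0 yb f G H ∧
          Tendsto (fun n => v (f * aeval yb (tr H n) - aeval yb (tr G n))) atTop (𝓝 0)) →
        ∀ a ∈ A', a ∈ cl v (N : Set Kb)) := by
  classical
  let iE : NontriviallyNormedField (EE C v0 yb) := instE C v0 yb hv0
  let iCE : NormedAlgebra C (EE C v0 yb) := algCE C v0 yb hv0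
  let iFE : Algebra (FF C yb) (EE C v0 yb) := algFE C v0 yb
  have iU : IsUltrametricDist (EE C v0 yb) := inferInstance
  have iC : CompleteSpace (EE C v0 yb) := (isClosed_clS v0 _).completeSpace_coe
  have iT : IsScalarTower C (FF C yb) (EE C v0 yb) := IsScalarTower.of_algebraMap_eq fun _ => rfl
  set yF : FF C yb := ⟨yb, IntermediateField.mem_adjoin_simple_self C yb⟩ with hyF
  set y : EE C v0 yb := algebraMap (FF C yb) (EE C v0 yb) yF with hy
  have hnorm : ∀ f : FF C yb, ‖algebraMap (FF C yb) (EE C v0 yb) f‖ = v0 f := norm_jF C v0 yb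
  have haevalE : ∀ f : C[X], aeval y f = algebraMap (FF C yb) (EE C v0 yb) (aeval yF f) :=
    fun f => aeval_algebraMap_apply _ _ _
  have haevalK : ∀ f : C[X], ((aeval yF f : FF C yb) : Kb) = aeval yb f := fun f =>
    (aeval_algebraMap_apply Kb yF f).symm
  have hG : IsGauss C y := by
    refine ⟨?_, fun f i => ?_⟩
    · rw [hy, hnorm]; exact_mod_cast hy1
    · rw [haevalE, hnorm, haevalK]; exact_mod_cast hgauss f i
  have hF0 : ∀ z, z ∈ KY hG ↔ ∃ f : FF C yb, algebraMap (FF C yb) (EE C v0 yb) f = z := by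
    intro z
    constructor
    · rintro ⟨f, g, hg, rfl⟩
      exact ⟨aeval yF f / aeval yF g, by rw [map_div₀, ← haevalE, ← haevalE]⟩
    · rintro ⟨b, rfl⟩
      obtain ⟨r, s, hb⟩ := (IntermediateField.mem_adjoin_simple_iff C (b : Kb)).1 b.2
      by_cases hs : s = 0
      · have : b = 0 := Subtype.ext (by rw [hb, hs]; simp)
        rw [this, map_zero]; exact zero_mem _
      · refine ⟨r, s, hs, ?_⟩
        have : b = aeval yF r / aeval yF s := Subtype.ext (by
          rw [hb, ← haevalK, ← haevalK]; rfl)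
        rw [this, map_div₀, haevalE, haevalE]
  have hd : DenseRat C y := by
    intro z ε hε
    have hz : (z : Cpl v0) ∈ closure ((((FF C yb).toSubfield.map (toCpl v0) :
      Subfield (Cpl v0))) : Set (Cpl v0)) := z.2
    obtain ⟨_, ⟨b, hb, rfl⟩, hdist⟩ := Metric.mem_closure_iff.1 hz ε hε
    obtain ⟨f, g, hg, e⟩ := (hF0 _).2 ⟨⟨b, hb⟩, rfl⟩
    refine ⟨f, g, hg, ?_⟩
    rw [← e]
    rw [dist_eq_norm] at hdist
    exact hdist
  have hval : ∀ p : C[X], ((aeval y p : EE C v0 yb) : Cpl v0) = toCpl v0 (aeval yb p) := by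
    intro p
    rw [haevalE, ← haevalK]; rfl
  -- presentations
  have hpresE : ∀ (f : Kb) (G H : ℕ → C), Pres C v0 yb f G H → ∀ g h : EE C v0 yb,
      Tendsto (fun n => aeval y (tr G n)) atTop (𝓝 g) →
      Tendsto (fun n => aeval y (tr H n)) atTop (𝓝 h) → toCpl v0 f * h = g := by
    intro f G H hp g h hg hh
    have h1 : Tendsto (fun n => ((aeval y (tr G n) : EE C v0 yb) : Cpl v0)) atTop
        (𝓝 (g : Cpl v0)) := (continuous_subtype_val.tendsto g).comp hg
    have h2 : Tendsto (fun n => ((aeval y (tr H n) : EE C v0 yb) : Cpl v0)) atTop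
        (𝓝 (h : Cpl v0)) := (continuous_subtype_val.tendsto h).comp hh
    have h3 := (h2.const_mul (toCpl v0 f)).sub h1
    have h4 : Tendsto (fun n => toCpl v0 f * ((aeval y (tr H n) : EE C v0 yb) : Cpl v0) -
        ((aeval y (tr G n) : EE C v0 yb) : Cpl v0)) atTop (𝓝 0) := by
      rw [tendsto_zero_iff_norm_tendsto_zero]
      have h5 : ∀ n, ‖toCpl v0 f * ((aeval y (tr H n) : EE C v0 yb) : Cpl v0) -
        ((aeval y (tr G n) : EE C v0 yb) : Cpl v0)‖ =
          v0 (f * aeval yb (tr H n) - aeval yb (tr G n)) := by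
        intro n
        rw [hval, hval, ← map_mul, ← map_sub, norm_toCpl]
      simp only [h5]
      have h6 := (NNReal.tendsto_coe (f := atTop)).2 hp.lim
      simpa using h6
    exact sub_eq_zero.1 (tendsto_nhds_unique h3 h4)
  set T : Subfield Kb := ((FP hG hϖ hd).map (EE C v0 yb).subtype).comap (toCpl v0) with hTdef
  have hT : ∀ a, a ∈ T ↔ ∃ z : EE C v0 yb, z ∈ FP hG hϖ hd ∧ (z : Cpl v0) = toCpl v0 a :=
    fun a => Iff.rfl
  have hKT : ∀ a ∈ K, a ∈ T := by
    have h1 : Subfield.closure (Set.range (algebraMap (FF C yb) Kb) ∪ S) ≤ T := by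
      rw [Subfield.closure_le]
      rintro a (⟨f, rfl⟩ | ha)
      · exact (hT _).2 ⟨algebraMap (FF C yb) (EE C v0 yb) f,
          KY_le_FP hG hϖ hd ((hF0 _).2 ⟨f, rfl⟩), rfl⟩
      · obtain ⟨G, H, hp⟩ := hpres a ha
        obtain ⟨g, hgAP, hgt, -, -⟩ := exists_series hG G hp.tG
        obtain ⟨h, hhAP, hht, -, hhn⟩ := exists_series hG H hp.tH
        obtain ⟨i, hi⟩ := hp.ne
        have hh0 : h ≠ 0 := by
          rintro rfl
          have := hhn i
          rw [norm_zero] at this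
          exact hi (norm_le_zero_iff.1 this)
        refine (hT _).2 ⟨g / h, (FP hG hϖ hd).div_mem (AP_le_FP hG hϖ hd hgAP)
          (AP_le_FP hG hϖ hd hhAP), ?_⟩
        have h2 := hpresE a G H hp g h hgt hht
        have hh0' : (h : Cpl v0) ≠ 0 := fun h0 => hh0 (Subtype.ext h0)
        change (g : Cpl v0) / (h : Cpl v0) = _
        rw [div_eq_iff hh0', h2]
    intro a ha
    rw [hS] at ha
    exact h1 ha
  have hKE : ∀ a ∈ K, toCpl v0 a ∈ EE C v0 yb := by
    intro a ha
    obtain ⟨z, -, hz⟩ := (hT a).1 (hKT a ha)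
    rw [← hz]; exact z.2
  let κ : K →+* EE C v0 yb := ((toCpl v0).comp (algebraMap K Kb)).codRestrict (EE C v0 yb)
    fun f => hKE f f.2
  have hκ : ∀ f : K, ((κ f : EE C v0 yb) : Cpl v0) = toCpl v0 f := fun f => rfl
  have hKFP : ∀ f : K, κ f ∈ FP hG hϖ hd := by
    intro f
    obtain ⟨z, hz1, hz2⟩ := (hT f).1 (hKT f f.2)
    have : z = κ f := Subtype.ext hz2
    rwa [this] at hz1
  have hNr : (Set.range fun x : N => algebraMap L Kb (IntermediateField.inclusion hNL x)) =
      (N : Set Kb) := by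
    ext a
    constructor
    · rintro ⟨x, rfl⟩; exact x.2
    · intro ha; exact ⟨⟨a, ha⟩, rfl⟩
  obtain ⟨A', hA1, hA2, hA3, hA4, hA5⟩ := cut_level1_hom (F := FF C yb) (K := K) (N := N) (L := L)
    (Kb := Kb) hG hϖ hd κ (algebraMap (FF C yb) K) (IntermediateField.inclusion hKN).toRingHom
    (IntermediateField.inclusion hNL).toRingHom (algebraMap L Kb) (fun _ => rfl) (fun _ => rfl)
    (by
      change RingHom.Finite (algebraMap (FF C yb) L)
      exact RingHom.finite_algebraMap.2 inferInstance) hF0 hKFP (fun v hv l => by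
      have hgoal := hdense v (fun f hf => by
        have h1 := hv ⟨f, hf⟩
        have h2 : ‖κ ⟨f, hf⟩‖₊ = v0 f := by
          have : ‖κ ⟨f, hf⟩‖ = v0 f := norm_toCpl v0 f
          exact NNReal.coe_injective this
        rw [h2] at h1
        exact h1) _ l.2
      rw [← hNr] at hgoal
      exact hgoal) w hw yF rfl hwy
  refine ⟨A', hA1, fun x hx => hA2 ⟨x, hx⟩, fun l hl => hA3 ⟨l, hl⟩, fun v hv => ?_,
    fun v hv hvy hpl => ?_⟩
  · rcases hA4 v hv with ⟨s, hs1, hs2⟩ | h
    · refine Or.inl ⟨s, fun x hx => hs1 ⟨x, hx⟩, fun a ha => ?_⟩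
      have h1 := hs2 a ha
      have h2 : (Set.range fun l : L => s (algebraMap L Kb l)) = s '' (L : Set Kb) := by
        ext b
        constructor
        · rintro ⟨x, rfl⟩; exact ⟨x, x.2, rfl⟩
        · rintro ⟨x, hx, rfl⟩; exact ⟨⟨x, hx⟩, rfl⟩
      rw [← h2]; exact h1
    · refine Or.inr fun a ha => ?_
      have h1 := h a ha
      rw [← hNr]; exact h1
  · -- the place `P`
    obtain ⟨Φ, hΦF, hΦcl, hΦ1⟩ := exists_mapFP_val hG hF0 hϖ hd v hv yF rfl hvy
    have hinside := hA5 v ⟨Φ, ?_, hΦcl⟩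
    · intro a ha
      have h1 := hinside a ha
      rw [← hNr]; exact h1
    have hyFP : y ∈ FP hG hϖ hd := KY_le_FP hG hϖ hd (y_mem_KY hG)
    have hyn : ‖Φ ⟨y, hyFP⟩‖ < 1 := by
      have h1 : Φ ⟨y, hyFP⟩ = toCpl v yb := hΦF yF hyFP
      rw [h1, norm_toCpl]; exact_mod_cast hvy
    have hΦp : ∀ (p : C[X]) (h : aeval y p ∈ FP hG hϖ hd), Φ ⟨aeval y p, h⟩ =
        toCpl v (aeval yb p) := by
      intro p h
      have e1 : (⟨aeval y p, h⟩ : FP hG hϖ hd) =
          ⟨algebraMap (FF C yb) (EE C v0 yb) (aeval yF p), by rw [← haevalE]; exact h⟩ :=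
        Subtype.ext (haevalE p)
      rw [e1, hΦF]
      exact congrArg (toCpl v) (haevalK p)
    let κP : K →+* FP hG hϖ hd := κ.codRestrict (FP hG hϖ hd) hKFP
    set Z : Subfield Kb := (RingHom.eqLocusField (Φ.comp κP)
      ((toCpl v).comp (algebraMap K Kb))).map (algebraMap K Kb) with hZ
    have hSK : ∀ f ∈ S, f ∈ K := fun f hf => by
      rw [hS]; exact IntermediateField.subset_adjoin _ _ hf
    have hcl : Subfield.closure (Set.range (algebraMap (FF C yb) Kb) ∪ S) ≤ Z := by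
      rw [Subfield.closure_le]
      rintro a (⟨f, rfl⟩ | ha)
      · refine ⟨algebraMap (FF C yb) K f, ?_, rfl⟩
        exact hΦF f _
      · obtain ⟨G, H, hp, hvlim⟩ := hpl a ha
        obtain ⟨g, hgAP, hgt, hgT, -⟩ := exists_series hG G hp.tG
        obtain ⟨h, hhAP, hht, hhT, hhn⟩ := exists_series hG H hp.tH
        obtain ⟨i, hi⟩ := hp.ne
        have hh0 : h ≠ 0 := by
          rintro rfl
          have := hhn i
          rw [norm_zero] at this
          exact hi (norm_le_zero_iff.1 this)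
        have hEq := hpresE a G H hp g h hgt hht
        have hEq' : κ ⟨a, hSK a ha⟩ * h = g := Subtype.ext hEq
        have l1 := tendsto_map hG hϖ hd Φ hΦ1 hyFP hyn G g hgAP hgT
        have l2 := tendsto_map hG hϖ hd Φ hΦ1 hyFP hyn H h hhAP hhT
        have l3 := (l2.const_mul (toCpl v a)).sub l1
        have l4 : Tendsto (fun n => toCpl v a *
            Φ ⟨aeval y (tr H n), AP_le_FP hG hϖ hd (aeval_mem_AP hG _)⟩ -
            Φ ⟨aeval y (tr G n), AP_le_FP hG hϖ hd (aeval_mem_AP hG _)⟩) atTop (𝓝 0) := by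
          rw [tendsto_zero_iff_norm_tendsto_zero]
          have h5 : ∀ n, ‖toCpl v a *
            Φ ⟨aeval y (tr H n), AP_le_FP hG hϖ hd (aeval_mem_AP hG _)⟩ -
            Φ ⟨aeval y (tr G n), AP_le_FP hG hϖ hd (aeval_mem_AP hG _)⟩‖ =
              v (a * aeval yb (tr H n) - aeval yb (tr G n)) := by
            intro n
            rw [hΦp, hΦp, ← map_mul, ← map_sub, norm_toCpl]
          simp only [h5]
          have h6 := (NNReal.tendsto_coe (f := atTop)).2 hvlim
          simpa using h6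
        have l5 := sub_eq_zero.1 (tendsto_nhds_unique l3 l4)
        have hΦh : Φ ⟨h, AP_le_FP hG hϖ hd hhAP⟩ ≠ 0 := by
          intro h0
          exact hh0 (congrArg Subtype.val ((map_eq_zero Φ).1 h0))
        have l6 : Φ (κP ⟨a, hSK a ha⟩) * Φ ⟨h, AP_le_FP hG hϖ hd hhAP⟩ =
            Φ ⟨g, AP_le_FP hG hϖ hd hgAP⟩ := by
          rw [← map_mul]
          exact congrArg Φ (Subtype.ext hEq')
        refine ⟨⟨a, hSK a ha⟩, ?_, rfl⟩
        exact mul_right_cancel₀ hΦh (l6.trans l5.symm)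
    intro f
    have hfZ : (f : Kb) ∈ Z := hcl ((SetLike.ext_iff.1 hS (f : Kb)).1 f.2)
    obtain ⟨f', hf', e⟩ := hfZ
    have : f' = f := Subtype.ext e
    rw [this] at hf'
    exact hf'

end Crest.Agent.R013.Gl946
end

-- ▼ part R013/Gl18_946
section

/-!
# Patching, part 18: finite extensions of `ℚ_p` as complete discretely valued fields; change of
base fields.
-/

set_option autoImplicit false

namespace Crest.Agent.R013.Gl946

open Module Filter Topology Polynomial
open scoped NNReal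
open Crest.Agent.R013.A2a_275 (Cpl toCpl norm_toCpl absOf)
open Crest.Agent.R013.SE_669 (cl)
open Crest.NumberTheoryR.Sect (IsPlace)

section Norm

variable {C : Type*} [Field C] (v : Valuation C ℝ≥0)

/-- The normed field attached to a valuation. -/
@[instance_reducible]
noncomputable def nfV : NormedField C := (absOf v).toNormedField

/-- The nontrivially normed field attached to a nontrivial valuation. -/
@[instance_reducible]
noncomputable def nnfV (hnt : ∃ a, 1 < v a) : NontriviallyNormedField C :=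
  { nfV v with
    non_trivial := by
      obtain ⟨a, ha⟩ := hnt
      exact ⟨a, by change (1 : ℝ) < (v a : ℝ); exact_mod_cast ha⟩ }


theorem nnfV_ultra (hnt : ∃ a, 1 < v a) : letI := nnfV v hnt; IsUltrametricDist C := by
  let := nnfV v hnt
  refine IsUltrametricDist.isUltrametricDist_of_forall_norm_add_le_max_norm fun x y => ?_
  change ((v (x + y) : ℝ≥0) : ℝ) ≤ max (v x : ℝ) (v y : ℝ)
  have h := v.map_add x y
  have h1 : ((v (x + y) : ℝ≥0) : ℝ) ≤ ((max (v x) (v y) : ℝ≥0) : ℝ) := by exact_mod_cast h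
  rwa [NNReal.coe_max] at h1

theorem exists_unif {C : Type*} [NontriviallyNormedField C] [IsUltrametricDist C] [ProperSpace C] :
    ∃ ϖ : C, IsUnif ϖ := by
  obtain ⟨c, hc0, hc1⟩ := NormedField.exists_norm_lt_one C
  have hcpt : IsCompact (Metric.ball (0 : C) 1) := by
    refine IsCompact.of_isClosed_subset (isCompact_closedBall (0 : C) 1)
      (IsUltrametricDist.isClosed_ball 0 1) Metric.ball_subset_closedBall
  obtain ⟨ϖ, hϖ1, hϖ2⟩ := hcpt.exists_isMaxOn ⟨c, by rwa [mem_ball_zero_iff]⟩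
    (f := fun a : C => ‖a‖) continuous_norm.continuousOn
  have hmax : ∀ a : C, ‖a‖ < 1 → ‖a‖ ≤ ‖ϖ‖ := fun a ha => hϖ2 (mem_ball_zero_iff.2 ha)
  refine ⟨ϖ, ⟨hc0.trans_le (hmax c hc1), mem_ball_zero_iff.1 hϖ1, hmax⟩⟩

variable {p : ℕ} [Fact p.Prime] [Algebra ℚ_[p] C]
  (hv : ∀ q : ℚ_[p], v (algebraMap ℚ_[p] C q) = ‖q‖₊)

include hv in
theorem nt_of_padic : ∃ a, 1 < v a := by
  obtain ⟨q, hq⟩ := NormedField.exists_one_lt_norm ℚ_[p]
  refine ⟨algebraMap ℚ_[p] C q, ?_⟩
  rw [hv]; exact_mod_cast hq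

variable [FiniteDimensional ℚ_[p] C]

include hv in
theorem nnfV_complete (hnt : ∃ a, 1 < v a) :
    letI := nnfV v hnt; CompleteSpace C ∧ ProperSpace C := by
  let i1 := nnfV v hnt
  let i2 : NormedAlgebra ℚ_[p] C :=
    { (inferInstance : Algebra ℚ_[p] C) with
      norm_smul_le := by
        intro q a
        rw [Algebra.smul_def, norm_mul]
        refine mul_le_mul_of_nonneg_right (le_of_eq ?_) (norm_nonneg _)
        change ((v (algebraMap ℚ_[p] C q) : ℝ≥0) : ℝ) = _
        rw [hv]; rfl }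
  exact ⟨FiniteDimensional.complete ℚ_[p] C, FiniteDimensional.proper ℚ_[p] C⟩

include hv in
theorem unique_val (w : Valuation C ℝ≥0) (hw : ∀ q : ℚ_[p], w (algebraMap ℚ_[p] C q) = ‖q‖₊)
    (c : C) : v c = w c := by
  have h1 := spectralNorm_unique_field_norm_ext (K := ℚ_[p]) (L := C) (f := absOf v) (fun q => by
    change ((v (algebraMap ℚ_[p] C q) : ℝ≥0) : ℝ) = _
    rw [hv]; rfl) c
  have h2 := spectralNorm_unique_field_norm_ext (K := ℚ_[p]) (L := C) (f := absOf w) (fun q => by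
    change ((w (algebraMap ℚ_[p] C q) : ℝ≥0) : ℝ) = _
    rw [hw]; rfl) c
  exact NNReal.coe_injective (h1.trans h2.symm)

end Norm

section Reb

variable {k K C Kb : Type*} [Field k] [Field K] [Field C] [Field Kb] [Algebra k K] [Algebra k C]
  [Algebra C Kb] [Algebra K Kb] [Algebra k Kb] [IsScalarTower k K Kb] [IsScalarTower k C Kb]

/-- A field between `K` and `Kb` containing `F`, as an extension of `F`. -/
def reb (F : IntermediateField C Kb) (M : IntermediateField K Kb) (h : ∀ f ∈ F, f ∈ M) :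
    IntermediateField F Kb :=
  { M.toSubfield with algebraMap_mem' := fun f => h f f.2 }


/-- `k(x) → F`. -/
theorem exists_r (F : IntermediateField C Kb) (x : K) (hx : algebraMap K Kb x ∈ F) :
    ∃ r : IntermediateField.adjoin k {x} →+* F, ∀ a, ((r a : F) : Kb) = algebraMap K Kb a := by
  let F' : IntermediateField k K :=
    { F.toSubfield.comap (algebraMap K Kb) with
      algebraMap_mem' := fun c => by
        change algebraMap K Kb (algebraMap k K c) ∈ F
        rw [← IsScalarTower.algebraMap_apply, IsScalarTower.algebraMap_apply k C Kb]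
        exact F.algebraMap_mem _ }
  have hle : IntermediateField.adjoin k {x} ≤ F' := by
    rw [IntermediateField.adjoin_le_iff]
    rintro _ rfl
    exact hx
  refine ⟨((algebraMap K Kb).comp (algebraMap (IntermediateField.adjoin k {x}) K)).codRestrict F
    (fun a => hle a.2), fun a => rfl⟩

theorem finite_reb (F : IntermediateField C Kb) (x : K) (hx : algebraMap K Kb x ∈ F)
    [FiniteDimensional (IntermediateField.adjoin k {x}) K]
    (M : IntermediateField K Kb) [FiniteDimensional K M] (h : ∀ f ∈ F, f ∈ M) :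
    FiniteDimensional F (reb F M h) := by
  obtain ⟨r, hr⟩ := exists_r (k := k) F x hx
  let t : M →+* reb F M h :=
    { toFun := fun a => ⟨a.1, a.2⟩
      map_one' := rfl
      map_mul' := fun _ _ => rfl
      map_zero' := rfl
      map_add' := fun _ _ => rfl }
  have ht : t.Finite := RingHom.Finite.of_surjective t fun a => ⟨⟨a.1, a.2⟩, rfl⟩
  have h1 : (algebraMap K M).Finite := RingHom.finite_algebraMap.2 inferInstance
  have h2 : (algebraMap (IntermediateField.adjoin k {x}) K).Finite :=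
    RingHom.finite_algebraMap.2 inferInstance
  have h3 := ht.comp (h1.comp h2)
  have h4 : (algebraMap F (reb F M h)).comp r =
      t.comp ((algebraMap K M).comp (algebraMap (IntermediateField.adjoin k {x}) K)) := by
    ext a
    exact hr a
  rw [← h4] at h3
  exact RingHom.finite_algebraMap.1 h3.of_comp_finite


theorem finite_reb' (F : IntermediateField C Kb) (KC M : IntermediateField K Kb)
    (hF : ∀ f ∈ F, f ∈ KC) (h : KC ≤ M) [FiniteDimensional K M]
    (hfin : FiniteDimensional F (reb F KC hF)) :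
    FiniteDimensional F (reb F M (fun f hf => h (hF f hf))) := by
  let t : M →+* reb F M (fun f hf => h (hF f hf)) :=
    { toFun := fun a => ⟨a.1, a.2⟩
      map_one' := rfl
      map_mul' := fun _ _ => rfl
      map_zero' := rfl
      map_add' := fun _ _ => rfl }
  let t' : reb F KC hF →+* KC :=
    { toFun := fun a => ⟨a.1, a.2⟩
      map_one' := rfl
      map_mul' := fun _ _ => rfl
      map_zero' := rfl
      map_add' := fun _ _ => rfl }
  let a1 : KC →+* M := (IntermediateField.inclusion h).toRingHom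
  have ht : t.Finite := RingHom.Finite.of_surjective t fun a => ⟨⟨a.1, a.2⟩, rfl⟩
  have ht' : t'.Finite := RingHom.Finite.of_surjective t' fun a => ⟨⟨a.1, a.2⟩, rfl⟩
  have h1 : (algebraMap K M).Finite := RingHom.finite_algebraMap.2 inferInstance
  have h2 : a1.comp (algebraMap K KC) = algebraMap K M := rfl
  rw [← h2] at h1
  have h3 : a1.Finite := h1.of_comp_finite
  have h4 : (algebraMap F (reb F KC hF)).Finite := RingHom.finite_algebraMap.2 hfin
  have h5 := ht.comp (h3.comp (ht'.comp h4))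
  exact RingHom.finite_algebraMap.1 h5

theorem algebraic_F' (F : IntermediateField C Kb) (KC : IntermediateField K Kb)
    (hF : ∀ f ∈ F, f ∈ KC) [Algebra.IsAlgebraic K Kb]
    (hfin : FiniteDimensional F (reb F KC hF)) : Algebra.IsAlgebraic F Kb := by
  let t' : reb F KC hF →+* KC :=
    { toFun := fun a => ⟨a.1, a.2⟩
      map_one' := rfl
      map_mul' := fun _ _ => rfl
      map_zero' := rfl
      map_add' := fun _ _ => rfl }
  have ht' : t'.Finite := RingHom.Finite.of_surjective t' fun a => ⟨⟨a.1, a.2⟩, rfl⟩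
  have h1 : (algebraMap K Kb).IsIntegral := fun a =>
    (Algebra.IsAlgebraic.isAlgebraic (R := K) a).isIntegral
  have h2 : (algebraMap KC Kb).comp (algebraMap K KC) = algebraMap K Kb := rfl
  rw [← h2] at h1
  have h3 := RingHom.IsIntegral.tower_top _ _ h1
  have h4 : (algebraMap F (reb F KC hF)).Finite := RingHom.finite_algebraMap.2 hfin
  have h5 := RingHom.IsIntegral.trans _ _ (ht'.comp h4).to_isIntegral h3
  exact ⟨fun a => (show IsIntegral F a from h5 a).isAlgebraic⟩


end Reb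

end Crest.Agent.R013.Gl946
end

-- ▼ part R013/Gl19_946
section

/-!
# Patching, part 19: CUT-END.
-/

set_option autoImplicit false

namespace Crest.Agent.R013.Gl946

open Module Filter Topology Polynomial
open scoped NNReal
open Crest.Agent.R013.A2a_275 (Cpl toCpl norm_toCpl absOf)
open Crest.Agent.R013.SE_669 (cl)
open Crest.NumberTheoryR.Sect (IsPlace)

/-- The closure of an intermediate field. -/
noncomputable def clK {K Kb : Type*} [Field K] [Field Kb] [Algebra K Kb] (v : Valuation Kb ℝ≥0)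
    (M : IntermediateField K Kb) : IntermediateField K Kb :=
  { (clS v M.toSubfield).comap (toCpl v) with
    algebraMap_mem' := fun r => toCpl_mem_clS v _ (M.algebraMap_mem r) }

theorem mem_clK {K Kb : Type*} [Field K] [Field Kb] [Algebra K Kb] (v : Valuation Kb ℝ≥0)
    (M : IntermediateField K Kb) (a : Kb) : a ∈ clK v M ↔ a ∈ cl v (M : Set Kb) :=
  mem_clS_iff v M.toSubfield a

/-- **CUT-END**, abstract constants `C`. -/
theorem cut_end_abs {K C Kb : Type*} [Field K] [NontriviallyNormedField C]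
    [CompleteSpace C] [IsUltrametricDist C] [Field Kb] [IsAlgClosed Kb] [CharZero Kb]
    [Algebra C Kb] [Algebra K Kb] [Algebra.IsAlgebraic K Kb] {ϖ : C}
    (hϖ : IsUnif ϖ) (v0 P : Valuation Kb ℝ≥0) (hv0 : ∀ c : C, v0 (algebraMap C Kb c) = ‖c‖₊)
    (KC : IntermediateField K Kb) (xb : Kb) (hxKC : xb ∈ KC) (hx0 : xb ≠ 0)
    (π : C) (hπ : π ≠ 0)
    (hfinKC : ∀ h : (∀ f ∈ FF C (xb / algebraMap C Kb π), f ∈ KC),
      FiniteDimensional (FF C (xb / algebraMap C Kb π)) (reb (FF C (xb / algebraMap C Kb π)) KC h))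
    (hgauss : ∀ (n : ℕ) (c : ℕ → C), v0 (∑ i ∈ Finset.range n, algebraMap C Kb (c i) *
      xb ^ i) = (Finset.range n).sup fun i => ‖c i‖₊ * ‖π‖₊ ^ i)
    (hdisc : ∀ f : K, ∃ G H : ℕ → C, (∃ i, H i ≠ 0) ∧
      (∃ R B : ℝ≥0, ‖π‖₊ < R ∧ ∀ i, ‖G i‖₊ * R ^ i ≤ B ∧ ‖H i‖₊ * R ^ i ≤ B) ∧
      Tendsto (fun n => v0 (algebraMap K Kb f * (∑ i ∈ Finset.range n, algebraMap C Kb (H i) *
        xb ^ i) - ∑ i ∈ Finset.range n, algebraMap C Kb (G i) * xb ^ i)) atTop (𝓝 0) ∧
      Tendsto (fun n => P (algebraMap K Kb f * (∑ i ∈ Finset.range n, algebraMap C Kb (H i) *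
        xb ^ i) - ∑ i ∈ Finset.range n, algebraMap C Kb (G i) * xb ^ i)) atTop (𝓝 0))
    (hPx : P xb < 1)
    (U L : IntermediateField K Kb)
    (hKC : KC = IntermediateField.adjoin K (Set.range (algebraMap C Kb)))
    [FiniteDimensional K U] [FiniteDimensional K L] (hCU : ∀ c : C, algebraMap C Kb c ∈ U)
    (hdense : ∀ v : Valuation Kb ℝ≥0, (∀ f ∈ KC, v f = v0 f) → ∀ l ∈ L, l ∈ cl v (U : Set Kb))
    (w : Valuation Kb ℝ≥0) (hw : ∀ c : C, w (algebraMap C Kb c) = ‖c‖₊)
    (hwx : ‖π‖₊ ≤ w xb) :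
    ∃ A' : IntermediateField K Kb, FiniteDimensional K A' ∧ U ≤ A' ∧
      (∀ l ∈ L, l ∈ cl w (A' : Set Kb)) ∧
      (∀ v : Valuation Kb ℝ≥0, ((∀ c : C, v (algebraMap C Kb c) = ‖c‖₊) ∨ IsPlace C v) →
        (∃ s : Kb ≃ₐ[K] Kb, (∀ u ∈ U, s u = u) ∧
          ∀ a ∈ A', a ∈ cl v (s '' ((L ⊔ U : IntermediateField K Kb) : Set Kb))) ∨
        (∀ a ∈ A', a ∈ cl v (U : Set Kb))) ∧
      (∀ v : Valuation Kb ℝ≥0, IsPlace C v → (∀ f ∈ KC, v f ≤ 1 ↔ P f ≤ 1) →
        ∀ a ∈ A', a ∈ cl v (U : Set Kb)) := by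
  classical
  set πb : Kb := algebraMap C Kb π with hπb
  have hπb0 : πb ≠ 0 := (_root_.map_ne_zero _).2 hπ
  have hπn : ‖π‖₊ ≠ 0 := by simpa using hπ
  set yb : Kb := xb / πb with hyb
  have hxy : xb = yb * πb := by rw [hyb, div_mul_cancel₀ _ hπb0]
  have hKle : KC ≤ U := by
    rw [hKC, IntermediateField.adjoin_le_iff]
    rintro _ ⟨c, rfl⟩; exact hCU c
  have hCKC : ∀ c : C, algebraMap C Kb c ∈ KC := fun c => by
    rw [hKC]; exact IntermediateField.subset_adjoin _ _ ⟨c, rfl⟩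
  have hyKC : yb ∈ KC := KC.div_mem hxKC (hCKC π)
  have hFKC : ∀ f ∈ FF C yb, f ∈ KC := by
    have h1 : Subfield.closure (Set.range (algebraMap C Kb) ∪ {yb}) ≤ KC.toSubfield := by
      rw [Subfield.closure_le]
      rintro _ (⟨c, rfl⟩ | rfl)
      · exact hCKC c
      · exact hyKC
    exact fun f hf => h1 hf
  have hfinKC' : FiniteDimensional (FF C yb) (reb (FF C yb) KC hFKC) := hfinKC hFKC
  have halg : Algebra.IsAlgebraic (FF C yb) Kb := algebraic_F' (FF C yb) KC hFKC hfinKC'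
  -- rescaling
  have hpoly : ∀ (c : ℕ → C) (n : ℕ), aeval yb (tr (fun i => c i * π ^ i) n) =
      ∑ i ∈ Finset.range n, algebraMap C Kb (c i) * xb ^ i := by
    intro c n
    rw [aeval_tr]
    refine Finset.sum_congr rfl fun i _ => ?_
    rw [map_mul, map_pow, ← hπb, hxy, mul_pow]; ring
  have hvx : v0 xb = ‖π‖₊ := by
    have h1 := hgauss 2 (fun i => if i = 1 then 1 else 0)
    have h2 : (∑ i ∈ Finset.range 2, algebraMap C Kb (if i = 1 then 1 else 0) * xb ^ i) = xb := by
      rw [Finset.sum_range_succ, Finset.sum_range_succ]; simp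
    rw [h2] at h1
    rw [h1]
    simp [Finset.range_add_one]
  have hvy : v0 yb ≤ 1 := by
    rw [hyb, map_div₀, hvx, hπb, hv0, div_self hπn]
  have hgauss' : ∀ (f : C[X]) i, ‖f.coeff i‖₊ ≤ v0 (aeval yb f) := by
    intro f i
    rcases lt_or_ge f.natDegree i with hi | hi
    · rw [coeff_eq_zero_of_natDegree_lt hi]; simp
    · have h1 : f = tr (fun j => (f.coeff j * (π ^ j)⁻¹) * π ^ j) (f.natDegree + 1) := by
        ext j
        rcases lt_or_ge j (f.natDegree + 1) with hj | hj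
        · rw [coeff_tr _ _ _ hj, mul_assoc, inv_mul_cancel₀ (pow_ne_zero _ hπ), mul_one]
        · rw [coeff_eq_zero_of_natDegree_lt (by omega), tr, finsetSum_coeff]
          symm
          refine Finset.sum_eq_zero fun l hl => ?_
          rw [coeff_monomial, if_neg]
          rintro rfl
          rw [Finset.mem_range] at hl
          omega
      have h2 := hgauss (f.natDegree + 1) (fun j => f.coeff j * (π ^ j)⁻¹)
      rw [← hpoly, ← h1] at h2
      rw [h2]
      have h3 := Finset.le_sup (f := fun j => ‖f.coeff j * (π ^ j)⁻¹‖₊ * ‖π‖₊ ^ j)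
        (Finset.mem_range.2 (show i < f.natDegree + 1 by omega))
      refine le_trans (le_of_eq ?_) h3
      rw [nnnorm_mul, nnnorm_inv, nnnorm_pow, mul_assoc, inv_mul_cancel₀ (pow_ne_zero _ hπn),
        mul_one]
  have htend : ∀ (G : ℕ → C) (R B : ℝ≥0), ‖π‖₊ < R → (∀ i, ‖G i‖₊ * R ^ i ≤ B) →
      Tendsto (fun i => ‖G i * π ^ i‖) atTop (𝓝 0) := by
    intro G R B hR hB
    have hR0 : (0 : ℝ) < R := lt_of_le_of_lt (norm_nonneg π) (by exact_mod_cast hR)
    have h1 : Tendsto (fun i : ℕ => (B : ℝ) * (‖π‖ / R) ^ i) atTop (𝓝 0) := by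
      have h2 : Tendsto (fun i : ℕ => (‖π‖ / (R : ℝ)) ^ i) atTop (𝓝 0) :=
        tendsto_pow_atTop_nhds_zero_of_lt_one (by positivity)
          ((div_lt_one hR0).2 (by exact_mod_cast hR))
      simpa using h2.const_mul (B : ℝ)
    refine squeeze_zero (fun i => norm_nonneg _) (fun i => ?_) h1
    rw [norm_mul, norm_pow, div_pow, ← mul_div_assoc, le_div_iff₀ (by positivity)]
    have h3 : ‖G i‖ * (R : ℝ) ^ i ≤ B := by exact_mod_cast hB i
    calc ‖G i‖ * ‖π‖ ^ i * (R : ℝ) ^ i = (‖G i‖ * (R : ℝ) ^ i) * ‖π‖ ^ i := by ring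
      _ ≤ B * ‖π‖ ^ i := mul_le_mul_of_nonneg_right h3 (by positivity)
  have hpres : ∀ f ∈ Set.range (algebraMap K Kb), ∃ G H : ℕ → C, Pres C v0 yb f G H ∧
      Tendsto (fun n => P (f * aeval yb (tr H n) - aeval yb (tr G n))) atTop (𝓝 0) := by
    rintro _ ⟨f, rfl⟩
    obtain ⟨G, H, ⟨i, hi⟩, ⟨R, B, hR, hB⟩, h1, h2⟩ := hdisc f
    refine ⟨fun i => G i * π ^ i, fun i => H i * π ^ i, ⟨⟨i, mul_ne_zero hi (pow_ne_zero _ hπ)⟩,
      htend G R B hR fun i => (hB i).1, htend H R B hR fun i => (hB i).2, ?_⟩, ?_⟩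
    · simp only [hpoly]; exact h1
    · simp only [hpoly]; exact h2
  have hFU : ∀ f ∈ FF C yb, f ∈ U := fun f hf => hKle (hFKC f hf)
  have hUL : U ≤ L ⊔ U := le_sup_right
  have hfinLU : FiniteDimensional K (L ⊔ U : IntermediateField K Kb) :=
    IntermediateField.finiteDimensional_sup L U
  have hfin := finite_reb' (FF C yb) KC (L ⊔ U) hFKC (hKle.trans hUL) hfinKC'
  have hS : reb (FF C yb) KC hFKC =
      IntermediateField.adjoin (FF C yb) (Set.range (algebraMap K Kb)) := by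
    apply le_antisymm
    · intro a ha
      have ha' : a ∈ KC := ha
      rw [hKC] at ha'
      have h1 : Subfield.closure (Set.range (algebraMap K Kb) ∪ Set.range (algebraMap C Kb)) ≤
          (IntermediateField.adjoin (FF C yb) (Set.range (algebraMap K Kb))).toSubfield := by
        rw [Subfield.closure_le]
        rintro _ (⟨r, rfl⟩ | ⟨c, rfl⟩)
        · exact IntermediateField.subset_adjoin _ _ ⟨r, rfl⟩
        · exact (IntermediateField.adjoin (FF C yb) (Set.range (algebraMap K Kb))).algebraMap_mem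
            ⟨algebraMap C Kb c, (FF C yb).algebraMap_mem c⟩
      exact h1 ha'
    · rw [IntermediateField.adjoin_le_iff]
      rintro _ ⟨r, rfl⟩
      exact KC.algebraMap_mem r
  obtain ⟨A, h1, h2, h3, h4, h5⟩ := cut_level2 hϖ v0 hv0 yb hvy hgauss'
    (reb (FF C yb) KC hFKC) (reb (FF C yb) U hFU)
    (reb (FF C yb) (L ⊔ U) (fun f hf => hUL (hFU f hf)))
    (fun a ha => hKle ha) (fun a ha => hUL ha) (Set.range (algebraMap K Kb)) hS
    (fun f hf => by obtain ⟨G, H, h, -⟩ := hpres f hf; exact ⟨G, H, h⟩)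
    (fun v hv l hl => by
      have h1 : L ⊔ U ≤ clK v U := sup_le
        (fun l hl => (mem_clK v U l).2 (hdense v (fun f hf => hv f hf) l hl))
        (fun l hl => (mem_clS_iff v U.toSubfield l).1 (toCpl_mem_clS v _ hl) |> (mem_clK v U l).2)
      exact (mem_clK v U l).1 (h1 hl)) w hw (by
      rw [hyb, map_div₀, hπb, hw]
      exact (one_le_div₀ (pos_iff_ne_zero.2 hπn)).2 hwx)
  let A' : IntermediateField K Kb :=
    { A.toSubfield with algebraMap_mem' := fun r => h2 (U.algebraMap_mem r) }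
  have hA' : ∀ a, a ∈ A' ↔ a ∈ A := fun a => Iff.rfl
  have hUA : ∀ a ∈ U, a ∈ A := fun a ha => h2 ha
  have hfinA : FiniteDimensional K A' := by
    let aFU : FF C yb →+* U :=
      { toFun := fun a => ⟨a.1, hFU a.1 a.2⟩
        map_one' := rfl
        map_mul' := fun _ _ => rfl
        map_zero' := rfl
        map_add' := fun _ _ => rfl }
    let aUA : U →+* A :=
      { toFun := fun a => ⟨a.1, hUA a.1 a.2⟩
        map_one' := rfl
        map_mul' := fun _ _ => rfl
        map_zero' := rfl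
        map_add' := fun _ _ => rfl }
    let aAA : A →+* A' :=
      { toFun := fun a => ⟨a.1, a.2⟩
        map_one' := rfl
        map_mul' := fun _ _ => rfl
        map_zero' := rfl
        map_add' := fun _ _ => rfl }
    have f1 : (algebraMap (FF C yb) A).Finite := RingHom.finite_algebraMap.2 h1
    have f2 : aUA.comp aFU = algebraMap (FF C yb) A := rfl
    rw [← f2] at f1
    have f3 : aUA.Finite := f1.of_comp_finite
    have f4 : (algebraMap K U).Finite := RingHom.finite_algebraMap.2 inferInstance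
    have f5 : aAA.Finite := RingHom.Finite.of_surjective _ fun a => ⟨⟨a.1, a.2⟩, rfl⟩
    have f6 := f5.comp (f3.comp f4)
    exact RingHom.finite_algebraMap.1 f6
  refine ⟨A', hfinA, fun a ha => hUA a ha, fun l hl => h3 l (le_sup_left (a := L) (b := U) hl),
    fun v hv => ?_, fun v hv hP a ha => ?_⟩
  · rcases h4 v hv with ⟨s, hs1, hs2⟩ | h
    · exact Or.inl ⟨AlgEquiv.ofRingEquiv (f := s) (fun r => hs1 _ (U.algebraMap_mem r)),
        fun u hu => hs1 u hu, fun a ha => hs2 a ha⟩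
    · exact Or.inr fun a ha => h a ha
  · -- `v` is the place `P`
    have hPx0 : P xb ≠ 0 := (Valuation.ne_zero_iff P).2 hx0
    have hvx0 : v xb ≠ 0 := (Valuation.ne_zero_iff v).2 hx0
    have hvx1 : v xb < 1 := by
      by_contra hcon
      push Not at hcon
      have e1 : v xb⁻¹ ≤ 1 := by rw [map_inv₀]; exact inv_le_one_of_one_le₀ hcon
      have e2 := (hP _ (inv_mem hxKC)).1 e1
      rw [map_inv₀] at e2
      exact absurd hPx (not_lt.2 ((inv_le_one₀ (pos_iff_ne_zero.2 hPx0)).1 e2))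
    have hvy1 : v yb < 1 := by
      rw [hyb, map_div₀, hπb, hv.1 π hπ, div_one]; exact hvx1
    refine h5 v hv hvy1 (fun f hf => ?_) a ha
    obtain ⟨G, H, hGH, hlim⟩ := hpres f hf
    refine ⟨G, H, hGH, ?_⟩
    obtain ⟨f, rfl⟩ := hf
    have hmem : ∀ p : C[X], aeval yb p ∈ KC := fun p => by
      rw [aeval_eq_sum_range]
      refine sum_mem fun i _ => ?_
      rw [Algebra.smul_def]
      exact mul_mem (hCKC _) (pow_mem hyKC _)
    set an : ℕ → Kb := fun n => algebraMap K Kb f * aeval yb (tr H n) - aeval yb (tr G n) with han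
    have hanKC : ∀ n, an n ∈ KC := fun n => sub_mem (mul_mem (KC.algebraMap_mem f) (hmem _)) (hmem _)
    have hpow : Tendsto (fun m : ℕ => v xb ^ m) atTop (𝓝 0) :=
      NNReal.tendsto_pow_atTop_nhds_zero_of_lt_one hvx1
    rw [tendsto_order]
    refine ⟨fun b hb => absurd hb (not_lt.2 zero_le), fun ε hε => ?_⟩
    obtain ⟨m, hm⟩ := ((tendsto_order.1 hpow).2 ε hε).exists
    have hev := (tendsto_order.1 hlim).2 (P xb ^ m) (pow_pos (pos_iff_ne_zero.2 hPx0) m)
    filter_upwards [hev] with n hn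
    have e1 : P (an n / xb ^ m) ≤ 1 := by
      rw [map_div₀, map_pow]
      exact div_le_one_of_le₀ hn.le zero_le
    have e2 := (hP _ (div_mem (hanKC n) (pow_mem hxKC m))).2 e1
    rw [map_div₀, map_pow] at e2
    have e3 : v (an n) ≤ v xb ^ m := (div_le_one₀ (pow_pos (pos_iff_ne_zero.2 hvx0) m)).1 e2
    exact e3.trans_lt hm

/-- Valuations trivial on `k` are trivial on finite extensions. -/
theorem isPlace_C {k C Kb : Type*} [Field k] [Field C] [Field Kb] [Algebra k C] [Algebra C Kb]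
    [Algebra k Kb] [IsScalarTower k C Kb] [Algebra.IsAlgebraic k C] {v : Valuation Kb ℝ≥0}
    (hv : IsPlace k v) : IsPlace C v := by
  have hle : ∀ c : C, v (algebraMap C Kb c) ≤ 1 := by
    intro c
    refine le_one_of_algebraic (F := k) (v.comap (algebraMap C Kb)) (fun f => ?_) c
    change v (algebraMap C Kb (algebraMap k C f)) ≤ 1
    rw [← IsScalarTower.algebraMap_apply]
    by_cases hf : f = 0
    · rw [hf, map_zero, map_zero]; exact zero_le_one
    · exact (hv.1 f hf).le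
  refine ⟨fun c hc => le_antisymm (hle c) ?_, hv.2⟩
  have h1 := hle c⁻¹
  rw [map_inv₀, map_inv₀] at h1
  have h0 : v (algebraMap C Kb c) ≠ 0 := (Valuation.ne_zero_iff v).2 ((_root_.map_ne_zero _).2 hc)
  exact (inv_le_one₀ (pos_iff_ne_zero.2 h0)).1 h1

/-- **CUT-END.**  `k/ℚ_p` finite, `K/k` a function field, `x : K`, `v₀` a norm of `Kb` over the
circle of radius `|π|` of a disc embedding at `P`, constants `C`.  `U`, `L` finite over `K`,
containing `C`; `L` is contained in the closure of `U` for every norm over the circle.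
For a norm `w` with `w x ≥ |π|` there is a finite `A' ≥ U`, `L ⊂ cl w A'`, and for every norm or
place `v` the field `A'` is in the closure of a conjugate of `L U` or of `U`; the latter if `v`
is the place `P`. -/
theorem cut_end_gen (p : ℕ) [Fact p.Prime] {k K Kb : Type*} [Field k] [Algebra ℚ_[p] k]
    [FiniteDimensional ℚ_[p] k] [Field K] [Field Kb] [IsAlgClosed Kb] [Algebra k K] [Algebra K Kb]
    [Algebra k Kb] [IsScalarTower k K Kb] [Algebra.IsAlgebraic K Kb]
    (C : IntermediateField k Kb) [FiniteDimensional k C] (v0 P : Valuation Kb ℝ≥0)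
    (x : Kb) (hxKC : x ∈ IntermediateField.adjoin K (C : Set Kb)) (hx0 : x ≠ 0)
    (hfinKC : ∀ (F : IntermediateField C Kb), x ∈ F →
      ∀ h : (∀ f ∈ F, f ∈ IntermediateField.adjoin K (C : Set Kb)),
      FiniteDimensional F (reb F (IntermediateField.adjoin K (C : Set Kb)) h))
    (π : Kb) (hπC : π ∈ C) (hπ0 : π ≠ 0)
    (hv0 : Crest.NumberTheoryR.Sect.ExtendsPadicNorm k Kb p v0)
    (hcirc : SE_669.IsCircle K C P x (v0 π) v0)
    (hPx : P x < 1)
    (U L : IntermediateField K Kb) [FiniteDimensional K U] [FiniteDimensional K L]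
    (hCU : ∀ c ∈ C, c ∈ U)
    (hdense : ∀ v : Valuation Kb ℝ≥0,
      (∀ f ∈ IntermediateField.adjoin K (C : Set Kb), v f = v0 f) →
      ∀ l ∈ L, l ∈ cl v (U : Set Kb))
    (w : Valuation Kb ℝ≥0) (hw : Crest.NumberTheoryR.Sect.ExtendsPadicNorm k Kb p w)
    (hwx : w π ≤ w x) :
    ∃ A' : IntermediateField K Kb, FiniteDimensional K A' ∧ U ≤ A' ∧
      (∀ l ∈ L, l ∈ cl w (A' : Set Kb)) ∧
      (∀ v : Valuation Kb ℝ≥0,
        (Crest.NumberTheoryR.Sect.ExtendsPadicNorm k Kb p v ∨ IsPlace k v) →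
        (∃ s : Kb ≃ₐ[K] Kb, (∀ u ∈ U, s u = u) ∧
          ∀ a ∈ A', a ∈ cl v (s '' ((L ⊔ U : IntermediateField K Kb) : Set Kb))) ∨
        (∀ a ∈ A', a ∈ cl v (U : Set Kb))) ∧
      (∀ v : Valuation Kb ℝ≥0, IsPlace k v →
        (∀ f ∈ IntermediateField.adjoin K (C : Set Kb), v f ≤ 1 ↔ P f ≤ 1) →
        ∀ a ∈ A', a ∈ cl v (U : Set Kb)) := by
  classical
  -- the `ℚ_p`-structure on `C`
  let iQC : Algebra ℚ_[p] C := ((algebraMap k C).comp (algebraMap ℚ_[p] k)).toAlgebra
  have tQC : IsScalarTower ℚ_[p] k C := IsScalarTower.of_algebraMap_eq fun _ => rfl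
  have fQC : FiniteDimensional ℚ_[p] C := Module.Finite.trans k C
  have hnorm : ∀ v : Valuation Kb ℝ≥0, Crest.NumberTheoryR.Sect.ExtendsPadicNorm k Kb p v →
      ∀ q : ℚ_[p], v.comap (algebraMap C Kb) (algebraMap ℚ_[p] C q) = ‖q‖₊ := fun v hv q => hv q
  have hnt := nt_of_padic (v0.comap (algebraMap C Kb)) (hnorm v0 hv0)
  have huniq : ∀ v : Valuation Kb ℝ≥0, Crest.NumberTheoryR.Sect.ExtendsPadicNorm k Kb p v →
      ∀ c : C, v (algebraMap C Kb c) = v0 (algebraMap C Kb c) := fun v hv c =>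
    unique_val (v.comap (algebraMap C Kb)) (hnorm v hv) (v0.comap (algebraMap C Kb))
      (hnorm v0 hv0) c
  have hchar : CharZero Kb := by
    have h0 : CharZero k := charZero_of_injective_algebraMap (algebraMap ℚ_[p] k).injective
    exact charZero_of_injective_algebraMap (algebraMap k Kb).injective
  let iC : NontriviallyNormedField C := nnfV (v0.comap (algebraMap C Kb)) hnt
  have iU : IsUltrametricDist C := nnfV_ultra _ hnt
  obtain ⟨iCS, iPS⟩ := nnfV_complete (v0.comap (algebraMap C Kb)) (hnorm v0 hv0) hnt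
  obtain ⟨ϖ, hϖ⟩ := exists_unif (C := C)
  have hnn : ∀ c : C, v0 (algebraMap C Kb c) = ‖c‖₊ := fun c => rfl
  have hπ1 : ‖(⟨π, hπC⟩ : C)‖₊ = v0 π := rfl
  have hsum : ∀ (c : ℕ → C) (n : ℕ), SE_669.psum (fun i => (c i : Kb)) x n =
      ∑ i ∈ Finset.range n, algebraMap C Kb (c i) * x ^ i := fun c n => rfl
  have hadj : IntermediateField.adjoin K (C : Set Kb) =
      IntermediateField.adjoin K (Set.range (algebraMap C Kb)) := by
    congr 1
    ext a
    constructor
    · intro ha; exact ⟨⟨a, ha⟩, rfl⟩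
    · rintro ⟨c, rfl⟩; exact c.2
  obtain ⟨A', h1, h2, h3, h4, h5⟩ := cut_end_abs (K := K) (C := C) (Kb := Kb) hϖ v0 P hnn
    (IntermediateField.adjoin K (C : Set Kb)) x hxKC hx0 ⟨π, hπC⟩
    (fun h => hπ0 (congrArg Subtype.val h)) (fun h => hfinKC _ (by
      have e : x = (x / algebraMap C Kb ⟨π, hπC⟩) * algebraMap C Kb ⟨π, hπC⟩ :=
        (div_mul_cancel₀ _ hπ0).symm
      rw [e]
      exact mul_mem (by rw [← e]; exact IntermediateField.mem_adjoin_simple_self C _)
        (IntermediateField.algebraMap_mem _ _)) h) (fun n c => by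
      rw [← hsum, hcirc.gauss n _ (fun i => (c i).2)]
      rfl) (fun f => by
      obtain ⟨G, H, hG, hH, ⟨i, hi⟩, ⟨R, B, hR, hB⟩, l1, l2⟩ := hcirc.disc f
      refine ⟨fun i => ⟨G i, hG i⟩, fun i => ⟨H i, hH i⟩, ⟨i, fun h => hi (congrArg Subtype.val h)⟩,
        ⟨R, B, hR, fun i => hB i⟩, l1, l2⟩) hPx U L hadj (fun c => hCU _ c.2) hdense w
    (fun c => huniq w hw c) (by
      have e := huniq w hw ⟨π, hπC⟩
      rw [hπ1]
      exact (le_of_eq e.symm).trans hwx)
  refine ⟨A', h1, h2, h3, fun v hv => h4 v ?_, fun v hv => h5 v (isPlace_C hv)⟩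
  rcases hv with hv | hv
  · exact Or.inl fun c => huniq v hv c
  · exact Or.inr (isPlace_C hv)

/-- **CUT-END**, `x ∈ K`. -/
theorem cut_end (p : ℕ) [Fact p.Prime] {k K Kb : Type*} [Field k] [Algebra ℚ_[p] k]
    [FiniteDimensional ℚ_[p] k] [Field K] [Field Kb] [IsAlgClosed Kb] [Algebra k K] [Algebra K Kb]
    [Algebra k Kb] [IsScalarTower k K Kb] [Algebra.IsAlgebraic K Kb]
    (C : IntermediateField k Kb) [FiniteDimensional k C] (v0 P : Valuation Kb ℝ≥0)
    (x : K) (hx0 : x ≠ 0) [FiniteDimensional (IntermediateField.adjoin k {x}) K]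
    (π : Kb) (hπC : π ∈ C) (hπ0 : π ≠ 0)
    (hv0 : Crest.NumberTheoryR.Sect.ExtendsPadicNorm k Kb p v0)
    (hcirc : SE_669.IsCircle K C P (algebraMap K Kb x) (v0 π) v0)
    (hPx : P (algebraMap K Kb x) < 1)
    (U L : IntermediateField K Kb) [FiniteDimensional K U] [FiniteDimensional K L]
    (hCU : ∀ c ∈ C, c ∈ U)
    (hdense : ∀ v : Valuation Kb ℝ≥0,
      (∀ f ∈ IntermediateField.adjoin K (C : Set Kb), v f = v0 f) →
      ∀ l ∈ L, l ∈ cl v (U : Set Kb))
    (w : Valuation Kb ℝ≥0) (hw : Crest.NumberTheoryR.Sect.ExtendsPadicNorm k Kb p w)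
    (hwx : w π ≤ w (algebraMap K Kb x)) :
    ∃ A' : IntermediateField K Kb, FiniteDimensional K A' ∧ U ≤ A' ∧
      (∀ l ∈ L, l ∈ cl w (A' : Set Kb)) ∧
      (∀ v : Valuation Kb ℝ≥0,
        (Crest.NumberTheoryR.Sect.ExtendsPadicNorm k Kb p v ∨ IsPlace k v) →
        (∃ s : Kb ≃ₐ[K] Kb, (∀ u ∈ U, s u = u) ∧
          ∀ a ∈ A', a ∈ cl v (s '' ((L ⊔ U : IntermediateField K Kb) : Set Kb))) ∨
        (∀ a ∈ A', a ∈ cl v (U : Set Kb))) ∧
      (∀ v : Valuation Kb ℝ≥0, IsPlace k v →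
        (∀ f ∈ IntermediateField.adjoin K (C : Set Kb), v f ≤ 1 ↔ P f ≤ 1) →
        ∀ a ∈ A', a ∈ cl v (U : Set Kb)) := by
  have hKCU : IntermediateField.adjoin K (C : Set Kb) ≤ U := by
    rw [IntermediateField.adjoin_le_iff]; exact hCU
  have hfin : FiniteDimensional K (IntermediateField.adjoin K (C : Set Kb)) :=
    FiniteDimensional.of_injective (IntermediateField.inclusion hKCU).toLinearMap
      (IntermediateField.inclusion hKCU).injective
  exact cut_end_gen p C v0 P (algebraMap K Kb x) (IntermediateField.algebraMap_mem _ x)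
    ((_root_.map_ne_zero _).2 hx0)
    (fun F hF h => finite_reb (k := k) F x hF (IntermediateField.adjoin K (C : Set Kb)) h)
    π hπC hπ0 hv0 hcirc hPx U L hCU hdense w hw hwx

end Crest.Agent.R013.Gl946
end

-- ▼ part R013/Gl20_946

/-!
# Patching, part 20: `K` is finite over `k(x)`.
-/

set_option autoImplicit false

namespace Crest.Agent.R013.Gl946

open Module Filter Topology Polynomial
open scoped NNReal

/-- For a function field, `K` is finite over `k(y)`, `y` transcendental. -/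
theorem finite_adjoin {k K : Type*} [Field k] [Field K] [Algebra k K] [Algebra (RatFunc k) K]
    [IsScalarTower k (RatFunc k) K] [FiniteDimensional (RatFunc k) K] (y : K)
    (hy : Transcendental k y) : FiniteDimensional (IntermediateField.adjoin k {y}) K := by
  have hfin := RR20_948.ratAlg_finite (k := k) (K := K) y hy
  let ρ : RatFunc k →ₐ[k] K := RR20_948.ratHom y hy
  have hρ : ρ.toRingHom.Finite := hfin
  have hX : ρ RatFunc.X = y := RR20_948.ratHom_X y hy
  have hmem : ∀ f : RatFunc k, ρ f ∈ IntermediateField.adjoin k {y} := by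
    intro f
    have h1 : IntermediateField.adjoin k {(RatFunc.X : RatFunc k)} = ⊤ :=
      RatFunc.adjoin_X
    have h2 : f ∈ IntermediateField.adjoin k {(RatFunc.X : RatFunc k)} := by rw [h1]; trivial
    have h3 : (IntermediateField.adjoin k {(RatFunc.X : RatFunc k)}).map ρ =
        IntermediateField.adjoin k {y} := by
      rw [IntermediateField.adjoin_map, Set.image_singleton, hX]
    rw [← h3]
    exact ⟨f, h2, rfl⟩
  let r : RatFunc k →+* IntermediateField.adjoin k {y} :=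
    ρ.toRingHom.codRestrict (IntermediateField.adjoin k {y}) hmem
  have h4 : (algebraMap (IntermediateField.adjoin k {y}) K).comp r = ρ.toRingHom := rfl
  rw [← h4] at hρ
  exact RingHom.finite_algebraMap.1 hρ.of_comp_finite

/-- `x` is transcendental if the Gauss norm condition of `IsCircle` holds. -/
theorem transcendental_of_circle {k K Kb : Type*} [Field k] [Field K] [Field Kb] [Algebra k K]
    [Algebra K Kb] [Algebra k Kb] [IsScalarTower k K Kb] {C : IntermediateField k Kb}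
    {v0 P : Valuation Kb ℝ≥0} {x : K} {r : ℝ≥0} (hr : r ≠ 0)
    (hcirc : SE_669.IsCircle K C P (algebraMap K Kb x) r v0) : Transcendental k x := by
  rw [transcendental_iff]
  intro p hp
  have h1 := hcirc.gauss (p.natDegree + 1) (fun i => algebraMap k Kb (p.coeff i))
    (fun i => C.algebraMap_mem _)
  have h2 : SE_669.psum (fun i => algebraMap k Kb (p.coeff i)) (algebraMap K Kb x)
      (p.natDegree + 1) = 0 := by
    have h3 : algebraMap K Kb (aeval x p) = 0 := by rw [hp, map_zero]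
    rw [← h3, aeval_eq_sum_range, map_sum]
    refine Finset.sum_congr rfl fun i _ => ?_
    rw [Algebra.smul_def, map_mul, map_pow, ← IsScalarTower.algebraMap_apply]
  rw [h2, map_zero] at h1
  ext i
  rw [coeff_zero]
  rcases lt_or_ge p.natDegree i with hi | hi
  · exact coeff_eq_zero_of_natDegree_lt hi
  · have h3 := Finset.le_sup (f := fun i => v0 (algebraMap k Kb (p.coeff i)) * r ^ i)
      (Finset.mem_range.2 (show i < p.natDegree + 1 by omega))
    rw [← h1] at h3
    have h4 : v0 (algebraMap k Kb (p.coeff i)) * r ^ i = 0 := le_antisymm h3 zero_le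
    rcases mul_eq_zero.1 h4 with h5 | h5
    · exact (map_eq_zero _).1 ((Valuation.zero_iff v0).1 h5)
    · exact absurd h5 (pow_ne_zero _ hr)

end Crest.Agent.R013.Gl946
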