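import Mathlib
import Crest.Agent.R013.Hens2_899
import Crest.Agent.R013.LiftA_168

-- ▼ part R013/ResP_168
section

/-!
# R013 / ResP (helper168): residue degrees in Galois extensions of `p`-power degree

`M/L` finite Galois of `p`-power degree, `w` a valuation of `M` with residue characteristic `p`:
the residue field extension has `p`-power degree.
-/

set_option autoImplicit false

namespace Crest.Agent.R013.ResP_168

open IsLocalRing Polynomial Module
open scoped Pointwise

section basic

variable {M : Type*} [Field M] {Γ : Type*} [LinearOrderedCommGroupWithZero Γ] (w : Valuation M Γ)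

/-- the residue field of a valuation -/
abbrev RF : Type _ := ResidueField w.valuationSubring

/-- residue of an element (junk value `0` if not integral) -/
noncomputable def rs (x : M) : RF w :=
  open Classical in if h : w x ≤ 1 then residue w.valuationSubring ⟨x, h⟩ else 0

variable {w}

theorem rs_of_le {x : M} (h : w x ≤ 1) : rs w x = residue w.valuationSubring ⟨x, h⟩ := by
  rw [rs, dif_pos h]

theorem residue_eq_zero_iff' (x : w.valuationSubring) :
    residue w.valuationSubring x = 0 ↔ w (x : M) < 1 := by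
  rw [residue_eq_zero_iff, IsLocalRing.mem_maximalIdeal, mem_nonunits_iff]
  constructor
  · intro h
    refine lt_of_le_of_ne x.2 fun h1 => h ?_
    have hx0 : (x : M) ≠ 0 := by
      intro h0
      rw [h0, map_zero] at h1
      exact zero_ne_one h1
    have hinv : w (x : M)⁻¹ ≤ 1 := by rw [map_inv₀, h1, inv_one]
    exact IsUnit.of_mul_eq_one (⟨(x : M)⁻¹, hinv⟩ : w.valuationSubring)
      (Subtype.ext (mul_inv_cancel₀ hx0))
  · intro h h1
    obtain ⟨y, hy⟩ := h1.exists_right_inv
    have h2 : (x : M) * (y : M) = 1 := congrArg Subtype.val hy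
    have h3 : w (x : M) * w (y : M) = 1 := by rw [← map_mul, h2, map_one]
    have h4 : w (x : M) * w (y : M) < 1 := mul_lt_one_of_lt_of_le h y.2
    exact h4.ne h3

theorem rs_eq_zero_iff {x : M} (h : w x ≤ 1) : rs w x = 0 ↔ w x < 1 := by
  rw [rs_of_le h, residue_eq_zero_iff']

theorem rs_sub {x y : M} (hx : w x ≤ 1) (hy : w y ≤ 1) : rs w (x - y) = rs w x - rs w y := by
  rw [rs_of_le hx, rs_of_le hy, rs_of_le (w.map_sub_le hx hy), ← map_sub]
  rfl

theorem rs_add {x y : M} (hx : w x ≤ 1) (hy : w y ≤ 1) : rs w (x + y) = rs w x + rs w y := by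
  rw [rs_of_le hx, rs_of_le hy, rs_of_le (w.map_add_le hx hy), ← map_add]
  rfl

theorem rs_mul {x y : M} (hx : w x ≤ 1) (hy : w y ≤ 1) : rs w (x * y) = rs w x * rs w y := by
  have hxy : w (x * y) ≤ 1 := by
    rw [map_mul]; exact mul_le_one' hx hy
  rw [rs_of_le hx, rs_of_le hy, rs_of_le hxy, ← map_mul]
  rfl

theorem rs_one : rs w (1 : M) = 1 := by
  have h : w (1 : M) ≤ 1 := by rw [map_one]
  rw [rs_of_le h]
  exact map_one _

theorem rs_pow {x : M} (hx : w x ≤ 1) (n : ℕ) : rs w (x ^ n) = rs w x ^ n := by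
  induction n with
  | zero => rw [pow_zero, pow_zero, rs_one]
  | succ n ih =>
    rw [pow_succ, pow_succ, rs_mul _ hx, ih]
    rw [map_pow]; exact pow_le_one' hx n

theorem rs_eq_iff {x y : M} (hx : w x ≤ 1) (hy : w y ≤ 1) : rs w x = rs w y ↔ w (x - y) < 1 := by
  rw [← sub_eq_zero, ← rs_sub hx hy, rs_eq_zero_iff (w.map_sub_le hx hy)]


theorem rs_sum {ι : Type*} (s : Finset ι) (f : ι → M) (hf : ∀ i ∈ s, w (f i) ≤ 1) :
    rs w (∑ i ∈ s, f i) = ∑ i ∈ s, rs w (f i) := by
  classical
  induction s using Finset.induction_on with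
  | empty =>
    rw [Finset.sum_empty, Finset.sum_empty, rs_eq_zero_iff (by rw [map_zero]; exact zero_le_one),
      map_zero]
    exact zero_lt_one
  | insert a s ha ih =>
    rw [Finset.sum_insert ha, Finset.sum_insert ha, rs_add (hf a (Finset.mem_insert_self a s)),
      ih fun i hi => hf i (Finset.mem_insert_of_mem hi)]
    exact Valuation.map_sum_le _ fun i hi => hf i (Finset.mem_insert_of_mem hi)

theorem exists_rs (c : RF w) : ∃ x : M, w x ≤ 1 ∧ rs w x = c := by
  obtain ⟨x, rfl⟩ := residue_surjective c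
  exact ⟨x, x.2, rs_of_le x.2⟩

end basic

section fin

variable {L M : Type*} [Field L] [Field M] [Algebra L M]
  {Γ : Type*} [LinearOrderedCommGroupWithZero Γ] {w : Valuation M Γ}
  {κ : Type*} [Field κ] [Algebra κ (RF w)]

/-- the residue field of `L` is `κ` -/
structure IsRes (L : Type*) {M : Type*} [Field L] [Field M] [Algebra L M]
    {Γ : Type*} [LinearOrderedCommGroupWithZero Γ] (w : Valuation M Γ)
    (κ : Type*) [Field κ] [Algebra κ (RF w)] : Prop where
  mem : ∀ a : L, w (algebraMap L M a) ≤ 1 → rs w (algebraMap L M a) ∈ (algebraMap κ (RF w)).range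
  lift : ∀ c : κ, ∃ a : L, w (algebraMap L M a) ≤ 1 ∧ rs w (algebraMap L M a) = algebraMap κ (RF w) c


end fin

section galois

variable {L M : Type*} [Field L] [Field M] [Algebra L M]
  {Γ : Type*} [LinearOrderedCommGroupWithZero Γ] {w : Valuation M Γ}
  {κ : Type*} [Field κ] [Algebra κ (RF w)]

/-- the decomposition group as the stabiliser of the valuation ring -/
abbrev Dec (L : Type*) {M : Type*} [Field L] [Field M] [Algebra L M]
    {Γ : Type*} [LinearOrderedCommGroupWithZero Γ] (w : Valuation M Γ) : Subgroup (M ≃ₐ[L] M) :=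
  w.valuationSubring.decompositionSubgroup L

theorem mem_Dec {σ : M ≃ₐ[L] M} : σ ∈ Dec L w ↔ ∀ x, w (σ x) ≤ 1 ↔ w x ≤ 1 := by
  rw [MulAction.mem_stabilizer_iff]
  constructor
  · intro h x
    have h1 : σ • x ∈ σ • w.valuationSubring ↔ x ∈ w.valuationSubring :=
      ValuationSubring.smul_mem_pointwise_smul_iff
    rw [h] at h1
    exact h1
  · intro h
    ext x
    rw [ValuationSubring.mem_pointwise_smul_iff_inv_smul_mem]
    have h1 := h (σ⁻¹ x)
    rw [← AlgEquiv.mul_apply, mul_inv_cancel, AlgEquiv.one_apply] at h1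
    exact h1.symm

theorem mem_Dec_iff [Algebra.IsAlgebraic L M] {σ : M ≃ₐ[L] M} :
    σ ∈ Dec L w ↔ σ ∈ Hens_899.decomp L w := by
  rw [mem_Dec]
  constructor
  · intro h
    exact Hens_899.mem_decomp_of_le fun x hx => (h x).2 hx
  · intro h x
    rw [Hens_899.mem_decomp.1 h x]

theorem smul_rs (σ : Dec L w) {x : M} (hx : w x ≤ 1) : σ • rs w x = rs w ((σ : M ≃ₐ[L] M) x) := by
  have h1 : w ((σ : M ≃ₐ[L] M) x) ≤ 1 := (mem_Dec.1 σ.2 x).2 hx
  rw [rs_of_le hx, rs_of_le h1, ← ResidueField.residue_smul]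
  rfl

variable [FiniteDimensional L M]






end galois

end Crest.Agent.R013.ResP_168
end

-- ▼ part R013/ASL_930
section

/-!
Row 13, task B-ASL (helper930).  Artin-Schreier input of (B3) of CORE 3 (#2070).

`κ` a field of characteristic `p`, `c ≠ 0`, `m` prime to `p`, `L / κ(t)` a field, `y ∈ L` with
`y ^ p - y = c t ^ m`.
* `val_y` : for EVERY valuation `v` of `L` trivial on `κ` there is `g ≠ 0` with `v y = (v g) ^ m`.
* `minpoly_eq`, `finrank_adjoin` : `X ^ p - X - c t ^ m` is the minimal polynomial of `y` over `κ(t)`.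
* `not_pow` : if `l` is prime, `l ∣ m` and `[L : κ(t)]` is finite and prime to `l`, then `y` is not an
  `l`-th power in `L`.
-/

set_option autoImplicit false
set_option linter.unusedSectionVars false

noncomputable section

namespace Crest.Agent.R013.ASL_930

open Polynomial

/-! ### valuations -/

section Val

variable {L : Type*} [Field L] {Γ : Type*} [LinearOrderedCommGroupWithZero Γ] (v : Valuation L Γ)

/-- If the nonzero terms of a finite sum have pairwise different values, then the value of the sum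
dominates the value of every term. -/
lemma le_map_sum_of_ne {ι : Type*} (s : Finset ι) (f : ι → L)
    (hf : ∀ i ∈ s, ∀ j ∈ s, i ≠ j → f i ≠ 0 → f j ≠ 0 → v (f i) ≠ v (f j)) :
    ∀ i ∈ s, v (f i) ≤ v (∑ j ∈ s, f j) := by
  classical
  intro i hi
  by_cases hfi : f i = 0
  · simp [hfi]
  obtain ⟨i0, hi0, hmax⟩ := s.exists_max_image (fun j => v (f j)) ⟨i, hi⟩
  have h0 : f i0 ≠ 0 := by
    intro h
    have := hmax i hi
    rw [h, map_zero] at this
    exact hfi ((Valuation.zero_iff v).1 (le_antisymm this zero_le))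
  have hlt : v (∑ j ∈ s.erase i0, f j) < v (f i0) := by
    apply Valuation.map_sum_lt
    · exact (Valuation.ne_zero_iff v).2 h0
    · intro j hj
      have hj' := Finset.mem_erase.1 hj
      by_cases hfj : f j = 0
      · rw [hfj, map_zero]; exact zero_lt_iff.2 ((Valuation.ne_zero_iff v).2 h0)
      · exact lt_of_le_of_ne (hmax j hj'.2) (hf j hj'.2 i0 hi0 hj'.1 hfj h0)
  have : v (∑ j ∈ s, f j) = v (f i0) := by
    rw [← Finset.add_sum_erase s f hi0]
    exact Valuation.map_add_eq_of_lt_left v hlt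
  rw [this]
  exact hmax i hi

end Val

variable {κ : Type*} [Field κ] {L : Type*} [Field L] [Algebra κ L]

section Infty

variable {Γ : Type*} [LinearOrderedCommGroupWithZero Γ] (v : Valuation L Γ)
  (hv : ∀ a : κ, a ≠ 0 → v (algebraMap κ L a) = 1) {t : L} (ht : 1 < v t)

include hv ht

/-- the value of a polynomial in `t` at a place at infinity -/
lemma val_aeval (P : κ[X]) (hP : P ≠ 0) : v (aeval t P) = v t ^ P.natDegree := by
  have ht0 : (0 : Γ) < v t := lt_trans zero_lt_one ht
  have key : ∀ (n : ℕ) (P : κ[X]), P.natDegree < n → v (aeval t P) ≤ v t ^ (n - 1) := by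
    intro n P hn
    rw [aeval_eq_sum_range' hn]
    apply Valuation.map_sum_le
    intro i hi
    rw [Algebra.smul_def, map_mul, map_pow]
    have hi' := Finset.mem_range.1 hi
    by_cases hc : P.coeff i = 0
    · simp [hc]
    · rw [hv _ hc, one_mul]
      exact pow_le_pow_right₀ ht.le (by omega)
  rcases Nat.eq_zero_or_pos P.natDegree with h0 | hpos
  · rw [h0, pow_zero]
    obtain ⟨a, rfl⟩ : ∃ a, P = C a := ⟨P.coeff 0, eq_C_of_natDegree_eq_zero h0⟩
    rw [aeval_C]
    exact hv a (by rintro rfl; simp at hP)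
  · have hlead : v (algebraMap κ L P.leadingCoeff * t ^ P.natDegree) = v t ^ P.natDegree := by
      rw [map_mul, map_pow, hv _ (leadingCoeff_ne_zero.2 hP), one_mul]
    have hdec : aeval t P = aeval t P.eraseLead
        + algebraMap κ L P.leadingCoeff * t ^ P.natDegree := by
      simpa [-eraseLead_add_C_mul_X_pow] using
        congrArg (aeval t) (P.eraseLead_add_C_mul_X_pow).symm
    have hlt : v (aeval t P.eraseLead) < v (algebraMap κ L P.leadingCoeff * t ^ P.natDegree) := by
      rw [hlead]
      rcases P.eraseLead_natDegree_lt_or_eraseLead_eq_zero with h | h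
      · exact lt_of_le_of_lt (key _ _ h) (pow_lt_pow_right₀ ht (by omega))
      · rw [h]; simpa using pow_pos ht0 _
    rw [hdec, Valuation.map_add_eq_of_lt_right v hlt, hlead]

end Infty

/-! ### the Artin-Schreier relation -/

section AS

variable {p : ℕ} {c : κ} {m : ℕ} {t y : L}


/-- at a place at infinity the values of `a_i(t) y^i`, `i < p`, are pairwise different -/
lemma term_le (hc : c ≠ 0) (hpm : p.Coprime m)
    (hAS : y ^ p - y = algebraMap κ L c * t ^ m)
    {Γ : Type*} [LinearOrderedCommGroupWithZero Γ] (v : Valuation L Γ)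
    (hv : ∀ a : κ, a ≠ 0 → v (algebraMap κ L a) = 1) (hp : 1 < p) (hm : 0 < m) (ht : 1 < v t) :
    1 < v y ∧ v y ^ p = v t ^ m ∧ ∀ a : ℕ → κ[X], ∀ i ∈ Finset.range p,
      v (aeval t (a i) * y ^ i) ≤ v (∑ j ∈ Finset.range p, aeval t (a j) * y ^ j) := by
  have hvt : v (y ^ p - y) = v t ^ m := by rw [hAS, map_mul, map_pow, hv c hc, one_mul]
  have hbig : 1 < v (y ^ p - y) := by rw [hvt]; exact one_lt_pow₀ ht hm.ne'
  have h : 1 < v y := by
    by_contra hle
    push Not at hle
    have : v (y ^ p - y) ≤ 1 := by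
      apply Valuation.map_sub_le
      · rw [map_pow]; exact pow_le_one₀ zero_le hle
      · exact hle
    exact absurd hbig (not_lt.2 this)
  have hlt : v y < v (y ^ p) := by
    rw [map_pow]
    calc v y = v y ^ 1 := (pow_one _).symm
      _ < v y ^ p := pow_lt_pow_right₀ h hp
  have h1 : v y ^ p = v t ^ m := by
    rw [← hvt, Valuation.map_sub_eq_of_lt_left v hlt, map_pow]
  refine ⟨h, h1, fun a => ?_⟩
  apply le_map_sum_of_ne v (Finset.range p) (fun j => aeval t (a j) * y ^ j)
  intro i hi j hj hij hi0 hj0 heq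
  have hai : a i ≠ 0 := by intro h0; apply hi0; simp [h0]
  have haj : a j ≠ 0 := by intro h0; apply hj0; simp [h0]
  have e : (v (aeval t (a i) * y ^ i)) ^ p = (v (aeval t (a j) * y ^ j)) ^ p := by
    rw [heq]
  rw [map_mul, map_mul, val_aeval v hv ht _ hai, val_aeval v hv ht _ haj, map_pow, map_pow,
    mul_pow, mul_pow, ← pow_mul, ← pow_mul, ← pow_mul, ← pow_mul, mul_comm i p, mul_comm j p,
    pow_mul (v y), pow_mul (v y), h1, ← pow_mul, ← pow_mul, ← pow_add, ← pow_add] at e
  have e' := (pow_right_injective₀ (lt_trans zero_lt_one ht) ht.ne') e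
  -- `deg a_i * p + m i = deg a_j * p + m j`
  have hmod : (m * i) % p = (m * j) % p := by
    have := congrArg (· % p) e'
    simpa [Nat.add_mod, Nat.mul_mod_left] using this
  have : i % p = j % p := Nat.ModEq.cancel_left_of_coprime (m := p) (by simpa using hpm) hmod
  rw [Nat.mod_eq_of_lt (Finset.mem_range.1 hi), Nat.mod_eq_of_lt (Finset.mem_range.1 hj)] at this
  exact hij this

/-- existence of a place at infinity -/
lemma exists_infty (ht : Transcendental κ t) :
    ∃ V : ValuationSubring L, (∀ a : κ, a ≠ 0 → V.valuation (algebraMap κ L a) = 1) ∧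
      1 < V.valuation t := by
  have ht0 : t ≠ 0 := by rintro rfl; exact ht (isAlgebraic_zero)
  have hti : Transcendental κ t⁻¹ := by rwa [Transcendental, IsAlgebraic.inv_iff]
  set A : Subring L := (Algebra.adjoin κ {t⁻¹}).toSubring with hA
  have hmem : t⁻¹ ∈ A := Algebra.subset_adjoin (Set.mem_singleton _)
  have hI : Ideal.span {(⟨t⁻¹, hmem⟩ : A)} ≠ ⊤ := by
    intro htop
    obtain ⟨⟨q, hq⟩, hq1⟩ := Ideal.mem_span_singleton'.1 ((Ideal.eq_top_iff_one _).1 htop)
    have hq1' : q * t⁻¹ = 1 := congrArg Subtype.val hq1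
    have hq2 : q ∈ Algebra.adjoin κ {t⁻¹} := hq
    rw [Algebra.adjoin_singleton_eq_range_aeval] at hq2
    obtain ⟨Q, rfl⟩ := hq2
    apply hti
    refine ⟨Q * X - 1, ?_, by simpa [sub_eq_zero] using hq1'⟩
    intro h0
    have := congrArg (eval 0) h0
    simp at this
  obtain ⟨B, hAB, hBI⟩ := Ideal.image_subset_nonunits_valuationSubring _ hI
  refine ⟨B, fun a ha => ?_, ?_⟩
  · have h1 : algebraMap κ L a ∈ B := hAB ((Algebra.adjoin κ {t⁻¹}).algebraMap_mem a)
    have h2 : (algebraMap κ L a)⁻¹ ∈ B := by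
      rw [← map_inv₀]; exact hAB ((Algebra.adjoin κ {t⁻¹}).algebraMap_mem a⁻¹)
    have h1' := (B.valuation_le_one_iff _).2 h1
    have h2' := (B.valuation_le_one_iff _).2 h2
    rw [map_inv₀] at h2'
    have h3 : B.valuation (algebraMap κ L a) ≠ 0 :=
      (Valuation.ne_zero_iff _).2 (by simpa using ha)
    exact le_antisymm h1' ((inv_le_one₀ (zero_lt_iff.2 h3)).1 h2')
  · have h1 : t⁻¹ ∈ B.nonunits := hBI ⟨⟨t⁻¹, hmem⟩, Ideal.subset_span rfl, rfl⟩
    have h2 : B.valuation t⁻¹ < 1 := (ValuationSubring.mem_nonunits_iff B).1 h1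
    rw [map_inv₀] at h2
    have h3 : B.valuation t ≠ 0 := (Valuation.ne_zero_iff _).2 ht0
    exact (inv_lt_one₀ (zero_lt_iff.2 h3)).1 h2

end AS

/-! ### the field `κ(t)(y)` -/

section Core

variable {p : ℕ} [hp : Fact p.Prime] [CharP κ p] {c : κ} {m : ℕ}
  {K : Type*} [Field K] [Algebra κ[X] K] [IsFractionRing κ[X] K]
  [Algebra K L] [Algebra κ[X] L] [IsScalarTower κ[X] K L] [IsScalarTower κ κ[X] L]
  {y : L}

lemma aeval_algebraMap_X (P : κ[X]) : aeval (algebraMap κ[X] L X) P = algebraMap κ[X] L P := by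
  rw [aeval_algebraMap_apply, aeval_X_left_apply]

include K in
lemma transcendental_X : Transcendental κ (algebraMap κ[X] L X) := by
  rw [transcendental_iff]
  intro P hP
  rw [aeval_algebraMap_X, IsScalarTower.algebraMap_apply κ[X] K L] at hP
  have h1 := (algebraMap K L).injective (hP.trans (map_zero _).symm)
  exact (IsFractionRing.injective κ[X] K) (h1.trans (map_zero _).symm)

variable (K) in
/-- the Artin-Schreier polynomial -/
def asPoly (p : ℕ) (c : κ) (m : ℕ) : K[X] := X ^ p - X - C (algebraMap κ[X] K (C c * X ^ m))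

omit [IsFractionRing κ[X] K] [CharP κ p] in
lemma asPoly_natDegree : (asPoly K p c m).natDegree = p := by
  have h1 : (asPoly K p c m) = X ^ p - (X + C (algebraMap κ[X] K (C c * X ^ m))) := by
    rw [asPoly]; ring
  rw [h1]
  rw [natDegree_sub_eq_left_of_natDegree_lt]
  · simp
  · rw [natDegree_X_add_C, natDegree_X_pow]; exact hp.out.one_lt

omit [IsFractionRing κ[X] K] [CharP κ p] in
lemma asPoly_monic : (asPoly K p c m).Monic := by
  have h1 : (asPoly K p c m) = X ^ p - (X + C (algebraMap κ[X] K (C c * X ^ m))) := by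
    rw [asPoly]; ring
  rw [h1]
  apply (monic_X_pow p).sub_of_left
  rw [degree_X_add_C, degree_X_pow]
  exact_mod_cast hp.out.one_lt

omit hp [IsFractionRing κ[X] K] [CharP κ p] [IsScalarTower κ κ[X] L] in
lemma aeval_asPoly (hAS : y ^ p - y = algebraMap κ[X] L (C c * X ^ m)) :
    aeval y (asPoly K p c m) = 0 := by
  simp only [asPoly, map_sub, map_pow, aeval_X, aeval_C, ← IsScalarTower.algebraMap_apply, hAS,
    sub_self]

/-- no nonzero polynomial of degree `< p` over `κ[t]` vanishes at `y` -/
lemma no_relation (hc : c ≠ 0) (hpm : p.Coprime m) (hm : 0 < m)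
    (hAS : y ^ p - y = algebraMap κ[X] L (C c * X ^ m))
    (ht : Transcendental κ (algebraMap κ[X] L X)) (Q : κ[X][X]) (hQ : Q.natDegree < p)
    (h0 : aeval y Q = 0) : Q = 0 := by
  obtain ⟨V, hV, hVt⟩ := exists_infty ht
  have hAS' : y ^ p - y = algebraMap κ L c * (algebraMap κ[X] L X) ^ m := by
    rw [hAS, map_mul, map_pow, IsScalarTower.algebraMap_apply κ κ[X] L]; rfl
  obtain ⟨hy1, -, hle⟩ := term_le hc hpm hAS' V.valuation hV hp.out.one_lt hm hVt
  have hy0 : y ≠ 0 := by rintro rfl; simp at hy1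
  ext1 i
  by_cases hi : i < p
  · have h1 := hle (fun j => Q.coeff j) i (Finset.mem_range.2 hi)
    have h2 : ∑ j ∈ Finset.range p, aeval (algebraMap κ[X] L X) (Q.coeff j) * y ^ j = 0 := by
      rw [← h0, aeval_eq_sum_range' hQ]
      refine Finset.sum_congr rfl fun j _ => ?_
      rw [aeval_algebraMap_X, Algebra.smul_def]
    rw [h2, map_zero, le_zero_iff, Valuation.zero_iff, mul_eq_zero] at h1
    rcases h1 with h1 | h1
    · by_contra hne
      rw [coeff_zero] at hne
      have := val_aeval V.valuation hV hVt _ hne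
      rw [h1, map_zero] at this
      exact pow_ne_zero _ (lt_trans zero_lt_one hVt).ne' this.symm
    · exact absurd h1 (pow_ne_zero _ hy0)
  · rw [coeff_zero]
    exact coeff_eq_zero_of_natDegree_lt (by omega)

variable (K) in
/-- `X ^ p - X - c t ^ m` is the minimal polynomial of `y` over `κ(t)`. -/
theorem minpoly_eq (hc : c ≠ 0) (hpm : p.Coprime m) (hm : 0 < m)
    (hAS : y ^ p - y = algebraMap κ[X] L (C c * X ^ m)) :
    minpoly K y = asPoly K p c m := by
  symm
  apply minpoly.unique_of_degree_le_degree_minpoly K y asPoly_monic (aeval_asPoly hAS)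
  have hint : IsIntegral K y := ⟨asPoly K p c m, asPoly_monic, aeval_asPoly hAS⟩
  rw [degree_eq_natDegree asPoly_monic.ne_zero, degree_eq_natDegree (minpoly.ne_zero hint),
    asPoly_natDegree]
  by_contra hlt
  push Not at hlt
  have hlt' : (minpoly K y).natDegree < p := by exact_mod_cast hlt
  set Q := IsLocalization.integerNormalization (nonZeroDivisors κ[X]) (minpoly K y) with hQ
  have hQ0 : aeval y Q = 0 :=
    IsLocalization.integerNormalization_aeval_eq_zero _ _ (minpoly.aeval K y)
  have hQd : Q.natDegree < p := by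
    refine lt_of_le_of_lt ?_ hlt'
    rw [natDegree_le_iff_coeff_eq_zero]
    intro N hN
    by_contra hne
    have := IsLocalization.integerNormalization_support (nonZeroDivisors κ[X]) (minpoly K y)
      (mem_support_iff.2 hne)
    exact (mem_support_iff.1 this) (coeff_eq_zero_of_natDegree_lt hN)
  have := no_relation hc hpm hm hAS (transcendental_X (K := K)) Q hQd hQ0
  exact minpoly.ne_zero hint (IsFractionRing.integerNormalization_eq_zero_iff.1 this)

variable (K) in
theorem isIntegral_y (hAS : y ^ p - y = algebraMap κ[X] L (C c * X ^ m)) : IsIntegral K y :=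
  ⟨asPoly K p c m, asPoly_monic, aeval_asPoly hAS⟩


omit hp [IsFractionRing κ[X] K] in
variable (K) in
lemma derivative_asPoly : derivative (asPoly K p c m) = -1 := by
  have hcp : ((p : ℕ) : K) = 0 := by
    have h : algebraMap κ[X] K (C ((p : ℕ) : κ)) = 0 := by rw [CharP.cast_eq_zero, C_0, map_zero]
    rwa [map_natCast, map_natCast] at h
  rw [asPoly, derivative_sub, derivative_sub, derivative_X_pow, derivative_C, derivative_X, hcp,
    C_0, zero_mul, zero_sub, sub_zero]

omit hp [IsFractionRing κ[X] K] in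
variable (K) in
lemma separable_asPoly : (asPoly K p c m).Separable := by
  rw [Polynomial.Separable, derivative_asPoly]
  exact isCoprime_one_right.neg_right

omit [IsFractionRing κ[X] K] [CharP κ p] [IsScalarTower κ κ[X] L] in
variable (c m) in
lemma intPoly_monic : (X ^ p - (X + C (C c * X ^ m)) : κ[X][X]).Monic := by
  apply (monic_X_pow p).sub_of_left
  rw [degree_X_add_C, degree_X_pow]
  exact_mod_cast hp.out.one_lt

omit [IsFractionRing κ[X] K] [CharP κ p] [IsScalarTower κ κ[X] L] in
variable (c m) in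
lemma intPoly_natDegree : (X ^ p - (X + C (C c * X ^ m)) : κ[X][X]).natDegree = p := by
  rw [natDegree_sub_eq_left_of_natDegree_lt]
  · simp
  · rw [natDegree_X_add_C, natDegree_X_pow]; exact hp.out.one_lt

open IntermediateField in
/-- the elements of `κ(t)(y)` integral over `κ[t]` lie in `κ[t][y]` -/
theorem integral_mem_adjoin (hc : c ≠ 0) (hpm : p.Coprime m) (hm : 0 < m)
    (hAS : y ^ p - y = algebraMap κ[X] L (C c * X ^ m)) (z : K⟮y⟯) (hz : IsIntegral κ[X] z) :
    (z : L) ∈ Algebra.adjoin κ[X] ({y} : Set L) := by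
  have hint := isIntegral_y K hAS
  have hmin := minpoly_eq K hc hpm hm hAS
  have : FiniteDimensional K K⟮y⟯ := adjoin.finiteDimensional hint
  have : Algebra.IsSeparable K K⟮y⟯ := by
    rw [isSeparable_adjoin_simple_iff_isSeparable, IsSeparable, hmin]
    exact separable_asPoly K
  set pb := adjoin.powerBasis hint with hpb
  have hgen : ((pb.gen : K⟮y⟯) : L) = y := by rw [hpb, adjoin.powerBasis_gen]; rfl
  have hgi : IsIntegral κ[X] pb.gen := by
    refine ⟨X ^ p - (X + C (C c * X ^ m)), intPoly_monic c m, ?_⟩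
    rw [eval₂_sub, eval₂_add, eval₂_X_pow, eval₂_X, eval₂_C]
    apply Subtype.ext
    show (pb.gen : L) ^ p - ((pb.gen : L) + algebraMap κ[X] L (C c * X ^ m)) = 0
    rw [hgen, ← hAS]
    ring
  have h1 := Algebra.discr_mul_isIntegral_mem_adjoin (R := κ[X]) K (B := pb) hgi hz
  have hmg : minpoly K pb.gen = asPoly K p c m := by
    rw [hpb, adjoin.powerBasis_gen, minpoly_gen, hmin]
  rw [Algebra.discr_powerBasis_eq_norm, hmg, derivative_asPoly] at h1
  have h2 : Algebra.norm K (aeval pb.gen (-1 : K[X])) = (-1) ^ Module.finrank K K⟮y⟯ := by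
    rw [← Algebra.norm_algebraMap]; simp
  rw [h2, ← pow_add] at h1
  have h3 : z ∈ Algebra.adjoin κ[X] ({pb.gen} : Set K⟮y⟯) := by
    rcases neg_one_pow_eq_or K (Module.finrank K K⟮y⟯ *
      (Module.finrank K K⟮y⟯ - 1) / 2 + Module.finrank K K⟮y⟯) with h | h
    · rw [h, one_smul] at h1; exact h1
    · rw [h, neg_smul, one_smul] at h1
      simpa using neg_mem h1
  have h4 : (z : L) ∈ (Algebra.adjoin κ[X] ({pb.gen} : Set K⟮y⟯)).map
      ((IntermediateField.val K⟮y⟯).restrictScalars κ[X]) := ⟨z, h3, rfl⟩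
  rw [← Algebra.adjoin_image, Set.image_singleton] at h4
  have h5 : ((IntermediateField.val K⟮y⟯).restrictScalars κ[X]) pb.gen = y := hgen
  rw [h5] at h4
  exact h4

/-- the elements of `κ(t)(y)` integral over `κ[t]` are `∑_{j < p} a_j(t) y ^ j` -/
theorem exists_expansion (hAS : y ^ p - y = algebraMap κ[X] L (C c * X ^ m)) (z : L)
    (hz : z ∈ Algebra.adjoin κ[X] ({y} : Set L)) :
    ∃ a : ℕ → κ[X], z = ∑ j ∈ Finset.range p, aeval (algebraMap κ[X] L X) (a j) * y ^ j := by
  rw [Algebra.adjoin_singleton_eq_range_aeval] at hz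
  obtain ⟨Q, rfl⟩ := hz
  set F : κ[X][X] := X ^ p - (X + C (C c * X ^ m)) with hF
  have hFm : F.Monic := intPoly_monic c m
  have hF0 : aeval y F = 0 := by
    rw [hF, map_sub, map_add, map_pow, aeval_X, aeval_C, ← hAS]; ring
  refine ⟨fun j => (Q %ₘ F).coeff j, ?_⟩
  have h1 : aeval y Q = aeval y (Q %ₘ F) := by
    conv_lhs => rw [← modByMonic_add_div Q F]
    rw [map_add, map_mul, hF0, zero_mul, add_zero]
  have h2 : (Q %ₘ F).natDegree < p := by
    have := natDegree_modByMonic_lt Q hFm (by
      intro h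
      have := congrArg natDegree h
      rw [hF, intPoly_natDegree, natDegree_one] at this
      exact hp.out.ne_zero this)
    rwa [hF, intPoly_natDegree, ← hF] at this
  show aeval y Q = _
  rw [h1, aeval_eq_sum_range' h2]
  refine Finset.sum_congr rfl fun j _ => ?_
  rw [aeval_algebraMap_X, Algebra.smul_def]

open IntermediateField in
variable (K) in
/-- `y` is not an `l`-th power in `κ(t)(y)`, `l > 1`, not even up to a constant. -/
theorem not_pow_adjoin (hc : c ≠ 0) (hpm : p.Coprime m) (hm : 0 < m)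
    (hAS : y ^ p - y = algebraMap κ[X] L (C c * X ^ m)) (l : ℕ) (hl : 1 < l)
    (e : κ) (he : e ≠ 0) (z : K⟮y⟯) : (z : L) ^ l ≠ algebraMap κ L e * y := by
  intro hzl
  have hyi : IsIntegral κ[X] y := by
    refine ⟨X ^ p - (X + C (C c * X ^ m)), intPoly_monic c m, ?_⟩
    rw [eval₂_sub, eval₂_add, eval₂_X_pow, eval₂_X, eval₂_C, ← hAS]
    ring
  have hei : IsIntegral κ[X] (algebraMap κ L e) := by
    rw [IsScalarTower.algebraMap_apply κ κ[X] L]; exact isIntegral_algebraMap
  have hzi : IsIntegral κ[X] z := by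
    have h1 : IsIntegral κ[X] (z : L) := by
      apply IsIntegral.of_pow (n := l) (by omega)
      rw [hzl]; exact hei.mul hyi
    exact (isIntegral_algHom_iff ((IntermediateField.val K⟮y⟯).restrictScalars κ[X])
      Subtype.val_injective).1 h1
  obtain ⟨a, ha⟩ := exists_expansion hAS _ (integral_mem_adjoin hc hpm hm hAS z hzi)
  have htr : Transcendental κ (algebraMap κ[X] L X) := transcendental_X (L := L) (K := K)
  obtain ⟨V, hV, hVt⟩ := exists_infty htr
  have hAS' : y ^ p - y = algebraMap κ L c * (algebraMap κ[X] L X) ^ m := by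
    rw [hAS, map_mul, map_pow, IsScalarTower.algebraMap_apply κ κ[X] L]; rfl
  obtain ⟨hy1, hyp, hle⟩ := term_le hc hpm hAS' V.valuation hV hp.out.one_lt hm hVt
  have hzl' : V.valuation (z : L) ^ l = V.valuation y := by
    rw [← map_pow, hzl, map_mul, hV e he, one_mul]
  have hvz : V.valuation (z : L) < V.valuation y := by
    rw [← hzl']
    have h1 : 1 < V.valuation (z : L) := by
      by_contra h
      push Not at h
      rw [← hzl'] at hy1
      exact absurd hy1 (not_lt.2 (pow_le_one₀ zero_le h))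
    calc V.valuation (z : L) = V.valuation (z : L) ^ 1 := (pow_one _).symm
      _ < _ := pow_lt_pow_right₀ h1 hl
  have ha0 : ∀ j ∈ Finset.range p, j ≠ 0 → a j = 0 := by
    intro j hj hj0
    by_contra hne
    have h1 := hle a j hj
    rw [← ha, map_mul, val_aeval V.valuation hV hVt _ hne, map_pow] at h1
    have h2 : V.valuation y ≤ V.valuation (algebraMap κ[X] L X) ^ (a j).natDegree *
        V.valuation y ^ j := by
      calc V.valuation y = 1 * V.valuation y ^ 1 := by rw [one_mul, pow_one]
        _ ≤ _ := mul_le_mul' (one_le_pow₀ hVt.le) (pow_le_pow_right₀ hy1.le (by omega))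
    exact absurd hvz (not_lt.2 (h2.trans h1))
  have hz0 : (z : L) = aeval (algebraMap κ[X] L X) (a 0) := by
    rw [ha, Finset.sum_eq_single 0]
    · rw [pow_zero, mul_one]
    · intro j hj hj0
      rw [ha0 j hj hj0, map_zero, zero_mul]
    · intro h0
      exact absurd (Finset.mem_range.2 hp.out.pos) h0
  -- now `e y = a_0(t) ^ l` is in `κ[t]`
  have hQ := no_relation hc hpm hm hAS htr
    (X - C (C e⁻¹ * a 0 ^ l)) (by rw [natDegree_X_sub_C]; exact hp.out.one_lt) (by
      have h1 : algebraMap κ[X] L (C e⁻¹) = (algebraMap κ L e)⁻¹ := by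
        rw [← map_inv₀, IsScalarTower.algebraMap_apply κ κ[X] L]; rfl
      rw [map_sub, aeval_X, aeval_C, map_mul, map_pow, ← aeval_algebraMap_X (L := L) (a 0),
        ← hz0, hzl, h1, inv_mul_cancel_left₀ (by simpa using he), sub_self])
  exact X_sub_C_ne_zero _ hQ



end Core

/-! ### the same for an arbitrary transcendental `t` in `L` -/

section Trans

variable {p : ℕ} [hp : Fact p.Prime] [CharP κ p] {c : κ} {m : ℕ} {t y : L}



end Trans

end Crest.Agent.R013.ASL_930
end
end

-- ▼ part R013/NP_168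

/-!
# R013 / NP (helper168): the Artin-Schreier function is not an `l`-th power on the vertex

`M/L` finite Galois of `p`-power degree, `w` a norm of `M`, Gauss for `t` over the constants `k`,
the residue field of `L` being `κ(t)`; `y ∈ M` with `w (y^p - y - a t^m) < 1`, `|a| = 1`, `p ∤ m`.
Then no `g ∈ M` has `w (g^l - y) < 1` (`l > 1` prime to `p`).
-/

set_option autoImplicit false

namespace Crest.Agent.R013.NP_168

open IsLocalRing Polynomial Module IntermediateField
open scoped NNReal
open Crest.Agent.R013.ResP_168 Crest.Agent.R013.LiftA_168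

variable {k L M : Type*} [Field k] [Field L] [Field M] [Algebra k L] [Algebra L M] [Algebra k M]
  [IsScalarTower k L M] {v0 : Valuation k ℝ≥0} {w : Valuation M ℝ≥0} {t : L}

theorem rs_aeval [v0.HasExtension w] (hw : ∀ c, w (algebraMap k M c) = v0 c) {x : M} (hx : w x ≤ 1)
    (f : k[X]) (hf : ∀ i, v0 (f.coeff i) ≤ 1) : ∃ P : (RF v0)[X],
      rs w (aeval x f) = aeval (rs w x) P := by
  have hlift : f ∈ Polynomial.lifts v0.valuationSubring.subtype := by
    rw [Polynomial.lifts_iff_coeff_lifts]
    intro j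
    exact ⟨⟨f.coeff j, hf j⟩, rfl⟩
  obtain ⟨P, hP⟩ := hlift
  rw [coe_mapRingHom] at hP
  refine ⟨P.map (residue _), ?_⟩
  have hfx : w (aeval x f) ≤ 1 := aeval_val_le hw hx f hf
  rw [rs_of_le hfx, rs_of_le hx]
  have h4 : (⟨aeval x f, hfx⟩ : w.valuationSubring) = aeval ⟨x, hx⟩ P := by
    apply Subtype.ext
    change aeval x f = w.valuationSubring.subtype _
    have h5 : aeval x f = aeval x (P.map v0.valuationSubring.subtype) := by rw [hP]
    rw [h5, aeval_def, aeval_def, eval₂_map, hom_eval₂]
    rfl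
  rw [h4, aeval_def, hom_eval₂, aeval_def, eval₂_map]
  rfl

theorem rs_algebraMap [v0.HasExtension w] (hw : ∀ c, w (algebraMap k M c) = v0 c) {c : k}
    (hc : v0 c ≤ 1) : rs w (algebraMap k M c) = algebraMap (RF v0) (RF w) (rs v0 c) := by
  have h1 : w (algebraMap k M c) ≤ 1 := by rwa [hw]
  rw [rs_of_le h1, rs_of_le hc]
  rfl

/-- residues of `L` are rational functions in the residue of `t` -/
def ResRat (v0 : Valuation k ℝ≥0) (w : Valuation M ℝ≥0) (t : L) : Prop :=
  ∀ a : L, w (algebraMap L M a) ≤ 1 → ∃ f g : k[X], (∀ i, v0 (f.coeff i) ≤ 1) ∧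
    (∀ i, v0 (g.coeff i) ≤ 1) ∧ w (aeval (algebraMap L M t) g) = 1 ∧
    w (algebraMap L M a * aeval (algebraMap L M t) g - aeval (algebraMap L M t) f) < 1

theorem isRes [v0.HasExtension w] (hw : IsG v0 w (algebraMap L M t)) (hres : ResRat v0 w t) :
    IsRes L w (RF v0)⟮rs w (algebraMap L M t)⟯ := by
  set τ := rs w (algebraMap L M t)
  constructor
  · intro a ha
    obtain ⟨f, g, hf, hg, hg1, hfg⟩ := hres a ha
    obtain ⟨P, hP⟩ := rs_aeval hw.ext hw.le f hf
    obtain ⟨Q, hQ⟩ := rs_aeval hw.ext hw.le g hg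
    have h1 : rs w (algebraMap L M a) * rs w (aeval (algebraMap L M t) g) =
        rs w (aeval (algebraMap L M t) f) := by
      rw [← rs_mul ha hg1.le, rs_eq_iff (by rw [map_mul]; exact mul_le_one' ha hg1.le)
        (aeval_val_le hw.ext hw.le f hf)]
      exact hfg
    have h2 : rs w (aeval (algebraMap L M t) g) ≠ 0 := by
      rw [Ne, rs_eq_zero_iff hg1.le]
      exact hg1.not_lt
    have h3 : rs w (algebraMap L M a) = aeval τ P / aeval τ Q := by
      rw [eq_div_iff (by rw [← hQ]; exact h2), ← hP, ← hQ, h1]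
    have h4 : rs w (algebraMap L M a) ∈ (RF v0)⟮τ⟯ := by
      rw [mem_adjoin_simple_iff]
      exact ⟨P, Q, h3⟩
    exact ⟨⟨_, h4⟩, rfl⟩
  · intro c
    obtain ⟨P, Q, hPQ⟩ := (mem_adjoin_simple_iff (RF v0) (c : RF w)).1 c.2
    -- lift the coefficients
    have hl : ∀ P : (RF v0)[X], ∃ b : L, w (algebraMap L M b) ≤ 1 ∧
        rs w (algebraMap L M b) = aeval τ P := by
      intro P
      choose e he1 he using fun i => exists_rs (w := v0) (P.coeff i)
      refine ⟨∑ i ∈ Finset.range (P.natDegree + 1), algebraMap k L (e i) * t ^ i, ?_, ?_⟩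
      · rw [map_sum]
        refine Valuation.map_sum_le _ fun i _ => ?_
        rw [map_mul, ← IsScalarTower.algebraMap_apply, map_mul, hw.ext, map_pow, map_pow]
        exact mul_le_one' (he1 i) (pow_le_one' hw.le i)
      · rw [map_sum, rs_sum]
        · rw [aeval_eq_sum_range]
          refine Finset.sum_congr rfl fun i _ => ?_
          rw [map_mul, ← IsScalarTower.algebraMap_apply, map_pow, rs_mul
            (by rw [hw.ext]; exact he1 i) (by rw [map_pow]; exact pow_le_one' hw.le i),
            rs_algebraMap hw.ext (he1 i), he, rs_pow hw.le, Algebra.smul_def]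
        · intro i _
          rw [map_mul, ← IsScalarTower.algebraMap_apply, map_mul, hw.ext, map_pow, map_pow]
          exact mul_le_one' (he1 i) (pow_le_one' hw.le i)
    by_cases hQ : aeval τ Q = 0
    · refine ⟨0, by rw [map_zero, map_zero]; exact zero_le_one, ?_⟩
      have h0 : (c : RF w) = 0 := by rw [hPQ, hQ, div_zero]
      rw [map_zero, (rs_eq_zero_iff (by rw [map_zero]; exact zero_le_one)).2
        (by rw [map_zero]; exact zero_lt_one)]
      exact h0.symm
    · obtain ⟨b, hb, hb'⟩ := hl P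
      obtain ⟨d, hd, hd'⟩ := hl Q
      have hd1 : w (algebraMap L M d) = 1 := by
        refine le_antisymm hd ?_
        by_contra hlt
        push Not at hlt
        rw [← rs_eq_zero_iff hd, hd'] at hlt
        exact hQ hlt
      have hbd : w (algebraMap L M (b / d)) ≤ 1 := by
        rw [map_div₀, map_div₀, hd1, div_one]; exact hb
      refine ⟨b / d, hbd, ?_⟩
      have h1 : rs w (algebraMap L M (b / d)) * rs w (algebraMap L M d) = rs w (algebraMap L M b) := by
        rw [← rs_mul hbd hd, ← map_mul, div_mul_cancel₀]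
        rintro rfl
        rw [map_zero, map_zero] at hd1
        exact zero_ne_one hd1
      change rs w (algebraMap L M (b / d)) = (c : RF w)
      rw [hPQ, eq_div_iff hQ, ← hb', ← hd', h1]

/-- the residue of the Gauss coordinate is transcendental -/
theorem transc [v0.HasExtension w] {x : M} (hw : IsG v0 w x) :
    Transcendental (RF v0) (rs w x) := by
  intro halg
  rw [rs_of_le hw.le] at halg
  obtain ⟨f, -, ⟨i, hi⟩, hf⟩ := (isAlgebraic_residue_iff (v0 := v0) ⟨x, hw.le⟩).1 halg
  have h1 := hw.coeff_le f i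
  rw [hi] at h1
  exact absurd hf (not_lt.2 h1)

theorem charP_RF {p : ℕ} (hp : p.Prime) (h : v0 (p : k) < 1) : CharP (RF v0) p := by
  rw [CharP.charP_iff_prime_eq_zero hp]
  have h1 : ((p : v0.valuationSubring) : k) = (p : k) := by
    push_cast; rfl
  have h2 : (p : RF v0) = residue v0.valuationSubring (p : v0.valuationSubring) :=
    (map_natCast _ _).symm
  rw [h2, ResP_168.residue_eq_zero_iff', h1]
  exact h


end Crest.Agent.R013.NP_168
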