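import Crest.Agent.R013.RZ3_365
import Crest.Agent.R013.LiftA_168
import Crest.Agent.R013.AVal_168
import Crest.Agent.R013.RZ4_365
import Crest.Agent.R013.LemT3_874
import Crest.Agent.R013.Unr9_957
import Crest.Agent.R013.NP_168
import Crest.Agent.R013.CLiftN1_903
import Crest.Agent.R013.Set3_803
import Crest.Agent.R013.Unr11_957
import Crest.Agent.R013.Unr10_957

-- ▼ part R013/LiftB_168
section

/-!
# R013 / LiftB (helper168): LIFT-L over the algebraically closed field of constants

`C` algebraically closed with a norm `nC`, `K` finite over `C(z)` for all transcendental `z`; `v` a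
norm of `K`, Gauss for `t`, and `y` an Artin-Schreier function on the vertex `v`,
`v (y ^ p - y - t ^ m) < 1`.  `stage1`: there are `h0` (congruent to `y` at `v`), a coordinate `z`, an
exponent `e` and a finite set `G` such that `h0` is an `l`-th power up to `1`-units at all valuation
rings with `|z| < 1`, `|π| < |z| ^ e`, and `h0` has no zero or pole at the places with `|z| ≥ 1`.
-/

set_option autoImplicit false

namespace Crest.Agent.R013.LiftB_168

open Polynomial
open scoped NNReal
open Crest.Agent.R013.LiftA_168 Crest.Agent.R013.RZ_365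

section zcoord

variable {k K : Type*} [Field k] [Field K] [Algebra k K] {v0 : Valuation k ℝ≥0}
  {Γ : Type*} [LinearOrderedCommGroupWithZero Γ] {w : Valuation K Γ} {t : K}


theorem val_of_gt' {A : k[X]} (hA : MI v0 A) (hw : ∀ c, v0 c ≤ 1 → w (algebraMap k K c) ≤ 1)
    (ht : 1 < w t) : w (aeval t A) = w t ^ A.natDegree := by
  rw [aeval_eq_sum_range, Finset.sum_range_succ, hA.monic.coeff_natDegree, one_smul]
  have h1 : w (∑ i ∈ Finset.range A.natDegree, A.coeff i • t ^ i) < w (t ^ A.natDegree) := by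
    refine Valuation.map_sum_lt _ ?_ fun i hi => ?_
    · rw [map_pow]
      exact pow_ne_zero _ (zero_lt_one.trans ht).ne'
    · rw [Algebra.smul_def, map_mul, map_pow, map_pow]
      calc w (algebraMap k K (A.coeff i)) * w t ^ i ≤ 1 * w t ^ i :=
            mul_le_mul_left (hw _ (hA.le i)) _
        _ = w t ^ i := one_mul _
        _ < w t ^ A.natDegree := pow_lt_pow_right₀ ht (Finset.mem_range.1 hi)
  rw [Valuation.map_add_eq_of_lt_right _ h1, map_pow]

theorem zc_val_of_gt' {A : k[X]} (hA : MI v0 A) (hw : ∀ c, v0 c ≤ 1 → w (algebraMap k K c) ≤ 1)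
    (ht : 1 < w t) : w (zc A t) = (w t)⁻¹ := by
  have h0 : w t ≠ 0 := (zero_lt_one.trans ht).ne'
  rw [zc, map_div₀, val_of_gt' hA hw ht, val_of_gt' hA.den hw ht, hA.natDegree_den, pow_succ,
    div_mul_eq_div_div, div_self (pow_ne_zero _ h0), one_div]

theorem zc_lt_of_gt {A : k[X]} (hA : MI v0 A) (hw : ∀ c, v0 c ≤ 1 → w (algebraMap k K c) ≤ 1)
    (ht : 1 < w t) : w (zc A t) < 1 := by
  rw [zc_val_of_gt' hA hw ht]
  exact inv_lt_one_of_one_lt₀ ht

/-- the polynomial with roots `S` -/
noncomputable def rp (S : Finset k) : k[X] := ∏ τ ∈ S, (X - C τ)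

theorem MI_rp {S : Finset k} (hS : ∀ τ ∈ S, v0 τ ≤ 1) : MI v0 (rp S) := by
  refine MI.prod _ _ fun τ hτ => ⟨monic_X_sub_C _, fun i => ?_⟩
  rw [coeff_sub]
  refine v0.map_sub_le (MI.var.le i) ?_
  rw [coeff_C]
  split_ifs
  · exact hS τ hτ
  · rw [map_zero]; exact zero_le

theorem rp_lt {S : Finset k} (hS : ∀ τ ∈ S, v0 τ ≤ 1)
    (hw : ∀ c, v0 c ≤ 1 → w (algebraMap k K c) ≤ 1) (ht : w t ≤ 1) {τ : k} (hτ : τ ∈ S)
    (h : w (t - algebraMap k K τ) < 1) : w (aeval t (rp S)) < 1 := by
  classical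
  rw [rp, map_prod, map_prod, ← Finset.mul_prod_erase _ _ hτ]
  refine mul_lt_one_of_lt_of_le ?_ ?_
  · rw [map_sub, aeval_X, aeval_C]; exact h
  · refine Finset.prod_le_one' fun σ hσ => ?_
    rw [map_sub, aeval_X, aeval_C]
    exact w.map_sub_le ht (hw _ (hS σ (Finset.mem_of_mem_erase hσ)))

theorem zc_lt_of_root {S : Finset k} (hS : ∀ τ ∈ S, v0 τ ≤ 1)
    (hw : ∀ c, v0 c ≤ 1 → w (algebraMap k K c) ≤ 1) (ht : w t ≤ 1) {τ : k} (hτ : τ ∈ S)
    (h : w (t - algebraMap k K τ) < 1) : w (zc (rp S) t) < 1 := by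
  have h1 := rp_lt hS hw ht hτ h
  have h2 : w (aeval t (1 + X * rp S)) = 1 := by
    rw [map_add, map_mul, aeval_X, map_one]
    rw [Valuation.map_add_eq_of_lt_left, map_one]
    rw [map_one, map_mul]
    rw [mul_comm]
    exact mul_lt_one_of_lt_of_le h1 ht
  rw [zc, map_div₀, h2, div_one]
  exact h1

end zcoord

section bad

variable {k K : Type*} [Field k] [Field K] [Algebra k K]

/-- The zeros and poles of an algebraic function are over the zeros of a polynomial in `t` or over
`t = ∞`. -/
theorem exists_bad (t h : K) (h0 : h ≠ 0) (hh : IsAlgebraic (IntermediateField.adjoin k {t}) h) :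
    ∃ B : k[X], B ≠ 0 ∧ ∀ u : Valuation K ℝ≥0, (∀ c : k, c ≠ 0 → u (algebraMap k K c) = 1) →
      u t ≤ 1 → u h ≠ 1 → u (aeval t B) < 1 := by
  classical
  have hint : IsIntegral (IntermediateField.adjoin k {t}) h := hh.isIntegral
  set P := minpoly (IntermediateField.adjoin k {t}) h with hP
  have hP0 : P.coeff 0 ≠ 0 := minpoly.coeff_zero_ne_zero hint h0
  have hPm : P.Monic := minpoly.monic hint
  have key : ∀ c : IntermediateField.adjoin k {t}, ∃ r s : k[X], aeval t s ≠ 0 ∧
      (c : K) * aeval t s = aeval t r := by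
    intro c
    obtain ⟨r, s, hrs⟩ := (IntermediateField.mem_adjoin_simple_iff k (c : K)).1 c.2
    by_cases hs : aeval t s = 0
    · refine ⟨0, 1, by rw [map_one]; exact one_ne_zero, ?_⟩
      rw [hrs, hs, div_zero, zero_mul, map_zero]
    · exact ⟨r, s, hs, by rw [hrs, div_mul_cancel₀ _ hs]⟩
  choose r s hs hrs using fun i : ℕ => key (P.coeff i)
  have hs0 : ∀ i, s i ≠ 0 := by
    intro i h1
    apply hs i
    rw [h1, map_zero]
  have hr0 : r 0 ≠ 0 := by
    intro h1
    have h2 := hrs 0
    rw [h1, map_zero] at h2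
    rcases mul_eq_zero.1 h2 with h3 | h3
    · exact hP0 (Subtype.ext h3)
    · exact hs 0 h3
  refine ⟨r 0 * ∏ i ∈ Finset.range (P.natDegree + 1), s i,
    mul_ne_zero hr0 (Finset.prod_ne_zero_iff.2 fun i _ => hs0 i), ?_⟩
  intro u hu ht huh
  have hc : ∀ c : k, u (algebraMap k K c) ≤ 1 := by
    intro c
    by_cases hc : c = 0
    · rw [hc, map_zero, map_zero]; exact zero_le
    · rw [hu c hc]
  have hle : ∀ f : k[X], u (aeval t f) ≤ 1 := by
    intro f
    rw [aeval_eq_sum_range]
    refine Valuation.map_sum_le _ fun i _ => ?_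
    rw [Algebra.smul_def, map_mul, map_pow]
    exact mul_le_one' (hc _) (pow_le_one' ht i)
  by_contra hcon
  push Not at hcon
  rw [map_mul, map_prod, map_mul, map_prod] at hcon
  have hprod : ∏ i ∈ Finset.range (P.natDegree + 1), u (aeval t (s i)) ≤ 1 :=
    Finset.prod_le_one' fun i _ => hle _
  have hr1 : u (aeval t (r 0)) = 1 := by
    refine le_antisymm (hle _) (hcon.trans ?_)
    exact mul_le_of_le_one_right' hprod
  have hprod1 : ∏ i ∈ Finset.range (P.natDegree + 1), u (aeval t (s i)) = 1 := by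
    refine le_antisymm hprod (hcon.trans ?_)
    rw [hr1, one_mul]
  have hs1 : ∀ i ∈ Finset.range (P.natDegree + 1), u (aeval t (s i)) = 1 := by
    intro i hi
    refine le_antisymm (hle _) ?_
    rw [← Finset.mul_prod_erase _ _ hi] at hprod1
    rw [← hprod1]
    exact mul_le_of_le_one_right' (Finset.prod_le_one' fun i _ => hle _)
  have hPc : ∀ i ∈ Finset.range (P.natDegree + 1), u (P.coeff i : K) ≤ 1 := by
    intro i hi
    have h1 := congrArg u (hrs i)
    rw [map_mul, hs1 i hi, mul_one] at h1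
    rw [h1]; exact hle _
  have hPc0 : u (P.coeff 0 : K) = 1 := by
    have h1 := congrArg u (hrs 0)
    rw [map_mul, hs1 0 (by simp), mul_one, hr1] at h1
    exact h1
  have hsum : ∑ i ∈ Finset.range (P.natDegree + 1), (P.coeff i : K) * h ^ i = 0 := by
    have h1 : aeval h P = 0 := minpoly.aeval _ _
    rw [aeval_eq_sum_range] at h1
    rw [← h1]
    refine Finset.sum_congr rfl fun i _ => ?_
    rw [Algebra.smul_def]
    rfl
  rcases lt_or_gt_of_ne huh with hlt | hgt
  · -- `u h < 1`
    rw [Finset.sum_range_succ'] at hsum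
    rw [pow_zero, mul_one] at hsum
    have h1 : u (∑ i ∈ Finset.range P.natDegree, (P.coeff (i + 1) : K) * h ^ (i + 1)) < 1 := by
      refine Valuation.map_sum_lt _ one_ne_zero fun i hi => ?_
      rw [map_mul, map_pow, mul_comm]
      refine mul_lt_one_of_lt_of_le (pow_lt_one₀ zero_le hlt (Nat.succ_ne_zero i)) (hPc _ ?_)
      have := Finset.mem_range.1 hi
      exact Finset.mem_range.2 (by omega)
    have h2 : (P.coeff 0 : K) =
        -∑ i ∈ Finset.range P.natDegree, (P.coeff (i + 1) : K) * h ^ (i + 1) := by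
      rw [eq_neg_iff_add_eq_zero, add_comm]; exact hsum
    rw [h2, Valuation.map_neg] at hPc0
    exact h1.ne hPc0
  · -- `1 < u h`
    rw [Finset.sum_range_succ] at hsum
    have hlead : (P.coeff P.natDegree : K) = 1 := by
      rw [hPm.coeff_natDegree]; rfl
    rw [hlead, one_mul] at hsum
    have h1 : u (∑ i ∈ Finset.range P.natDegree, (P.coeff i : K) * h ^ i) < u (h ^ P.natDegree) := by
      refine Valuation.map_sum_lt _ ?_ fun i hi => ?_
      · rw [map_pow]
        exact pow_ne_zero _ (zero_lt_one.trans hgt).ne'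
      · rw [map_mul, map_pow, map_pow]
        have hi' := Finset.mem_range.1 hi
        calc u (P.coeff i : K) * u h ^ i ≤ 1 * u h ^ i := by
              gcongr
              exact hPc i (Finset.mem_range.2 (by omega))
          _ = u h ^ i := one_mul _
          _ < u h ^ P.natDegree := pow_lt_pow_right₀ hgt hi'
    have h2 : h ^ P.natDegree = -∑ i ∈ Finset.range P.natDegree, (P.coeff i : K) * h ^ i := by
      rw [eq_neg_iff_add_eq_zero, add_comm]; exact hsum
    rw [h2, Valuation.map_neg] at h1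
    exact lt_irrefl _ h1

/-- The same with the roots of the polynomial. -/
theorem exists_bad_roots [IsAlgClosed k] (t h : K) (h0 : h ≠ 0)
    (hh : IsAlgebraic (IntermediateField.adjoin k {t}) h) :
    ∃ S : Finset k, ∀ u : Valuation K ℝ≥0, (∀ c : k, c ≠ 0 → u (algebraMap k K c) = 1) →
      u t ≤ 1 → u h ≠ 1 → ∃ τ ∈ S, u (t - algebraMap k K τ) < 1 := by
  classical
  obtain ⟨B, hB0, hB⟩ := exists_bad t h h0 hh
  refine ⟨B.roots.toFinset, fun u hu ht huh => ?_⟩
  have h1 := hB u hu ht huh
  by_contra hcon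
  push Not at hcon
  have hlc : B.leadingCoeff ≠ 0 := leadingCoeff_ne_zero.2 hB0
  have hfac : B = C B.leadingCoeff * (B.roots.map fun a => X - C a).prod :=
    (IsAlgClosed.splits B).eq_prod_roots
  rw [hfac, map_mul, aeval_C, map_mul, hu _ hlc, one_mul] at h1
  have h2 : ∀ s : Multiset k, (∀ τ ∈ s, 1 ≤ u (t - algebraMap k K τ)) →
      1 ≤ u (aeval t (s.map fun a => X - C a).prod) := by
    intro s
    induction s using Multiset.induction_on with
    | empty => intro _; simp
    | cons a s ih =>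
      intro hs
      rw [Multiset.map_cons, Multiset.prod_cons, map_mul, map_mul, map_sub, aeval_X, aeval_C]
      exact one_le_mul (hs a (Multiset.mem_cons_self a s))
        (ih fun τ hτ => hs τ (Multiset.mem_cons_of_mem hτ))
  exact absurd h1 (not_lt.2 (h2 _ fun τ hτ => hcon τ (Multiset.mem_toFinset.2 hτ)))

end bad

section composite

variable {C K : Type*} [Field C] [Field K] [Algebra C K] (nC : Valuation C ℝ≥0)

/-- `O` is a valuation ring below the place `u`. -/
structure Below (u : Valuation K ℝ≥0) (O : ValuationSubring K) : Prop where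
  triv : ∀ c : C, c ≠ 0 → u (algebraMap C K c) = 1
  le : ∀ a ∈ O, u a ≤ 1
  int : ∀ c : C, nC c ≤ 1 → algebraMap C K c ∈ O
  small : ∀ c : C, nC c < 1 → O.valuation (algebraMap C K c) < 1

variable {nC} {u : Valuation K ℝ≥0} {O : ValuationSubring K}

theorem Below.lt_one (h : Below nC u O) {a : K} (ha : u a < 1) : O.valuation a < 1 :=
  AVal_168.lt_one (w := u) (fun a ha => h.le a ha) ha

theorem Below.zc_lt (h : Below nC u O) {t : K} {S : Finset C}
    (hS : 1 < u t ∨ ∃ τ ∈ S, u (t - algebraMap C K τ) < 1) :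
    O.valuation (zc (rp (S.filter fun τ => nC τ ≤ 1)) t) < 1 := by
  classical
  have hS1 : ∀ τ ∈ S.filter fun τ => nC τ ≤ 1, nC τ ≤ 1 := fun τ hτ => (Finset.mem_filter.1 hτ).2
  have hw : ∀ c, nC c ≤ 1 → O.valuation (algebraMap C K c) ≤ 1 := fun c hc =>
    (ValuationSubring.valuation_le_one_iff _ _).2 (h.int c hc)
  by_cases ht : 1 < O.valuation t
  · exact zc_lt_of_gt (MI_rp hS1) hw ht
  push Not at ht
  have hut : u t ≤ 1 := h.le t ((ValuationSubring.valuation_le_one_iff _ _).1 ht)
  rcases hS with hS | ⟨τ, hτ, hτ1⟩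
  · exact absurd hS (not_lt.2 hut)
  have h1 := h.lt_one hτ1
  by_cases hτ2 : nC τ ≤ 1
  · exact zc_lt_of_root hS1 hw ht (Finset.mem_filter.2 ⟨hτ, hτ2⟩) h1
  · exfalso
    push Not at hτ2
    have hτ0 : τ ≠ 0 := by
      rintro rfl
      rw [map_zero] at hτ2
      exact absurd hτ2 (by simp)
    have h2 : O.valuation (algebraMap C K τ⁻¹) < 1 := h.small _ (by
      rw [map_inv₀]; exact inv_lt_one_of_one_lt₀ hτ2)
    have h3 : O.valuation (algebraMap C K τ) ≤ 1 := by
      have : algebraMap C K τ = t - (t - algebraMap C K τ) := by ring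
      rw [this]
      exact O.valuation.map_sub_le ht h1.le
    have h4 : O.valuation (algebraMap C K τ) * O.valuation (algebraMap C K τ⁻¹) = 1 := by
      rw [← map_mul, ← map_mul, mul_inv_cancel₀ hτ0, map_one, map_one]
    rw [mul_comm] at h4
    exact (mul_lt_one_of_lt_of_le h2 h3).ne h4

end composite

section stage1

variable {C K : Type*} [Field C] [IsAlgClosed C] [Field K] [Algebra C K]

open IntermediateField in
/-- **LIFT-L over the algebraically closed field of constants**, for a unit `y` at the vertex `v`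
whose values at the valuation rings below `v` are `l`-th powers (condition (V1)). -/
theorem stage1V (hfd : ∀ z : K, Transcendental C z → FiniteDimensional C⟮z⟯ K)
    (nC : Valuation C ℝ≥0) {π : C} (hπ0 : π ≠ 0) (hπ1 : nC π < 1) {v : Valuation K ℝ≥0} {t y : K}
    (hv : IsG nC v t) {l : ℕ} (hl : l ≠ 0) (hvy : v y = 1)
    (hV1 : ∀ A : ValuationSubring K, (∀ a ∈ A, v a ≤ 1) →
      ∃ g : K, g ≠ 0 ∧ A.valuation (y * g ^ l) = 1) :
    ∃ (h0 z : K) (e : ℕ) (G : Finset K), h0 ≠ 0 ∧ Transcendental C z ∧ IsG nC v z ∧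
      v (h0 - y) < 1 ∧
      (∀ w : Valuation K ℝ≥0, (∀ c, w (algebraMap C K c) = nC c) → 1 < w t → w z < 1) ∧
      (∀ g ∈ G, g ≠ 0) ∧
      (∀ O : ValuationSubring K, (∀ c, nC c ≤ 1 → algebraMap C K c ∈ O) → O.valuation z < 1 →
        O.valuation (algebraMap C K π / z ^ e) < 1 →
        ∃ g ∈ G, O.valuation (h0 * g ^ l - 1) < 1) ∧
      (∀ (u : Valuation K ℝ≥0) (O : ValuationSubring K), Below nC u O → u h0 ≠ 1 →
        O.valuation z < 1) := by
  classical
  have hnt : ∃ c : C, nC c ≠ 0 ∧ nC c ≠ 1 := ⟨π, (Valuation.ne_zero_iff _).2 hπ0, hπ1.ne⟩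
  have htt : Transcendental C t := hv.transcendental
  have hfdt := hfd t htt
  have hfin : Finite {w : Valuation K ℝ≥0 // IsG nC w t} :=
    (finite_isG (K := K) hnt t).to_subtype
  -- weak approximation
  obtain ⟨h0, hh0⟩ := weak_approx (k := C) hnt (fun w : {w : Valuation K ℝ≥0 // IsG nC w t} => w.1)
    Subtype.val_injective (fun w c => w.2.ext c) (fun w => if w.1 = v then y else 1) 1 one_pos
  have ha : v (h0 - y) < 1 := by
    have h1 := hh0 ⟨v, hv⟩
    rwa [if_pos rfl] at h1
  have hb : ∀ w : Valuation K ℝ≥0, IsG nC w t → w ≠ v → w (h0 - 1) < 1 := by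
    intro w h1 h2
    have h3 := hh0 ⟨w, h1⟩
    rwa [if_neg h2] at h3
  have h00 : h0 ≠ 0 := by
    rintro rfl
    rw [zero_sub, Valuation.map_neg, hvy] at ha
    exact lt_irrefl _ ha
  -- the coordinate
  have halgt : Algebra.IsAlgebraic C⟮t⟯ K := Algebra.IsAlgebraic.of_finite _ _
  obtain ⟨S, hS⟩ := exists_bad_roots (k := C) t h0 h00 (halgt.isAlgebraic h0)
  set A := rp (S.filter fun τ => nC τ ≤ 1) with hAdef
  have hA : MI nC A := MI_rp fun τ hτ => (Finset.mem_filter.1 hτ).2
  set z := zc A t with hz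
  have hvz : IsG nC v z := hv.zc hA
  have hzt : Transcendental C z := hvz.transcendental
  have hz0 : z ≠ 0 := by
    intro h
    rw [h] at hzt
    exact hzt isAlgebraic_zero
  have hfdz := hfd z hzt
  have halgz : Algebra.IsAlgebraic C⟮z⟯ K := Algebra.IsAlgebraic.of_finite _ _
  have halg : ∀ a : K, IsAlgebraic C⟮z⟯ a := fun a => halgz.isAlgebraic a
  obtain ⟨e, G, hG0, hG⟩ := lift3 (algebraMap C K '' {c | nC c ≤ 1}) z (algebraMap C K π) h0 hz0 l (by
    intro O hO1 hO2 hO3
    have hO1' : ∀ c : C, nC c ≤ 1 → algebraMap C K c ∈ O := fun c hc => hO1 _ ⟨c, hc, rfl⟩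
    obtain ⟨w, hw1, hw2, hw3, hw4, hw5⟩ := exists_norm_of_composite nC hπ0 hz0 hO1' hO2 hO3 halg
    have hwt : IsG nC w t := isG_of_zc hA ⟨hw1, hw3.le, hw2⟩
    by_cases hwv : w = v
    · subst hwv
      have hOw : O ≤ w.valuationSubring := fun a ha => hw4 a ha
      obtain ⟨g, hg0, hg'⟩ := hV1 O hw4
      have hg : O.valuation (h0 * g ^ l) = 1 := by
        rw [map_mul, AVal_168.val_eq hOw hvy ha, ← map_mul, hg']
      obtain ⟨c, hc0, -, hc⟩ := exists_pow_of_unit nC hπ0 hz0 hO1' hO2 hO3 halg l hl _ hg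
      refine ⟨g * algebraMap C K c, mul_ne_zero hg0 ((_root_.map_ne_zero _).2 hc0), ?_⟩
      rw [mul_pow, ← mul_assoc]
      exact hc
    · refine ⟨1, one_ne_zero, ?_⟩
      rw [one_pow, mul_one]
      exact hw5 _ (hb w hwt hwv))
  refine ⟨h0, z, e, G, h00, hzt, hvz, ha, fun w hw hwt => zc_val_lt hA hw hwt, hG0, ?_, ?_⟩
  · intro O hO1 hO2 hO3
    exact hG O (by rintro _ ⟨c, hc, rfl⟩; exact hO1 c hc) hO2 hO3
  · intro u O hO hu
    refine hO.zc_lt (S := S) ?_
    by_cases hut : 1 < u t
    · exact Or.inl hut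
    · exact Or.inr (hS u hO.triv (not_lt.1 hut) hu)


end stage1

end Crest.Agent.R013.LiftB_168
end

-- ▼ part R013/LiftF_168
section

/-!
# R013 / LiftF (helper168): LIFT-L at a finite level

`stage2`: from the data of `LiftB_168.stage1` (an element `h0`, a coordinate `z`, `e`, `G`), all lying
in a finite level `K'` over the complete field `L`, the patched element `h : K'`, and its behaviour at
all norms and all places of `K'`.
-/

set_option autoImplicit false
set_option linter.style.haveILetI false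

namespace Crest.Agent.R013.LiftF_168

open Polynomial
open scoped NNReal
open Crest.Agent.R013.LiftA_168 Crest.Agent.R013.RZ_365 Crest.Agent.R013.LiftB_168

section below

variable {C K : Type*} [Field C] [Field K] [Algebra C K] (nC : Valuation C ℝ≥0)
  (W : Valuation K ℝ≥0)

theorem const_le (hW : ∀ c : C, c ≠ 0 → W (algebraMap C K c) = 1) (c : C) :
    W (algebraMap C K c) ≤ 1 := by
  by_cases h : c = 0
  · rw [h, map_zero, map_zero]; exact zero_le
  · rw [hW c h]

/-- the constants of norm `≤ 1` plus the maximal ideal of the place -/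
def RR (hW : ∀ c : C, c ≠ 0 → W (algebraMap C K c) = 1) : Subring K where
  carrier := {a | ∃ c : C, nC c ≤ 1 ∧ W (a - algebraMap C K c) < 1}
  mul_mem' := by
    rintro a b ⟨c, hc, hac⟩ ⟨d, hd, hbd⟩
    refine ⟨c * d, by rw [map_mul]; exact mul_le_one' hc hd, ?_⟩
    have hb : W b ≤ 1 := by
      have : b = (b - algebraMap C K d) + algebraMap C K d := by ring
      rw [this]
      exact W.map_add_le hbd.le (const_le W hW d)
    have : a * b - algebraMap C K (c * d) =
        (a - algebraMap C K c) * b + (b - algebraMap C K d) * algebraMap C K c := by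
      rw [map_mul]; ring
    rw [this]
    refine Valuation.map_add_lt _ ?_ ?_
    · rw [map_mul]; exact mul_lt_one_of_lt_of_le hac hb
    · rw [map_mul]; exact mul_lt_one_of_lt_of_le hbd (const_le W hW c)
  one_mem' := ⟨1, by rw [map_one], by rw [map_one, sub_self, map_zero]; exact zero_lt_one⟩
  add_mem' := by
    rintro a b ⟨c, hc, hac⟩ ⟨d, hd, hbd⟩
    refine ⟨c + d, nC.map_add_le hc hd, ?_⟩
    have : a + b - algebraMap C K (c + d) =
        (a - algebraMap C K c) + (b - algebraMap C K d) := by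
      rw [map_add]; ring
    rw [this]
    exact Valuation.map_add_lt _ hac hbd
  zero_mem' := ⟨0, by rw [map_zero]; exact zero_le, by
    rw [map_zero, sub_self, map_zero]; exact zero_lt_one⟩
  neg_mem' := by
    rintro a ⟨c, hc, hac⟩
    refine ⟨-c, by rwa [Valuation.map_neg], ?_⟩
    have : -a - algebraMap C K (-c) = -(a - algebraMap C K c) := by
      rw [map_neg]; ring
    rw [this, Valuation.map_neg]
    exact hac

/-- the ideal of `RR` -/
def II (hW : ∀ c : C, c ≠ 0 → W (algebraMap C K c) = 1) : Ideal (RR nC W hW) where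
  carrier := {a | ∃ c : C, nC c < 1 ∧ W ((a : K) - algebraMap C K c) < 1}
  add_mem' := by
    rintro a b ⟨c, hc, hac⟩ ⟨d, hd, hbd⟩
    refine ⟨c + d, Valuation.map_add_lt _ hc hd, ?_⟩
    have : ((a + b : RR nC W hW) : K) - algebraMap C K (c + d) =
        ((a : K) - algebraMap C K c) + ((b : K) - algebraMap C K d) := by
      rw [map_add]
      push_cast
      ring
    rw [this]
    exact Valuation.map_add_lt _ hac hbd
  zero_mem' := ⟨0, by rw [map_zero]; exact zero_lt_one, by
    rw [map_zero]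
    simp⟩
  smul_mem' := by
    rintro ⟨a, c, hc, hac⟩ ⟨b, hb'⟩ ⟨d, hd, hbd⟩
    refine ⟨c * d, by rw [map_mul, mul_comm]; exact mul_lt_one_of_lt_of_le hd hc, ?_⟩
    have hb : W b ≤ 1 := by
      have : b = (b - algebraMap C K d) + algebraMap C K d := by ring
      rw [this]
      exact W.map_add_le hbd.le (const_le W hW d)
    have : a * b - algebraMap C K (c * d) =
        (a - algebraMap C K c) * b + (b - algebraMap C K d) * algebraMap C K c := by
      rw [map_mul]; ring
    change W (a * b - algebraMap C K (c * d)) < 1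
    rw [this]
    refine Valuation.map_add_lt _ ?_ ?_
    · rw [map_mul]; exact mul_lt_one_of_lt_of_le hac hb
    · rw [map_mul]; exact mul_lt_one_of_lt_of_le hbd (const_le W hW c)

/-- **Existence of the composite valuation ring.** -/
theorem exists_below (hW : ∀ c : C, c ≠ 0 → W (algebraMap C K c) = 1) :
    ∃ O : ValuationSubring K, Below nC W O := by
  have hI : II nC W hW ≠ ⊤ := by
    rw [Ideal.ne_top_iff_one]
    rintro ⟨c, hc, hc1⟩
    have h1 : (((1 : RR nC W hW) : RR nC W hW) : K) - algebraMap C K c = algebraMap C K (1 - c) := by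
      rw [map_sub, map_one]; rfl
    rw [h1] at hc1
    have h2 : (1 : C) - c ≠ 0 := by
      intro h
      rw [← sub_eq_zero.1 h, map_one] at hc
      exact lt_irrefl _ hc
    rw [hW _ h2] at hc1
    exact lt_irrefl _ hc1
  obtain ⟨O, hO1, hO2⟩ := Ideal.image_subset_nonunits_valuationSubring (II nC W hW) hI
  have hsm : ∀ a : K, (∃ c : C, nC c < 1 ∧ W (a - algebraMap C K c) < 1) → O.valuation a < 1 := by
    rintro a ⟨c, hc, hac⟩
    exact hO2 ⟨⟨a, c, hc.le, hac⟩, ⟨c, hc, hac⟩, rfl⟩
  refine ⟨O, hW, fun a ha => ?_, fun c hc => ?_, fun c hc => ?_⟩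
  · by_contra hcon
    push Not at hcon
    have ha0 : a ≠ 0 := by
      rintro rfl
      rw [map_zero] at hcon
      exact absurd hcon (by simp)
    have h1 : O.valuation a⁻¹ < 1 := hsm _ ⟨0, by rw [map_zero]; exact zero_lt_one, by
      rw [map_zero, sub_zero, map_inv₀]; exact inv_lt_one_of_one_lt₀ hcon⟩
    have h2 := (ValuationSubring.valuation_le_one_iff O a).2 ha
    have h3 : O.valuation a⁻¹ * O.valuation a = 1 := by
      rw [← map_mul, inv_mul_cancel₀ ha0, map_one]
    exact (mul_lt_one_of_lt_of_le h1 h2).ne h3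
  · exact hO1 ⟨c, hc, by rw [sub_self, map_zero]; exact zero_lt_one⟩
  · exact hsm _ ⟨c, hc, by rw [sub_self, map_zero]; exact zero_lt_one⟩

end below

section units

variable {K Γ : Type*} [Field K] [LinearOrderedCommGroupWithZero Γ] (w : Valuation K Γ)

theorem val_of_sub_lt {a : K} (h : w (a - 1) < 1) : w a = 1 := by
  have : a = 1 + (a - 1) := by ring
  rw [this, Valuation.map_add_eq_of_lt_left _ (by rw [map_one]; exact h), map_one]

theorem mul_unit {a b : K} (ha : w (a - 1) < 1) (hb : w (b - 1) < 1) : w (a * b - 1) < 1 := by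
  have : a * b - 1 = (a - 1) * b + (b - 1) := by ring
  rw [this]
  refine Valuation.map_add_lt _ ?_ hb
  rw [map_mul, val_of_sub_lt w hb, mul_one]
  exact ha

end units

section fd

variable {L K : Type*} [Field L] [Field K] [Algebra L K]

open IntermediateField in
/-- finite over `L(y)` gives finite over `L(X)`, `X ↦ y` -/
theorem finite_ratAlg (y : K) (hy : Transcendental L y) [hfd : FiniteDimensional L⟮y⟯ K] :
    letI := RR20_948.ratAlg y hy; FiniteDimensional (RatFunc L) K := by
  letI := RR20_948.ratAlg y hy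
  have hmem : ∀ x : RatFunc L, (RR20_948.ratHom y hy).toRingHom x ∈ L⟮y⟯ := by
    intro x
    rw [IntermediateField.mem_adjoin_simple_iff]
    exact ⟨x.num, x.denom, RatFunc.liftAlgHom_apply _ _ x⟩
  let φ : RatFunc L →+* L⟮y⟯ := (RR20_948.ratHom y hy).toRingHom.codRestrict _ hmem
  have hsurj : Function.Surjective φ := by
    rintro ⟨x, hx⟩
    obtain ⟨r, s, hrs⟩ := (IntermediateField.mem_adjoin_simple_iff L x).1 hx
    refine ⟨algebraMap L[X] (RatFunc L) r / algebraMap L[X] (RatFunc L) s, Subtype.ext ?_⟩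
    change RR20_948.ratHom y hy _ = x
    rw [hrs]
    have h1 : ∀ f : L[X], RR20_948.ratHom y hy (algebraMap L[X] (RatFunc L) f) = aeval y f := by
      intro f
      have h2 := RatFunc.liftAlgHom_apply_div (Polynomial.aeval y)
        (nonZeroDivisors_le_comap_nonZeroDivisors_of_injective _ (transcendental_iff_injective.mp hy))
        (f : L[X]) 1
      simp only [map_one, div_one] at h2
      exact h2
    rw [map_div₀, h1, h1]
  letI : Algebra (RatFunc L) L⟮y⟯ := φ.toAlgebra
  have : IsScalarTower (RatFunc L) L⟮y⟯ K := IsScalarTower.of_algebraMap_eq fun x => rfl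
  have : Module.Finite (RatFunc L) L⟮y⟯ :=
    Module.Finite.of_surjective (Algebra.linearMap (RatFunc L) L⟮y⟯) hsurj
  exact Module.Finite.trans L⟮y⟯ K

end fd

section stage2

universe u

open IntermediateField in
/-- **LIFT-L at the finite level.** -/
theorem stage2 {L : Type u} [NontriviallyNormedField L] [IsUltrametricDist L] [CompleteSpace L]
    [CharZero L] {ϖ : L} (hϖ : Gl946.IsUnif ϖ) {K' : Type u} [Field K'] [Algebra L K']
    {C Kc : Type*} [Field C] [Algebra L C] [Algebra.IsAlgebraic L C] [Field Kc] [Algebra L Kc]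
    [Algebra C Kc] [IsScalarTower L C Kc] [Algebra K' Kc] [IsScalarTower L K' Kc]
    [Algebra.IsAlgebraic K' Kc]
    (hfd : ∀ z : K', Transcendental L z → FiniteDimensional L⟮z⟯ K')
    (nC : Valuation C ℝ≥0) (hnC : ∀ c : L, nC (algebraMap L C c) = ‖c‖₊)
    {N : ℕ} (hN : ‖(N : L)‖ = 1) {h0 z : K'} (h00 : h0 ≠ 0) (hz : Transcendental L z)
    {w0 : L} (hw0 : w0 ≠ 0) (hw1 : ‖w0‖ < 1) {e : ℕ} {π : C} (hπ : nC π < ‖w0‖₊ ^ e)
    (G : Finset K') (hG0 : ∀ g ∈ G, g ≠ 0)
    (hG : ∀ O : ValuationSubring Kc, (∀ c, nC c ≤ 1 → algebraMap C Kc c ∈ O) →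
      O.valuation (algebraMap K' Kc z) < 1 →
      O.valuation (algebraMap C Kc π / algebraMap K' Kc z ^ e) < 1 →
      ∃ g ∈ G, O.valuation (algebraMap K' Kc h0 * algebraMap K' Kc g ^ N - 1) < 1)
    (hB : ∀ (u : Valuation Kc ℝ≥0) (O : ValuationSubring Kc), Below nC u O →
      u (algebraMap K' Kc h0) ≠ 1 → O.valuation (algebraMap K' Kc z) < 1) :
    ∃ h : K', h ≠ 0 ∧
      (∀ w : Valuation K' ℝ≥0, (∀ c : L, w (algebraMap L K' c) = ‖c‖₊) →
        (w z < 1 → ∃ g : K', g ≠ 0 ∧ w (h / g ^ N - 1) < 1) ∧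
        (1 ≤ w z → ∃ g : K', g ≠ 0 ∧ w (h / (h0 * g ^ N) - 1) < 1)) ∧
      (∀ u : Valuation K' ℝ≥0, (∀ c : L, c ≠ 0 → u (algebraMap L K' c) = 1) →
        ∃ a : K', u h = u a ^ N) := by
  classical
  have hw0K : algebraMap L K' w0 ≠ 0 := (_root_.map_ne_zero _).2 hw0
  have hnw0 : 0 < ‖w0‖₊ := by rwa [nnnorm_pos]
  have hw1' : ‖w0‖₊ < 1 := by exact_mod_cast hw1
  have hnt : ∃ a : L, a ≠ 0 ∧ ‖a‖ < 1 := ⟨w0, hw0, hw1⟩
  have hz0 : z ≠ 0 := by
    rintro rfl
    exact hz isAlgebraic_zero
  obtain ⟨y, hy⟩ : ∃ y : K', y = z / algebraMap L K' w0 := ⟨_, rfl⟩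
  have hyz : z = algebraMap L K' w0 * y := by rw [hy, mul_div_cancel₀ _ hw0K]
  have hy0 : y ≠ 0 := by rw [hy]; exact div_ne_zero hz0 hw0K
  have hyt : Transcendental L y := by
    intro h
    apply hz
    rw [hyz]
    exact (isAlgebraic_algebraMap w0).mul h
  have hfdy := hfd y hyt
  letI i1 : Algebra (RatFunc L) K' := RR20_948.ratAlg y hyt
  have i2 : IsScalarTower L (RatFunc L) K' := RR20_948.ratAlg_tower y hyt
  have i3 : FiniteDimensional (RatFunc L) K' := finite_ratAlg y hyt
  have hyX : algebraMap (RatFunc L) K' RatFunc.X = y := RR20_948.ratHom_X y hyt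
  have i4 : CharZero (RatFunc L) := charZero_of_injective_algebraMap
    (algebraMap L (RatFunc L)).injective
  have i5 : Algebra.IsAlgebraic (RatFunc L) K' := Algebra.IsAlgebraic.of_finite _ _
  -- transfer of `hG`
  have hGim : ∀ w : Valuation Kc ℝ≥0, (∀ c : C, w (algebraMap C Kc c) = nC c) →
      w (algebraMap K' Kc z) < 1 → w (algebraMap C Kc π) < w (algebraMap K' Kc z) ^ e →
      ∃ g ∈ G.image (algebraMap K' Kc), w (algebraMap K' Kc h0 * g ^ N - 1) < 1 := by
    intro w hw hwz hwπ
    have hwz0 : w (algebraMap K' Kc z) ≠ 0 := (Valuation.ne_zero_iff _).2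
      ((_root_.map_ne_zero _).2 hz0)
    obtain ⟨g, hg, hg1⟩ := hG w.valuationSubring
      (fun c hc => (Valuation.mem_valuationSubring_iff _ _).2 (by rw [hw]; exact hc))
      ((valuationSubring_lt_one_iff w _).2 hwz)
      ((valuationSubring_lt_one_iff w _).2 (by
        rw [map_div₀, map_pow, div_lt_one₀ (pos_iff_ne_zero.2 (pow_ne_zero _ hwz0))]
        exact hwπ))
    exact ⟨_, Finset.mem_image_of_mem _ hg, (valuationSubring_lt_one_iff w _).1 hg1⟩
  have hGim0 : ∀ g ∈ G.image (algebraMap K' Kc), g ≠ 0 := by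
    intro g hg
    obtain ⟨g', hg', rfl⟩ := Finset.mem_image.1 hg
    exact (_root_.map_ne_zero _).2 (hG0 g' hg')
  obtain ⟨h, hh0, hh⟩ := patch_level hϖ hyX N hN h0 1 h00 one_ne_zero (by
    intro v hv hvy hvG
    have hvy1 : v y = 1 := by
      refine le_antisymm hvy ?_
      have := hvG X 1
      rwa [coeff_X_one, nnnorm_one, aeval_X] at this
    have hvz : v z = ‖w0‖₊ := by rw [hyz, map_mul, hv, hvy1, mul_one]
    obtain ⟨w, hw, hw'⟩ := hf_of_G hnt nC hnC hGim0 hGim (z' := z) (h0' := h0) rfl rfl (by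
      intro g hg
      obtain ⟨g', -, rfl⟩ := Finset.mem_image.1 hg
      exact ⟨g', rfl⟩) v hv (by rw [hvz]; exact hw1') (by rw [hvz]; exact hπ)
    refine ⟨w, hw, ?_⟩
    rw [div_one]; exact hw')
  refine ⟨h, hh0, ?_, ?_⟩
  · -- norms
    intro w hw
    obtain ⟨c1, c2, -, -⟩ := hh w
    have hwy : w z = ‖w0‖₊ * w y := by rw [hyz, map_mul, hw]
    refine ⟨fun hwz => ?_, fun hwz => ?_⟩
    · rcases lt_or_ge (w y) 1 with h1 | h1
      · obtain ⟨g, hg0, hg⟩ := c2 (fun c => (hw c).le) h1
        refine ⟨g, hg0, ?_⟩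
        rwa [one_mul] at hg
      · obtain ⟨g, hg0, hg⟩ := c1 (fun c => (hw c).le) h1
        obtain ⟨W, hW, hWC⟩ := exists_ext_val_C (Kc := Kc) hnt nC hnC w hw
        obtain ⟨g1', hg1', hg1⟩ := hGim W hWC (by rw [hW]; exact hwz) (by
          rw [hWC, hW]
          refine hπ.trans_le (pow_le_pow_left₀ zero_le ?_ e)
          rw [hwy]
          exact le_mul_of_one_le_right zero_le h1)
        obtain ⟨g1, hg1G, rfl⟩ := Finset.mem_image.1 hg1'
        have hg10 := hG0 g1 hg1G
        rw [← map_pow, ← map_mul, ← map_one (algebraMap K' Kc), ← map_sub, hW] at hg1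
        refine ⟨g / g1, div_ne_zero hg0 hg10, ?_⟩
        have h3 : h / (g / g1) ^ N = h / (h0 * g ^ N) * (h0 * g1 ^ N) := by
          have hgN : g ^ N ≠ 0 := pow_ne_zero _ hg0
          have hg1N : g1 ^ N ≠ 0 := pow_ne_zero _ hg10
          rw [div_pow]
          field_simp
        rw [h3]
        exact mul_unit w hg hg1
    · refine c1 (fun c => (hw c).le) ?_
      by_contra hcon
      push Not at hcon
      rw [hwy] at hwz
      exact absurd hwz (not_le.2 (mul_lt_one_of_lt_of_le hw1' hcon.le))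
  · -- places
    intro u hu
    by_cases hnt' : ∃ a : K', u a ≠ 0 ∧ u a ≠ 1
    swap
    · push Not at hnt'
      refine ⟨1, ?_⟩
      rw [map_one, one_pow]
      exact hnt' h ((Valuation.ne_zero_iff _).2 hh0)
    have hle1 : ∀ c : L, u (algebraMap L K' c) ≤ 1 := const_le u hu
    have hP : u y ≤ 1 → ∃ P : L[X], P ≠ 0 ∧ u (aeval y P) < 1 := by
      intro hy1
      by_contra hcon
      push Not at hcon
      have hP1 : ∀ P : L[X], P ≠ 0 → u (aeval y P) = 1 := by
        intro P hP
        refine le_antisymm ?_ (hcon P hP)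
        rw [aeval_eq_sum_range]
        refine Valuation.map_sum_le _ fun i _ => ?_
        rw [Algebra.smul_def, map_mul, map_pow]
        exact mul_le_one' (hle1 _) (pow_le_one' hy1 i)
      have halg : Algebra.IsAlgebraic L⟮y⟯ K' := Algebra.IsAlgebraic.of_finite _ _
      have htr : ∀ x : L⟮y⟯, x ≠ 0 → u (algebraMap L⟮y⟯ K' x) = 1 := by
        intro x hx
        obtain ⟨r, s, hrs⟩ := (IntermediateField.mem_adjoin_simple_iff L (x : K')).1 x.2
        have hx0 : (x : K') ≠ 0 := fun h => hx (Subtype.ext h)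
        have hr : r ≠ 0 := by
          rintro rfl
          rw [map_zero, zero_div] at hrs
          exact hx0 hrs
        have hs : s ≠ 0 := by
          rintro rfl
          rw [map_zero, div_zero] at hrs
          exact hx0 hrs
        change u (x : K') = 1
        rw [hrs, map_div₀, hP1 r hr, hP1 s hs, div_one]
      obtain ⟨a, ha0, ha1⟩ := hnt'
      exact ha1 (Unr9_957.trivial_of_trivial u htr a ((Valuation.ne_zero_iff _).1 ha0))
    obtain ⟨-, -, c3, c4⟩ := hh u
    rcases LemT_874.place_dich u hu hy0 hP with ⟨hy1, Q, hQ, hQ1, hQu⟩ | ⟨hy1, Q, hQ, hQ1, hQu⟩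
    · obtain ⟨g, hg0, hg⟩ := c3 hle1 hy1 ⟨Q, hQ, hQ1, hQu⟩
      have hgN : g ^ N ≠ 0 := pow_ne_zero _ hg0
      have h1 := val_of_sub_lt u hg
      rw [map_div₀, map_mul, map_pow] at h1
      have h2 : u h = u h0 * u g ^ N := by
        rw [div_eq_one_iff_eq] at h1
        · exact h1
        · exact mul_ne_zero ((Valuation.ne_zero_iff _).2 h00)
            (pow_ne_zero _ ((Valuation.ne_zero_iff _).2 hg0))
      -- the value of `h0`
      suffices hs : ∃ b : K', u h0 = u b ^ N by
        obtain ⟨b, hb⟩ := hs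
        refine ⟨b * g, ?_⟩
        rw [h2, hb, map_mul, mul_pow]
      obtain ⟨W, hW⟩ := exists_ext_val (K := Kc) u
      have hWC : ∀ c : C, c ≠ 0 → W (algebraMap C Kc c) = 1 := by
        intro c hc
        have := Unr9_957.trivial_of_trivial (F := L) (W.comap (algebraMap C Kc)) (fun x hx => by
          rw [Valuation.comap_apply, ← IsScalarTower.algebraMap_apply L C Kc,
            IsScalarTower.algebraMap_apply L K' Kc, hW, hu x hx]) c hc
        rwa [Valuation.comap_apply] at this
      obtain ⟨O, hO⟩ := exists_below nC W hWC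
      by_cases hWh : W (algebraMap K' Kc h0) = 1
      · refine ⟨1, ?_⟩
        rw [map_one, one_pow, ← hW]; exact hWh
      have hOz := hB W O hO hWh
      -- `1/y` is integral
      have hyc : algebraMap K' Kc y ≠ 0 := (_root_.map_ne_zero _).2 hy0
      have hOw : ∀ c : L, ‖c‖ ≤ 1 → O.valuation (algebraMap K' Kc (algebraMap L K' c)) ≤ 1 := by
        intro c hc
        rw [ValuationSubring.valuation_le_one_iff, ← IsScalarTower.algebraMap_apply L K' Kc,
          IsScalarTower.algebraMap_apply L C Kc]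
        exact hO.int _ (by rw [hnC]; exact_mod_cast hc)
      have hOy : O.valuation (algebraMap K' Kc y⁻¹) ≤ 1 := by
        by_contra hcon
        push Not at hcon
        have h3 : O.valuation (algebraMap K' Kc (aeval y⁻¹ Q)) < 1 := by
          refine hO.lt_one ?_
          rw [hW]; exact hQu
        have h4 : O.valuation (algebraMap K' Kc (aeval y⁻¹ Q)) =
            O.valuation (algebraMap K' Kc y⁻¹) ^ Q.natDegree := by
          rw [aeval_eq_sum_range, Finset.sum_range_succ, hQ.coeff_natDegree, one_smul, map_add,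
            map_sum]
          have h5 : O.valuation (∑ i ∈ Finset.range Q.natDegree,
              algebraMap K' Kc (Q.coeff i • y⁻¹ ^ i)) <
              O.valuation (algebraMap K' Kc (y⁻¹ ^ Q.natDegree)) := by
            refine Valuation.map_sum_lt _ ?_ fun i hi => ?_
            · rw [map_pow, map_pow]
              exact pow_ne_zero _ (zero_lt_one.trans hcon).ne'
            · rw [Algebra.smul_def, map_mul, map_mul, map_pow, map_pow, map_pow, map_pow]
              calc O.valuation (algebraMap K' Kc (algebraMap L K' (Q.coeff i))) *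
                    O.valuation (algebraMap K' Kc y⁻¹) ^ i
                  ≤ 1 * O.valuation (algebraMap K' Kc y⁻¹) ^ i :=
                    mul_le_mul_left (hOw _ (hQ1 i)) _
                _ = O.valuation (algebraMap K' Kc y⁻¹) ^ i := one_mul _
                _ < O.valuation (algebraMap K' Kc y⁻¹) ^ Q.natDegree :=
                  pow_lt_pow_right₀ hcon (Finset.mem_range.1 hi)
          rw [Valuation.map_add_eq_of_lt_right _ h5, map_pow, map_pow]
        rw [h4] at h3
        exact absurd h3 (not_lt.2 (one_le_pow₀ hcon.le))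
      have hOπ : O.valuation (algebraMap C Kc π / algebraMap K' Kc z ^ e) < 1 := by
        have h3 : algebraMap C Kc π / algebraMap K' Kc z ^ e =
            algebraMap C Kc (π / algebraMap L C w0 ^ e) * algebraMap K' Kc y⁻¹ ^ e := by
          have h5 : algebraMap L Kc w0 ≠ 0 := (_root_.map_ne_zero _).2 hw0
          rw [hyz, map_mul, mul_pow, map_div₀, map_pow, map_inv₀,
            ← IsScalarTower.algebraMap_apply L C Kc, ← IsScalarTower.algebraMap_apply L K' Kc,
            inv_pow]
          field_simp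
        rw [h3, map_mul, map_pow]
        refine mul_lt_one_of_lt_of_le (hO.small _ ?_) (pow_le_one' hOy e)
        rw [map_div₀, map_pow, hnC, div_lt_one₀ (pow_pos hnw0 e)]
        exact hπ
      obtain ⟨g1, hg1G, hg1⟩ := hG O hO.int hOz hOπ
      have hx1 := val_of_sub_lt _ hg1
      set x : Kc := algebraMap K' Kc h0 * algebraMap K' Kc g1 ^ N with hx
      have hx0 : x ≠ 0 := by
        intro h
        rw [h, map_zero] at hx1
        exact zero_ne_one hx1
      have hWx : W x = 1 := by
        have h3 := hO.le x ((ValuationSubring.valuation_le_one_iff _ _).1 hx1.le)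
        have h4 := hO.le x⁻¹ ((ValuationSubring.valuation_le_one_iff _ _).1 (by
          rw [map_inv₀, hx1, inv_one]))
        rw [map_inv₀] at h4
        exact le_antisymm h3 ((inv_le_one₀ (pos_iff_ne_zero.2 ((Valuation.ne_zero_iff _).2 hx0))).1 h4)
      rw [hx, ← map_pow, ← map_mul, hW, map_mul, map_pow] at hWx
      refine ⟨g1⁻¹, ?_⟩
      rw [map_inv₀, inv_pow]
      exact eq_inv_of_mul_eq_one_left hWx
    · obtain ⟨g, hg0, hg⟩ := c4 hle1 hy1 ⟨Q, hQ, hQ1, hQu⟩
      have h1 := val_of_sub_lt u hg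
      rw [one_mul, map_div₀, map_pow] at h1
      refine ⟨g, ?_⟩
      rw [div_eq_one_iff_eq] at h1
      · exact h1
      · exact pow_ne_zero _ ((Valuation.ne_zero_iff _).2 hg0)

end stage2

end Crest.Agent.R013.LiftF_168
end

-- ▼ part R013/LiftK_168
section

/-!
# R013 / LiftK (helper168): auxiliary results for the assembly of LIFT-L

* `isG_ext` : a Gauss norm stays a Gauss norm over algebraic constants;
* `kummer` : `E = F(y)`, `y ^ N ∈ F`, `μ_N ⊂ F`, `N = p ^ n`: `E/F` is Galois of `p`-power degree;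
* `resRat_of_dense` : density of `C(t)` gives `ResRat`;
* levels `M C` inside `Ω`: finiteness over `C(z)`.
-/

set_option autoImplicit false
set_option linter.style.haveILetI false

namespace Crest.Agent.R013.LiftK_168

open Polynomial IsLocalRing Module IntermediateField
open scoped NNReal
open Crest.Agent.R013.LiftA_168 Crest.Agent.R013.ResP_168 Crest.Agent.R013.NP_168

section gauss

variable {k C K : Type*} [Field k] [Field C] [Field K] [Algebra k C] [Algebra C K] [Algebra k K]
  [IsScalarTower k C K] {v0 : Valuation k ℝ≥0} {nC : Valuation C ℝ≥0} {v : Valuation K ℝ≥0} {t : K}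

/-- **A Gauss norm stays a Gauss norm over algebraic constants.** -/
theorem isG_ext [Algebra.IsAlgebraic k C] (hn : ∀ c : k, nC (algebraMap k C c) = v0 c)
    (hv : IsG v0 v t) (hvC : ∀ c : C, v (algebraMap C K c) = nC c) : IsG nC v t := by
  refine isG_of_unit hvC hv.le fun f hf hf1 => ?_
  by_contra hlt
  push Not at hlt
  have i1 : v0.HasExtension nC := hasExt hn
  have i2 : nC.HasExtension v := hasExt hvC
  have i3 : v0.HasExtension v := hasExt hv.ext
  have h1 : IsAlgebraic (RF nC) (residue v.valuationSubring ⟨t, hv.le⟩) :=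
    (isAlgebraic_residue_iff (v0 := nC) (w := v) ⟨t, hv.le⟩).2 ⟨f, hf, hf1, hlt⟩
  have h2 : Algebra.IsAlgebraic (RF v0) (RF nC) := by
    refine ⟨fun c => ?_⟩
    obtain ⟨x, rfl⟩ := residue_surjective c
    refine (isAlgebraic_residue_iff (v0 := v0) (w := nC) x).2 ?_
    obtain ⟨P, hP, hPx⟩ := Algebra.IsAlgebraic.isAlgebraic (R := k) (x : C)
    obtain ⟨j, hj, -⟩ := exists_max_coeff v0 P
    have hj0 : v0 (P.coeff j) ≠ 0 := by
      intro h0
      apply hP
      ext i
      have := hj i
      rw [h0, le_zero_iff, map_eq_zero] at this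
      simpa using this
    have hj0' : P.coeff j ≠ 0 := (Valuation.ne_zero_iff _).1 hj0
    refine ⟨Polynomial.C (P.coeff j)⁻¹ * P, fun i => ?_, ⟨j, ?_⟩, ?_⟩
    · rw [coeff_C_mul, map_mul, map_inv₀, inv_mul_le_one₀ (pos_iff_ne_zero.2 hj0)]
      exact hj i
    · rw [coeff_C_mul, inv_mul_cancel₀ hj0', map_one]
    · rw [map_mul, hPx, mul_zero, map_zero]
      exact zero_lt_one
  have i4 : IsScalarTower (RF v0) (RF nC) (RF v) := IsScalarTower.of_algebraMap_eq fun c => by
    obtain ⟨x, rfl⟩ := residue_surjective c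
    change residue v.valuationSubring ⟨algebraMap k K x, _⟩ =
      residue v.valuationSubring ⟨algebraMap C K (algebraMap k C x), _⟩
    congr 1
    exact Subtype.ext (IsScalarTower.algebraMap_apply k C K _)
  have h3 : IsAlgebraic (RF v0) (residue v.valuationSubring ⟨t, hv.le⟩) :=
    IsAlgebraic.restrictScalars (RF v0) h1
  obtain ⟨g, hg, ⟨i, hi⟩, hg1⟩ := (isAlgebraic_residue_iff (v0 := v0) ⟨t, hv.le⟩).1 h3
  have h5 := hv.coeff_le g i
  rw [hi] at h5
  exact absurd hg1 (not_lt.2 h5)


end gauss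

section kummer

variable {F E : Type*} [Field F] [Field E] [Algebra F E]

/-- **Kummer.** -/
theorem kummer [CharZero F] {N : ℕ} (hN : N ≠ 0) {ζ : F} (hζ : IsPrimitiveRoot ζ N) {y : E}
    {a : F} (hy : y ^ N = algebraMap F E a) (htop : F⟮y⟯ = ⊤) :
    FiniteDimensional F E ∧ IsGalois F E ∧ ∀ σ : E ≃ₐ[F] E, σ ^ N = 1 := by
  have hζE : IsPrimitiveRoot (algebraMap F E ζ) N := hζ.map_of_injective (algebraMap F E).injective
  by_cases hy0 : y = 0
  · -- trivial case
    have hbot : (⊤ : IntermediateField F E) = ⊥ := by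
      rw [← htop, hy0, adjoin_zero]
    have h1 : Function.Surjective (algebraMap F E) := fun x => by
      have hx : x ∈ (⊥ : IntermediateField F E) := by rw [← hbot]; exact mem_top
      exact mem_bot.1 hx
    have hfd : FiniteDimensional F E := Module.Finite.of_surjective (Algebra.linearMap F E) h1
    have hσ : ∀ σ : E ≃ₐ[F] E, σ = 1 := fun σ => by
      ext x
      obtain ⟨c, rfl⟩ := h1 x
      rw [AlgEquiv.commutes]; rfl
    refine ⟨hfd, ?_, fun σ => by rw [hσ σ, one_pow]⟩
    have := charZero_of_injective_algebraMap (algebraMap F E).injective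
    have : Normal F E := by
      refine Normal.of_algEquiv (F := F) (E := F) ?_
      exact AlgEquiv.ofBijective (Algebra.ofId F E) ⟨(algebraMap F E).injective, h1⟩
    exact ⟨⟩
  have hsplit : (X ^ N - Polynomial.C a : F[X]).IsSplittingField F E := by
    constructor
    · rw [Polynomial.map_sub, Polynomial.map_pow, map_X, map_C]
      exact X_pow_sub_C_splits_of_isPrimitiveRoot hζE hy
    · rw [eq_top_iff, ← IntermediateField.top_toSubalgebra, ← htop,
        adjoin_simple_toSubalgebra_of_isAlgebraic]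
      · apply Algebra.adjoin_mono
        rw [Set.singleton_subset_iff, mem_rootSet_of_ne (X_pow_sub_C_ne_zero
          (Nat.pos_of_ne_zero hN) a), map_sub, map_pow, aeval_X, aeval_C, hy, sub_self]
      · exact ⟨X ^ N - Polynomial.C a, (monic_X_pow_sub_C _ hN).ne_zero, by
          rw [map_sub, map_pow, aeval_X, aeval_C, hy, sub_self]⟩
  have ha : a ≠ 0 := by
    rintro rfl
    rw [map_zero] at hy
    exact hy0 (pow_eq_zero_iff hN |>.1 hy)
  have hsep : (X ^ N - Polynomial.C a : F[X]).Separable :=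
    separable_X_pow_sub_C a (Nat.cast_ne_zero.2 hN) ha
  have hfd : FiniteDimensional F E := Polynomial.IsSplittingField.finiteDimensional E
    (X ^ N - Polynomial.C a : F[X])
  have hgal : IsGalois F E := IsGalois.of_separable_splitting_field (p := X ^ N - Polynomial.C a) hsep
  refine ⟨hfd, hgal, fun σ => ?_⟩
  -- `σ y = ζ ^ i y`
  have h1 : (σ y / y) ^ N = 1 := by
    rw [div_pow, ← map_pow, hy, AlgEquiv.commutes, div_self]
    exact (_root_.map_ne_zero _).2 ha
  have : NeZero N := ⟨hN⟩
  obtain ⟨i, -, hi⟩ := hζE.eq_pow_of_pow_eq_one h1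
  have h2 : σ y = algebraMap F E (ζ ^ i) * y := by
    rw [map_pow, hi, div_mul_cancel₀ _ hy0]
  have h3 : ∀ j : ℕ, (σ ^ j) y = algebraMap F E (ζ ^ i) ^ j * y := by
    intro j
    induction j with
    | zero => simp
    | succ j ih =>
      rw [pow_succ', AlgEquiv.mul_apply, ih, map_mul, map_pow, AlgEquiv.commutes, h2, pow_succ]
      ring
  have h4 : (σ ^ N) y = y := by
    rw [h3, ← map_pow, ← pow_mul, mul_comm i N, pow_mul, hζ.pow_eq_one, one_pow, map_one, one_mul]
  have h5 : ∀ x : E, (σ ^ N) x = x := by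
    intro x
    have hx : x ∈ F⟮y⟯ := by rw [htop]; exact mem_top
    have hle : F⟮y⟯ ≤ IntermediateField.fixedField (Subgroup.zpowers (σ ^ N)) := by
      rw [adjoin_simple_le_iff]
      rintro ⟨τ, hτ⟩
      obtain ⟨j, rfl⟩ := Subgroup.mem_zpowers_iff.1 hτ
      have h6 : σ ^ N ∈ MulAction.stabilizer (E ≃ₐ[F] E) y := h4
      exact (MulAction.stabilizer (E ≃ₐ[F] E) y).zpow_mem h6 j
    exact hle hx ⟨σ ^ N, Subgroup.mem_zpowers _⟩
  ext x
  exact h5 x


end kummer

section levels

variable {k K Ω : Type*} [Field k] [Field K] [Field Ω] [Algebra k K] [Algebra k Ω] [Algebra K Ω]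
  [IsScalarTower k K Ω]

/-- `C` inside a level `U` -/
@[reducible] def algCU (C : IntermediateField k Ω) (U : IntermediateField K Ω)
    (h : ∀ c ∈ C, c ∈ U) : Algebra C U :=
  RingHom.toAlgebra
    { toFun := fun c => ⟨c, h c c.2⟩
      map_one' := rfl
      map_mul' := fun _ _ => rfl
      map_zero' := rfl
      map_add' := fun _ _ => rfl }

/-- a subfield containing `M` and `C` contains `M C` -/
theorem mem_of_mem_sup (M : IntermediateField K Ω) (S : Set Ω) (T : Subfield Ω)
    (hM : ∀ a ∈ M, a ∈ T) (hS : ∀ a ∈ S, a ∈ T) {a : Ω}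
    (ha : a ∈ M ⊔ IntermediateField.adjoin K S) : a ∈ T := by
  let T' : IntermediateField K Ω := T.toIntermediateField fun x => hM _ (M.algebraMap_mem x)
  have h1 : M ⊔ IntermediateField.adjoin K S ≤ T' :=
    sup_le (fun a ha => hM a ha) (IntermediateField.adjoin_le_iff.2 fun a ha => hS a ha)
  exact h1 ha

variable [Algebra (RatFunc k) K] [IsScalarTower k (RatFunc k) K] [FiniteDimensional (RatFunc k) K]

/-- **Finiteness of the levels over `C(z)`.** -/
theorem fd_level (M : IntermediateField K Ω) [FiniteDimensional K M] (C : IntermediateField k Ω)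
    [Algebra.IsAlgebraic k C] [Algebra.IsAlgebraic K Ω] (U : IntermediateField K Ω)
    (hU : U = M ⊔ IntermediateField.adjoin K (C : Set Ω)) (hCU : ∀ c ∈ C, c ∈ U) :
    letI := algCU C U hCU
    ∀ z : U, Transcendental C z → FiniteDimensional (IntermediateField.adjoin C {z}) U := by
  letI := algCU C U hCU
  classical
  have hMU : M ≤ U := by rw [hU]; exact le_sup_left
  -- the coordinate `x`
  set x0 : K := algebraMap (RatFunc k) K RatFunc.X with hx0
  set x : U := algebraMap K U x0 with hx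
  have hx0t : Transcendental k x0 := by
    intro h
    exact RatFunc.transcendental_X
      ((isAlgebraic_algebraMap_iff (algebraMap (RatFunc k) K).injective).mp h)
  have hkC : ∀ c : k, algebraMap C U (algebraMap k C c) = algebraMap K U (algebraMap k K c) := by
    intro c
    apply Subtype.ext
    change algebraMap k Ω c = algebraMap K Ω (algebraMap k K c)
    exact IsScalarTower.algebraMap_apply k K Ω c
  have hxt : Transcendental C x := by
    intro h
    apply hx0t
    letI : Algebra k U := (algebraMap k Ω).codRestrict U (fun c => by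
      rw [IsScalarTower.algebraMap_apply k K Ω]; exact U.algebraMap_mem _) |>.toAlgebra
    have : IsScalarTower k C U := IsScalarTower.of_algebraMap_eq fun c => rfl
    have : IsScalarTower k K U := IsScalarTower.of_algebraMap_eq fun c =>
      Subtype.ext (IsScalarTower.algebraMap_apply k K Ω c)
    have h1 : IsAlgebraic k x := IsAlgebraic.restrictScalars k h
    exact (isAlgebraic_algebraMap_iff (algebraMap K U).injective).1 h1
  -- `RatFunc k → C(x)`
  let Fx : IntermediateField C U := IntermediateField.adjoin C {x}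
  have hpoly : ∀ f : k[X], algebraMap K U (algebraMap (RatFunc k) K (algebraMap k[X] (RatFunc k) f)) ∈ Fx := by
    intro f
    induction f using Polynomial.induction_on' with
    | add p q hp hq =>
      rw [map_add, map_add, map_add]
      exact add_mem hp hq
    | monomial n c =>
      rw [← Polynomial.C_mul_X_pow_eq_monomial, map_mul, map_pow, RatFunc.algebraMap_C,
        RatFunc.algebraMap_X, map_mul, map_mul, map_pow, map_pow]
      refine mul_mem ?_ (pow_mem (mem_adjoin_simple_self C x) n)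
      have h1 : algebraMap (RatFunc k) K (RatFunc.C c) = algebraMap k K c := by
        rw [← RatFunc.algebraMap_eq_C, ← IsScalarTower.algebraMap_apply]
      rw [h1, ← hkC]
      exact Fx.algebraMap_mem _
  have hrat : ∀ r : RatFunc k, algebraMap K U (algebraMap (RatFunc k) K r) ∈ Fx := by
    intro r
    rw [← RatFunc.num_div_denom r, map_div₀, map_div₀]
    exact div_mem (hpoly _) (hpoly _)
  -- finite over `C(x)`
  have hfdx : FiniteDimensional Fx U := by
    letI i0 : Algebra (RatFunc k) Ω := ((algebraMap K Ω).comp (algebraMap (RatFunc k) K)).toAlgebra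
    have i0' : IsScalarTower (RatFunc k) K Ω := IsScalarTower.of_algebraMap_eq fun r => rfl
    have i1 : FiniteDimensional (RatFunc k) M := FiniteDimensional.trans (RatFunc k) K M
    let b := Module.finBasis (RatFunc k) M
    let S : Set U := Set.range fun i => (⟨b i, hMU (b i).2⟩ : U)
    -- everything is algebraic over `Fx`
    let ψ : RatFunc k →+* Fx := ((algebraMap K U).comp (algebraMap (RatFunc k) K)).codRestrict Fx hrat
    letI : Algebra (RatFunc k) Fx := ψ.toAlgebra
    have i2 : IsScalarTower (RatFunc k) Fx U := IsScalarTower.of_algebraMap_eq fun r => rfl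
    have i3 : Algebra.IsAlgebraic K U := inferInstance
    have i4 : Algebra.IsAlgebraic (RatFunc k) K := Algebra.IsAlgebraic.of_finite _ _
    have i5 : Algebra.IsAlgebraic (RatFunc k) U := Algebra.IsAlgebraic.trans (RatFunc k) K U
    have hfin : FiniteDimensional Fx (IntermediateField.adjoin Fx S) := by
      have : Finite S := Set.finite_range _
      refine IntermediateField.finiteDimensional_adjoin fun a _ => ?_
      exact ((i5.isAlgebraic a).extendScalars (algebraMap (RatFunc k) Fx).injective).isIntegral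
    have htop : IntermediateField.adjoin Fx S = ⊤ := by
      rw [eq_top_iff]
      rintro ⟨a, ha⟩ -
      set T : Subfield Ω := (IntermediateField.adjoin Fx S).toSubfield.map (U.val : U →+* Ω) with hT
      have hmem : ∀ u : U, (u : Ω) ∈ T ↔ u ∈ IntermediateField.adjoin Fx S := by
        intro u
        rw [hT, Subfield.mem_map]
        constructor
        · rintro ⟨u', hu', h⟩
          have : u' = u := Subtype.ext h
          rw [← this]; exact hu'
        · intro h
          exact ⟨u, h, rfl⟩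
      have hra : ∀ r : RatFunc k, algebraMap K U (algebraMap (RatFunc k) K r) ∈
          IntermediateField.adjoin Fx S := by
        intro r
        exact (IntermediateField.adjoin Fx S).algebraMap_mem (⟨_, hrat r⟩ : Fx)
      have hMT : ∀ m ∈ M, m ∈ T := by
        intro m hm
        have h1 : (⟨m, hm⟩ : M) = ∑ i, b.repr ⟨m, hm⟩ i • b i := (b.sum_repr _).symm
        have h2 : m = ∑ i, ((b.repr ⟨m, hm⟩ i • b i : M) : Ω) := by
          have h3 := congrArg (Subtype.val : M → Ω) h1
          rw [AddSubmonoidClass.coe_finsetSum] at h3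
          exact h3
        rw [h2]
        refine sum_mem fun i _ => ?_
        have h3 : ((b.repr ⟨m, hm⟩ i • b i : M) : Ω) =
            ((algebraMap K U (algebraMap (RatFunc k) K (b.repr ⟨m, hm⟩ i)) * ⟨b i, hMU (b i).2⟩ : U) : Ω) := by
          rw [Algebra.smul_def]
          rfl
        rw [h3, hmem]
        exact mul_mem (hra _) (IntermediateField.subset_adjoin _ _ ⟨i, rfl⟩)
      have hCT : ∀ c ∈ (C : Set Ω), c ∈ T := by
        intro c hc
        have h1 : c = ((algebraMap C U ⟨c, hc⟩ : U) : Ω) := rfl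
        rw [h1, hmem]
        exact (IntermediateField.adjoin Fx S).algebraMap_mem (algebraMap C Fx ⟨c, hc⟩)
      have h1 : a ∈ T := mem_of_mem_sup M (C : Set Ω) T hMT hCT (by rw [← hU]; exact ha)
      exact (hmem ⟨a, ha⟩).1 h1
    rw [htop] at hfin
    exact Module.Finite.equiv (IntermediateField.topEquiv (F := Fx) (E := U)).toLinearEquiv
  letI : Algebra (RatFunc C) U := RR20_948.ratAlg x hxt
  have : IsScalarTower C (RatFunc C) U := RR20_948.ratAlg_tower x hxt
  have : FiniteDimensional (RatFunc C) U := by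
    have := hfdx
    exact LiftF_168.finite_ratAlg x hxt
  intro z hz
  exact CLiftN_903.fd_adjoin z hz

end levels

end Crest.Agent.R013.LiftK_168
end

-- ▼ part R013/LiftL_168
section

/-!
# R013 / LiftL (helper168): LIFT-L

`lv M C = M C` inside `Ω`.  From the vertex data of `GOOD` (a norm `v`, Gauss for `t` over the
constants `C`, `C(t)` dense in `L`, `M = L(y)`, `y ^ (p ^ n) ∈ L`, and an Artin-Schreier function
`z ∈ M`, `v (z ^ p - z - t ^ m) < 1`) and a prime `l ∣ m`: a finite extension `C1` of the constants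
and `h ∈ M C1` with
* `l ∣ div h` on `M C1`;
* `h` is an `l`-th power up to `1`-units at every norm `w` with `w t > 1`;
* `h` is not an `l`-th power up to `1`-units at `v`, over any algebraic extension of the constants.
-/

set_option autoImplicit false
set_option linter.style.haveILetI false
set_option linter.unusedSectionVars false

namespace Crest.Agent.R013.LiftL_168

open Polynomial Module IntermediateField
open scoped NNReal
open Crest.NumberTheoryR.Sect
open Crest.Agent.R013.LiftA_168 Crest.Agent.R013.LiftK_168 Crest.Agent.R013.SE_669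
  Crest.Agent.R013.CGood_588

section levels

variable {k K Ω : Type*} [Field k] [Field K] [Field Ω] [Algebra k K] [Algebra k Ω] [Algebra K Ω]
  [IsScalarTower k K Ω]

/-- the level `M C` -/
def lv (M : IntermediateField K Ω) (C : IntermediateField k Ω) : IntermediateField K Ω :=
  M ⊔ IntermediateField.adjoin K (C : Set Ω)

theorem le_lv (M : IntermediateField K Ω) (C : IntermediateField k Ω) : M ≤ lv M C := le_sup_left

theorem mem_lv {M : IntermediateField K Ω} {C : IntermediateField k Ω} {c : Ω} (hc : c ∈ C) :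
    c ∈ lv M C :=
  (le_sup_right : IntermediateField.adjoin K (C : Set Ω) ≤ lv M C)
    (IntermediateField.subset_adjoin _ _ hc)

theorem lv_mono {M M' : IntermediateField K Ω} {C C' : IntermediateField k Ω} (hM : M ≤ M')
    (hC : C ≤ C') : lv M C ≤ lv M' C' :=
  sup_le_sup hM (IntermediateField.adjoin.mono _ _ _ hC)

theorem lv_le_iff {M U : IntermediateField K Ω} {C : IntermediateField k Ω} :
    lv M C ≤ U ↔ M ≤ U ∧ ∀ c ∈ C, c ∈ U := by
  rw [lv, sup_le_iff, IntermediateField.adjoin_le_iff]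
  rfl

/-- every element of `M C` lies in `M C'` with `C'` finitely generated -/
theorem exists_lv {M : IntermediateField K Ω} {C : IntermediateField k Ω}
    [Algebra.IsAlgebraic k C] {f : Ω} (hf : f ∈ lv M C) :
    ∃ C' : IntermediateField k Ω, C' ≤ C ∧ FiniteDimensional k C' ∧ f ∈ lv M C' := by
  classical
  have h1 : lv M C = IntermediateField.adjoin K ((M : Set Ω) ∪ C) := by
    rw [lv, IntermediateField.adjoin_union, IntermediateField.adjoin_self]
  rw [h1] at hf
  obtain ⟨T, hT, hfT⟩ := IntermediateField.exists_finset_of_mem_adjoin hf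
  let S : Set Ω := {x | x ∈ T ∧ x ∈ C}
  have hS : S.Finite := (Finset.finite_toSet T).subset fun x hx => hx.1
  haveI := hS.to_subtype
  refine ⟨IntermediateField.adjoin k S, IntermediateField.adjoin_le_iff.2 fun x hx => hx.2,
    IntermediateField.finiteDimensional_adjoin fun x hx => ?_, ?_⟩
  · have h2 : IsIntegral k (⟨x, hx.2⟩ : C) := Algebra.IsIntegral.isIntegral _
    exact h2.map C.val
  have h2 : IntermediateField.adjoin K (T : Set Ω) ≤ lv M (IntermediateField.adjoin k S) := by
    rw [IntermediateField.adjoin_le_iff]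
    intro x hx
    rcases hT hx with h | h
    · exact le_lv _ _ h
    · exact mem_lv (IntermediateField.subset_adjoin _ _ ⟨hx, h⟩)
  exact h2 hfT

/-- the same for finitely many elements -/
theorem exists_lv_finset {M : IntermediateField K Ω} {C : IntermediateField k Ω}
    [Algebra.IsAlgebraic k C] (F : Finset Ω) (hF : ∀ f ∈ F, f ∈ lv M C) :
    ∃ C' : IntermediateField k Ω, C' ≤ C ∧ FiniteDimensional k C' ∧ ∀ f ∈ F, f ∈ lv M C' := by
  classical
  induction F using Finset.induction_on with
  | empty => exact ⟨⊥, bot_le, inferInstance, fun f hf => absurd hf (Finset.notMem_empty f)⟩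
  | insert a F ha ih =>
    obtain ⟨C1, h1, h2, h3⟩ := ih fun f hf => hF f (Finset.mem_insert_of_mem hf)
    obtain ⟨C2, h4, h5, h6⟩ := exists_lv (hF a (Finset.mem_insert_self a F))
    refine ⟨C1 ⊔ C2, sup_le h1 h4, IntermediateField.finiteDimensional_sup _ _, fun f hf => ?_⟩
    rcases Finset.mem_insert.1 hf with rfl | hf
    · exact lv_mono le_rfl le_sup_right h6
    · exact lv_mono le_rfl le_sup_left (h3 f hf)

theorem coe_aeval (C : IntermediateField k Ω) (U : IntermediateField K Ω) (h : ∀ c ∈ C, c ∈ U)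
    (x : U) (f : C[X]) : letI := algCU C U h; ((aeval x f : U) : Ω) = aeval (x : Ω) f := by
  letI := algCU C U h
  rw [aeval_def, aeval_def]
  exact hom_eval₂ f (algebraMap C U) (U.val : U →+* Ω) x

/-- restriction of a Gauss norm to a level -/
theorem isG_restrict {C : IntermediateField k Ω} {U : IntermediateField K Ω} (h : ∀ c ∈ C, c ∈ U)
    {n : Valuation C ℝ≥0} {v : Valuation Ω ℝ≥0} {t : Ω} (hv : IsG n v t) (ht : t ∈ U) :
    letI := algCU C U h; IsG n (v.comap (algebraMap U Ω)) (⟨t, ht⟩ : U) := by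
  letI := algCU C U h
  refine ⟨fun c => hv.ext c, hv.le, fun f i => ?_⟩
  rw [Valuation.comap_apply]
  change _ ≤ v ((aeval (⟨t, ht⟩ : U) f : U) : Ω)
  rw [coe_aeval]
  exact hv.coeff_le f i

end levels

section consts

variable {p : ℕ} [hp : Fact p.Prime] {k : Type*} [Field k] [Algebra ℚ_[p] k]
  {Ω : Type*} [Field Ω] [Algebra k Ω] {v w : Valuation Ω ℝ≥0}

/-- the norm of the constants -/
noncomputable abbrev nv (v : Valuation Ω ℝ≥0) (C : IntermediateField k Ω) : Valuation C ℝ≥0 :=
  v.comap (algebraMap C Ω)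

/-- all norms agree on the algebraic constants -/
theorem cst_unique [FiniteDimensional ℚ_[p] k] (hv : ExtendsPadicNorm k Ω p v)
    (hw : ExtendsPadicNorm k Ω p w) (c : Ω) (hc : c ∈ algebraicClosure k Ω) : w c = v c := by
  letI : Algebra ℚ_[p] (algebraicClosure k Ω) := Set_803.algQ p (algebraicClosure k Ω)
  haveI : IsScalarTower ℚ_[p] k (algebraicClosure k Ω) := IsScalarTower.of_algebraMap_eq fun _ => rfl
  haveI : Algebra.IsAlgebraic ℚ_[p] k := Algebra.IsAlgebraic.of_finite _ _
  haveI : Algebra.IsAlgebraic ℚ_[p] (algebraicClosure k Ω) := Algebra.IsAlgebraic.trans ℚ_[p] k _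
  have h := RZ_365.ext_unique (k := ℚ_[p]) (C := algebraicClosure k Ω)
    (n1 := nv w (algebraicClosure k Ω)) (n2 := nv v (algebraicClosure k Ω))
    ⟨(p : ℚ_[p]), by
      exact_mod_cast hp.out.ne_zero, by
      rw [Padic.norm_p]
      exact inv_lt_one_of_one_lt₀ (by exact_mod_cast hp.out.one_lt)⟩
    (fun q => hw q) (fun q => hv q)
  exact congrFun (congrArg (fun (n : Valuation (algebraicClosure k Ω) ℝ≥0) => (n : _ → ℝ≥0)) h)
    ⟨c, hc⟩

theorem natCast_val (hv : ExtendsPadicNorm k Ω p v) (l : ℕ) : v (l : Ω) = ‖(l : ℚ_[p])‖₊ := by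
  have h1 := hv (l : ℚ_[p])
  rwa [map_natCast, map_natCast] at h1

/-- the Gauss norm of `GOOD` in the form `IsG` -/
theorem isG_of_gaussAt {C : IntermediateField k Ω} {t : Ω} (hG : GaussAt C t v) :
    IsG (nv v C) v t := by
  refine ⟨fun c => rfl, (Set_803.gaussAt_norm hG).le, fun f i => ?_⟩
  rw [← Set_803.psum_eq_aeval f t (max f.natDegree i + 1) (by omega),
    hG _ _ (fun i => (f.coeff i : C).2)]
  exact Finset.le_sup (f := fun i => v ((f.coeff i : C) : Ω))
      (s := Finset.range (max f.natDegree i + 1)) (b := i) (by simp)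

/-- over all algebraic constants -/
theorem isG_closure {C : IntermediateField k Ω} (hC : C ≤ algebraicClosure k Ω) {t : Ω}
    (hG : GaussAt C t v) : IsG (nv v (algebraicClosure k Ω)) v t := by
  letI : Algebra C (algebraicClosure k Ω) := (IntermediateField.inclusion hC).toRingHom.toAlgebra
  haveI : IsScalarTower C (algebraicClosure k Ω) Ω := IsScalarTower.of_algebraMap_eq fun _ => rfl
  haveI : IsScalarTower k C (algebraicClosure k Ω) := IsScalarTower.of_algebraMap_eq fun _ => rfl
  haveI : Algebra.IsAlgebraic C (algebraicClosure k Ω) := Algebra.IsAlgebraic.tower_top (K := k) C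
  exact isG_ext (k := C) (C := algebraicClosure k Ω) (fun c => rfl) (isG_of_gaussAt hG)
    (fun c => rfl)

end consts

section vertex

variable {k K Ω : Type*} [Field k] [Field K] [Field Ω] [Algebra k K] [Algebra k Ω] [Algebra K Ω]
  [IsScalarTower k K Ω] {v : Valuation Ω ℝ≥0}



end vertex

section main

theorem close_of_unit {F : Type*} [Field F] {w : Valuation F ℝ≥0} {h g : F} (hg : g ≠ 0)
    (h1 : w (h / g - 1) < 1) : w (h - g) < w h := by
  have h2 := LiftF_168.val_of_sub_lt w h1
  have hwg : w g ≠ 0 := (Valuation.ne_zero_iff _).2 hg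
  rw [map_div₀, div_eq_one_iff_eq hwg] at h2
  rw [h2]
  have h3 : h - g = (h / g - 1) * g := by
    rw [sub_mul, div_mul_cancel₀ _ hg, one_mul]
  rw [h3, map_mul]
  calc w (h / g - 1) * w g < 1 * w g := mul_lt_mul_of_pos_right h1 (pos_iff_ne_zero.2 hwg)
    _ = w g := one_mul _

universe u

variable {p : ℕ} [hp : Fact p.Prime] {k : Type*} [Field k] [CharZero k] [Algebra ℚ_[p] k]
  [FiniteDimensional ℚ_[p] k] {K : Type*} [Field K] [Algebra k K] [Algebra (RatFunc k) K]
  [IsScalarTower k (RatFunc k) K] [FiniteDimensional (RatFunc k) K]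
  {Ω : Type u} [Field Ω] [Algebra k Ω] [Algebra K Ω] [IsScalarTower k K Ω] [IsAlgClosed Ω]
  [Algebra.IsAlgebraic K Ω]

/-- the finite level: from the output of `LiftB_168.stage1` over `D` to the function `h` -/
theorem finite_part {v : Valuation Ω ℝ≥0} (hv : ExtendsPadicNorm k Ω p v)
    {M : IntermediateField K Ω} [FiniteDimensional K M] {D : IntermediateField k Ω}
    [Algebra.IsAlgebraic k D] {C2 : IntermediateField k Ω} [FiniteDimensional k C2] (hC2D : C2 ≤ D)
    {l : ℕ} (hpl : p.Coprime l) {h0 zc w0 : Ω} (hh0U : h0 ∈ lv M C2) (hzcU : zc ∈ lv M C2)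
    (hw0C2 : w0 ∈ C2) (h00 : h0 ≠ 0) (hzct : Transcendental C2 (zc : Ω)) {e : ℕ} (hw00 : w0 ≠ 0)
    (hw01 : v w0 < 1) (hw0e : v (p : Ω) < v w0 ^ e) (G : Finset (lv M C2)) (hG0 : ∀ g ∈ G, g ≠ 0)
    (hGG : letI := algCU D (lv M D) fun _ hc => mem_lv hc
      ∀ O : ValuationSubring (lv M D), (∀ c, nv v D c ≤ 1 → algebraMap D (lv M D) c ∈ O) →
        O.valuation ⟨zc, lv_mono le_rfl hC2D hzcU⟩ < 1 →
        O.valuation (algebraMap D (lv M D) (p : D) / ⟨zc, lv_mono le_rfl hC2D hzcU⟩ ^ e) < 1 →
        ∃ g ∈ G, O.valuation (⟨h0, lv_mono le_rfl hC2D hh0U⟩ *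
          ⟨(g : Ω), lv_mono le_rfl hC2D g.2⟩ ^ l - 1) < 1)
    (hBB : letI := algCU D (lv M D) fun _ hc => mem_lv hc
      ∀ (u : Valuation (lv M D) ℝ≥0) (O : ValuationSubring (lv M D)),
        LiftB_168.Below (nv v D) u O → u ⟨h0, lv_mono le_rfl hC2D hh0U⟩ ≠ 1 →
        O.valuation ⟨zc, lv_mono le_rfl hC2D hzcU⟩ < 1) :
    ∃ h : lv M C2, h ≠ 0 ∧
      (∀ w : Valuation (lv M C2) ℝ≥0, (∀ (c : Ω) (hc : c ∈ C2), w ⟨c, mem_lv hc⟩ = v c) →
        (w ⟨zc, hzcU⟩ < 1 → ∃ g : lv M C2, g ≠ 0 ∧ w (h / g ^ l - 1) < 1) ∧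
        (1 ≤ w ⟨zc, hzcU⟩ → ∃ g : lv M C2, g ≠ 0 ∧ w (h / (⟨h0, hh0U⟩ * g ^ l) - 1) < 1)) ∧
      (∀ u : Valuation (lv M C2) ℝ≥0, IsPlace k u → ∃ a, u h = u a ^ l) := by
  have hcK : CharZero K := charZero_of_injective_algebraMap (algebraMap k K).injective
  have hcΩ : CharZero Ω := charZero_of_injective_algebraMap (algebraMap k Ω).injective
  letI iN : NontriviallyNormedField C2 := Set_803.nC hv C2
  haveI iN1 : IsUltrametricDist C2 := Set_803.ultra_nC hv C2
  haveI iN2 : CompleteSpace C2 := Set_803.complete_nC hv C2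
  obtain ⟨ϖ, hϖ⟩ := Set_803.exists_unif hv C2
  have hnorm : ∀ c : C2, ‖c‖₊ = v (c : Ω) := by
    intro c
    apply NNReal.eq
    exact Set_803.norm_nC hv C2 c
  letI aM : Algebra D (lv M D) := algCU D (lv M D) fun c hc => mem_lv hc
  letI aU : Algebra C2 (lv M C2) := algCU C2 (lv M C2) fun c hc => mem_lv hc
  letI aCD : Algebra C2 D := (IntermediateField.inclusion hC2D).toRingHom.toAlgebra
  letI aCK : Algebra C2 (lv M D) := algCU C2 (lv M D) fun c hc => mem_lv (hC2D hc)
  letI aUK : Algebra (lv M C2) (lv M D) :=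
    (IntermediateField.inclusion (lv_mono le_rfl hC2D)).toRingHom.toAlgebra
  haveI t1 : IsScalarTower C2 D (lv M D) := IsScalarTower.of_algebraMap_eq fun _ => rfl
  haveI t2 : IsScalarTower C2 (lv M C2) (lv M D) := IsScalarTower.of_algebraMap_eq fun _ => rfl
  haveI t3 : IsScalarTower K (lv M C2) (lv M D) := IsScalarTower.of_algebraMap_eq fun _ => rfl
  haveI t4 : IsScalarTower k C2 D := IsScalarTower.of_algebraMap_eq fun _ => rfl
  haveI t5 : IsScalarTower C2 (lv M C2) Ω := IsScalarTower.of_algebraMap_eq fun _ => rfl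
  haveI a1 : Algebra.IsAlgebraic C2 D := Algebra.IsAlgebraic.tower_top (K := k) C2
  haveI a2 : Algebra.IsAlgebraic k C2 := Algebra.IsAlgebraic.of_finite _ _
  haveI a3 : Algebra.IsAlgebraic (lv M C2) (lv M D) :=
    Algebra.IsAlgebraic.tower_top (K := K) (lv M C2)
  haveI a4 : CharZero C2 := charZero_of_injective_algebraMap (algebraMap k C2).injective
  have hfdU : ∀ z : lv M C2, Transcendental C2 z →
      FiniteDimensional (IntermediateField.adjoin C2 {z}) (lv M C2) :=
    fd_level M C2 (lv M C2) rfl fun c hc => mem_lv hc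
  have hzct' : Transcendental C2 (⟨zc, hzcU⟩ : lv M C2) := by
    intro h
    exact hzct (h.algebraMap (A := Ω))
  have hlv : v (l : Ω) = 1 := by
    rw [natCast_val hv]
    apply NNReal.eq
    rw [coe_nnnorm, NNReal.coe_one]
    exact Padic.norm_natCast_eq_one_iff.2 hpl
  have hpD : ((p : D) : Ω) = (p : Ω) := by simp
  have hlC : ‖(l : C2)‖ = 1 := by
    have h1 : ‖(l : C2)‖₊ = 1 := by
      rw [hnorm]
      have h2 : ((l : C2) : Ω) = (l : Ω) := by simp
      rw [h2, hlv]
    rw [← coe_nnnorm, h1, NNReal.coe_one]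
  have hh0' : (⟨h0, hh0U⟩ : lv M C2) ≠ 0 := fun h =>
    h00 (congrArg (fun x : lv M C2 => (x : Ω)) h)
  have hw0' : (⟨w0, hw0C2⟩ : C2) ≠ 0 := fun h => hw00 (congrArg (fun x : C2 => (x : Ω)) h)
  have hw01' : ‖(⟨w0, hw0C2⟩ : C2)‖ < 1 := by
    rw [← coe_nnnorm, hnorm]
    exact_mod_cast hw01
  have hw0e' : nv v D (p : D) < ‖(⟨w0, hw0C2⟩ : C2)‖₊ ^ e := by
    rw [hnorm]
    change v ((p : D) : Ω) < _
    rw [hpD]
    exact hw0e
  obtain ⟨h, hh0', hnorms, hplaces⟩ := LiftF_168.stage2 (L := C2) hϖ (K' := lv M C2) (C := D)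
    (Kc := lv M D) hfdU (nv v D) (fun c => (hnorm c).symm) (N := l) hlC (h0 := ⟨h0, hh0U⟩)
    (z := ⟨zc, hzcU⟩) hh0' hzct' (w0 := ⟨w0, hw0C2⟩) hw0' hw01' (e := e) (π := (p : D)) hw0e'
    G hG0 hGG hBB
  refine ⟨h, hh0', fun w hw => hnorms w fun c => ?_, fun u hu => hplaces u fun c hc => ?_⟩
  · rw [hnorm]
    exact hw c c.2
  · exact Unr9_957.trivial_of_trivial (F := k) (u.comap (algebraMap C2 (lv M C2)))
        (fun x hx => hu.1 x hx) c hc

/-- choice of the finite level -/
theorem exists_level {M : IntermediateField K Ω} {D C : IntermediateField k Ω}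
    [Algebra.IsAlgebraic k D] [FiniteDimensional k C] (hCD : C ≤ D) (F : Finset Ω)
    (hF : ∀ f ∈ F, f ∈ lv M D) {w0 : Ω} (hw0 : w0 ∈ D) :
    ∃ C2 : IntermediateField k Ω, FiniteDimensional k C2 ∧ C ≤ C2 ∧ C2 ≤ D ∧ w0 ∈ C2 ∧
      ∀ f ∈ F, f ∈ lv M C2 := by
  obtain ⟨C', hC'D, hC'fd, hC'⟩ := exists_lv_finset (M := M) (C := D) F hF
  have hint : IsIntegral k w0 := by
    have h2 : IsIntegral k (⟨w0, hw0⟩ : D) := Algebra.IsIntegral.isIntegral _
    exact h2.map D.val
  haveI hw0fd : FiniteDimensional k (IntermediateField.adjoin k {w0}) :=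
    IntermediateField.adjoin.finiteDimensional hint
  haveI : FiniteDimensional k (C' ⊔ IntermediateField.adjoin k {w0} : IntermediateField k Ω) :=
      IntermediateField.finiteDimensional_sup _ _
  refine ⟨C ⊔ (C' ⊔ IntermediateField.adjoin k {w0}), IntermediateField.finiteDimensional_sup _ _,
    le_sup_left, sup_le hCD (sup_le hC'D ?_), ?_, fun f hf => ?_⟩
  · rw [IntermediateField.adjoin_simple_le_iff]
    exact hw0
  · exact (le_sup_right.trans le_sup_right : IntermediateField.adjoin k {w0} ≤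
      C ⊔ (C' ⊔ IntermediateField.adjoin k {w0})) (IntermediateField.mem_adjoin_simple_self k _)
  · exact lv_mono le_rfl (le_sup_left.trans le_sup_right) (hC' f hf)

/-- **LIFT-L** from (V1), (V2), constants `D`. -/
theorem liftV_aux {v : Valuation Ω ℝ≥0} (hv : ExtendsPadicNorm k Ω p v)
    {C D : IntermediateField k Ω} [FiniteDimensional k C] [IsAlgClosed D]
    [Algebra.IsAlgebraic k D] (hCD : C ≤ D)
    (hDu : ∀ w : Valuation Ω ℝ≥0, ExtendsPadicNorm k Ω p w → ∀ c : D, w (c : Ω) = v (c : Ω))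
    {M : IntermediateField K Ω} [FiniteDimensional K M] {t : Ω} (ht : t ∈ M)
    (hGD : IsG (nv v D) v t) {l : ℕ} (hl0 : l ≠ 0) (hpl : p.Coprime l) {z : Ω} (hzM : z ∈ lv M D)
    (hvz : v z = 1)
    (hV1 : ∀ A : ValuationSubring (lv M D), (∀ a ∈ A, v (a : Ω) ≤ 1) →
      ∃ g : lv M D, g ≠ 0 ∧ A.valuation (⟨z, hzM⟩ * g ^ l) = 1)
    (hV2 : ∀ g ∈ lv M D, ¬ v (z - g ^ l) < 1) :
    ∃ (C1 : IntermediateField k Ω) (h : Ω) (hU : h ∈ lv M C1), FiniteDimensional k C1 ∧ C ≤ C1 ∧
      C1 ≤ D ∧ h ≠ 0 ∧
      (∀ u : Valuation (lv M C1) ℝ≥0, IsPlace k u → ∃ a, u ⟨h, hU⟩ = u a ^ l) ∧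
      (∀ w : Valuation Ω ℝ≥0, ExtendsPadicNorm k Ω p w → 1 < w t →
        ∃ g ∈ lv M C1, w (h - g ^ l) < w h) ∧
      (∀ g ∈ lv M D, ¬ v (h - g ^ l) < v h) := by
  classical
  have hcK : CharZero K := charZero_of_injective_algebraMap (algebraMap k K).injective
  have hcΩ : CharZero Ω := charZero_of_injective_algebraMap (algebraMap k Ω).injective
  have hvp : v (p : Ω) = (p : ℝ≥0)⁻¹ := Set_803.val_p hv
  have hp1 : (p : ℝ≥0)⁻¹ < 1 := inv_lt_one_of_one_lt₀ (by exact_mod_cast hp.out.one_lt)
  -- the level of `D`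
  letI aM : Algebra D (lv M D) := algCU D (lv M D) fun c hc => mem_lv hc
  have hfd : ∀ z : lv M D, Transcendental D z →
      FiniteDimensional (IntermediateField.adjoin D {z}) (lv M D) :=
    fd_level M D (lv M D) rfl fun c hc => mem_lv hc
  set vM : Valuation (lv M D) ℝ≥0 := v.comap (algebraMap (lv M D) Ω) with hvM
  have htM : t ∈ lv M D := le_lv _ _ ht
  have hGM : IsG (nv v D) vM (⟨t, htM⟩ : lv M D) := isG_restrict (fun c hc => mem_lv hc) hGD htM
  have hpD : ((p : D) : Ω) = (p : Ω) := by simp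
  obtain ⟨h0, zc, e, G, h00, hzct, hzcG, hh0, hzc1, hG0, hGG, hBB⟩ :=
    LiftB_168.stage1V hfd (nv v D) (π := (p : D)) (by
      intro h
      exact hp.out.ne_zero (by exact_mod_cast h)) (by
      change v ((p : D) : Ω) < 1
      rw [hpD, hvp]; exact hp1) hGM hl0 (y := ⟨z, hzM⟩) hvz hV1
  -- the radius `|w0|`
  obtain ⟨w0, hw0⟩ := IsAlgClosed.exists_pow_nat_eq (p : D) (Nat.succ_pos e)
  have hw0v : v (w0 : Ω) ^ (e + 1) = (p : ℝ≥0)⁻¹ := by
    rw [← map_pow, ← hvp, ← hpD, ← hw0]
    rfl
  have hp0 : (0 : ℝ≥0) < (p : ℝ≥0)⁻¹ := inv_pos.2 (by exact_mod_cast hp.out.pos)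
  have hw00 : v (w0 : Ω) ≠ 0 := by
    intro h
    rw [h, zero_pow (Nat.succ_ne_zero e)] at hw0v
    exact hp0.ne hw0v
  have hw01 : v (w0 : Ω) < 1 := by
    by_contra hcon
    push Not at hcon
    have := one_le_pow₀ hcon (n := e + 1)
    rw [hw0v] at this
    exact absurd hp1 (not_lt.2 this)
  have hw0e : v (p : Ω) < v (w0 : Ω) ^ e := by
    rw [hvp, ← hw0v, pow_succ]
    exact mul_lt_of_lt_one_right (pow_pos (pos_iff_ne_zero.2 hw00) e) hw01
  -- the finite level
  obtain ⟨C2, hC2fd, hCC2, hC2D, hw0C2, hF⟩ := exists_level (M := M) hCD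
    (insert (h0 : Ω) (insert (zc : Ω) (G.image (fun g : lv M D => (g : Ω))))) (by
      intro f hf
      rcases Finset.mem_insert.1 hf with rfl | hf
      · exact h0.2
      rcases Finset.mem_insert.1 hf with rfl | hf
      · exact zc.2
      obtain ⟨g, -, rfl⟩ := Finset.mem_image.1 hf
      exact g.2) w0.2
  have hh0U : (h0 : Ω) ∈ lv M C2 := hF _ (Finset.mem_insert_self _ _)
  have hzcU : (zc : Ω) ∈ lv M C2 :=
    hF _ (Finset.mem_insert_of_mem (Finset.mem_insert_self _ _))
  have hGU : ∀ g ∈ G, (g : Ω) ∈ lv M C2 := fun g hg =>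
    hF _ (Finset.mem_insert_of_mem (Finset.mem_insert_of_mem (Finset.mem_image_of_mem _ hg)))
  have hzct' : Transcendental C2 (zc : Ω) := by
    letI aCD : Algebra C2 D := (IntermediateField.inclusion hC2D).toRingHom.toAlgebra
    haveI : IsScalarTower C2 D Ω := IsScalarTower.of_algebraMap_eq fun _ => rfl
    haveI : IsScalarTower D (lv M D) Ω := IsScalarTower.of_algebraMap_eq fun _ => rfl
    intro h
    apply hzct
    have h1 : IsAlgebraic D (zc : Ω) := h.extendScalars (algebraMap C2 D).injective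
    exact (isAlgebraic_algebraMap_iff (algebraMap (lv M D) Ω).injective).1 h1
  obtain ⟨h, hh0', hnorms, hplaces⟩ := finite_part hv hC2D hpl hh0U hzcU hw0C2
    (fun hh => h00 (Subtype.ext hh)) hzct' (e := e) (fun hh => hw00 (by rw [hh, map_zero])) hw01
    hw0e (G.attach.image fun g => ⟨(g.1 : Ω), hGU g.1 g.2⟩) (by
      intro g hg
      obtain ⟨g', -, rfl⟩ := Finset.mem_image.1 hg
      intro h
      exact hG0 g'.1 g'.2 (Subtype.ext (congrArg (fun x : lv M C2 => (x : Ω)) h))) (by
      intro O hO1 hO2 hO3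
      obtain ⟨g, hg, hg1⟩ := hGG O hO1 hO2 hO3
      exact ⟨⟨(g : Ω), hGU g hg⟩, Finset.mem_image.2 ⟨⟨g, hg⟩, Finset.mem_attach _ _, rfl⟩, hg1⟩)
    hBB
  refine ⟨C2, h, h.2, hC2fd, hCC2, hC2D, fun hh => hh0' (Subtype.ext hh), hplaces, ?_, ?_⟩
  · -- norms
    intro w hw hwt
    have hwz : w (zc : Ω) < 1 :=
      hzc1 (w.comap (algebraMap (lv M D) Ω)) (fun c => hDu w hw c) hwt
    obtain ⟨g, hg0, hg⟩ := (hnorms (w.comap (algebraMap (lv M C2) Ω)) (fun c hc =>
      hDu w hw ⟨c, hC2D hc⟩)).1 hwz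
    refine ⟨g, g.2, ?_⟩
    have hg0' : (g : Ω) ^ l ≠ 0 := pow_ne_zero _ (fun hh => hg0 (Subtype.ext hh))
    exact close_of_unit hg0' hg
  · -- the vertex
    intro g hg hvg
    have hvzc : v (zc : Ω) = 1 := hzcG.val_eq_one
    obtain ⟨a, ha0, ha⟩ := (hnorms (v.comap (algebraMap (lv M C2) Ω)) (fun c hc => rfl)).2 hvzc.ge
    have hh : (h : Ω) ≠ 0 := fun hh => hh0' (Subtype.ext hh)
    have ha0' : (a : Ω) ≠ 0 := fun hh => ha0 (Subtype.ext hh)
    have ha0l : (a : Ω) ^ l ≠ 0 := pow_ne_zero _ ha0'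
    have h000 : (h0 : Ω) ≠ 0 := fun hh => h00 (Subtype.ext hh)
    have ha' : v ((h : Ω) / (h0 * (a : Ω) ^ l) - 1) < 1 := ha
    have hh0v : v ((h0 : Ω) - z) < 1 := hh0
    have hvh0 : v (h0 : Ω) = 1 := by
      have h1 : (h0 : Ω) = z + (h0 - z) := by ring
      rw [h1, Valuation.map_add_eq_of_lt_left _ (by rw [hvz]; exact hh0v), hvz]
    -- `g ^ l / h` is a `1`-unit
    have hvh : v (h : Ω) ≠ 0 := (Valuation.ne_zero_iff _).2 hh
    have h1 : v ((g ^ l) / (h : Ω) - 1) < 1 := by
      have h2 : (g ^ l) / (h : Ω) - 1 = -((h : Ω) - g ^ l) / h := by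
        rw [neg_sub, sub_div, div_self hh]
      rw [h2, map_div₀, Valuation.map_neg]
      exact (div_lt_one₀ (pos_iff_ne_zero.2 hvh)).2 hvg
    have h2 := LiftF_168.mul_unit v h1 ha'
    have h3 : (g ^ l) / (h : Ω) * ((h : Ω) / (h0 * (a : Ω) ^ l)) = (g / a) ^ l / h0 := by
      rw [div_pow]
      field_simp
    rw [h3] at h2
    have h4 : v ((g / a) ^ l - h0) < 1 := by
      have := close_of_unit h000 h2
      have h5 := LiftF_168.val_of_sub_lt v h2
      rw [map_div₀, hvh0, div_one] at h5
      rwa [h5] at this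
    have h5 : v (z - (g / a) ^ l) < 1 := by
      have h6 : z - (g / a) ^ l = -(((g / a) ^ l - h0) + (h0 - z)) := by ring
      rw [h6, Valuation.map_neg]
      exact Valuation.map_add_lt _ h4 hh0v
    have hgaD : g / (a : Ω) ∈ lv M D := div_mem hg (lv_mono le_rfl hC2D a.2)
    exact hV2 _ hgaD h5


end main

end Crest.Agent.R013.LiftL_168
end

-- ▼ part R013/LiftM_168

/-!
# R013 / LiftM (helper168): LIFT-L in the language of `GOOD`

`dense_of_disc` : on the disc, `C(t)` is dense in `L` for `v`.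
`liftL_disc` : LIFT-L from the data of `CGood_588.GOOD`, without unramifiedness (`l ∣ div h` on `M C1`).
`liftL` : with `M ≤ maxUnramified k K`: `l`-th roots of `h` lie in `maxUnramified k K`.
-/

set_option autoImplicit false
set_option linter.style.haveILetI false
set_option linter.unusedSectionVars false

namespace Crest.Agent.R013.LiftM_168

open Polynomial Module IntermediateField Filter Topology
open scoped NNReal
open Crest.NumberTheoryR.Sect
open Crest.Agent.R013.LiftA_168 Crest.Agent.R013.LiftK_168 Crest.Agent.R013.LiftL_168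
  Crest.Agent.R013.SE_669 Crest.Agent.R013.CGood_588 Crest.Agent.R013.Set_803
  Crest.Agent.R013.A2a_275

section dense

variable {p : ℕ} [hp : Fact p.Prime] {k : Type*} [Field k] [Algebra ℚ_[p] k]
  [FiniteDimensional ℚ_[p] k] {Ω : Type*} [Field Ω] [Algebra k Ω] {v P : Valuation Ω ℝ≥0}
  {C : IntermediateField k Ω} [FiniteDimensional k C] {R : ℝ≥0} {x q c : Ω}


end dense

section levels

variable {k K : Type*} [Field k] [Field K] [Algebra k K] {Ω : Type*} [Field Ω] [Algebra k Ω]
  [Algebra K Ω] [IsScalarTower k K Ω]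

theorem fd_lv [Algebra.IsAlgebraic K Ω] (M : IntermediateField K Ω) [FiniteDimensional K M]
    (C : IntermediateField k Ω) [FiniteDimensional k C] : FiniteDimensional K (lv M C) := by
  haveI : FiniteDimensional K (IntermediateField.adjoin K (C : Set Ω)) := by
    obtain ⟨s, hs⟩ : ∃ s : Finset Ω, IntermediateField.adjoin k (s : Set Ω) = C := by
      have h1 : Algebra.EssFiniteType k C := inferInstance
      exact IntermediateField.essFiniteType_iff.mp h1
    have h1 : IntermediateField.adjoin K (C : Set Ω) = IntermediateField.adjoin K (s : Set Ω) := by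
      apply le_antisymm
      · rw [IntermediateField.adjoin_le_iff]
        intro x hx
        have hx' : x ∈ C := hx
        rw [← hs] at hx'
        have h3 : IntermediateField.adjoin k (s : Set Ω) ≤
            (IntermediateField.adjoin K (s : Set Ω)).restrictScalars k := by
          rw [IntermediateField.adjoin_le_iff]
          exact IntermediateField.subset_adjoin K _
        exact h3 hx'
      · refine IntermediateField.adjoin.mono _ _ _ ?_
        rw [← hs]
        exact IntermediateField.subset_adjoin _ _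
    rw [h1]
    exact IntermediateField.finiteDimensional_adjoin fun x _ => Algebra.IsIntegral.isIntegral x
  unfold lv
  infer_instance

theorem lv_le_maxUnramified [CharZero k] [Algebra (RatFunc k) K] [IsScalarTower k (RatFunc k) K]
    [FiniteDimensional (RatFunc k) K] {M : IntermediateField K (AlgebraicClosure K)}
    (hM : M ≤ maxUnramified k K) (C : IntermediateField k (AlgebraicClosure K))
    [Algebra.IsAlgebraic k C] : lv M C ≤ maxUnramified k K := by
  rw [lv_le_iff]
  refine ⟨hM, fun c hc => ?_⟩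
  have h1 : IsIntegral k (⟨c, hc⟩ : C) := Algebra.IsIntegral.isIntegral _
  exact MaxUnr_97.mem_maxUnramified_of_isIntegral _ (h1.map C.val)

end levels

section main

universe u

variable {p : ℕ} [hp : Fact p.Prime] {k : Type*} [Field k] [CharZero k] [Algebra ℚ_[p] k]
  [FiniteDimensional ℚ_[p] k] {K : Type u} [Field K] [Algebra k K] [Algebra (RatFunc k) K]
  [IsScalarTower k (RatFunc k) K] [FiniteDimensional (RatFunc k) K]



end main

end Crest.Agent.R013.LiftM_168
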