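import Crest.Agent.R013.Set13_803
import Crest.Agent.R013.Gl20_946
import Crest.Agent.R013.BTor10_914_Mg
import Crest.Agent.R013.LiftM_168
import Crest.Agent.R013.VData_803
import Crest.Agent.R013.RR17_948
import Crest.Agent.R013.TopB_803

-- ▼ part R013/Set14_803
section

/-!
# Row 13, B-SET, part 14: `K C` is finite over `C(y)`
-/

set_option autoImplicit false
set_option linter.unusedSectionVars false
set_option linter.style.haveILetI false

noncomputable section

namespace Crest.Agent.R013.Set_803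

open scoped NNReal Topology
open Filter PowerSeries Crest.NumberTheoryR.Sect Crest.Agent.R013.A2a_275 Crest.Agent.R013.Gl946
  Crest.Agent.R013.SE_669 Crest.Agent.R013.CGood_588

variable {k : Type*} [Field k] {Ω : Type*} [Field Ω] [Algebra k Ω]
variable {p : ℕ} [hp : Fact p.Prime] [Algebra ℚ_[p] k] {v P : Valuation Ω ℝ≥0}
  {C : IntermediateField k Ω}

namespace DiscData

variable {R : ℝ≥0} {x q c : Ω} (D : DiscData p v P C R x q c)
  [FiniteDimensional ℚ_[p] k] [FiniteDimensional k C]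

include D in
theorem not_algebraic (f : Polynomial C) (hf : f ≠ 0) : Polynomial.aeval x f ≠ 0 := by
  intro h0
  obtain ⟨q', hq'⟩ : ∃ q' : C, q' = ⟨q, D.qC⟩ := ⟨_, rfl⟩
  obtain ⟨c', hc'⟩ : ∃ c' : C, c' = ⟨c, D.cC⟩ := ⟨_, rfl⟩
  have hc'0 : c' ≠ 0 := fun h => D.c0 (by rw [hc'] at h; exact congrArg Subtype.val h)
  -- `f(q + c t)`
  obtain ⟨g, hgd⟩ : ∃ g : Polynomial C,
    g = f.comp (Polynomial.C q' + Polynomial.C c' * Polynomial.X) := ⟨_, rfl⟩
  have hdeg : (Polynomial.C q' + Polynomial.C c' * Polynomial.X).natDegree ≠ 0 := by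
    rw [add_comm, Polynomial.natDegree_add_C, Polynomial.natDegree_C_mul_X _ hc'0]
    exact one_ne_zero
  have hg : g ≠ 0 := by
    intro hg0
    rw [hgd, Polynomial.comp_eq_zero_iff] at hg0
    rcases hg0 with h | ⟨-, h⟩
    · exact hf h
    · apply hdeg
      rw [h, Polynomial.natDegree_C]
  have h3 : Polynomial.aeval ((x - q) / c) g = 0 := by
    have e : Polynomial.aeval ((x - q) / c) (Polynomial.C q' + Polynomial.C c' * Polynomial.X) =
        x := by
      rw [map_add, map_mul, Polynomial.aeval_C, Polynomial.aeval_C, Polynomial.aeval_X, hq', hc']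
      exact D.x_eq.symm
    rw [hgd, Polynomial.aeval_comp, e, h0]
  have h4 := psum_eq_aeval g ((x - q) / c) (g.natDegree + 1) (by omega)
  have h5 := D.gauss (g.natDegree + 1) (fun i => ((g.coeff i : C) : Ω)) (fun i => (g.coeff i : C).2)
  rw [h4, h3, map_zero] at h5
  have h6 := Finset.le_sup (f := fun i => v ((g.coeff i : C) : Ω))
    (s := Finset.range (g.natDegree + 1)) (b := g.natDegree) (by simp)
  rw [← h5] at h6
  have h7 : v ((g.coeff g.natDegree : C) : Ω) = 0 := le_antisymm h6 zero_le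
  rw [_root_.map_eq_zero] at h7
  exact hg (Polynomial.leadingCoeff_eq_zero.1 (Subtype.ext h7))

include D in
theorem transcendental_x : Transcendental k x := by
  rintro ⟨f, hf, hf0⟩
  refine D.not_algebraic (f.map (algebraMap k C)) ((Polynomial.map_ne_zero_iff
    (algebraMap k C).injective).2 hf) ?_
  rw [Polynomial.aeval_map_algebraMap]
  exact hf0

end DiscData


namespace DiscData

variable {R : ℝ≥0} {x q c : Ω} (D : DiscData p v P C R x q c)
  [FiniteDimensional ℚ_[p] k] [FiniteDimensional k C]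
  {E : Type*} [NormedField E] [IsUltrametricDist E] [CompleteSpace E]
  (A : NAlg D.hv C E) {y : E} (hy : IsG D.hv C A y)



end DiscData

end Crest.Agent.R013.Set_803
end
end

-- ▼ part R013/NB9_92
section

/-!
# B-NB, part 9: the theorem for `DiscData` (803) at the circle `|x| = |π|`
-/

set_option autoImplicit false
set_option linter.unusedSectionVars false
set_option linter.style.haveILetI false

noncomputable section

namespace Crest.Agent.R013.NB_92

open Module Crest.Agent.R013.Gl946 Crest.Agent.R013.CutCov_92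
open Crest.Agent.R013.Annu_930 (MN)
open Crest.Agent.R013.Half_930 (Am Ap mem_MN_of_both)
open Crest.Agent.R013.A2a_275 (Cpl toCpl norm_toCpl)
open Crest.Agent.R013.BTor4_914 (LDiv)
open Crest.Agent.R013.BTor6_914 (LC Lbar LC_le_Lbar LC_mono)
open Crest.Agent.R013.Set_803
open Crest.NumberTheoryR.Sect
open scoped NNReal

section Up

/-- `LDiv` over an algebraic extension of the field of functions -/
theorem ldiv_up {k F F' : Type*} [Field k] [Field F] [Field F'] [Algebra k F] [Algebra k F']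
    [Algebra F F'] [IsScalarTower k F F'] [Algebra.IsAlgebraic F F'] {l : ℕ} {h : F}
    (hh : LDiv k l h) : LDiv k l (algebraMap F F' h) := by
  intro w hw
  obtain ⟨a, ha⟩ := hh (w.comap (algebraMap F F')) (by
    refine ⟨fun c hc => ?_, ?_⟩
    · rw [Valuation.comap_apply, ← IsScalarTower.algebraMap_apply]
      exact hw.1 c hc
    · by_contra hcon
      push Not at hcon
      obtain ⟨b, hb0, hb1⟩ := hw.2
      refine hb1 (Unr9_957.trivial_of_trivial (F := F) (E := F') w (fun z hz => ?_) b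
        ((Valuation.ne_zero_iff w).1 hb0))
      exact hcon z ((Valuation.ne_zero_iff _).2 hz))
  exact ⟨algebraMap F F' a, ha⟩

end Up

section Level

variable {p : ℕ} [hp : Fact p.Prime] {k : Type} [Field k] [CharZero k] [Algebra ℚ_[p] k]
  [FiniteDimensional ℚ_[p] k] {K : Type} [Field K] [Algebra k K] [Algebra (RatFunc k) K]
  [IsScalarTower k (RatFunc k) K] [FiniteDimensional (RatFunc k) K]
  {v P : Valuation (AlgebraicClosure K) ℝ≥0}
  {C : IntermediateField k (AlgebraicClosure K)} [FiniteDimensional k C] {R : ℝ≥0} {x : K}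
  {q c : AlgebraicClosure K}
  (D : DiscData p v P C R (algebraMap K (AlgebraicClosure K) x) q c)
  {E : Type} [NormedField E] [IsUltrametricDist E] [CompleteSpace E]
  (A : NAlg D.hv C E) {y : E} (hy : IsG D.hv C A y)

/-- The output of B-NB at the level `C`, for the circle `|x| = |π|` in the circle field `E` over
`C`. -/
def NBLevel {π₀ : C} (hπ₀ : @IsUnif C (nC D.hv C).toNormedField π₀) (hd : DenseR D.hv C A y)
    {s : ℝ≥0} (hs : 1 < s) (π : C) (hπ0 : π ≠ 0) (hπR : v (π : AlgebraicClosure K) < R) : Prop :=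
  letI := nC D.hv C
  haveI := ultra_nC D.hv C
  haveI := complete_nC D.hv C
  letI := A
  ∃ (U : IntermediateField K (AlgebraicClosure K)) (V : Type) (_ : CommRing V) (_ : Algebra E V)
    (d : ℕ) (X : Edge (gaussDatum hy hπ₀ hd) V d) (j : U →+* V) (σ : V →ₐ[E] E),
    FiniteDimensional K U ∧ U ≤ maxUnramified k K ∧ (∀ a ∈ C, a ∈ U) ∧
    NBOut (gaussDatum hy hπ₀ hd) (Am hy hπ₀ hd hs) (Ap hy hπ₀ hd hs) U V d X j σ ∧
    (∀ u, σ (j u) ∈ MN hy hs) ∧
    ∀ (a : AlgebraicClosure K) (_ : a ∈ LC (⊥ : IntermediateField K (AlgebraicClosure K)) C)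
      (hU : a ∈ U) (hS : a ∈ D.SD), σ (j ⟨a, hU⟩) = D.iota A hy π hπR hπ0 ⟨a, hS⟩

/-- the algebraic closure of `K` as a field over `C` with the norm of `v` -/
theorem nb_level {π₀ : C} (hπ₀ : @IsUnif C (nC D.hv C).toNormedField π₀)
    (hd : DenseR D.hv C A y) {s : ℝ≥0} (hs : 1 < s)
    (hSD : ∀ f ∈ LC (⊥ : IntermediateField K (AlgebraicClosure K)) C, f ∈ D.SD)
    {M : IntermediateField K (AlgebraicClosure K)} [FiniteDimensional K M]
    (hMU : M ≤ maxUnramified k K)
    -- the circles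
    {π ρ1 ρ2 : C} (hπ0 : π ≠ 0) (h10 : ρ1 ≠ 0) (h20 : ρ2 ≠ 0)
    (h1π : v (ρ1 : AlgebraicClosure K) * s ≤ v (π : AlgebraicClosure K))
    (hq1 : v q < v (ρ1 : AlgebraicClosure K)) (hc1 : v c < v (ρ1 : AlgebraicClosure K))
    (hπ2 : v (π : AlgebraicClosure K) * s < v (ρ2 : AlgebraicClosure K))
    (h2R : v (ρ2 : AlgebraicClosure K) ≤ R) (hπR : v (π : AlgebraicClosure K) < R)
    -- class 1
    {l : ℕ} (hl : l.Prime) (hlp : l ≠ p) {ζ : C} (hζ : IsPrimitiveRoot ζ l)
    (h : AlgebraicClosure K) (hM : h ∈ LC M C) (h0 : h ≠ 0)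
    (hLD : LDiv k l (⟨h, hM⟩ : LC M C))
    (hgt : ∀ w : Valuation (AlgebraicClosure K) ℝ≥0, ExtendsPadicNorm k (AlgebraicClosure K) p w →
      1 < w ((algebraMap K (AlgebraicClosure K) x - q) / c) → ∃ g ∈ LC M C, w (h - g ^ l) < w h)
    (hnp : ∀ g ∈ LC M C, ¬ v (h - g ^ l) < v h)
    -- class 2
    (h2 : AlgebraicClosure K) (h2L : h2 ∈ LC (⊥ : IntermediateField K (AlgebraicClosure K)) C)
    (hLD2 : LDiv k l (⟨h2, h2L⟩ : LC (⊥ : IntermediateField K (AlgebraicClosure K)) C))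
    (hnp2 : ∀ g ∈ LC (⊥ : IntermediateField K (AlgebraicClosure K)) C, g ^ l ≠ h2)
    (hf : letI := nC D.hv C; haveI := ultra_nC D.hv C
      ∃ g : Good3_940.FDisc C ‖ρ2‖ (norm_pos_iff.mpr h20), g ≠ 0 ∧
        BTor3_914.resF (k := C) (R := (R : ℝ)) (by exact_mod_cast D.hR) (norm_pos_iff.mpr h20)
          (by rw [norm_nC]; exact_mod_cast h2R) (D.kap ⟨h2, hSD h2 h2L⟩) = g ^ l) :
    NBLevel D A hy hπ₀ hd hs π hπ0 hπR := by
  classical
  letI iN : NontriviallyNormedField C := nC D.hv C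
  haveI iU : IsUltrametricDist C := ultra_nC D.hv C
  haveI iC : CompleteSpace C := complete_nC D.hv C
  letI iA : NormedAlgebra C E := A
  haveI : CharZero C := charZero_of_injective_algebraMap (algebraMap k C).injective
  haveI : Algebra.IsAlgebraic k C := Algebra.IsAlgebraic.of_finite _ _
  have hnn : ∀ a : C, v (a : AlgebraicClosure K) = ‖a‖₊ := fun a =>
    (NNReal.eq (norm_nC D.hv C a) : ‖a‖₊ = _).symm
  have h1R : v (ρ1 : AlgebraicClosure K) < R := by
    refine lt_of_le_of_lt ?_ hπR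
    refine le_trans ?_ h1π
    exact le_mul_of_one_le_right zero_le hs.le
  have hs0 : (1 : ℝ≥0) ≤ s := hs.le
  have hqπ : v q < v (π : AlgebraicClosure K) :=
    hq1.trans_le ((le_mul_of_one_le_right zero_le hs0).trans h1π)
  have hcπ : v c < v (π : AlgebraicClosure K) :=
    hc1.trans_le ((le_mul_of_one_le_right zero_le hs0).trans h1π)
  have hπ2' : v (π : AlgebraicClosure K) < v (ρ2 : AlgebraicClosure K) :=
    (le_mul_of_one_le_right zero_le hs0).trans_lt hπ2
  -- the two circles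
  let S := D.SD
  let i : S →+* E := D.iota A hy π hπR hπ0
  let i1 : S →+* E := D.iota A hy ρ1 h1R h10
  have hCLC : ∀ a : C, (a : AlgebraicClosure K) ∈
      LC (⊥ : IntermediateField K (AlgebraicClosure K)) C := fun a =>
    (le_sup_right : IntermediateField.adjoin K (C : Set (AlgebraicClosure K)) ≤
      LC (⊥ : IntermediateField K (AlgebraicClosure K)) C)
      (IntermediateField.subset_adjoin _ _ a.2)
  have hLM : LC (⊥ : IntermediateField K (AlgebraicClosure K)) C ≤ LC M C :=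
    sup_le_sup_right bot_le _
  haveI fM : FiniteDimensional K (LC M C) := LiftM_168.fd_lv M C
  have hMU' : LC M C ≤ maxUnramified k K := LiftM_168.lv_le_maxUnramified hMU C
  have hx : Transcendental k x := by
    intro hh
    exact D.transcendental_x (hh.algebraMap (A := AlgebraicClosure K))
  obtain ⟨Φ, hΦ, hΦb⟩ := D.exists_Phi A hy π hπR hπ0 hqπ hcπ hπ₀ hd
  obtain ⟨g2, hg20, hg2, hg2P, hg2M⟩ := Cls2_914.exists_g2 D A hy h20 h2R
    ((hqπ.trans hπ2')) (hcπ.trans hπ2') π hπ0 hπ2' ⟨h2, hSD h2 h2L⟩ hf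
  have hln : ‖(l : C)‖ = 1 := by
    have h1 := LiftL_168.natCast_val D.hv l
    have h2 : ((l : C) : AlgebraicClosure K) = (l : AlgebraicClosure K) := by simp
    have h3 : v ((l : C) : AlgebraicClosure K) = 1 := by
      rw [h2, h1]
      apply NNReal.eq
      rw [coe_nnnorm, NNReal.coe_one]
      exact Padic.norm_natCast_eq_one_iff.2 ((Nat.coprime_primes hp.out hl).2 hlp.symm)
    rw [hnn] at h3
    exact congrArg NNReal.toReal h3
  obtain ⟨U, V, iV1, iV2, d, X, j, σ, hU1, hU2, hU3, hO, hι⟩ :=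
    exists_nb (κ := C) (E := E) hy hπ₀ hd hs v hnn S i i1
      (LC (⊥ : IntermediateField K (AlgebraicClosure K)) C) (LC M C) hCLC hLM fM hMU'
      (fun a ha => hSD a ha) hx hπ0 h10
      (fun a h => D.iota_const A hy π hπR hπ0 a h) (fun h => D.iota_x A hy π hπR hπ0 h)
      (fun a h => D.iota_const A hy ρ1 h1R h10 a h) (fun h => D.iota_x A hy ρ1 h1R h10 h)
      (by rw [← hnn, ← hnn]; exact h1π)
      (fun a => D.iota_mem_FP A hy π hπR hπ0 hπ₀ hd a)
      (fun a => D.iota_mem_MN A hy π hπR hπ0 hs (hπ2.trans_le h2R) a)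
      hl.pos hln hζ h hM h0 hLD
      (by
        intro w hw hwx
        obtain ⟨e1, e2⟩ := D.out_norm (w := w) (r := v (ρ1 : AlgebraicClosure K))
          (fun a ha => (hw ⟨a, ha⟩).trans (hnn ⟨a, ha⟩).symm) (by rw [hwx, hnn]) hq1 hc1
        exact hgt w e1 e2)
      hnp
      (by
        rw [← hnn, D.x_eq]
        refine (v.map_add _ _).trans_lt (max_lt hq1 ?_)
        rw [map_mul, gaussAt_norm D.gauss, mul_one]
        exact hc1)
      Φ hΦ hΦb hl.pos hζ h2 h2L hLD2 hnp2 g2 (hg2P π₀ hπ₀ hd) (hg2M s hs hπ2) hg2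
  refine ⟨U, V, iV1, iV2, d, X, j, σ, hU1, hU2, fun a ha => hU3 (hCLC ⟨a, ha⟩), hO,
    fun u => mem_MN_of_both hy hπ₀ hd hs (hO.mem_Ap u) (hO.mem_Am u), fun a ha hU hS => hι a ha hU⟩

end Level

end Crest.Agent.R013.NB_92
end
end

-- ▼ part R013/NB10_92
section

/-!
# B-NB, part 10: B-NB from vertex data (803's `VData`) and the output of LIFT-L
-/

set_option autoImplicit false
set_option linter.unusedSectionVars false
set_option linter.style.haveILetI false

noncomputable section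

namespace Crest.Agent.R013.NB_92

open Module Crest.Agent.R013.Gl946 Crest.Agent.R013.CutCov_92
open Crest.Agent.R013.Annu_930 (MN)
open Crest.Agent.R013.Half_930 (Am Ap mem_MN_of_both)
open Crest.Agent.R013.BTor4_914 (LDiv)
open Crest.Agent.R013.BTor6_914 (LC Lbar LC_le_Lbar LC_mono)
open Crest.Agent.R013.Set_803
open Crest.NumberTheoryR.Sect
open scoped NNReal

/-- The output of LIFT-L (168). -/
structure LiftOut (p : ℕ) [Fact p.Prime] (k : Type*) [Field k] [Algebra ℚ_[p] k] {K : Type*}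
    [Field K] [Algebra k K] (v : Valuation (AlgebraicClosure K) ℝ≥0) (t : AlgebraicClosure K)
    (M : IntermediateField K (AlgebraicClosure K)) (l : ℕ)
    (C1 : IntermediateField k (AlgebraicClosure K)) (h : AlgebraicClosure K) : Prop where
  fin : FiniteDimensional k C1
  mem : h ∈ LC M C1
  ne : h ≠ 0
  ldiv : LDiv k l (⟨h, mem⟩ : LC M C1)
  gt : ∀ w : Valuation (AlgebraicClosure K) ℝ≥0, ExtendsPadicNorm k (AlgebraicClosure K) p w →
    1 < w t → ∃ g ∈ LC M C1, w (h - g ^ l) < w h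
  np : ∀ C' : IntermediateField k (AlgebraicClosure K), FiniteDimensional k C' → C1 ≤ C' →
    ∀ g ∈ LC M C', ¬ v (h - g ^ l) < v h

/-- **The output of B-NB** at the circle `|x| = |π|`: a level `C2 ≥ C`, the circle field `E` over
`C2`, and the non-bridge. -/
def NBDisc (p : ℕ) [Fact p.Prime] {k : Type} [Field k] [Algebra ℚ_[p] k]
    [FiniteDimensional ℚ_[p] k] {K : Type} [Field K] [Algebra k K] [Algebra (RatFunc k) K]
    [IsScalarTower k (RatFunc k) K] [FiniteDimensional (RatFunc k) K]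
    (v P : Valuation (AlgebraicClosure K) ℝ≥0)
    (C : IntermediateField k (AlgebraicClosure K)) (R : ℝ≥0) (x : K) (q c : AlgebraicClosure K)
    {s : ℝ≥0} (hs : 1 < s) (π : AlgebraicClosure K) : Prop :=
  ∃ (C2 : IntermediateField k (AlgebraicClosure K)) (_ : FiniteDimensional k C2) (_ : C ≤ C2)
    (D2 : DiscData p v P C2 R (algebraMap K (AlgebraicClosure K) x) q c)
    (E : Type) (_ : NormedField E) (_ : IsUltrametricDist E) (_ : CompleteSpace E)
    (A : NAlg D2.hv C2 E) (y : E) (hy : IsG D2.hv C2 A y) (hd : DenseR D2.hv C2 A y)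
    (π₀ : C2) (hπ₀ : @IsUnif C2 (nC D2.hv C2).toNormedField π₀)
    (π' : C2) (hπ'0 : π' ≠ 0) (hπ'R : v (π' : AlgebraicClosure K) < R),
    (π' : AlgebraicClosure K) = π ∧
    (∀ f ∈ LC (⊥ : IntermediateField K (AlgebraicClosure K)) C2, f ∈ D2.SD) ∧
    NBLevel D2 A hy hπ₀ hd hs π' hπ'0 hπ'R

section Main

variable {p : ℕ} [hp : Fact p.Prime] {k : Type} [Field k] [CharZero k] [Algebra ℚ_[p] k]
  [FiniteDimensional ℚ_[p] k] {K : Type} [Field K] [Algebra k K] [Algebra (RatFunc k) K]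
  [IsScalarTower k (RatFunc k) K] [FiniteDimensional (RatFunc k) K]
  {v P : Valuation (AlgebraicClosure K) ℝ≥0}
  {C : IntermediateField k (AlgebraicClosure K)} [FiniteDimensional k C] {R : ℝ≥0} {x : K}
  {q c : AlgebraicClosure K}

/-- **B-NB** at the circle `|x| = |π|` from the output of LIFT-L. -/
theorem exists_nb_disc (hcl : algebraicClosure k K = ⊥) (hg : 1 ≤ RR11_948.gen k K)
    (D : DiscData p v P C R (algebraMap K (AlgebraicClosure K) x) q c)
    (hK : ∀ f : K, algebraMap K (AlgebraicClosure K) f ∈ D.SD)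
    {M : IntermediateField K (AlgebraicClosure K)} [FiniteDimensional K M]
    (hMU : M ≤ maxUnramified k K) {l : ℕ} (hl : l.Prime) (hlp : l ≠ p)
    {C1 : IntermediateField k (AlgebraicClosure K)} {h : AlgebraicClosure K}
    (hL : LiftOut p k v ((algebraMap K (AlgebraicClosure K) x - q) / c) M l C1 h)
    {s : ℝ≥0} (hs : 1 < s) {π ρ1 ρ2 : AlgebraicClosure K} (hπ : π ∈ C) (h1 : ρ1 ∈ C) (h2 : ρ2 ∈ C)
    (hπ0 : π ≠ 0) (h10 : ρ1 ≠ 0) (h20 : ρ2 ≠ 0) (h1π : v ρ1 * s ≤ v π) (hq1 : v q < v ρ1)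
    (hc1 : v c < v ρ1) (hπ2 : v π * s < v ρ2) (h2R : v ρ2 ≤ R) :
    NBDisc p v P C R x q c hs π := by
  classical
  obtain ⟨fC1, hM, h0, hLD, hgt, hnp⟩ := hL
  haveI := fC1
  haveI : CharZero K := charZero_of_injective_algebraMap (algebraMap k K).injective
  haveI : CharZero (AlgebraicClosure K) :=
    charZero_of_injective_algebraMap (algebraMap K (AlgebraicClosure K)).injective
  -- the root of unity
  haveI : NeZero (l : AlgebraicClosure K) := ⟨Nat.cast_ne_zero.2 hl.ne_zero⟩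
  obtain ⟨ζ, hζ⟩ := HasEnoughRootsOfUnity.exists_primitiveRoot (AlgebraicClosure K) l
  have hζi : IsIntegral k ζ := (hζ.isIntegral hl.pos).tower_top
  haveI : FiniteDimensional k (IntermediateField.adjoin k {ζ}) :=
    IntermediateField.adjoin.finiteDimensional hζi
  -- the constants
  let C₁ : IntermediateField k (AlgebraicClosure K) := C ⊔ C1 ⊔ IntermediateField.adjoin k {ζ}
  haveI : FiniteDimensional k (C ⊔ C1 : IntermediateField k (AlgebraicClosure K)) :=
    IntermediateField.finiteDimensional_sup _ _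
  haveI fC₁ : FiniteDimensional k C₁ := IntermediateField.finiteDimensional_sup _ _
  have hCC₁ : C ≤ C₁ := le_sup_left.trans le_sup_left
  obtain ⟨C2, fC2, hC2, D2, h', hρ0, b1, b2, b3, b4, b5, b6, b7⟩ :=
    BTor10_914.exists_out_bot hcl hg D hK hl hlp C₁ hCC₁ (hCC₁ h2) h20 h2R
  haveI := fC2
  have hCC2 : C ≤ C2 := hCC₁.trans hC2
  have hC1C2 : C1 ≤ C2 := (le_sup_right.trans le_sup_left : C1 ≤ C₁).trans hC2
  have hζC2 : ζ ∈ C2 := hC2 ((le_sup_right : IntermediateField.adjoin k {ζ} ≤ C₁)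
    (IntermediateField.mem_adjoin_simple_self k ζ))
  -- the circle field
  obtain ⟨E, iE, A, iEu, iEc, y, hy, hd⟩ := exists_circ D2.hv C2
  obtain ⟨π₀, hπ₀⟩ := exists_unif D2.hv C2
  have hs0 : (1 : ℝ≥0) ≤ s := hs.le
  have hπR : v π < R := by
    refine lt_of_lt_of_le ?_ h2R
    exact (le_mul_of_one_le_right zero_le hs0).trans_lt hπ2
  haveI : FiniteDimensional K (LC M C1) := LiftM_168.fd_lv M C1
  have hMC : LC M C1 ≤ LC M C2 := LC_mono hC1C2
  have hLDup : LDiv k l (⟨h, hMC hM⟩ : LC M C2) := by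
    letI : Algebra (LC M C1) (LC M C2) := algS _ _ hMC
    haveI : IsScalarTower k (LC M C1) (LC M C2) := IsScalarTower.of_algebraMap_eq fun _ => rfl
    haveI : IsScalarTower K (LC M C1) (LC M C2) := IsScalarTower.of_algebraMap_eq fun _ => rfl
    haveI : FiniteDimensional K (LC M C2) := LiftM_168.fd_lv M C2
    haveI : FiniteDimensional (LC M C1) (LC M C2) :=
      Module.Finite.of_restrictScalars_finite K _ _
    haveI : Algebra.IsAlgebraic (LC M C1) (LC M C2) := Algebra.IsAlgebraic.of_finite _ _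
    exact ldiv_up hLD
  haveI : FiniteDimensional K (LC (⊥ : IntermediateField K (AlgebraicClosure K)) C2) :=
    LiftM_168.fd_lv _ C2
  refine ⟨C2, fC2, hCC2, D2, E, iE, iEu, iEc, A, y, hy, hd, π₀, hπ₀, ⟨π, hCC2 hπ⟩,
    fun e => hπ0 (congrArg Subtype.val e), hπR, rfl, b1, ?_⟩
  have hζ' : IsPrimitiveRoot (⟨ζ, hζC2⟩ : C2) l :=
    IsPrimitiveRoot.of_map_of_injective (f := C2.val) hζ Subtype.val_injective
  exact nb_level D2 A hy hπ₀ hd hs b1 hMU (π := ⟨π, hCC2 hπ⟩) (ρ1 := ⟨ρ1, hCC2 h1⟩)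
    (ρ2 := ⟨ρ2, hC2 (hCC₁ h2)⟩) _ (fun e => h10 (congrArg Subtype.val e)) hρ0 h1π hq1 hc1 hπ2 h2R
    hπR hl hlp hζ' h (hMC hM) h0 hLDup
    (fun w hw hw1 => by
      obtain ⟨g, hg, hg1⟩ := hgt w hw hw1
      exact ⟨g, hMC hg, hg1⟩)
    (hnp C2 fC2 hC1C2) h' b2 (b6 _ inferInstance LC_le_Lbar b2)
    (fun g hg => b4 g (LC_le_Lbar hg)) (b7 (b1 h' b2))

end Main

section V

/-- **B-NB from the vertex data**: for every `s > 1` and every `a` with `s < p ^ a`, at the scale
`η = p⁻ᵃ`. -/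
theorem nb_of_vdata {p : ℕ} [hp : Fact p.Prime] {k : Type} [Field k] [Algebra ℚ_[p] k]
    [FiniteDimensional ℚ_[p] k] {K : Type} [Field K] [Algebra k K] [Algebra (RatFunc k) K]
    [IsScalarTower k (RatFunc k) K] [FunctionField k K] (hcl : algebraicClosure k K = ⊥)
    (hg : 2 ≤ genus k K) {P : Valuation (AlgebraicClosure K) ℝ≥0} {x : K}
    (hP : IsRationalPlace k K (P.comap (algebraMap K (AlgebraicClosure K))))
    (hx : IsUniformizerAt (P.comap (algebraMap K (AlgebraicClosure K))) x)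
    {s : ℝ≥0} (hs : 1 < s) {a : ℕ} (hsa : s < (p : ℝ≥0) ^ a)
    {C : IntermediateField k (AlgebraicClosure K)} {π q c : AlgebraicClosure K} {R : ℝ≥0}
    {v : Valuation (AlgebraicClosure K) ℝ≥0} {M : IntermediateField K (AlgebraicClosure K)} {l : ℕ}
    {Y : AlgebraicClosure K}
    (hV : VData_803.VData p k K P x ((p : ℝ≥0)⁻¹ ^ a) C π q c R v M l Y)
    {C1 : IntermediateField k (AlgebraicClosure K)} {h : AlgebraicClosure K}
    (hL : LiftOut p k v ((algebraMap K (AlgebraicClosure K) x - q) / c) M l C1 h) :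
    haveI : FiniteDimensional (RatFunc k) K := ‹FunctionField k K›
    NBDisc p v P C R x q c hs π := by
  haveI : FiniteDimensional (RatFunc k) K := ‹FunctionField k K›
  haveI : CharZero k := charZero_of_injective_algebraMap (algebraMap ℚ_[p] k).injective
  haveI := hV.finC
  haveI := hV.finM
  have hp0 : (0 : ℝ≥0) < p := by exact_mod_cast hp.out.pos
  have hη1 : (p : ℝ≥0)⁻¹ ^ a ≤ 1 :=
    pow_le_one₀ zero_le (inv_le_one_of_one_le₀ (by exact_mod_cast hp.out.one_le))
  have D := discData_of_good hP hx hη1 hV.qC hV.cC hV.c0 hV.hq hV.hc hV.hv hV.hR hV.gauss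
  have hvp : v ((p : AlgebraicClosure K) ^ a) = (p : ℝ≥0)⁻¹ ^ a := by rw [map_pow, val_p hV.hv]
  have hpa : (0 : ℝ≥0) < (p : ℝ≥0) ^ a := pow_pos hp0 a
  have hπv : 0 < v π := zero_lt_iff.2 ((Valuation.ne_zero_iff v).2 hV.π0)
  haveI : CharZero (AlgebraicClosure K) := by
    haveI : CharZero K := charZero_of_injective_algebraMap (algebraMap k K).injective
    exact charZero_of_injective_algebraMap (algebraMap K (AlgebraicClosure K)).injective
  have hpΩ : (p : AlgebraicClosure K) ^ a ≠ 0 := pow_ne_zero _ (Nat.cast_ne_zero.2 hp.out.ne_zero)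
  have hpC : (p : AlgebraicClosure K) ^ a ∈ C := pow_mem (natCast_mem C p) a
  have hv1 : v (π * (p : AlgebraicClosure K) ^ a) = (p : ℝ≥0)⁻¹ ^ a * v π := by
    rw [map_mul, hvp, mul_comm]
  have hv2 : v (π / (p : AlgebraicClosure K) ^ a) = v π * (p : ℝ≥0) ^ a := by
    rw [map_div₀, hvp, inv_pow, div_inv_eq_mul]
  refine exists_nb_disc hcl ?_ D (fun f => D.le_SD hV.disc f) hV.MU hV.lprime hV.lp hL hs hV.πC
    (ρ1 := π * (p : AlgebraicClosure K) ^ a) (ρ2 := π / (p : AlgebraicClosure K) ^ a)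
    (mul_mem hV.πC hpC) (div_mem hV.πC hpC) hV.π0 (mul_ne_zero hV.π0 hpΩ)
    (div_ne_zero hV.π0 hpΩ) ?_ ?_ ?_ ?_ ?_
  · rw [← RR17_948.genus_eq_gen]
    omega
  · rw [hv1, inv_pow, mul_assoc, inv_mul_le_iff₀ hpa, mul_comm]
    exact mul_le_mul_left hsa.le _
  · rw [hv1]; exact hV.hq
  · rw [hv1]; exact hV.hc
  · rw [hv2]
    exact mul_lt_mul_of_pos_left hsa hπv
  · rw [hv2]
    have h3 := hV.hR.le
    rw [inv_pow, ← inv_mul_le_iff₀ (inv_pos.2 hpa), inv_inv] at h3
    rw [mul_comm]; exact h3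

end V

end Crest.Agent.R013.NB_92
end
end

-- ▼ part R013/TopN_803

/-!
# Row 13, part B: `NBP` is a theorem (92's `nb_of_vdata`)
-/

set_option autoImplicit false
set_option linter.unusedSectionVars false
set_option linter.style.haveILetI false

namespace Crest.Agent.R013.TopN_803

open scoped NNReal Topology
open Filter Crest.NumberTheoryR.Sect SE_669 CGood_588 GoodP_797 VData_803 TopB_803
open Crest.Agent.R013.BTor6_914 (Lbar LC LC_le_Lbar)
open Crest.Agent.R013.Set_803 Crest.Agent.R013.Gl946 Crest.Agent.R013.NB_92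
  Crest.Agent.R013.CutCov_92 Crest.Agent.R013.Half_930

/-- `NBDisc` (92) gives `NBData`. -/
theorem nbData_of_disc {p : ℕ} [Fact p.Prime] {k : Type} [Field k] [Algebra ℚ_[p] k]
    [FiniteDimensional ℚ_[p] k] {K : Type} [Field K] [Algebra k K] [Algebra (RatFunc k) K]
    [IsScalarTower k (RatFunc k) K] [FiniteDimensional (RatFunc k) K]
    {v P : Valuation (AlgebraicClosure K) ℝ≥0}
    {C : IntermediateField k (AlgebraicClosure K)} {R : ℝ≥0} {x : K} {q c : AlgebraicClosure K}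
    {s : ℝ≥0} (hs : 1 < s) {π : AlgebraicClosure K} (h : NBDisc p v P C R x q c hs π) :
    NBData p k K P x s hs π v := by
  obtain ⟨C2, f2, hC, D2, E, iE, iu, ic, A, y, hy, hd, π₀, hπ₀, π', hπ'0, hπ'R, rfl, hSD, hL⟩ := h
  have hnt : ∃ z : E, 1 < ‖z‖ := by
    letI := nC D2.hv C2
    letI := A
    obtain ⟨z, hz⟩ := NontriviallyNormedField.non_trivial (α := C2)
    exact ⟨algebraMap C2 E z, by rw [norm_algebraMap']; exact hz⟩
  letI iE' : NontriviallyNormedField E := { iE with non_trivial := hnt }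
  obtain ⟨U, V, iV, iEV, d, X, j, σ, h1, h2, h3, h4, -, h6⟩ := hL
  exact ⟨C2, f2, π'.2, fun e => hπ'0 (Subtype.ext e), q, c, R, D2,
    fun f => hSD _ (IntermediateField.algebraMap_mem _ f), hπ'R, E, iE', A, iu, ic, y, hy, hd, π₀,
    hπ₀, U, V, iV, iEV, d, X, j, σ, h1, h2, h3, h4,
    fun f hf hfU hfD => h6 f hf hfU hfD⟩

/-- **B-NB** for vertex data. -/
theorem nbP (p : ℕ) [hp : Fact p.Prime] : NBP p := by
  intro s hs a hsa k _ _ _ K _ _ _ _ _ hcl hg P x hP hx C π q c R v M l Y hV hL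
  haveI : CharZero k := charZero_of_injective_algebraMap (algebraMap ℚ_[p] k).injective
  have hp0 : (0 : ℝ≥0) < p := by exact_mod_cast hp.out.pos
  have hnp : ‖(p : ℚ_[p])‖₊ = (p : ℝ≥0)⁻¹ := by
    apply NNReal.coe_injective
    rw [coe_nnnorm, Padic.norm_p, NNReal.coe_inv, NNReal.coe_natCast]
  rw [hnp] at hsa hV
  have hsa' : s < (p : ℝ≥0) ^ (a + 1) := by
    have h1 : s ≤ (p : ℝ≥0) ^ a := by
      rw [inv_pow] at hsa
      exact (mul_inv_le_iff₀ (pow_pos hp0 a)).1 hsa |>.trans_eq (one_mul _)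
    refine h1.trans_lt ?_
    exact pow_lt_pow_right₀ (by exact_mod_cast hp.out.one_lt) (Nat.lt_succ_self a)
  obtain ⟨C1, h, hU, h1, h2, h3, h4, h5, h6⟩ := hL
  haveI := h1
  exact nbData_of_disc hs (nb_of_vdata hcl hg hP hx hs hsa' hV (C1 := C1) (h := h)
    { fin := h1
      mem := hU
      ne := h3
      ldiv := h4
      gt := h5
      np := fun C' hC' _ g hg => h6 g (LC_le_Lbar hg) })

end Crest.Agent.R013.TopN_803
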