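import Mathlib
import Crest.Agent.R013.NP_168
import Crest.Agent.R013.AVal_168
import Crest.Agent.R013.Cof1_669
import Crest.Agent.R013.Set10_803
import Crest.Agent.R013.Cof5_669
import Crest.Agent.R013.VData_803
import Crest.Agent.R013.Cof10_669
import Crest.Agent.R013.Gl20_946
import Crest.Agent.R013.TopB_803

-- ▼ part R013/M2_797
section

/-!
# R013 / M2 (helper797): LEMMA M2 of post #3792

`M/L` finite Galois (any degree), `w` a valuation of `M` with residue characteristic `p`, `y_i ∈ M`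
integral.  Let `H` be the subgroup of the decomposition group fixing the residues of the `y_i` and
`M₂ = M^H`.  Then

* `exists_lift_pow` : for some `r` there are `y_i' ∈ M₂` congruent to `y_i ^ (p ^ r)`;
* `residue_M2` : the residues of `M₂` are purely inseparable over `κ_L(ȳ_i)`.
-/

set_option autoImplicit false

namespace Crest.Agent.R013.M2_797

open IsLocalRing Polynomial Module IntermediateField
open scoped NNReal
open Crest.Agent.R013.ResP_168

/-- `p ∤ binom (p^r n, p^r)` if `p ∤ n` -/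
theorem not_dvd_choose {p : ℕ} (hp : p.Prime) {n : ℕ} (hn : ¬ p ∣ n) (r : ℕ) :
    ¬ p ∣ (p ^ r * n).choose (p ^ r) := by
  have : Fact p.Prime := ⟨hp⟩
  induction r with
  | zero => simpa using hn
  | succ r ih =>
    intro h
    apply ih
    have h1 := Choose.choose_modEq_choose_mod_mul_choose_div_nat (n := p ^ (r + 1) * n)
      (k := p ^ (r + 1)) (p := p)
    have h2 : p ^ (r + 1) * n % p = 0 := by
      rw [pow_succ, mul_assoc, mul_comm p n, ← mul_assoc]
      exact Nat.mul_mod_left _ _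
    have h3 : p ^ (r + 1) % p = 0 := by
      rw [pow_succ]; exact Nat.mul_mod_left _ _
    have h4 : p ^ (r + 1) * n / p = p ^ r * n := by
      rw [pow_succ, mul_assoc, mul_comm p n, ← mul_assoc]
      exact Nat.mul_div_cancel _ hp.pos
    have h5 : p ^ (r + 1) / p = p ^ r := by
      rw [pow_succ]
      exact Nat.mul_div_cancel _ hp.pos
    rw [h2, h3, h4, h5, Nat.choose_self, one_mul] at h1
    exact (Nat.modEq_zero_iff_dvd.1 (h1.symm.trans (Nat.modEq_zero_iff_dvd.2 h)))

section sym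

variable {L M : Type*} [Field L] [Field M] [Algebra L M]
  {Γ : Type*} [LinearOrderedCommGroupWithZero Γ] {w : Valuation M Γ}

/-- integers prime to `p` are units -/
theorem val_natCast_eq_one {p : ℕ} (hp : p.Prime) (hwp : w (p : M) < 1) {c : ℕ} (hc : ¬ p ∣ c) :
    w (c : M) = 1 := by
  have hle : ∀ n : ℤ, w (n : M) ≤ 1 := by
    intro n
    have h : ∀ n : ℕ, w (n : M) ≤ 1 := by
      intro n
      induction n with
      | zero => simp
      | succ n ih =>
        push_cast
        exact w.map_add_le ih (by rw [map_one])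
    rcases Int.eq_nat_or_neg n with ⟨m, rfl | rfl⟩
    · simpa using h m
    · push_cast
      rw [Valuation.map_neg]
      exact h m
  refine le_antisymm (by simpa using hle c) ?_
  by_contra hlt
  push Not at hlt
  have hcop : p.Coprime c := (Nat.Prime.coprime_iff_not_dvd hp).2 hc
  have hbez : (p : ℤ) * Int.gcdA p c + c * Int.gcdB p c = 1 := by
    have := Nat.gcd_eq_gcd_ab p c
    rw [hcop.gcd_eq_one] at this
    exact_mod_cast this.symm
  have h1 : (p : M) * (Int.gcdA p c : M) + (c : M) * (Int.gcdB p c : M) = 1 := by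
    exact_mod_cast congrArg (fun z : ℤ => (z : M)) hbez
  have h2 : w ((p : M) * (Int.gcdA p c : M) + (c : M) * (Int.gcdB p c : M)) < 1 := by
    refine Valuation.map_add_lt _ ?_ ?_
    · rw [map_mul]; exact mul_lt_one_of_lt_of_le hwp (hle _)
    · rw [map_mul]; exact mul_lt_one_of_lt_of_le hlt (hle _)
  rw [h1, map_one] at h2
  exact lt_irrefl _ h2

/-- **symmetric functions.** `D` a finite group of automorphisms of `(M, w)`, `a` integral with
invariant residue, `#D = p^r n`, `p ∤ n`: there is a `D`-invariant `a'` congruent to `a^(p^r)`. -/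
theorem exists_fixed_pow {p : ℕ} (hp : p.Prime) (hwp : w (p : M) < 1)
    (D : Subgroup (M ≃ₐ[L] M)) [Finite D]
    (hD : ∀ σ ∈ D, ∀ x, w (σ x) = w x) {r n : ℕ} (hr : Nat.card D = p ^ r * n) (hn : ¬ p ∣ n)
    {a : M} (ha : w a ≤ 1) (hfix : ∀ σ ∈ D, w (σ a - a) < 1) :
    ∃ a' : M, w a' ≤ 1 ∧ (∀ σ ∈ D, σ a' = a') ∧ w (a' - a ^ p ^ r) < 1 := by
  classical
  have := Fintype.ofFinite D
  set O := w.valuationSubring with hO
  have haσ : ∀ σ : D, w ((σ : M ≃ₐ[L] M) a) ≤ 1 := fun σ => by rw [hD _ σ.2]; exact ha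
  let aO : D → O := fun σ => ⟨(σ : M ≃ₐ[L] M) a, haσ σ⟩
  let PO : O[X] := ∏ σ : D, (X - C (aO σ))
  have hPM : PO.map O.subtype = ∏ σ : D, (X - C ((σ : M ≃ₐ[L] M) a)) := by
    rw [Polynomial.map_prod]
    refine Finset.prod_congr rfl fun σ _ => ?_
    rw [Polynomial.map_sub, map_X, map_C]
    rfl
  have hPR : PO.map (residue O) = (X - C (residue O ⟨a, ha⟩)) ^ Nat.card D := by
    rw [Polynomial.map_prod, Nat.card_eq_fintype_card, ← Finset.card_univ, ← Finset.prod_const]
    refine Finset.prod_congr rfl fun σ _ => ?_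
    rw [Polynomial.map_sub, map_X, map_C]
    congr 2
    rw [← sub_eq_zero, ← map_sub, residue_eq_zero_iff']
    exact hfix _ σ.2
  set N := Nat.card D with hN
  have hpr : p ^ r ≤ N := by
    rw [hr]
    refine Nat.le_mul_of_pos_right _ (Nat.pos_of_ne_zero ?_)
    rintro rfl
    exact hn (dvd_zero _)
  set j := N - p ^ r with hj
  have hjr : N - j = p ^ r := by omega
  set c := N.choose (p ^ r) with hc
  have hcN : N.choose j = c := Nat.choose_symm hpr
  have hcp : ¬ p ∣ c := by rw [hc, hr]; exact not_dvd_choose hp hn r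
  set b : M := (PO.map O.subtype).coeff j with hb
  have hbO : b = ((PO.coeff j : O) : M) := by rw [hb, coeff_map]; rfl
  have hb1 : w b ≤ 1 := by rw [hbO]; exact (PO.coeff j).2
  -- invariance
  have hbfix : ∀ τ ∈ D, τ b = b := by
    intro τ hτ
    have h1 : (PO.map O.subtype).map (τ : M →+* M) = PO.map O.subtype := by
      rw [hPM, Polynomial.map_prod]
      refine Fintype.prod_equiv (Equiv.mulLeft (⟨τ, hτ⟩ : D)) _ _ fun σ => ?_
      rw [Polynomial.map_sub, map_X, map_C]
      rfl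
    have h2 := congrArg (fun P : M[X] => P.coeff j) h1
    simp only [coeff_map (p := PO.map O.subtype)] at h2
    exact h2
  -- the residue
  set e : M := (-1) ^ p ^ r * (c : M) with he
  have hwe : w e = 1 := by
    rw [he, map_mul, map_pow, Valuation.map_neg, map_one, one_pow, one_mul]
    exact val_natCast_eq_one hp hwp hcp
  have hres : w (b - e * a ^ p ^ r) < 1 := by
    have h1 : residue O (PO.coeff j) = (-(residue O ⟨a, ha⟩)) ^ p ^ r * (c : ResidueField O) := by
      rw [← coeff_map, hPR, sub_eq_add_neg, ← C_neg, coeff_X_add_C_pow, hjr, hcN]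
    have h2 : residue O (PO.coeff j - ((-1) ^ p ^ r * (c : O) * (⟨a, ha⟩ : O) ^ p ^ r)) = 0 := by
      rw [map_sub, h1, map_mul, map_mul, map_pow, map_pow, map_neg, map_one, map_natCast, neg_pow]
      ring
    rw [residue_eq_zero_iff'] at h2
    have h3 : ((PO.coeff j - ((-1) ^ p ^ r * (c : O) * (⟨a, ha⟩ : O) ^ p ^ r) : O) : M) =
        b - e * a ^ p ^ r := by
      rw [hbO, he]
      push_cast
      ring
    rwa [h3] at h2
  have he0 : e ≠ 0 := by
    intro h0
    rw [h0, map_zero] at hwe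
    exact zero_ne_one hwe
  refine ⟨b / e, ?_, ?_, ?_⟩
  · rw [map_div₀, hwe, div_one]; exact hb1
  · intro σ hσ
    rw [map_div₀, hbfix σ hσ]
    congr 1
    rw [he, map_mul, map_pow, map_neg, map_one, map_natCast]
  · have h4 : b / e - a ^ p ^ r = (b - e * a ^ p ^ r) / e := by
      field_simp
    rw [h4, map_div₀, hwe, div_one]
    exact hres

end sym


section gal

variable {L M : Type*} [Field L] [Field M] [Algebra L M]
  {Γ : Type*} [LinearOrderedCommGroupWithZero Γ] {w : Valuation M Γ}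
  {ι : Type*}

/-- the elements of the decomposition group which fix the residues of the `y i` -/
def Hd (L : Type*) {M : Type*} [Field L] [Field M] [Algebra L M]
    {Γ : Type*} [LinearOrderedCommGroupWithZero Γ] (w : Valuation M Γ)
    {ι : Type*} (y : ι → M) : Subgroup (Dec L w) where
  carrier := {σ | ∀ i, σ • rs w (y i) = rs w (y i)}
  one_mem' := fun i => one_smul _ _
  mul_mem' := fun {σ τ} hσ hτ i => by rw [mul_smul, hτ i, hσ i]
  inv_mem' := fun {σ} hσ i => by rw [inv_smul_eq_iff, hσ i]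

/-- the same as a subgroup of `Gal(M/L)` -/
def HH (L : Type*) {M : Type*} [Field L] [Field M] [Algebra L M]
    {Γ : Type*} [LinearOrderedCommGroupWithZero Γ] (w : Valuation M Γ)
    {ι : Type*} (y : ι → M) : Subgroup (M ≃ₐ[L] M) := (Hd L w y).map (Dec L w).subtype

theorem mem_HH {y : ι → M} (hy : ∀ i, w (y i) ≤ 1) {σ : M ≃ₐ[L] M} :
    σ ∈ HH L w y ↔ σ ∈ Dec L w ∧ ∀ i, w (σ (y i) - y i) < 1 := by
  constructor
  · rintro ⟨τ, hτ, rfl⟩
    refine ⟨τ.2, fun i => ?_⟩
    have h1 := hτ i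
    rw [smul_rs τ (hy i), rs_eq_iff ((mem_Dec.1 τ.2 _).2 (hy i)) (hy i)] at h1
    exact h1
  · rintro ⟨h1, h2⟩
    refine ⟨⟨σ, h1⟩, fun i => ?_, rfl⟩
    rw [smul_rs ⟨σ, h1⟩ (hy i), rs_eq_iff ((mem_Dec.1 h1 _).2 (hy i)) (hy i)]
    exact h2 i

/-- **the field `M₂`** -/
def M2 (L : Type*) {M : Type*} [Field L] [Field M] [Algebra L M]
    {Γ : Type*} [LinearOrderedCommGroupWithZero Γ] (w : Valuation M Γ)
    {ι : Type*} (y : ι → M) : IntermediateField L M := IntermediateField.fixedField (HH L w y)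

theorem mem_M2 {y : ι → M} {b : M} : b ∈ M2 L w y ↔ ∀ σ ∈ HH L w y, σ b = b := by
  rw [M2, IntermediateField.mem_fixedField_iff]

variable [FiniteDimensional L M]

theorem val_Dec {σ : M ≃ₐ[L] M} (hσ : σ ∈ Dec L w) (x : M) : w (σ x) = w x :=
  Hens_899.mem_decomp.1 (mem_Dec_iff.1 hσ) x

theorem charP_RFw {p : ℕ} (hp : p.Prime) (hwp : w (p : M) < 1) : CharP (RF w) p := by
  rw [CharP.charP_iff_prime_eq_zero hp]
  have h2 : (p : RF w) = residue w.valuationSubring (p : w.valuationSubring) :=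
    (map_natCast _ _).symm
  rw [h2, ResP_168.residue_eq_zero_iff']
  push_cast
  exact hwp

/-- the invariants of the decomposition group on the residue field are purely inseparable over the
residue field of `L` -/
theorem pow_mem_of_fixed [IsGalois L M] {κ : Type*} [Field κ] [Algebra κ (RF w)]
    (h : IsRes L w κ) {p : ℕ} (hp : p.Prime) (hwp : w (p : M) < 1) {r n : ℕ}
    (hr : Nat.card (Dec L w) = p ^ r * n) (hn : ¬ p ∣ n) {x : RF w}
    (hx : ∀ σ : Dec L w, σ • x = x) : x ^ p ^ r ∈ (algebraMap κ (RF w)).range := by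
  obtain ⟨a, ha, rfl⟩ := exists_rs x
  obtain ⟨a', ha', hfix, hres⟩ := exists_fixed_pow hp hwp (Dec L w)
    (fun σ hσ x => val_Dec hσ x) hr hn ha (fun σ hσ => by
      have h1 := hx ⟨σ, hσ⟩
      rw [smul_rs ⟨σ, hσ⟩ ha, rs_eq_iff ((mem_Dec.1 hσ _).2 ha) ha] at h1
      exact h1)
  obtain ⟨b0, hb0⟩ := Hens_899.residue_fin w (fun σ hσ => hfix σ (mem_Dec_iff.2 hσ)) ha'
  have hb0' : w (algebraMap L M b0) ≤ 1 := by
    have h1 : algebraMap L M b0 = a' - (a' - algebraMap L M b0) := by ring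
    rw [h1]
    exact w.map_sub_le ha' hb0.le
  have hap : w (a ^ p ^ r) ≤ 1 := by rw [map_pow]; exact pow_le_one' ha _
  rw [← rs_pow ha, ← (rs_eq_iff ha' hap).2 hres, (rs_eq_iff ha' hb0').2 hb0]
  exact h.mem b0 hb0'

/-- **Residues of `M₂`** are purely inseparable over `κ_L(ȳ_i)`. -/
theorem residue_M2 [IsGalois L M] {κ : Type*} [Field κ] [Algebra κ (RF w)]
    (h : IsRes L w κ) {p : ℕ} (hp : p.Prime) (hwp : w (p : M) < 1) {r n : ℕ}
    (hr : Nat.card (Dec L w) = p ^ r * n) (hn : ¬ p ∣ n) (y : ι → M) {b : M}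
    (hb : b ∈ M2 L w y) (hb1 : w b ≤ 1) :
    rs w b ^ p ^ r ∈ IntermediateField.adjoin κ (Set.range fun i => rs w (y i)) := by
  classical
  have : Fact p.Prime := ⟨hp⟩
  have hch : CharP (RF w) p := charP_RFw hp hwp
  have : ExpChar (RF w) p := ExpChar.prime hp
  set A := IntermediateField.adjoin κ (Set.range fun i => rs w (y i)) with hA
  let F0 := FixedPoints.subfield (Dec L w) (RF w)
  have hgal : IsGalois F0 (RF w) := { to_isSeparable := inferInstance, to_normal := inferInstance }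
  let E := IntermediateField.adjoin F0 (Set.range fun i => rs w (y i))
  have hbE : rs w b ∈ E := by
    rw [← IsGalois.fixedField_fixingSubgroup E, IntermediateField.mem_fixedField_iff]
    intro τ hτ
    obtain ⟨σ, hσ⟩ := FixedPoints.toAlgAut_surjective (Dec L w) (RF w) τ
    have hact : ∀ x : RF w, τ x = σ • x := by
      intro x
      rw [← hσ]
      rfl
    have hσH : σ ∈ Hd L w y := by
      intro i
      rw [← hact]
      exact (IntermediateField.mem_fixingSubgroup_iff E τ).1 hτ _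
        (IntermediateField.subset_adjoin _ _ ⟨i, rfl⟩)
    rw [hact, smul_rs σ hb1]
    congr 1
    exact (mem_M2 (L := L) (w := w) (y := y)).1 hb (σ : M ≃ₐ[L] M) ⟨σ, hσH, rfl⟩
  -- Frobenius
  let S : Subfield (RF w) := A.toSubfield.comap (iterateFrobenius (RF w) p r)
  have hF0 : ∀ z : F0, algebraMap F0 (RF w) z ∈ S := by
    intro z
    change iterateFrobenius (RF w) p r (z : RF w) ∈ A
    rw [iterateFrobenius_def]
    obtain ⟨c, hc⟩ := pow_mem_of_fixed h hp hwp hr hn (x := (z : RF w)) (fun σ => z.2 σ)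
    rw [← hc]
    exact A.algebraMap_mem c
  have hES : E ≤ S.toIntermediateField hF0 := by
    rw [IntermediateField.adjoin_le_iff]
    rintro _ ⟨i, rfl⟩
    change iterateFrobenius (RF w) p r (rs w (y i)) ∈ A
    rw [iterateFrobenius_def]
    have h3 : rs w (y i) ∈ A := IntermediateField.subset_adjoin κ _ ⟨i, rfl⟩
    exact pow_mem h3 _
  have h2 : iterateFrobenius (RF w) p r (rs w b) ∈ A := hES hbE
  rwa [iterateFrobenius_def] at h2

/-- **Lifts**: `M₂` contains elements congruent to `y_i ^ (p ^ s)`. -/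
theorem exists_lift_pow {p : ℕ} (hp : p.Prime) (hwp : w (p : M) < 1) {y : ι → M}
    (hy : ∀ i, w (y i) ≤ 1) {s n : ℕ} (hs : Nat.card (HH L w y) = p ^ s * n) (hn : ¬ p ∣ n) (i : ι) :
    ∃ a' : M2 L w y, w ((a' : M) - y i ^ p ^ s) < 1 := by
  obtain ⟨a', -, hfix, hres⟩ := exists_fixed_pow hp hwp (HH L w y)
    (fun σ hσ x => val_Dec ((mem_HH hy).1 hσ).1 x) hs hn (hy i)
    (fun σ hσ => ((mem_HH hy).1 hσ).2 i)
  exact ⟨⟨a', mem_M2.2 hfix⟩, hres⟩

end gal

end Crest.Agent.R013.M2_797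
end

-- ▼ part R013/M2b_797
section

/-!
# R013 / M2b (helper797): the vertex function of `M₂` is not an `l`-th power

Setting of `M2_797` over constants `k` (`w` Gauss for `t ∈ L`, residue field of `L` = `κ₀(t̄)`), `M/L`
finite Galois of any degree, `S, Z ∈ M` integral with `Z ^ p - Z ≡ S ^ m`, `p ∤ m`, and `t̄` a
polynomial in `S̄` (`S = t` for an Artin-Schreier vertex; `S = w + c` for the `ℤ/4`-vertex, `p = 2`).
Then there are `s', z' ∈ M₂` congruent to `S ^ (p ^ r)`, `Z ^ (p ^ r)`, and `z'` is not congruent to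
an `l`-th power of an element of `M₂` (`l > 1` prime to `p`).
-/

set_option autoImplicit false

namespace Crest.Agent.R013.M2b_797

open IsLocalRing Polynomial Module IntermediateField
open scoped NNReal
open Crest.Agent.R013.ResP_168 Crest.Agent.R013.LiftA_168 Crest.Agent.R013.NP_168
  Crest.Agent.R013.M2_797

section res

variable {κ L : Type*} [Field κ] [Field L] [Algebra κ L] {p : ℕ} [hp : Fact p.Prime] [CharP κ p]
  {c : κ} {m : ℕ} {t y : L}

/-- `y` is not an `l`-th power in `κ(t)(y)` -/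
theorem not_pow_mem (ht : Transcendental κ t) (hc : c ≠ 0) (hpm : p.Coprime m) (hm : 0 < m)
    (hAS : y ^ p - y = algebraMap κ L c * t ^ m) (l : ℕ) (hl : 1 < l)
    (z : L) (hz : z ∈ IntermediateField.adjoin κ⟮t⟯ {y}) : z ^ l ≠ y := by
  let a1 : Algebra κ[X] κ⟮t⟯ := (aeval (AdjoinSimple.gen κ t) : κ[X] →ₐ[κ] κ⟮t⟯).toRingHom.toAlgebra
  let a2 : Algebra κ[X] L := (aeval t : κ[X] →ₐ[κ] L).toRingHom.toAlgebra
  have m1 : ∀ P : κ[X], algebraMap κ[X] κ⟮t⟯ P = aeval (AdjoinSimple.gen κ t) P := fun _ => rfl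
  have m2 : ∀ P : κ[X], algebraMap κ[X] L P = aeval t P := fun _ => rfl
  have m3 : ∀ P : κ[X], algebraMap κ⟮t⟯ L (algebraMap κ[X] κ⟮t⟯ P) = aeval t P := by
    intro P
    rw [m1, ← aeval_algebraMap_apply]; rfl
  have s1 : IsScalarTower κ[X] κ⟮t⟯ L := IsScalarTower.of_algebraMap_eq fun P => by rw [m3, m2]
  have s2 : IsScalarTower κ κ[X] L := IsScalarTower.of_algebraMap_eq fun a => by
    rw [m2]; exact (aeval_C t a).symm
  have inj : Function.Injective (algebraMap κ[X] κ⟮t⟯) := by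
    rw [injective_iff_map_eq_zero]
    intro P hP
    have h1 : aeval t P = 0 := by rw [← m3, hP, map_zero]
    exact (transcendental_iff.1 ht) P h1
  have f1 : FaithfulSMul κ[X] κ⟮t⟯ := (faithfulSMul_iff_algebraMap_injective _ _).2 inj
  have s3 : IsFractionRing κ[X] κ⟮t⟯ := by
    apply IsFractionRing.of_field
    intro z
    obtain ⟨r, s, hrs⟩ := (mem_adjoin_simple_iff κ (z : L)).1 z.2
    refine ⟨r, s, ?_⟩
    apply (algebraMap κ⟮t⟯ L).injective
    rw [map_div₀, m3, m3]
    exact hrs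
  have key := ASL_930.not_pow_adjoin κ⟮t⟯ hc hpm hm (by
    rw [hAS, m2, map_mul, map_pow, aeval_X, aeval_C]) l hl 1 one_ne_zero ⟨z, hz⟩
  rwa [map_one, one_mul] at key

/-- if a `q`-th power of `y` is an `l`-th power, `(l, q) = 1`, then `y` is an `l`-th power -/
theorem pow_descend {L : Type*} [Field L] (F : Subfield L) {l q : ℕ} (h : l.Coprime q) {y b : L}
    (hy : y ∈ F) (hb : b ∈ F) (hy0 : y ≠ 0) (hl : 0 < l) (h1 : b ^ l = y ^ q) :
    ∃ z ∈ F, z ^ l = y := by
  have hbez : (l : ℤ) * Int.gcdA l q + q * Int.gcdB l q = 1 := by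
    have := Nat.gcd_eq_gcd_ab l q
    rw [h.gcd_eq_one] at this
    exact_mod_cast this.symm
  have hb0 : b ≠ 0 := by
    rintro rfl
    rw [zero_pow hl.ne'] at h1
    exact pow_ne_zero q hy0 h1.symm
  refine ⟨y ^ Int.gcdA l q * b ^ Int.gcdB l q, F.mul_mem (zpow_mem hy _) (zpow_mem hb _), ?_⟩
  have h2 : b ^ (l : ℤ) = y ^ (q : ℤ) := by simpa using h1
  rw [mul_pow, ← zpow_natCast, ← zpow_natCast, ← zpow_mul, ← zpow_mul, mul_comm _ (l : ℤ),
    mul_comm _ (l : ℤ), zpow_mul b, h2, ← zpow_mul, ← zpow_add₀ hy0, hbez, zpow_one]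

/-- `κ(τ)(σ, ζ) = κ(σ)(ζ)` if `τ` is a polynomial in `σ` -/
theorem mem_of_mem_adjoin {κ R : Type*} [Field κ] [Field R] [Algebra κ R] {τ σ ζ : R} {P : κ[X]}
    (hτ : τ = aeval σ P) {ι : Type*} {y : ι → R} (hy : ∀ i, y i = σ ∨ y i = ζ) {β : R}
    (hβ : β ∈ IntermediateField.adjoin κ⟮τ⟯ (Set.range y)) :
    β ∈ IntermediateField.adjoin κ⟮σ⟯ {ζ} := by
  have h1 : (IntermediateField.adjoin κ⟮τ⟯ (Set.range y)).restrictScalars κ ≤
      (IntermediateField.adjoin κ⟮σ⟯ {ζ}).restrictScalars κ := by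
    rw [IntermediateField.adjoin_adjoin_left, IntermediateField.adjoin_adjoin_left,
      IntermediateField.adjoin_le_iff, Set.union_subset_iff]
    have hσ : σ ∈ IntermediateField.adjoin κ ({σ} ∪ {ζ}) :=
      IntermediateField.subset_adjoin _ _ (Or.inl rfl)
    have hζ : ζ ∈ IntermediateField.adjoin κ ({σ} ∪ {ζ}) :=
      IntermediateField.subset_adjoin _ _ (Or.inr rfl)
    constructor
    · rw [Set.singleton_subset_iff]
      have h2 : τ ∈ Algebra.adjoin κ {σ} := by
        rw [hτ]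
        exact Polynomial.aeval_mem_adjoin_singleton _ _
      exact IntermediateField.adjoin_simple_le_iff.2 hσ (IntermediateField.algebra_adjoin_le_adjoin _ _ h2)
    · rintro _ ⟨i, rfl⟩
      rcases hy i with h | h
      · rw [h]; exact hσ
      · rw [h]; exact hζ
  exact h1 hβ

end res

section vertex

variable {k L M : Type*} [Field k] [Field L] [Field M] [Algebra k L] [Algebra L M] [Algebra k M]
  [IsScalarTower k L M] {v0 : Valuation k ℝ≥0} {w : Valuation M ℝ≥0} {t : L}

/-- the residue of `S` is transcendental if `t̄` is a polynomial in `S̄` -/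
theorem transc_of_poly [v0.HasExtension w] (hw : IsG v0 w (algebraMap L M t))
    {S : M} {P : (RF v0)[X]} (h : rs w (algebraMap L M t) = aeval (rs w S) P) :
    Transcendental (RF v0) (rs w S) := by
  have h1 := transc hw
  rw [h] at h1
  exact (transcendental_aeval_iff.1 h1).1

/-- **`z'` is not an `l`-th power in `M₂`.** -/
theorem not_pow_M2 [FiniteDimensional L M] [IsGalois L M] {p : ℕ} (hp : p.Prime)
    (hp1 : v0 (p : k) < 1)
    (hw : IsG v0 w (algebraMap L M t)) (hres : ResRat v0 w t)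
    {S Z : M} (hS : w S ≤ 1) (hZ : w Z ≤ 1) {m : ℕ} (hpm : ¬ p ∣ m) (hm : 0 < m)
    (hSZ : w (Z ^ p - Z - S ^ m) < 1)
    {f : k[X]} (hf : ∀ i, v0 (f.coeff i) ≤ 1) (hft : w (aeval S f - algebraMap L M t) < 1)
    {l : ℕ} (hl : 1 < l) (hpl : p.Coprime l) {s : ℕ} {z' : M} (hz' : w (z' - Z ^ p ^ s) < 1)
    {b : M} (hb : b ∈ M2 L w ![S, Z]) : ¬ w (b ^ l - z') < 1 := by
  intro hbz
  have := hasExt hw.ext
  have : Fact p.Prime := ⟨hp⟩
  have hchar : CharP (RF v0) p := charP_RF hp hp1
  have hwp : w (p : M) < 1 := by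
    have h1 := hw.ext (p : k)
    rw [map_natCast] at h1
    rwa [h1]
  have hpow : ∀ {x : M} (_ : w x ≤ 1) (n : ℕ), w (x ^ n) ≤ 1 := fun hx n => by
    rw [map_pow]; exact pow_le_one' hx n
  have hz1 : w z' ≤ 1 := by
    have h1 : z' = (z' - Z ^ p ^ s) + Z ^ p ^ s := by ring
    rw [h1]
    exact w.map_add_le hz'.le (hpow hZ _)
  have hb1 : w b ≤ 1 := by
    have h1 : w (b ^ l) ≤ 1 := by
      have h2 : b ^ l = (b ^ l - z') + z' := by ring
      rw [h2]
      exact w.map_add_le hbz.le hz1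
    rw [map_pow] at h1
    exact (pow_le_one_iff (by omega)).1 h1
  -- residues
  set τ := rs w (algebraMap L M t) with hτ
  set σ := rs w S with hσ
  set ζ := rs w Z with hζ
  set β := rs w b with hβ
  obtain ⟨P, hP⟩ := rs_aeval hw.ext hS f hf
  have hτP : τ = aeval σ P := by
    rw [← hP, eq_comm, hτ, rs_eq_iff (aeval_val_le hw.ext hS f hf) hw.le]
    exact hft
  have hσt : Transcendental (RF v0) σ := transc_of_poly hw hτP
  have hAS : ζ ^ p - ζ = algebraMap (RF v0) (RF w) 1 * σ ^ m := by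
    rw [map_one, one_mul, ← rs_pow hZ, ← rs_sub (hpow hZ p) hZ, ← rs_pow hS,
      rs_eq_iff (w.map_sub_le (hpow hZ p) hZ) (hpow hS m)]
    exact hSZ
  have hζ0 : ζ ≠ 0 := by
    intro h0
    rw [h0, zero_pow hp.ne_zero, sub_zero, map_one, one_mul] at hAS
    have h1 : σ = 0 := by
      have := pow_eq_zero_iff (hm.ne') |>.1 hAS.symm
      exact this
    exact hσt (h1 ▸ isAlgebraic_zero)
  have hβl : β ^ l = ζ ^ p ^ s := by
    rw [← rs_pow hb1, ← rs_pow hZ, rs_eq_iff (hpow hb1 l) (hpow hZ _)]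
    have h1 : b ^ l - Z ^ p ^ s = (b ^ l - z') + (z' - Z ^ p ^ s) := by ring
    rw [h1]
    exact w.map_add_lt hbz hz'
  obtain ⟨r, n, hr, hn⟩ : ∃ r n, Nat.card (Dec L w) = p ^ r * n ∧ ¬ p ∣ n := by
    have h0 : Nat.card (Dec L w) ≠ 0 := Nat.card_pos.ne'
    obtain ⟨r, n, hn, h⟩ := Nat.exists_eq_pow_mul_and_not_dvd h0 p hp.ne_one
    exact ⟨r, n, h, hn⟩
  have hR := isRes hw hres
  have hmem := residue_M2 hR hp hwp hr hn ![S, Z] hb hb1
  -- compare the two fields
  have hrange : ∀ i, rs w ((![S, Z] : Fin 2 → M) i) = σ ∨ rs w ((![S, Z] : Fin 2 → M) i) = ζ := by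
    rw [Fin.forall_fin_two]
    exact ⟨Or.inl rfl, Or.inr rfl⟩
  set F := IntermediateField.adjoin (RF v0)⟮σ⟯ {ζ} with hF
  have hβF : β ^ p ^ r ∈ F := mem_of_mem_adjoin hτP hrange hmem
  have hζF : ζ ∈ F := IntermediateField.mem_adjoin_simple_self _ _
  obtain ⟨z, hzF, hz⟩ := pow_descend F.toSubfield (l := l) (q := p ^ (s + r))
    (Nat.Coprime.pow_right _ hpl.symm) hζF hβF hζ0 (by omega) (by
      rw [← pow_mul, mul_comm (p ^ r) l, pow_mul, hβl, ← pow_mul, pow_add])
  exact not_pow_mem hσt one_ne_zero ((Nat.Prime.coprime_iff_not_dvd hp).2 hpm) hm hAS l hl z hzF hz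

/-- **Lemma M2.** The two vertex functions in `M₂`. -/
theorem exists_vertex [FiniteDimensional L M] [IsGalois L M] {p : ℕ} (hp : p.Prime)
    (hp1 : v0 (p : k) < 1)
    (hw : IsG v0 w (algebraMap L M t)) (hres : ResRat v0 w t)
    {S Z : M} (hS : w S ≤ 1) (hZ : w Z ≤ 1) {m : ℕ} (hpm : ¬ p ∣ m) (hm : 0 < m)
    (hSZ : w (Z ^ p - Z - S ^ m) < 1)
    {f : k[X]} (hf : ∀ i, v0 (f.coeff i) ≤ 1) (hft : w (aeval S f - algebraMap L M t) < 1) :
    ∃ s' ∈ M2 L w ![S, Z], ∃ z' ∈ M2 L w ![S, Z], w s' = 1 ∧ w z' = 1 ∧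
      w (z' ^ p - z' - s' ^ m) < 1 ∧
      ∀ (l : ℕ), 1 < l → p.Coprime l → ∀ b ∈ M2 L w ![S, Z], ¬ w (b ^ l - z') < 1 := by
  have := hasExt hw.ext
  have : Fact p.Prime := ⟨hp⟩
  have hchar : CharP (RF v0) p := charP_RF hp hp1
  have hwp : w (p : M) < 1 := by
    have h1 := hw.ext (p : k)
    rw [map_natCast] at h1
    rwa [h1]
  have hchar' : CharP (RF w) p := charP_RFw hp hwp
  have hpow : ∀ {x : M} (_ : w x ≤ 1) (n : ℕ), w (x ^ n) ≤ 1 := fun hx n => by
    rw [map_pow]; exact pow_le_one' hx n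
  have hy : ∀ i, w ((![S, Z] : Fin 2 → M) i) ≤ 1 := by
    intro i
    fin_cases i
    · exact hS
    · exact hZ
  obtain ⟨s, n, hs, hn⟩ : ∃ s n, Nat.card (HH L w ![S, Z]) = p ^ s * n ∧ ¬ p ∣ n := by
    have h0 : Nat.card (HH L w ![S, Z]) ≠ 0 := Nat.card_pos.ne'
    obtain ⟨r, n, hn, h⟩ := Nat.exists_eq_pow_mul_and_not_dvd h0 p hp.ne_one
    exact ⟨r, n, h, hn⟩
  obtain ⟨s', hs'⟩ := exists_lift_pow hp hwp hy hs hn 0
  obtain ⟨z', hz'⟩ := exists_lift_pow hp hwp hy hs hn 1
  change w ((s' : M) - S ^ p ^ s) < 1 at hs'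
  change w ((z' : M) - Z ^ p ^ s) < 1 at hz'
  have hs1 : w (s' : M) ≤ 1 := by
    have h1 : (s' : M) = (s' - S ^ p ^ s) + S ^ p ^ s := by ring
    rw [h1]
    exact w.map_add_le hs'.le (hpow hS _)
  have hz1 : w (z' : M) ≤ 1 := by
    have h1 : (z' : M) = (z' - Z ^ p ^ s) + Z ^ p ^ s := by ring
    rw [h1]
    exact w.map_add_le hz'.le (hpow hZ _)
  -- residues
  set σ := rs w S with hσ
  set ζ := rs w Z with hζ
  obtain ⟨P, hP⟩ := rs_aeval hw.ext hS f hf
  have hτP : rs w (algebraMap L M t) = aeval σ P := by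
    rw [← hP, eq_comm, rs_eq_iff (aeval_val_le hw.ext hS f hf) hw.le]
    exact hft
  have hσt : Transcendental (RF v0) σ := transc_of_poly hw hτP
  have hAS : ζ ^ p - ζ = σ ^ m := by
    rw [← rs_pow hZ, ← rs_sub (hpow hZ p) hZ, ← rs_pow hS,
      rs_eq_iff (w.map_sub_le (hpow hZ p) hZ) (hpow hS m)]
    exact hSZ
  have hrs : rs w (s' : M) = σ ^ p ^ s := by
    rw [← rs_pow hS, rs_eq_iff hs1 (hpow hS _)]; exact hs'
  have hrz : rs w (z' : M) = ζ ^ p ^ s := by
    rw [← rs_pow hZ, rs_eq_iff hz1 (hpow hZ _)]; exact hz'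
  have hσ0 : σ ≠ 0 := by
    intro h0
    exact hσt (h0 ▸ isAlgebraic_zero)
  have hS1 : w (s' : M) = 1 := by
    refine le_antisymm hs1 ?_
    by_contra hlt
    push Not at hlt
    rw [← rs_eq_zero_iff hs1, hrs] at hlt
    exact pow_ne_zero _ hσ0 hlt
  have hAS' : w ((z' : M) ^ p - z' - (s' : M) ^ m) < 1 := by
    have h1 : w ((z' : M) ^ p - z') ≤ 1 := w.map_sub_le (hpow hz1 p) hz1
    rw [← rs_eq_iff h1 (hpow hs1 m), rs_sub (hpow hz1 p) hz1, rs_pow hz1, rs_pow hs1, hrs, hrz,
      ← pow_mul, ← pow_mul, mul_comm _ m, pow_mul σ m, ← hAS, mul_comm _ p, pow_mul ζ p,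
      sub_pow_char_pow]
  refine ⟨s', s'.2, z', z'.2, hS1, ?_, hAS', fun l hl hpl b hb =>
    not_pow_M2 hp hp1 hw hres hS hZ hpm hm hSZ hf hft hl hpl hz' hb⟩
  have h2 : w ((s' : M) ^ m) = 1 := by rw [map_pow, hS1, one_pow]
  exact AVal_168.as_val_eq_one hp.one_lt h2 hAS'

end vertex

end Crest.Agent.R013.M2b_797
end

-- ▼ part R013/M2c_797
section

/-!
# R013 / M2c (helper797): Lemma M2 inside a big field `Ω`

`kb ⊂ L ⊂ Ω`, `v` a norm on `Ω`, Gauss for `t ∈ L` over the constants `kb`, `L` inside the closure of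
`kb(t)`; `N/L` finite Galois inside `Ω`.
-/

set_option autoImplicit false
set_option linter.unusedSectionVars false

namespace Crest.Agent.R013.M2c_797

open IsLocalRing Polynomial Module IntermediateField
open scoped NNReal
open Crest.Agent.R013.ResP_168 Crest.Agent.R013.LiftA_168 Crest.Agent.R013.NP_168
  Crest.Agent.R013.M2_797 Crest.Agent.R013.M2b_797 Crest.Agent.R013.SE_669 Crest.Agent.R013.Cof1_669

variable {k L Ω : Type*} [Field k] [Field L] [Field Ω] [Algebra k L] [Algebra L Ω] [Algebra k Ω]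
  [IsScalarTower k L Ω] {v0 : Valuation k ℝ≥0} {v : Valuation Ω ℝ≥0} {t : L}

/-- residues of `L` are rational functions in `t̄` as soon as `L` is in the closure of `k(t)` -/
theorem resRat_of_cl (hw : IsG v0 v (algebraMap L Ω t))
    (h : ∀ a : L, algebraMap L Ω a ∈ cl v (IntermediateField.adjoin k {algebraMap L Ω t} : Set Ω)) :
    ResRat v0 v t := by
  intro a ha
  obtain ⟨b, hb, hab⟩ := h a 1 one_pos
  rw [SetLike.mem_coe, mem_adjoin_simple_iff] at hb
  obtain ⟨F, G, rfl⟩ := hb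
  by_cases hG : G = 0
  · refine ⟨0, 1, fun i => by simp, fun i => ?_, by simp, ?_⟩
    · rw [coeff_one]
      split_ifs
      · rw [map_one]
      · rw [map_zero]; exact zero_le
    · rw [hG, map_zero, div_zero, sub_zero] at hab
      simpa using hab
  · obtain ⟨j, hj, -⟩ := exists_max_coeff v0 G
    have hj0 : v0 (G.coeff j) ≠ 0 := by
      intro h0
      apply hG
      ext i
      have h1 := hj i
      rw [h0, le_zero_iff, map_eq_zero] at h1
      rw [h1, coeff_zero]
    have hcj : G.coeff j ≠ 0 := by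
      intro h0
      rw [h0, map_zero] at hj0
      exact hj0 rfl
    set u := (G.coeff j)⁻¹ with hu
    have hu0 : u ≠ 0 := inv_ne_zero hcj
    have hG1 : ∀ i, v0 ((C u * G).coeff i) ≤ 1 := by
      intro i
      rw [coeff_C_mul, map_mul, hu, map_inv₀, inv_mul_le_one₀ (zero_lt_iff.2 hj0)]
      exact hj i
    have hGj : v0 ((C u * G).coeff j) = 1 := by
      rw [coeff_C_mul, hu, inv_mul_cancel₀ hcj, map_one]
    have hGt : v (aeval (algebraMap L Ω t) (C u * G)) = 1 := by
      rw [hw.aeval_eq (C u * G) (j := j) (fun i => by rw [hGj]; exact hG1 i), hGj]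
    have hGt0 : aeval (algebraMap L Ω t) (C u * G) ≠ 0 := by
      intro h0
      rw [h0, map_zero] at hGt
      exact zero_ne_one hGt
    have hdiv : aeval (algebraMap L Ω t) F / aeval (algebraMap L Ω t) G =
        aeval (algebraMap L Ω t) (C u * F) / aeval (algebraMap L Ω t) (C u * G) := by
      rw [map_mul, map_mul, mul_div_mul_left]
      rw [aeval_C]
      exact (_root_.map_ne_zero _).2 hu0
    rw [hdiv] at hab
    have hFt : v (aeval (algebraMap L Ω t) (C u * F)) ≤ 1 := by
      have h1 : aeval (algebraMap L Ω t) (C u * F) = aeval (algebraMap L Ω t) (C u * G) *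
          (algebraMap L Ω a - (algebraMap L Ω a -
            aeval (algebraMap L Ω t) (C u * F) / aeval (algebraMap L Ω t) (C u * G))) := by
        rw [sub_sub_cancel, mul_div_cancel₀ _ hGt0]
      rw [h1, map_mul, hGt, one_mul]
      exact v.map_sub_le ha hab.le
    refine ⟨C u * F, C u * G, fun i => (hw.coeff_le _ i).trans hFt, hG1, hGt, ?_⟩
    have h2 : algebraMap L Ω a * aeval (algebraMap L Ω t) (C u * G) -
        aeval (algebraMap L Ω t) (C u * F) = (algebraMap L Ω a -
          aeval (algebraMap L Ω t) (C u * F) / aeval (algebraMap L Ω t) (C u * G)) *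
            aeval (algebraMap L Ω t) (C u * G) := by
      rw [sub_mul, div_mul_cancel₀ _ hGt0]
    rw [h2, map_mul, hGt, mul_one]
    exact hab

/-- **Lemma M2** inside `Ω`. -/
theorem exists_vertex_field {N : IntermediateField L Ω} [FiniteDimensional L N] [IsGalois L N]
    {p : ℕ} (hp : p.Prime) (hp1 : v0 (p : k) < 1)
    (hw : IsG v0 v (algebraMap L Ω t)) (hres : ResRat v0 v t)
    {S Z : Ω} (hSN : S ∈ N) (hZN : Z ∈ N) (hS : v S ≤ 1) (hZ : v Z ≤ 1) {m : ℕ} (hpm : ¬ p ∣ m)
    (hm : 0 < m) (hSZ : v (Z ^ p - Z - S ^ m) < 1)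
    {f : k[X]} (hf : ∀ i, v0 (f.coeff i) ≤ 1) (hft : v (aeval S f - algebraMap L Ω t) < 1) :
    ∃ (E : IntermediateField L Ω), E ≤ N ∧ ∃ s' ∈ E, ∃ z' ∈ E, v s' = 1 ∧ v z' = 1 ∧
      v (z' ^ p - z' - s' ^ m) < 1 ∧
      ∀ (l : ℕ), 1 < l → p.Coprime l → ∀ b ∈ E, ¬ v (b ^ l - z') < 1 := by
  set w : Valuation N ℝ≥0 := v.comap (algebraMap N Ω) with hwdef
  have hwv : ∀ x : N, w x = v (x : Ω) := fun x => rfl
  haveI : IsScalarTower k N Ω := IsScalarTower.of_algebraMap_eq fun c => rfl
  have hae : ∀ (g : k[X]) (x : N), ((aeval x g : N) : Ω) = aeval (x : Ω) g := by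
    intro g x
    change algebraMap N Ω (aeval x g) = _
    rw [← aeval_algebraMap_apply]
    rfl
  have hw' : IsG v0 w (algebraMap L N t) := by
    refine ⟨fun c => ?_, hw.le, fun g i => ?_⟩
    · rw [← hw.ext c]
      rfl
    · rw [hwv, hae]
      exact hw.coeff_le g i
  have hres' : ResRat v0 w t := by
    intro a ha
    obtain ⟨F, G, hF, hG, h1, h2⟩ := hres a ha
    refine ⟨F, G, hF, hG, ?_, ?_⟩
    · rw [hwv, hae]
      exact h1
    · rw [hwv]
      have h3 : ((algebraMap L N a * aeval (algebraMap L N t) G - aeval (algebraMap L N t) F : N) : Ω) =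
          algebraMap L Ω a * aeval (algebraMap L Ω t) G - aeval (algebraMap L Ω t) F := by
        push_cast
        rw [hae, hae]
        rfl
      rw [h3]
      exact h2
  obtain ⟨s', hs', z', hz', h1, h2, h3, h4⟩ := exists_vertex (S := (⟨S, hSN⟩ : N))
    (Z := (⟨Z, hZN⟩ : N)) hp hp1 hw' hres' hS hZ hpm hm hSZ hf (by
      rw [hwv]
      have h3 : ((aeval (⟨S, hSN⟩ : N) f - algebraMap L N t : N) : Ω) =
          aeval S f - algebraMap L Ω t := by
        rw [AddSubgroupClass.coe_sub, hae]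
        rfl
      rw [h3]
      exact hft)
  refine ⟨IntermediateField.lift (M2 L w ![(⟨S, hSN⟩ : N), (⟨Z, hZN⟩ : N)]),
    IntermediateField.lift_le _, s', ?_, z', ?_, h1, h2, h3, ?_⟩
  · exact (IntermediateField.mem_lift s').2 hs'
  · exact (IntermediateField.mem_lift z').2 hz'
  · intro l hl hpl b hb
    have hbN : b ∈ N := IntermediateField.lift_le _ hb
    exact h4 l hl hpl ⟨b, hbN⟩ ((IntermediateField.mem_lift (⟨b, hbN⟩ : N)).1 hb)

end Crest.Agent.R013.M2c_797
end

-- ▼ part R013/VSup1_797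
section

/-!
# R013 / VSup1 (helper797): vertex data from `GOOD'`

`VSupply p` of `VData_803`: the data of `GoodAt` give the vertex data `VData`, with the same
`C, π, q, c, R, v`.  The field `M` is `K C (s', z')` where `s', z'` are the vertex functions of
Lemma M2 (`M2c_797.exists_vertex_field`) over `K k̄`.
-/

set_option autoImplicit false
set_option linter.unusedSectionVars false
set_option linter.style.haveILetI false

namespace Crest.Agent.R013.VSup1_797

open scoped NNReal Topology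
open Filter Polynomial IntermediateField Crest.NumberTheoryR.Sect
open Crest.Agent.R013.A2a_275 Crest.Agent.R013.Gl946
open Crest.Agent.R013.ResP_168 Crest.Agent.R013.LiftA_168 Crest.Agent.R013.NP_168
open Crest.Agent.R013.SE_669 Crest.Agent.R013.CGood_588 Crest.Agent.R013.GoodP_797
open Crest.Agent.R013.Cof1_669 Crest.Agent.R013.Cof2_669 Crest.Agent.R013.Cof5_669
open Crest.Agent.R013.Set_803 Crest.Agent.R013.VData_803 Crest.Agent.R013.BTor6_914
open Crest.Agent.R013.M2c_797

variable {p : ℕ} [Fact p.Prime] {k : Type*} [Field k] [Algebra ℚ_[p] k] {K : Type*} [Field K]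
  [Algebra k K]

local notation "Kb" => AlgebraicClosure K

/-! ### the closure of `kb(t)` -/

/-- an element expanded on the disc is in the closure of any subfield containing `C` and `x` -/
theorem mem_cl_of_rep [FiniteDimensional ℚ_[p] k] {Ω : Type*} [Field Ω] [Algebra k Ω]
    {P v : Valuation Ω ℝ≥0} {C : IntermediateField k Ω} {R : ℝ≥0} {x q c : Ω}
    [FiniteDimensional k C] (D : DiscData p v P C R x q c) {f : Ω} {G H : PowerSeries C}
    (h : IsRep v P C R x f G H) {F : Subfield Ω} (hC : ∀ a : C, (a : Ω) ∈ F) (hx : x ∈ F) :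
    f ∈ cl v (F : Set Ω) := by
  intro ε hε
  have e1 := h.v_eq (hR := D.hR) (hx := D.hx)
  have hH : evW v C R D.hR x D.hx ⟨H, mem_BS.2 h.bH⟩ ≠ 0 := by
    intro h0
    have h1 := D.evW_injective (h0.trans (map_zero _).symm)
    exact h.ne (congrArg Subtype.val h1)
  have hf : toCpl v f = evW v C R D.hR x D.hx ⟨G, mem_BS.2 h.bG⟩ /
      evW v C R D.hR x D.hx ⟨H, mem_BS.2 h.bH⟩ := by
    rw [eq_div_iff hH, e1]
  have t1 := tendsto_psum (hx := D.hx) (⟨G, mem_BS.2 h.bG⟩ : BS v C R D.hR)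
  have t2 := tendsto_psum (hx := D.hx) (⟨H, mem_BS.2 h.bH⟩ : BS v C R D.hR)
  have t3 := (t1.div t2 hH).const_sub (toCpl v f)
  rw [← hf, sub_self] at t3
  have t4 := t3.norm
  rw [norm_zero] at t4
  obtain ⟨n, hn⟩ := ((t4.eventually (gt_mem_nhds (show (0 : ℝ) < ε from hε))).exists)
  have hps : ∀ G : PowerSeries C, psum (cf G) x n ∈ F := by
    intro G
    exact F.sum_mem fun i _ => F.mul_mem (hC _) (F.pow_mem hx i)
  refine ⟨psum (cf G) x n / psum (cf H) x n, F.div_mem (hps G) (hps H), ?_⟩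
  have h3 : ‖toCpl v (f - psum (cf G) x n / psum (cf H) x n)‖ < ε := by
    rw [map_sub, map_div₀]
    exact hn
  rw [norm_toCpl] at h3
  exact_mod_cast h3

/-! ### Galois extensions of `K k̄` inside `maxUnramified` -/

theorem kb_le_max [CharZero k] [Algebra (RatFunc k) K] [IsScalarTower k (RatFunc k) K]
    [FunctionField k K] {a : Kb} (ha : a ∈ kb k K) : a ∈ maxUnramified k K :=
  MaxUnr_97.mem_maxUnramified_of_isIntegral _ (mem_kb.1 ha)

theorem Kgeo_le_max [CharZero k] [Algebra (RatFunc k) K] [IsScalarTower k (RatFunc k) K]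
    [FunctionField k K] : Kgeo k K ≤ maxUnramified k K := by
  unfold Kgeo
  rw [IntermediateField.adjoin_le_iff]
  exact fun a ha => kb_le_max ha

theorem exists_galois [CharZero k] [Algebra (RatFunc k) K] [IsScalarTower k (RatFunc k) K]
    [FunctionField k K] (s : Finset Kb) (hs : ∀ a ∈ s, a ∈ maxUnramified k K) :
    ∃ N : IntermediateField (Kgeo k K) Kb, FiniteDimensional (Kgeo k K) N ∧
      IsGalois (Kgeo k K) N ∧ (∀ a ∈ s, a ∈ N) ∧ ∀ a ∈ N, a ∈ maxUnramified k K := by
  haveI : CharZero K := charZero_of_injective_algebraMap (algebraMap k K).injective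
  haveI : CharZero (Kgeo k K) := charZero_of_injective_algebraMap (algebraMap K (Kgeo k K)).injective
  haveI : Normal (Kgeo k K) Kb := Normal.tower_top_of_normal K _ _
  have hL : Kgeo k K ≤ maxUnramified k K := Kgeo_le_max
  let MU : IntermediateField (Kgeo k K) Kb := IntermediateField.extendScalars hL
  haveI hMU : Normal (Kgeo k K) MU := by
    rw [IntermediateField.normal_iff_forall_map_le]
    intro σ a ha
    obtain ⟨b, hb, rfl⟩ := ha
    have h1 := (IntermediateField.normal_iff_forall_map_le.1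
      (inferInstance : Normal K (maxUnramified k K))) (σ.restrictScalars K)
    exact h1 ⟨b, hb, rfl⟩
  let A : IntermediateField (Kgeo k K) Kb := IntermediateField.adjoin _ (s : Set Kb)
  haveI : FiniteDimensional (Kgeo k K) A := by
    refine IntermediateField.finiteDimensional_adjoin fun x _ => ?_
    exact (Algebra.IsIntegral.isIntegral (R := K) x).tower_top
  have hA : A ≤ MU := by
    rw [IntermediateField.adjoin_le_iff]
    exact fun a ha => hs a ha
  refine ⟨normalClosure (Kgeo k K) A Kb, inferInstance, {}, ?_, ?_⟩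
  · intro a ha
    exact IntermediateField.le_normalClosure A (IntermediateField.subset_adjoin _ _ ha)
  · intro a ha
    exact IntermediateField.normalClosure_le_iff_of_normal.2 hA ha

/-! ### the constants -/

/-- the algebra `kb → K k̄` -/
@[reducible] noncomputable def algGeo (k : Type*) [Field k] (K : Type*) [Field K] [Algebra k K] :
    Algebra (kb k K) (Kgeo k K) :=
  RingHom.toAlgebra
    { toFun := fun a => ⟨(a : AlgebraicClosure K), kb_le_Kgeo a.2⟩
      map_one' := rfl
      map_mul' := fun _ _ => rfl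
      map_zero' := rfl
      map_add' := fun _ _ => rfl }

theorem isG_kb {v : Valuation Kb ℝ≥0} {C : IntermediateField k Kb} {t : Kb} (hG : GaussAt C t v) :
    IsG (v.comap (algebraMap (kb k K) Kb)) v t := by
  have hG' : GaussAt (kb k K) t v := Set_803.GaussAt.mono hG fun a ha =>
    mem_algebraicClosure_iff.1 ha
  refine ⟨fun c => rfl, (gaussAt_norm hG).le, fun f i => ?_⟩
  by_cases hi : i < f.natDegree + 1
  · have h1 := hG' (f.natDegree + 1) (fun i => ((f.coeff i : kb k K) : Kb)) (fun i => (f.coeff i).2)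
    rw [psum_eq_aeval f t _ (Nat.lt_succ_self _)] at h1
    rw [h1]
    exact Finset.le_sup (f := fun i => v ((f.coeff i : kb k K) : Kb)) (Finset.mem_range.2 hi)
  · rw [f.coeff_eq_zero_of_natDegree_lt (by omega), map_zero]
    exact zero_le

/-! ### vertex data from a tower vertex -/

/-- **Vertex data from a tower vertex**: `S, Z ∈ maxUnramified`, `Z ^ p - Z ≡ S ^ m`, the coordinate
`t` being congruent to a polynomial in `S` over `k̄`. -/
theorem vdata_of_tower [FiniteDimensional ℚ_[p] k] [Algebra (RatFunc k) K]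
    [IsScalarTower k (RatFunc k) K] [FunctionField k K] {P : Valuation Kb ℝ≥0} {x : K}
    (hP : IsRationalPlace k K (P.comap (algebraMap K Kb)))
    (hx : IsUniformizerAt (P.comap (algebraMap K Kb)) x)
    {η : ℝ≥0} (hη : η ≤ 1) {C : IntermediateField k Kb} (hC : FiniteDimensional k C)
    {π q c : Kb} {v : Valuation Kb ℝ≥0} (hπC : π ∈ C) (hqC : q ∈ C) (hcC : c ∈ C)
    (hπ0 : π ≠ 0) (hc0 : c ≠ 0) (hvq : v q < η * v π) (hvc : v c < η * v π)
    (hv : ExtendsPadicNorm k Kb p v) {R : ℝ≥0} (hR : v π < η * R)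
    (hD : DiscEmb K C P (algebraMap K Kb x) R v)
    (hG : GaussAt C ((algebraMap K Kb x - q) / c) v)
    {S Z : Kb} (hSu : S ∈ maxUnramified k K) (hZu : Z ∈ maxUnramified k K)
    (hS : v S ≤ 1) (hZ : v Z ≤ 1) {m : ℕ} (hm : 2 ≤ m) (hpm : ¬ p ∣ m)
    (hSZ : v (Z ^ p - Z - S ^ m) < 1) {f : (kb k K)[X]}
    (hf : ∀ i, v ((f.coeff i : kb k K) : Kb) ≤ 1)
    (hft : v (aeval S f - (algebraMap K Kb x - q) / c) < 1) :
    ∃ (M : IntermediateField K Kb) (l : ℕ) (Y : Kb), VData p k K P x η C π q c R v M l Y := by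
  classical
  haveI := hC
  haveI : CharZero k := charZero_of_injective_algebraMap (algebraMap ℚ_[p] k).injective
  have hp : p.Prime := Fact.out
  set X0 : Kb := algebraMap K Kb x with hX0
  set t : Kb := (X0 - q) / c with ht
  have D : DiscData p v P C R X0 q c := discData_of_good hP hx hη hqC hcC hc0 hvq hvc hv hR hG
  have hCkb : ∀ a ∈ C, a ∈ kb k K := fun a ha => le_kb C ha
  -- the coordinate in `K k̄`
  have hX0g : X0 ∈ Kgeo k K := (Kgeo k K).algebraMap_mem x
  have htg : t ∈ Kgeo k K := by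
    rw [ht]
    exact div_mem (sub_mem hX0g (kb_le_Kgeo (hCkb q hqC))) (kb_le_Kgeo (hCkb c hcC))
  letI : Algebra (kb k K) (Kgeo k K) := algGeo k K
  haveI : IsScalarTower (kb k K) (Kgeo k K) Kb := IsScalarTower.of_algebraMap_eq fun a => rfl
  let t0 : Kgeo k K := ⟨t, htg⟩
  let v0 : Valuation (kb k K) ℝ≥0 := v.comap (algebraMap (kb k K) Kb)
  have hw : IsG v0 v (algebraMap (Kgeo k K) Kb t0) := isG_kb hG
  -- the closure
  have hcl : ∀ a : Kgeo k K, algebraMap (Kgeo k K) Kb a ∈
      cl v (IntermediateField.adjoin (kb k K) {algebraMap (Kgeo k K) Kb t0} : Set Kb) := by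
    set F : Subfield Kb :=
      (IntermediateField.adjoin (kb k K) {algebraMap (Kgeo k K) Kb t0}).toSubfield with hF
    have hkF : ∀ a ∈ kb k K, a ∈ F := fun a ha =>
      (IntermediateField.adjoin (kb k K) {algebraMap (Kgeo k K) Kb t0}).algebraMap_mem ⟨a, ha⟩
    have htF : t ∈ F := IntermediateField.mem_adjoin_simple_self (kb k K) _
    have hxF : X0 ∈ F := by
      have h1 : X0 = q + c * t := D.x_eq
      rw [h1]
      exact F.add_mem (hkF q (hCkb q hqC)) (F.mul_mem (hkF c (hCkb c hcC)) htF)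
    have hKF : ∀ g : K, algebraMap K Kb g ∈ clF v F := by
      intro g
      obtain ⟨G, H, h⟩ := DiscData.isRep_of_discEmb hD g
      exact mem_cl_of_rep D h (fun a => hkF _ (hCkb _ a.2)) hxF
    have h1 : Kgeo k K ≤ (clF v F).toIntermediateField hKF := by
      unfold Kgeo
      rw [IntermediateField.adjoin_le_iff]
      intro a ha
      exact subset_cl v _ (hkF a ha)
    intro a
    exact h1 a.2
  have hres : ResRat v0 v t0 := resRat_of_cl hw hcl
  have hp1 : v0 (p : kb k K) < 1 := by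
    have h1 : v0 (p : kb k K) = v (p : Kb) := by
      change v (algebraMap (kb k K) Kb (p : kb k K)) = _
      rw [map_natCast]
    rw [h1, val_p hv]
    exact inv_lt_one_of_one_lt₀ (by exact_mod_cast hp.one_lt)
  obtain ⟨N, hN1, hN2, hN3, hN4⟩ := exists_galois (k := k) (K := K) {S, Z} (by
    intro a ha
    rw [Finset.mem_insert, Finset.mem_singleton] at ha
    rcases ha with rfl | rfl
    · exact hSu
    · exact hZu)
  obtain ⟨E, hEN, s', hs', z', hz', h1, h2, h3, h4⟩ := exists_vertex_field (N := N) hp hp1 hw hres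
    (hN3 S (by simp)) (hN3 Z (by simp)) hS hZ hpm (by omega) hSZ hf hft
  -- the prime
  obtain ⟨l, hl, hlm⟩ := Nat.exists_prime_and_dvd (n := m) (by omega)
  have hlp : l ≠ p := by
    rintro rfl
    exact hpm hlm
  have hpl : p.Coprime l := (Nat.coprime_primes hp hl).2 hlp.symm
  have hpcm : p.Coprime m := (Nat.Prime.coprime_iff_not_dvd hp).2 hpm
  -- the field
  set M : IntermediateField K Kb := KC K C ⊔ IntermediateField.adjoin K {s', z'} with hM
  have hCM : ∀ a ∈ C, a ∈ M := fun a ha => (le_sup_left : KC K C ≤ M) (le_KC ha)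
  have hsM : s' ∈ M := (le_sup_right : IntermediateField.adjoin K {s', z'} ≤ M)
    (IntermediateField.subset_adjoin _ _ (Or.inl rfl))
  have hzM : z' ∈ M := (le_sup_right : IntermediateField.adjoin K {s', z'} ≤ M)
    (IntermediateField.subset_adjoin _ _ (Or.inr rfl))
  have hMU : M ≤ maxUnramified k K := by
    refine sup_le ?_ ?_
    · unfold KC
      rw [IntermediateField.adjoin_le_iff]
      exact fun a ha => kb_le_max (hCkb a ha)
    · rw [IntermediateField.adjoin_le_iff]
      rintro a (rfl | rfl)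
      · exact hN4 _ (hEN hs')
      · exact hN4 _ (hEN hz')
  haveI hfin : FiniteDimensional K M := by
    haveI : FiniteDimensional K (KC K C) := finite_KC C
    haveI : FiniteDimensional K (IntermediateField.adjoin K {s', z'}) :=
      IntermediateField.finiteDimensional_adjoin fun a _ => Algebra.IsIntegral.isIntegral a
    exact IntermediateField.finiteDimensional_sup _ _
  have hLE : ∀ a ∈ Lbar k M, a ∈ E := by
    have hKE : ∀ a : K, algebraMap K Kb a ∈ E := fun a => by
      have h5 := E.algebraMap_mem (algebraMap K (Kgeo k K) a)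
      rwa [← IsScalarTower.algebraMap_apply] at h5
    have hkE : ∀ a ∈ kb k K, a ∈ E := fun a ha => E.algebraMap_mem (⟨a, kb_le_Kgeo ha⟩ : Kgeo k K)
    have h5 : Lbar k M ≤ E.restrictScalars K := by
      unfold Lbar
      refine sup_le (sup_le ?_ ?_) ?_
      · unfold KC
        rw [IntermediateField.adjoin_le_iff]
        exact fun a ha => hkE a (hCkb a ha)
      · rw [IntermediateField.adjoin_le_iff]
        rintro a (rfl | rfl)
        · exact hs'
        · exact hz'
      · rw [IntermediateField.adjoin_le_iff]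
        intro a ha
        exact hkE a (mem_kb.2 ha)
    exact fun a ha => h5 ha
  have hML : M ≤ Lbar k M := le_sup_left
  refine ⟨M, l, z', hC, hπC, hqC, hcC, hπ0, hc0, hv, hvq, hvc, hR, hD, hG, hfin, hCM, hMU, hl, hlp,
    hzM, h2, ?_, ?_⟩
  · intro A hA
    set w : Valuation (Lbar k M) ℝ≥0 := v.comap (algebraMap (Lbar k M) Kb) with hwd
    have hA' : A ≤ w.valuationSubring := fun a ha => hA a ha
    have h6 : w ((⟨z', hML hzM⟩ : Lbar k M) ^ p - ⟨z', hML hzM⟩ - 1 * (⟨s', hML hsM⟩ : Lbar k M) ^ m) < 1 := by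
      rw [one_mul]
      exact h3
    exact AVal_168.exists_unit_mul_pow (w := w) (A := A) (y := (⟨z', hML hzM⟩ : Lbar k M))
      (t := (⟨s', hML hsM⟩ : Lbar k M)) (a := 1) (h := (⟨z', hML hzM⟩ : Lbar k M)) hp.one_lt hpcm hlm hA'
      (map_one _) (map_one _) h1 h6 (by rw [sub_self, map_zero]; exact zero_lt_one)
  · intro g hg hlt
    rw [Valuation.map_sub_swap] at hlt
    exact h4 l hl.one_lt hpl g (hLE g hg) hlt

end Crest.Agent.R013.VSup1_797
end

-- ▼ part R013/VSup2_797
section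

/-!
# R013 / VSup2 (helper797): the theorem `VSupply p`

Artin-Schreier vertices and, for `p = 2`, `ℤ/4`-vertices as tower vertices.
-/

set_option autoImplicit false
set_option linter.unusedSectionVars false
set_option linter.style.haveILetI false

namespace Crest.Agent.R013.VSup2_797

open scoped NNReal Topology
open Filter Polynomial IntermediateField Crest.NumberTheoryR.Sect
open Crest.Agent.R013.SE_669 Crest.Agent.R013.CGood_588 Crest.Agent.R013.GoodP_797
open Crest.Agent.R013.Cof1_669 Crest.Agent.R013.Cof2_669 Crest.Agent.R013.Cof5_669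
open Crest.Agent.R013.Set_803 Crest.Agent.R013.VData_803 Crest.Agent.R013.VSup1_797

/-- roots of monic polynomials with integral coefficients are integral -/
theorem le_one_of_root {Ω : Type*} [Field Ω] {v : Valuation Ω ℝ≥0} {a b : Ω} {n : ℕ} (hn : 1 < n)
    {e : Ω} (he : v e ≤ 1) (hb : v b ≤ 1) (h : a ^ n + e * a + b = 0) : v a ≤ 1 := by
  by_contra hlt
  push Not at hlt
  have h1 : a ^ n = -(e * a + b) := by linear_combination h
  have h2 : v (a ^ n) ≤ v a := by
    rw [h1, Valuation.map_neg]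
    refine v.map_add_le ?_ (hb.trans hlt.le)
    rw [map_mul]
    exact mul_le_of_le_one_left' he
  rw [map_pow] at h2
  have h3 : v a ^ 1 < v a ^ n := pow_lt_pow_right₀ hlt hn
  rw [pow_one] at h3
  exact absurd h2 (not_le.2 h3)

/-- the constants of the `ℤ/4` vertex -/
theorem exists_consts {k : Type*} [Field k] {K : Type*} [Field K] [Algebra k K]
    (v : Valuation (AlgebraicClosure K) ℝ≥0) :
    ∃ a b d : AlgebraicClosure K, a ∈ kb k K ∧ b ∈ kb k K ∧ d ∈ kb k K ∧ v a ≤ 1 ∧ v b ≤ 1 ∧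
      v d ≤ 1 ∧ a ^ 4 + a + 1 = 0 ∧ b ^ 2 = a ∧ d ^ 2 + d + (a ^ 3 + a) = 0 := by
  have hk : ∀ f : (kb k K)[X], f.degree ≠ 0 → ∃ a ∈ kb k K, eval₂ (algebraMap (kb k K) _) a f = 0 := by
    intro f hf
    obtain ⟨a, ha⟩ := IsAlgClosed.exists_eval₂_eq_zero
      (algebraMap (kb k K) (AlgebraicClosure K)) f hf
    by_cases hf0 : f = 0
    · exact ⟨0, zero_mem _, by rw [hf0, eval₂_zero]⟩
    refine ⟨a, ?_, ha⟩
    have h1 : IsAlgebraic (kb k K) a := ⟨f, hf0, ha⟩
    have h2 : IsAlgebraic k a := h1.restrictScalars k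
    exact mem_algebraicClosure_iff.2 h2
  obtain ⟨a, hak, ha⟩ := hk (X ^ 4 + (X + 1)) (by
    have h1 : (X ^ 4 + (X + 1) : (kb k K)[X]).degree = 4 := by compute_degree!
    rw [h1]; decide)
  have ha' : a ^ 4 + a + 1 = 0 := by
    simp only [eval₂_add, eval₂_pow, eval₂_X, eval₂_one] at ha
    linear_combination ha
  obtain ⟨b, hbk, hb⟩ := hk (X ^ 2 - C ⟨a, hak⟩) (by
    rw [degree_X_pow_sub_C two_pos]; decide)
  have hb' : b ^ 2 = a := by
    simp only [eval₂_sub, eval₂_pow, eval₂_X, eval₂_C] at hb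
    rw [sub_eq_zero] at hb
    exact hb
  have hadk : a ^ 3 + a ∈ kb k K := add_mem (pow_mem hak 3) hak
  obtain ⟨d, hdk, hd⟩ := hk (X ^ 2 + (X + C ⟨a ^ 3 + a, hadk⟩)) (by
    have h1 : (X ^ 2 + (X + C ⟨a ^ 3 + a, hadk⟩) : (kb k K)[X]).degree = 2 := by compute_degree!
    rw [h1]; decide)
  have hd' : d ^ 2 + d + (a ^ 3 + a) = 0 := by
    simp only [eval₂_add, eval₂_pow, eval₂_X, eval₂_C] at hd
    rw [← hd, add_assoc]
    rfl
  have hva : v a ≤ 1 := le_one_of_root (n := 4) (e := 1) (b := 1) (by norm_num) (by rw [map_one])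
    (by rw [map_one]) (by linear_combination ha')
  have hvb : v b ≤ 1 := by
    have h1 : v b ^ 2 ≤ 1 := by rw [← map_pow, hb']; exact hva
    exact (pow_le_one_iff (by norm_num)).1 h1
  have hvd : v d ≤ 1 := by
    refine le_one_of_root (n := 2) (e := 1) (b := a ^ 3 + a) (by norm_num) (by rw [map_one]) ?_
      (by linear_combination hd')
    refine v.map_add_le ?_ hva
    rw [map_pow]
    exact pow_le_one' hva 3
  exact ⟨a, b, d, hak, hbk, hdk, hva, hvb, hvd, ha', hb', hd'⟩

/-- **the `ℤ/4` vertex is a tower vertex with `m = 3`** -/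
theorem z4_tower {Ω : Type*} [Field Ω] {v : Valuation Ω ℝ≥0} (h2 : v 2 < 1) {a b d w u t : Ω}
    (ha : v a ≤ 1) (hb : v b ≤ 1) (hd : v d ≤ 1) (hw : v w ≤ 1) (hu : v u ≤ 1)
    (ha4 : a ^ 4 + a + 1 = 0) (hb2 : b ^ 2 = a) (hd2 : d ^ 2 + d + (a ^ 3 + a) = 0)
    (hwt : v (w ^ 2 + w - t) < 1) (hut : v (u ^ 2 + u - (w ^ 3 + w)) < 1) :
    v ((u + b * (w + a) + d) ^ 2 - (u + b * (w + a) + d) - (w + a) ^ 3) < 1 ∧
    v (((w + a) - a) ^ 2 + ((w + a) - a) - t) < 1 := by
  let O := v.valuationSubring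
  have hO : ∀ x : Ω, v x ≤ 1 → x ∈ O := fun x hx => hx
  -- everything in the ideal `v < 1`
  have hmul : ∀ {x y : Ω}, v x < 1 → v y ≤ 1 → v (x * y) < 1 := fun {x y} hx hy => by
    rw [map_mul]; exact mul_lt_one_of_lt_of_le hx hy
  have hc : v (a ^ 2 + 1 + b) < 1 := by
    have h3 : (a ^ 2 + 1 + b) ^ 2 = 2 * (a ^ 2 + a ^ 2 * b + b) := by
      linear_combination ha4 + hb2
    have h4 : v ((a ^ 2 + 1 + b) ^ 2) < 1 := by
      rw [h3]
      exact hmul h2 (O.add_mem _ _ (O.add_mem _ _ (O.pow_mem (hO a ha) 2)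
        (O.mul_mem _ _ (O.pow_mem (hO a ha) 2) (hO b hb))) (hO b hb))
    rw [map_pow] at h4
    exact lt_of_pow_lt_pow_left₀ 2 zero_le (by rwa [one_pow])
  have hwO := hO w hw
  have huO := hO u hu
  have haO := hO a ha
  have hbO := hO b hb
  have hdO := hO d hd
  constructor
  · have e : (u + b * (w + a) + d) ^ 2 - (u + b * (w + a) + d) - (w + a) ^ 3 =
        (u ^ 2 + u - (w ^ 3 + w)) + (a ^ 2 + 1 + b) * (w + a) +
        2 * ((u * b * (w + a) + u * d + b * (w + a) * d + a ^ 2 * (w + a)) -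
          (u + a * (w + a) ^ 2 + b * (w + a) + a ^ 3 + a + d)) := by
      linear_combination (w + a) ^ 2 * hb2 + hd2
    rw [e]
    have hSO := O.add_mem _ _ hwO haO
    refine v.map_add_lt (v.map_add_lt hut (hmul hc hSO)) (hmul h2 ?_)
    refine O.sub_mem (O.add_mem _ _ (O.add_mem _ _ (O.add_mem _ _ ?_ ?_) ?_) ?_)
      (O.add_mem _ _ (O.add_mem _ _ (O.add_mem _ _ (O.add_mem _ _ (O.add_mem _ _ huO ?_) ?_) ?_)
        haO) hdO)
    · exact O.mul_mem _ _ (O.mul_mem _ _ huO hbO) hSO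
    · exact O.mul_mem _ _ huO hdO
    · exact O.mul_mem _ _ (O.mul_mem _ _ hbO hSO) hdO
    · exact O.mul_mem _ _ (O.pow_mem haO 2) hSO
    · exact O.mul_mem _ _ haO (O.pow_mem hSO 2)
    · exact O.mul_mem _ _ hbO hSO
    · exact O.pow_mem haO 3
  · have e : ((w + a) - a) ^ 2 + ((w + a) - a) - t = w ^ 2 + w - t := by ring
    rw [e]
    exact hwt

/-- **`VSupply p`**: vertex data from `GOOD'`, pointwise. -/
theorem exists_vdata {p : ℕ} [Fact p.Prime] {k : Type*} [Field k] [Algebra ℚ_[p] k]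
    [FiniteDimensional ℚ_[p] k] {K : Type*} [Field K] [Algebra k K] [Algebra (RatFunc k) K]
    [IsScalarTower k (RatFunc k) K] [FunctionField k K]
    {P : Valuation (AlgebraicClosure K) ℝ≥0} {x : K}
    (hP : IsRationalPlace k K (P.comap (algebraMap K (AlgebraicClosure K))))
    (hx : IsUniformizerAt (P.comap (algebraMap K (AlgebraicClosure K))) x)
    {η : ℝ≥0} (hη : η ≤ 1) {C : IntermediateField k (AlgebraicClosure K)}
    (hC : FiniteDimensional k C) {π q c : AlgebraicClosure K}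
    {v : Valuation (AlgebraicClosure K) ℝ≥0} (hπC : π ∈ C) (hqC : q ∈ C) (hcC : c ∈ C)
    (hπ0 : π ≠ 0) (hc0 : c ≠ 0) (hvq : v q < η * v π) (hvc : v c < η * v π)
    (hv : ExtendsPadicNorm k (AlgebraicClosure K) p v) {R : ℝ≥0} (hR : v π < η * R)
    (hD : DiscEmb K C P (algebraMap K (AlgebraicClosure K) x) R v)
    (hG : GaussAt C ((algebraMap K (AlgebraicClosure K) x - q) / c) v)
    (hV : VertexEq p v (maxUnramified k K : Set (AlgebraicClosure K))
      ((algebraMap K (AlgebraicClosure K) x - q) / c)) :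
    ∃ (M : IntermediateField K (AlgebraicClosure K)) (l : ℕ) (Y : AlgebraicClosure K),
      VData p k K P x η C π q c R v M l Y := by
  haveI : CharZero k := charZero_of_injective_algebraMap (algebraMap ℚ_[p] k).injective
  haveI := hC
  set X0 : AlgebraicClosure K := algebraMap K (AlgebraicClosure K) x with hX0
  set t : AlgebraicClosure K := (X0 - q) / c with ht
  have hCkb : ∀ a ∈ C, a ∈ kb k K := fun a ha => le_kb C ha
  have ht1 : v t = 1 := gaussAt_norm hG
  have htu : t ∈ maxUnramified k K := by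
    rw [ht]
    exact div_mem (sub_mem ((maxUnramified k K).algebraMap_mem x) (kb_le_max (hCkb q hqC)))
      (kb_le_max (hCkb c hcC))
  rcases hV with ⟨z, hz, m, hm, hpm, hz1, hzt⟩ | ⟨hp2, w, hw, u, hu, hw1, hu1, hwt, hut⟩
  · refine vdata_of_tower hP hx hη hC hπC hqC hcC hπ0 hc0 hvq hvc hv hR hD hG
      (S := t) (Z := z) htu hz ht1.le hz1 hm hpm hzt (f := X) ?_ ?_
    · intro i
      rw [coeff_X]
      split_ifs
      · rw [OneMemClass.coe_one, map_one]
      · rw [ZeroMemClass.coe_zero, map_zero]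
        exact zero_le
    · rw [aeval_X, sub_self, map_zero]
      exact zero_lt_one
  · have h2 : v 2 < 1 := by
      have h1 := val_p hv
      rw [hp2] at h1
      have h3 : ((2 : ℕ) : AlgebraicClosure K) = 2 := by norm_num
      rw [h3] at h1
      rw [h1]
      exact inv_lt_one_of_one_lt₀ (by norm_num)
    obtain ⟨a, b, d, hak, hbk, hdk, ha, hb, hd, ha4, hb2, hd2⟩ := exists_consts (k := k) (K := K) v
    obtain ⟨h3, h4⟩ := z4_tower h2 ha hb hd hw1 hu1 ha4 hb2 hd2 hwt hut
    have hSu : w + a ∈ maxUnramified k K := add_mem hw (kb_le_max hak)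
    have hZu : u + b * (w + a) + d ∈ maxUnramified k K :=
      add_mem (add_mem hu (mul_mem (kb_le_max hbk) hSu)) (kb_le_max hdk)
    have hS1 : v (w + a) ≤ 1 := v.map_add_le hw1 ha
    have hZ1 : v (u + b * (w + a) + d) ≤ 1 := by
      refine v.map_add_le (v.map_add_le hu1 ?_) hd
      rw [map_mul]
      exact mul_le_one' hb hS1
    refine vdata_of_tower hP hx hη hC hπC hqC hcC hπ0 hc0 hvq hvc hv hR hD hG
      (S := w + a) (Z := u + b * (w + a) + d) hSu hZu hS1 hZ1 (m := 3) (by norm_num)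
      (by rw [hp2]; norm_num) (by rw [hp2]; exact h3)
      (f := (X - Polynomial.C ⟨a, hak⟩) ^ 2 + (X - Polynomial.C ⟨a, hak⟩)) ?_ ?_
    · -- coefficients
      have h5 : (X - Polynomial.C ⟨a, hak⟩) ^ 2 + (X - Polynomial.C ⟨a, hak⟩) =
          (X ^ 2 + (Polynomial.C (1 - 2 * (⟨a, hak⟩ : kb k K)) * X +
            Polynomial.C ((⟨a, hak⟩ : kb k K) ^ 2 - ⟨a, hak⟩)) : (kb k K)[X]) := by
        simp only [map_sub, map_mul, map_pow, map_one, map_ofNat]
        ring
      have hle1 : v (((1 - 2 * (⟨a, hak⟩ : kb k K)) : kb k K) : AlgebraicClosure K) ≤ 1 := by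
        push_cast
        refine v.map_sub_le (by rw [map_one]) ?_
        rw [map_mul]
        exact mul_le_one' h2.le ha
      have hle2 : v ((((⟨a, hak⟩ : kb k K) ^ 2 - ⟨a, hak⟩ : kb k K)) : AlgebraicClosure K) ≤ 1 := by
        push_cast
        refine v.map_sub_le ?_ ha
        rw [map_pow]
        exact pow_le_one' ha 2
      intro i
      rw [h5, coeff_add, coeff_add, coeff_X_pow, coeff_C_mul, coeff_X, coeff_C]
      have e1 : v ((if i = 2 then (1 : kb k K) else 0 : kb k K) : AlgebraicClosure K) ≤ 1 := by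
        split_ifs <;> simp
      have e2 : v ((((1 - 2 * (⟨a, hak⟩ : kb k K)) * (if 1 = i then (1 : kb k K) else 0) : kb k K)) :
          AlgebraicClosure K) ≤ 1 := by
        split_ifs
        · rw [mul_one]; exact hle1
        · rw [mul_zero]; simp
      have e3 : v (((if i = 0 then ((⟨a, hak⟩ : kb k K) ^ 2 - ⟨a, hak⟩) else 0 : kb k K)) :
          AlgebraicClosure K) ≤ 1 := by
        split_ifs
        · exact hle2
        · simp
      rw [AddMemClass.coe_add, AddMemClass.coe_add]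
      exact v.map_add_le e1 (v.map_add_le e2 e3)
    · have h6 : aeval (w + a) ((X - Polynomial.C ⟨a, hak⟩) ^ 2 + (X - Polynomial.C ⟨a, hak⟩) :
          (kb k K)[X]) = ((w + a) - a) ^ 2 + ((w + a) - a) := by
        simp only [map_add, map_sub, map_pow, aeval_X, aeval_C]
        rfl
      rw [h6]
      exact h4

/-- **The supplier of vertex data.** -/
theorem vSupply (p : ℕ) [Fact p.Prime] : VSupply p := by
  intro k _ _ _ K _ _ _ _ _ hc hg P x hP hx δ η hη h
  obtain ⟨C, π, q, c, v, h1, h2, h3, h4, h5, h6, h7, h8, h9, h10, ⟨R, hR, hD⟩, h12, h13⟩ := h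
  obtain ⟨M, l, Y, hV⟩ := exists_vdata hP hx hη h1 h2 h3 h4 h5 h6 h8 h9 h10 hR hD h12 h13
  exact ⟨C, π, q, c, R, v, M, l, Y, h7, hV⟩

end Crest.Agent.R013.VSup2_797
end

-- ▼ part R013/DCut1_22
section

/-!
# Row 13, D-line, D-CUT: the multi-circle cutoff

`L/K` finite, all branch places of `L` are centres of circles over which `L` lies in the closure of
`maxUnramified` (this is an input here: no Puiseux radius, no genus, no (SE)).  Then `L` lies in the
closure of `maxUnramified` for every norm outside the circles.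
-/

set_option autoImplicit false
set_option linter.unusedSectionVars false

namespace Crest.Agent.R013.DCut_22

open scoped NNReal Topology
open Filter Polynomial Crest.NumberTheoryR.Sect
open Crest.Agent.R013.SE_669 Crest.Agent.R013.Unr3_957 Crest.Agent.R013.Unr4_957
  Crest.Agent.R013.Cof1_669 Crest.Agent.R013.Cof2_669 Crest.Agent.R013.Cof3_669
  Crest.Agent.R013.Cof4_669 Crest.Agent.R013.Cof5_669 Crest.Agent.R013.Cof6_669
  Crest.Agent.R013.Cof7_669 Crest.Agent.R013.Cof8_669 Crest.Agent.R013.Cof9_669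
  Crest.Agent.R013.Cof10_669

/-- **(CUT-END+)**: `Cof10_669.CutEnd` with the norms included in the output (as in 946's
`cut_level1`). -/
def CutEndP (p : ℕ) [Fact p.Prime] (k : Type*) [Field k] [Algebra ℚ_[p] k] (K : Type*) [Field K]
    [Algebra k K] : Prop :=
  ∀ (C : IntermediateField k (AlgebraicClosure K)) [FiniteDimensional k C]
    (π x : AlgebraicClosure K) (P v₀ : Valuation (AlgebraicClosure K) ℝ≥0),
    π ∈ C → π ≠ 0 → x ∈ KC K C → x ≠ 0 → IsPlace k P → P x < 1 →
    ExtendsPadicNorm k (AlgebraicClosure K) p v₀ → IsCircle K C P x (v₀ π) v₀ →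
    ∀ (KU L : IntermediateField K (AlgebraicClosure K)) [FiniteDimensional K KU]
      [FiniteDimensional K L], KC K C ≤ KU → KC K C ≤ L →
    (∀ v : Valuation (AlgebraicClosure K) ℝ≥0, ExtendsPadicNorm k (AlgebraicClosure K) p v →
      (∀ g ∈ KC K C, v g = v₀ g) →
      (L : Set (AlgebraicClosure K)) ⊆ cl v (KU : Set (AlgebraicClosure K))) →
    ∀ w : Valuation (AlgebraicClosure K) ℝ≥0, ExtendsPadicNorm k (AlgebraicClosure K) p w →
      w π ≤ w x →
    ∃ A' : IntermediateField K (AlgebraicClosure K), FiniteDimensional K A' ∧ KU ≤ A' ∧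
      (L : Set (AlgebraicClosure K)) ⊆ cl w (A' : Set (AlgebraicClosure K)) ∧
      (∀ v : Valuation (AlgebraicClosure K) ℝ≥0,
        (IsPlace k v ∨ ExtendsPadicNorm k (AlgebraicClosure K) p v) →
        (∃ s : AlgebraicClosure K ≃ₐ[K] AlgebraicClosure K, (∀ z ∈ KU, s z = z) ∧
            (A' : Set (AlgebraicClosure K)) ⊆
              cl v (s '' ((L ⊔ KU : IntermediateField K (AlgebraicClosure K)) :
                Set (AlgebraicClosure K)))) ∨
          (A' : Set (AlgebraicClosure K)) ⊆ cl v (KU : Set (AlgebraicClosure K))) ∧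
      ∀ v : Valuation (AlgebraicClosure K) ℝ≥0, IsPlace k v → (∀ g ∈ KC K C, v g = P g) →
          (A' : Set (AlgebraicClosure K)) ⊆ cl v (KU : Set (AlgebraicClosure K))

theorem CutEndP.cutEnd {p : ℕ} [Fact p.Prime] {k : Type*} [Field k] [Algebra ℚ_[p] k] {K : Type*}
    [Field K] [Algebra k K] (h : CutEndP p k K) : CutEnd p k K := by
  intro C _ π x P v₀ hπ hπ0 hx hx0 hP hPx hv₀ hcirc KU L _ _ hKU hL h1 w hw hwπ
  obtain ⟨A', hf, hKA, hLA, h2, h3⟩ := h C π x P v₀ hπ hπ0 hx hx0 hP hPx hv₀ hcirc KU L hKU hL h1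
    w hw hwπ
  exact ⟨A', hf, hKA, hLA, fun v hv => ⟨h2 v (Or.inl hv), h3 v hv⟩⟩

/-- a circle: centre `P`, parameter `x`, radius `v₀ π` -/
structure Circ (p : ℕ) [Fact p.Prime] (k : Type*) [Field k] [Algebra ℚ_[p] k] (K : Type*) [Field K]
    [Algebra k K] (C : IntermediateField k (AlgebraicClosure K)) where
  /-- the centre -/
  P : Valuation (AlgebraicClosure K) ℝ≥0
  /-- a norm over the circle -/
  v₀ : Valuation (AlgebraicClosure K) ℝ≥0
  /-- the parameter -/
  x : AlgebraicClosure K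
  /-- the radius -/
  π : AlgebraicClosure K
  hπ : π ∈ C
  hπ0 : π ≠ 0
  hx : x ∈ KC K C
  hx0 : x ≠ 0
  hP : IsPlace k P
  hPx : P x < 1
  hv₀ : ExtendsPadicNorm k (AlgebraicClosure K) p v₀
  hcirc : IsCircle K C P x (v₀ π) v₀

section main

variable {k : Type} [Field k] {K : Type} [Field K] [Algebra k K]

local notation "Kb" => AlgebraicClosure K


end main

end Crest.Agent.R013.DCut_22
end

-- ▼ part R013/CutP_669
section

/-!
# Row 13: CUT-END over `K C` from 946's `cut_end`
-/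

set_option autoImplicit false
set_option linter.unusedSectionVars false

namespace Crest.Agent.R013.CutP_669

open scoped NNReal Topology
open Filter Polynomial Crest.NumberTheoryR.Sect
open Crest.Agent.R013.SE_669 Crest.Agent.R013.Unr3_957 Crest.Agent.R013.Unr4_957
  Crest.Agent.R013.Cof1_669 Crest.Agent.R013.Cof2_669 Crest.Agent.R013.Cof5_669
  Crest.Agent.R013.Cof10_669 Crest.Agent.R013.Set_803 Crest.Agent.R013.CGood_588

section up

variable {k : Type*} [Field k] {K : Type*} [Field K] [Algebra k K]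

local notation "Kb" => AlgebraicClosure K

variable {p : ℕ} [Fact p.Prime] [Algebra ℚ_[p] k] [FiniteDimensional ℚ_[p] k]
  {C : IntermediateField k (AlgebraicClosure K)} [FiniteDimensional k C]
  {P v₀ : Valuation (AlgebraicClosure K) ℝ≥0} {x π : AlgebraicClosure K}

theorem discData_of_circle (hπ : π ∈ C) (hπ0 : π ≠ 0) (hP : IsPlace k P) (hPx : P x < 1)
    (hv₀ : ExtendsPadicNorm k Kb p v₀) (hcirc : IsCircle K C P x (v₀ π) v₀) {R : ℝ≥0}
    (hR : v₀ π < R) : DiscData p v₀ P C R x 0 π where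
  hv := hv₀
  hP := fun a => place_le_one (fun c => by
    by_cases h0 : c = 0
    · rw [h0, map_zero, map_zero]; exact zero_le_one
    · exact (hP.1 c h0).le) (isAlgebraic_of_mem a.2)
  hPx := hPx
  qC := C.zero_mem
  cC := hπ
  c0 := hπ0
  qR := by rw [map_zero]; exact lt_of_le_of_lt zero_le hR
  cR := hR
  gauss := by
    intro n c hc
    have hπn : v₀ π ≠ 0 := (Valuation.ne_zero_iff v₀).mpr hπ0
    have h1 : psum c ((x - 0) / π) n = psum (fun i => c i * (π ^ i)⁻¹) x n := by
      unfold psum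
      refine Finset.sum_congr rfl fun i _ => ?_
      rw [sub_zero, div_pow, div_eq_mul_inv]
      ring
    rw [h1, hcirc.gauss n _ (fun i => mul_mem (hc i) (inv_mem (pow_mem hπ i)))]
    refine Finset.sup_congr rfl fun i _ => ?_
    rw [map_mul, map_inv₀, map_pow, mul_assoc, inv_mul_cancel₀ (pow_ne_zero _ hπn), mul_one]

/-- **the expansions extend to `K C`** -/
theorem circle_up (hπ : π ∈ C) (hπ0 : π ≠ 0) (hP : IsPlace k P) (hPx : P x < 1)
    (hv₀ : ExtendsPadicNorm k Kb p v₀) (hcirc : IsCircle K C P x (v₀ π) v₀) :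
    IsCircle (KC K C) C P x (v₀ π) v₀ := by
  classical
  refine ⟨hcirc.gauss, ?_⟩
  have D : ∀ {R : ℝ≥0}, v₀ π < R → DiscData p v₀ P C R x 0 π := fun hR =>
    discData_of_circle hπ hπ0 hP hPx hv₀ hcirc hR
  -- every element of `K C` is expanded on small discs
  have key : ∀ f ∈ IntermediateField.adjoin K (C : Set Kb), ∃ R₁ : ℝ≥0, v₀ π < R₁ ∧
      ∀ (R : ℝ≥0) (hR : v₀ π < R), R ≤ R₁ → f ∈ (D hR).SD := by
    intro f hf
    induction hf using IntermediateField.adjoin_induction with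
    | mem a ha => exact ⟨v₀ π + 1, lt_add_one _, fun R hR _ => (D hR).C_le_SD ⟨a, ha⟩⟩
    | algebraMap f =>
      obtain ⟨G, H, hG, hH, hi, ⟨R₁, B, hR₁, hB⟩, l1, l2⟩ := hcirc.disc f
      refine ⟨R₁, hR₁, fun R hR hRR => ?_⟩
      have e1 : cf (PowerSeries.mk fun i => (⟨G i, hG i⟩ : C)) = G := by
        funext j; simp [cf, PowerSeries.coeff_mk]
      have e2 : cf (PowerSeries.mk fun i => (⟨H i, hH i⟩ : C)) = H := by
        funext j; simp [cf, PowerSeries.coeff_mk]
      refine (D hR).mem_SD.mpr ⟨PowerSeries.mk fun i => ⟨G i, hG i⟩,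
        PowerSeries.mk fun i => ⟨H i, hH i⟩, ?_, ?_, ?_, ?_, ?_⟩
      · intro h0
        obtain ⟨i, hi⟩ := hi
        apply hi
        rw [← e2, h0]
        simp [cf]
      · rw [e1]
        exact ⟨B, fun i => (mul_le_mul_right (pow_le_pow_left₀ zero_le hRR i) _).trans (hB i).1⟩
      · rw [e2]
        exact ⟨B, fun i => (mul_le_mul_right (pow_le_pow_left₀ zero_le hRR i) _).trans (hB i).2⟩
      · rw [e1, e2]; exact l1
      · rw [e1, e2]; exact l2
    | add a b _ _ ha hb =>
      obtain ⟨R₁, h1, h2⟩ := ha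
      obtain ⟨R₂, h3, h4⟩ := hb
      exact ⟨min R₁ R₂, lt_min h1 h3, fun R hR hRR => add_mem (h2 R hR (hRR.trans (min_le_left _ _)))
        (h4 R hR (hRR.trans (min_le_right _ _)))⟩
    | inv a _ ha =>
      obtain ⟨R₁, h1, h2⟩ := ha
      exact ⟨R₁, h1, fun R hR hRR => inv_mem (h2 R hR hRR)⟩
    | mul a b _ _ ha hb =>
      obtain ⟨R₁, h1, h2⟩ := ha
      obtain ⟨R₂, h3, h4⟩ := hb
      exact ⟨min R₁ R₂, lt_min h1 h3, fun R hR hRR => mul_mem (h2 R hR (hRR.trans (min_le_left _ _)))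
        (h4 R hR (hRR.trans (min_le_right _ _)))⟩
  intro f
  obtain ⟨R₁, h1, h2⟩ := key f f.2
  obtain ⟨G, H, h⟩ := (D h1).mem_SD.mp (h2 R₁ h1 le_rfl)
  obtain ⟨B₁, hB₁⟩ := h.bG
  obtain ⟨B₂, hB₂⟩ := h.bH
  refine ⟨cf G, cf H, fun i => (PowerSeries.coeff i G).2, fun i => (PowerSeries.coeff i H).2, ?_,
    ⟨R₁, max B₁ B₂, h1, fun i => ⟨(hB₁ i).trans (le_max_left _ _),
      (hB₂ i).trans (le_max_right _ _)⟩⟩, h.lv, h.lP⟩
  by_contra hcon
  push Not at hcon
  apply h.ne
  ext i
  have := hcon i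
  simpa [cf] using this

end up

section cut

variable {k : Type*} [Field k] {K : Type*} [Field K] [Algebra k K]

local notation "Kb" => AlgebraicClosure K

/-- **CUT-END+** -/
theorem cutEndP (p : ℕ) [Fact p.Prime] [Algebra ℚ_[p] k] [FiniteDimensional ℚ_[p] k]
    [Algebra (RatFunc k) K] [IsScalarTower k (RatFunc k) K] [FiniteDimensional (RatFunc k) K] :
    DCut_22.CutEndP p k K := by
  have hk0 : CharZero k := charZero_of_injective_algebraMap (algebraMap ℚ_[p] k).injective
  have hK0 := charZero_K k K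
  intro C _ π x P v₀ hπ hπ0 hx hx0 hP hPx hv₀ hcirc KU L _ _ hKU hL h1 w hw hwπ
  classical
  have hup := circle_up hπ hπ0 hP hPx hv₀ hcirc
  set K₁ := KC K C with hK₁
  have iK₁f : FiniteDimensional K K₁ := finite_KC C
  have f1 : FiniteDimensional (RatFunc k) K₁ := finite_IF K₁
  have t1 : IsScalarTower k (RatFunc k) K₁ := tower_IF K₁
  have t2 : IsScalarTower k K₁ Kb := tower_kLb K₁
  have a1 : Algebra.IsAlgebraic K₁ Kb := Algebra.IsAlgebraic.tower_top (K := K) K₁
  set x₁ : K₁ := ⟨x, hx⟩ with hx₁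
  have hx₁0 : x₁ ≠ 0 := fun h => hx0 (congrArg Subtype.val h)
  have hvπ : v₀ π ≠ 0 := (Valuation.ne_zero_iff v₀).mpr hπ0
  have htr : Transcendental k x₁ := Gl946.transcendental_of_circle (K := K₁) hvπ hup
  have f2 : FiniteDimensional (IntermediateField.adjoin k {x₁}) K₁ := Gl946.finite_adjoin x₁ htr
  -- base change of the fields
  have fU : FiniteDimensional K₁ (IntermediateField.extendScalars hKU) := by
    have : FiniteDimensional K (IntermediateField.extendScalars hKU) :=
      inferInstanceAs (FiniteDimensional K KU)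
    exact Module.Finite.of_restrictScalars_finite K K₁ _
  have fL : FiniteDimensional K₁ (IntermediateField.extendScalars hL) := by
    have : FiniteDimensional K (IntermediateField.extendScalars hL) :=
      inferInstanceAs (FiniteDimensional K L)
    exact Module.Finite.of_restrictScalars_finite K K₁ _
  have hadj : ∀ g : Kb, g ∈ IntermediateField.adjoin K₁ (C : Set Kb) ↔ g ∈ KC K C := by
    intro g
    have e1 : IntermediateField.adjoin K₁ (C : Set Kb) = ⊥ := by
      rw [IntermediateField.adjoin_eq_bot_iff]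
      intro c hc
      rw [SetLike.mem_coe, IntermediateField.mem_bot]
      exact ⟨⟨c, le_KC hc⟩, rfl⟩
    rw [e1, IntermediateField.mem_bot]
    constructor
    · rintro ⟨a, rfl⟩; exact a.2
    · intro hg; exact ⟨⟨g, hg⟩, rfl⟩
  obtain ⟨A, hAf, hUA, hLA, h2, h3⟩ := Gl946.cut_end p (k := k) (K := K₁) C v₀ P x₁
    hx₁0 π hπ hπ0 hv₀ hup hPx (IntermediateField.extendScalars hKU)
    (IntermediateField.extendScalars hL) (fun c hc => hKU (le_KC hc))
    (fun v hv l hl => by
      have hv' : ∀ g ∈ KC K C, v g = v₀ g := fun g hg => hv g ((hadj g).mpr hg)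
      have hvn : ExtendsPadicNorm k Kb p v := by
        intro q
        rw [← hv₀ q]
        exact hv' _ ((KC K C).algebraMap_mem (algebraMap k K (algebraMap ℚ_[p] k q)))
      exact h1 v hvn hv' hl) w hw hwπ
  refine ⟨A.restrictScalars K, ?_, ?_, ?_, ?_, ?_⟩
  · have : FiniteDimensional K₁ A := hAf
    have : FiniteDimensional K A := Module.Finite.trans K₁ A
    exact this
  · intro z hz
    exact hUA hz
  · intro l hl
    exact hLA l hl
  · intro v hv
    rcases h2 v hv.symm with ⟨s, hs1, hs2⟩ | h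
    · refine Or.inl ⟨s.restrictScalars K, fun z hz => hs1 z hz, ?_⟩
      intro a ha
      have h4 := hs2 a ha
      have h5 : ((IntermediateField.extendScalars hL ⊔ IntermediateField.extendScalars hKU :
          IntermediateField K₁ Kb) : Set Kb) = ((L ⊔ KU : IntermediateField K Kb) : Set Kb) := by
        rw [IntermediateField.extendScalars_sup]
        rfl
      rw [h5] at h4
      exact h4
    · exact Or.inr fun a ha => h a ha
  · intro v hv hvP a ha
    exact h3 v hv (fun f hf => by rw [hvP f ((hadj f).mp hf)]) a ha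

end cut

section final

/-- **`S0016` from (SE)** -/
theorem s0016 (p : ℕ) [Fact p.Prime] (hSE : Cof6_669.SEall p) (k : Type) [Field k]
    [Algebra ℚ_[p] k] [FiniteDimensional ℚ_[p] k]
    (K : Type) [Field K] [Algebra k K] [Algebra (RatFunc k) K] [IsScalarTower k (RatFunc k) K]
    [FunctionField k K] (hc : algebraicClosure k K = ⊥) (hg : 2 ≤ genus k K)
    (v : Valuation K ℝ≥0) (hv : ExtendsPadicNorm k K p v)
    (w : Valuation (AlgebraicClosure K) ℝ≥0)
    (hw : w.comap (algebraMap K (AlgebraicClosure K)) = v) :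
    ∀ a : AlgebraicClosure K, ∀ ε : ℝ≥0, 0 < ε →
      ∃ b : maxUnramified k K, w (a - (b : AlgebraicClosure K)) < ε := by
  have hfd : FiniteDimensional (RatFunc k) K := inferInstance
  exact s0016_of p hSE k K hc hg (cutEndP p).cutEnd v hv w hw

end final

end Crest.Agent.R013.CutP_669
end

-- ▼ part R013/TopS_803

/-!
# Row 13: `S0016` from part B (`LiftP`, `NBP`, `EndP`) and part C (`GOODP`)
-/

set_option autoImplicit false

namespace Crest.Agent.R013.TopS_803

open scoped NNReal Topology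
open Filter Crest.NumberTheoryR Crest.NumberTheoryR.Sect SE_669 CGood_588 GoodP_797 VData_803 TopB_803

/-- Output of part C for all function fields (588). -/
def GOODPall (p : ℕ) [Fact p.Prime] : Prop :=
  ∀ (k : Type) [Field k] [Algebra ℚ_[p] k] [FiniteDimensional ℚ_[p] k] (K : Type) [Field K]
    [Algebra k K] [Algebra (RatFunc k) K] [IsScalarTower k (RatFunc k) K] [FunctionField k K],
    algebraicClosure k K = ⊥ → 2 ≤ genus k K → GOODP p k K

theorem seall_of {p : ℕ} [Fact p.Prime] (hB : BMain p) (hG : GOODPall p) : Cof6_669.SEall p := by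
  intro k _ _ _ K _ _ _ _ _ hc hg
  exact SE_of hB (VSup2_797.vSupply p) k K hc hg (hG k K hc hg)

/-- **`S0016` from B-MAIN and GOODP.** -/
theorem s0016_of {p : ℕ} [Fact p.Prime] (hB : BMain p) (hG : GOODPall p) (k : Type) [Field k]
    [Algebra ℚ_[p] k] [FiniteDimensional ℚ_[p] k]
    (K : Type) [Field K] [Algebra k K] [Algebra (RatFunc k) K] [IsScalarTower k (RatFunc k) K]
    [FunctionField k K] (hc : algebraicClosure k K = ⊥) (hg : 2 ≤ genus k K)
    (v : Valuation K ℝ≥0) (hv : ExtendsPadicNorm k K p v)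
    (w : Valuation (AlgebraicClosure K) ℝ≥0)
    (hw : w.comap (algebraMap K (AlgebraicClosure K)) = v) :
    ∀ a : AlgebraicClosure K, ∀ ε : ℝ≥0, 0 < ε →
      ∃ b : maxUnramified k K, w (a - (b : AlgebraicClosure K)) < ε :=
  CutP_669.s0016 p (seall_of hB hG) k K hc hg v hv w hw


end Crest.Agent.R013.TopS_803
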