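import Crest.Agent.R013.U2_337
import Crest.Agent.R013.RZ2_365
import Crest.Agent.R013.RZ3_365
import Crest.Agent.R013.RZ4_365

-- ▼ part R013/U3_337
section

/-!
Row 13, part A, leaf A-U (helper337), file 3: at every composite valuation ring `O` over `z = 0`,
`z = A(X) / (1 + X A(X))`, the element `h₀ / e`, `e = (X + c₁ ^ l) / X`, is an `l`-th power up to
`1`-units.
-/

set_option autoImplicit false

noncomputable section

namespace Crest.Agent.R013.U3_337

open scoped NNReal
open Polynomial IntermediateField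
open Crest.Agent.R013.LiftA_168 Crest.Agent.R013.U2_337 Crest.Agent.R013.RZ_365

section General

variable {k K : Type*} [Field k] [Field K] [Algebra k K] {vk : Valuation k ℝ≥0}
  {O : ValuationSubring K}

theorem val_pos {Γ : Type*} [LinearOrderedCommGroupWithZero Γ] (w : Valuation K Γ) {a : K}
    (ha : a ≠ 0) : 0 < w a := zero_lt_iff.2 ((Valuation.ne_zero_iff _).2 ha)

theorem le_one (hO : ∀ c : k, vk c ≤ 1 → algebraMap k K c ∈ O) {c : k} (hc : vk c ≤ 1) :
    O.valuation (algebraMap k K c) ≤ 1 := (O.valuation_le_one_iff _).2 (hO c hc)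

theorem eq_one (hO : ∀ c : k, vk c ≤ 1 → algebraMap k K c ∈ O) {c : k} (hc : vk c = 1) :
    O.valuation (algebraMap k K c) = 1 := by
  have hc0 : c ≠ 0 := by rintro rfl; rw [map_zero] at hc; exact zero_ne_one hc
  refine le_antisymm (le_one hO hc.le) ?_
  have h1 := le_one hO (c := c⁻¹) (by rw [map_inv₀, hc, inv_one])
  rw [map_inv₀, map_inv₀] at h1
  exact (inv_le_one₀ (val_pos _ ((_root_.map_ne_zero _).2 hc0))).1 h1

theorem aeval_le (hO : ∀ c : k, vk c ≤ 1 → algebraMap k K c ∈ O) {A : k[X]}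
    (hA : ∀ i, vk (A.coeff i) ≤ 1) {t : K} (ht : O.valuation t ≤ 1) :
    O.valuation (aeval t A) ≤ 1 := by
  rw [aeval_eq_sum_range]
  refine Valuation.map_sum_le _ fun i _ => ?_
  rw [Algebra.smul_def, map_mul, map_pow]
  exact mul_le_one' (le_one hO (hA i)) (pow_le_one₀ zero_le ht)

theorem aeval_of_gt (hO : ∀ c : k, vk c ≤ 1 → algebraMap k K c ∈ O) {A : k[X]} (hA : MI vk A)
    {t : K} (ht : 1 < O.valuation t) : 1 ≤ O.valuation (aeval t A) := by
  have ht0 : t ≠ 0 := by rintro rfl; rw [map_zero] at ht; exact absurd ht (by simp)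
  rw [aeval_eq_sum_range, Finset.sum_range_succ, hA.monic.coeff_natDegree, one_smul]
  have h1 : O.valuation (∑ i ∈ Finset.range A.natDegree, A.coeff i • t ^ i) <
      O.valuation (t ^ A.natDegree) := by
    refine Valuation.map_sum_lt _ ?_ fun i hi => ?_
    · exact (Valuation.ne_zero_iff _).2 (pow_ne_zero _ ht0)
    · rw [Algebra.smul_def, map_mul, map_pow, map_pow]
      calc O.valuation (algebraMap k K (A.coeff i)) * O.valuation t ^ i
          ≤ 1 * O.valuation t ^ i := mul_le_mul_left (le_one hO (hA.le i)) _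
        _ = O.valuation t ^ i := one_mul _
        _ < O.valuation t ^ A.natDegree := pow_lt_pow_right₀ ht (Finset.mem_range.1 hi)
  rw [Valuation.map_add_eq_of_lt_right _ h1, map_pow]
  exact one_le_pow₀ ht.le

/-- Taylor: `A(s) ≡ A(t)` if `s ≡ t`. -/
theorem aeval_congr (hO : ∀ c : k, vk c ≤ 1 → algebraMap k K c ∈ O) {A : k[X]}
    (hA : ∀ i, vk (A.coeff i) ≤ 1) {s t : K} (hs : O.valuation s ≤ 1) (ht : O.valuation t ≤ 1)
    (h : O.valuation (s - t) < 1) : O.valuation (aeval s A - aeval t A) < 1 := by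
  rw [aeval_eq_sum_range, aeval_eq_sum_range, ← Finset.sum_sub_distrib]
  refine Valuation.map_sum_lt _ one_ne_zero fun i _ => ?_
  rw [← smul_sub, Algebra.smul_def, map_mul]
  have h1 : O.valuation (s ^ i - t ^ i) < 1 := by
    obtain ⟨q, hq, hq1⟩ : ∃ q, O.valuation q ≤ 1 ∧ s ^ i - t ^ i = (s - t) * q := by
      refine ⟨∑ j ∈ Finset.range i, s ^ j * t ^ (i - 1 - j), ?_, ?_⟩
      · refine Valuation.map_sum_le _ fun j _ => ?_
        rw [map_mul, map_pow, map_pow]
        exact mul_le_one' (pow_le_one₀ zero_le hs) (pow_le_one₀ zero_le ht)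
      · exact ((Commute.all s t).mul_geom_sum₂ i).symm
    rw [hq1, map_mul]
    calc O.valuation (s - t) * O.valuation q ≤ O.valuation (s - t) * 1 := mul_le_mul_right hq _
      _ = O.valuation (s - t) := mul_one _
      _ < 1 := h
  calc O.valuation (algebraMap k K (A.coeff i)) * O.valuation (s ^ i - t ^ i)
      ≤ 1 * O.valuation (s ^ i - t ^ i) := mul_le_mul_left (le_one hO (hA i)) _
    _ = O.valuation (s ^ i - t ^ i) := one_mul _
    _ < 1 := h1

/-- the three regions: `z` small at `O` means `X` infinite or `A(X)` small -/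
theorem zc_lt_iff (hO : ∀ c : k, vk c ≤ 1 → algebraMap k K c ∈ O) {A : k[X]} (hA : MI vk A)
    {t : K} (hne : aeval t (1 + X * A) ≠ 0) : O.valuation (zc A t) < 1 ↔ 1 < O.valuation t ∨
      (O.valuation t ≤ 1 ∧ O.valuation (aeval t A) < 1) := by
  have hD : aeval t (1 + X * A) = 1 + t * aeval t A := by
    rw [map_add, map_mul, aeval_X, map_one]
  rcases lt_or_ge 1 (O.valuation t) with ht | ht
  · refine iff_of_true ?_ (Or.inl ht)
    have h1 := aeval_of_gt hO hA ht
    have h0 : aeval t A ≠ 0 := by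
      intro h0; rw [h0, map_zero] at h1; exact absurd h1 (by simp)
    have h2 : 1 < O.valuation (t * aeval t A) := by
      rw [map_mul]
      calc (1 : O.ValueGroup) < O.valuation t := ht
        _ = O.valuation t * 1 := (mul_one _).symm
        _ ≤ O.valuation t * O.valuation (aeval t A) := mul_le_mul_right h1 _
    have h3 : O.valuation (1 + t * aeval t A) = O.valuation t * O.valuation (aeval t A) := by
      rw [Valuation.map_add_eq_of_lt_right _ (by rw [map_one]; exact h2), map_mul]
    rw [zc, hD, map_div₀, h3, div_lt_one₀ (by rw [← map_mul]; exact zero_lt_one.trans h2)]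
    calc O.valuation (aeval t A) = 1 * O.valuation (aeval t A) := (one_mul _).symm
      _ < O.valuation t * O.valuation (aeval t A) := mul_lt_mul_of_pos_right ht (val_pos _ h0)
  · constructor
    · intro h
      refine Or.inr ⟨ht, ?_⟩
      by_contra hcon
      push Not at hcon
      have h1 : O.valuation (aeval t A) = 1 := le_antisymm (aeval_le hO hA.le ht) hcon
      have h2 : O.valuation (aeval t (1 + X * A)) ≤ 1 := aeval_le hO hA.den.le ht
      rw [zc, map_div₀, h1] at h
      rw [div_lt_one₀ (val_pos _ hne)] at h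
      exact absurd h (not_lt.2 h2)
    · rintro (h | ⟨-, h⟩)
      · exact absurd h (not_lt.2 ht)
      · have h1 : O.valuation (t * aeval t A) < 1 := by
          rw [map_mul]
          calc O.valuation t * O.valuation (aeval t A) ≤ 1 * O.valuation (aeval t A) :=
                mul_le_mul_left ht _
            _ = O.valuation (aeval t A) := one_mul _
            _ < 1 := h
        have h2 : O.valuation (1 + t * aeval t A) = 1 := by
          rw [Valuation.map_add_eq_of_lt_left _ (by rw [map_one]; exact h1), map_one]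
        rwa [zc, hD, map_div₀, h2, div_one]

end General

end Crest.Agent.R013.U3_337
end
end

-- ▼ part R013/U4_337
section

/-!
Row 13, part A, leaf A-U (helper337), file 4: at every composite valuation ring `O` over `z = 0`,
`z = A(X) / (1 + X A(X))`, the element `h₀ / e`, `e = (X + c₁ ^ l) / X`, is an `l`-th power up to
`1`-units.
-/

set_option autoImplicit false

noncomputable section

namespace Crest.Agent.R013.U4_337

open scoped NNReal
open Polynomial IntermediateField
open Crest.Agent.R013.LiftA_168 Crest.Agent.R013.U2_337 Crest.Agent.R013.RZ_365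
open Crest.Agent.R013.U3_337

section Small

variable {K : Type*} [Field K] {O : ValuationSubring K}

theorem val_eq_one_of_near {a : K} (h : O.valuation (a - 1) < 1) : O.valuation a = 1 := by
  have h1 : O.valuation (a - 1) < O.valuation 1 := by rwa [map_one]
  have h2 := Valuation.map_eq_of_sub_lt _ h1
  rwa [map_one] at h2

theorem near_mul {a b : K} (ha : O.valuation (a - 1) < 1) (hb : O.valuation (b - 1) < 1) :
    O.valuation (a * b - 1) < 1 := by
  have e : a * b - 1 = a * (b - 1) + (a - 1) := by ring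
  rw [e]
  refine Valuation.map_add_lt _ ?_ ha
  rw [map_mul, val_eq_one_of_near ha, one_mul]
  exact hb




end Small

section Comap

variable {L E : Type*} [Field L] [Field E] [Algebra L E] {O : ValuationSubring E}

theorem comap_le_one (a : L) : (O.comap (algebraMap L E)).valuation a ≤ 1 ↔
    O.valuation (algebraMap L E a) ≤ 1 := by
  rw [ValuationSubring.valuation_le_one_iff, ValuationSubring.valuation_le_one_iff,
    ValuationSubring.mem_comap]

theorem comap_le (a b : L) (hb : b ≠ 0) : (O.comap (algebraMap L E)).valuation a ≤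
    (O.comap (algebraMap L E)).valuation b ↔
    O.valuation (algebraMap L E a) ≤ O.valuation (algebraMap L E b) := by
  have h1 := comap_le_one (O := O) (a / b)
  rw [map_div₀, map_div₀, map_div₀, div_le_one₀ (val_pos _ hb),
    div_le_one₀ (val_pos _ ((_root_.map_ne_zero _).2 hb))] at h1
  exact h1

theorem comap_lt (a b : L) (hb : b ≠ 0) : (O.comap (algebraMap L E)).valuation a <
    (O.comap (algebraMap L E)).valuation b ↔
    O.valuation (algebraMap L E a) < O.valuation (algebraMap L E b) := by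
  by_cases ha : a = 0
  · rw [ha, map_zero, map_zero, map_zero]
    exact iff_of_true (val_pos _ hb) (val_pos _ ((_root_.map_ne_zero _).2 hb))
  · rw [← not_le, ← not_le, comap_le b a ha]

theorem comap_eq (a b : L) (ha : a ≠ 0) (hb : b ≠ 0) : (O.comap (algebraMap L E)).valuation a =
    (O.comap (algebraMap L E)).valuation b ↔
    O.valuation (algebraMap L E a) = O.valuation (algebraMap L E b) := by
  rw [le_antisymm_iff, le_antisymm_iff, comap_le a b hb, comap_le b a ha]

theorem R2.comap {k : Type*} [Field k] [Algebra k L] [Algebra k E] [IsScalarTower k L E]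
    {vk : Valuation k ℝ≥0} {t : L} (h : R2 vk (algebraMap L E t) O) :
    R2 vk t (O.comap (algebraMap L E)) := by
  have ht : t ≠ 0 := by
    rintro rfl; exact h.ne (map_zero _)
  refine ⟨fun c hc => ?_, ht, fun c hc n => ?_, ?_⟩
  · rw [ValuationSubring.mem_comap, ← IsScalarTower.algebraMap_apply]
    exact h.int c hc
  · rw [← map_pow, comap_lt _ _ (pow_ne_zero _ ht), ← IsScalarTower.algebraMap_apply, map_pow,
      map_pow]
    exact h.small c hc n
  · have := (comap_lt (O := O) t 1 one_ne_zero).2 (by rw [map_one, map_one]; exact h.lt)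
    rwa [map_one] at this

end Comap

section Core

variable {k C L E : Type*} [Field k] [Field C] [Field L] [Field E] [Algebra k C] [Algebra k L]
  [Algebra k E] [Algebra C E] [Algebra L E] [IsScalarTower k C E] [IsScalarTower k L E]
  {vk : Valuation k ℝ≥0} {nC : Valuation C ℝ≥0} {O : ValuationSubring E}

/-- units are `l`-th powers up to `1`-units -/
theorem exists_of_unit (hO : ∀ c, nC c ≤ 1 → algebraMap C E c ∈ O)
    (hsm : ∀ c, nC c < 1 → O.valuation (algebraMap C E c) < 1)
    (hres : ∀ a ∈ O, ∃ c, nC c ≤ 1 ∧ O.valuation (a - algebraMap C E c) < 1) {l : ℕ}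
    (hroot : ∀ c, nC c = 1 → ∃ d, nC (d ^ l - c) < 1) {u : E} (hu : O.valuation u = 1) :
    ∃ d : C, O.valuation (algebraMap C E d) = 1 ∧
      O.valuation (u * algebraMap C E d ^ l - 1) < 1 := by
  obtain ⟨c, hc1, hc2⟩ := hres u ((O.valuation_le_one_iff _).1 hu.le)
  have hc : nC c = 1 := by
    refine le_antisymm hc1 ?_
    by_contra hlt
    push Not at hlt
    have h1 := Valuation.map_add_lt _ hc2 (hsm c hlt)
    rw [sub_add_cancel, hu] at h1
    exact lt_irrefl _ h1
  have hci : nC c⁻¹ = 1 := by rw [map_inv₀, hc, inv_one]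
  have hc0 : c ≠ 0 := by rintro rfl; rw [map_zero] at hc; exact zero_ne_one hc
  obtain ⟨d, hd⟩ := hroot c⁻¹ hci
  have hdl : nC (d ^ l) = 1 := by
    rw [← hci]
    exact Valuation.map_eq_of_sub_lt _ (by rwa [hci])
  have h2 : O.valuation (algebraMap C E (d ^ l)) = 1 := eq_one hO hdl
  have h3 : O.valuation (algebraMap C E c) = 1 := eq_one hO hc
  have h4 : O.valuation (algebraMap C E (d ^ l - c⁻¹)) < 1 := hsm _ hd
  by_cases hl : l = 0
  · subst hl
    refine ⟨1, by simp, ?_⟩
    have e : u * algebraMap C E 1 ^ 0 - 1 = (u - algebraMap C E c) +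
        algebraMap C E (c - 1) := by rw [map_sub, map_one]; ring
    rw [e]
    refine Valuation.map_add_lt _ hc2 (hsm _ ?_)
    have e2 : c - 1 = c * (d ^ 0 - c⁻¹) := by rw [mul_sub, mul_inv_cancel₀ hc0, pow_zero, mul_one]
    rw [e2, map_mul, hc, one_mul]
    exact hd
  refine ⟨d, ?_, ?_⟩
  · rw [map_pow, map_pow] at h2
    exact (pow_eq_one_iff_of_nonneg zero_le hl).1 h2
  · have e : u * algebraMap C E d ^ l - 1 = (u - algebraMap C E c) * algebraMap C E (d ^ l) +
        algebraMap C E c * algebraMap C E (d ^ l - c⁻¹) := by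
      rw [map_sub, map_inv₀, map_pow, mul_sub, mul_inv_cancel₀ ((_root_.map_ne_zero _).2 hc0)]
      ring
    rw [e]
    refine Valuation.map_add_lt _ ?_ ?_
    · rw [map_mul, h2, mul_one]; exact hc2
    · rw [map_mul, h3, one_mul]; exact h4

/-- the ring `O` over `z = 0`, `x = 0` is of type `R2` -/
theorem r2_zero (hO : ∀ c, vk c ≤ 1 → algebraMap k E c ∈ O) {A : k[X]} (hA : MI vk A)
    (hdvd : (Polynomial.X : k[X]) ∣ A) {x : E} (hx0 : x ≠ 0) (hz0 : zc A x ≠ 0)
    (hsm : ∀ c, vk c < 1 → ∀ n : ℕ, O.valuation (algebraMap k E c / zc A x ^ n) < 1)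
    (hx : O.valuation x < 1) : R2 vk x O := by
  refine ⟨hO, hx0, fun c hc n => ?_, hx⟩
  obtain ⟨A', rfl⟩ := hdvd
  have hA' : ∀ i, vk (A'.coeff i) ≤ 1 := by
    intro i
    have := hA.le (i + 1)
    rwa [Polynomial.coeff_X_mul] at this
  have h1 : O.valuation (aeval x (Polynomial.X * A')) ≤ O.valuation x := by
    rw [map_mul, aeval_X, map_mul]
    calc O.valuation x * O.valuation (aeval x A') ≤ O.valuation x * 1 :=
          mul_le_mul_right (aeval_le hO hA' hx.le) _
      _ = O.valuation x := mul_one _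
  have h2 : O.valuation (aeval x (1 + Polynomial.X * (Polynomial.X * A'))) = 1 := by
    rw [map_add, map_one, map_mul, aeval_X]
    rw [Valuation.map_add_eq_of_lt_left _ ?_, map_one]
    rw [map_one, map_mul]
    calc O.valuation x * O.valuation (aeval x (Polynomial.X * A'))
        ≤ O.valuation x * O.valuation x := mul_le_mul_right h1 _
      _ ≤ O.valuation x * 1 := mul_le_mul_right hx.le _
      _ = O.valuation x := mul_one _
      _ < 1 := hx
  have h3 : O.valuation (zc (Polynomial.X * A') x) ≤ O.valuation x := by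
    rw [zc, map_div₀, h2, div_one]; exact h1
  have h4 := hsm c hc n
  rw [map_div₀, map_pow, div_lt_one₀ (pow_pos (val_pos _ hz0) _)] at h4
  exact h4.trans_le (pow_le_pow_left₀ zero_le h3 n)

/-- the ring `O` over `z = 0`, `x = ∞` is of type `R2` -/
theorem r2_inf (hO : ∀ c, vk c ≤ 1 → algebraMap k E c ∈ O) {A : k[X]} (hA : MI vk A)
    {x : E} (hz0 : zc A x ≠ 0)
    (hsm : ∀ c, vk c < 1 → ∀ n : ℕ, O.valuation (algebraMap k E c / zc A x ^ n) < 1)
    (hx : 1 < O.valuation x) : R2 vk x⁻¹ O := by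
  have hx0 : x ≠ 0 := by rintro rfl; rw [map_zero] at hx; exact absurd hx (by simp)
  refine ⟨hO, inv_ne_zero hx0, fun c hc n => ?_, ?_⟩
  · have h1 := aeval_of_gt hO hA hx
    have h0 : aeval x A ≠ 0 := by
      intro h0; rw [h0, map_zero] at h1; exact absurd h1 (by simp)
    have h2 : 1 < O.valuation (x * aeval x A) := by
      rw [map_mul]
      calc (1 : O.ValueGroup) < O.valuation x := hx
        _ = O.valuation x * 1 := (mul_one _).symm
        _ ≤ O.valuation x * O.valuation (aeval x A) := mul_le_mul_right h1 _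
    have h3 : O.valuation (aeval x (1 + Polynomial.X * A)) =
        O.valuation x * O.valuation (aeval x A) := by
      rw [map_add, map_one, map_mul, aeval_X,
        Valuation.map_add_eq_of_lt_right _ (by rw [map_one]; exact h2), map_mul]
    have h4 : O.valuation (zc A x) = O.valuation x⁻¹ := by
      rw [zc, map_div₀, h3, map_inv₀, mul_comm, div_mul_eq_div_div, div_self (val_pos _ h0).ne',
        one_div]
    have h5 := hsm c hc n
    rw [map_div₀, map_pow, div_lt_one₀ (pow_pos (val_pos _ hz0) _), h4] at h5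
    exact h5
  · rw [map_inv₀]
    exact inv_lt_one_of_one_lt₀ hx

theorem core (hCk : ∀ c, nC (algebraMap k C c) = vk c) {π : k} (hπ0 : π ≠ 0)
    (X : L) (hXt : Transcendental k X) (A : k[X]) (hA : MI vk A)
    (hdvd : (Polynomial.X : k[X]) ∣ A)
    (l : ℕ) (c₁ : C) (hc₁ : nC c₁ = 1) (hAc : nC (aeval (-c₁ ^ l) A) = 1) (h₀ : L)
    (hβα : ∀ v : Valuation L ℝ≥0, IsG vk v X →
      (v (h₀ - 1) < 1 ∧ ∀ B : ValuationSubring L, B ≤ v.valuationSubring → R2 vk X B →
        ∃ b, B.valuation (b ^ l) = B.valuation X) ∨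
      (v (h₀ * X - 1) < 1 ∧ ∀ B : ValuationSubring L, B ≤ v.valuationSubring → R2 vk X⁻¹ B →
        ∃ b, B.valuation (b ^ l) = B.valuation X))
    (halg : ∀ a : E, IsAlgebraic k⟮zc A (algebraMap L E X)⟯ a)
    (O : ValuationSubring E) (hO : ∀ c, nC c ≤ 1 → algebraMap C E c ∈ O)
    (hz : O.valuation (zc A (algebraMap L E X)) < 1)
    (hπ : ∀ n : ℕ, O.valuation (algebraMap k E π / zc A (algebraMap L E X) ^ n) < 1)
    (hres : ∀ a ∈ O, ∃ c, nC c ≤ 1 ∧ O.valuation (a - algebraMap C E c) < 1)
    (hroot : ∀ c, nC c = 1 → ∃ d, nC (d ^ l - c) < 1) :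
    ∃ g : E, g ≠ 0 ∧ O.valuation (algebraMap L E h₀ /
      ((algebraMap L E X + algebraMap C E c₁ ^ l) / algebraMap L E X) * g ^ l - 1) < 1 := by
  have hX0 : X ≠ 0 := by
    rintro rfl
    exact hXt isAlgebraic_zero
  set x := algebraMap L E X with hx
  set z := zc A x with hzdef
  set c := algebraMap C E c₁ with hcdef
  have hx0 : x ≠ 0 := (_root_.map_ne_zero _).2 hX0
  have hxt : Transcendental k x := by
    rw [hx]
    exact (transcendental_algebraMap_iff (algebraMap L E).injective).2 hXt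
  have hOk : ∀ c, vk c ≤ 1 → algebraMap k E c ∈ O := by
    intro c hc
    rw [IsScalarTower.algebraMap_apply k C E]
    exact hO _ (by rwa [hCk])
  have hA0 : aeval x A ≠ 0 := fun h => hxt ⟨A, hA.monic.ne_zero, h⟩
  have hD0 : aeval x (1 + Polynomial.X * A) ≠ 0 := fun h => hxt ⟨_, hA.den.monic.ne_zero, h⟩
  have hz0 : z ≠ 0 := div_ne_zero hA0 hD0
  obtain ⟨v, hv1, hv2, hv3, hv4, hv5⟩ := exists_norm_of_composite vk hπ0 hz0 hOk hz hπ halg
  have hGz : IsG vk v z := ⟨hv1, hv3.le, hv2⟩
  have hGx : IsG vk v x := isG_of_zc hA hGz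
  set vL : Valuation L ℝ≥0 := v.comap (algebraMap L E) with hvL
  have hGX : IsG vk vL X := by
    refine ⟨fun c => ?_, hGx.le, fun f i => ?_⟩
    · rw [hvL, Valuation.comap_apply, ← IsScalarTower.algebraMap_apply]
      exact hGx.ext c
    · rw [hvL, Valuation.comap_apply, ← aeval_algebraMap_apply]
      exact hGx.coeff_le f i
  set OL := O.comap (algebraMap L E) with hOL
  have hOLv : OL ≤ vL.valuationSubring := fun a ha => hv4 _ ha
  have hsmk : ∀ c, vk c < 1 → ∀ n : ℕ, O.valuation (algebraMap k E c / z ^ n) < 1 :=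
    fun c hc n => small_div vk hπ0 hOk hπ c hc n
  have hsm : ∀ c, nC c < 1 → O.valuation (algebraMap C E c) < 1 := by
    intro c hc
    obtain ⟨m, hm⟩ : ∃ m : ℕ, nC c ^ m < vk π :=
      exists_pow_lt_of_lt_one (pos_iff_ne_zero.2 ((vk.ne_zero_iff).2 hπ0)) hc
    have h1 : nC (c ^ m / algebraMap k C π) ≤ 1 := by
      rw [map_div₀, map_pow, hCk]
      exact div_le_one_of_le₀ hm.le zero_le
    have h2 : O.valuation (algebraMap C E (c ^ m / algebraMap k C π)) ≤ 1 :=
      (O.valuation_le_one_iff _).2 (hO _ h1)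
    have h3 : O.valuation (algebraMap k E π) < 1 := by
      have := hπ 0
      rwa [pow_zero, div_one] at this
    rw [map_div₀, ← IsScalarTower.algebraMap_apply k C E, map_div₀, map_pow, map_pow,
      div_le_one₀ (val_pos _ ((_root_.map_ne_zero _).2 hπ0))] at h2
    by_contra hcon
    push Not at hcon
    exact absurd (h2.trans_lt h3) (not_lt.2 (one_le_pow₀ hcon))
  have hc : O.valuation (c ^ l) = 1 := by
    rw [map_pow, hcdef, eq_one hO hc₁, one_pow]
  have hc0 : c ^ l ≠ 0 := by
    intro h0; rw [h0, map_zero] at hc; exact zero_ne_one hc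
  have key : ∀ u : E, O.valuation u = 1 → ∃ d : E, d ≠ 0 ∧ O.valuation (u * d ^ l - 1) < 1 := by
    intro u hu
    obtain ⟨d, hd1, hd2⟩ := exists_of_unit hO hsm hres hroot hu
    refine ⟨algebraMap C E d, ?_, hd2⟩
    intro h0
    rw [h0, map_zero] at hd1
    exact zero_ne_one hd1
  set y := algebraMap L E h₀ with hy
  have hβ : vL (h₀ - 1) < 1 → O.valuation y = 1 := by
    intro h
    have h1 : O.valuation (y - 1) < 1 := hv5 _ (by
      rw [hvL, Valuation.comap_apply, map_sub, map_one] at h; exact h)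
    exact val_eq_one_of_near h1
  have hα : vL (h₀ * X - 1) < 1 → O.valuation (y * x) = 1 := by
    intro h
    have h1 : O.valuation (y * x - 1) < 1 := hv5 _ (by
      rw [hvL, Valuation.comap_apply, map_sub, map_mul, map_one] at h; exact h)
    exact val_eq_one_of_near h1
  have hbX : ∀ b : L, OL.valuation (b ^ l) = OL.valuation X →
      O.valuation (algebraMap L E b ^ l) = O.valuation x := by
    intro b hb
    have hb0 : b ^ l ≠ 0 := by
      intro h0
      rw [h0, map_zero] at hb
      exact (val_pos _ hX0).ne hb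
    rw [← map_pow]
    exact (comap_eq _ _ hb0 hX0).1 hb
  rcases (zc_lt_iff hOk hA hD0).1 hz with hgt | ⟨hle, hAx⟩
  · -- `x = ∞`
    have hr2 : R2 vk x⁻¹ O := r2_inf hOk hA hz0 hsmk hgt
    have he : O.valuation ((x + c ^ l) / x) = 1 := by
      have : O.valuation (x + c ^ l) = O.valuation x :=
        Valuation.map_add_eq_of_lt_left _ (by rw [hc]; exact hgt)
      rw [map_div₀, this, div_self (val_pos _ hx0).ne']
    rcases hβα vL hGX with ⟨h1, -⟩ | ⟨h1, h2⟩
    · obtain ⟨d, hd0, hd⟩ := key (y / ((x + c ^ l) / x)) (by rw [map_div₀, hβ h1, he, div_one])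
      exact ⟨d, hd0, hd⟩
    · obtain ⟨b, hb⟩ := h2 OL hOLv (by
        refine R2.comap ?_
        rw [map_inv₀]
        exact hr2)
      have hb1 := hbX b hb
      have hb0 : algebraMap L E b ^ l ≠ 0 := by
        intro h0; rw [h0, map_zero] at hb1; exact (val_pos _ hx0).ne hb1
      obtain ⟨d, hd0, hd⟩ := key (y / ((x + c ^ l) / x) * algebraMap L E b ^ l) (by
        rw [map_mul, map_div₀, he, div_one, hb1, ← map_mul, hα h1])
      by_cases hl : l = 0
      · refine ⟨d, hd0, ?_⟩
        subst hl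
        simpa using hd
      refine ⟨algebraMap L E b * d, mul_ne_zero ?_ hd0, ?_⟩
      · intro h0; rw [h0, zero_pow hl] at hb0; exact hb0 rfl
      · rw [mul_pow, ← mul_assoc]
        exact hd
  · rcases lt_or_eq_of_le hle with hlt | heq
    · -- `x = 0`
      have hr2 : R2 vk x O := r2_zero hOk hA hdvd hx0 hz0 hsmk hlt
      have he : O.valuation (x + c ^ l) = 1 := by
        rw [Valuation.map_add_eq_of_lt_right _ (by rw [hc]; exact hlt), hc]
      rcases hβα vL hGX with ⟨h1, h2⟩ | ⟨h1, -⟩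
      · obtain ⟨b, hb⟩ := h2 OL hOLv (R2.comap hr2)
        have hb1 := hbX b hb
        have hb0 : algebraMap L E b ^ l ≠ 0 := by
          intro h0; rw [h0, map_zero] at hb1; exact (val_pos _ hx0).ne hb1
        obtain ⟨d, hd0, hd⟩ := key (y / ((x + c ^ l) / x) / algebraMap L E b ^ l) (by
          rw [map_div₀, map_div₀, map_div₀, he, hb1, hβ h1, one_div_one_div,
            div_self (val_pos _ hx0).ne'])
        by_cases hl : l = 0
        · refine ⟨d, hd0, ?_⟩
          subst hl
          simpa using hd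
        have hb00 : algebraMap L E b ≠ 0 := by
          intro h0; rw [h0, zero_pow hl] at hb0; exact hb0 rfl
        refine ⟨d / algebraMap L E b, div_ne_zero hd0 hb00, ?_⟩
        have e : y / ((x + c ^ l) / x) * (d / algebraMap L E b) ^ l =
            y / ((x + c ^ l) / x) / algebraMap L E b ^ l * d ^ l := by
          rw [div_pow]; ring
        rw [e]
        exact hd
      · obtain ⟨d, hd0, hd⟩ := key (y / ((x + c ^ l) / x)) (by
          have e : y / ((x + c ^ l) / x) = y * x / (x + c ^ l) := by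
            rw [div_div_eq_mul_div]
          rw [e, map_div₀, hα h1, he, div_one])
        exact ⟨d, hd0, hd⟩
    · -- `x` a unit
      have hxc : O.valuation (x + c ^ l) = 1 := by
        refine le_antisymm ((O.valuation.map_add _ _).trans (max_le hle hc.le)) ?_
        by_contra hcon
        push Not at hcon
        have h1 : O.valuation (aeval x A - aeval (-c ^ l) A) < 1 := by
          refine aeval_congr hOk hA.le hle ?_ ?_
          · rw [Valuation.map_neg]; exact hc.le
          · rw [sub_neg_eq_add]; exact hcon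
        have h2 : aeval (-c ^ l) A = algebraMap C E (aeval (-c₁ ^ l) A) := by
          rw [← aeval_algebraMap_apply, map_neg, map_pow]
        have h3 : O.valuation (aeval (-c ^ l) A) = 1 := by rw [h2]; exact eq_one hO hAc
        have h4 : O.valuation (aeval x A) = 1 := by
          rw [← h3]
          exact Valuation.map_eq_of_sub_lt _ (by rwa [h3])
        rw [h4] at hAx
        exact lt_irrefl _ hAx
      have hy1 : O.valuation y = 1 := by
        rcases hβα vL hGX with ⟨h1, -⟩ | ⟨h1, -⟩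
        · exact hβ h1
        · have := hα h1
          rwa [map_mul, heq, mul_one] at this
      obtain ⟨d, hd0, hd⟩ := key (y / ((x + c ^ l) / x)) (by
        rw [map_div₀, map_div₀, hxc, heq, hy1, div_one, div_one])
      exact ⟨d, hd0, hd⟩

end Core

end Crest.Agent.R013.U4_337
end
end

-- ▼ part R013/U5_337
section

/-!
Row 13, part A, leaf A-U (helper337), file 5: choice of the data `B`, `A`, `c₁`, `h₀`.
-/

set_option autoImplicit false

noncomputable section

namespace Crest.Agent.R013.U5_337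

open scoped NNReal
open Polynomial IntermediateField
open Crest.Agent.R013.LiftA_168 Crest.Agent.R013.U2_337 Crest.Agent.R013.RZ_365
open Crest.Agent.R013.U3_337 Crest.Agent.R013.U4_337

section Root

variable {L Γ : Type*} [Field L] [LinearOrderedCommGroupWithZero Γ]

theorem val_one_of_root (u : Valuation L Γ) (a : ℕ → L) (n : ℕ) (x : L)
    (h : ∑ i ∈ Finset.range (n + 1), a i * x ^ i = 0) (ha0 : u (a 0) = 1) (han : u (a n) = 1)
    (hle : ∀ i, u (a i) ≤ 1) : u x = 1 := by
  rcases lt_trichotomy (u x) 1 with hx | hx | hx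
  · exfalso
    rw [Finset.sum_range_succ'] at h
    simp only [pow_zero, mul_one] at h
    have h1 : u (∑ i ∈ Finset.range n, a (i + 1) * x ^ (i + 1)) < 1 := by
      refine Valuation.map_sum_lt _ one_ne_zero fun i _ => ?_
      rw [map_mul, map_pow]
      calc u (a (i + 1)) * u x ^ (i + 1) ≤ 1 * u x ^ (i + 1) := mul_le_mul_left (hle _) _
        _ = u x ^ (i + 1) := one_mul _
        _ < 1 := pow_lt_one₀ zero_le hx (Nat.succ_ne_zero i)
    have h2 : a 0 = -∑ i ∈ Finset.range n, a (i + 1) * x ^ (i + 1) := by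
      rw [eq_neg_iff_add_eq_zero, add_comm]; exact h
    rw [h2, Valuation.map_neg] at ha0
    exact absurd ha0 h1.ne
  · exact hx
  · exfalso
    have hx0 : x ≠ 0 := by rintro rfl; rw [map_zero] at hx; exact absurd hx (by simp)
    rw [Finset.sum_range_succ] at h
    have h1 : u (∑ i ∈ Finset.range n, a i * x ^ i) < u (x ^ n) := by
      refine Valuation.map_sum_lt _ ?_ fun i hi => ?_
      · exact (Valuation.ne_zero_iff _).2 (pow_ne_zero _ hx0)
      · rw [map_mul, map_pow, map_pow]
        calc u (a i) * u x ^ i ≤ 1 * u x ^ i := mul_le_mul_left (hle _) _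
          _ = u x ^ i := one_mul _
          _ < u x ^ n := pow_lt_pow_right₀ hx (Finset.mem_range.1 hi)
    have h2 : a n * x ^ n = -∑ i ∈ Finset.range n, a i * x ^ i := by
      rw [eq_neg_iff_add_eq_zero, add_comm]; exact h
    have h3 : u (a n * x ^ n) = u (x ^ n) := by rw [map_mul, han, one_mul]
    rw [← h3, h2, Valuation.map_neg] at h1
    exact lt_irrefl _ h1

end Root

section Poly

variable {k L : Type*} [Field k] [Field L] [Algebra k L]


end Poly

section A

variable {k : Type*} [Field k] {vk : Valuation k ℝ≥0}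

/-- the monic integral polynomial `A` whose zeros contain the zeros of `B` in the unit disc -/
theorem exists_A (B : k[X]) (hB : B ≠ 0) : ∃ A : k[X], MI vk A ∧ (X : k[X]) ∣ A ∧
    ∃ b : k, b ≠ 0 ∧ ∀ {K : Type*} [Field K] [Algebra k K] (O : ValuationSubring K),
      (∀ c : k, vk c ≤ 1 → algebraMap k K c ∈ O) →
      (∀ c : k, vk c < 1 → O.valuation (algebraMap k K c) < 1) → ∀ t : K, O.valuation t ≤ 1 →
      O.valuation (aeval t A) = 1 → O.valuation (algebraMap k K b * aeval t B) = 1 := by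
  classical
  -- the maximal index of the maximal coefficient
  obtain ⟨m, hm, hmax⟩ := B.support.exists_max_image (fun i => vk (B.coeff i))
    (Polynomial.support_nonempty.2 hB)
  have hmax' : ∀ i, vk (B.coeff i) ≤ vk (B.coeff m) := by
    intro i
    by_cases hi : i ∈ B.support
    · exact hmax i hi
    · rw [Polynomial.notMem_support_iff.1 hi, map_zero]; exact zero_le
  obtain ⟨j, hj, hjmax⟩ := (B.support.filter fun i => vk (B.coeff i) = vk (B.coeff m)).exists_max_image
    id ⟨m, Finset.mem_filter.2 ⟨hm, rfl⟩⟩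
  rw [Finset.mem_filter] at hj
  have hj0 : B.coeff j ≠ 0 := Polynomial.mem_support_iff.1 hj.1
  have hvj : vk (B.coeff j) ≠ 0 := (Valuation.ne_zero_iff _).2 hj0
  have hle : ∀ i, vk (B.coeff i) ≤ vk (B.coeff j) := fun i => (hmax' i).trans hj.2.ge
  have hlt : ∀ i, j < i → vk (B.coeff i) < vk (B.coeff j) := by
    intro i hi
    refine lt_of_le_of_ne (hle i) fun h => ?_
    have hi0 : i ∈ B.support := by
      rw [Polynomial.mem_support_iff]
      intro h0
      rw [h0, map_zero] at h
      exact hvj h.symm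
    have := hjmax i (Finset.mem_filter.2 ⟨hi0, h.trans hj.2⟩)
    exact absurd hi (not_lt.2 this)
  set b := (B.coeff j)⁻¹ with hb
  set D : k[X] := ∑ i ∈ Finset.range (j + 1), monomial i (b * B.coeff i) with hD
  have hDc : ∀ i, D.coeff i = if i ≤ j then b * B.coeff i else 0 := by
    intro i
    rw [hD, Polynomial.finsetSum_coeff]
    simp only [Polynomial.coeff_monomial]
    rw [Finset.sum_ite_eq']
    simp only [Finset.mem_range, Nat.lt_succ_iff]
  have hDm : D.Monic := by
    refine Polynomial.monic_of_natDegree_le_of_coeff_eq_one j ?_ ?_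
    · rw [Polynomial.natDegree_le_iff_coeff_eq_zero]
      intro i hi
      rw [hDc, if_neg (not_le.2 hi)]
    · rw [hDc, if_pos le_rfl, hb, inv_mul_cancel₀ hj0]
  have hbB : ∀ i, vk (b * B.coeff i) ≤ 1 := by
    intro i
    rw [map_mul, hb, map_inv₀, inv_mul_eq_div]
    exact div_le_one_of_le₀ (hle i) zero_le
  have hD1 : MI vk D := by
    refine ⟨hDm, fun i => ?_⟩
    rw [hDc]
    split_ifs
    · exact hbB i
    · rw [map_zero]; exact zero_le
  refine ⟨X * D, MI.var.mul hD1, dvd_mul_right _ _, b, inv_ne_zero hj0, ?_⟩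
  intro K _ _ O hO hsm t ht hA
  rw [map_mul, aeval_X, map_mul] at hA
  have h1 : O.valuation (aeval t D) ≤ 1 := aeval_le hO hD1.le ht
  have h2 : O.valuation (aeval t D) = 1 := by
    refine le_antisymm h1 ?_
    by_contra hcon
    push Not at hcon
    have : O.valuation t * O.valuation (aeval t D) < 1 :=
      mul_lt_one_of_nonneg_of_lt_one_right ht zero_le hcon
    rw [hA] at this
    exact lt_irrefl _ this
  have h3 : O.valuation (algebraMap k K b * aeval t B - aeval t D) < 1 := by
    have e : algebraMap k K b * aeval t B - aeval t D = aeval t (C b * B - D) := by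
      rw [map_sub, map_mul, aeval_C]
    rw [e, aeval_eq_sum_range]
    refine Valuation.map_sum_lt _ one_ne_zero fun i _ => ?_
    rw [Algebra.smul_def, map_mul, map_pow, coeff_sub, coeff_C_mul, hDc]
    by_cases hi : i ≤ j
    · rw [if_pos hi, sub_self, map_zero, map_zero, zero_mul]; exact zero_lt_one
    · rw [if_neg hi, sub_zero]
      refine mul_lt_one_of_nonneg_of_lt_one_left zero_le (hsm _ ?_) (pow_le_one₀ zero_le ht)
      rw [map_mul, hb, map_inv₀, inv_mul_eq_div]
      exact (div_lt_one₀ (zero_lt_iff.2 hvj)).2 (hlt i (not_le.1 hi))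
  rw [← h2]
  exact Valuation.map_eq_of_sub_lt _ (by rwa [h2])

end A

section C

variable {k C : Type*} [Field k] [Field C] [Algebra k C] {vk : Valuation k ℝ≥0}
  {nC : Valuation C ℝ≥0}

theorem norm_aeval_le (hCk : ∀ c, nC (algebraMap k C c) = vk c) {A : k[X]}
    (hA : ∀ i, vk (A.coeff i) ≤ 1) {c : C} (hc : nC c ≤ 1) : nC (aeval c A) ≤ 1 := by
  rw [aeval_eq_sum_range]
  refine Valuation.map_sum_le _ fun i _ => ?_
  rw [Algebra.smul_def, map_mul, map_pow, hCk]
  exact mul_le_one' (hA i) (pow_le_one₀ zero_le hc)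

theorem norm_aeval_congr (hCk : ∀ c, nC (algebraMap k C c) = vk c) {A : k[X]}
    (hA : ∀ i, vk (A.coeff i) ≤ 1) {s t : C} (hs : nC s ≤ 1) (ht : nC t ≤ 1)
    (h : nC (s - t) < 1) : nC (aeval s A - aeval t A) < 1 := by
  rw [aeval_eq_sum_range, aeval_eq_sum_range, ← Finset.sum_sub_distrib]
  refine Valuation.map_sum_lt _ one_ne_zero fun i _ => ?_
  rw [← smul_sub, Algebra.smul_def, map_mul, hCk, ← (Commute.all s t).mul_geom_sum₂ i, map_mul]
  have h1 : nC (∑ j ∈ Finset.range i, s ^ j * t ^ (i - 1 - j)) ≤ 1 := by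
    refine Valuation.map_sum_le _ fun j _ => ?_
    rw [map_mul, map_pow, map_pow]
    exact mul_le_one' (pow_le_one₀ zero_le hs) (pow_le_one₀ zero_le ht)
  exact mul_lt_one_of_nonneg_of_lt_one_right (hA i) zero_le
    (mul_lt_one_of_nonneg_of_lt_one_left zero_le h h1)

theorem exists_c1 (hCk : ∀ c, nC (algebraMap k C c) = vk c) (hC : ResClosed nC) {A : k[X]}
    (hA : MI vk A) {l : ℕ} (hl : l ≠ 0) :
    ∃ c₁ : C, nC c₁ = 1 ∧ nC (aeval (-c₁ ^ l) A) = 1 := by
  -- a root of `X A - 1`
  set P : k[X] := X * A - 1 with hP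
  have hXA : MI vk (X * A) := MI.var.mul hA
  have hdeg : (X * A).natDegree = A.natDegree + 1 := natDegree_X_mul hA.monic.ne_zero
  have hPm : P.Monic := by
    rw [hP]
    refine hXA.monic.sub_of_left ?_
    rw [degree_one, degree_eq_natDegree hXA.monic.ne_zero, hdeg]
    exact_mod_cast Nat.succ_pos _
  have hPd : P.natDegree ≠ 0 := by
    rw [hP, natDegree_sub_eq_left_of_natDegree_lt (by rw [natDegree_one, hdeg]; omega), hdeg]
    omega
  have hPi : ∀ i, vk (P.coeff i) ≤ 1 := by
    intro i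
    rw [hP, coeff_sub]
    exact (vk.map_sub _ _).trans (max_le (hXA.le i) (MI.one.le i))
  obtain ⟨c₂, hc₂, hc₂'⟩ := hC (P.map (algebraMap k C)) (hPm.map _)
    (by rw [natDegree_map]; exact hPd) (fun i => by rw [coeff_map, hCk]; exact hPi i)
  rw [eval_map_algebraMap, hP, map_sub, map_mul, aeval_X, map_one] at hc₂'
  have h1 : nC (c₂ * aeval c₂ A) = 1 := by
    rw [← map_one nC]
    exact Valuation.map_eq_of_sub_lt _ (by rwa [map_one])
  have h2 : nC (aeval c₂ A) ≤ 1 := norm_aeval_le hCk hA.le hc₂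
  have h3 : nC c₂ = 1 := by
    refine le_antisymm hc₂ ?_
    by_contra hcon
    push Not at hcon
    rw [map_mul] at h1
    have : nC c₂ * nC (aeval c₂ A) < 1 := mul_lt_one_of_nonneg_of_lt_one_left zero_le hcon h2
    rw [h1] at this
    exact lt_irrefl _ this
  have h4 : nC (aeval c₂ A) = 1 := by rwa [map_mul, h3, one_mul] at h1
  -- an `l`-th root of `-c₂`
  set R : C[X] := X ^ l + Polynomial.C c₂ with hR
  obtain ⟨c₁, hc₁, hc₁'⟩ := hC R (monic_X_pow_add_C c₂ hl)
    (by rw [hR, natDegree_X_pow_add_C]; exact hl) (fun i => by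
      rw [hR, coeff_add, coeff_X_pow, coeff_C]
      refine (nC.map_add _ _).trans (max_le ?_ ?_)
      · split_ifs
        · rw [map_one]
        · rw [map_zero]; exact zero_le
      · split_ifs
        · exact hc₂
        · rw [map_zero]; exact zero_le)
  rw [hR, eval_add, eval_pow, eval_X, eval_C] at hc₁'
  have h5 : nC (c₁ ^ l) = 1 := by
    have h6 : nC (c₁ ^ l - -c₂) < nC (-c₂) := by rwa [sub_neg_eq_add, Valuation.map_neg, h3]
    rw [Valuation.map_eq_of_sub_lt _ h6, Valuation.map_neg, h3]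
  refine ⟨c₁, ?_, ?_⟩
  · rw [map_pow] at h5
    exact (pow_eq_one_iff_of_nonneg zero_le hl).1 h5
  · have h7 : nC (aeval (-c₁ ^ l) A - aeval c₂ A) < 1 := by
      refine norm_aeval_congr hCk hA.le ?_ hc₂ ?_
      · rw [Valuation.map_neg, h5]
      · have e : -c₁ ^ l - c₂ = -(c₁ ^ l + c₂) := by ring
        rw [e, Valuation.map_neg]
        exact hc₁'
    rw [← h4]
    exact Valuation.map_eq_of_sub_lt _ (by rwa [h4])

theorem exists_root (hC : ResClosed nC) {l : ℕ} (hl : l ≠ 0) (c : C) (hc : nC c = 1) :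
    ∃ d, nC (d ^ l - c) < 1 := by
  obtain ⟨d, -, hd⟩ := hC (X ^ l - Polynomial.C c) (monic_X_pow_sub_C c hl)
    (by rw [natDegree_X_pow_sub_C]; exact hl) (fun i => by
      rw [coeff_sub, coeff_X_pow, coeff_C]
      refine (nC.map_sub _ _).trans (max_le ?_ ?_)
      · split_ifs
        · rw [map_one]
        · rw [map_zero]; exact zero_le
      · split_ifs
        · exact hc.le
        · rw [map_zero]; exact zero_le)
  rw [eval_sub, eval_pow, eval_X, eval_C] at hd
  exact ⟨d, hd⟩

end C

section H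

variable {k L : Type*} [Field k] [Field L] [Algebra k L] {vk : Valuation k ℝ≥0}

/-- the element `h₀` -/
theorem exists_h0 (hnt : ∃ c, vk c ≠ 0 ∧ vk c ≠ 1) (X : L) (hX : Transcendental k X)
    [FiniteDimensional k⟮X⟯ L] (β α : Valuation L ℝ≥0 → Prop)
    (hdich : ∀ v : Valuation L ℝ≥0, IsG vk v X → β v ∨ α v) (v₁ : Valuation L ℝ≥0)
    (hv₁ : IsG vk v₁ X) :
    ∃ h₀ : L, h₀ ≠ 0 ∧ ∀ v : Valuation L ℝ≥0, IsG vk v X →
      (v (h₀ - 1) < 1 ∧ β v) ∨ (v (h₀ * X - 1) < 1 ∧ α v) := by
  classical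
  have hX0 : X ≠ 0 := by rintro rfl; exact hX isAlgebraic_zero
  have hfin := finite_isG hnt X
  have : Finite {w : Valuation L ℝ≥0 | IsG vk w X} := hfin
  obtain ⟨h₀, hh⟩ := weak_approx (ι := {w : Valuation L ℝ≥0 | IsG vk w X}) hnt (fun w => w.1)
    Subtype.val_injective (fun i c => i.2.ext c) (fun w => if β w.1 then 1 else X⁻¹) 1 one_pos
  have key : ∀ v : Valuation L ℝ≥0, IsG vk v X →
      (v (h₀ - 1) < 1 ∧ β v) ∨ (v (h₀ * X - 1) < 1 ∧ α v) := by
    intro v hv
    have h1 := hh ⟨v, hv⟩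
    have h2 := hdich v hv
    by_cases hβ : β v
    · left
      simp only [if_pos hβ] at h1
      exact ⟨h1, hβ⟩
    · right
      simp only [if_neg hβ] at h1
      refine ⟨?_, h2.resolve_left hβ⟩
      have e : h₀ * X - 1 = (h₀ - X⁻¹) * X := by rw [sub_mul, inv_mul_cancel₀ hX0]
      rw [e, map_mul, hv.val_eq_one, mul_one]
      exact h1
  refine ⟨h₀, ?_, key⟩
  rintro rfl
  rcases key v₁ hv₁ with ⟨h, -⟩ | ⟨h, -⟩
  · rw [zero_sub, Valuation.map_neg, map_one] at h; exact lt_irrefl _ h
  · rw [zero_mul, zero_sub, Valuation.map_neg, map_one] at h; exact lt_irrefl _ h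

end H

end Crest.Agent.R013.U5_337
end
end

-- ▼ part R013/U6_337

/-!
Row 13, part A, leaf A-U (helper337), file 6: if there are no non split pairs over `(η; 0, ∞)` at a
finite level `L`, then compactness gives the data of the patching problem.
-/

set_option autoImplicit false

noncomputable section

namespace Crest.Agent.R013.U6_337

open scoped NNReal
open Polynomial IntermediateField
open Crest.Agent.R013.LiftA_168 Crest.Agent.R013.U2_337 Crest.Agent.R013.RZ_365
open Crest.Agent.R013.U3_337 Crest.Agent.R013.U4_337 Crest.Agent.R013.U5_337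

section Alg

variable {k F E : Type*} [Field k] [Field F] [Field E] [Algebra k F] [Algebra F E] [Algebra k E]
  [IsScalarTower k F E]

theorem hgen_of_top {X : F} (hF : k⟮X⟯ = ⊤) (f : F) :
    ∃ P Q : k[X], aeval X Q ≠ 0 ∧ f = aeval X P / aeval X Q := by
  have hf : f ∈ k⟮X⟯ := by rw [hF]; exact mem_top
  rw [mem_adjoin_simple_iff] at hf
  obtain ⟨P, Q, hPQ⟩ := hf
  by_cases hQ : aeval X Q = 0
  · refine ⟨0, 1, by rw [map_one]; exact one_ne_zero, ?_⟩
    rw [hPQ, hQ, div_zero, map_zero, zero_div]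
  · exact ⟨P, Q, hQ, hPQ⟩

theorem top_inv {X : F} (hF : k⟮X⟯ = ⊤) : k⟮X⁻¹⟯ = ⊤ := by
  rw [eq_top_iff, ← hF, adjoin_simple_le_iff]
  have := (k⟮X⁻¹⟯).inv_mem (mem_adjoin_simple_self k X⁻¹)
  rwa [inv_inv] at this

theorem isAlgebraic_mono {S T E : Type*} [Field S] [Field T] [Field E] [Algebra S E] [Algebra T E]
    (g : S →+* T) (hg : ∀ s, algebraMap T E (g s) = algebraMap S E s) {a : E}
    (h : IsAlgebraic S a) : IsAlgebraic T a := by
  obtain ⟨P, hP0, hP⟩ := h
  refine ⟨P.map g, (Polynomial.map_ne_zero_iff g.injective).2 hP0, ?_⟩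
  rw [aeval_def, eval₂_map]
  have e : (algebraMap T E).comp g = algebraMap S E := RingHom.ext hg
  rw [e]
  exact hP

theorem map_mem_adjoin {X : F} (hF : k⟮X⟯ = ⊤) (f : F) :
    algebraMap F E f ∈ k⟮algebraMap F E X⟯ := by
  obtain ⟨P, Q, -, rfl⟩ := hgen_of_top hF f
  rw [map_div₀, ← aeval_algebraMap_apply, ← aeval_algebraMap_apply]
  have hP : ∀ P : k[X], aeval (algebraMap F E X) P ∈ k⟮algebraMap F E X⟯ := by
    intro P
    rw [aeval_eq_sum_range]
    refine sum_mem fun i _ => ?_
    rw [Algebra.smul_def]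
    exact mul_mem (IntermediateField.algebraMap_mem _ _)
      (pow_mem (mem_adjoin_simple_self k _) _)
  exact div_mem (hP P) (hP Q)

theorem isAlgebraic_adjoin {X : F} (hF : k⟮X⟯ = ⊤) [Algebra.IsAlgebraic F E] (a : E) :
    IsAlgebraic k⟮algebraMap F E X⟯ a := by
  let f : F →+* k⟮algebraMap F E X⟯ :=
    (algebraMap F E).codRestrict k⟮algebraMap F E X⟯.toSubfield (map_mem_adjoin hF)
  exact isAlgebraic_mono f (fun _ => rfl) (Algebra.IsAlgebraic.isAlgebraic (R := F) a)

theorem finite_adjoin {X : F} (hF : k⟮X⟯ = ⊤) [FiniteDimensional F E] :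
    FiniteDimensional k⟮algebraMap F E X⟯ E := by
  let f : F →+* k⟮algebraMap F E X⟯ :=
    (algebraMap F E).codRestrict k⟮algebraMap F E X⟯.toSubfield (map_mem_adjoin hF)
  let _ : Algebra F k⟮algebraMap F E X⟯ := f.toAlgebra
  have : IsScalarTower F k⟮algebraMap F E X⟯ E := IsScalarTower.of_algebraMap_eq fun _ => rfl
  exact Module.Finite.of_restrictScalars_finite F k⟮algebraMap F E X⟯ E

/-- `X` is algebraic over `k(z)` -/
theorem isAlgebraic_zc_self {vk : Valuation k ℝ≥0} {A : k[X]} (hA : MI vk A) {x : E}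
    (hx : Transcendental k x) : IsAlgebraic k⟮zc A x⟯ x := by
  have hA0 : aeval x A ≠ 0 := fun h => hx ⟨A, hA.monic.ne_zero, h⟩
  have hD0 : aeval x (1 + Polynomial.X * A) ≠ 0 := fun h => hx ⟨_, hA.den.monic.ne_zero, h⟩
  have hz0 : zc A x ≠ 0 := div_ne_zero hA0 hD0
  set K0 := k⟮zc A x⟯ with hK0
  let z : K0 := ⟨zc A x, mem_adjoin_simple_self k _⟩
  have hz : z ≠ 0 := fun h => hz0 (congrArg Subtype.val h)
  refine ⟨Polynomial.C z * (1 + Polynomial.X * A).map (algebraMap k K0) - A.map (algebraMap k K0),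
    ?_, ?_⟩
  · intro h
    have h1 := congrArg (fun p : K0[X] => p.coeff (A.natDegree + 1)) h
    simp only [coeff_sub, coeff_C_mul, coeff_map, coeff_zero] at h1
    rw [← hA.natDegree_den, hA.den.monic.coeff_natDegree, hA.natDegree_den,
      coeff_eq_zero_of_natDegree_lt (Nat.lt_succ_self _), map_one, mul_one, map_zero,
      sub_zero] at h1
    exact hz h1
  · rw [map_sub, map_mul, aeval_C, aeval_map_algebraMap, aeval_map_algebraMap]
    change zc A x * _ - _ = 0
    rw [zc, div_mul_cancel₀ _ hD0, sub_self]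

theorem isAlgebraic_zc {vk : Valuation k ℝ≥0} {A : k[X]} (hA : MI vk A) {X : F}
    (hX : Transcendental k X) (hF : k⟮X⟯ = ⊤) [Algebra.IsAlgebraic F E] (a : E) :
    IsAlgebraic k⟮zc A (algebraMap F E X)⟯ a := by
  set x := algebraMap F E X with hx
  have hxt : Transcendental k x := by
    rw [hx]
    exact (transcendental_algebraMap_iff (algebraMap F E).injective).2 hX
  set K0 := k⟮zc A x⟯ with hK0
  set A1 : IntermediateField K0 E := algebraicClosure K0 E with hA1
  have hxA : x ∈ A1 := (mem_algebraicClosure_iff (F := K0) (E := E)).2 (isAlgebraic_zc_self hA hxt)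
  have hkA : ∀ c : k, algebraMap k E c ∈ A1 := by
    intro c
    rw [IsScalarTower.algebraMap_apply k K0 E]
    exact A1.algebraMap_mem _
  have hFA : ∀ f : F, algebraMap F E f ∈ A1 := by
    intro f
    obtain ⟨P, Q, -, rfl⟩ := hgen_of_top hF f
    rw [map_div₀, ← aeval_algebraMap_apply, ← aeval_algebraMap_apply]
    have hP : ∀ P : k[X], aeval x P ∈ A1 := by
      intro P
      rw [aeval_eq_sum_range]
      refine sum_mem fun i _ => ?_
      rw [Algebra.smul_def]
      exact mul_mem (hkA _) (pow_mem hxA _)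
    exact div_mem (hP P) (hP Q)
  let f : F →+* A1 := (algebraMap F E).codRestrict A1.toSubfield hFA
  obtain ⟨P, hP0, hP⟩ := Algebra.IsAlgebraic.isAlgebraic (R := F) a
  have h1 : IsAlgebraic A1 a := by
    refine ⟨P.map f, (Polynomial.map_ne_zero_iff f.injective).2 hP0, ?_⟩
    rw [aeval_def, eval₂_map]
    exact hP
  have : Algebra.IsAlgebraic K0 A1 := algebraicClosure.isAlgebraic K0 E
  exact h1.restrictScalars K0

end Alg

section Rel

open scoped IntermediateField.algebraAdjoinAdjoin in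
/-- the relation of an algebraic element over `k[X]` -/
theorem exists_rel {k E : Type*} [Field k] [Field E] [Algebra k E] (x h₀ : E) (hh : h₀ ≠ 0)
    (halg : IsAlgebraic k⟮x⟯ h₀) :
    ∃ (P : ℕ → k[X]) (n : ℕ), aeval x (P 0) ≠ 0 ∧ aeval x (P n) ≠ 0 ∧
      ∑ i ∈ Finset.range (n + 1), aeval x (P i) * h₀ ^ i = 0 := by
  have h1 : IsAlgebraic (Algebra.adjoin k {x}) h₀ :=
    (IsFractionRing.isAlgebraic_iff (Algebra.adjoin k {x}) k⟮x⟯ E).2 halg
  obtain ⟨q, hq0, hq⟩ := h1.exists_nonzero_coeff_and_aeval_eq_zero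
    (mem_nonZeroDivisors_of_ne_zero hh)
  have hq' : q ≠ 0 := by rintro rfl; exact hq0 (coeff_zero 0)
  have hr : ∀ a : Algebra.adjoin k {x}, ∃ P : k[X], aeval x P = (a : E) := by
    rintro ⟨a, ha⟩
    rw [Algebra.adjoin_singleton_eq_range_aeval] at ha
    exact ha
  choose P hP using hr
  refine ⟨fun i => P (q.coeff i), q.natDegree, ?_, ?_, ?_⟩
  · rw [hP]
    exact fun h => hq0 (Subtype.ext h)
  · rw [hP]
    exact fun h => leadingCoeff_ne_zero.2 hq' (Subtype.ext h)
  · rw [aeval_eq_sum_range] at hq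
    rw [← hq]
    refine Finset.sum_congr rfl fun i _ => ?_
    rw [hP]
    rfl

theorem unit_of_rel {k U Γ : Type*} [Field k] [Field U] [Algebra k U]
    [LinearOrderedCommGroupWithZero Γ] (u : Valuation U Γ) {x h₀ : U} {P : ℕ → k[X]} {n : ℕ}
    (h : ∑ i ∈ Finset.range (n + 1), aeval x (P i) * h₀ ^ i = 0)
    (hu : ∀ c : k, c ≠ 0 → u (algebraMap k U c) = 1) (hx : u x ≤ 1)
    (hB : u (aeval x (P 0 * P n)) = 1) : u h₀ = 1 := by
  have hint : ∀ Q : k[X], u (aeval x Q) ≤ 1 := by
    intro Q
    rw [aeval_eq_sum_range]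
    refine Valuation.map_sum_le _ fun i _ => ?_
    rw [Algebra.smul_def, map_mul, map_pow]
    refine mul_le_one' ?_ (pow_le_one₀ zero_le hx)
    by_cases hc : Q.coeff i = 0
    · rw [hc, map_zero, map_zero]; exact zero_le_one
    · exact (hu _ hc).le
  rw [map_mul, map_mul] at hB
  have hB0 : u (aeval x (P 0)) = 1 := by
    refine le_antisymm (hint _) ?_
    by_contra hcon
    push Not at hcon
    have : u (aeval x (P 0)) * u (aeval x (P n)) < 1 :=
      mul_lt_one_of_nonneg_of_lt_one_left zero_le hcon (hint _)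
    rw [hB] at this
    exact lt_irrefl _ this
  have hBn : u (aeval x (P n)) = 1 := by
    rw [hB0, one_mul] at hB
    exact hB
  exact val_one_of_root u (fun i => aeval x (P i)) n h₀ h hB0 hBn fun i => hint _

end Rel

section Level

variable {k F M C : Type*} [Field k] [Field F] [Field M] [Field C] [Algebra k F] [Algebra F M]
  [Algebra k M] [IsScalarTower k F M] {vk : Valuation k ℝ≥0} {X : F}

/-- no non split pair at level `L`: at each `v` one of the two sides is split -/
theorem dich (hF : k⟮X⟯ = ⊤) {v₀ : Valuation F ℝ≥0} (hv₀ : IsG vk v₀ X)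
    {A₀ A₁ : ValuationSubring F} (hA₀ : R2 vk X A₀) (hA₁ : R2 vk X⁻¹ A₁) (l : ℕ)
    (L : IntermediateField F M)
    (hno : ¬ ∃ Y A A' : ValuationSubring L, A ≤ Y ∧ A' ≤ Y ∧
        Y.comap (algebraMap F L) = v₀.valuationSubring ∧ A.comap (algebraMap F L) = A₀ ∧
        A'.comap (algebraMap F L) = A₁ ∧
        (∀ b : L, A.valuation (b ^ l) ≠ A.valuation (algebraMap F L X)) ∧
        (∀ b : L, A'.valuation (b ^ l) ≠ A'.valuation (algebraMap F L X)))
    (v : Valuation L ℝ≥0) (hv : IsG vk v (algebraMap F L X)) :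
    (∀ B : ValuationSubring L, B ≤ v.valuationSubring → R2 vk (algebraMap F L X) B →
      ∃ b, B.valuation (b ^ l) = B.valuation (algebraMap F L X)) ∨
    (∀ B : ValuationSubring L, B ≤ v.valuationSubring → R2 vk (algebraMap F L X)⁻¹ B →
      ∃ b, B.valuation (b ^ l) = B.valuation (algebraMap F L X)) := by
  by_contra hcon
  push Not at hcon
  obtain ⟨⟨B, hB, hB2, hBn⟩, ⟨B', hB', hB2', hBn'⟩⟩ := hcon
  refine hno ⟨v.valuationSubring, B, B', hB, hB', ?_, ?_, ?_, hBn, hBn'⟩
  · ext f
    rw [ValuationSubring.mem_comap, Valuation.mem_valuationSubring_iff,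
      Valuation.mem_valuationSubring_iff]
    obtain ⟨P, Q, -, rfl⟩ := hgen_of_top hF f
    rw [map_div₀, map_div₀, map_div₀, ← aeval_algebraMap_apply, ← aeval_algebraMap_apply]
    obtain ⟨i, hi, -⟩ := exists_max_coeff vk P
    obtain ⟨j, hj, -⟩ := exists_max_coeff vk Q
    rw [hv.aeval_eq P hi, hv.aeval_eq Q hj, hv₀.aeval_eq P hi, hv₀.aeval_eq Q hj]
  · exact R2.unique (hgen_of_top hF) (R2.comap hB2) hA₀
  · refine R2.unique (hgen_of_top (top_inv hF)) (R2.comap ?_) hA₁
    rw [map_inv₀]
    exact hB2'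

variable [Algebra k C]

/-- **compactness**: the data of the patching problem at a finite level -/
theorem exists_level (E : IntermediateField F M) [Algebra C E] [IsScalarTower k C E]
    {nC : Valuation C ℝ≥0} (hCk : ∀ c, nC (algebraMap k C c) = vk c) (hC : ResClosed nC)
    [Algebra.IsAlgebraic F M] (hX : Transcendental k X) (hF : k⟮X⟯ = ⊤) {v₀ : Valuation F ℝ≥0}
    (hv₀ : IsG vk v₀ X) {A₀ A₁ : ValuationSubring F} (hA₀ : R2 vk X A₀) (hA₁ : R2 vk X⁻¹ A₁)
    {l : ℕ} (hl : l ≠ 0) {π : k} (hπ0 : π ≠ 0) (hπ1 : vk π < 1) (L : IntermediateField F M)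
    [FiniteDimensional F L] (hLE : L ≤ E)
    (hno : ¬ ∃ Y A A' : ValuationSubring L, A ≤ Y ∧ A' ≤ Y ∧
        Y.comap (algebraMap F L) = v₀.valuationSubring ∧ A.comap (algebraMap F L) = A₀ ∧
        A'.comap (algebraMap F L) = A₁ ∧
        (∀ b : L, A.valuation (b ^ l) ≠ A.valuation (algebraMap F L X)) ∧
        (∀ b : L, A'.valuation (b ^ l) ≠ A'.valuation (algebraMap F L X))) :
    ∃ (A : k[X]) (h₀ : E) (c₁ : C) (e₀ : ℕ) (G : Finset E),
      MI vk A ∧ (Polynomial.X : k[X]) ∣ A ∧ h₀ ≠ 0 ∧ nC c₁ = 1 ∧ nC (aeval (-c₁ ^ l) A) = 1 ∧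
      (∀ g ∈ G, g ≠ 0) ∧
      (∀ O : ValuationSubring E, (∀ c, nC c ≤ 1 → algebraMap C E c ∈ O) →
        O.valuation (zc A (algebraMap F E X)) < 1 →
        O.valuation (algebraMap k E π / zc A (algebraMap F E X) ^ e₀) < 1 →
        ∃ g ∈ G, O.valuation (h₀ / ((algebraMap F E X + algebraMap C E c₁ ^ l) /
          algebraMap F E X) * g ^ l - 1) < 1) ∧
      ∀ {U : Type*} [Field U] [Algebra k U] [Algebra U E] [IsScalarTower k U E]
        (X' h₀' : U), algebraMap U E X' = algebraMap F _ X →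
        algebraMap U E h₀' = h₀ → ∀ (O : ValuationSubring U) (u : Valuation U ℝ≥0),
        (∀ c : k, vk c ≤ 1 → algebraMap k U c ∈ O) →
        (∀ c : k, vk c < 1 → O.valuation (algebraMap k U c) < 1) →
        (∀ c : k, c ≠ 0 → u (algebraMap k U c) = 1) → (∀ a ∈ O, u a ≤ 1) →
        O.valuation X' ≤ 1 → O.valuation (aeval X' A) = 1 → u h₀' = 1 := by
  classical
  have hnt : ∃ c, vk c ≠ 0 ∧ vk c ≠ 1 := ⟨π, (Valuation.ne_zero_iff _).2 hπ0, hπ1.ne⟩
  set XL : L := algebraMap F L X with hXL
  have hXLt : Transcendental k XL := by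
    rw [hXL]
    exact (transcendental_algebraMap_iff (algebraMap F L).injective).2 hX
  let _ : Algebra L E := (IntermediateField.inclusion hLE).toRingHom.toAlgebra
  have hLEc : ∀ a : L, ((algebraMap L E a : E) : M) = (a : M) := fun a => rfl
  have : IsScalarTower k L E := IsScalarTower.of_algebraMap_eq fun c => rfl
  have : IsScalarTower F L E := IsScalarTower.of_algebraMap_eq fun c => rfl
  -- finite dimensional over `k(X)`
  have hfd : FiniteDimensional k⟮XL⟯ L := finite_adjoin hF
  -- one norm over the Gauss norm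
  obtain ⟨v₁, hv₁⟩ : ∃ v₁ : Valuation L ℝ≥0, IsG vk v₁ XL := by
    obtain ⟨v₁, hv₁⟩ := exists_ext_val (K := L) v₀
    refine ⟨v₁, fun c => ?_, ?_, fun f i => ?_⟩
    · rw [IsScalarTower.algebraMap_apply k F L, hv₁, hv₀.ext]
    · rw [hXL, hv₁]; exact hv₀.le
    · rw [hXL, aeval_algebraMap_apply, hv₁]; exact hv₀.coeff_le f i
  obtain ⟨h₀, hh0, hβα⟩ := exists_h0 hnt XL hXLt _ _ (dich hF hv₀ hA₀ hA₁ l L hno) v₁ hv₁
  have hh0E : algebraMap L E h₀ ≠ 0 := (_root_.map_ne_zero _).2 hh0
  set x : E := algebraMap F E X with hx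
  have hxL : algebraMap L E XL = x := rfl
  have halgE : Algebra.IsAlgebraic F E := inferInstance
  have hxt : Transcendental k x := by
    rw [hx]
    exact (transcendental_algebraMap_iff (algebraMap F E).injective).2 hX
  obtain ⟨P, n, hP0, hPn, hrel⟩ := exists_rel (k := k) x (algebraMap L E h₀) hh0E
    (isAlgebraic_adjoin hF _)
  have hB0 : P 0 * P n ≠ 0 := by
    intro h
    have h1 := congrArg (aeval x) h
    rw [map_mul, map_zero] at h1
    exact mul_ne_zero hP0 hPn h1
  obtain ⟨A, hA, hdvd, b, hb0, hAB⟩ := exists_A (vk := vk) (P 0 * P n) hB0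
  obtain ⟨c₁, hc₁, hAc⟩ := exists_c1 hCk hC hA hl
  have hA0 : aeval x A ≠ 0 := fun h => hxt ⟨A, hA.monic.ne_zero, h⟩
  have hD0 : aeval x (1 + Polynomial.X * A) ≠ 0 := fun h => hxt ⟨_, hA.den.monic.ne_zero, h⟩
  have hz0 : zc A x ≠ 0 := div_ne_zero hA0 hD0
  have halgz : ∀ a : E, IsAlgebraic k⟮zc A x⟯ a := fun a => isAlgebraic_zc hA hX hF a
  obtain ⟨e₀, G, hG0, hG⟩ := lift3 (K := E) {a | ∃ c : C, nC c ≤ 1 ∧ algebraMap C E c = a}
    (zc A x) (algebraMap k E π)
    (algebraMap L E h₀ / ((x + algebraMap C E c₁ ^ l) / x)) hz0 l (by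
      intro O hO hz hπ
      have hO' : ∀ c, nC c ≤ 1 → algebraMap C E c ∈ O := fun c hc => hO _ ⟨c, hc, rfl⟩
      have hres : ∀ a ∈ O, ∃ c, nC c ≤ 1 ∧ O.valuation (a - algebraMap C E c) < 1 := by
        have hk : ∀ a ∈ k⟮zc A x⟯, a ∈ C⟮zc A x⟯ := by
          intro a ha
          rw [mem_adjoin_simple_iff] at ha
          obtain ⟨P, Q, rfl⟩ := ha
          have hP : ∀ P : k[X], aeval (zc A x) P ∈ C⟮zc A x⟯ := by
            intro P
            rw [aeval_eq_sum_range]
            refine sum_mem fun i _ => ?_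
            rw [Algebra.smul_def, IsScalarTower.algebraMap_apply k C E]
            exact mul_mem (IntermediateField.algebraMap_mem _ _)
              (pow_mem (mem_adjoin_simple_self C _) _)
          exact div_mem (hP P) (hP Q)
        let g : k⟮zc A x⟯ →+* C⟮zc A x⟯ :=
          (algebraMap k⟮zc A x⟯ E).codRestrict C⟮zc A x⟯.toSubfield fun a => hk _ a.2
        refine fun a ha => exists_const' nC (π := algebraMap k C π)
          ((_root_.map_ne_zero _).2 hπ0) hz0 hO' hz (fun n => ?_) hC
          (fun a => isAlgebraic_mono g (fun _ => rfl) (halgz a)) a ha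
        rw [← IsScalarTower.algebraMap_apply k C E]
        exact hπ n
      exact core hCk hπ0 XL hXLt A hA hdvd l c₁ hc₁ hAc h₀ hβα halgz O hO' hz hπ hres
        (exists_root hC hl))
  refine ⟨A, algebraMap L E h₀, c₁, e₀, G, hA, hdvd, hh0E, hc₁, hAc, hG0, ?_, ?_⟩
  · intro O hO hz hπ
    exact hG O (by rintro _ ⟨c, hc, rfl⟩; exact hO c hc) hz hπ
  · intro U _ _ _ _ X' h₀' hX' hh' O u hOk hOk' huk hOu hXO hAO
    have h1 := hAB O hOk hOk' X' hXO hAO
    have h2 : u (algebraMap k U b * aeval X' (P 0 * P n)) = 1 := by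
      have h3 := hOu _ ((O.valuation_le_one_iff _).1 h1.le)
      have h4 := hOu _ ((O.valuation_le_one_iff _).1 (show O.valuation
        (algebraMap k U b * aeval X' (P 0 * P n))⁻¹ ≤ 1 by rw [map_inv₀, h1, inv_one]))
      rw [map_inv₀] at h4
      refine le_antisymm h3 ?_
      have h5 : u (algebraMap k U b * aeval X' (P 0 * P n)) ≠ 0 := by
        rw [Valuation.ne_zero_iff]
        intro h0
        rw [h0, map_zero] at h1
        exact zero_ne_one h1
      exact (inv_le_one₀ (zero_lt_iff.2 h5)).1 h4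
    rw [map_mul, huk b hb0, one_mul] at h2
    have hXU : u X' ≤ 1 := hOu _ ((O.valuation_le_one_iff _).1 hXO)
    refine unit_of_rel u (P := P) (n := n) ?_ huk hXU h2
    apply (algebraMap U E).injective
    rw [map_sum, map_zero, ← hrel]
    refine Finset.sum_congr rfl fun i _ => ?_
    rw [map_mul, map_pow, hh', ← aeval_algebraMap_apply, hX']

end Level

end Crest.Agent.R013.U6_337
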