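import Crest.Agent.R013.U1_337
import Crest.Agent.R013.U6_337
import Crest.Agent.R013.Rk2b_894
import Crest.Agent.R013.Ax2_280
import Crest.Agent.R013.A2b_275
import Crest.Agent.R013.Lift6_903
import Crest.Agent.R013.RZ4_365
import Crest.Agent.R013.LiftA_168
import Crest.Agent.R013.RR20_948
import Crest.Agent.R013.Rk2_894
import Crest.Agent.R013.APt_349
import Crest.Agent.R013.UQ_478_Mg
import Crest.Agent.R013.LemT5_874

-- ▼ part R013/U7_337
section

/-!
Row 13, part A, leaf A-U (helper337), file 7: points at the finite level `U`: values of algebraic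
elements, and the transport of the output of compactness to the points of `U`.
-/

set_option autoImplicit false

noncomputable section

namespace Crest.Agent.R013.U7_337

open scoped NNReal ENNReal
open Polynomial IntermediateField
open Crest.Agent.R013.LiftA_168 Crest.Agent.R013.U2_337 Crest.Agent.R013.RZ_365
open Crest.Agent.R013.U3_337 Crest.Agent.R013.U4_337
open Crest.Agent.R013.A2b_275 Crest.Agent.R013.U1_337

section Int

variable {p : ℕ} [Fact p.Prime]

/-- the embedding of `ℚ_p` -/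
abbrev iQ (p : ℕ) [Fact p.Prime] (k : Type*) [Field k] [Algebra ℚ_[p] k] (M : Type*) [Field M]
    [Algebra k M] : ℚ_[p] →+* M := (algebraMap k M).comp (algebraMap ℚ_[p] k)

/-- integral over `ℤ_p` -/
def IntZ {R : Type*} [Field R] (i : ℚ_[p] →+* R) (c : R) : Prop :=
  ∃ P : ℚ_[p][X], P.Monic ∧ (∀ j, ‖P.coeff j‖₊ ≤ 1) ∧ eval₂ i c P = 0

theorem IntZ.map {R S : Type*} [Field R] [Field S] {i : ℚ_[p] →+* R} (f : R →+* S)
    {i' : ℚ_[p] →+* S} (hi : ∀ q, f (i q) = i' q) {c : R} (h : IntZ i c) : IntZ i' (f c) := by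
  obtain ⟨P, hP, h1, h2⟩ := h
  refine ⟨P, hP, h1, ?_⟩
  have e : i' = f.comp i := RingHom.ext fun q => (hi q).symm
  rw [e, ← hom_eval₂, h2, map_zero]

theorem IntZ.of_map {R S : Type*} [Field R] [Field S] {i : ℚ_[p] →+* R} (f : R →+* S)
    {i' : ℚ_[p] →+* S} (hi : ∀ q, f (i q) = i' q) {c : R} (h : IntZ i' (f c)) : IntZ i c := by
  obtain ⟨P, hP, h1, h2⟩ := h
  refine ⟨P, hP, h1, ?_⟩
  have e : i' = f.comp i := RingHom.ext fun q => (hi q).symm
  apply f.injective
  rw [hom_eval₂, ← e, h2, map_zero]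

theorem IntZ.le_one {R Γ : Type*} [Field R] [LinearOrderedCommGroupWithZero Γ] {i : ℚ_[p] →+* R}
    {c : R} (h : IntZ i c) (u : Valuation R Γ) (hu : ∀ q : ℚ_[p], ‖q‖₊ ≤ 1 → u (i q) ≤ 1) :
    u c ≤ 1 := by
  obtain ⟨P, hP, h1, h2⟩ := h
  by_contra hcon
  push Not at hcon
  rw [eval₂_eq_sum_range, Finset.sum_range_succ, hP.coeff_natDegree, map_one, one_mul] at h2
  have hc0 : c ≠ 0 := by rintro rfl; rw [map_zero] at hcon; exact absurd hcon (by simp)
  have h3 : u (∑ j ∈ Finset.range P.natDegree, i (P.coeff j) * c ^ j) < u (c ^ P.natDegree) := by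
    refine Valuation.map_sum_lt _ ((Valuation.ne_zero_iff _).2 (pow_ne_zero _ hc0)) fun j hj => ?_
    rw [map_mul, map_pow, map_pow]
    calc u (i (P.coeff j)) * u c ^ j ≤ 1 * u c ^ j := mul_le_mul_left (hu _ (h1 j)) _
      _ = u c ^ j := one_mul _
      _ < u c ^ P.natDegree := pow_lt_pow_right₀ hcon (Finset.mem_range.1 hj)
  have h4 : c ^ P.natDegree = -∑ j ∈ Finset.range P.natDegree, i (P.coeff j) * c ^ j := by
    rw [eq_neg_iff_add_eq_zero, add_comm]; exact h2
  rw [h4, Valuation.map_neg] at h3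
  exact lt_irrefl _ h3

variable {k : Type*} [Field k] [Algebra ℚ_[p] k] [FiniteDimensional ℚ_[p] k] {C : Type*} [Field C]
  [Algebra k C] [Algebra.IsAlgebraic k C] {nC : Valuation C ℝ≥0}

/-- the elements of norm `≤ 1` are integral over `ℤ_p` -/
theorem exists_int_poly (hnC : ∀ q : ℚ_[p], nC (algebraMap k C (algebraMap ℚ_[p] k q)) = ‖q‖₊)
    {c : C} (hc : nC c ≤ 1) : IntZ (iQ p k C) c := by
  let _ : Algebra ℚ_[p] C := (iQ p k C).toAlgebra
  have : IsScalarTower ℚ_[p] k C := IsScalarTower.of_algebraMap_eq fun _ => rfl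
  have : Algebra.IsAlgebraic ℚ_[p] C := Algebra.IsAlgebraic.trans ℚ_[p] k C
  have h1 := Crest.Agent.R013.Ax_280.w_eq_spectralNorm nC hnC c
  have hci : IsIntegral ℚ_[p] c := Algebra.IsIntegral.isIntegral c
  have h2 : spectralValue (minpoly ℚ_[p] c) ≤ 1 := by
    have : spectralNorm ℚ_[p] C c ≤ 1 := by rw [← h1]; exact_mod_cast hc
    exact this
  refine ⟨minpoly ℚ_[p] c, minpoly.monic hci, fun j => ?_, minpoly.aeval ℚ_[p] c⟩
  exact (spectralValue_le_one_iff (minpoly.monic hci)).1 h2 j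

end Int

section Pt

variable {p : ℕ} [Fact p.Prime] {k : Type*} [Field k] [Algebra ℚ_[p] k] {U : Type*} [Field U]
  [Algebra k U] {φ : U → ℝ≥0∞}

theorem unit_le (hφ : IsPt p k U φ) (a : U) : (unitRing hφ).valuation a ≤ 1 ↔ φ a ≤ 1 := by
  rw [ValuationSubring.valuation_le_one_iff, mem_unitRing]

theorem unit_eq (hφ : IsPt p k U φ) (a : U) : (unitRing hφ).valuation a = 1 ↔ φ a = 1 := by
  rw [eq_iff_le_not_lt, eq_iff_le_not_lt, unit_le hφ, unitRing_lt_one_iff hφ]

theorem unit_gt (hφ : IsPt p k U φ) (a : U) : 1 < (unitRing hφ).valuation a ↔ 1 < φ a := by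
  rw [← not_le, ← not_le, unit_le hφ]


theorem IntZ.pt_le (hφ : IsPt p k U φ) {c : U} (h : IntZ (iQ p k U) c) : φ c ≤ 1 := by
  rw [← unit_le hφ]
  refine h.le_one _ fun q hq => ?_
  rw [unit_le hφ]
  change φ (algebraMap k U (algebraMap ℚ_[p] k q)) ≤ 1
  rw [hφ.ext q]
  exact_mod_cast hq

variable [FiniteDimensional ℚ_[p] k] {C E : Type*} [Field C] [Field E]
  [Algebra k C] [Algebra.IsAlgebraic k C] {nC : Valuation C ℝ≥0} [Algebra k E] [Algebra C E]
  [Algebra U E] [IsScalarTower k U E] [IsScalarTower k C E]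

theorem pt_le_of_norm_le (hnC : ∀ q : ℚ_[p], nC (algebraMap k C (algebraMap ℚ_[p] k q)) = ‖q‖₊)
    (hφ : IsPt p k U φ) {c : C} {c' : U} (h : algebraMap U E c' = algebraMap C E c)
    (hc : nC c ≤ 1) : φ c' ≤ 1 := by
  refine IntZ.pt_le hφ (IntZ.of_map (algebraMap U E) (i' := iQ p k E) (fun q => ?_) ?_)
  · exact (IsScalarTower.algebraMap_apply k U E _).symm
  · rw [h]
    refine IntZ.map (algebraMap C E) (fun q => ?_) (exists_int_poly hnC hc)
    exact (IsScalarTower.algebraMap_apply k C E _).symm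

/-- **values of algebraic elements at points** -/
theorem pt_eq (hnC : ∀ q : ℚ_[p], nC (algebraMap k C (algebraMap ℚ_[p] k q)) = ‖q‖₊)
    (hφ : IsPt p k U φ) {c : C} {c' : U} (h : algebraMap U E c' = algebraMap C E c) :
    φ c' = nC c := by
  by_cases hc0 : c = 0
  · have : c' = 0 := by
      apply (algebraMap U E).injective
      rw [h, hc0, map_zero, map_zero]
    rw [this, hφ.map_zero, hc0, map_zero, ENNReal.coe_zero]
  have hc'0 : c' ≠ 0 := by
    rintro rfl
    rw [map_zero] at h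
    exact hc0 ((_root_.map_eq_zero _).1 h.symm)
  let _ : Algebra ℚ_[p] C := (iQ p k C).toAlgebra
  have : IsScalarTower ℚ_[p] k C := IsScalarTower.of_algebraMap_eq fun _ => rfl
  have : Algebra.IsAlgebraic ℚ_[p] C := Algebra.IsAlgebraic.trans ℚ_[p] k C
  obtain ⟨n, hn, b, hb, hnb⟩ := exists_pow_val (F := ℚ_[p]) nC hc0
    (Algebra.IsAlgebraic.isAlgebraic c)
  have hnb' : nC (c ^ n) = ‖b‖₊ := hnb.trans (hnC b)
  have hb1 : ‖b‖₊ ≠ 0 := nnnorm_ne_zero_iff.2 hb
  have hbU : iQ p k U b ≠ 0 := (_root_.map_ne_zero _).2 hb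
  have hbC : algebraMap ℚ_[p] C b ≠ 0 := (_root_.map_ne_zero _).2 hb
  have hE : algebraMap C E (algebraMap ℚ_[p] C b) = algebraMap U E (iQ p k U b) := by
    change algebraMap C E (algebraMap k C (algebraMap ℚ_[p] k b)) =
      algebraMap U E (algebraMap k U (algebraMap ℚ_[p] k b))
    rw [← IsScalarTower.algebraMap_apply k C E, ← IsScalarTower.algebraMap_apply k U E]
  have h1 : φ (c' ^ n / iQ p k U b) ≤ 1 := by
    refine pt_le_of_norm_le (c := c ^ n / algebraMap ℚ_[p] C b) (E := E) hnC hφ ?_ ?_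
    · rw [map_div₀, map_pow, h, map_div₀, map_pow, hE]
    · rw [map_div₀, hnb, div_self]
      exact (Valuation.ne_zero_iff _).2 hbC
  have h2 : φ (c' ^ n / iQ p k U b)⁻¹ ≤ 1 := by
    refine pt_le_of_norm_le (c := (c ^ n / algebraMap ℚ_[p] C b)⁻¹) (E := E) hnC hφ ?_ ?_
    · rw [map_inv₀, map_div₀, map_pow, h, map_inv₀, map_div₀, map_pow, hE]
    · rw [map_inv₀, map_div₀, hnb, div_self, inv_one]
      exact (Valuation.ne_zero_iff _).2 hbC
  have h3 : φ (c' ^ n / iQ p k U b) = 1 := by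
    refine le_antisymm h1 ?_
    rw [hφ.inv _ (div_ne_zero (pow_ne_zero _ hc'0) hbU)] at h2
    exact ENNReal.inv_le_one.1 h2
  have hφb : φ (iQ p k U b) = ‖b‖₊ := hφ.ext b
  have h4 : φ (c' ^ n) = ‖b‖₊ := by
    have e : c' ^ n = (c' ^ n / iQ p k U b) * iQ p k U b := by rw [div_mul_cancel₀ _ hbU]
    rw [e, hφ.mul _ _ (Or.inl (by rw [h3]; exact one_ne_zero))
      (Or.inr (by rw [h3]; exact ENNReal.one_ne_top)), h3, one_mul, hφb]
  have h5 : φ (c' ^ n) = φ c' ^ n := by
    have := pt_prod hφ (α := φ c') (Finset.range n) (fun _ => c') (fun _ _ => rfl)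
    rwa [Finset.prod_const, Finset.card_range] at this
  refine pow_inj hn.ne' ?_
  rw [← h5, h4, ← ENNReal.coe_pow, ← map_pow, hnb']

/-- transport of the output of compactness to the points of `U` -/
theorem lift_pt (hnC : ∀ q : ℚ_[p], nC (algebraMap k C (algebraMap ℚ_[p] k q)) = ‖q‖₊)
    (hφ : IsPt p k U φ) {z π F : E} {z' π' F' : U} (hz : algebraMap U E z' = z)
    (hπ : algebraMap U E π' = π) (hF : algebraMap U E F' = F) {e₀ l : ℕ} {G : Finset E}
    (hGU : ∀ g ∈ G, ∃ g' : U, algebraMap U E g' = g) (hG0 : ∀ g ∈ G, g ≠ 0)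
    (hG : ∀ O : ValuationSubring E, (∀ c, nC c ≤ 1 → algebraMap C E c ∈ O) →
      O.valuation z < 1 → O.valuation (π / z ^ e₀) < 1 →
      ∃ g ∈ G, O.valuation (F * g ^ l - 1) < 1)
    (h1 : φ z' < 1) (h2 : φ (π' / z' ^ e₀) < 1) : ∃ g : U, g ≠ 0 ∧ φ (F' * g ^ l - 1) < 1 := by
  obtain ⟨O, hO⟩ := Rk2_894.exists_extend (N := E) (unitRing hφ)
  have hOle : ∀ a : U, O.valuation (algebraMap U E a) ≤ 1 ↔ φ a ≤ 1 := by
    intro a
    rw [ValuationSubring.valuation_le_one_iff, ← ValuationSubring.mem_comap, hO, mem_unitRing]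
  have hOlt : ∀ a : U, O.valuation (algebraMap U E a) < 1 ↔ φ a < 1 := by
    intro a
    have h3 := comap_lt (O := O) a 1 one_ne_zero
    rw [map_one, map_one, map_one] at h3
    rw [← h3, hO, unitRing_lt_one_iff hφ]
  obtain ⟨g, hg, hg1⟩ := hG O (fun c hc => by
      rw [← ValuationSubring.valuation_le_one_iff]
      refine IntZ.le_one (i := iQ p k E) ?_ _ fun q hq => ?_
      · refine IntZ.map (algebraMap C E) (fun q => ?_) (exists_int_poly hnC hc)
        exact (IsScalarTower.algebraMap_apply k C E _).symm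
      · have e : iQ p k E q = algebraMap U E (iQ p k U q) :=
          IsScalarTower.algebraMap_apply k U E _
        rw [e, hOle]
        change φ (algebraMap k U (algebraMap ℚ_[p] k q)) ≤ 1
        rw [hφ.ext]
        exact_mod_cast hq)
    (by rw [← hz, hOlt]; exact h1)
    (by rw [← hz, ← hπ, ← map_pow, ← map_div₀, hOlt]; exact h2)
  obtain ⟨g', hg'⟩ := hGU g hg
  refine ⟨g', ?_, ?_⟩
  · rintro rfl
    rw [map_zero] at hg'
    exact hG0 g hg hg'.symm
  · rw [← hF, ← hg', ← map_pow, ← map_mul, ← map_one (algebraMap U E), ← map_sub, hOlt] at hg1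
    exact hg1

end Pt

end Crest.Agent.R013.U7_337
end
end

-- ▼ part R013/PPtA_894
section

/-!
R013 / A-PPT, part 1 (helper894): a finite extension of `ℚ_p` as a complete discretely valued normed
field; residues at a point of the `p`-adic analytic space of a field.
-/

set_option autoImplicit false
set_option linter.style.haveILetI false

noncomputable section

namespace Crest.Agent.R013.PPt_894

open Polynomial Topology
open scoped NNReal ENNReal
open Crest.Agent.R013.Gl946 Crest.Agent.R013.A2b_275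

universe u v

section norm

variable {p : ℕ} [hp : Fact p.Prime] {k : Type u} [Field k]

/-- the normed field structure given by a real valued valuation -/
@[reducible] def nk (vk : Valuation k ℝ≥0) : NormedField k := (Lift903.absv vk).toNormedField

theorem norm_nk (vk : Valuation k ℝ≥0) (c : k) : (nk vk).norm c = vk c := rfl

theorem ultra_nk (vk : Valuation k ℝ≥0) :
    @IsUltrametricDist k (nk vk).toPseudoMetricSpace.toDist := by
  letI := nk vk
  refine IsUltrametricDist.isUltrametricDist_of_forall_norm_add_le_max_norm fun x y => ?_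
  rw [norm_nk, norm_nk, norm_nk]
  exact_mod_cast vk.map_add x y

variable [Algebra ℚ_[p] k] {vk : Valuation k ℝ≥0}

/-- `k` as a normed algebra over `ℚ_p` -/
@[reducible] def nalg (hvk : ∀ q : ℚ_[p], vk (algebraMap ℚ_[p] k q) = ‖q‖₊) :
    letI := nk vk; NormedAlgebra ℚ_[p] k :=
  letI := nk vk
  { (inferInstance : Algebra ℚ_[p] k) with
    norm_smul_le := fun a x => by
      rw [Algebra.smul_def, norm_mul]
      refine le_of_eq ?_
      congr 1
      rw [norm_nk, hvk]
      rfl }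

theorem proper_nk [FiniteDimensional ℚ_[p] k]
    (hvk : ∀ q : ℚ_[p], vk (algebraMap ℚ_[p] k q) = ‖q‖₊) :
    @ProperSpace k (nk vk).toPseudoMetricSpace := by
  letI := nk vk
  letI := nalg hvk
  exact FiniteDimensional.proper ℚ_[p] k

theorem complete_nk [FiniteDimensional ℚ_[p] k]
    (hvk : ∀ q : ℚ_[p], vk (algebraMap ℚ_[p] k q) = ‖q‖₊) :
    @CompleteSpace k (nk vk).toPseudoMetricSpace.toUniformSpace := by
  letI := nk vk
  haveI := proper_nk hvk
  infer_instance

theorem vk_p (hvk : ∀ q : ℚ_[p], vk (algebraMap ℚ_[p] k q) = ‖q‖₊) :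
    vk (p : k) = (p : ℝ≥0)⁻¹ := by
  have h1 := hvk (p : ℚ_[p])
  rw [map_natCast] at h1
  rw [h1]
  ext
  rw [coe_nnnorm, Padic.norm_p, NNReal.coe_inv, NNReal.coe_natCast]

/-- a uniformiser of `k` -/
theorem exists_unif_nk [FiniteDimensional ℚ_[p] k]
    (hvk : ∀ q : ℚ_[p], vk (algebraMap ℚ_[p] k q) = ‖q‖₊) :
    letI := nk vk; ∃ π₀ : k, IsUnif π₀ := by
  letI := nk vk
  haveI := ultra_nk vk
  haveI := proper_nk hvk
  have hcl : IsClosed (Metric.ball (0 : k) 1) := IsUltrametricDist.isClosed_ball 0 1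
  have hK : IsCompact (Metric.ball (0 : k) 1) :=
    Metric.isCompact_of_isClosed_isBounded hcl Metric.isBounded_ball
  have hp1 : ‖(p : k)‖ < 1 := by
    rw [norm_nk, vk_p hvk, NNReal.coe_inv, NNReal.coe_natCast]
    exact inv_lt_one_of_one_lt₀ (by exact_mod_cast hp.out.one_lt)
  obtain ⟨x, hx, hmax⟩ := hK.exists_isMaxOn ⟨(p : k), by simpa using hp1⟩
    (continuous_norm (E := k)).continuousOn
  have hx1 : ‖x‖ < 1 := by simpa using hx
  have hle : ∀ a : k, ‖a‖ < 1 → ‖a‖ ≤ ‖x‖ := fun a ha => hmax (by simpa using ha)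
  refine ⟨x, ?_, hx1, hle⟩
  have h1 := hle _ hp1
  have h2 : 0 < ‖(p : k)‖ := by
    rw [norm_nk, vk_p hvk, NNReal.coe_inv, NNReal.coe_natCast]
    have := hp.out.pos
    positivity
  exact h2.trans_le h1

/-- integers prime to `p` have norm one -/
theorem vk_nat (hvk : ∀ q : ℚ_[p], vk (algebraMap ℚ_[p] k q) = ‖q‖₊) {N : ℕ} (hN : ¬ p ∣ N) :
    vk (N : k) = 1 := by
  have h1 := hvk (N : ℚ_[p])
  rw [map_natCast] at h1
  rw [h1]
  ext
  rw [coe_nnnorm, NNReal.coe_one]
  have h2 : ‖((N : ℤ) : ℚ_[p])‖ = 1 := by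
    refine le_antisymm (Padic.norm_int_le_one _) ?_
    by_contra hlt
    push Not at hlt
    rw [Padic.norm_intCast_lt_one_iff] at hlt
    exact hN (by exact_mod_cast hlt)
  exact_mod_cast h2

end norm

section pt

variable {p : ℕ} [hp : Fact p.Prime] {k : Type u} [Field k] [Algebra ℚ_[p] k] {K : Type v}
  [Field K] [Algebra k K] {φ : K → ℝ≥0∞}

theorem ring_lt_one_iff (h : IsPt p k K φ) (a : K) : h.ring.valuation a < 1 ↔ φ a = 0 := by
  rcases eq_or_ne a 0 with rfl | ha
  · rw [map_zero, h.map_zero]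
    simp
  have h1 : h.ring.valuation a ≠ 0 := (Valuation.ne_zero_iff _).2 ha
  rw [← not_le, ← inv_le_one₀ (zero_lt_iff.2 h1), ← map_inv₀, h.ring.valuation_le_one_iff,
    h.mem_ring, not_not, h.inv a ha, ENNReal.inv_eq_top]

theorem residue_eq_iff (h : IsPt p k K φ) (a b : h.ring) :
    IsLocalRing.residue h.ring a = IsLocalRing.residue h.ring b ↔ φ ((a : K) - b) = 0 := by
  rw [← sub_eq_zero, ← _root_.map_sub, IsLocalRing.residue_eq_zero_iff,
    h.ring.valuation_lt_one_iff, ← ring_lt_one_iff h]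
  rfl

theorem eq_of_residue_eq (h : IsPt p k K φ) {a b : h.ring}
    (hab : IsLocalRing.residue h.ring a = IsLocalRing.residue h.ring b) :
    φ (a : K) = φ (b : K) := by
  have key : ∀ a b : h.ring, IsLocalRing.residue h.ring a = IsLocalRing.residue h.ring b →
      φ (a : K) ≤ φ (b : K) := by
    intro a b hab
    have h1 := (residue_eq_iff h a b).1 hab
    have h2 := h.add ((a : K) - b) b
    rw [sub_add_cancel, h1] at h2
    simpa using h2
  exact le_antisymm (key a b hab) (key b a hab.symm)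

/-- the norm on the residue field of a point -/
def resW (h : IsPt p k K φ) : Valuation (IsLocalRing.ResidueField h.ring) ℝ≥0 where
  toFun x := (φ (Function.surjInv (IsLocalRing.residue_surjective (R := h.ring)) x : h.ring)).toNNReal
  map_zero' := by
    have h1 := Function.surjInv_eq (IsLocalRing.residue_surjective (R := h.ring)) 0
    rw [← _root_.map_zero (IsLocalRing.residue h.ring)] at h1
    rw [← _root_.map_zero (IsLocalRing.residue h.ring), eq_of_residue_eq h h1]
    change (φ 0).toNNReal = 0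
    rw [h.map_zero]; rfl
  map_one' := by
    have h1 := Function.surjInv_eq (IsLocalRing.residue_surjective (R := h.ring)) 1
    rw [← _root_.map_one (IsLocalRing.residue h.ring)] at h1
    rw [← _root_.map_one (IsLocalRing.residue h.ring), eq_of_residue_eq h h1]
    change (φ 1).toNNReal = 1
    rw [h.map_one]; rfl
  map_mul' x y := by
    have h1 := Function.surjInv_eq (IsLocalRing.residue_surjective (R := h.ring)) x
    have h2 := Function.surjInv_eq (IsLocalRing.residue_surjective (R := h.ring)) y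
    have h3 := Function.surjInv_eq (IsLocalRing.residue_surjective (R := h.ring)) (x * y)
    set a := Function.surjInv (IsLocalRing.residue_surjective (R := h.ring)) x
    set b := Function.surjInv (IsLocalRing.residue_surjective (R := h.ring)) y
    set c := Function.surjInv (IsLocalRing.residue_surjective (R := h.ring)) (x * y)
    have h4 : IsLocalRing.residue h.ring c = IsLocalRing.residue h.ring (a * b) := by
      rw [h3, _root_.map_mul, h1, h2]
    rw [eq_of_residue_eq h h4]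
    have ha : φ (a : K) ≠ ∞ := a.2
    have hb : φ (b : K) ≠ ∞ := b.2
    change (φ ((a : K) * b)).toNNReal = _
    rw [h.mul a b (Or.inr hb) (Or.inr ha), ENNReal.toNNReal_mul]
  map_add_le_max' x y := by
    have h1 := Function.surjInv_eq (IsLocalRing.residue_surjective (R := h.ring)) x
    have h2 := Function.surjInv_eq (IsLocalRing.residue_surjective (R := h.ring)) y
    have h3 := Function.surjInv_eq (IsLocalRing.residue_surjective (R := h.ring)) (x + y)
    set a := Function.surjInv (IsLocalRing.residue_surjective (R := h.ring)) x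
    set b := Function.surjInv (IsLocalRing.residue_surjective (R := h.ring)) y
    set c := Function.surjInv (IsLocalRing.residue_surjective (R := h.ring)) (x + y)
    have h4 : IsLocalRing.residue h.ring c = IsLocalRing.residue h.ring (a + b) := by
      rw [h3, _root_.map_add, h1, h2]
    rw [eq_of_residue_eq h h4]
    have ha : φ (a : K) ≠ ∞ := a.2
    have hb : φ (b : K) ≠ ∞ := b.2
    have hab : φ ((a : K) + b) ≠ ∞ := (a + b).2
    change (φ ((a : K) + b)).toNNReal ≤ _
    rw [← ENNReal.coe_le_coe, ENNReal.coe_max, ENNReal.coe_toNNReal ha, ENNReal.coe_toNNReal hb,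
      ENNReal.coe_toNNReal hab]
    exact h.add a b

theorem resW_residue (h : IsPt p k K φ) (a : h.ring) :
    resW h (IsLocalRing.residue h.ring a) = (φ (a : K)).toNNReal := by
  have h1 := Function.surjInv_eq (IsLocalRing.residue_surjective (R := h.ring))
    (IsLocalRing.residue h.ring a)
  change (φ (Function.surjInv (IsLocalRing.residue_surjective (R := h.ring)) _ : h.ring)).toNNReal
    = _
  rw [eq_of_residue_eq h h1]

/-- the constants are in the ring of a point -/
theorem const_ne_top [FiniteDimensional ℚ_[p] k] (h : IsPt p k K φ) (c : k) :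
    φ (algebraMap k K c) ≠ ∞ := by
  letI : Algebra ℚ_[p] K := ((algebraMap k K).comp (algebraMap ℚ_[p] k)).toAlgebra
  haveI : IsScalarTower ℚ_[p] k K := IsScalarTower.of_algebraMap_eq fun _ => rfl
  refine h.ne_top_of_isIntegral ?_
  have h1 : IsIntegral ℚ_[p] c := Algebra.IsIntegral.isIntegral c
  exact h1.map (IsScalarTower.toAlgHom ℚ_[p] k K)

/-- a polynomial killing the residue, with bounded coefficients -/
theorem pt_poly [FiniteDimensional ℚ_[p] k] {vk : Valuation k ℝ≥0}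
    (hvk : ∀ q : ℚ_[p], vk (algebraMap ℚ_[p] k q) = ‖q‖₊) (h : IsPt p k K φ)
    (halg : ∀ a : K, φ a ≠ ∞ → ∃ Q : k[X], Q.Monic ∧ φ (aeval a Q) = 0) (a : K) (ha : φ a ≤ 1) :
    ∃ Q : k[X], Q.Monic ∧ (∀ i, vk (Q.coeff i) ≤ 1) ∧ φ (aeval a Q) = 0 ∧
      (φ a < 1 → ∀ i < Q.natDegree, vk (Q.coeff i) < 1) := by
  classical
  have hatop : φ a ≠ ∞ := ne_top_of_le_ne_top ENNReal.one_ne_top ha
  let kO : k →+* h.ring := (algebraMap k K).codRestrict h.ring.toSubring (const_ne_top h)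
  let κ := IsLocalRing.ResidueField h.ring
  let res : h.ring →+* κ := IsLocalRing.residue h.ring
  letI algk : Algebra k κ := (res.comp kO).toAlgebra
  letI algQ : Algebra ℚ_[p] κ := ((algebraMap k κ).comp (algebraMap ℚ_[p] k)).toAlgebra
  haveI : IsScalarTower ℚ_[p] k κ := IsScalarTower.of_algebraMap_eq fun _ => rfl
  have hres : ∀ (b : h.ring) (Q : k[X]), ∃ hQ : φ (aeval (b : K) Q) ≠ ∞,
      res ⟨aeval (b : K) Q, hQ⟩ = aeval (res b) Q := by
    intro b Q
    have h1 : aeval (b : K) Q = ((Q.eval₂ kO b : h.ring) : K) := by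
      rw [aeval_def]
      have h2 := Polynomial.hom_eval₂ Q kO h.ring.subtype b
      change _ = h.ring.subtype (Q.eval₂ kO b)
      rw [h2]
      rfl
    have h2 : φ (aeval (b : K) Q) ≠ ∞ := by
      rw [h1]; exact (Q.eval₂ kO b).2
    refine ⟨h2, ?_⟩
    have h3 : (⟨aeval (b : K) Q, h2⟩ : h.ring) = Q.eval₂ kO b := Subtype.ext h1
    rw [h3, Polynomial.hom_eval₂, aeval_def]
    rfl
  have hint : Algebra.IsAlgebraic ℚ_[p] κ := by
    have h1 : Algebra.IsAlgebraic k κ := by
      refine ⟨fun x => ?_⟩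
      obtain ⟨b, rfl⟩ := IsLocalRing.residue_surjective x
      obtain ⟨Q, hQm, hQ⟩ := halg b b.2
      obtain ⟨h2, h3⟩ := hres b Q
      refine ⟨Q, hQm.ne_zero, ?_⟩
      change aeval (res b) Q = 0
      rw [← h3, ← _root_.map_zero res]
      refine (residue_eq_iff h _ _).2 ?_
      change φ (aeval (b : K) Q - 0) = 0
      rw [sub_zero, hQ]
    exact Algebra.IsAlgebraic.trans ℚ_[p] k κ
  have hW : ∀ q : ℚ_[p], resW h (algebraMap ℚ_[p] κ q) = ‖q‖₊ := by
    intro q
    have h1 : algebraMap ℚ_[p] κ q = res (kO (algebraMap ℚ_[p] k q)) := rfl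
    rw [h1, resW_residue]
    change (φ (algebraMap k K (algebraMap ℚ_[p] k q))).toNNReal = _
    rw [h.ext]
    rfl
  set x : κ := res ⟨a, hatop⟩ with hx
  have hWx : (resW h x : ℝ) = spectralValue (minpoly ℚ_[p] x) :=
    Ax_280.w_eq_spectralNorm (resW h) hW x
  have hWφ : resW h x = (φ a).toNNReal := resW_residue h ⟨a, hatop⟩
  have hm : (minpoly ℚ_[p] x).Monic := minpoly.monic (Algebra.IsIntegral.isIntegral x)
  refine ⟨(minpoly ℚ_[p] x).map (algebraMap ℚ_[p] k), hm.map _, ?_, ?_, ?_⟩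
  · intro i
    rw [Polynomial.coeff_map, hvk]
    have h1 : spectralValue (minpoly ℚ_[p] x) ≤ 1 := by
      rw [← hWx, hWφ]
      have : (φ a).toNNReal ≤ 1 := by
        rw [← ENNReal.coe_le_coe, ENNReal.coe_toNNReal hatop]; exact ha
      exact_mod_cast this
    exact_mod_cast (spectralValue_le_one_iff hm).1 h1 i
  · obtain ⟨h2, h3⟩ := hres ⟨a, hatop⟩ ((minpoly ℚ_[p] x).map (algebraMap ℚ_[p] k))
    have h4 : res ⟨aeval a ((minpoly ℚ_[p] x).map (algebraMap ℚ_[p] k)), h2⟩ = res 0 := by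
      rw [_root_.map_zero]
      refine h3.trans ?_
      rw [aeval_map_algebraMap]
      exact minpoly.aeval ℚ_[p] x
    have h5 := (residue_eq_iff h _ _).1 h4
    change φ (_ - 0) = 0 at h5
    rwa [sub_zero] at h5
  · intro hlt i hi
    rw [hm.natDegree_map] at hi
    rw [Polynomial.coeff_map, hvk]
    have h1 : spectralValue (minpoly ℚ_[p] x) < 1 := by
      rw [← hWx, hWφ]
      have : (φ a).toNNReal < 1 := by
        rw [← ENNReal.coe_lt_coe, ENNReal.coe_toNNReal hatop]; exact hlt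
      exact_mod_cast this
    by_contra hcon
    push Not at hcon
    have h2 : spectralValueTerms (minpoly ℚ_[p] x) i ≤ spectralValue (minpoly ℚ_[p] x) :=
      le_ciSup (spectralValueTerms_bddAbove _) i
    rw [spectralValueTerms_of_lt_natDegree _ hi] at h2
    have h3 : (1 : ℝ) ≤ ‖(minpoly ℚ_[p] x).coeff i‖ := by exact_mod_cast hcon
    have h4 : (1 : ℝ) ≤ ‖(minpoly ℚ_[p] x).coeff i‖ ^
        (1 / ((minpoly ℚ_[p] x).natDegree - i : ℝ)) := by
      refine Real.one_le_rpow h3 ?_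
      have : (i : ℝ) < (minpoly ℚ_[p] x).natDegree := by exact_mod_cast hi
      have h5 : (0 : ℝ) < (minpoly ℚ_[p] x).natDegree - i := sub_pos.2 this
      positivity
    linarith

end pt

end Crest.Agent.R013.PPt_894
end
end

-- ▼ part R013/PPt_894
section

/-!
R013 / A-PPT (helper894): the one-circle patch at a finite level in terms of the points of the
`p`-adic analytic space (`patch_pt`); the point defined by a place (`exists_pt_of_place`).
-/

set_option autoImplicit false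
set_option linter.style.haveILetI false

noncomputable section

namespace Crest.Agent.R013.PPt_894

open Polynomial Topology
open scoped NNReal ENNReal
open Crest.Agent.R013.Gl946 Crest.Agent.R013.A2b_275 Crest.NumberTheoryR.Sect

universe u v

section ff

variable {k : Type u} [Field k] {K : Type v} [Field K] [Algebra k K]

/-- from `K` finite over the subfield `k(z)` to `K` finite over `RatFunc k`, `X ↦ z` -/
theorem finite_ratAlg (z : K) (hz : Transcendental k z)
    [FiniteDimensional (IntermediateField.adjoin k {z}) K] :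
    letI := RR20_948.ratAlg z hz; FiniteDimensional (RatFunc k) K := by
  letI i1 := RR20_948.ratAlg z hz
  have hmem : ∀ x : RatFunc k, (RR20_948.ratHom z hz).toRingHom x ∈
      IntermediateField.adjoin k {z} := by
    intro x
    rw [IntermediateField.mem_adjoin_simple_iff]
    refine ⟨x.num, x.denom, ?_⟩
    exact RatFunc.liftAlgHom_apply _ _ x
  let f : RatFunc k →+* IntermediateField.adjoin k {z} :=
    (RR20_948.ratHom z hz).toRingHom.codRestrict _ hmem
  letI : Algebra (RatFunc k) (IntermediateField.adjoin k {z}) := f.toAlgebra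
  haveI : IsScalarTower (RatFunc k) (IntermediateField.adjoin k {z}) K :=
    IsScalarTower.of_algebraMap_eq fun x => rfl
  have hsurj : Function.Surjective f := by
    intro x
    obtain ⟨r, s, hrs⟩ := (IntermediateField.mem_adjoin_simple_iff k (x : K)).1 x.2
    refine ⟨algebraMap k[X] (RatFunc k) r / algebraMap k[X] (RatFunc k) s, Subtype.ext ?_⟩
    rw [hrs]
    exact RatFunc.liftAlgHom_apply_div (φ := Polynomial.aeval z) (hφ := _) r s
  haveI : Module.Finite (RatFunc k) (IntermediateField.adjoin k {z}) :=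
    Module.Finite.of_surjective
      (Algebra.linearMap (RatFunc k) (IntermediateField.adjoin k {z})) hsurj
  exact Module.Finite.trans (IntermediateField.adjoin k {z}) K

variable [Algebra (RatFunc k) K] [IsScalarTower k (RatFunc k) K] [FiniteDimensional (RatFunc k) K]

/-- residues at a place of a function field are algebraic -/
theorem exists_monic_lt {Γ : Type*} [LinearOrderedCommGroupWithZero Γ] (v : Valuation K Γ)
    (hk : ∀ c : k, c ≠ 0 → v (algebraMap k K c) = 1) (hnt : ∃ a, 1 < v a) (a : K)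
    (ha : v a ≤ 1) : ∃ Q : k[X], Q.Monic ∧ v (aeval a Q) < 1 := by
  by_contra hcon
  push Not at hcon
  have hk' : ∀ c : k, v (algebraMap k K c) ≤ 1 := by
    intro c
    by_cases hc : c = 0
    · simp [hc]
    · rw [hk c hc]
  have hle : ∀ Q : k[X], v (aeval a Q) ≤ 1 := by
    intro Q
    rw [aeval_eq_sum_range]
    refine Valuation.map_sum_le _ fun i _ => ?_
    rw [Algebra.smul_def, map_mul, map_pow]
    exact mul_le_one' (hk' _) (pow_le_one' ha _)
  have hone : ∀ Q : k[X], Q ≠ 0 → v (aeval a Q) = 1 := by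
    intro Q hQ
    refine le_antisymm (hle Q) ?_
    have h1 := hcon (Q * C Q.leadingCoeff⁻¹) (monic_mul_leadingCoeff_inv hQ)
    have h2 : Q.leadingCoeff⁻¹ ≠ 0 := inv_ne_zero (leadingCoeff_ne_zero.2 hQ)
    rw [map_mul, aeval_C, map_mul, hk _ h2, mul_one] at h1
    exact h1
  have htr : Transcendental k a := by
    rw [transcendental_iff]
    intro Q hQ
    by_contra h0
    have h1 := hone Q h0
    rw [hQ, map_zero] at h1
    exact zero_ne_one h1
  obtain ⟨b, hb⟩ := hnt
  have hb0 : b ≠ 0 := by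
    rintro rfl
    rw [map_zero] at hb
    exact absurd hb (not_lt.2 zero_le_one)
  have hfin := RR20_948.ratAlg_finite a htr
  letI i2 := RR20_948.ratAlg a htr
  haveI : Algebra.IsAlgebraic (RatFunc k) K := Algebra.IsAlgebraic.of_finite _ _
  obtain ⟨m, hm, f, hf0, hmf⟩ := Rk2_894.exists_pow_value (F := RatFunc k) v b hb0
  have h2 : v (algebraMap (RatFunc k) K f) = 1 := by
    have h3 : algebraMap (RatFunc k) K f = aeval a f.num / aeval a f.denom :=
      RatFunc.liftAlgHom_apply _ _ f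
    rw [h3, map_div₀, hone _ (RatFunc.num_ne_zero hf0), hone _ f.denom_ne_zero, div_one]
  rw [map_pow, h2] at hmf
  have h4 := one_lt_pow₀ hb hm.ne'
  rw [hmf] at h4
  exact lt_irrefl _ h4

end ff

section pts

variable {p : ℕ} [hp : Fact p.Prime] {k : Type u} [Field k] [Algebra ℚ_[p] k]
  [FiniteDimensional ℚ_[p] k] {K : Type v} [Field K] [Algebra k K] {φ : K → ℝ≥0∞}

/-- the ring of a point is trivial on the constants -/
theorem ring_const (h : IsPt p k K φ) (c : k) (hc : c ≠ 0) :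
    h.ring.valuation (algebraMap k K c) = 1 := by
  refine le_antisymm ((h.ring.valuation_le_one_iff _).2 (const_ne_top h c)) ?_
  have h1 := (h.ring.valuation_le_one_iff _).2 (const_ne_top h c⁻¹)
  have h2 : h.ring.valuation (algebraMap k K c) ≠ 0 :=
    (Valuation.ne_zero_iff _).2 ((_root_.map_ne_zero _).2 hc)
  rw [map_inv₀, map_inv₀] at h1
  exact (inv_le_one₀ (zero_lt_iff.2 h2)).1 h1

variable [Algebra (RatFunc k) K] [IsScalarTower k (RatFunc k) K] [FiniteDimensional (RatFunc k) K]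

/-- residues at a point with poles are algebraic -/
theorem pt_alg (h : IsPt p k K φ) (htop : ∃ a, φ a = ∞) (a : K) (ha : φ a ≠ ∞) :
    ∃ Q : k[X], Q.Monic ∧ φ (aeval a Q) = 0 := by
  obtain ⟨b, hb⟩ := htop
  obtain ⟨Q, hQ, hQ1⟩ := exists_monic_lt h.ring.valuation (ring_const h) ⟨b, by
    rw [← not_le, h.ring.valuation_le_one_iff, h.mem_ring, not_not]; exact hb⟩ a
    ((h.ring.valuation_le_one_iff _).2 ha)
  exact ⟨Q, hQ, (ring_lt_one_iff h _).1 hQ1⟩

/-- the real valued valuation of a point with poles -/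
theorem real_of_pt [Algebra.IsSeparable (RatFunc k) K] (h : IsPt p k K φ)
    (htop : ∃ a, φ a = ∞) : ∃ w : Valuation K ℝ≥0, (∀ c : k, w (algebraMap k K c) ≤ 1) ∧
      (∀ a, w a ≤ 1 ↔ φ a ≠ ∞) ∧ ∀ a, w a < 1 ↔ φ a = 0 := by
  obtain ⟨b, hb⟩ := htop
  have hb1 : 1 < h.ring.valuation b := by
    rw [← not_le, h.ring.valuation_le_one_iff, h.mem_ring, not_not]; exact hb
  obtain ⟨P, hP⟩ := RR13_948.exists_place (k := k) h.ring.valuation (ring_const h)
    ⟨b, ne_of_gt (lt_trans zero_lt_one hb1), ne_of_gt hb1⟩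
  have hw : (RR13_948.vR P).IsEquiv h.ring.valuation := (RR13_948.isEquiv_vR P).symm.trans hP
  refine ⟨RR13_948.vR P, fun c => ?_, fun a => ?_, fun a => ?_⟩
  · rw [hw.le_one_iff_le_one, h.ring.valuation_le_one_iff]
    exact const_ne_top h c
  · rw [hw.le_one_iff_le_one, h.ring.valuation_le_one_iff, h.mem_ring]
  · rw [hw.lt_one_iff_lt_one, ring_lt_one_iff]

end pts

section patch

/-- **The gluing theorem for `K'/L(X)`** (365's `patch_level`, two universes). -/
theorem patch_level {L : Type u} [NormedField L] [IsUltrametricDist L] [CompleteSpace L] {π : L}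
    (hπ : IsUnif π) {K' : Type v} [Field K'] [Algebra L K'] [Algebra (RatFunc L) K']
    [IsScalarTower L (RatFunc L) K'] [FiniteDimensional (RatFunc L) K']
    [Algebra.IsSeparable (RatFunc L) K'] {y : K'} (hy : algebraMap (RatFunc L) K' RatFunc.X = y)
    (N : ℕ) (hN : ‖(N : L)‖ = 1) (h₀ hP : K') (h0 : h₀ ≠ 0) (hP0 : hP ≠ 0)
    (hf : ∀ v : Valuation K' ℝ≥0, (∀ c : L, v (algebraMap L K' c) = ‖c‖₊) → v y ≤ 1 →
      (∀ (f : L[X]) (i : ℕ), ‖f.coeff i‖₊ ≤ v (aeval y f)) →
      ∃ w : K', w ≠ 0 ∧ v (h₀ / hP - w ^ N) < v (h₀ / hP)) :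
    ∃ h : K', h ≠ 0 ∧ ∀ w : Valuation K' ℝ≥0,
      ((∀ c : L, w (algebraMap L K' c) ≤ ‖c‖₊) → 1 ≤ w y →
        ∃ g : K', g ≠ 0 ∧ w (h / (h₀ * g ^ N) - 1) < 1) ∧
      ((∀ c : L, w (algebraMap L K' c) ≤ ‖c‖₊) → w y < 1 →
        ∃ g : K', g ≠ 0 ∧ w (h / (hP * g ^ N) - 1) < 1) ∧
      ((∀ c : L, w (algebraMap L K' c) ≤ 1) → w y⁻¹ ≤ 1 →
        (∃ Q : L[X], Q.Monic ∧ (∀ i, ‖Q.coeff i‖ ≤ 1) ∧ w (aeval y⁻¹ Q) < 1) →
        ∃ g : K', g ≠ 0 ∧ w (h / (h₀ * g ^ N) - 1) < 1) ∧
      ((∀ c : L, w (algebraMap L K' c) ≤ 1) → w y ≤ 1 →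
        (∃ Q : L[X], Q.Monic ∧ (∀ i < Q.natDegree, ‖Q.coeff i‖ < 1) ∧ w (aeval y Q) < 1) →
        ∃ g : K', g ≠ 0 ∧ w (h / (hP * g ^ N) - 1) < 1) := by
  obtain ⟨E, iE1, iE2, iE3, iE4, yE, hG, hd⟩ := Good2_940.exists_circle L
  have htr : Transcendental L yE := by
    rw [transcendental_iff_injective]
    exact hG.injective
  let iE5 : NontriviallyNormedField E :=
    { iE1 with
      non_trivial := ⟨(algebraMap L E π)⁻¹, by
        rw [norm_inv, norm_algebraMap']
        exact (one_lt_inv₀ hπ.pos).2 hπ.lt_one⟩ }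
  let iE6 : Algebra (RatFunc L) E := RR20_948.ratAlg yE htr
  have iE7 : IsScalarTower L (RatFunc L) E := RR20_948.ratAlg_tower yE htr
  have hyE : algebraMap (RatFunc L) E RatFunc.X = yE := RR20_948.ratHom_X yE htr
  subst hy
  refine Lift903.glue (yF := RatFunc.X) hG hπ hd hyE ?_ N ?_ h₀ hP h0 hP0 ?_
  · intro x
    refine ⟨x.num, x.denom, ?_, ?_⟩
    · rw [RZ_365.aeval_ratX]
      exact RatFunc.algebraMap_ne_zero x.denom_ne_zero
    · rw [RZ_365.aeval_ratX, RZ_365.aeval_ratX]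
      exact (RatFunc.num_div_denom x).symm
  · have h1 : (N : E) = algebraMap L E (N : L) := (map_natCast _ _).symm
    rw [h1, norm_algebraMap', hN]
  · intro v hv
    have hvL : ∀ c : L, v (algebraMap L K' c) = ‖c‖₊ := by
      intro c
      rw [IsScalarTower.algebraMap_apply L (RatFunc L) K', hv,
        ← IsScalarTower.algebraMap_apply L (RatFunc L) E, nnnorm_algebraMap']
    refine hf v hvL ?_ ?_
    · rw [hv, hyE]
      exact_mod_cast hG.norm_le
    · intro f i
      rw [← RZ_365.algebraMap_poly, hv, RZ_365.algebraMap_poly, hyE]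
      exact_mod_cast hG.coeff_le f i

/-- **PATCH-PT.** -/
theorem patch_pt (p : ℕ) [hp : Fact p.Prime] {k : Type u} {K : Type v} [Field k]
    [Algebra ℚ_[p] k] [FiniteDimensional ℚ_[p] k] [Field K] [Algebra k K]
    (vk : Valuation k ℝ≥0) (hvk : ∀ q : ℚ_[p], vk (algebraMap ℚ_[p] k q) = ‖q‖₊) (z : K)
    (hz : Transcendental k z) [FiniteDimensional (IntermediateField.adjoin k {z}) K] (N : ℕ)
    (hN : ¬ p ∣ N) (h₀ e : K) (h0 : h₀ ≠ 0) (he : e ≠ 0)
    (hf : ∀ v : Valuation K ℝ≥0, LiftA_168.IsG vk v z →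
      ∃ w : K, w ≠ 0 ∧ v (h₀ / e - w ^ N) < v (h₀ / e)) :
    ∃ h : K, h ≠ 0 ∧ ∀ φ : K → ℝ≥0∞, IsPt p k K φ →
      (φ z < 1 → ∃ g : K, g ≠ 0 ∧ φ (h / (e * g ^ N) - 1) < 1) ∧
      (1 ≤ φ z → ∃ g : K, g ≠ 0 ∧ φ (h / (h₀ * g ^ N) - 1) < 1) := by
  classical
  letI i1 := RR20_948.ratAlg z hz
  haveI i2 := RR20_948.ratAlg_tower z hz
  haveI i3 := finite_ratAlg z hz
  haveI : CharZero k := charZero_of_injective_algebraMap (algebraMap ℚ_[p] k).injective
  haveI : CharZero (RatFunc k) :=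
    charZero_of_injective_algebraMap (algebraMap k (RatFunc k)).injective
  haveI : Algebra.IsSeparable (RatFunc k) K := inferInstance
  have hy : algebraMap (RatFunc k) K RatFunc.X = z := RR20_948.ratHom_X z hz
  obtain ⟨h, hh, H⟩ : ∃ h : K, h ≠ 0 ∧ ∀ w : Valuation K ℝ≥0,
      ((∀ c : k, w (algebraMap k K c) ≤ vk c) → 1 ≤ w z →
        ∃ g : K, g ≠ 0 ∧ w (h / (h₀ * g ^ N) - 1) < 1) ∧
      ((∀ c : k, w (algebraMap k K c) ≤ vk c) → w z < 1 →
        ∃ g : K, g ≠ 0 ∧ w (h / (e * g ^ N) - 1) < 1) ∧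
      ((∀ c : k, w (algebraMap k K c) ≤ 1) → w z⁻¹ ≤ 1 →
        (∃ Q : k[X], Q.Monic ∧ (∀ i, vk (Q.coeff i) ≤ 1) ∧ w (aeval z⁻¹ Q) < 1) →
        ∃ g : K, g ≠ 0 ∧ w (h / (h₀ * g ^ N) - 1) < 1) ∧
      ((∀ c : k, w (algebraMap k K c) ≤ 1) → w z ≤ 1 →
        (∃ Q : k[X], Q.Monic ∧ (∀ i < Q.natDegree, vk (Q.coeff i) < 1) ∧ w (aeval z Q) < 1) →
        ∃ g : K, g ≠ 0 ∧ w (h / (e * g ^ N) - 1) < 1) := by
    letI nf := nk vk
    haveI := ultra_nk vk
    haveI := complete_nk hvk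
    obtain ⟨π, hπ⟩ := exists_unif_nk hvk
    have hnn : ∀ c : k, ‖c‖₊ = vk c := fun c => NNReal.eq rfl
    have hN1 : ‖(N : k)‖ = 1 := by
      have h1 : ‖(N : k)‖ = vk (N : k) := rfl
      rw [h1, vk_nat hvk hN]; rfl
    obtain ⟨h, hh, H⟩ := patch_level (L := k) hπ hy N hN1 h₀ e h0 he (fun v hv1 hv2 hv3 =>
      hf v ⟨fun c => (hv1 c).trans (hnn c), hv2, fun f i => (hnn (f.coeff i)).ge.trans (hv3 f i)⟩)
    refine ⟨h, hh, fun w => ⟨fun h1 h2 => (H w).1 (fun c => (h1 c).trans (hnn c).ge) h2,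
      fun h1 h2 => (H w).2.1 (fun c => (h1 c).trans (hnn c).ge) h2, fun h1 h2 h3 => ?_,
      fun h1 h2 h3 => ?_⟩⟩
    · refine (H w).2.2.1 h1 h2 ?_
      obtain ⟨Q, hQ1, hQ2, hQ3⟩ := h3
      exact ⟨Q, hQ1, fun i => NNReal.coe_le_coe.2 (hQ2 i), hQ3⟩
    · refine (H w).2.2.2 h1 h2 ?_
      obtain ⟨Q, hQ1, hQ2, hQ3⟩ := h3
      exact ⟨Q, hQ1, fun i hi => NNReal.coe_lt_coe.2 (hQ2 i hi), hQ3⟩
  refine ⟨h, hh, fun φ hφ => ?_⟩
  by_cases htop : ∃ a, φ a = ∞
  · -- a point with poles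
    obtain ⟨w, hw1, hw2, hw3⟩ := real_of_pt hφ htop
    have key : ∀ x : K, w x < 1 → φ x < 1 := fun x hx => by
      rw [(hw3 x).1 hx]; exact one_pos
    constructor
    · intro hz1
      obtain ⟨Q, hQ1, -, hQ3, hQ4⟩ := pt_poly hvk hφ (pt_alg hφ htop) z hz1.le
      obtain ⟨g, hg, hg1⟩ := (H w).2.2.2 hw1 ((hw2 z).2 (ne_top_of_lt hz1))
        ⟨Q, hQ1, hQ4 hz1, (hw3 _).2 hQ3⟩
      exact ⟨g, hg, key _ hg1⟩
    · intro hz1
      have hz0 : z ≠ 0 := by
        rintro rfl
        rw [hφ.map_zero] at hz1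
        exact absurd hz1 (not_le.2 one_pos)
      have hzi : φ z⁻¹ ≤ 1 := by
        rw [hφ.inv z hz0]
        exact ENNReal.inv_le_one.2 hz1
      obtain ⟨Q, hQ1, hQ2, hQ3, -⟩ := pt_poly hvk hφ (pt_alg hφ htop) z⁻¹ hzi
      obtain ⟨g, hg, hg1⟩ := (H w).2.2.1 hw1
        ((hw2 _).2 (ne_top_of_le_ne_top ENNReal.one_ne_top hzi)) ⟨Q, hQ1, hQ2, (hw3 _).2 hQ3⟩
      exact ⟨g, hg, key _ hg1⟩
  · -- a norm
    push Not at htop
    set w := hφ.toValuation htop with hw
    have hwφ : ∀ x, ((w x : ℝ≥0) : ℝ≥0∞) = φ x := hφ.coe_toValuation htop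
    have hwk : ∀ c : k, w (algebraMap k K c) = vk c := by
      intro c
      have h1 := Ax_280.w_eq_spectralNorm (w.comap (algebraMap k K)) (fun q => by
        rw [Valuation.comap_apply, ← ENNReal.coe_inj, hwφ, hφ.ext]) c
      have h2 := Ax_280.w_eq_spectralNorm vk hvk c
      exact NNReal.eq (h1.trans h2.symm)
    constructor
    · intro hz1
      rw [← hwφ, ENNReal.coe_lt_one_iff] at hz1
      obtain ⟨g, hg, hg1⟩ := (H w).2.1 (fun c => (hwk c).le) hz1
      exact ⟨g, hg, by rw [← hwφ, ENNReal.coe_lt_one_iff]; exact hg1⟩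
    · intro hz1
      rw [← hwφ, ENNReal.one_le_coe_iff] at hz1
      obtain ⟨g, hg, hg1⟩ := (H w).1 (fun c => (hwk c).le) hz1
      exact ⟨g, hg, by rw [← hwφ, ENNReal.coe_lt_one_iff]; exact hg1⟩

end patch

section place

/-- **The point defined by a place.** -/
theorem exists_pt_of_place (p : ℕ) [hp : Fact p.Prime] {k : Type u} {K : Type v} [Field k]
    [Algebra ℚ_[p] k] [FiniteDimensional ℚ_[p] k] [Field K] [Algebra k K] (z : K)
    (hz : Transcendental k z) [FiniteDimensional (IntermediateField.adjoin k {z}) K]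
    (u : Valuation K ℝ≥0) (hu : IsPlace k u) :
    ∃ φ : K → ℝ≥0∞, IsPt p k K φ ∧ ∀ a, φ a ≠ ∞ ↔ u a ≤ 1 := by
  classical
  letI i1 := RR20_948.ratAlg z hz
  haveI i2 := RR20_948.ratAlg_tower z hz
  haveI i3 := finite_ratAlg z hz
  obtain ⟨hk, a₀, ha₀, ha₀'⟩ := hu
  have hnt : ∃ a, 1 < u a := by
    rcases lt_or_gt_of_ne ha₀' with h1 | h1
    · exact ⟨a₀⁻¹, by rw [map_inv₀]; exact (one_lt_inv₀ (zero_lt_iff.2 ha₀)).2 h1⟩
    · exact ⟨a₀, h1⟩
  have hk' : ∀ c : k, u (algebraMap k K c) ≤ 1 := by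
    intro c
    by_cases hc : c = 0
    · simp [hc]
    · rw [hk c hc]
  set O := u.valuationSubring with hO
  let κ := IsLocalRing.ResidueField O
  let res : O →+* κ := IsLocalRing.residue O
  let kO : k →+* O := (algebraMap k K).codRestrict O.toSubring hk'
  letI algk : Algebra k κ := (res.comp kO).toAlgebra
  have hres0 : ∀ b : O, res b = 0 ↔ u (b : K) < 1 := by
    intro b
    change IsLocalRing.residue O b = 0 ↔ _
    rw [IsLocalRing.residue_eq_zero_iff, O.valuation_lt_one_iff,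
      ← (Valuation.isEquiv_valuation_valuationSubring u).lt_one_iff_lt_one]
  haveI hint : Algebra.IsAlgebraic k κ := by
    refine ⟨fun x => ?_⟩
    obtain ⟨b, rfl⟩ := IsLocalRing.residue_surjective x
    obtain ⟨Q, hQm, hQ⟩ := exists_monic_lt u hk hnt (b : K) b.2
    refine ⟨Q, hQm.ne_zero, ?_⟩
    change aeval (res b) Q = 0
    have h2 : aeval (res b) Q = res (Q.eval₂ kO b) := by
      rw [Polynomial.hom_eval₂, aeval_def]; rfl
    rw [h2, hres0]
    have h3 : ((Q.eval₂ kO b : O) : K) = aeval (b : K) Q := by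
      rw [aeval_def]
      have h4 := Polynomial.hom_eval₂ Q kO O.subtype b
      change O.subtype (Q.eval₂ kO b) = _
      rw [h4]
      rfl
    rw [h3]
    exact hQ
  obtain ⟨W, hW⟩ := APt_349.exists_W (p := p) (k := k) (L := κ)
  let φ : K → ℝ≥0∞ := fun a => if h : u a ≤ 1 then ((W (res ⟨a, h⟩) : ℝ≥0) : ℝ≥0∞) else ∞
  have hφ1 : ∀ (a : K) (h : u a ≤ 1), φ a = ((W (res ⟨a, h⟩) : ℝ≥0) : ℝ≥0∞) := fun a h => by
    simp only [φ, dif_pos h]
  have hφ2 : ∀ (a : K), ¬ u a ≤ 1 → φ a = ∞ := fun a h => by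
    simp only [φ, dif_neg h]
  have hφtop : ∀ a, φ a ≠ ∞ ↔ u a ≤ 1 := by
    intro a
    constructor
    · intro h
      by_contra hcon
      exact h (hφ2 a hcon)
    · intro h
      rw [hφ1 a h]
      exact ENNReal.coe_ne_top
  have hφzero : ∀ a, φ a = 0 ↔ u a < 1 := by
    intro a
    by_cases h : u a ≤ 1
    · rw [hφ1 a h, ENNReal.coe_eq_zero, Valuation.zero_iff, hres0]
    · rw [hφ2 a h]
      exact iff_of_false ENNReal.top_ne_zero fun h2 => h h2.le
  refine ⟨φ, ⟨?_, ?_, ?_, ?_⟩, hφtop⟩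
  · intro a b
    by_cases ha : u a ≤ 1
    · by_cases hb : u b ≤ 1
      · have hab : u (a + b) ≤ 1 := (u.map_add a b).trans (max_le ha hb)
        rw [hφ1 a ha, hφ1 b hb, hφ1 _ hab, ← ENNReal.coe_max, ENNReal.coe_le_coe]
        have h1 : (⟨a + b, hab⟩ : O) = ⟨a, ha⟩ + ⟨b, hb⟩ := rfl
        rw [h1, _root_.map_add]
        exact W.map_add _ _
      · rw [hφ2 b hb]; simp
    · rw [hφ2 a ha]; simp
  · intro a b h1 h2
    have hmul : ∀ a b : K, ¬ u a ≤ 1 → φ b ≠ 0 → φ (a * b) = φ a * φ b := by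
      intro a b ha hb
      rw [hφ2 a ha, ENNReal.top_mul hb]
      refine hφ2 _ ?_
      rw [Ne, hφzero, not_lt] at hb
      rw [not_le] at ha ⊢
      rw [map_mul]
      exact one_lt_mul_of_lt_of_le' ha hb
    by_cases ha : u a ≤ 1
    · by_cases hb : u b ≤ 1
      · have hab : u (a * b) ≤ 1 := by
          rw [map_mul]; exact mul_le_one' ha hb
        rw [hφ1 a ha, hφ1 b hb, hφ1 _ hab, ← ENNReal.coe_mul]
        have h1 : (⟨a * b, hab⟩ : O) = ⟨a, ha⟩ * ⟨b, hb⟩ := rfl
        rw [h1, _root_.map_mul, _root_.map_mul]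
      · rw [mul_comm a b, mul_comm (φ a)]
        refine hmul b a hb ?_
        rcases h1 with h1 | h1
        · exact h1
        · exact absurd (hφ2 b hb) h1
    · refine hmul a b ha ?_
      rcases h2 with h2 | h2
      · exact h2
      · exact absurd (hφ2 a ha) h2
  · intro a ha
    have hua : u a ≠ 0 := (Valuation.ne_zero_iff _).2 ha
    rcases lt_trichotomy (u a) 1 with h | h | h
    · rw [(hφzero a).2 h, ENNReal.inv_zero]
      refine hφ2 _ ?_
      rw [map_inv₀, not_le]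
      exact (one_lt_inv₀ (zero_lt_iff.2 hua)).2 h
    · have h1 : u a⁻¹ ≤ 1 := by rw [map_inv₀, h, inv_one]
      rw [hφ1 a h.le, hφ1 _ h1]
      have h2 : (⟨a⁻¹, h1⟩ : O) * ⟨a, h.le⟩ = 1 := Subtype.ext (inv_mul_cancel₀ ha)
      have h3 : res ⟨a⁻¹, h1⟩ = (res ⟨a, h.le⟩)⁻¹ := by
        apply eq_inv_of_mul_eq_one_left
        rw [← _root_.map_mul, h2, _root_.map_one]
      have h4 : W (res ⟨a, h.le⟩) ≠ 0 := by
        rw [Valuation.ne_zero_iff]
        intro h5
        have h6 := (hres0 ⟨a, h.le⟩).1 h5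
        change u a < 1 at h6
        rw [h] at h6
        exact lt_irrefl _ h6
      rw [h3, map_inv₀, ENNReal.coe_inv h4]
    · rw [hφ2 a (not_le.2 h), ENNReal.inv_top, hφzero, map_inv₀]
      exact inv_lt_one_of_one_lt₀ h
  · intro c
    rw [hφ1 _ (hk' _)]
    have h1 : res ⟨algebraMap k K (algebraMap ℚ_[p] k c), hk' _⟩ = APt_349.iQ p k κ c := rfl
    rw [h1, hW]

end place

end Crest.Agent.R013.PPt_894
end
end

-- ▼ part R013/U8_337
section

/-!
Row 13, part A, leaf A-U (helper337), file 8: patching at the finite level `U`.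
-/

set_option autoImplicit false
set_option linter.unusedSectionVars false

noncomputable section

namespace Crest.Agent.R013.U8_337

open scoped NNReal ENNReal
open Polynomial IntermediateField
open Crest.NumberTheoryR.Sect
open Crest.Agent.R013.LiftA_168 Crest.Agent.R013.U2_337 Crest.Agent.R013.RZ_365
open Crest.Agent.R013.U3_337 Crest.Agent.R013.U4_337 Crest.Agent.R013.U6_337
open Crest.Agent.R013.A2b_275 Crest.Agent.R013.U1_337 Crest.Agent.R013.U7_337

theorem transcendental_zc {k E : Type*} [Field k] [Field E] [Algebra k E] {vk : Valuation k ℝ≥0}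
    {A : k[X]} (hA : MI vk A) {x : E} (hx : Transcendental k x) : Transcendental k (zc A x) := by
  intro h
  have h1 : Algebra.IsAlgebraic k k⟮zc A x⟯ := isAlgebraic_adjoin_simple h.isIntegral
  exact hx ((isAlgebraic_zc_self hA hx).restrictScalars k)

open scoped IntermediateField.algebraAdjoinAdjoin in
/-- change of variable: `K/k(t)` is finite for every transcendental `t`. -/
theorem finite_adjoin' {k K : Type*} [Field k] [Field K] [Algebra k K] (x : K)
    [FiniteDimensional k⟮x⟯ K] (t : K)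
    (ht : Transcendental k t) : FiniteDimensional k⟮t⟯ K := by
  have h1 : Algebra.IsAlgebraic (Algebra.adjoin k {x}) K :=
    (IsFractionRing.comap_isAlgebraic_iff (A := Algebra.adjoin k {x})
      (K := IntermediateField.adjoin k {x})).2 inferInstance
  have h2 : Algebra.trdeg k K ≤ 1 := by
    have := Algebra.IsAlgebraic.trdeg_le_cardinalMk k ({x} : Set K)
    simpa using this
  have h3 : AlgebraicIndependent k (fun _ : Unit => t) := algebraicIndependent_unique_type_iff.2 ht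
  have h4 : IsTranscendenceBasis k (fun _ : Unit => t) :=
    h3.isTranscendenceBasis_of_lift_trdeg_le_of_finite (by simpa using h2)
  have h5 := h4.isAlgebraic_field
  have h6 : Set.range (fun _ : Unit => t) = {t} := by simp
  rw [h6] at h5
  have h7 : Algebra.EssFiniteType k (IntermediateField.adjoin k {x}) := by
    rw [IntermediateField.essFiniteType_iff]
    exact IntermediateField.fg_adjoin_of_finite (Set.finite_singleton x)
  have h8 : Algebra.EssFiniteType k K := .comp k (IntermediateField.adjoin k {x}) K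
  have h9 : Algebra.EssFiniteType (IntermediateField.adjoin k {t}) K := .of_comp k _ K
  obtain ⟨s, hs⟩ := IntermediateField.fg_top (IntermediateField.adjoin k {t}) K
  have h3 : FiniteDimensional (IntermediateField.adjoin k {t})
      (IntermediateField.adjoin (IntermediateField.adjoin k {t}) (s : Set K)) :=
    IntermediateField.finiteDimensional_adjoin fun x _ => (h5.isAlgebraic x).isIntegral
  rw [hs] at h3
  exact Module.Finite.of_surjective
    (IntermediateField.topEquiv (F := IntermediateField.adjoin k {t}) (E := K)).toLinearMap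
    IntermediateField.topEquiv.surjective

section Level

variable {p : ℕ} [Fact p.Prime] {k k₁ U C E : Type*} [Field k] [Field k₁] [Field U] [Field C]
  [Field E] [Algebra ℚ_[p] k] [FiniteDimensional ℚ_[p] k] [Algebra k k₁] [Algebra k C]
  [Algebra k₁ C] [IsScalarTower k k₁ C] [Algebra.IsAlgebraic k C] [Algebra k U] [Algebra k₁ U]
  [IsScalarTower k k₁ U] [Algebra k E] [Algebra k₁ E] [IsScalarTower k k₁ E] [Algebra C E]
  [IsScalarTower k C E] [IsScalarTower k₁ C E] [Algebra U E] [IsScalarTower k U E]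
  [IsScalarTower k₁ U E] {nC : Valuation C ℝ≥0} {vk : Valuation k₁ ℝ≥0}


theorem tow (c : k₁) : algebraMap U E (algebraMap k₁ U c) = algebraMap C E (algebraMap k₁ C c) := by
  rw [← IsScalarTower.algebraMap_apply k₁ U E, ← IsScalarTower.algebraMap_apply k₁ C E]

variable (hnC : ∀ q : ℚ_[p], nC (algebraMap k C (algebraMap ℚ_[p] k q)) = ‖q‖₊)
  (hCk : ∀ c, nC (algebraMap k₁ C c) = vk c)

include hnC hCk in
theorem pt_k1 (E : Type*) [Field E] [Algebra k E] [Algebra k₁ E] [IsScalarTower k k₁ E]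
    [Algebra C E] [IsScalarTower k C E] [IsScalarTower k₁ C E] [Algebra U E] [IsScalarTower k U E]
    [IsScalarTower k₁ U E] {φ : U → ℝ≥0∞} (hφ : IsPt p k U φ) (c : k₁) :
    φ (algebraMap k₁ U c) = vk c := by
  rw [pt_eq (C := C) (E := E) hnC hφ (tow c), hCk]

include hnC hCk in
theorem hO1 (E : Type*) [Field E] [Algebra k E] [Algebra k₁ E] [IsScalarTower k k₁ E]
    [Algebra C E] [IsScalarTower k C E] [IsScalarTower k₁ C E] [Algebra U E] [IsScalarTower k U E]
    [IsScalarTower k₁ U E] {φ : U → ℝ≥0∞} (hφ : IsPt p k U φ) (c : k₁) (hc : vk c ≤ 1) :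
    algebraMap k₁ U c ∈ unitRing hφ := by
  rw [mem_unitRing, pt_k1 hnC hCk E hφ]
  exact_mod_cast hc

variable {A : k₁[X]} {X' : U} (hA : MI vk A) (hXt : Transcendental k₁ X')

include hXt hA in
theorem ne0 : aeval X' A ≠ 0 ∧ aeval X' (1 + X * A) ≠ 0 ∧ zc A X' ≠ 0 := by
  have hA0 : aeval X' A ≠ 0 := fun h => hXt ⟨A, hA.monic.ne_zero, h⟩
  have hD0 : aeval X' (1 + X * A) ≠ 0 := fun h => hXt ⟨_, hA.den.monic.ne_zero, h⟩
  exact ⟨hA0, hD0, div_ne_zero hA0 hD0⟩

include hnC hCk hA hXt in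
theorem region (E : Type*) [Field E] [Algebra k E] [Algebra k₁ E] [IsScalarTower k k₁ E]
    [Algebra C E] [IsScalarTower k C E] [IsScalarTower k₁ C E] [Algebra U E] [IsScalarTower k U E]
    [IsScalarTower k₁ U E] {φ : U → ℝ≥0∞} (hφ : IsPt p k U φ) :
    φ (zc A X') < 1 ↔ 1 < φ X' ∨ (φ X' ≤ 1 ∧ φ (aeval X' A) < 1) := by
  rw [← unitRing_lt_one_iff hφ, zc_lt_iff (hO1 hnC hCk E hφ) hA (ne0 hA hXt).2.1, unit_gt hφ,
    unit_le hφ, unitRing_lt_one_iff hφ]

variable {h₀' e' z₂ π₂' : U} {h₀ : E} {π₂ : C} {l e₀ : ℕ} {G : Finset E}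

/-- the hypotheses of the patching problem -/
structure Hyp (p : ℕ) [Fact p.Prime] {k₁ U C E : Type*} [Field k₁] [Field U]
    [Field C] [Field E] [Algebra k₁ U] [Algebra C E] [Algebra U E] (nC : Valuation C ℝ≥0)
    (A : k₁[X]) (X' h₀' e' π₂' : U) (π₂ : C) (l e₀ : ℕ) (G : Finset E) : Prop where
  hπ₂ : algebraMap U E π₂' = algebraMap C E π₂
  hπ₂1 : nC π₂ < 1
  hπ₂2 : nC (p : C) < nC π₂ ^ e₀
  hh₀ : h₀' ≠ 0
  he : e' ≠ 0
  hGU : ∀ g ∈ G, ∃ g' : U, algebraMap U E g' = g
  hG0 : ∀ g ∈ G, g ≠ 0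
  hG : ∀ O : ValuationSubring E, (∀ c, nC c ≤ 1 → algebraMap C E c ∈ O) →
      O.valuation (algebraMap U E (zc A X')) < 1 →
      O.valuation (algebraMap U E (p : U) / algebraMap U E (zc A X') ^ e₀) < 1 →
      ∃ g ∈ G, O.valuation (algebraMap U E (h₀' / e') * g ^ l - 1) < 1

variable (H : Hyp p (k₁ := k₁) (U := U) (C := C) (E := E) nC A X' h₀' e' π₂' π₂ l e₀ G)

include hnC H in
/-- the annulus: `h₀ ~ e g ^ l` -/
theorem annulus (hπ0 : π₂ ≠ 0) {φ : U → ℝ≥0∞} (hφ : IsPt p k U φ) (h1 : φ (zc A X') < 1)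
    (h2 : 1 ≤ φ (zc A X' / π₂')) : ∃ g : U, g ≠ 0 ∧ φ (h₀' / e' * g ^ l - 1) < 1 := by
  have hπ'0 : π₂' ≠ 0 := by
    rintro rfl
    have := H.hπ₂
    rw [map_zero] at this
    exact hπ0 ((_root_.map_eq_zero _).1 this.symm)
  refine lift_pt (C := C) (E := E) hnC hφ (z' := zc A X') (π' := (p : U)) rfl rfl rfl H.hGU H.hG0
    H.hG h1 ?_
  set O := unitRing hφ with hO
  have h3 : O.valuation π₂' ≤ O.valuation (zc A X') := by
    have h4 : 1 ≤ O.valuation (zc A X' / π₂') := by
      rw [← not_lt, unitRing_lt_one_iff hφ, not_lt]; exact h2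
    rw [map_div₀, one_le_div₀ (val_pos _ hπ'0)] at h4
    exact h4
  have h5 : φ ((p : U) / π₂' ^ e₀) < 1 := by
    rw [pt_eq (C := C) (E := E) (c := (p : C) / π₂ ^ e₀) hnC hφ (by
      rw [map_div₀, map_pow, H.hπ₂, map_natCast, map_div₀, map_pow, map_natCast])]
    rw [map_div₀, map_pow]
    have h6 : nC (p : C) / nC π₂ ^ e₀ < 1 :=
      (div_lt_one₀ (pow_pos (zero_lt_iff.2 ((Valuation.ne_zero_iff _).2 hπ0)) _)).2 H.hπ₂2
    exact_mod_cast h6
  rw [← unitRing_lt_one_iff hφ] at h5 ⊢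
  have hzpos : 0 < O.valuation (zc A X') := (val_pos _ hπ'0).trans_le h3
  rw [map_div₀, map_pow, div_lt_one₀ (pow_pos (val_pos _ hπ'0) _)] at h5
  rw [map_div₀, map_pow, div_lt_one₀ (pow_pos hzpos _)]
  exact h5.trans_le (pow_le_pow_left₀ zero_le h3 _)

include hnC hCk hA hXt H in
/-- **patching at the level `U`** -/
theorem patch [Algebra.IsAlgebraic k k₁] (hlp : ¬ p ∣ l) (y : U) [FiniteDimensional k⟮y⟯ U]
    (hπ0 : π₂ ≠ 0) :
    ∃ h : U, h ≠ 0 ∧ (∀ φ : U → ℝ≥0∞, IsPt p k U φ → φ (zc A X') < 1 →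
        ∃ g : U, g ≠ 0 ∧ φ (h / (e' * g ^ l) - 1) < 1) ∧
      (∀ φ : U → ℝ≥0∞, IsPt p k U φ → 1 ≤ φ (zc A X') →
        ∃ g : U, g ≠ 0 ∧ φ (h / (h₀' * g ^ l) - 1) < 1) ∧
      (∀ u : Valuation U ℝ≥0, IsPlace k u → ∃ φ : U → ℝ≥0∞, IsPt p k U φ ∧
        ∀ a, φ a ≠ ∞ ↔ u a ≤ 1) := by
  have hπ'0 : π₂' ≠ 0 := by
    rintro rfl
    have := H.hπ₂
    rw [map_zero] at this
    exact hπ0 ((_root_.map_eq_zero _).1 this.symm)
  have hzt : Transcendental k₁ (zc A X') := transcendental_zc hA hXt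
  have hπalg : IsAlgebraic k π₂' := by
    have h1 : IsAlgebraic k π₂ := Algebra.IsAlgebraic.isAlgebraic π₂
    have h2 : IsAlgebraic k (algebraMap U E π₂') := by
      rw [H.hπ₂]
      exact h1.algebraMap
    exact (isAlgebraic_algebraMap_iff (algebraMap U E).injective).1 h2
  have hz₂t : Transcendental k (zc A X' / π₂') := by
    intro h
    have h1 : IsAlgebraic k (zc A X') := by
      have := h.mul hπalg
      rwa [div_mul_cancel₀ _ hπ'0] at this
    exact hzt (h1.tower_top k₁)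
  have hfd : FiniteDimensional k⟮zc A X' / π₂'⟯ U := finite_adjoin' y _ hz₂t
  set vk₀ : Valuation k ℝ≥0 := nC.comap (algebraMap k C) with hvk₀
  obtain ⟨h, hh, hpt⟩ := PPt_894.patch_pt p vk₀ (fun q => hnC q) (zc A X' / π₂') hz₂t l hlp h₀' e'
    H.hh₀ H.he (by
      intro v hv
      have hvφ : IsPt p k U (fun a => (v a : ℝ≥0∞)) := isPt_of_valuation v fun c => by
        rw [hv.ext]
        exact hnC c
      have h1 : v (zc A X' / π₂') = 1 := hv.val_eq_one
      have h2 : v π₂' = nC π₂ := by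
        have := pt_eq (C := C) (E := E) hnC hvφ H.hπ₂
        exact_mod_cast this
      have h3 : v (zc A X') = nC π₂ := by
        rw [map_div₀, div_eq_one_iff_eq ((Valuation.ne_zero_iff _).2 hπ'0)] at h1
        rw [h1, h2]
      obtain ⟨g, hg0, hg⟩ := annulus hnC H hπ0 hvφ
        (by
          change ((v (zc A X') : ℝ≥0) : ℝ≥0∞) < 1
          rw [h3]
          exact_mod_cast H.hπ₂1)
        (by
          change (1 : ℝ≥0∞) ≤ ((v (zc A X' / π₂') : ℝ≥0) : ℝ≥0∞)
          rw [h1]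
          exact_mod_cast le_refl _)
      have hg' : v (h₀' / e' * g ^ l - 1) < 1 := by exact_mod_cast hg
      refine ⟨g⁻¹, inv_ne_zero hg0, ?_⟩
      have hgl : g ^ l ≠ 0 := pow_ne_zero _ hg0
      have e1 : h₀' / e' - g⁻¹ ^ l = (h₀' / e' * g ^ l - 1) * (g ^ l)⁻¹ := by
        rw [sub_mul, one_mul, mul_assoc, mul_inv_cancel₀ hgl, mul_one, inv_pow]
      have e2 : v (h₀' / e' * g ^ l) = 1 := by
        rw [← map_one v]
        exact Valuation.map_eq_of_sub_lt _ (by rwa [map_one])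
      have e3 : v (h₀' / e') = v (g ^ l)⁻¹ := by
        rw [map_mul] at e2
        rw [map_inv₀]
        exact eq_inv_of_mul_eq_one_left e2
      rw [e1, map_mul, e3]
      exact mul_lt_of_lt_one_left (zero_lt_iff.2 ((Valuation.ne_zero_iff _).2 (inv_ne_zero hgl)))
        hg')
  refine ⟨h, hh, ?_, ?_, fun u hu => PPt_894.exists_pt_of_place p _ hz₂t u hu⟩
  · intro φ hφ h1
    rcases lt_or_ge (φ (zc A X' / π₂')) 1 with h2 | h2
    · exact (hpt φ hφ).1 h2
    · obtain ⟨g₂, hg₂0, hg₂⟩ := (hpt φ hφ).2 h2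
      obtain ⟨g₃, hg₃0, hg₃⟩ := annulus hnC H hπ0 hφ h1 h2
      refine ⟨g₂ / g₃, div_ne_zero hg₂0 hg₃0, ?_⟩
      rw [← unitRing_lt_one_iff hφ] at hg₂ hg₃ ⊢
      have e1 : h / (e' * (g₂ / g₃) ^ l) = (h / (h₀' * g₂ ^ l)) * (h₀' / e' * g₃ ^ l) := by
        have h3 := H.hh₀
        have h4 := H.he
        have h5 : g₃ ^ l ≠ 0 := pow_ne_zero _ hg₃0
        have h6 : g₂ ^ l ≠ 0 := pow_ne_zero _ hg₂0
        rw [div_pow]
        generalize g₃ ^ l = a at *
        generalize g₂ ^ l = b at *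
        field_simp
      rw [e1]
      exact near_mul hg₂ hg₃
  · intro φ hφ h1
    refine (hpt φ hφ).2 ?_
    have h2 : φ π₂' < 1 := by
      rw [pt_eq (C := C) (E := E) hnC hφ H.hπ₂]
      exact_mod_cast H.hπ₂1
    rw [← not_lt, ← unitRing_lt_one_iff hφ, not_lt] at h1 ⊢
    rw [← unitRing_lt_one_iff hφ] at h2
    rw [map_div₀, one_le_div₀ (val_pos _ hπ'0)]
    exact h2.le.trans h1

end Level

end Crest.Agent.R013.U8_337
end
end

-- ▼ part R013/U9_337
section

/-!
Row 13, part A, leaf A-U (helper337), file 9: the patched element at the level `U`: its divisor is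
divisible by `l`, its classes at the points with `|X| < 1` and `|X| > 1`.
-/

set_option autoImplicit false
set_option linter.unusedSectionVars false

noncomputable section

namespace Crest.Agent.R013.U9_337

open scoped NNReal ENNReal
open Polynomial IntermediateField
open Crest.NumberTheoryR.Sect
open Crest.Agent.R013.LiftA_168 Crest.Agent.R013.U2_337 Crest.Agent.R013.RZ_365
open Crest.Agent.R013.U3_337 Crest.Agent.R013.U4_337 Crest.Agent.R013.U6_337
open Crest.Agent.R013.A2b_275 Crest.Agent.R013.U1_337 Crest.Agent.R013.U7_337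
open Crest.Agent.R013.U8_337

variable {p : ℕ} [Fact p.Prime] {k k₁ U C E : Type*} [Field k] [Field k₁] [Field U] [Field C]
  [Field E] [Algebra ℚ_[p] k] [FiniteDimensional ℚ_[p] k] [Algebra k k₁] [Algebra k C]
  [Algebra k₁ C] [IsScalarTower k k₁ C] [Algebra.IsAlgebraic k C] [Algebra k U] [Algebra k₁ U]
  [IsScalarTower k k₁ U] [Algebra k E] [Algebra k₁ E] [IsScalarTower k k₁ E] [Algebra C E]
  [IsScalarTower k C E] [IsScalarTower k₁ C E] [Algebra U E] [IsScalarTower k U E]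
  [IsScalarTower k₁ U E] {nC : Valuation C ℝ≥0} {vk : Valuation k₁ ℝ≥0}

/-- `e = (X + c ^ l) / X` -/
abbrev eX {U : Type*} [Field U] (X c : U) (l : ℕ) : U := (X + c ^ l) / X

section local_

variable {φ : U → ℝ≥0∞} (hφ : IsPt p k U φ) {X c : U} {l : ℕ} (hX0 : X ≠ 0) (hc : φ c = 1)

include hc in
theorem c_pow : (unitRing hφ).valuation (c ^ l) = 1 := by
  rw [map_pow, (unit_eq hφ c).2 hc, one_pow]

include hX0 hc in
/-- at `|X| > 1`: `e ~ 1` -/
theorem e_inf (h : 1 < (unitRing hφ).valuation X) : (unitRing hφ).valuation (eX X c l - 1) < 1 := by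
  have e1 : eX X c l - 1 = c ^ l / X := by
    rw [eX]; field_simp; ring
  rw [e1, map_div₀, c_pow hφ hc, one_div]
  exact inv_lt_one_of_one_lt₀ h

include hX0 hc in
/-- at `|X| < 1`: `e ~ c ^ l / X` -/
theorem e_zero (h : (unitRing hφ).valuation X < 1) :
    (unitRing hφ).valuation (eX X c l / (c ^ l / X) - 1) < 1 := by
  have hcl := c_pow (l := l) hφ hc
  have hc0 : c ^ l ≠ 0 := by
    intro h0; rw [h0, map_zero] at hcl; exact zero_ne_one hcl
  have e1 : eX X c l / (c ^ l / X) - 1 = X / c ^ l := by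
    rw [eX]; field_simp; ring
  rw [e1, map_div₀, hcl, div_one]
  exact h

end local_

variable (hnC : ∀ q : ℚ_[p], nC (algebraMap k C (algebraMap ℚ_[p] k q)) = ‖q‖₊)
  (hCk : ∀ c, nC (algebraMap k₁ C c) = vk c) {A : k₁[X]} {X' : U} (hA : MI vk A)
  (hXt : Transcendental k₁ X') {h₀' c₁' π₂' : U} {c₁ π₂ : C} {l e₀ : ℕ} {G : Finset E}
  (H : Hyp p (k₁ := k₁) (U := U) (C := C) (E := E) nC A X' h₀' (eX X' c₁' l) π₂' π₂ l e₀ G)
  (hdvd : (Polynomial.X : k₁[X]) ∣ A) (hc₁ : nC c₁ = 1)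
  (hcc : algebraMap U E c₁' = algebraMap C E c₁) (hAc : nC (aeval (-c₁ ^ l) A) = 1)
  (hplace : ∀ (O : ValuationSubring U) (u : Valuation U ℝ≥0),
    (∀ c : k₁, vk c ≤ 1 → algebraMap k₁ U c ∈ O) →
    (∀ c : k₁, vk c < 1 → O.valuation (algebraMap k₁ U c) < 1) →
    (∀ c : k₁, c ≠ 0 → u (algebraMap k₁ U c) = 1) → (∀ a ∈ O, u a ≤ 1) →
    O.valuation X' ≤ 1 → O.valuation (aeval X' A) = 1 → u h₀' = 1)

include hnC hCk hA hXt H hdvd hc₁ hcc hAc hplace in
theorem level_result [Algebra.IsAlgebraic k k₁] (hl : l ≠ 0) (hlp : ¬ p ∣ l) (y : U)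
    [FiniteDimensional k⟮y⟯ U] (hπ0 : π₂ ≠ 0) (x' : U) (π' : k₁) (hπ' : π' ≠ 0)
    (hX : X' * algebraMap k₁ U π' = x' ^ l) :
    ∃ h : U, h ≠ 0 ∧ (∀ u : Valuation U ℝ≥0, IsPlace k u → ∃ a : U, u h = u a ^ l) ∧
      (∀ φ : U → ℝ≥0∞, IsPt p k U φ → φ X' < 1 →
        ∃ g : U, g ≠ 0 ∧ φ (h / (algebraMap k₁ U π' * g ^ l) - 1) < 1) ∧
      (∀ φ : U → ℝ≥0∞, IsPt p k U φ → 1 < φ X' → ∃ g : U, g ≠ 0 ∧ φ (h / g ^ l - 1) < 1) := by
  have hX0 : X' ≠ 0 := by rintro rfl; exact hXt isAlgebraic_zero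
  have hπU : algebraMap k₁ U π' ≠ 0 := (_root_.map_ne_zero _).2 hπ'
  have hx0 : x' ≠ 0 := by
    rintro rfl
    rw [zero_pow hl] at hX
    exact mul_ne_zero hX0 hπU hX
  have hcpt : ∀ φ : U → ℝ≥0∞, IsPt p k U φ → φ c₁' = 1 := by
    intro φ hφ
    rw [pt_eq (C := C) (E := E) hnC hφ hcc, hc₁, ENNReal.coe_one]
  have hc0 : c₁' ≠ 0 := by
    rintro rfl
    rw [map_zero] at hcc
    rw [(_root_.map_eq_zero _).1 hcc.symm, map_zero] at hc₁
    exact zero_ne_one hc₁
  obtain ⟨h, hh, hI, hII, hpl⟩ := patch hnC hCk hA hXt H hlp y hπ0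
  refine ⟨h, hh, ?_, ?_, ?_⟩
  · -- places
    intro u hu
    obtain ⟨φ, hφ, hφu⟩ := hpl u hu
    set O := unitRing hφ with hO
    have hOu : ∀ a ∈ O, u a ≤ 1 := fun a ha =>
      (hφu a).1 (ne_top_of_le_ne_top ENNReal.one_ne_top ha)
    have hu1 : ∀ a : U, φ a ≠ ∞ → φ a ≠ 0 → u a = 1 := by
      intro a h1 h2
      have ha : a ≠ 0 := by rintro rfl; exact h2 hφ.map_zero
      have h3 := (hφu a).1 h1
      have h4 := (hφu a⁻¹).1 (by rw [hφ.inv a ha]; exact ENNReal.inv_ne_top.2 h2)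
      rw [map_inv₀] at h4
      exact le_antisymm h3 ((inv_le_one₀ (val_pos _ ha)).1 h4)
    have hO1 : ∀ a : U, O.valuation a = 1 → u a = 1 := by
      intro a ha
      have := (unit_eq hφ a).1 ha
      exact hu1 a (by rw [this]; exact ENNReal.one_ne_top) (by rw [this]; exact one_ne_zero)
    have huk : ∀ c : k₁, c ≠ 0 → u (algebraMap k₁ U c) = 1 := by
      intro c hc
      have h1 := pt_k1 hnC hCk E hφ c
      refine hu1 _ (by rw [h1]; exact ENNReal.coe_ne_top) (by
        rw [h1, Ne, ENNReal.coe_eq_zero]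
        exact (Valuation.ne_zero_iff _).2 hc)
    have hOk : ∀ c : k₁, vk c ≤ 1 → algebraMap k₁ U c ∈ O := U8_337.hO1 hnC hCk E hφ
    have hOk' : ∀ c : k₁, vk c < 1 → O.valuation (algebraMap k₁ U c) < 1 := by
      intro c hc
      rw [unitRing_lt_one_iff hφ, pt_k1 hnC hCk E hφ]
      exact_mod_cast hc
    have hcl : O.valuation (c₁' ^ l) = 1 := c_pow hφ (hcpt φ hφ)
    have huX : u X' = u x' ^ l := by
      rw [← map_pow, ← hX, map_mul, huk π' hπ', mul_one]
    rcases lt_or_ge (φ (zc A X')) 1 with h1 | h1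
    · obtain ⟨g, hg0, hg⟩ := hI φ hφ h1
      have h2 : u (h / (eX X' c₁' l * g ^ l)) = 1 :=
        hO1 _ (val_eq_one_of_near ((unitRing_lt_one_iff hφ _).2 hg))
      have he0 := H.he
      have h3 : u h = u (eX X' c₁' l) * u g ^ l := by
        rw [map_div₀, map_mul, map_pow] at h2
        exact (div_eq_one_iff_eq (mul_ne_zero ((Valuation.ne_zero_iff _).2 he0)
          (pow_ne_zero _ ((Valuation.ne_zero_iff _).2 hg0)))).1 h2
      have h4 : u (eX X' c₁' l) = 1 ∨ u (eX X' c₁' l) = (u x' ^ l)⁻¹ := by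
        rcases (region hnC hCk hA hXt E hφ).1 h1 with h5 | ⟨h5, h6⟩
        · left
          exact hO1 _ (val_eq_one_of_near (e_inf hφ hX0 (hcpt φ hφ) ((unit_gt hφ _).2 h5)))
        · rw [← unit_le hφ] at h5
          rw [← unitRing_lt_one_iff hφ] at h6
          rcases lt_or_eq_of_le h5 with h7 | h7
          · right
            have h8 : u (X' + c₁' ^ l) = 1 := hO1 _ (by
              rw [Valuation.map_add_eq_of_lt_right _ (by rw [hcl]; exact h7), hcl])
            rw [eX, map_div₀, h8, huX, one_div]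
          · left
            refine hO1 _ ?_
            rw [eX, map_div₀, h7, div_one]
            refine le_antisymm ((O.valuation.map_add _ _).trans (max_le h5 hcl.le)) ?_
            by_contra hcon
            push Not at hcon
            have h9 : O.valuation (aeval X' A - aeval (-c₁' ^ l) A) < 1 := by
              refine aeval_congr hOk hA.le h5 ?_ ?_
              · rw [Valuation.map_neg]; exact hcl.le
              · rw [sub_neg_eq_add]; exact hcon
            have h10 : φ (aeval (-c₁' ^ l) A) = 1 := by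
              rw [pt_eq (C := C) (E := E) (c := aeval (-c₁ ^ l) A) hnC hφ, hAc, ENNReal.coe_one]
              rw [← aeval_algebraMap_apply, ← aeval_algebraMap_apply, map_neg, map_neg, map_pow,
                map_pow, hcc]
            have h11 := (unit_eq hφ _).2 h10
            have h12 : O.valuation (aeval X' A) = 1 := by
              rw [← h11]
              exact Valuation.map_eq_of_sub_lt _ (by rwa [h11])
            rw [h12] at h6
            exact lt_irrefl _ h6
      rcases h4 with h4 | h4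
      · exact ⟨g, by rw [h3, h4, one_mul]⟩
      · refine ⟨g / x', ?_⟩
        rw [h3, h4, map_div₀, div_pow, div_eq_mul_inv, mul_comm]
    · obtain ⟨g, hg0, hg⟩ := hII φ hφ h1
      have h2 : u (h / (h₀' * g ^ l)) = 1 :=
        hO1 _ (val_eq_one_of_near ((unitRing_lt_one_iff hφ _).2 hg))
      have h00 := H.hh₀
      have h3 : u h = u h₀' * u g ^ l := by
        rw [map_div₀, map_mul, map_pow] at h2
        exact (div_eq_one_iff_eq (mul_ne_zero ((Valuation.ne_zero_iff _).2 h00)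
          (pow_ne_zero _ ((Valuation.ne_zero_iff _).2 hg0)))).1 h2
      have h4 : ¬ (1 < φ X' ∨ (φ X' ≤ 1 ∧ φ (aeval X' A) < 1)) := fun h =>
        absurd ((region hnC hCk hA hXt E hφ).2 h) (not_lt.2 h1)
      push Not at h4
      have h5 : O.valuation X' ≤ 1 := (unit_le hφ _).2 h4.1
      have h6 : O.valuation (aeval X' A) = 1 := by
        refine le_antisymm (aeval_le hOk hA.le h5) ?_
        rw [← not_lt, unitRing_lt_one_iff hφ, not_lt]
        exact h4.2 h4.1
      have h7 : u h₀' = 1 := hplace O u hOk hOk' huk hOu h5 h6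
      exact ⟨g, by rw [h3, h7, one_mul]⟩
  · intro φ hφ h1
    set O := unitRing hφ with hO
    have hOk : ∀ c : k₁, vk c ≤ 1 → algebraMap k₁ U c ∈ O := U8_337.hO1 hnC hCk E hφ
    have h1' : O.valuation X' < 1 := (unitRing_lt_one_iff hφ _).2 h1
    have h2 : φ (aeval X' A) < 1 := by
      obtain ⟨A', hA'⟩ := hdvd
      have hA'i : ∀ i, vk (A'.coeff i) ≤ 1 := by
        intro i
        have := hA.le (i + 1)
        rwa [hA', Polynomial.coeff_X_mul] at this
      rw [← unitRing_lt_one_iff hφ, hA', map_mul, aeval_X, map_mul]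
      exact mul_lt_one_of_nonneg_of_lt_one_left zero_le h1' (aeval_le hOk hA'i h1'.le)
    obtain ⟨g, hg0, hg⟩ := hI φ hφ ((region hnC hCk hA hXt E hφ).2 (Or.inr ⟨h1.le, h2⟩))
    have h3 := e_zero (l := l) hφ hX0 (hcpt φ hφ) h1'
    have he0 := H.he
    have hcl0 : c₁' ^ l ≠ 0 := pow_ne_zero _ hc0
    refine ⟨c₁' * g / x', div_ne_zero (mul_ne_zero hc0 hg0) hx0, ?_⟩
    rw [← unitRing_lt_one_iff hφ] at hg ⊢
    have hgl : g ^ l ≠ 0 := pow_ne_zero _ hg0
    have e1 : h / (algebraMap k₁ U π' * (c₁' * g / x') ^ l) =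
        (h / (eX X' c₁' l * g ^ l)) * (eX X' c₁' l / (c₁' ^ l / X')) := by
      rw [div_pow, mul_pow, ← hX]
      generalize g ^ l = b at *
      generalize c₁' ^ l = d at *
      generalize eX X' c₁' l = e at *
      field_simp
    rw [e1]
    exact near_mul hg h3
  · intro φ hφ h1
    obtain ⟨g, hg0, hg⟩ := hI φ hφ ((region hnC hCk hA hXt E hφ).2 (Or.inl h1))
    have h3 := e_inf (l := l) hφ hX0 (hcpt φ hφ) ((unit_gt hφ _).2 h1)
    have he0 := H.he
    refine ⟨g, hg0, ?_⟩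
    rw [← unitRing_lt_one_iff hφ] at hg ⊢
    have hgl : g ^ l ≠ 0 := pow_ne_zero _ hg0
    have e1 : h / g ^ l = (h / (eX X' c₁' l * g ^ l)) * eX X' c₁' l := by
      generalize g ^ l = b at *
      generalize eX X' c₁' l = e at *
      field_simp
    rw [e1]
    exact near_mul hg h3

end Crest.Agent.R013.U9_337
end
end

-- ▼ part R013/UQ2_478
section

/-!
Row 13, part A, leaf (Q) of A-U (helper478), file 2: `UH_337.QStmt`, and its instances on `k⟮X⟯`.
-/

set_option autoImplicit false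

noncomputable section

namespace Crest.Agent.R013.UQ2_478

open scoped NNReal
open Polynomial IntermediateField
open Crest.Agent.R013.LiftA_168 Crest.Agent.R013.U2_337

theorem hgen_of_top {F k : Type*} [Field F] [Field k] [Algebra k F] {X : F} (h : k⟮X⟯ = ⊤) (f : F) :
    ∃ P Q : k[X], aeval X Q ≠ 0 ∧ f = aeval X P / aeval X Q := by
  have hf : f ∈ k⟮X⟯ := by rw [h]; trivial
  obtain ⟨r, s, h1⟩ := (IntermediateField.mem_adjoin_simple_iff k f).1 hf
  by_cases hs : aeval X s = 0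
  · exact ⟨0, 1, by simp, by rw [h1, hs]; simp⟩
  · exact ⟨r, s, hs, h1⟩


/-- `k⟮X⟯` is generated by `gen`. -/
theorem adjoin_gen (k : Type*) {M : Type*} [Field k] [Field M] [Algebra k M] (X : M) :
    k⟮AdjoinSimple.gen k X⟯ = (⊤ : IntermediateField k k⟮X⟯) := by
  apply IntermediateField.lift_injective k⟮X⟯
  rw [IntermediateField.lift_adjoin_simple, IntermediateField.lift_top]
  rfl

/-- `gen` is transcendental. -/
theorem transc_gen {k M : Type*} [Field k] [Field M] [Algebra k M] {X : M}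
    (h : Transcendental k X) : Transcendental k (AdjoinSimple.gen k X) := by
  intro h1
  apply h
  have h2 : IsAlgebraic k (algebraMap k⟮X⟯ M (AdjoinSimple.gen k X)) := h1.algebraMap
  rwa [AdjoinSimple.algebraMap_gen] at h2

/-- generation of `k⟮X⟯` by fractions in `gen`. -/
theorem hgen_gen (k : Type*) {M : Type*} [Field k] [Field M] [Algebra k M] (X : M) (f : k⟮X⟯) :
    ∃ P Q : k[X], aeval (AdjoinSimple.gen k X) Q ≠ 0 ∧
      f = aeval (AdjoinSimple.gen k X) P / aeval (AdjoinSimple.gen k X) Q :=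
  hgen_of_top (adjoin_gen k X) f



end Crest.Agent.R013.UQ2_478
end
end

-- ▼ part R013/U10_337

/-!
Row 13, part A, leaf A-U (helper337), file 10: the patching statement `HStmt`.
-/

set_option autoImplicit false
set_option linter.unusedSectionVars false
set_option linter.style.haveILetI false

noncomputable section

namespace Crest.Agent.R013.U10_337

open scoped NNReal ENNReal
open Polynomial IntermediateField
open Crest.NumberTheoryR.Sect
open Crest.Agent.R013.LiftA_168 Crest.Agent.R013.U2_337 Crest.Agent.R013.RZ_365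
open Crest.Agent.R013.U3_337 Crest.Agent.R013.U4_337 Crest.Agent.R013.U6_337
open Crest.Agent.R013.A2b_275 Crest.Agent.R013.U1_337 Crest.Agent.R013.U7_337
open Crest.Agent.R013.U8_337 Crest.Agent.R013.U9_337 Crest.Agent.R013.UH_337

theorem isPt_restrict {p : ℕ} [Fact p.Prime] {k : Type*} [Field k] [Algebra ℚ_[p] k]
    {K M : Type*} [Field K] [Field M] [Algebra k K] [Algebra K M] [Algebra k M]
    [IsScalarTower k K M] {φ : M → ℝ≥0∞} (hφ : IsPt p k M φ) (U : IntermediateField K M) :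
    IsPt p k U (fun a => φ a) where
  add a b := hφ.add a b
  mul a b h1 h2 := hφ.mul a b h1 h2
  inv a ha := hφ.inv a fun h => ha (Subtype.ext h)
  ext c := hφ.ext c

/-- the fixed field over a fixed subfield -/
def fixIF {F K M : Type*} [Field F] [Field K] [Field M] [Algebra K M] [Algebra F M]
    (σ : M ≃ₐ[K] M) (h : ∀ f : F, σ (algebraMap F M f) = algebraMap F M f) :
    IntermediateField F M where
  carrier := {a | σ a = a}
  mul_mem' {a b} ha hb := by
    change σ (a * b) = a * b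
    rw [map_mul, show σ a = a from ha, show σ b = b from hb]
  add_mem' {a b} ha hb := by
    change σ (a + b) = a + b
    rw [map_add, show σ a = a from ha, show σ b = b from hb]
  algebraMap_mem' f := h f
  inv_mem' a ha := by
    change σ a⁻¹ = a⁻¹
    rw [map_inv₀, show σ a = a from ha]


theorem exists_r (a : ℝ≥0) (ha0 : 0 < a) (ha1 : a < 1) (e : ℕ) :
    ∃ r : ℝ≥0, r < 1 ∧ a < r ^ e := by
  rcases Nat.eq_zero_or_pos e with rfl | he
  · exact ⟨0, zero_lt_one, by rw [pow_zero]; exact ha1⟩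
  · set r : ℝ≥0 := a ^ (((e + 1 : ℕ) : ℝ)⁻¹) with hr
    have h1 : r ^ (e + 1) = a := NNReal.rpow_inv_natCast_pow a (Nat.succ_ne_zero e)
    have hr0 : 0 < r := by
      rcases eq_or_ne r 0 with h0 | h0
      · rw [h0, zero_pow (Nat.succ_ne_zero e)] at h1
        exact absurd h1 ha0.ne
      · exact pos_iff_ne_zero.2 h0
    have hr1 : r < 1 := by
      by_contra hcon
      push Not at hcon
      have := one_le_pow₀ (n := e + 1) hcon
      rw [h1] at this
      exact absurd ha1 (not_lt.2 this)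
    refine ⟨r, hr1, ?_⟩
    rw [← h1]
    exact pow_lt_pow_right_of_lt_one₀ hr0 hr1 (Nat.lt_succ_self e)

section Alg

open scoped IntermediateField.algebraAdjoinAdjoin in
theorem alg_of_transc {k M : Type*} [Field k] [Field M] [Algebra k M] (y : M)
    (h : ∀ a : M, IsAlgebraic k⟮y⟯ a) (t : M) (ht : Transcendental k t) (a : M) :
    IsAlgebraic k⟮t⟯ a := by
  have h0 : Algebra.IsAlgebraic k⟮y⟯ M := ⟨h⟩
  have h1 : Algebra.IsAlgebraic (Algebra.adjoin k {y}) M :=
    (IsFractionRing.comap_isAlgebraic_iff (A := Algebra.adjoin k {y})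
      (K := IntermediateField.adjoin k {y})).2 h0
  have h2 : Algebra.trdeg k M ≤ 1 := by
    have := Algebra.IsAlgebraic.trdeg_le_cardinalMk k ({y} : Set M)
    simpa using this
  have h3 : AlgebraicIndependent k (fun _ : Unit => t) := algebraicIndependent_unique_type_iff.2 ht
  have h4 : IsTranscendenceBasis k (fun _ : Unit => t) :=
    h3.isTranscendenceBasis_of_lift_trdeg_le_of_finite (by simpa using h2)
  have h5 := h4.isAlgebraic_field
  have h6 : Set.range (fun _ : Unit => t) = {t} := by simp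
  rw [h6] at h5
  exact h5.isAlgebraic a

theorem aeval_mem {k₁ M : Type*} [Field k₁] [Field M] [Algebra k₁ M] {S : Subfield M}
    (hk : ∀ c : k₁, algebraMap k₁ M c ∈ S) {t : M} (ht : t ∈ S) (P : k₁[X]) : aeval t P ∈ S := by
  rw [aeval_eq_sum_range]
  refine sum_mem fun i _ => ?_
  rw [Algebra.smul_def]
  exact mul_mem (hk _) (pow_mem ht _)

theorem map_mem {k K M : Type*} [Field k] [Field K] [Field M]
    [Algebra k K] [Algebra K M] [Algebra k M] [IsScalarTower k K M] (y₀ : K) (a : K)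
    (ha : a ∈ k⟮y₀⟯) : algebraMap K M a ∈ (k⟮algebraMap K M y₀⟯).toSubfield := by
  rw [mem_adjoin_simple_iff] at ha
  obtain ⟨P, Q, rfl⟩ := ha
  rw [map_div₀, ← aeval_algebraMap_apply, ← aeval_algebraMap_apply]
  refine div_mem (aeval_mem (fun c => ?_) ?_ P) (aeval_mem (fun c => ?_) ?_ Q)
  · exact IntermediateField.algebraMap_mem _ _
  · exact mem_adjoin_simple_self k _
  · exact IntermediateField.algebraMap_mem _ _
  · exact mem_adjoin_simple_self k _

theorem finite_up {k K M : Type*} [Field k] [Field K] [Field M]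
    [Algebra k K] [Algebra K M] [Algebra k M] [IsScalarTower k K M] (y₀ : K)
    [FiniteDimensional k⟮y₀⟯ K] [FiniteDimensional K M] :
    FiniteDimensional k⟮algebraMap K M y₀⟯ M := by
  have h1 : FiniteDimensional k⟮y₀⟯ M := FiniteDimensional.trans k⟮y₀⟯ K M
  let g : k⟮y₀⟯ →+* k⟮algebraMap K M y₀⟯ :=
    ((algebraMap K M).comp (algebraMap k⟮y₀⟯ K)).codRestrict (k⟮algebraMap K M y₀⟯).toSubfield
      fun a => map_mem y₀ _ a.2
  let _ : Algebra k⟮y₀⟯ k⟮algebraMap K M y₀⟯ := g.toAlgebra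
  have : IsScalarTower k⟮y₀⟯ k⟮algebraMap K M y₀⟯ M :=
    IsScalarTower.of_algebraMap_eq fun s => IsScalarTower.algebraMap_apply k⟮y₀⟯ K M s
  exact Module.Finite.of_restrictScalars_finite k⟮y₀⟯ k⟮algebraMap K M y₀⟯ M

/-- `M` is algebraic over `k₁(X)` -/
theorem isAlgebraic_M {k k₁ K M : Type*} [Field k] [Field k₁] [Field K] [Field M] [Algebra k k₁]
    [Algebra k K] [Algebra K M] [Algebra k M] [IsScalarTower k K M] [Algebra k₁ M]
    [IsScalarTower k k₁ M] [Algebra.IsAlgebraic K M] (y₀ : K) [FiniteDimensional k⟮y₀⟯ K] {X : M}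
    (hX : Transcendental k X) : Algebra.IsAlgebraic k₁⟮X⟯ M := by
  have h1 : Algebra.IsAlgebraic k⟮y₀⟯ M := Algebra.IsAlgebraic.trans k⟮y₀⟯ K M
  have h2 := map_mem (k := k) (M := M) y₀
  let g : k⟮y₀⟯ →+* k⟮algebraMap K M y₀⟯ :=
    ((algebraMap K M).comp (algebraMap k⟮y₀⟯ K)).codRestrict (k⟮algebraMap K M y₀⟯).toSubfield
      fun a => h2 _ a.2
  have h3 : ∀ a : M, IsAlgebraic k⟮algebraMap K M y₀⟯ a := fun a =>
    isAlgebraic_mono g (fun s => (IsScalarTower.algebraMap_apply k⟮y₀⟯ K M s).symm)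
      (h1.isAlgebraic a)
  have h4 := alg_of_transc _ h3 X hX
  have h5 : ∀ a ∈ k⟮X⟯, a ∈ (k₁⟮X⟯).toSubfield := by
    intro a ha
    rw [mem_adjoin_simple_iff] at ha
    obtain ⟨P, Q, rfl⟩ := ha
    have hk : ∀ c : k, algebraMap k M c ∈ (k₁⟮X⟯).toSubfield := by
      intro c
      rw [IsScalarTower.algebraMap_apply k k₁ M]
      exact IntermediateField.algebraMap_mem _ _
    exact div_mem (aeval_mem hk (mem_adjoin_simple_self k₁ _) P)
      (aeval_mem hk (mem_adjoin_simple_self k₁ _) Q)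
  let g' : k⟮X⟯ →+* k₁⟮X⟯ :=
    (algebraMap k⟮X⟯ M).codRestrict (k₁⟮X⟯).toSubfield fun a => h5 _ a.2
  exact ⟨fun a => isAlgebraic_mono g' (fun _ => rfl) (h4 a)⟩

end Alg

section Main

variable {p : ℕ} [Fact p.Prime] {k k₁ C K M : Type*} [Field k] [Field k₁] [Field C] [Field K]
  [Field M] [Algebra ℚ_[p] k] [FiniteDimensional ℚ_[p] k] [Algebra k k₁] [FiniteDimensional k k₁]
  [Algebra k C] [Algebra k₁ C] [IsScalarTower k k₁ C] [Algebra.IsAlgebraic k C]
  [Algebra k K] [Algebra K M] [Algebra k M] [IsScalarTower k K M] [Algebra k₁ M]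
  [IsScalarTower k k₁ M] [Algebra C M] [IsScalarTower k C M] [IsScalarTower k₁ C M]
  [Algebra.IsAlgebraic K M]

/-- **The patching statement**, abstract form. -/
theorem main (y₀ : K) [FiniteDimensional k⟮y₀⟯ K] (σ : M ≃ₐ[K] M)
    (hCσ : ∀ c : C, σ (algebraMap C M c) = algebraMap C M c) {l : ℕ} (hl : l.Prime) (hlp : l ≠ p)
    (hKum : ∀ U : IntermediateField K M, FiniteDimensional K U → ∀ h : U,
      (∀ u : Valuation U ℝ≥0, IsPlace k u → ∃ a : U, u h = u a ^ l) → ∃ y : M, y ^ l = h)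
    {nC : Valuation C ℝ≥0}
    (hnC : ∀ q : ℚ_[p], nC (algebraMap k C (algebraMap ℚ_[p] k q)) = ‖q‖₊)
    (hres : ResClosed nC) (hdense : ∀ r : ℝ≥0, r < 1 → ∃ c, r < nC c ∧ nC c < 1)
    {vk : Valuation k₁ ℝ≥0} (hCk : ∀ c, nC (algebraMap k₁ C c) = vk c)
    {x X : M} {π' : k₁} (hπ' : π' ≠ 0) (hX : X * algebraMap k₁ M π' = x ^ l) (hσx : σ x = x)
    (hXt : Transcendental k₁ X) {v₀ : Valuation k₁⟮X⟯ ℝ≥0} {A₀ A₁ : ValuationSubring k₁⟮X⟯}
    (hv₀ : IsG vk v₀ (AdjoinSimple.gen k₁ X)) (hA₀ : R2 vk (AdjoinSimple.gen k₁ X) A₀)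
    (hA₁ : R2 vk (AdjoinSimple.gen k₁ X)⁻¹ A₁) (L : IntermediateField k₁⟮X⟯ M)
    [FiniteDimensional k₁⟮X⟯ L] (hLσ : ∀ a ∈ L, σ a = a)
    (hno : ¬ DataAt v₀ l (AdjoinSimple.gen k₁ X) A₀ A₁ L) :
    ∃ H : M, σ (H ^ l) = H ^ l ∧
      (∀ φ : M → ℝ≥0∞, IsPt p k M φ → φ X < 1 →
        ∃ g, σ g = g ∧ φ (H ^ l / (algebraMap k₁ M π' * g ^ l) - 1) < 1) ∧
      (∀ φ : M → ℝ≥0∞, IsPt p k M φ → 1 < φ X →
        ∃ g, σ g = g ∧ φ (H ^ l / g ^ l - 1) < 1) := by
  classical
  have hσk₁ : ∀ c : k₁, σ (algebraMap k₁ M c) = algebraMap k₁ M c := fun c => by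
    rw [IsScalarTower.algebraMap_apply k₁ C M, hCσ]
  have hπ'0 : algebraMap k₁ M π' ≠ 0 := (_root_.map_ne_zero _).2 hπ'
  have hσX : σ X = X := by
    have e : X = x ^ l / algebraMap k₁ M π' := by rw [← hX, mul_div_cancel_right₀ _ hπ'0]
    rw [e, map_div₀, map_pow, hσx, hσk₁]
  have hσF : ∀ f : k₁⟮X⟯, σ (algebraMap k₁⟮X⟯ M f) = algebraMap k₁⟮X⟯ M f := by
    intro f
    obtain ⟨P, Q, -, hf⟩ := UQ2_478.hgen_gen k₁ X f
    have hP : ∀ P : k₁[X], σ (aeval X P) = aeval X P := by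
      intro P
      rw [aeval_eq_sum_range, map_sum]
      refine Finset.sum_congr rfl fun i _ => ?_
      rw [Algebra.smul_def, map_mul, map_pow, hσX, hσk₁]
    rw [hf, map_div₀, ← aeval_algebraMap_apply, ← aeval_algebraMap_apply,
      AdjoinSimple.algebraMap_gen, map_div₀, hP, hP]
  set E : IntermediateField k₁⟮X⟯ M := fixIF σ hσF with hE
  have hLE : L ≤ E := fun a ha => hLσ a ha
  -- the algebra structures
  letI iC : Algebra C E := RingHom.toAlgebra
    { toFun := fun c => ⟨algebraMap C M c, hCσ c⟩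
      map_one' := Subtype.ext (map_one _)
      map_mul' := fun _ _ => Subtype.ext (map_mul _ _ _)
      map_zero' := Subtype.ext (map_zero _)
      map_add' := fun _ _ => Subtype.ext (map_add _ _ _) }
  letI ik : Algebra k E := RingHom.toAlgebra ((algebraMap C E).comp (algebraMap k C))
  have hCE : ∀ c : C, ((algebraMap C E c : E) : M) = algebraMap C M c := fun _ => rfl
  have hk₁E : ∀ c : k₁, ((algebraMap k₁ E c : E) : M) = algebraMap k₁ M c := fun _ => rfl
  haveI t2 : IsScalarTower k₁ C E := IsScalarTower.of_algebraMap_eq fun c => Subtype.ext (by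
    rw [hCE, hk₁E, ← IsScalarTower.algebraMap_apply])
  haveI t3 : IsScalarTower k C E := IsScalarTower.of_algebraMap_eq fun _ => rfl
  haveI t4 : IsScalarTower k k₁ E := IsScalarTower.of_algebraMap_eq fun c => by
    rw [IsScalarTower.algebraMap_apply k C E, IsScalarTower.algebraMap_apply k₁ C E,
      ← IsScalarTower.algebraMap_apply k k₁ C]
  have hkE : ∀ c : k, ((algebraMap k E c : E) : M) = algebraMap k M c := fun c => by
    rw [IsScalarTower.algebraMap_apply k C E, hCE, ← IsScalarTower.algebraMap_apply]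
  have hp : nC (p : C) = (p : ℝ≥0)⁻¹ := by
    have := hnC (p : ℚ_[p])
    rw [map_natCast, map_natCast] at this
    rw [this]
    ext
    rw [coe_nnnorm, Padic.norm_p, NNReal.coe_inv, NNReal.coe_natCast]
  have hp0 : (0 : ℝ≥0) < (p : ℝ≥0)⁻¹ := by
    have := (Fact.out : p.Prime).pos
    positivity
  have hp1 : (p : ℝ≥0)⁻¹ < 1 := by
    refine inv_lt_one_of_one_lt₀ ?_
    exact_mod_cast (Fact.out : p.Prime).one_lt
  haveI : CharZero k := charZero_of_injective_algebraMap (algebraMap ℚ_[p] k).injective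
  haveI : CharZero k₁ := charZero_of_injective_algebraMap (algebraMap k k₁).injective
  have hpk : (p : k₁) ≠ 0 := Nat.cast_ne_zero.2 (Fact.out : p.Prime).ne_zero
  have hpk1 : vk (p : k₁) < 1 := by
    rw [← hCk, map_natCast, hp]
    exact hp1
  have hXk : Transcendental k X := fun h => hXt (h.tower_top k₁)
  haveI : Algebra.IsAlgebraic k₁⟮X⟯ M := isAlgebraic_M y₀ hXk
  obtain ⟨A, h₀, c₁, e₀, G, hA, hdvd, hh₀, hc₁, hAc, hG0, hG, hplace⟩ :=
    exists_level (vk := vk) (X := AdjoinSimple.gen k₁ X) E hCk hres (UQ2_478.transc_gen hXt)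
      (UQ2_478.adjoin_gen k₁ X) hv₀ hA₀ hA₁ hl.ne_zero hpk hpk1 L hLE hno
  -- the radius
  obtain ⟨r, hr1, hr2⟩ := exists_r (nC (p : C)) (by rw [hp]; exact hp0) (by rw [hp]; exact hp1) e₀
  obtain ⟨π₂, hπ₂r, hπ₂1⟩ := hdense r hr1
  have hπ₂0 : π₂ ≠ 0 := by
    rintro rfl
    rw [map_zero] at hπ₂r
    exact absurd hπ₂r (by simp)
  have hπ₂2 : nC (p : C) < nC π₂ ^ e₀ := hr2.trans_le (pow_le_pow_left₀ zero_le hπ₂r.le _)
  -- the field `U`
  let b := Module.finBasis k k₁
  let S : Set M := {x, X, (h₀ : M), algebraMap C M c₁, algebraMap C M π₂} ∪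
    ((fun g : E => (g : M)) '' (G : Set E)) ∪ Set.range (fun i => algebraMap k₁ M (b i))
  have hSσ : ∀ a ∈ S, σ a = a := by
    rintro a ((ha | ⟨g, -, rfl⟩) | ⟨i, rfl⟩)
    · rcases ha with rfl | rfl | rfl | rfl | rfl
      · exact hσx
      · exact hσX
      · exact h₀.2
      · exact hCσ _
      · exact hCσ _
    · exact g.2
    · exact hσk₁ _
  have hSfin : S.Finite := by
    refine Set.Finite.union (Set.Finite.union (Set.toFinite _) ?_) (Set.finite_range _)
    exact (Finset.finite_toSet G).image _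
  haveI : Finite S := hSfin
  set U : IntermediateField K M := IntermediateField.adjoin K S with hU
  haveI hUfd : FiniteDimensional K U :=
    IntermediateField.finiteDimensional_adjoin fun a _ => Algebra.IsIntegral.isIntegral a
  have hUσ : ∀ a : U, σ (a : M) = a := by
    have h1 : U ≤ fixIF (F := K) σ (fun f => σ.commutes f) :=
      IntermediateField.adjoin_le_iff.2 fun a ha => hSσ a ha
    exact fun a => h1 a.2
  have hSU : ∀ a ∈ S, a ∈ U := fun a ha => IntermediateField.subset_adjoin K S ha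
  have hkU : ∀ c : k₁, algebraMap k₁ M c ∈ U := by
    intro c
    rw [← b.sum_repr c, map_sum]
    refine sum_mem fun i _ => ?_
    rw [Algebra.smul_def, map_mul, ← IsScalarTower.algebraMap_apply k k₁ M,
      IsScalarTower.algebraMap_apply k K M]
    exact mul_mem (U.algebraMap_mem _) (hSU _ (Or.inr ⟨i, rfl⟩))
  letI iU : Algebra U E := RingHom.toAlgebra
    { toFun := fun c => ⟨c.1, hUσ c⟩
      map_one' := rfl
      map_mul' := fun _ _ => rfl
      map_zero' := rfl
      map_add' := fun _ _ => rfl }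
  letI ikU : Algebra k₁ U := RingHom.toAlgebra
    { toFun := fun c => ⟨algebraMap k₁ M c, hkU c⟩
      map_one' := Subtype.ext (map_one _)
      map_mul' := fun _ _ => Subtype.ext (map_mul _ _ _)
      map_zero' := Subtype.ext (map_zero _)
      map_add' := fun _ _ => Subtype.ext (map_add _ _ _) }
  have hUE : ∀ c : U, ((algebraMap U E c : E) : M) = c := fun _ => rfl
  have hk₁U : ∀ c : k₁, ((algebraMap k₁ U c : U) : M) = algebraMap k₁ M c := fun _ => rfl
  have hkU' : ∀ c : k, ((algebraMap k U c : U) : M) = algebraMap k M c := fun _ => rfl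
  haveI s1 : IsScalarTower k k₁ U := IsScalarTower.of_algebraMap_eq fun c => Subtype.ext (by
    rw [hk₁U, hkU', ← IsScalarTower.algebraMap_apply])
  haveI s2 : IsScalarTower k U E := IsScalarTower.of_algebraMap_eq fun c => Subtype.ext (by
    rw [hUE, hkU', hkE])
  haveI s3 : IsScalarTower k₁ U E := IsScalarTower.of_algebraMap_eq fun c => Subtype.ext (by
    rw [hUE, hk₁U, hk₁E])
  -- the elements of `U`
  have mem1 : ∀ a, a ∈ ({x, X, (h₀ : M), algebraMap C M c₁, algebraMap C M π₂} : Set M) → a ∈ U :=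
    fun a ha => hSU a (Or.inl (Or.inl ha))
  let X' : U := ⟨X, mem1 X (by simp)⟩
  let x' : U := ⟨x, mem1 x (by simp)⟩
  let h₀' : U := ⟨h₀, mem1 h₀ (by simp)⟩
  let c₁' : U := ⟨algebraMap C M c₁, mem1 _ (by simp)⟩
  let π₂' : U := ⟨algebraMap C M π₂, mem1 _ (by simp)⟩
  have hGU : ∀ g ∈ G, ∃ g' : U, algebraMap U E g' = g := fun g hg =>
    ⟨⟨(g : M), hSU _ (Or.inl (Or.inr ⟨g, hg, rfl⟩))⟩, rfl⟩
  have eX' : algebraMap U E X' = algebraMap k₁⟮X⟯ E (AdjoinSimple.gen k₁ X) := rfl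
  have eh₀ : algebraMap U E h₀' = h₀ := rfl
  have ec₁ : algebraMap U E c₁' = algebraMap C E c₁ := rfl
  have eπ₂ : algebraMap U E π₂' = algebraMap C E π₂ := rfl
  have hX't : Transcendental k₁ X' := by
    intro h
    apply hXt
    have h1 : IsAlgebraic k₁ (algebraMap U E X') := h.algebraMap
    obtain ⟨P, hP0, hP⟩ := h1
    refine ⟨P, hP0, ?_⟩
    have h2 : ((aeval (algebraMap U E X') P : E) : M) = aeval X P := by
      rw [aeval_eq_sum_range, aeval_eq_sum_range]
      push_cast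
      rfl
    rw [← h2, hP]
    rfl
  have hzU : algebraMap U E (zc A X') = zc A (algebraMap k₁⟮X⟯ E (AdjoinSimple.gen k₁ X)) := by
    rw [zc, zc, map_div₀, ← aeval_algebraMap_apply, ← aeval_algebraMap_apply, eX']
  have heX : U9_337.eX X' c₁' l ≠ 0 := by
    have hc₁alg : IsAlgebraic k₁ c₁' := by
      have h1 : IsAlgebraic k₁ c₁ := (Algebra.IsAlgebraic.isAlgebraic (R := k) c₁).tower_top k₁
      have h2 : IsAlgebraic k₁ (algebraMap U E c₁') := by
        rw [ec₁]
        exact h1.algebraMap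
      exact (isAlgebraic_algebraMap_iff (algebraMap U E).injective).1 h2
    refine div_ne_zero ?_ ?_
    · intro h0
      apply hX't
      rw [eq_neg_of_add_eq_zero_left h0]
      exact (hc₁alg.pow l).neg
    · rintro h0
      apply hX't
      rw [h0]
      exact isAlgebraic_zero
  have hH : U8_337.Hyp p (k₁ := k₁) (U := U) (C := C) (E := E) nC A X' h₀'
      (U9_337.eX X' c₁' l) π₂' π₂ l e₀ G :=
    { hπ₂ := eπ₂
      hπ₂1 := hπ₂1
      hπ₂2 := hπ₂2
      hh₀ := fun h => hh₀ (by rw [← eh₀, h, map_zero])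
      he := heX
      hGU := hGU
      hG0 := hG0
      hG := by
        intro O hO1 hO2 hO3
        rw [hzU] at hO2 hO3
        rw [map_natCast] at hO3
        obtain ⟨g, hg, hg1⟩ := hG O hO1 hO2 (by rw [map_natCast]; exact hO3)
        refine ⟨g, hg, ?_⟩
        rw [map_div₀, eX, map_div₀, map_add, map_pow, eX', eh₀, ec₁]
        exact hg1 }
  have hfdU : FiniteDimensional k⟮algebraMap K U y₀⟯ U := finite_up y₀
  obtain ⟨h, hh0, hpl, hp1', hp2'⟩ := level_result hnC hCk hA hX't hH hdvd hc₁ ec₁ hAc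
    (fun O u => hplace X' h₀' eX' eh₀ O u) hl.ne_zero
    (fun h => hlp ((Nat.prime_dvd_prime_iff_eq Fact.out hl).1 h).symm) (algebraMap K U y₀) hπ₂0 x'
    π' hπ' (Subtype.ext hX)
  obtain ⟨H, hH'⟩ := hKum U hUfd h hpl
  refine ⟨H, ?_, ?_, ?_⟩
  · rw [hH']; exact hUσ h
  · intro φ hφ h1
    obtain ⟨g, -, hg⟩ := hp1' (fun a => φ a) (isPt_restrict hφ U) h1
    refine ⟨g, hUσ g, ?_⟩
    rw [hH']
    exact hg
  · intro φ hφ h1
    obtain ⟨g, -, hg⟩ := hp2' (fun a => φ a) (isPt_restrict hφ U) h1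
    refine ⟨g, hUσ g, ?_⟩
    rw [hH']
    exact hg

end Main

section Final

variable {p : ℕ} [Fact p.Prime] {k : Type*} [Field k] [Algebra ℚ_[p] k]
  [FiniteDimensional ℚ_[p] k] [CharZero k] {K : Type*} [Field K] [Algebra k K]
  [Algebra (RatFunc k) K] [IsScalarTower k (RatFunc k) K] [FiniteDimensional (RatFunc k) K]

theorem hStmt : HStmt p k K := by
  intro σ l hl hlp k₁ C hk₁ h₁ hCalg hCσ nC hnC hres hdense x X π' hπ' hX hσx hXt v₀ A₀ A₁ hv₀
    hA₀ hA₁ L hLfd hLσ hno
  let i1 : Algebra k₁ C := (IntermediateField.inclusion h₁).toRingHom.toAlgebra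
  have i2 : @IsScalarTower k k₁ C _ i1.toSMul _ := IsScalarTower.of_algebraMap_eq fun _ => rfl
  have i3 : @IsScalarTower k₁ C (maxUnramified k K) i1.toSMul _ _ :=
    IsScalarTower.of_algebraMap_eq fun _ => rfl
  have i4 : FiniteDimensional k⟮algebraMap (RatFunc k) K RatFunc.X⟯ K :=
    finite_adjoin RatFunc.adjoin_X
  have h2 : ∀ c : C, σ (algebraMap C (maxUnramified k K) c) = algebraMap C (maxUnramified k K) c :=
    fun c => hCσ c.1 c.2
  have h3 : ∀ U : IntermediateField K (maxUnramified k K), FiniteDimensional K U → ∀ h : U,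
      (∀ u : Valuation U ℝ≥0, IsPlace k u → ∃ a : U, u h = u a ^ l) →
        ∃ y : maxUnramified k K, y ^ l = h :=
    fun U hU h hh => LemT_874.exists_root_of_val U.val hl.ne_zero h hh
  have h4 : ∀ c : k₁, nC (algebraMap k₁ C c) =
      (nC.comap (IntermediateField.inclusion h₁).toRingHom) c := fun c => rfl
  exact main (k₁ := k₁) (C := C) (algebraMap (RatFunc k) K RatFunc.X) σ h2 hl hlp h3 hnC hres
    hdense h4 hπ' hX hσx hXt hv₀ hA₀ hA₁ L hLσ hno

end Final

end Crest.Agent.R013.U10_337
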