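import Crest.Agent.R013.LiftM_168
import Crest.Agent.R013.VData_803
import Crest.Agent.R013.TopB_803
import Crest.Agent.R013.TopN_803
import Crest.Agent.R013.LemT5_874
import Crest.Agent.R013.Tau5_512
import Mathlib
import Crest.Agent.R013.Tau6_512
import Crest.Agent.R013.AAsm_349
import Crest.Agent.R013.OneD_622
import Crest.Agent.R013.AEPt_854
import Crest.Agent.R013.UQ_478_Mg
import Crest.Agent.R013.U1_337
import Crest.Agent.R013.Rk2_894
import Crest.Agent.R013.OneP2_920
import Mathlib.FieldTheory.IntermediateField.Adjoin.Algebra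
import Mathlib.Analysis.Normed.Field.Basic
import Mathlib.Analysis.Normed.Group.Ultra
import Crest.Agent.R013.RZ3_365
import Crest.Agent.R013.U10_337
import Crest.Agent.R013.TopS_803
import Crest.Agent.R013.Cof10_669
import Crest.Agent.R013.Annu6_930
import Crest.Agent.R013.BTor4_914
import Crest.Agent.R013.Set10_803
import Crest.Agent.R013.LemC2_623

-- ▼ part R013/LiftOut_168
section

/-!
# R013 / LiftOut (helper168): LIFT-L from the vertex data `VData`

`LiftOut` : the statement of 92 (post 4000); `liftOut : VData … → LiftOut …`.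
-/

set_option autoImplicit false
set_option linter.style.haveILetI false
set_option linter.unusedSectionVars false

namespace Crest.Agent.R013.LiftOut_168

open Polynomial Module IntermediateField
open scoped NNReal
open Crest.NumberTheoryR.Sect
open Crest.Agent.R013.LiftA_168 Crest.Agent.R013.LiftK_168 Crest.Agent.R013.LiftL_168
  Crest.Agent.R013.LiftM_168 Crest.Agent.R013.SE_669 Crest.Agent.R013.CGood_588
  Crest.Agent.R013.VData_803
open Crest.Agent.R013.BTor6_914 (Lbar LC)
open Crest.Agent.R013.BTor4_914 (LDiv)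


theorem Lbar_eq_lv {k : Type*} [Field k] {K : Type*} [Field K] [Algebra k K]
    (M : IntermediateField K (AlgebraicClosure K)) :
    Lbar k M = lv M (algebraicClosure k (AlgebraicClosure K)) := by
  have h : ({x | IsIntegral k x} : Set (AlgebraicClosure K)) =
      (algebraicClosure k (AlgebraicClosure K) : Set (AlgebraicClosure K)) := by
    ext x
    exact (mem_algebraicClosure_iff' (F := k)).symm
  unfold Lbar lv
  rw [h]

/-- **The output of LIFT-L**: `h ∈ M C1` whose divisor is divisible by `l` (a), which is an `l`-th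
power up to `1`-units at all norms with `|t| > 1` (b), and is not an `l`-th power up to `1`-units at
`v`, over any finite extension of the constants (c). -/
def LiftOut (p : ℕ) [Fact p.Prime] (k : Type*) [Field k] [Algebra ℚ_[p] k] (K : Type*) [Field K]
    [Algebra k K] (C : IntermediateField k (AlgebraicClosure K)) (t : AlgebraicClosure K)
    (v : Valuation (AlgebraicClosure K) ℝ≥0) (M : IntermediateField K (AlgebraicClosure K))
    (l : ℕ) : Prop :=
  ∃ (C1 : IntermediateField k (AlgebraicClosure K)) (h : AlgebraicClosure K)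
    (hU : h ∈ LC M C1), FiniteDimensional k C1 ∧ C ≤ C1 ∧ h ≠ 0 ∧
    LDiv k l (⟨h, hU⟩ : LC M C1) ∧
    (∀ w : Valuation (AlgebraicClosure K) ℝ≥0, ExtendsPadicNorm k (AlgebraicClosure K) p w →
      1 < w t → ∃ g ∈ LC M C1, w (h - g ^ l) < w h) ∧
    (∀ g ∈ Lbar k M, ¬ v (h - g ^ l) < v h)

section main

variable {p : ℕ} [hp : Fact p.Prime] {k : Type*} [Field k] [Algebra ℚ_[p] k]
  [FiniteDimensional ℚ_[p] k] {K : Type*} [Field K] [Algebra k K] [Algebra (RatFunc k) K]
  [IsScalarTower k (RatFunc k) K] [FiniteDimensional (RatFunc k) K]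


/-- **LIFT-L**: vertex data give `LiftOut`. -/
theorem liftOut {P : Valuation (AlgebraicClosure K) ℝ≥0} {x : K} {η : ℝ≥0}
    {C : IntermediateField k (AlgebraicClosure K)} {π q c : AlgebraicClosure K} {R : ℝ≥0}
    {v : Valuation (AlgebraicClosure K) ℝ≥0} {M : IntermediateField K (AlgebraicClosure K)}
    {l : ℕ} {Y : AlgebraicClosure K} (hD : VData p k K P x η C π q c R v M l Y) :
    LiftOut p k K C ((algebraMap K (AlgebraicClosure K) x - q) / c) v M l := by
  haveI : CharZero k := charZero_of_injective_algebraMap (algebraMap ℚ_[p] k).injective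
  haveI := hD.finC
  haveI := hD.finM
  have hCD : C ≤ algebraicClosure k (AlgebraicClosure K) := by
    intro c hc
    have h1 : IsIntegral k (⟨c, hc⟩ : C) := Algebra.IsIntegral.isIntegral _
    exact mem_algebraicClosure_iff.2 (h1.map C.val).isAlgebraic
  haveI : IsAlgClosed (algebraicClosure k (AlgebraicClosure K)) := IsAlgClosure.isAlgClosed k
  have htM : (algebraMap K (AlgebraicClosure K) x - q) / c ∈ M :=
    div_mem (sub_mem (M.algebraMap_mem x) (hD.CM _ hD.qC)) (hD.CM _ hD.cC)
  have hpl : p.Coprime l := (Nat.coprime_primes hp.out hD.lprime).2 hD.lp.symm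
  have hV1 := hD.V1
  have hV2 := hD.V2
  have key : ∀ (U : IntermediateField K (AlgebraicClosure K)) (hU : Lbar k M = U) (hY : Y ∈ U),
      ∀ A : ValuationSubring U, (∀ a ∈ A, v (a : AlgebraicClosure K) ≤ 1) →
        ∃ g : U, g ≠ 0 ∧ A.valuation (⟨Y, hY⟩ * g ^ l) = 1 := by
    intro U hU hY
    subst hU
    exact hV1
  obtain ⟨C1, h, hU, h1, h2, -, h3, h4, h5, h6⟩ :=
    liftV_aux (M := M) hD.hv hCD (fun w hw c => cst_unique hD.hv hw c c.2) htM
      (isG_closure hCD hD.gauss) hD.lprime.ne_zero hpl (z := Y)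
      (le_lv M (algebraicClosure k (AlgebraicClosure K)) hD.YM) hD.vY
      (key _ (Lbar_eq_lv M) _) (by rw [← Lbar_eq_lv]; exact hV2)
  exact ⟨C1, h, hU, h1, h2, h3, h4, h5, by rw [Lbar_eq_lv]; exact h6⟩

end main

end Crest.Agent.R013.LiftOut_168
end

-- ▼ part R013/TopL_803
section

/-!
# Row 13, part B: `LiftP` is a theorem (168's `liftOut`)
-/

set_option autoImplicit false

namespace Crest.Agent.R013.TopL_803

open Crest.Agent.R013.TopB_803

/-- **LIFT-L** for vertex data. -/
theorem liftP (p : ℕ) [Fact p.Prime] : LiftP p := by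
  intro k _ _ _ K _ _ _ _ _ P x hP hx η hη C π q c R v M l Y hV
  exact LiftOut_168.liftOut hV

end Crest.Agent.R013.TopL_803
end

-- ▼ part R013/TopM_803
section

/-!
# Row 13, part B: B-MAIN from the end step
-/

set_option autoImplicit false

namespace Crest.Agent.R013.TopM_803

open Crest.Agent.R013.TopB_803 Crest.Agent.R013.VData_803

/-- **B-MAIN from the end step.** -/
theorem bMain_of_end {p : ℕ} [Fact p.Prime] (h : EndP p) : BMain p :=
  bMain_of (TopL_803.liftP p) (TopN_803.nbP p) h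

end Crest.Agent.R013.TopM_803
end

-- ▼ part R013/LemT6_874
section

/-!
# Lemma T (task A-T of row 13), part 6: `TameAt` from 512's `TauData`.
-/

set_option autoImplicit false

namespace Crest.Agent.R013.LemT_874

open Crest.Agent.R013.Fp4_831 Crest.Agent.R013.Tau1_512 Crest.Agent.R013.Tau5_512
open scoped NNReal

section Abstract

variable {k Ω : Type*} [Field k] [Field Ω] [Algebra k Ω] [IsGalois k Ω] {w : Valuation Ω ℝ≥0} {l : ℕ}
  {ϖ : k} {P : Subgroup (Ω ≃ₐ[k] Ω)} {τ φ : Ω ≃ₐ[k] Ω} {vp : ℕ → Ω}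

omit [IsGalois k Ω] in
/-- elements of the closure of `⟨τ⟩` have trivial `l^n`-th powers modulo `N` as soon as `τ` has. -/
theorem pow_mem_of_Cl (N : OpenNormalSubgroup (Ω ≃ₐ[k] Ω)) {n : ℕ} (hn : τ ^ l ^ n ∈ N)
    {c : Ω ≃ₐ[k] Ω} (hc : c ∈ Cl τ) : c ^ l ^ n ∈ N := by
  have h1 : c ∈ closure (Subgroup.zpowers τ : Set (Ω ≃ₐ[k] Ω)) := hc
  have hN : IsOpen ((N : Subgroup (Ω ≃ₐ[k] Ω)) : Set (Ω ≃ₐ[k] Ω)) := N.isOpen
  have h2 : IsOpen ((fun x => c⁻¹ * x) ⁻¹' ((N : Subgroup (Ω ≃ₐ[k] Ω)) : Set (Ω ≃ₐ[k] Ω))) :=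
    hN.preimage (continuous_const_mul c⁻¹)
  obtain ⟨x, hx1, hx2⟩ := mem_closure_iff.mp h1 _ h2 (by
    change c⁻¹ * c ∈ (N : Subgroup (Ω ≃ₐ[k] Ω))
    rw [inv_mul_cancel]
    exact one_mem _)
  obtain ⟨i, rfl⟩ := Subgroup.mem_zpowers_iff.mp hx2
  have hx1' : c⁻¹ * τ ^ i ∈ (N : Subgroup (Ω ≃ₐ[k] Ω)) := hx1
  have hnorm : (N : Subgroup (Ω ≃ₐ[k] Ω)).Normal := N.isNormal'
  have h3 : (QuotientGroup.mk c : (Ω ≃ₐ[k] Ω) ⧸ (N : Subgroup (Ω ≃ₐ[k] Ω))) =
      QuotientGroup.mk (τ ^ i) := QuotientGroup.eq.mpr hx1'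
  have h4 : (QuotientGroup.mk (c ^ l ^ n) : (Ω ≃ₐ[k] Ω) ⧸ (N : Subgroup (Ω ≃ₐ[k] Ω))) = 1 := by
    rw [QuotientGroup.mk_pow, h3, ← QuotientGroup.mk_pow, ← zpow_natCast (τ ^ i) (l ^ n), ← zpow_mul,
      mul_comm, zpow_mul, zpow_natCast, QuotientGroup.mk_zpow,
      (QuotientGroup.eq_one_iff _).mpr (show τ ^ l ^ n ∈ (N : Subgroup (Ω ≃ₐ[k] Ω)) from hn),
      one_zpow]
  exact (QuotientGroup.eq_one_iff _).mp h4

theorem conj_of_tauData [IsAlgClosed Ω] [CharZero Ω] (H : TauData w l ϖ P τ φ vp) (hl : l.Prime)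
    (hP : IsProl l P) (U : Subgroup (Ω ≃ₐ[k] Ω)) (hU : IsOpen (U : Set (Ω ≃ₐ[k] Ω))) :
    ∃ g ∈ U, ∃ B : ℕ, ∀ N : OpenNormalSubgroup (Ω ≃ₐ[k] Ω), ∃ e : ℕ,
      ¬ ((l ^ B : ℕ) : ℤ) ∣ (e : ℤ) - 1 ∧ (τ ^ e)⁻¹ * (g * τ * g⁻¹) ∈ N := by
  obtain ⟨m, hm, -, hmU⟩ := Subgroup.exists_pow_mem_of_index_ne_zero
    (index_ne_zero_of_isOpen U hU) φ
  obtain ⟨B, z, hz, hgz⟩ := H.phi_pow m hm
  set g := φ ^ m with hg
  have hgP : g ∈ P := P.pow_mem H.phi_mem m
  refine ⟨g, hmU, B, fun N => ?_⟩
  obtain ⟨r, hr⟩ := hP τ H.tau_mem N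
  set n := max B r with hn
  have hnr : τ ^ l ^ n ∈ N := by
    have h1 : l ^ n = l ^ r * l ^ (n - r) := by rw [← pow_add]; congr 1; omega
    rw [h1, pow_mul]
    exact pow_mem hr _
  have hln : 0 < l ^ n := pow_pos hl.pos n
  have hne : NeZero ((l ^ n : ℕ) : Ω) := ⟨Nat.cast_ne_zero.mpr hln.ne'⟩
  have hne' : NeZero (l ^ n) := ⟨hln.ne'⟩
  obtain ⟨ξ, hξ⟩ := HasEnoughRootsOfUnity.exists_primitiveRoot Ω (l ^ n)
  obtain ⟨a, -, ha⟩ := hξ.eq_pow_of_pow_eq_one (ξ := g ξ)
    (by rw [← map_pow, hξ.pow_eq_one, map_one])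
  have hga : ∀ x : Ω, x ^ l ^ n = 1 → g x = x ^ a := by
    intro x hx
    obtain ⟨i, -, rfl⟩ := hξ.eq_pow_of_pow_eq_one hx
    rw [map_pow, ← ha, ← pow_mul, ← pow_mul, mul_comm]
  obtain ⟨c, hc, e⟩ := H.conj_eq g hgP a n hga
  refine ⟨a, fun hdvd => hgz ?_, ?_⟩
  · have hzn : z ^ l ^ n = 1 := by
      have h1 : l ^ n = l ^ B * l ^ (n - B) := by rw [← pow_add]; congr 1; omega
      rw [h1, pow_mul, hz, one_pow]
    have hz0 : z ≠ 0 := by
      rintro rfl
      rw [zero_pow (pow_pos hl.pos B).ne'] at hz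
      exact zero_ne_one hz
    rw [hga z hzn]
    obtain ⟨q, hq⟩ := hdvd
    have h2 : z ^ ((a : ℤ) - 1) = 1 := by
      rw [hq, zpow_mul, zpow_natCast, hz, one_zpow]
    have h3 : z ^ (a : ℤ) = z := by
      have : (a : ℤ) = ((a : ℤ) - 1) + 1 := by ring
      rw [this, zpow_add₀ hz0, h2, zpow_one, one_mul]
    rwa [zpow_natCast] at h3
  · rw [e, ← mul_assoc, inv_mul_cancel, one_mul]
    exact pow_mem_of_Cl N hnr hc

end Abstract

section Inst

open Crest.NumberTheoryR.Sect

variable {k : Type*} [Field k] {K : Type*} [Field K] [Algebra k K]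
  [IsGalois k (constField k K)] [IsAlgClosed (constField k K)] [CharZero (constField k K)]
  {w : Valuation (constField k K) ℝ≥0} {l : ℕ}
  {ϖ : k} {P : Subgroup (ConstGal k K)} {τ φ : ConstGal k K} {vp : ℕ → constField k K}

/-- **`TameAt` from `TauData`.** -/
theorem tameAt_of_tauData (H : TauData w l ϖ P τ φ vp) (hl : l.Prime)
    (hwl : w (l : constField k K) = 1) (hP : IsProl l P) : TameAt l τ where
  mu n z hz := by
    refine H.tau_MU z ⟨l ^ n, pow_pos hl.pos n, ?_, hz⟩
    rw [Nat.cast_pow, map_pow, hwl, one_pow]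
  conj U hU := conj_of_tauData H hl hP U hU

end Inst

end Crest.Agent.R013.LemT_874
end

-- ▼ part R013/Tau7_512
section

/-!
# A-TAU, part 7: the instance for `ConstGal k K`   (row 13, helper512)

* `isAlgClosed_constField`, `isAlgClosure_constField`;
* `exists_const`: for a valuation `W` of `constField k K` extending the norm of `ℚ_p`, one
  uniformiser `ϖ` of `k`, and for every prime `l ≠ p` data `P, τ, φ, vp` with
  `TauData W l ϖ P τ φ vp` and 349's `GalIn l P τ`;
* `exists_root_mod` : approximate roots in a subfield containing the roots of unity of unit order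
  (337's `hC`).
-/

set_option autoImplicit false
set_option linter.unusedSectionVars false
set_option linter.style.haveILetI false

open scoped NNReal
open Crest.NumberTheoryR.Sect
open Crest.Agent.R013
open Crest.Agent.R013.Fp4_831
open Crest.Agent.R013.Tau1_512
open Crest.Agent.R013.Tau2_512
open Crest.Agent.R013.Clause1_97 Crest.Agent.R013.MaxUnr_97

namespace Crest.Agent.R013.Tau7_512

section Root

variable {Ω : Type*} [Field Ω] {w : Valuation Ω ℝ≥0}

lemma w_eval_sub_le {P : Polynomial Ω} (hP : ∀ i, w (P.coeff i) ≤ 1) {a b : Ω} (ha : w a ≤ 1)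
    (hb : w b ≤ 1) : w (P.eval a - P.eval b) ≤ w (a - b) := by
  rw [Polynomial.eval_eq_sum_range, Polynomial.eval_eq_sum_range, ← Finset.sum_sub_distrib]
  apply w.map_sum_le
  intro i _
  rw [← mul_sub, map_mul]
  refine (mul_le_of_le_one_left zero_le (hP i)).trans ?_
  have h1 : a ^ i - b ^ i = (∑ j ∈ Finset.range i, a ^ j * b ^ (i - 1 - j)) * (a - b) :=
    ((Commute.all a b).geom_sum₂_mul i).symm
  rw [h1, map_mul]
  refine mul_le_of_le_one_left zero_le ?_
  apply w.map_sum_le
  intro j _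
  rw [map_mul, map_pow, map_pow]
  exact mul_le_one' (pow_le_one₀ zero_le ha) (pow_le_one₀ zero_le hb)

/-- roots of monic integral polynomials are integral -/
lemma w_root_le {P : Polynomial Ω} (hm : P.Monic) (hP : ∀ i, w (P.coeff i) ≤ 1) {a : Ω}
    (ha : P.eval a = 0) : w a ≤ 1 := by
  by_contra hcon
  push Not at hcon
  have h0 : P.natDegree ≠ 0 := by
    intro h
    rw [Polynomial.eq_C_of_natDegree_eq_zero h, Polynomial.eval_C] at ha
    have h1 := hm.coeff_natDegree
    rw [h, ha] at h1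
    exact zero_ne_one h1
  have h1 : a ^ P.natDegree = -∑ i ∈ Finset.range P.natDegree, P.coeff i * a ^ i := by
    rw [Polynomial.eval_eq_sum_range, Finset.sum_range_succ, hm.coeff_natDegree, one_mul] at ha
    exact eq_neg_of_add_eq_zero_right ha
  have hwa : 0 < w a := zero_lt_one.trans hcon
  have h2 : w (a ^ P.natDegree) < w a ^ P.natDegree := by
    rw [h1, Valuation.map_neg]
    apply w.map_sum_lt (pow_ne_zero _ hwa.ne')
    intro i hi
    rw [map_mul, map_pow]
    refine (mul_le_of_le_one_left zero_le (hP i)).trans_lt ?_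
    exact pow_lt_pow_right₀ hcon (Finset.mem_range.1 hi)
  rw [map_pow] at h2
  exact lt_irrefl _ h2

/-- **Approximate roots.** `C` any field containing the roots of unity of unit order. -/
theorem exists_root_mod [IsAlgClosed Ω] (hres : ∀ x : Ω, w x = 1 → ∃ z ∈ MU w, w (x - z) < 1)
    {C : Type*} [Field C] [Algebra C Ω] (hC : ∀ z ∈ MU w, z ∈ Set.range (algebraMap C Ω))
    (P : Polynomial C) (hm : P.Monic) (hd : P.natDegree ≠ 0)
    (hP : ∀ i, w (algebraMap C Ω (P.coeff i)) ≤ 1) :
    ∃ c : C, w (algebraMap C Ω c) ≤ 1 ∧ w (algebraMap C Ω (P.eval c)) < 1 := by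
  set Q := P.map (algebraMap C Ω) with hQ
  have hQm : Q.Monic := hm.map _
  have hQc : ∀ i, w (Q.coeff i) ≤ 1 := fun i => by rw [hQ, Polynomial.coeff_map]; exact hP i
  obtain ⟨α, hα⟩ := IsAlgClosed.exists_root Q (by
    rw [hQ, Polynomial.degree_map]
    intro h
    exact hd (Polynomial.natDegree_eq_of_degree_eq_some h))
  have hα0 : Q.eval α = 0 := hα
  have hα1 := w_root_le hQm hQc hα0
  have heval : ∀ c : C, algebraMap C Ω (P.eval c) = Q.eval (algebraMap C Ω c) := by
    intro c
    rw [hQ, Polynomial.eval_map, Polynomial.eval₂_at_apply]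
  rcases hα1.lt_or_eq with h | h
  · refine ⟨0, by simp, ?_⟩
    rw [heval, map_zero]
    have h1 := w_eval_sub_le hQc (a := 0) (b := α) (by simp) hα1
    rw [hα0, sub_zero, zero_sub, Valuation.map_neg] at h1
    exact h1.trans_lt h
  · obtain ⟨z, hz, hαz⟩ := hres α h
    obtain ⟨c, rfl⟩ := hC z hz
    refine ⟨c, (w_MU hz).le, ?_⟩
    rw [heval]
    have h1 := w_eval_sub_le hQc (w_MU hz).le hα1
    rw [hα0, sub_zero, Valuation.map_sub_swap] at h1
    exact h1.trans_lt hαz

end Root

section Const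

variable {p : ℕ} [Fact p.Prime] {k : Type*} [Field k] [Algebra ℚ_[p] k] [FiniteDimensional ℚ_[p] k]
  {K : Type*} [Field K] [Algebra k K] [CharZero k] [Algebra (RatFunc k) K]
  [IsScalarTower k (RatFunc k) K] [FiniteDimensional (RatFunc k) K]

omit [FiniteDimensional ℚ_[p] k] [Algebra ℚ_[p] k] [Fact p.Prime] in
theorem isAlgClosure_constField : IsAlgClosure k (constField k K) := by
  have halg : Algebra.IsAlgebraic k (constField k K) :=
    ⟨fun c => by
      have h := isIntegral_constField c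
      exact ((isIntegral_algebraMap_iff (algebraMap (constField k K)
        (maxUnramified k K)).injective).mp h).isAlgebraic⟩
  apply IsAlgClosure.of_splits
  intro P hPm _
  have h1 : ((P.map (algebraMap k (constField k K))).map
      (algebraMap (constField k K) (maxUnramified k K))).Splits := by
    rw [Polynomial.map_map, ← IsScalarTower.algebraMap_eq]
    exact splits_maxUnramified _
  refine Polynomial.Splits.of_splits_map (algebraMap (constField k K) (maxUnramified k K)) h1 ?_
  intro a ha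
  rw [Polynomial.map_map, ← IsScalarTower.algebraMap_eq] at ha
  have hint : IsIntegral k a := by
    rw [← isAlgebraic_iff_isIntegral]
    refine ⟨P, hPm.ne_zero, ?_⟩
    have := (Polynomial.mem_roots'.mp ha).2
    rwa [Polynomial.IsRoot, Polynomial.eval_map, ← Polynomial.aeval_def] at this
  exact ⟨⟨a, mem_constField hint⟩, rfl⟩

omit [FiniteDimensional ℚ_[p] k] [Algebra ℚ_[p] k] [Fact p.Prime] in
theorem isAlgClosed_constField : IsAlgClosed (constField k K) :=
  (isAlgClosure_constField (k := k) (K := K)).isAlgClosed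

/-- **A-TAU for `ConstGal k K`.** `W` = any valuation of `constField k K` extending the norm of
`ℚ_p`. -/
theorem exists_const (W : Valuation (constField k K) ℝ≥0)
    (hW : ∀ q : ℚ_[p], W (APt_349.iQ p k (constField k K) q) = ‖q‖₊) :
    ∃ ϖ : k, ∀ l : ℕ, l.Prime → l ≠ p → Hyp k W l ϖ ∧
      ∃ (P : Subgroup (ConstGal k K)) (τ φ : ConstGal k K) (vp : ℕ → constField k K),
        IsCoSylow l P ∧ IsProl l P ∧ Tau5_512.TauData W l ϖ P τ φ vp ∧ AAsm_349.GalIn l P τ := by
  have hcl : IsAlgClosure k (constField k K) := isAlgClosure_constField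
  have hacl : IsAlgClosed (constField k K) := hcl.isAlgClosed
  have halg : Algebra.IsAlgebraic k (constField k K) := hcl.isAlgebraic
  letI : Algebra ℚ_[p] (constField k K) := (APt_349.iQ p k (constField k K)).toAlgebra
  have : IsScalarTower ℚ_[p] k (constField k K) := IsScalarTower.of_algebraMap_eq fun _ => rfl
  obtain ⟨ϖ, h⟩ := Tau6_512.exists_padic (k := k) (Ω := constField k K) (w := W) hW
  refine ⟨ϖ, fun l hl hlp => ?_⟩
  obtain ⟨H, P, τ, φ, vp, hco, hP, hT⟩ := h l hl hlp
  refine ⟨H, P, τ, φ, vp, hco, hP, hT, hl, ⟨hco.closed, hco.not_dvd⟩, hP τ hT.tau_mem, ?_⟩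
  intro g hg
  have h1 := hT.conj_mem g⁻¹ (inv_mem hg)
  rw [inv_inv] at h1
  exact h1


end Const

end Crest.Agent.R013.Tau7_512
end

-- ▼ part R013/AEFin_854
section

/-!
# Row 13, A-E: the final form of `ETau`, and `PartA`.

* `p1Stmt_of_ring` : 622's `P1Stmt` (hypothesis on points) from its form with a hypothesis on
  valuation rings;
* `etau_tauData` : `ETau p s τ` from 622's `P1Stmt` and 512's data;
* `partA_of` : 349's `PartA` from `P1Stmt` and `UTau`.
-/

set_option autoImplicit false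
set_option linter.unusedVariables false

noncomputable section

namespace Crest.Agent.R013.AEFin_854

open Crest.NumberTheoryR.Sect
open Crest.Agent.R013 Crest.Agent.R013.Fp4_831 Crest.Agent.R013.Tau2_512
  Crest.Agent.R013.Tau5_512 Crest.Agent.R013.LemT_874 Crest.Agent.R013.A2b_275
  Crest.Agent.R013.One_622
open scoped NNReal ENNReal




section main

variable {p : ℕ} [Fact p.Prime] {k : Type} [Field k] [Algebra ℚ_[p] k] [FiniteDimensional ℚ_[p] k]
  {K : Type} [Field K] [Algebra k K] [Algebra (RatFunc k) K] [IsScalarTower k (RatFunc k) K]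
  [FiniteDimensional (RatFunc k) K]

/-- **(E) of #2717** from 512's data. -/
theorem etau_tauData (H1 : P1Stmt p) {W : Valuation (constField k K) ℝ≥0} {l : ℕ} {ϖ : k}
    (hlp : l ≠ p) (H : Hyp k W l ϖ) {P : Subgroup (ConstGal k K)} {τ φ : ConstGal k K}
    {vp : ℕ → constField k K} (hP : IsProl l P) (hT : TauData W l ϖ P τ φ vp)
    (s : ConstGal k K →* PiGroup k K) (hs : IsSection k K s) : AAsm_349.ETau p s τ := by
  have hchar : CharZero k := charZero_of_injective_algebraMap (algebraMap ℚ_[p] k).injective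
  have hacl : IsAlgClosed (constField k K) := Tau7_512.isAlgClosed_constField
  have hgal : IsGalois k (constField k K) := by
    have : IsAlgClosure k (constField k K) := Tau7_512.isAlgClosure_constField
    exact IsAlgClosure.isGalois k (constField k K)
  have hchar' : CharZero (constField k K) :=
    charZero_of_injective_algebraMap (algebraMap k (constField k K)).injective
  have hl := H.prime
  have hv0 : vp 1 ^ l = algebraMap k _ ϖ := by rw [hT.vp_succ 0, hT.vp_zero]
  have hne : vp 1 ≠ 0 := by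
    intro h
    rw [h, zero_pow hl.ne_zero] at hv0
    exact H.pi_ne ((map_eq_zero _).mp hv0.symm)
  refine AEAsm_854.etau (one_of_p1 H1) l hl hlp s hs (tameAt_of_tauData hT hl H.wl hP)
    (hP τ hT.tau_mem) (vp 1) hne ϖ hv0 ?_
  intro h
  have h1 := hT.vp_prim 1
  rw [h, div_self hne, pow_one] at h1
  exact hl.one_lt.ne' (h1.unique IsPrimitiveRoot.one)

/-- What `A-U` (helper337) has to deliver. -/
def UIn (p : ℕ) [Fact p.Prime] (k : Type) [Field k] [Algebra ℚ_[p] k] (K : Type) [Field K]
    [Algebra k K] : Prop :=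
  ∀ (W : Valuation (constField k K) ℝ≥0)
    (_ : ∀ q : ℚ_[p], W (APt_349.iQ p k (constField k K) q) = ‖q‖₊) (l : ℕ) (_ : l.Prime)
    (_ : l ≠ p) (_ : l ≠ 2) (ϖ : k) (_ : Hyp k W l ϖ) (P : Subgroup (ConstGal k K))
    (τ φ : ConstGal k K) (vp : ℕ → constField k K) (_ : IsCoSylow l P) (_ : IsProl l P)
    (_ : TauData W l ϖ P τ φ vp) (s : ConstGal k K →* PiGroup k K) (_ : IsSection k K s),
    AAsm_349.UTau p s l τ

/-- **`PartA`** from (P1) and (U'). -/
theorem partA_of (H1 : P1Stmt p) (HU : UIn p k K) : AAsm_349.PartA p k K := by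
  have hchar : CharZero k := charZero_of_injective_algebraMap (algebraMap ℚ_[p] k).injective
  have hcl : IsAlgClosure k (constField k K) := Tau7_512.isAlgClosure_constField
  have halg : Algebra.IsAlgebraic k (constField k K) := hcl.isAlgebraic
  obtain ⟨W, hW⟩ := APt_349.exists_W (p := p) (k := k) (L := constField k K)
  obtain ⟨ϖ, h⟩ := Tau7_512.exists_const W hW
  obtain ⟨l, hl1, hl⟩ := Nat.exists_infinite_primes (p + 3)
  have hlp : l ≠ p := by omega
  have hl2 : l ≠ 2 := by omega
  obtain ⟨H, P, τ, φ, vp, hco, hP, hT, hG⟩ := h l hl hlp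
  exact ⟨l, P, τ, hG, fun s hs => ⟨etau_tauData H1 hlp H hP hT s hs,
    HU W hW l hl hlp hl2 ϖ H P τ φ vp hco hP hT s hs⟩⟩

end main

end Crest.Agent.R013.AEFin_854
end
end

-- ▼ part R013/UA1_854
section

/-!
# Row 13, A-U, assembly (S) of helper337 #4015, part 1: auxiliary facts.

* `pt_const` : values of a point at constants;
* `exists_pow_fix` : elements of the image of a pro-`l` element have `l`-power orbits;
* `isAlgebraic_top` : `AlgebraicClosure K` is algebraic over `k₁(X)`.
-/

set_option autoImplicit false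
set_option linter.unusedVariables false
set_option linter.unusedSectionVars false
set_option linter.style.haveILetI false

noncomputable section

namespace Crest.Agent.R013.UAsm_854

open Crest.NumberTheoryR.Sect
open Crest.Agent.R013 Crest.Agent.R013.Fp4_831 Crest.Agent.R013.Tau2_512
  Crest.Agent.R013.Tau5_512 Crest.Agent.R013.A2b_275
open scoped NNReal ENNReal IntermediateField

section const

variable {p : ℕ} [Fact p.Prime] {k : Type*} [Field k] [Algebra ℚ_[p] k] [FiniteDimensional ℚ_[p] k]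
  {K : Type*} [Field K] [Algebra k K]

/-- values of a point at constants -/
theorem pt_const {φ : maxUnramified k K → ℝ≥0∞} (h : IsPt p k (maxUnramified k K) φ)
    {W : Valuation (constField k K) ℝ≥0}
    (hW : ∀ q : ℚ_[p], W (APt_349.iQ p k (constField k K) q) = ‖q‖₊)
    [Algebra.IsAlgebraic k (constField k K)] (c : constField k K) :
    φ (c : maxUnramified k K) = W c := by
  letI : Algebra ℚ_[p] (maxUnramified k K) :=
    ((algebraMap k (maxUnramified k K)).comp (algebraMap ℚ_[p] k)).toAlgebra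
  haveI : IsScalarTower ℚ_[p] k (maxUnramified k K) := IsScalarTower.of_algebraMap_eq fun _ => rfl
  have hfin : ∀ c : constField k K, φ (c : maxUnramified k K) ≠ ∞ := by
    intro c
    refine h.ne_top_of_isIntegral ?_
    letI : Algebra ℚ_[p] (constField k K) := (APt_349.iQ p k (constField k K)).toAlgebra
    haveI : IsScalarTower ℚ_[p] k (constField k K) := IsScalarTower.of_algebraMap_eq fun _ => rfl
    haveI : Algebra.IsAlgebraic ℚ_[p] (constField k K) := Algebra.IsAlgebraic.trans ℚ_[p] k _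
    have h1 : IsIntegral ℚ_[p] c := (Algebra.IsAlgebraic.isAlgebraic c).isIntegral
    have h2 : (algebraMap ℚ_[p] (maxUnramified k K)) =
        (algebraMap (constField k K) (maxUnramified k K)).comp
          (algebraMap ℚ_[p] (constField k K)) := rfl
    obtain ⟨P, hP, hPc⟩ := h1
    refine ⟨P, hP, ?_⟩
    rw [h2]
    have h3 := Polynomial.hom_eval₂ P (algebraMap ℚ_[p] (constField k K))
      (algebraMap (constField k K) (maxUnramified k K)) c
    rw [hPc, map_zero] at h3
    exact h3.symm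
  have h' : IsPt p k (constField k K) (fun c => φ (c : maxUnramified k K)) :=
    { add := fun a b => h.add _ _
      mul := fun a b h1 h2 => h.mul _ _ h1 h2
      inv := fun a ha => h.inv _ (by simpa using ha)
      ext := fun q => h.ext q }
  have h1 := APt_349.W_unique (p := p) (k := k) (L := constField k K)
    (W := h'.toValuation hfin) (W' := W) (fun q => by
      have h2 := h'.coe_toValuation hfin (APt_349.iQ p k (constField k K) q)
      have h3 := h'.ext q
      exact_mod_cast h2.trans h3) hW c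
  rw [← h'.coe_toValuation hfin c, h1]

end const

section orbit

variable {k : Type*} [Field k] {K : Type*} [Field K] [Algebra k K]

theorem exists_pow_fix (s : ConstGal k K →* PiGroup k K) (hs : IsSection k K s) {l : ℕ}
    {t : ConstGal k K} (hpro : ∀ N : OpenNormalSubgroup (ConstGal k K), ∃ n : ℕ, t ^ (l ^ n) ∈ N)
    [IsGalois k (constField k K)] (a : maxUnramified k K) : ∃ n : ℕ, ((s t) ^ (l ^ n)) a = a := by
  let U : Subgroup (ConstGal k K) := (MulAction.stabilizer (PiGroup k K) a).comap s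
  have hU : IsOpen (U : Set (ConstGal k K)) := by
    have h1 : IsOpen ((MulAction.stabilizer (PiGroup k K) a : Subgroup (PiGroup k K)) :
        Set (PiGroup k K)) := stabilizer_isOpen_of_isIntegral (K := K) a
    exact h1.preimage hs.1
  obtain ⟨N, hN⟩ := Fp4_831.exists_openNormal_le U hU
  obtain ⟨n, hn⟩ := hpro N
  refine ⟨n, ?_⟩
  have h2 : t ^ (l ^ n) ∈ U := hN hn
  have h3 : s (t ^ (l ^ n)) • a = a := h2
  rw [map_pow] at h3
  exact h3

end orbit

section alg

variable {k : Type*} [Field k] {K : Type*} [Field K] [Algebra k K] [CharZero k]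
  [Algebra (RatFunc k) K] [IsScalarTower k (RatFunc k) K] [FiniteDimensional (RatFunc k) K]

/-- `AlgebraicClosure K` is algebraic over `k₁(X)`. -/
theorem isAlgebraic_top (k₁ : IntermediateField k (maxUnramified k K)) (X : maxUnramified k K)
    (hX : Transcendental k X) : Algebra.IsAlgebraic k₁⟮X⟯ (AlgebraicClosure K) := by
  let L : IntermediateField K (maxUnramified k K) := K⟮X⟯
  have hfd : FiniteDimensional K L :=
    IntermediateField.adjoin.finiteDimensional (Algebra.IsIntegral.isIntegral _)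
  have h2 : IsScalarTower (RatFunc k) K L := inferInstance
  have h0 : IsScalarTower k L (maxUnramified k K) := IsScalarTower.of_algebraMap_eq fun _ => rfl
  have h1 : IsScalarTower k (RatFunc k) L := by
    refine IsScalarTower.of_algebraMap_eq fun c => ?_
    rw [IsScalarTower.algebraMap_apply (RatFunc k) K L,
      ← IsScalarTower.algebraMap_apply k (RatFunc k) K, ← IsScalarTower.algebraMap_apply k K L]
  have h3 : FiniteDimensional (RatFunc k) L := FiniteDimensional.trans (RatFunc k) K L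
  let XL : L := ⟨X, IntermediateField.mem_adjoin_simple_self K X⟩
  have hXL : Transcendental k XL := by
    intro h
    obtain ⟨P, hP0, hP⟩ := h
    refine hX ⟨P, hP0, ?_⟩
    have := congrArg (algebraMap L (maxUnramified k K)) hP
    rw [map_zero, ← Polynomial.aeval_algebraMap_apply] at this
    exact this
  have h4 := One_622.finite_adjoin (k := k) XL hXL
  have h6 : Algebra.IsAlgebraic k⟮XL⟯ L := inferInstance
  have h7 : Algebra.IsAlgebraic L (AlgebraicClosure K) := by
    have h8 : Algebra.IsAlgebraic K (AlgebraicClosure K) := inferInstance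
    exact Algebra.IsAlgebraic.tower_top (K := K) L
  have h5 : Algebra.IsAlgebraic k⟮XL⟯ (AlgebraicClosure K) := Algebra.IsAlgebraic.trans k⟮XL⟯ L _
  have hmem : ∀ a : k⟮XL⟯, ((a : L) : maxUnramified k K) ∈ k₁⟮X⟯ := by
    intro a
    have h8 : k⟮XL⟯ ≤ ((k₁⟮X⟯).restrictScalars k).comap (L.val.restrictScalars k) := by
      rw [IntermediateField.adjoin_simple_le_iff]
      exact IntermediateField.mem_adjoin_simple_self k₁ X
    exact h8 a.2
  let g : k⟮XL⟯ →+* k₁⟮X⟯ :=
    ((algebraMap L (maxUnramified k K)).comp (algebraMap k⟮XL⟯ L)).codRestrict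
      (k₁⟮X⟯).toSubfield hmem
  exact ⟨fun a => U6_337.isAlgebraic_mono g (fun _ => rfl) (h5.isAlgebraic a)⟩

end alg

end Crest.Agent.R013.UAsm_854
end
end

-- ▼ part R013/UA2_854
section

/-!
# Row 13, A-U, assembly (S) of helper337 #4015, part 2: the simple extension `k₁(X)`.
-/

set_option autoImplicit false
set_option linter.unusedVariables false
set_option linter.unusedTactic false

noncomputable section

namespace Crest.Agent.R013.UAsm_854

open Polynomial
open Crest.Agent.R013 Crest.Agent.R013.LiftA_168 Crest.Agent.R013.U2_337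
open scoped NNReal ENNReal IntermediateField

variable {k F : Type*} [Field k] [Field F] [Algebra k F] {vk : Valuation k ℝ≥0} {X : F}

/-- the Gauss norm of `X` is the Gauss norm of `X⁻¹` -/
theorem isG_inv {v : Valuation F ℝ≥0} (hv : IsG vk v X) (hX1 : v X = 1) : IsG vk v X⁻¹ := by
  have hX0 : X ≠ 0 := by rintro rfl; rw [map_zero] at hX1; exact zero_ne_one hX1
  refine ⟨hv.ext, ?_, fun f i => ?_⟩
  · rw [map_inv₀, hX1, inv_one]
  · by_cases hi : i ≤ f.natDegree
    · let _ : Invertible X⁻¹ := invertibleOfNonzero (inv_ne_zero hX0)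
      have h1 := Polynomial.eval₂_reverse_mul_pow (algebraMap k F) X⁻¹ f
      have h2 : (⅟(X⁻¹) : F) = X := by rw [invOf_eq_inv, inv_inv]
      rw [h2] at h1
      have h3 : v (aeval X⁻¹ f) = v (aeval X f.reverse) := by
        rw [aeval_def, ← h1, map_mul, map_pow, map_inv₀, hX1, inv_one, one_pow, mul_one, aeval_def]
      rw [h3]
      have h4 := hv.coeff_le f.reverse (revAt f.natDegree i)
      rwa [coeff_reverse, revAt_invol] at h4
    · rw [coeff_eq_zero_of_natDegree_lt (not_le.1 hi), map_zero]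
      exact zero_le

theorem isG_one {v : Valuation F ℝ≥0} (hv : IsG vk v X) : v X = 1 := by
  refine le_antisymm hv.le ?_
  have h1 := hv.coeff_le Polynomial.X 1
  rwa [coeff_X_one, map_one, aeval_X] at h1

section simple

variable {M : Type*} [Field M] [Algebra k M] (x : M)

open IntermediateField

theorem gen_hgen (f : k⟮x⟯) : ∃ P Q : k[X], aeval (AdjoinSimple.gen k x) Q ≠ 0 ∧
    f = aeval (AdjoinSimple.gen k x) P / aeval (AdjoinSimple.gen k x) Q := by
  have hco : ∀ P : k[X], ((aeval (AdjoinSimple.gen k x) P : k⟮x⟯) : M) = aeval x P := by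
    intro P
    have h := Polynomial.aeval_algebraMap_apply M (AdjoinSimple.gen k x) P
    rw [AdjoinSimple.algebraMap_gen] at h
    exact h.symm
  obtain ⟨P, Q, hPQ⟩ := (mem_adjoin_simple_iff k (f : M)).1 f.2
  by_cases hQ : aeval x Q = 0
  · refine ⟨0, 1, by rw [map_one]; exact one_ne_zero, ?_⟩
    apply Subtype.ext
    rw [hPQ, hQ, div_zero, map_zero, zero_div]
    rfl
  · refine ⟨P, Q, ?_, ?_⟩
    · intro h
      apply hQ
      rw [← hco, h]
      rfl
    · apply Subtype.ext
      rw [hPQ]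
      change _ = ((aeval (AdjoinSimple.gen k x) P / aeval (AdjoinSimple.gen k x) Q : k⟮x⟯) : M)
      rw [IntermediateField.coe_div, hco, hco]

theorem gen_top : k⟮AdjoinSimple.gen k x⟯ = ⊤ := by
  rw [eq_top_iff]
  intro f _
  obtain ⟨P, Q, -, h⟩ := gen_hgen x f
  exact (mem_adjoin_simple_iff k f).2 ⟨P, Q, h⟩

theorem gen_transcendental (hx : Transcendental k x) :
    Transcendental k (AdjoinSimple.gen k x) := by
  have h := (transcendental_algebraMap_iff (R := k) (A := M) (a := AdjoinSimple.gen k x)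
    (algebraMap k⟮x⟯ M).injective).1 (by rwa [AdjoinSimple.algebraMap_gen])
  exact h

end simple

end Crest.Agent.R013.UAsm_854
end
end

-- ▼ part R013/UAsm_854
section

/-!
# Row 13, A-U, assembly (S) of helper337 #4015: `UIn` from `HStmt`, `S16` and the constants of 512.
-/

set_option autoImplicit false
set_option linter.unusedVariables false
set_option linter.unusedSectionVars false

noncomputable section

namespace Crest.Agent.R013.UAsm_854

open Crest.NumberTheoryR.Sect
open Crest.Agent.R013 Crest.Agent.R013.Fp4_831 Crest.Agent.R013.Tau2_512 Crest.Agent.R013.Tau1_512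
  Crest.Agent.R013.Tau5_512 Crest.Agent.R013.A2b_275 Crest.Agent.R013.UH_337
  Crest.Agent.R013.U2_337 Crest.Agent.R013.LiftA_168
open scoped NNReal ENNReal IntermediateField
open IntermediateField

/-- **(C)** the constants fixed by `σ` (helper512). -/
def CAt (p : ℕ) [Fact p.Prime] (k : Type*) [Field k] [Algebra ℚ_[p] k] (K : Type*) [Field K]
    [Algebra k K] (W : Valuation (constField k K) ℝ≥0) (σ : PiGroup k K) : Prop :=
  ∃ (C : IntermediateField k (maxUnramified k K)) (nC : Valuation C ℝ≥0),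
    Algebra.IsAlgebraic k C ∧ (∀ c, c ∈ C ↔ IsAlgebraic k c ∧ σ c = c) ∧
    (∀ q : ℚ_[p], nC (algebraMap k C (algebraMap ℚ_[p] k q)) = ‖q‖₊) ∧
    (∀ c : C, ∀ c' : constField k K, (c' : maxUnramified k K) = c → nC c = W c') ∧
    RZ_365.ResClosed nC ∧ (∀ r : ℝ≥0, r < 1 → ∃ c, r < nC c ∧ nC c < 1)

variable {p : ℕ} [Fact p.Prime] {k : Type*} [Field k] [Algebra ℚ_[p] k] [FiniteDimensional ℚ_[p] k]
  {K : Type*} [Field K] [Algebra k K] [Algebra (RatFunc k) K] [IsScalarTower k (RatFunc k) K]
  [FiniteDimensional (RatFunc k) K]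

/-- multiplication by a constant -/
theorem pt_mul_const {φ : maxUnramified k K → ℝ≥0∞} (h : IsPt p k (maxUnramified k K) φ)
    {W : Valuation (constField k K) ℝ≥0} (hc : ∀ c : constField k K,
      φ (c : maxUnramified k K) = W c) (a : maxUnramified k K) (c : constField k K) (hc0 : c ≠ 0) :
    φ (a * c) = φ a * W c := by
  rw [h.mul a c (Or.inr (by rw [hc]; exact ENNReal.coe_ne_top))
    (Or.inl (by
      rw [hc]
      exact_mod_cast (Valuation.ne_zero_iff W).2 hc0)), hc]

theorem pt_pow {φ : maxUnramified k K → ℝ≥0∞} (h : IsPt p k (maxUnramified k K) φ)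
    (a : maxUnramified k K) (n : ℕ) : φ (a ^ n) = φ a ^ n := by
  have h1 := U1_337.pt_prod h (Finset.range n) (fun _ => a) (fun _ _ => rfl)
  rwa [Finset.prod_const, Finset.card_range] at h1

/-- the elements of `k₁(X)` are fixed -/
theorem fix_adjoin (σ : PiGroup k K) (k₁ : IntermediateField k (maxUnramified k K))
    (hk₁ : ∀ c ∈ k₁, σ c = c) {X : maxUnramified k K} (hX : σ X = X) :
    ∀ f ∈ k₁⟮X⟯, σ f = f := by
  let E : IntermediateField k₁ (maxUnramified k K) :=
    { RingHom.eqLocusField (σ : maxUnramified k K →+* maxUnramified k K) (RingHom.id _) with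
      algebraMap_mem' := fun c => hk₁ _ c.2 }
  have h : k₁⟮X⟯ ≤ E := by
    rw [adjoin_simple_le_iff]
    exact hX
  intro f hf
  exact h hf

set_option maxHeartbeats 1600000 in
/-- **The core of (U').** -/
theorem core (HS : HStmt p k K) (h16 : AAsm_349.S16 p k K)
    {W : Valuation (constField k K) ℝ≥0}
    (hW : ∀ q : ℚ_[p], W (APt_349.iQ p k (constField k K) q) = ‖q‖₊) {l : ℕ} (hlp : l ≠ p) {ϖ : k}
    (H : Hyp k W l ϖ) {P : Subgroup (ConstGal k K)} {τ φ : ConstGal k K}
    {vp : ℕ → constField k K} (hP : IsProl l P) (hT : TauData W l ϖ P τ φ vp)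
    (s : ConstGal k K →* PiGroup k K) (hs : IsSection k K s) (j : ℕ)
    (hC : CAt p k K W (s (τ ^ l ^ j))) {φ₁ φ₂ : maxUnramified k K → ℝ≥0∞}
    (h₁ : IsPt p k (maxUnramified k K) φ₁) (h₂ : IsPt p k (maxUnramified k K) φ₂)
    (i₁ : ∀ a, φ₁ (s (τ ^ l ^ j) a) = φ₁ a) (i₂ : ∀ a, φ₂ (s (τ ^ l ^ j) a) = φ₂ a)
    (x : maxUnramified k K) (hx : s (τ ^ l ^ j) x = x) (hlt : φ₁ x < φ₂ x) : False := by
  classical
  have hchar : CharZero k := charZero_of_injective_algebraMap (algebraMap ℚ_[p] k).injective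
  have hcl : IsAlgClosure k (constField k K) := Tau7_512.isAlgClosure_constField
  have hacl : IsAlgClosed (constField k K) := hcl.isAlgClosed
  have halg : Algebra.IsAlgebraic k (constField k K) := hcl.isAlgebraic
  have hgal : IsGalois k (constField k K) := IsAlgClosure.isGalois k (constField k K)
  have hl := H.prime
  set σ : PiGroup k K := s (τ ^ l ^ j) with hσdef
  have hσc : ∀ c : constField k K, σ (c : maxUnramified k K) =
      (((τ ^ l ^ j) c : constField k K) : maxUnramified k K) := hs.2 (τ ^ l ^ j)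
  have hc₁ := pt_const h₁ hW
  have hc₂ := pt_const h₂ hW
  have hinj : Function.Injective (fun c : constField k K => (c : maxUnramified k K)) :=
    Subtype.val_injective
  -- the constant `π₀`
  obtain ⟨r, hr1, hr2⟩ := ENNReal.lt_iff_exists_nnreal_btwn.1
    (ENNReal.pow_right_strictMono hl.ne_zero hlt)
  have hr1' : φ₁ x ^ l < r := hr1
  have hr2' : (r : ℝ≥0∞) < φ₂ x ^ l := hr2
  have htop : φ₁ x ^ l ≠ ∞ := (hr1'.trans ENNReal.coe_lt_top).ne
  set a : ℝ≥0 := (φ₁ x ^ l).toNNReal with ha
  have ha' : (a : ℝ≥0∞) = φ₁ x ^ l := ENNReal.coe_toNNReal htop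
  have har : a < r := by rw [← ENNReal.coe_lt_coe, ha']; exact hr1'
  obtain ⟨π₀, hπfix, hπ1, hπ2, hπ3⟩ := hT.between a r har j
  have hπ0 : π₀ ≠ 0 := by
    rintro rfl
    rw [map_zero] at hπ1
    exact absurd hπ1 (not_lt.2 zero_le)
  have hWπ0 : W π₀ ≠ 0 := (Valuation.ne_zero_iff W).2 hπ0
  obtain ⟨y, hy⟩ := IsAlgClosed.exists_pow_nat_eq π₀ hl.pos
  have hy0 : y ≠ 0 := by
    rintro rfl
    rw [zero_pow hl.ne_zero] at hy
    exact hπ0 hy.symm
  have hτy := hπ3 y hy
  -- the root of unity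
  set ζ : constField k K := y / (τ ^ l ^ j) y with hζdef
  have hτy0 : (τ ^ l ^ j) y ≠ 0 := (_root_.map_ne_zero _).2 hy0
  have hζl : ζ ^ l = 1 := by
    rw [hζdef, div_pow, ← map_pow, hy, hπfix, div_self hπ0]
  have hζ1 : ζ ≠ 1 := by
    intro h
    rw [hζdef, div_eq_one_iff_eq hτy0] at h
    exact hτy h.symm
  have hτζ : τ ζ = ζ := hT.tau_MU ζ ⟨l, hl.pos, H.wl, hζl⟩
  have hτζ' : ∀ m : ℕ, (τ ^ m) ζ = ζ := by
    intro m
    induction m with
    | zero => simp
    | succ m ih => rw [pow_succ, AlgEquiv.mul_apply, hτζ, ih]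
  -- `X`
  set X : maxUnramified k K := x ^ l * ((π₀⁻¹ : constField k K) : maxUnramified k K) with hXdef
  have hπM : (π₀ : maxUnramified k K) ≠ 0 := fun h => hπ0 (Subtype.ext h)
  have hXπ : X * (π₀ : maxUnramified k K) = x ^ l := by
    have h3 : ((π₀⁻¹ : constField k K) : maxUnramified k K) * (π₀ : maxUnramified k K) = 1 := by
      have := congrArg (Subtype.val : constField k K → maxUnramified k K) (inv_mul_cancel₀ hπ0)
      exact this
    rw [hXdef, mul_assoc, h3, mul_one]
  have hv₁ : φ₁ X = φ₁ x ^ l * (W π₀⁻¹ : ℝ≥0) := by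
    rw [hXdef, pt_mul_const h₁ hc₁ _ _ (inv_ne_zero hπ0), pt_pow h₁]
  have hv₂ : φ₂ X = φ₂ x ^ l * (W π₀⁻¹ : ℝ≥0) := by
    rw [hXdef, pt_mul_const h₂ hc₂ _ _ (inv_ne_zero hπ0), pt_pow h₂]
  have hX1 : φ₁ X < 1 := by
    rw [hv₁, ← ha', ← ENNReal.coe_mul, map_inv₀]
    have : a * (W π₀)⁻¹ < 1 := by
      rw [← div_eq_mul_inv, div_lt_one₀ (zero_lt_iff.2 hWπ0)]
      exact hπ1
    exact_mod_cast this
  have hX2 : 1 < φ₂ X := by
    have h3 : ((W π₀ : ℝ≥0) : ℝ≥0∞) < φ₂ x ^ l := lt_trans (by exact_mod_cast hπ2) hr2'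
    have h4 : (W π₀⁻¹ : ℝ≥0) ≠ 0 := (Valuation.ne_zero_iff W).2 (inv_ne_zero hπ0)
    have h5 := (ENNReal.mul_lt_mul_iff_left (c := ((W π₀⁻¹ : ℝ≥0) : ℝ≥0∞))
      (by exact_mod_cast h4) ENNReal.coe_ne_top).2 h3
    rw [hv₂]
    refine lt_of_eq_of_lt ?_ h5
    rw [← ENNReal.coe_mul, ← map_mul, mul_inv_cancel₀ hπ0, map_one, ENNReal.coe_one]
  -- transcendence
  have hxt : Transcendental k x := by
    intro h
    let c : constField k K := ⟨x, by
      change x ∈ algebraicClosure k (maxUnramified k K)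
      rw [mem_algebraicClosure_iff]
      exact h⟩
    have e1 : φ₁ x = W c := hc₁ c
    have e2 : φ₂ x = W c := hc₂ c
    rw [e1, e2] at hlt
    exact lt_irrefl _ hlt
  -- the field `k₁`
  let S : Set (maxUnramified k K) := {(π₀ : maxUnramified k K), (ζ : maxUnramified k K)}
  let k₁ : IntermediateField k (maxUnramified k K) := IntermediateField.adjoin k S
  have hconstint : ∀ c : constField k K, IsIntegral k (c : maxUnramified k K) := fun c =>
    ((halg.isAlgebraic c).isIntegral).map (constField k K).val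
  have hk₁fd : FiniteDimensional k k₁ := by
    refine IntermediateField.finiteDimensional_adjoin fun z hz => ?_
    rcases hz with rfl | hz
    · exact hconstint _
    · rw [Set.mem_singleton_iff] at hz
      rw [hz]
      exact hconstint _
  obtain ⟨C, nC, hCalg, hCmem, hCp, hCW, hCres, hCdense⟩ := hC
  have hσπ : σ (π₀ : maxUnramified k K) = π₀ := by rw [hσc, hπfix]
  have hσζ : σ (ζ : maxUnramified k K) = ζ := by rw [hσc, hτζ']
  have hk₁C : k₁ ≤ C := by
    rw [IntermediateField.adjoin_le_iff]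
    intro z hz
    rcases hz with rfl | hz
    · exact (hCmem _).2 ⟨(hconstint _).isAlgebraic, hσπ⟩
    · rw [Set.mem_singleton_iff] at hz
      rw [hz]
      exact (hCmem _).2 ⟨(hconstint _).isAlgebraic, hσζ⟩
  have hσC : ∀ c ∈ C, σ c = c := fun c hc => ((hCmem c).1 hc).2
  let π₁ : k₁ := ⟨π₀, IntermediateField.subset_adjoin k S (Or.inl rfl)⟩
  let ζ₁ : k₁ := ⟨ζ, IntermediateField.subset_adjoin k S (Or.inr rfl)⟩
  have hπ₁0 : π₁ ≠ 0 := fun h => hπM (congrArg Subtype.val h)
  have hXt : Transcendental k X := by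
    intro h
    refine hxt (IsAlgebraic.of_pow hl.pos ?_)
    rw [← hXπ]
    exact h.mul (hconstint π₀).isAlgebraic
  have hXt₁ : Transcendental k₁ X := by
    intro h
    have h3 : Algebra.IsAlgebraic k k₁ := inferInstance
    exact hXt (h.restrictScalars k)
  have hσX : σ X = X := by
    have h3 : σ X * (π₀ : maxUnramified k K) = X * π₀ := by
      rw [hXπ]
      conv_lhs => rw [← hσπ]
      rw [← map_mul, hXπ, map_pow, hx]
    exact mul_right_cancel₀ hπM h3
  -- the Gauss norm and the two rings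
  set vk : Valuation k₁ ℝ≥0 := nC.comap (IntermediateField.inclusion hk₁C).toRingHom with hvk
  set XF : k₁⟮X⟯ := AdjoinSimple.gen k₁ X with hXF
  have hXFt : Transcendental k₁ XF := gen_transcendental X hXt₁
  have hXF0 : XF ≠ 0 := by
    intro h
    rw [h] at hXFt
    exact hXFt isAlgebraic_zero
  have hgen := gen_hgen (k := k₁) X
  obtain ⟨v₀, hv₀⟩ := UQ_478.exists_isG (vk := vk) (X := XF) hXFt hgen
  obtain ⟨A₀, hA₀⟩ := UQ_478.exists_R2 (vk := vk) (X := XF) hXFt
  have hXFt' : Transcendental k₁ XF⁻¹ := by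
    intro h
    have h3 := h.inv
    rw [inv_inv] at h3
    exact hXFt h3
  obtain ⟨A₁, hA₁⟩ := UQ_478.exists_R2 (vk := vk) (X := XF⁻¹) hXFt'
  have hvX : v₀ XF = 1 := isG_one hv₀
  have hvk_const : ∀ (c : k₁) (c' : constField k K), (c' : maxUnramified k K) = c →
      vk c = W c' := by
    intro c c' hcc
    exact hCW (IntermediateField.inclusion hk₁C c) c' hcc
  -- `|ζ - 1| = 1`
  have hWζ : W ζ = 1 := w_of_pow_eq_one hl.pos hζl
  have hWζ1 : W (ζ - 1) = 1 := by
    refine le_antisymm ((Valuation.map_sub W ζ 1).trans (by rw [hWζ, map_one, max_self])) ?_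
    by_contra hcon
    rw [not_le] at hcon
    have hφl : φ₁ (l : maxUnramified k K) = 1 := by
      have h3 := hc₁ (l : constField k K)
      rw [H.wl, ENNReal.coe_one] at h3
      exact h3
    have h3 : (ζ : maxUnramified k K) = 1 := by
      refine U1_337.eq_one_of_near h₁ hl hφl ?_ ?_
      · have := congrArg (Subtype.val : constField k K → maxUnramified k K) hζl
        exact this
      · have h4 := hc₁ (ζ - 1)
        have h5 : φ₁ ((ζ : maxUnramified k K) - 1) = (W (ζ - 1) : ℝ≥0) := h4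
        rw [h5]
        exact_mod_cast hcon
    exact hζ1 (Subtype.ext h3)
  -- `σ` over `k₁(X)`
  have hσk₁ : ∀ c ∈ k₁, σ c = c := fun c hc => hσC c (hk₁C hc)
  have hσF := fix_adjoin σ k₁ hσk₁ hσX
  let τF : maxUnramified k K ≃ₐ[k₁⟮X⟯] maxUnramified k K :=
    AlgEquiv.ofRingEquiv (f := (σ : maxUnramified k K ≃+* maxUnramified k K))
      (fun f => hσF f f.2)
  have hτF : ∀ a, τF a = σ a := fun _ => rfl
  have hτFpow : ∀ (m : ℕ) (a : maxUnramified k K), (τF ^ m) a = (σ ^ m) a := by
    intro m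
    induction m with
    | zero => intro a; rfl
    | succ m ih => intro a; rw [pow_succ, pow_succ, AlgEquiv.mul_apply, AlgEquiv.mul_apply, ih, hτF]
  have hpro : ∀ a : maxUnramified k K, ∃ n, (τF ^ l ^ n) a = a := by
    intro a
    obtain ⟨n, hn⟩ := exists_pow_fix s hs (hP τ hT.tau_mem) a
    refine ⟨n, ?_⟩
    rw [hτFpow, hσdef, map_pow, ← pow_mul, mul_comm, pow_mul]
    generalize (s τ) ^ l ^ n = g at hn ⊢
    generalize l ^ j = m
    induction m with
    | zero => rfl
    | succ m ih => rw [pow_succ, AlgEquiv.mul_apply, hn, ih]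
  -- `t = x / y`
  set t : maxUnramified k K := x / (y : maxUnramified k K) with htdef
  have hyM : (y : maxUnramified k K) ≠ 0 := fun h => hy0 (Subtype.ext h)
  have hyl : (y : maxUnramified k K) ^ l = π₀ := by
    have := congrArg (Subtype.val : constField k K → maxUnramified k K) hy
    exact this
  have htl : t ^ l = X := by
    rw [htdef, div_pow, hyl, ← hXπ, mul_div_cancel_right₀ _ hπM]
  have hσy : σ (y : maxUnramified k K) * ζ = y := by
    rw [hσc]
    have h3 : (τ ^ l ^ j) y * ζ = y := by rw [hζdef, mul_div_cancel₀ _ hτy0]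
    have := congrArg (Subtype.val : constField k K → maxUnramified k K) h3
    exact this
  have hσy0 : σ (y : maxUnramified k K) ≠ 0 := (_root_.map_ne_zero _).2 hyM
  have hσt : σ t = ζ * t := by
    rw [htdef, map_div₀, hx]
    rw [div_eq_iff hσy0]
    rw [mul_comm, ← mul_assoc, hσy, mul_div_cancel₀ _ hyM]
  -- application of `rk2_false`
  have hζF : algebraMap k₁⟮X⟯ (maxUnramified k K) (algebraMap k₁ k₁⟮X⟯ ζ₁) = ζ := rfl
  have hv0const : ∀ c : k₁, v₀ (algebraMap k₁ k₁⟮X⟯ c) = vk c := hv₀.ext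
  have hXFM : algebraMap k₁⟮X⟯ (maxUnramified k K) XF = X := AdjoinSimple.algebraMap_gen k₁ X
  have hcharF : CharZero k₁⟮X⟯ :=
    charZero_of_injective_algebraMap (R := k) (algebraMap k k₁⟮X⟯).injective
  have hΩ : Algebra.IsAlgebraic k₁⟮X⟯ (AlgebraicClosure K) := isAlgebraic_top k₁ X hXt
  have hvkQ : ∀ q : ℚ_[p], vk (algebraMap k k₁ (algebraMap ℚ_[p] k q)) = ‖q‖₊ := fun q => hCp q
  refine Rk2_894.rk2_false (F := k₁⟮X⟯) (M := maxUnramified k K) (Ω := AlgebraicClosure K) v₀
    ?_ ?_ l hl τF hpro XF (algebraMap k₁ k₁⟮X⟯ ζ₁) t (by rw [htl, hXFM]) (by rw [hτF, hζF, hσt])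
    ?_ ?_ A₀ A₁ hvX hA₀.lt ?_ ?_ ?_ ?_
  · -- nontrivial
    refine ⟨algebraMap k₁ k₁⟮X⟯ (algebraMap k k₁ (algebraMap ℚ_[p] k (p : ℚ_[p])⁻¹)), ?_⟩
    have h3 : ‖((p : ℚ_[p])⁻¹)‖₊ = (p : ℝ≥0) := by
      apply NNReal.eq
      rw [coe_nnnorm, norm_inv, Padic.norm_p, inv_inv]
      rfl
    rw [hv0const, hvkQ, h3]
    exact_mod_cast (Fact.out : p.Prime).one_lt
  · -- density
    intro W' hW' a ε hε
    refine h16 (W'.comap (algebraMap K (AlgebraicClosure K))) (fun q => ?_) W' rfl a ε hε
    have h3 := hvkQ q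
    rw [← hv0const, ← hW'] at h3
    exact h3
  · -- `ζ ^ l = 1`
    rw [← map_pow]
    have h3 : ζ₁ ^ l = 1 := by
      apply Subtype.ext
      exact congrArg (Subtype.val : constField k K → maxUnramified k K) hζl
    rw [h3, map_one]
  · rw [← map_one (algebraMap k₁ k₁⟮X⟯), ← map_sub, hv0const, hvk_const (ζ₁ - 1) (ζ - 1) rfl, hWζ1]
  · have h3 := hA₁.lt
    rw [map_inv₀, inv_lt_one₀ (zero_lt_iff.2 ((Valuation.ne_zero_iff _).2 hXF0))] at h3
    exact h3
  · intro f hf
    exact hA₀.exists_zpow hgen hv₀ hf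
  · intro f hf
    obtain ⟨n, hn⟩ := hA₁.exists_zpow (U6_337.hgen_of_top (U6_337.top_inv (gen_top X)))
      (isG_inv hv₀ hvX) hf
    refine ⟨-n, ?_⟩
    rwa [inv_zpow', ] at hn
  · intro L hLfd hLfix
    by_contra hno
    obtain ⟨g, hg1, hg2, hg3⟩ := HS σ l hl hlp k₁ C hk₁fd hk₁C hCalg hσC nC hCp hCres hCdense x X π₁
      hπ₁0 hXπ hx hXt₁ v₀ A₀ A₁ hv₀ hA₀ hA₁ L hLfd hLfix hno
    obtain ⟨g₁, hg₁, n₁⟩ := hg2 φ₁ h₁ hX1
    obtain ⟨g₂, hg₂, n₂⟩ := hg3 φ₂ h₂ hX2
    have hprim : IsPrimitiveRoot (ζ : maxUnramified k K) l := by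
      have h1 : orderOf (ζ : maxUnramified k K) = l := by
        have : Fact l.Prime := ⟨hl⟩
        refine orderOf_eq_prime ?_ fun h2 => hζ1 (Subtype.ext h2)
        exact congrArg (Subtype.val : constField k K → maxUnramified k K) hζl
      rw [← h1]
      exact IsPrimitiveRoot.orderOf _
    refine U1_337.contra h₁ h₂ hl hlp (σ : maxUnramified k K ≃+* maxUnramified k K) i₁ i₂ hprim hσζ
      (H := g) (ϖ := (y : maxUnramified k K)) (g₁ := g₁) (g₂ := g₂) ?_ hg1 ?_ hg₁ hg₂ ?_ n₂
    · intro h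
      have h3 : σ (y : maxUnramified k K) = y := h
      rw [hσc] at h3
      exact hτy (Subtype.ext h3)
    · rw [hyl]; exact hσπ
    · rw [hyl]; exact n₁

/-- **(U') of #2717**, from 337's `HStmt`, S0016 and 512's constants. -/
theorem uin_of {k K : Type} [Field k] [Algebra ℚ_[p] k] [FiniteDimensional ℚ_[p] k]
    [Field K] [Algebra k K] [Algebra (RatFunc k) K] [IsScalarTower k (RatFunc k) K]
    [FiniteDimensional (RatFunc k) K] (HS : HStmt p k K) (h16 : AAsm_349.S16 p k K)
    (HC : ∀ (W : Valuation (constField k K) ℝ≥0)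
      (_ : ∀ q : ℚ_[p], W (APt_349.iQ p k (constField k K) q) = ‖q‖₊) (l : ℕ) (_ : l ≠ p) (ϖ : k)
      (_ : Hyp k W l ϖ) (P : Subgroup (ConstGal k K)) (τ φ : ConstGal k K)
      (vp : ℕ → constField k K) (_ : TauData W l ϖ P τ φ vp)
      (s : ConstGal k K →* PiGroup k K) (_ : IsSection k K s) (j : ℕ),
      CAt p k K W (s (τ ^ l ^ j))) : AEFin_854.UIn p k K := by
  intro W hW l hl hlp _ ϖ H P τ φ vp hco hP hT s hs n φ₁ φ₂ h₁ h₂ i₁ i₂
  by_contra hne
  have hchar : CharZero k := charZero_of_injective_algebraMap (algebraMap ℚ_[p] k).injective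
  have hcl : IsAlgClosure k (constField k K) := Tau7_512.isAlgClosure_constField
  have hgal : IsGalois k (constField k K) := IsAlgClosure.isGalois k (constField k K)
  have hCn := HC W hW l hlp ϖ H P τ φ vp hT s hs n
  obtain ⟨x, hx, hxne⟩ := U1_337.exists_fixed_ne h₁ h₂
    ((s (τ ^ l ^ n) : PiGroup k K) : maxUnramified k K ≃+* maxUnramified k K) (fun a => by
      obtain ⟨m, hm⟩ := exists_pow_fix s hs (hP τ hT.tau_mem) a
      refine ⟨l ^ m, pow_pos hl.pos m, ?_⟩
      have h1 : (s (τ ^ l ^ n)) ^ l ^ m = ((s τ) ^ l ^ m) ^ l ^ n := by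
        rw [map_pow, ← pow_mul, ← pow_mul, mul_comm]
      have h2 : ((s (τ ^ l ^ n)) ^ l ^ m) a = a := by
        rw [h1]
        generalize (s τ) ^ l ^ m = g at hm
        generalize l ^ n = N
        induction N with
        | zero => rfl
        | succ N ih => rw [pow_succ, AlgEquiv.mul_apply, hm, ih]
      have h3 : ∀ (N : ℕ) (b : maxUnramified k K),
          ((((s (τ ^ l ^ n) : PiGroup k K) : maxUnramified k K ≃+* maxUnramified k K)) ^ N) b =
            ((s (τ ^ l ^ n)) ^ N) b := by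
        intro N
        induction N with
        | zero => intro b; rfl
        | succ N ih =>
          intro b
          rw [pow_succ, pow_succ, RingAut.mul_apply, AlgEquiv.mul_apply, ih]
          rfl
      rw [h3, h2]) i₁ i₂ hne
  have hx' : s (τ ^ l ^ n) x = x := hx
  rcases lt_or_gt_of_ne hxne with h | h
  · exact core HS h16 hW hlp H hP hT s hs n hCn h₁ h₂ i₁ i₂ x hx' h
  · exact core HS h16 hW hlp H hP hT s hs n hCn h₂ h₁ i₂ i₁ x hx' h

end Crest.Agent.R013.UAsm_854
end
end

-- ▼ part R013/E1a_97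
section

/-! Riemann-Zariski space: compactness, coarsening by inverting an element (helper97, row 13). -/

set_option autoImplicit false

namespace Crest.Agent.R013.E1_97

variable {L : Type*} [Field L]

theorem val_lt_one_iff (O : ValuationSubring L) (x : L) :
    O.valuation x < 1 ↔ x = 0 ∨ x⁻¹ ∉ O := by
  rw [← ValuationSubring.mem_nonunits_iff, ValuationSubring.mem_nonunits_iff_or]


/-- **Compactness of the Riemann-Zariski space.** -/
theorem rzc {ι : Type*} (A B : Set L) (c : ι → L)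
    (h : ∀ O : ValuationSubring L, (∀ a ∈ A, a ∈ O) → (∀ b ∈ B, O.valuation b < 1) →
      ∃ i, O.valuation (c i) < 1) :
    ∃ (A' B' : Finset L) (s : Finset ι), (A' : Set L) ⊆ A ∧ (B' : Set L) ⊆ B ∧
      ∀ O : ValuationSubring L, (∀ a ∈ A', a ∈ O) → (∀ b ∈ B', O.valuation b < 1) →
        ∃ i ∈ s, O.valuation (c i) < 1 := by
  classical
  by_contra hcon
  push Not at hcon
  -- index set: triples of finite sets
  let J := Finset A × Finset B × Finset ι
  have hex : ∀ j : J, ∃ O : ValuationSubring L, (∀ a ∈ j.1, (a : L) ∈ O) ∧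
      (∀ b ∈ j.2.1, O.valuation (b : L) < 1) ∧ ∀ i ∈ j.2.2, 1 ≤ O.valuation (c i) := by
    intro j
    obtain ⟨O, h1, h2, h3⟩ := hcon (j.1.image Subtype.val) (j.2.1.image Subtype.val) j.2.2
      (by intro x hx; simp only [Finset.coe_image, Set.mem_image] at hx
          obtain ⟨y, _, rfl⟩ := hx; exact y.2)
      (by intro x hx; simp only [Finset.coe_image, Set.mem_image] at hx
          obtain ⟨y, _, rfl⟩ := hx; exact y.2)
    refine ⟨O, fun a ha => h1 _ (Finset.mem_image_of_mem _ ha),
      fun b hb => h2 _ (Finset.mem_image_of_mem _ hb), h3⟩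
  choose O hO1 hO2 hO3 using hex
  have : Nonempty J := ⟨(∅, ∅, ∅)⟩
  let U : Ultrafilter J := Ultrafilter.of Filter.atTop
  have hU : (U : Filter J) ≤ Filter.atTop := Ultrafilter.of_le _
  let S : Subring L :=
    { carrier := {a | ∀ᶠ j in (U : Filter J), a ∈ O j}
      mul_mem' := by
        intro a b ha hb
        simp only [Set.mem_ofPred_eq] at ha hb ⊢
        filter_upwards [ha, hb] with j h1 h2 using mul_mem h1 h2
      one_mem' := by
        simp only [Set.mem_ofPred_eq]
        exact Filter.Eventually.of_forall fun j => one_mem _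
      add_mem' := by
        intro a b ha hb
        simp only [Set.mem_ofPred_eq] at ha hb ⊢
        filter_upwards [ha, hb] with j h1 h2 using add_mem h1 h2
      zero_mem' := by
        simp only [Set.mem_ofPred_eq]
        exact Filter.Eventually.of_forall fun j => zero_mem _
      neg_mem' := by
        intro a ha
        simp only [Set.mem_ofPred_eq] at ha ⊢
        filter_upwards [ha] with j h1 using neg_mem h1 }
  have hS : ∀ a : L, a ∈ S ↔ ∀ᶠ j in (U : Filter J), a ∈ O j := fun a => Iff.rfl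
  let V : ValuationSubring L := ValuationSubring.ofSubring S (by
    intro x
    rw [hS, hS, ← Ultrafilter.eventually_or]
    exact Filter.Eventually.of_forall fun j => (O j).mem_or_inv_mem x)
  have hV : ∀ a : L, a ∈ V ↔ ∀ᶠ j in (U : Filter J), a ∈ O j := fun a => Iff.rfl
  have hV1 : ∀ a : L, V.valuation a < 1 ↔ ∀ᶠ j in (U : Filter J), (O j).valuation a < 1 := by
    intro a
    rw [val_lt_one_iff, hV, ← Ultrafilter.eventually_not]
    constructor
    · rintro (rfl | h1)
      · exact Filter.Eventually.of_forall fun j => by simp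
      · filter_upwards [h1] with j hj
        rw [val_lt_one_iff]; exact Or.inr hj
    · intro h1
      by_cases ha : a = 0
      · exact Or.inl ha
      · right
        filter_upwards [h1] with j hj
        rw [val_lt_one_iff] at hj
        exact hj.resolve_left ha
  obtain ⟨i, hi⟩ := h V (fun a ha => by
      rw [hV]
      refine hU ?_
      filter_upwards [Filter.eventually_ge_atTop (({⟨a, ha⟩}, ∅, ∅) : J)] with j hj
      exact hO1 j ⟨a, ha⟩ (hj.1 (Finset.mem_singleton_self _)))
    (fun b hb => by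
      rw [hV1]
      refine hU ?_
      filter_upwards [Filter.eventually_ge_atTop ((∅, {⟨b, hb⟩}, ∅) : J)] with j hj
      exact hO2 j ⟨b, hb⟩ (hj.2.1 (Finset.mem_singleton_self _)))
  rw [hV1] at hi
  have h2 : ∀ᶠ j in (U : Filter J), 1 ≤ (O j).valuation (c i) := by
    refine hU ?_
    filter_upwards [Filter.eventually_ge_atTop ((∅, ∅, {i}) : J)] with j hj
    exact hO3 j i (hj.2.2 (Finset.mem_singleton_self _))
  obtain ⟨j, hj1, hj2⟩ := (hi.and h2).exists
  exact absurd hj1 (not_lt.2 hj2)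


end Crest.Agent.R013.E1_97
end

-- ▼ part R013/OneP1_920
section

/-!
# Theorem (ONE), part (P1): compactness and the exceptional rings

`k` a normed field with uniformiser `π`, `L` of transcendence degree one over `k`.
`RZ` = valuation subrings `W` of `L` over the unit ball with `π ∈ m_W`.
No finiteness of the set of exceptional rings, no weak approximation: only "rank one" and
compactness (helper97's `rzc`).
-/

set_option autoImplicit false

namespace Crest.Agent.R013.OneP1_920

open Polynomial OneP2_920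

variable {L : Type*} [Field L]

/-- **one approximate root for a finite set of candidates**, arbitrary bump functions -/
theorem exists_root_gen {ι : Type*} (s : Finset ι) (u b : ι → L) (hu : ∀ i ∈ s, u i ≠ 0) {h : L}
    (h0 : h ≠ 0) {l : ℕ} (hl : 2 ≤ l) :
    ∃ a e : L, ∀ W : ValuationSubring L,
      (∀ i ∈ s, (W.valuation (h / u i ^ l - 1) < 1 → W.valuation (b i - 1) < 1) ∧
        (1 ≤ W.valuation (h / u i ^ l - 1) → W.valuation (b i) < 1 ∧
          W.valuation (b i / (1 + (h / u i ^ l - 1))) ≤ 1)) →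
      ((∃ i ∈ s, W.valuation (h / u i ^ l - 1) < 1) →
        W.valuation e < 1 ∧ W.valuation (a ^ l - h) < W.valuation h) ∧
      ((∀ i ∈ s, 1 ≤ W.valuation (h / u i ^ l - 1)) →
        W.valuation (e - 1) < 1 ∧ W.valuation a ^ l < W.valuation h) := by
  classical
  induction s using Finset.induction_on with
  | empty =>
    refine ⟨0, 1, fun W _ => ⟨?_, fun _ => ⟨?_, ?_⟩⟩⟩
    · rintro ⟨i, hi, -⟩
      exact absurd hi (Finset.notMem_empty i)
    · rw [sub_self, map_zero]; exact zero_lt_one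
    · rw [map_zero, zero_pow (by omega)]
      exact zero_lt_iff.2 ((Valuation.ne_zero_iff _).2 h0)
  | insert j s hj ih =>
    obtain ⟨a, e, hae⟩ := ih (fun i hi => hu i (Finset.mem_insert_of_mem hi))
    have huj : u j ≠ 0 := hu j (Finset.mem_insert_self _ _)
    set f := h / u j ^ l - 1 with hf
    have hfu : u j ^ l * (1 + f) = h := by
      rw [hf, add_sub_cancel, mul_div_cancel₀ _ (pow_ne_zero _ huj)]
    have h1f : 1 + f ≠ 0 := by
      intro h1; rw [h1, mul_zero] at hfu; exact h0 hfu.symm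
    refine ⟨a + e * b j * u j, e * (1 - b j), fun W hW => ?_⟩
    obtain ⟨hA, hB⟩ := hae W (fun i hi => hW i (Finset.mem_insert_of_mem hi))
    have hWj := hW j (Finset.mem_insert_self _ _)
    rw [← hf] at hWj
    have hvh : W.valuation h ≠ 0 := (Valuation.ne_zero_iff _).2 h0
    set v := W.valuation with hv
    have hble : v (b j) ≤ 1 := by
      rcases lt_or_ge (v f) 1 with h1 | h1
      · have := v_one_add v (hWj.1 h1)
        rw [add_sub_cancel] at this
        exact this.le
      · exact (hWj.2 h1).1.le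
    -- the case `f ∈ m_W`
    have hfu1 : v f < 1 → v (u j) ^ l = v h := by
      intro hlt
      rw [← hfu, map_mul, map_pow, v_one_add v hlt, mul_one]
    have hl0 : l ≠ 0 := by omega
    have hvh' : 0 < v h := zero_lt_iff.2 hvh
    have hb2 : 1 ≤ v f → v (b j) ^ l * v (u j) ^ l < v h := by
      intro h1
      obtain ⟨h2, h3⟩ := hWj.2 h1
      rw [map_div₀] at h3
      have h4 : v (1 + f) ≠ 0 := (Valuation.ne_zero_iff _).2 h1f
      have h5 : v (u j) ^ l = v h / v (1 + f) := by
        rw [eq_div_iff h4, ← map_pow, ← map_mul, hfu]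
      obtain ⟨l', rfl⟩ : ∃ l', l = l' + 1 := ⟨l - 1, by omega⟩
      rw [h5, pow_succ]
      have e1 : v (b j) ^ l' * v (b j) * (v h / v (1 + f)) =
          v (b j) ^ l' * (v (b j) / v (1 + f)) * v h := by
        rw [div_eq_mul_inv, div_eq_mul_inv]; ac_rfl
      rw [e1]
      have h6 : v (b j) ^ l' * (v (b j) / v (1 + f)) < 1 :=
        mul_lt_one_of_lt_of_le (pow_lt_one₀ zero_le h2 (by omega)) h3
      calc _ < 1 * v h := mul_lt_mul_of_pos_right h6 hvh'
        _ = v h := one_mul _
    -- the new term is small unless `e` is a unit and `f ∈ m_W`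
    have hnew2 : v e ≤ 1 → 1 ≤ v f → v (e * b j * u j) ^ l < v h := by
      intro h1 h2
      rw [map_mul, map_mul, mul_pow, mul_pow, mul_assoc]
      refine lt_of_le_of_lt ?_ (hb2 h2)
      exact mul_le_of_le_one_left zero_le (pow_le_one' h1 _)
    have hnew1 : v e < 1 → v (e * b j * u j) ^ l < v h := by
      intro h1
      rcases lt_or_ge (v f) 1 with h2 | h2
      · rw [map_mul, map_mul, mul_pow, mul_pow, hfu1 h2]
        have h6 : v e ^ l * v (b j) ^ l < 1 :=
          mul_lt_one_of_lt_of_le (pow_lt_one₀ zero_le h1 hl0) (pow_le_one' hble _)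
        calc _ < 1 * v h := mul_lt_mul_of_pos_right h6 hvh'
          _ = v h := one_mul _
      · exact hnew2 h1.le h2
    by_cases hex : ∃ i ∈ s, v (h / u i ^ l - 1) < 1
    · obtain ⟨he, ha⟩ := hA hex
      refine ⟨fun _ => ⟨?_, ?_⟩, fun hall => ?_⟩
      · rw [map_mul]
        refine mul_lt_one_of_lt_of_le he ?_
        exact (v.map_sub _ _).trans (max_le (by rw [map_one]) hble)
      · refine close_pow v h0 ha hl0 ?_
        rw [add_sub_cancel_left]
        exact hnew1 he
      · obtain ⟨i, hi, hi'⟩ := hex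
        exact absurd hi' (not_lt.2 (hall i (Finset.mem_insert_of_mem hi)))
    · push Not at hex
      obtain ⟨he, ha⟩ := hB hex
      have he1 : v e = 1 := by
        have := v_one_add v he
        rwa [add_sub_cancel] at this
      rcases lt_or_ge (v f) 1 with h2 | h2
      · have hb1 := hWj.1 h2
        refine ⟨fun _ => ⟨?_, ?_⟩, fun hall => ?_⟩
        · rw [map_mul, he1, one_mul, Valuation.map_sub_swap]
          exact hb1
        · have hclose : v (u j ^ l - h) < v h := by
            have e1 : u j ^ l - h = -(f * u j ^ l) := by rw [← hfu]; ring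
            rw [e1, Valuation.map_neg, map_mul, map_pow, hfu1 h2]
            calc _ < 1 * v h := mul_lt_mul_of_pos_right h2 hvh'
              _ = v h := one_mul _
          refine close_pow v h0 hclose hl0 ?_
          have e2 : a + e * b j * u j - u j = a + ((e - 1) * b j + (b j - 1)) * u j := by
            ring
          have h7 : v ((e - 1) * b j + (b j - 1)) < 1 := by
            refine lt_of_le_of_lt (v.map_add _ _) (max_lt ?_ hb1)
            rw [map_mul]
            exact mul_lt_one_of_lt_of_le he hble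
          have h8 : v (((e - 1) * b j + (b j - 1)) * u j) ^ l < v h := by
            rw [map_mul, mul_pow, hfu1 h2]
            calc _ < 1 * v h := mul_lt_mul_of_pos_right (pow_lt_one₀ zero_le h7 hl0) hvh'
              _ = v h := one_mul _
          rw [e2]
          rcases le_total (v a) (v (((e - 1) * b j + (b j - 1)) * u j)) with h9 | h9
          · refine lt_of_le_of_lt (pow_le_pow_left₀ zero_le ?_ _) h8
            exact (v.map_add _ _).trans (max_le h9 le_rfl)
          · refine lt_of_le_of_lt (pow_le_pow_left₀ zero_le ?_ _) ha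
            exact (v.map_add _ _).trans (max_le le_rfl h9)
        · exact absurd h2 (not_lt.2 (hall j (Finset.mem_insert_self _ _)))
      · have hb1 := (hWj.2 h2).1
        refine ⟨fun ⟨i, hi, hi'⟩ => ?_, fun _ => ⟨?_, ?_⟩⟩
        · rcases Finset.mem_insert.1 hi with rfl | hi
          · exact absurd hi' (not_lt.2 h2)
          · exact absurd hi' (not_lt.2 (hex i hi))
        · have e1 : e * (1 - b j) - 1 = (e - 1) + -(e * b j) := by ring
          rw [e1]
          refine lt_of_le_of_lt (v.map_add _ _) (max_lt he ?_)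
          rw [Valuation.map_neg, map_mul, he1, one_mul]
          exact hb1
        · have h8 := hnew2 he1.le h2
          rcases le_total (v a) (v (e * b j * u j)) with h9 | h9
          · refine lt_of_le_of_lt (pow_le_pow_left₀ zero_le ?_ _) h8
            exact (v.map_add _ _).trans (max_le h9 le_rfl)
          · refine lt_of_le_of_lt (pow_le_pow_left₀ zero_le ?_ _) ha
            exact (v.map_add _ _).trans (max_le le_rfl h9)

/-- the bump function with `π` -/
theorem pbump {Γ : Type*} [LinearOrderedCommGroupWithZero Γ] (v : Valuation L Γ) {ϖ f : L}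
    (hϖ : v ϖ < 1) (hϖ0 : ϖ ≠ 0) {n : ℕ} (hn : 2 ≤ n) (h1f : 1 + f ≠ 0)
    (hfn : v f < 1 → v (f ^ n) < v ϖ) :
    (v f < 1 → v (ϖ * (1 + f) ^ 2 / (ϖ * (1 + f) ^ 2 + f ^ n) - 1) < 1) ∧
    (1 ≤ v f → v (ϖ * (1 + f) ^ 2 / (ϖ * (1 + f) ^ 2 + f ^ n)) < 1 ∧
      v (ϖ * (1 + f) ^ 2 / (ϖ * (1 + f) ^ 2 + f ^ n) / (1 + f)) ≤ 1) := by
  set a := ϖ * (1 + f) ^ 2 with ha
  have hvϖ0 : v ϖ ≠ 0 := (Valuation.ne_zero_iff _).2 hϖ0
  have hv1f0 : v (1 + f) ≠ 0 := (Valuation.ne_zero_iff _).2 h1f
  have ha0 : a ≠ 0 := mul_ne_zero hϖ0 (pow_ne_zero _ h1f)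
  have hva0 : v a ≠ 0 := (Valuation.ne_zero_iff _).2 ha0
  constructor
  · intro hf
    have h1 : v a = v ϖ := by
      rw [ha, map_mul, map_pow, v_one_add v hf, one_pow, mul_one]
    have h2 : v (f ^ n) < v a := by rw [h1]; exact hfn hf
    have h3 : v (a + f ^ n) = v a := v.map_add_eq_of_lt_left h2
    have h4 : a + f ^ n ≠ 0 := by
      intro h; rw [h, map_zero] at h3; exact hva0 h3.symm
    have e : a / (a + f ^ n) - 1 = -(f ^ n) / (a + f ^ n) := by field_simp; ring
    rw [e, map_div₀, Valuation.map_neg, h3]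
    exact (div_lt_one₀ (zero_lt_iff.2 hva0)).2 h2
  · intro hf
    have hvf0 : v f ≠ 0 := fun h => by rw [h] at hf; exact absurd hf (not_le.2 zero_lt_one)
    have h1 : v (1 + f) ≤ v f := (v.map_add _ _).trans (max_le (by rw [map_one]; exact hf) le_rfl)
    obtain ⟨m, rfl⟩ : ∃ m, n = m + 2 := ⟨n - 2, by omega⟩
    have hfm : 1 ≤ v f ^ m := one_le_pow₀ hf
    have h2 : v a < v (f ^ (m + 2)) := by
      rw [ha, map_mul, map_pow, map_pow, pow_add]
      calc v ϖ * v (1 + f) ^ 2 < 1 * v (1 + f) ^ 2 :=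
            mul_lt_mul_of_pos_right hϖ (pow_pos (zero_lt_iff.2 hv1f0) _)
        _ ≤ v f ^ m * v f ^ 2 := mul_le_mul' hfm (pow_le_pow_left₀ zero_le h1 _)
    have h3 : v (a + f ^ (m + 2)) = v (f ^ (m + 2)) := v.map_add_eq_of_lt_right h2
    have hvfn : 0 < v (f ^ (m + 2)) := by
      rw [map_pow]; exact pow_pos (zero_lt_iff.2 hvf0) _
    refine ⟨?_, ?_⟩
    · rw [map_div₀, h3]
      exact (div_lt_one₀ hvfn).2 h2
    · rw [map_div₀, map_div₀, h3, div_le_one₀ (zero_lt_iff.2 hv1f0), div_le_iff₀ hvfn, ha, map_mul,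
        map_pow, map_pow, pow_two, ← mul_assoc, mul_comm (v ϖ), mul_assoc, mul_comm (v (1 + f))]
      refine mul_le_mul' ?_ le_rfl |>.trans_eq (mul_comm _ _)
      rw [pow_add, pow_two]
      calc v ϖ * v (1 + f) ≤ 1 * v f := mul_le_mul' hϖ.le h1
        _ ≤ v f * v f := mul_le_mul' hf le_rfl
        _ ≤ v f ^ m * (v f * v f) := by
            calc v f * v f = 1 * (v f * v f) := (one_mul _).symm
              _ ≤ _ := mul_le_mul' hfm le_rfl

section Rank

variable {k : Type*} [NormedField k] [Algebra k L]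

/-- primitive polynomials -/
def Prim (Q : k[X]) : Prop := (∀ j, ‖Q.coeff j‖ ≤ 1) ∧ ∃ j, ‖Q.coeff j‖ = 1


omit [NormedField k] [Algebra k L] in
theorem exists_rel2 [Field k] [Algebra k L] {f g : L}
    (hg : IsAlgebraic (IntermediateField.adjoin k {f}) g) :
    ∃ P : k[X][X], P ≠ 0 ∧ (∃ i, aeval f (P.coeff i) ≠ 0) ∧
      ∑ i ∈ Finset.range (P.natDegree + 1), aeval f (P.coeff i) * g ^ i = 0 := by
  open scoped IntermediateField.algebraAdjoinAdjoin in
  have h1 : IsAlgebraic (Algebra.adjoin k {f}) g :=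
    (IsFractionRing.isAlgebraic_iff (Algebra.adjoin k {f})
      (IntermediateField.adjoin k {f}) L).2 hg
  obtain ⟨P, hP0, hP⟩ := h1
  have h2 : ∀ c : Algebra.adjoin k {f}, ∃ q : k[X], aeval f q = (c : L) ∧ (c = 0 → q = 0) := by
    intro c
    by_cases hc : c = 0
    · exact ⟨0, by simp [hc], fun _ => rfl⟩
    · have h3 : (c : L) ∈ (aeval f : k[X] →ₐ[k] L).range := by
        rw [← Algebra.adjoin_singleton_eq_range_aeval]; exact c.2
      obtain ⟨q, hq⟩ := h3
      exact ⟨q, hq, fun h => absurd h hc⟩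
  choose q hq hq0 using h2
  let P' : k[X][X] := ∑ i ∈ Finset.range (P.natDegree + 1), monomial i (q (P.coeff i))
  have hc : ∀ i, P'.coeff i = q (P.coeff i) := by
    intro i
    simp only [P', finsetSum_coeff, coeff_monomial]
    rw [Finset.sum_ite_eq' (Finset.range (P.natDegree + 1)) i (fun j => q (P.coeff j))]
    split_ifs with h
    · rfl
    · rw [Finset.mem_range, not_lt] at h
      rw [coeff_eq_zero_of_natDegree_lt (by omega), hq0 0 rfl]
  have hlead : aeval f (P'.coeff P.natDegree) ≠ 0 := by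
    rw [hc, hq]
    intro h
    exact hP0 (leadingCoeff_eq_zero.1 (Subtype.ext h))
  have hdeg : P'.natDegree = P.natDegree := by
    refine le_antisymm ?_ (le_natDegree_of_ne_zero fun h => hlead (by rw [h, map_zero]))
    refine natDegree_le_iff_coeff_eq_zero.2 fun i hi => ?_
    rw [hc, coeff_eq_zero_of_natDegree_lt hi, hq0 0 rfl]
  refine ⟨P', fun h => hlead (by rw [h, coeff_zero, map_zero]), ⟨_, hlead⟩, ?_⟩
  rw [hdeg, ← hP, aeval_eq_sum_range]
  refine Finset.sum_congr rfl fun i _ => ?_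
  rw [hc, hq, Algebra.smul_def]
  rfl

theorem exists_scale (P : k[X][X]) (hP : P ≠ 0) :
    ∃ c : k, c ≠ 0 ∧ (∀ i j, ‖c * (P.coeff i).coeff j‖ ≤ 1) ∧
      ∃ i j, ‖c * (P.coeff i).coeff j‖ = 1 := by
  classical
  let S : Finset (Σ _ : ℕ, ℕ) := P.support.sigma fun i => (P.coeff i).support
  have hS : S.Nonempty := by
    have h1 : P.leadingCoeff ≠ 0 := leadingCoeff_ne_zero.2 hP
    refine ⟨⟨P.natDegree, P.leadingCoeff.natDegree⟩, ?_⟩
    rw [Finset.mem_sigma]
    refine ⟨natDegree_mem_support_of_nonzero hP, ?_⟩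
    exact natDegree_mem_support_of_nonzero h1
  obtain ⟨⟨i₀, j₀⟩, h0, hmax⟩ := Finset.exists_max_image S
    (fun x => ‖(P.coeff x.1).coeff x.2‖) hS
  have hne : (P.coeff i₀).coeff j₀ ≠ 0 := by
    rw [Finset.mem_sigma] at h0
    exact mem_support_iff.1 h0.2
  refine ⟨((P.coeff i₀).coeff j₀)⁻¹, inv_ne_zero hne, fun i j => ?_, i₀, j₀, ?_⟩
  · rw [norm_mul, norm_inv]
    rw [inv_mul_le_iff₀ (norm_pos_iff.2 hne), mul_one]
    by_cases h1 : (P.coeff i).coeff j = 0
    · rw [h1, norm_zero]; exact norm_nonneg _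
    · refine hmax ⟨i, j⟩ ?_
      rw [Finset.mem_sigma]
      refine ⟨mem_support_iff.2 fun h => h1 (by rw [h, coeff_zero]), mem_support_iff.2 h1⟩
  · rw [inv_mul_cancel₀ hne, norm_one]

/-- **rank one**: over a ring at which `f` is residually transcendental, a small element is
topologically nilpotent -/
theorem rank_one {π : k} (hπ0 : π ≠ 0) (hπ : ∀ c : k, ‖c‖ < 1 → ‖c‖ ≤ ‖π‖)
    (W : ValuationSubring L) (hW1 : ∀ c : k, ‖c‖ ≤ 1 → algebraMap k L c ∈ W)
    (hW2 : W.valuation (algebraMap k L π) < 1) {f g : L}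
    (hf : ∀ Q : k[X], Prim Q → W.valuation (aeval f Q) = 1)
    (hg : IsAlgebraic (IntermediateField.adjoin k {f}) g) (hgW : W.valuation g < 1) :
    ∃ j, j ≠ 0 ∧ W.valuation g ^ j ≤ W.valuation (algebraMap k L π) := by
  classical
  set v := W.valuation with hv
  by_contra hcon
  push Not at hcon
  have hcon' : ∀ j, v (algebraMap k L π) < v g ^ j := by
    intro j
    rcases Nat.eq_zero_or_pos j with rfl | hj
    · rw [pow_zero]; exact hW2
    · exact hcon j (by omega)
  have hg0 : 0 < v g := by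
    have := hcon' 1
    rw [pow_one] at this
    exact lt_of_le_of_lt zero_le this
  obtain ⟨P, hP0, -, hP⟩ := exists_rel2 hg
  obtain ⟨c, hc0, hc1, i₁, j₁, hc2⟩ := exists_scale P hP0
  -- the scaled coefficients
  let d : ℕ → k[X] := fun i => C c * P.coeff i
  have hd1 : ∀ i j, ‖(d i).coeff j‖ ≤ 1 := fun i j => by
    simp only [d, coeff_C_mul]; exact hc1 i j
  have hsum : ∑ i ∈ Finset.range (P.natDegree + 1), aeval f (d i) * g ^ i = 0 := by
    have : ∀ i, aeval f (d i) * g ^ i = algebraMap k L c * (aeval f (P.coeff i) * g ^ i) := by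
      intro i
      simp only [d, map_mul, aeval_C]; ring
    rw [Finset.sum_congr rfl fun i _ => this i, ← Finset.mul_sum, hP, mul_zero]
  have hfle : v f = 1 := by
    have h1 : Prim (X : k[X]) := by
      refine ⟨fun j => ?_, 1, by rw [coeff_X_one, norm_one]⟩
      rw [coeff_X]
      split_ifs
      · rw [norm_one]
      · rw [norm_zero]; exact zero_le_one
    have := hf X h1
    rwa [aeval_X] at this
  have hcoef : ∀ a : k, ‖a‖ ≤ 1 → v (algebraMap k L a) ≤ 1 := fun a ha =>
    (W.valuation_le_one_iff _).2 (hW1 a ha)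
  have hval : ∀ (Q : k[X]) {γ : W.ValueGroup}, (∀ j, v (algebraMap k L (Q.coeff j)) ≤ γ) →
      v (aeval f Q) ≤ γ := by
    intro Q γ hQ
    rw [aeval_eq_sum_range]
    refine v.map_sum_le fun j _ => ?_
    rw [Algebra.smul_def, map_mul, map_pow, hfle, one_pow, mul_one]
    exact hQ j
  have hdle : ∀ i, v (aeval f (d i)) ≤ 1 := fun i => hval _ fun j => hcoef _ (hd1 i j)
  have hdsmall : ∀ i, ¬ Prim (d i) → v (aeval f (d i)) ≤ v (algebraMap k L π) := by
    intro i hi
    refine hval _ fun j => ?_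
    have h1 : ‖(d i).coeff j‖ < 1 := by
      refine lt_of_le_of_ne (hd1 i j) fun h => hi ⟨hd1 i, j, h⟩
    have h2 := hπ _ h1
    have h3 : (d i).coeff j = π * (π⁻¹ * (d i).coeff j) := by
      rw [← mul_assoc, mul_inv_cancel₀ hπ0, one_mul]
    rw [h3, map_mul, map_mul]
    refine mul_le_of_le_one_right' (hcoef _ ?_)
    rw [norm_mul, norm_inv, inv_mul_le_iff₀ (norm_pos_iff.2 hπ0), mul_one]
    exact h2
  have hex : ∃ i, Prim (d i) := ⟨i₁, hd1 i₁, j₁, by simp only [d, coeff_C_mul]; exact hc2⟩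
  let m := Nat.find hex
  have hm : Prim (d m) := Nat.find_spec hex
  have hmlt : ∀ i < m, ¬ Prim (d i) := fun i hi => Nat.find_min hex hi
  have hmr : m ∈ Finset.range (P.natDegree + 1) := by
    rw [Finset.mem_range, Nat.lt_succ_iff]
    by_contra hlt
    have h1 : d m = 0 := by
      simp only [d]
      rw [coeff_eq_zero_of_natDegree_lt (by omega), mul_zero]
    obtain ⟨-, j, hj⟩ := hm
    rw [h1, coeff_zero, norm_zero] at hj
    exact zero_ne_one hj
  rw [← Finset.add_sum_erase _ _ hmr] at hsum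
  have h1 : v (∑ i ∈ (Finset.range (P.natDegree + 1)).erase m, aeval f (d i) * g ^ i) <
      v g ^ m := by
    refine v.map_sum_lt (pow_ne_zero _ hg0.ne') fun i hi => ?_
    rw [Finset.mem_erase] at hi
    rw [map_mul, map_pow]
    rcases lt_or_gt_of_ne hi.1 with h | h
    · calc v (aeval f (d i)) * v g ^ i ≤ v (algebraMap k L π) * 1 :=
            mul_le_mul' (hdsmall i (hmlt i h)) (pow_le_one' hgW.le _)
        _ = v (algebraMap k L π) := mul_one _
        _ < v g ^ m := hcon' m
    · calc v (aeval f (d i)) * v g ^ i ≤ 1 * v g ^ i := mul_le_mul' (hdle i) le_rfl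
        _ = v g ^ i := one_mul _
        _ < v g ^ m := pow_lt_pow_right_of_lt_one₀ hg0 hgW h
  have h2 : v (aeval f (d m) * g ^ m) = v g ^ m := by
    rw [map_mul, hf _ hm, one_mul, map_pow]
  rw [← h2, ← Valuation.map_neg, ← eq_neg_of_add_eq_zero_left hsum] at h1
  exact lt_irrefl _ h1

/-- `W` is an exceptional ring: `f` is residually transcendental. -/
structure Exc (π : k) (f : L) (W : ValuationSubring L) : Prop where
  mem : ∀ c : k, ‖c‖ ≤ 1 → algebraMap k L c ∈ W
  lt : W.valuation (algebraMap k L π) < 1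
  tr : ∀ Q : k[X], Prim Q → W.valuation (aeval f Q) = 1

theorem exists_prim {f : L} (hf : IsAlgebraic k f) : ∃ Q : k[X], Prim Q ∧ aeval f Q = 0 := by
  classical
  obtain ⟨P, hP0, hP⟩ := hf
  obtain ⟨j₀, h0, hmax⟩ := Finset.exists_max_image P.support (fun j => ‖P.coeff j‖)
    (nonempty_support_iff.2 hP0)
  have hne : P.coeff j₀ ≠ 0 := mem_support_iff.1 h0
  refine ⟨C (P.coeff j₀)⁻¹ * P, ⟨fun j => ?_, j₀, ?_⟩, by rw [map_mul, hP, mul_zero]⟩
  · rw [coeff_C_mul, norm_mul, norm_inv, inv_mul_le_iff₀ (norm_pos_iff.2 hne), mul_one]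
    by_cases h1 : P.coeff j = 0
    · rw [h1, norm_zero]; exact norm_nonneg _
    · exact hmax j (mem_support_iff.2 h1)
  · rw [coeff_C_mul, inv_mul_cancel₀ hne, norm_one]

theorem Exc.transcendental {π : k} {f : L} {W : ValuationSubring L} (h : Exc π f W) :
    Transcendental k f := by
  intro hf
  obtain ⟨Q, hQ, h0⟩ := exists_prim hf
  have := h.tr Q hQ
  rw [h0, map_zero] at this
  exact zero_ne_one this

/-- **compactness**: one exponent for all exceptional rings of `f` -/
theorem unif {π : k} (hπ0 : π ≠ 0) (hπ : ∀ c : k, ‖c‖ < 1 → ‖c‖ ≤ ‖π‖)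
    (halg : ∀ f : L, Transcendental k f → ∀ g : L, IsAlgebraic (IntermediateField.adjoin k {f}) g)
    (f g : L) :
    ∃ N : ℕ, ∀ W : ValuationSubring L, Exc π f W → W.valuation g < 1 →
      ∀ M, N ≤ M → W.valuation g ^ M < W.valuation (algebraMap k L π) := by
  classical
  by_cases hf : Transcendental k f
  swap
  · exact ⟨0, fun W hW => absurd hW.transcendental hf⟩
  have hπL : algebraMap k L π ≠ 0 := (_root_.map_ne_zero _).2 hπ0
  let A : Set L := {a | (∃ c : k, ‖c‖ ≤ 1 ∧ a = algebraMap k L c) ∨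
    ∃ Q : k[X], Prim Q ∧ (a = aeval f Q ∨ a = (aeval f Q)⁻¹)}
  obtain ⟨A', B', s, hA', hB', hs⟩ := E1_97.rzc A {algebraMap k L π, g}
    (fun n : ℕ => g ^ (n + 1) / algebraMap k L π) (by
      intro W h1 h2
      have hlt : W.valuation (algebraMap k L π) < 1 := h2 _ (by simp)
      have hg : W.valuation g < 1 := h2 _ (by simp)
      have htr : ∀ Q : k[X], Prim Q → W.valuation (aeval f Q) = 1 := by
        intro Q hQ
        have hQ0 : aeval f Q ≠ 0 := by
          intro h0
          obtain ⟨-, j, hj⟩ := hQ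
          refine hf ⟨Q, ?_, h0⟩
          rintro rfl
          rw [coeff_zero, norm_zero] at hj
          exact zero_ne_one hj
        have h3 := (W.valuation_le_one_iff _).2 (h1 _ (Or.inr ⟨Q, hQ, Or.inl rfl⟩))
        have h4 := (W.valuation_le_one_iff _).2 (h1 _ (Or.inr ⟨Q, hQ, Or.inr rfl⟩))
        rw [map_inv₀] at h4
        exact le_antisymm h3
          ((inv_le_one₀ (zero_lt_iff.2 ((Valuation.ne_zero_iff _).2 hQ0))).1 h4)
      obtain ⟨j, hj0, hj⟩ := rank_one hπ0 hπ W (fun c hc => h1 _ (Or.inl ⟨c, hc, rfl⟩)) hlt htr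
        (halg f hf g) hg
      refine ⟨j, ?_⟩
      have h5 : 0 < W.valuation (algebraMap k L π) :=
        zero_lt_iff.2 ((Valuation.ne_zero_iff _).2 hπL)
      rw [map_div₀, div_lt_one₀ h5, map_pow]
      by_cases hg0 : W.valuation g = 0
      · rw [hg0, zero_pow (by omega)]; exact h5
      · exact lt_of_lt_of_le (pow_lt_pow_right_of_lt_one₀ (zero_lt_iff.2 hg0) hg
          (Nat.lt_succ_self j)) hj)
  refine ⟨s.sup id + 1, fun W hW hg M hM => ?_⟩
  obtain ⟨n, hn, h1⟩ := hs W (fun a ha => by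
      rcases hA' ha with ⟨c, hc, rfl⟩ | ⟨Q, hQ, rfl | rfl⟩
      · exact hW.mem c hc
      · exact (W.valuation_le_one_iff _).1 (hW.tr Q hQ).le
      · exact (W.valuation_le_one_iff _).1 (by rw [map_inv₀, hW.tr Q hQ, inv_one]))
    (fun b hb => by
      rcases hB' hb with rfl | rfl
      · exact hW.lt
      · exact hg)
  have h5 : 0 < W.valuation (algebraMap k L π) :=
    zero_lt_iff.2 ((Valuation.ne_zero_iff _).2 hπL)
  rw [map_div₀, div_lt_one₀ h5, map_pow] at h1
  refine lt_of_le_of_lt (pow_le_pow_right_of_le_one' hg.le ?_) h1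
  have : n ≤ s.sup id := Finset.le_sup (f := id) hn
  omega

/-- the same for a finite set of `f` -/
theorem unif_set {π : k} (hπ0 : π ≠ 0) (hπ : ∀ c : k, ‖c‖ < 1 → ‖c‖ ≤ ‖π‖)
    (halg : ∀ f : L, Transcendental k f → ∀ g : L, IsAlgebraic (IntermediateField.adjoin k {f}) g)
    {ι : Type*} (s : Finset ι) (f : ι → L) (g : L) :
    ∃ N : ℕ, ∀ W : ValuationSubring L, (∃ i ∈ s, Exc π (f i) W) → W.valuation g < 1 →
      ∀ M, N ≤ M → W.valuation g ^ M < W.valuation (algebraMap k L π) := by
  classical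
  choose N hN using fun i => unif hπ0 hπ halg (f i) g
  refine ⟨∑ i ∈ s, N i, fun W ⟨i, hi, hW⟩ hg M hM => hN i W hW hg M ?_⟩
  exact (Finset.single_le_sum (f := N) (fun _ _ => Nat.zero_le _) hi).trans hM

end Rank

/-- **(P1)** -/
theorem p1 {k : Type*} [NormedField k] [Algebra k L] {π : k} (hπ0 : π ≠ 0)
    (hπ : ∀ c : k, ‖c‖ < 1 → ‖c‖ ≤ ‖π‖)
    (halg : ∀ f : L, Transcendental k f → ∀ g : L, IsAlgebraic (IntermediateField.adjoin k {f}) g)
    (t : L) (ht : Transcendental k t) {h : L} (h0 : h ≠ 0) {l : ℕ} (hl : 2 ≤ l)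
    (HYP : ∀ W : ValuationSubring L, (∀ c : k, ‖c‖ ≤ 1 → algebraMap k L c ∈ W) →
      W.valuation (algebraMap k L π) < 1 → ∃ b : L, b ≠ 0 ∧ W.valuation (h / b ^ l - 1) < 1) :
    ∃ (s : Finset L) (u₀ : L) (m : ℕ), (∀ b ∈ s, b ≠ 0) ∧ u₀ ≠ 0 ∧ 0 < m ∧
      Transcendental k (h / u₀ ^ l - 1) ∧
      (∀ W : ValuationSubring L, (∀ c : k, ‖c‖ ≤ 1 → algebraMap k L c ∈ W) →
        W.valuation (algebraMap k L π) < 1 → ∃ b ∈ s, W.valuation (h / b ^ l - 1) < 1) ∧
      ∀ W : ValuationSubring L, (∀ c : k, ‖c‖ ≤ 1 → algebraMap k L c ∈ W) →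
        W.valuation (algebraMap k L π) < 1 → ∀ b ∈ s,
        (∀ Q : k[X], Prim Q → W.valuation (aeval (h / b ^ l - 1) Q) = 1) →
        (h / u₀ ^ l - 1) ^ m / (algebraMap k L π) ^ 2 ∈ W := by
  classical
  have hπL : algebraMap k L π ≠ 0 := (_root_.map_ne_zero _).2 hπ0
  -- compactness: a finite set `s`
  obtain ⟨A', B', s', hA', hB', hs'⟩ := E1_97.rzc {a : L | ∃ c : k, ‖c‖ ≤ 1 ∧ a = algebraMap k L c}
    {algebraMap k L π} (fun b : {b : L // b ≠ 0} => h / (b : L) ^ l - 1) (by
      intro W h1 h2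
      obtain ⟨b, hb0, hb⟩ := HYP W (fun c hc => h1 _ ⟨c, hc, rfl⟩) (h2 _ rfl)
      exact ⟨⟨b, hb0⟩, hb⟩)
  set s : Finset L := s'.image Subtype.val with hs
  have hs0 : ∀ b ∈ s, b ≠ 0 := by
    intro b hb
    rw [hs, Finset.mem_image] at hb
    obtain ⟨x, _, rfl⟩ := hb
    exact x.2
  have cov : ∀ W : ValuationSubring L, (∀ c : k, ‖c‖ ≤ 1 → algebraMap k L c ∈ W) →
        W.valuation (algebraMap k L π) < 1 → ∃ b ∈ s, W.valuation (h / b ^ l - 1) < 1 := by
    intro W h1 h2
    obtain ⟨b, hb, h3⟩ := hs' W (fun a ha => by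
      obtain ⟨c, hc, rfl⟩ := hA' ha
      exact h1 c hc) (fun b hb => by
      have := hB' hb
      rw [Set.mem_singleton_iff] at this
      rw [this]; exact h2)
    exact ⟨b, Finset.mem_image_of_mem _ hb, h3⟩
  -- the exceptional rings
  let f : L → L := fun b => h / b ^ l - 1
  let V : ValuationSubring L → Prop := fun W => ∃ b ∈ s, Exc π (f b) W
  have h1f : ∀ b ∈ s, 1 + f b ≠ 0 := by
    intro b hb
    simp only [f, add_sub_cancel]
    exact div_ne_zero h0 (pow_ne_zero _ (hs0 b hb))
  choose N hN using fun g : L => unif_set hπ0 hπ halg s f g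
  let n : ℕ := ∑ b ∈ s, N (f b) + 2
  let e : L → L := fun b => algebraMap k L π * (1 + f b) ^ 2 /
    (algebraMap k L π * (1 + f b) ^ 2 + f b ^ n)
  obtain ⟨a, E, haE⟩ := exists_root_gen s (fun b => b) e hs0 h0 hl
  have ha : ∀ W, V W → W.valuation (a ^ l - h) < W.valuation h := by
    intro W hW
    have hWmem : (∀ c : k, ‖c‖ ≤ 1 → algebraMap k L c ∈ W) ∧
      W.valuation (algebraMap k L π) < 1 := by
      obtain ⟨b, _, hb⟩ := hW; exact ⟨hb.mem, hb.lt⟩
    refine ((haE W fun b hb => ?_).1 (cov W hWmem.1 hWmem.2)).2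
    refine pbump W.valuation hWmem.2 hπL (by omega) (h1f b hb) fun hlt => ?_
    rw [map_pow]
    refine hN (f b) W hW hlt n ?_
    have : N (f b) ≤ ∑ b ∈ s, N (f b) :=
      Finset.single_le_sum (f := fun b => N (f b)) (fun _ _ => Nat.zero_le _) hb
    omega
  obtain ⟨u₁, hu₁0, hu₁⟩ : ∃ u₁ : L, u₁ ≠ 0 ∧ ∀ W, V W → W.valuation (h / u₁ ^ l - 1) < 1 := by
    have key : ∀ W, V W → a ≠ 0 ∧ W.valuation (h / a ^ l - 1) < 1 := by
      intro W hW
      have h4 := ha W hW
      have hvh : W.valuation h ≠ 0 := (Valuation.ne_zero_iff _).2 h0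
      have h5 : W.valuation (a ^ l) = W.valuation h := by
        have := W.valuation.map_add_eq_of_lt_right (x := a ^ l - h) (y := h) h4
        rwa [sub_add_cancel] at this
      have h6 : a ^ l ≠ 0 := by
        intro h6; rw [h6, map_zero] at h5; exact hvh h5.symm
      refine ⟨fun h7 => h6 (by rw [h7, zero_pow (by omega)]), ?_⟩
      have e1 : h / a ^ l - 1 = -(a ^ l - h) / a ^ l := by field_simp; ring
      rw [e1, map_div₀, Valuation.map_neg, h5]
      exact (div_lt_one₀ (zero_lt_iff.2 hvh)).2 h4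
    by_cases hex : ∃ W, V W
    · obtain ⟨W, hW⟩ := hex
      exact ⟨a, (key W hW).1, fun W hW => (key W hW).2⟩
    · exact ⟨1, one_ne_zero, fun W hW => absurd ⟨W, hW⟩ hex⟩
  obtain ⟨u₀, hu₀0, hu₀, hu₀t⟩ : ∃ u₀ : L, u₀ ≠ 0 ∧ (∀ W, V W → W.valuation (h / u₀ ^ l - 1) < 1) ∧
      Transcendental k (h / u₀ ^ l - 1) := by
    by_cases htr : Transcendental k (h / u₁ ^ l - 1)
    · exact ⟨u₁, hu₁0, hu₁, htr⟩
    have hA1 : IsAlgebraic k (h / u₁ ^ l - 1) := by
      by_contra h1; exact htr h1
    have hone : IsAlgebraic k (1 : L) := isAlgebraic_one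
    have hc : IsAlgebraic k (h / u₁ ^ l) := by
      have := hA1.add hone
      rwa [sub_add_cancel] at this
    set c := h / u₁ ^ l with hcdef
    have hc0 : c ≠ 0 := div_ne_zero h0 (pow_ne_zero _ hu₁0)
    set ϖ : L := algebraMap k L π with hϖ
    have hϖalg : IsAlgebraic k ϖ := isAlgebraic_algebraMap π
    set T := t ^ (N t + 1) with hT
    have hTt : ¬ IsAlgebraic k T := fun h1 => ht (h1.of_pow (Nat.succ_pos _))
    have hd0 : ϖ + T ≠ 0 := by
      intro h1
      refine hTt ?_
      rw [eq_neg_of_add_eq_zero_right h1]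
      exact hϖalg.neg
    set z : L := 1 + ϖ * (ϖ / (ϖ + T)) with hz
    have hzT : T = ϖ ^ 2 / (z - 1) - ϖ := by
      rw [hz, add_sub_cancel_left]
      field_simp
      ring
    have hztr : ¬ IsAlgebraic k z := by
      intro h1
      refine hTt ?_
      rw [hzT, div_eq_mul_inv]
      exact ((hϖalg.pow 2).mul (h1.sub hone).inv).sub hϖalg
    have hz0 : z ≠ 0 := by
      intro h1; rw [h1] at hztr; exact hztr isAlgebraic_zero
    have hform : h / (u₁ / z) ^ l = c * z ^ l := by
      rw [hcdef, div_pow]; field_simp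
    refine ⟨u₁ / z, div_ne_zero hu₁0 hz0, fun W hW => ?_, fun h1 => ?_⟩
    · have hlt : W.valuation ϖ < 1 := by
        obtain ⟨b, _, hb⟩ := hW; exact hb.lt
      have h5 : 0 < W.valuation ϖ := zero_lt_iff.2 ((Valuation.ne_zero_iff _).2 hπL)
      have hx : W.valuation (ϖ / (ϖ + T)) ≤ 1 := by
        rw [map_div₀]
        rcases lt_or_ge (W.valuation t) 1 with h6 | h6
        · have h7 : W.valuation T < W.valuation ϖ := by
            rw [hT, map_pow]
            exact hN t W hW h6 _ (Nat.le_succ _)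
          rw [W.valuation.map_add_eq_of_lt_left h7, div_self h5.ne']
        · have h7 : W.valuation ϖ < W.valuation T := by
            refine lt_of_lt_of_le hlt ?_
            rw [hT, map_pow]
            exact one_le_pow₀ h6
          rw [W.valuation.map_add_eq_of_lt_right h7]
          exact ((div_lt_one₀ (h5.trans h7)).2 h7).le
      have hz1 : W.valuation (z - 1) < 1 := by
        rw [hz, add_sub_cancel_left, map_mul]
        exact mul_lt_one_of_lt_of_le hlt hx
      have hzv : W.valuation z = 1 := by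
        have := v_one_add W.valuation hz1
        rwa [add_sub_cancel] at this
      have hc1 := hu₁ W hW
      have e1 : c * z ^ l - 1 = (c - 1) * z ^ l + (z ^ l - 1) := by ring
      rw [hform, e1]
      refine lt_of_le_of_lt (W.valuation.map_add _ _) (max_lt ?_ ?_)
      · rw [map_mul, map_pow, hzv, one_pow, mul_one]
        exact hc1
      · exact v_pow_sub_one W.valuation hz1 l
    · rw [hform] at h1
      have h2 : IsAlgebraic k (c * z ^ l) := by
        have := h1.add hone
        rwa [sub_add_cancel] at this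
      have h3 : IsAlgebraic k (z ^ l) := by
        have := h2.mul hc.inv
        rwa [mul_comm, ← mul_assoc, inv_mul_cancel₀ hc0, one_mul] at this
      exact hztr (h3.of_pow (by omega))
  refine ⟨s, u₀, 2 * (N (h / u₀ ^ l - 1) + 1), hs0, hu₀0, by omega, hu₀t, cov, ?_⟩
  intro W hmem hlt b hb htr
  have hVW : V W := ⟨b, hb, hmem, hlt, htr⟩
  rw [← W.valuation_le_one_iff, map_div₀, map_pow, map_pow]
  have h5 : 0 < W.valuation (algebraMap k L π) := zero_lt_iff.2 ((Valuation.ne_zero_iff _).2 hπL)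
  rw [div_le_one₀ (pow_pos h5 _), mul_comm, pow_mul]
  exact pow_le_pow_left₀ zero_le (hN _ W hVW (hu₀ W hVW) _ (Nat.le_succ _)).le 2

end Crest.Agent.R013.OneP1_920
end

-- ▼ part R013/OneP1S_920
section

/-!
# Theorem (ONE) of row 13: `P1Stmt` of helper622, hence `ONE`
-/

set_option autoImplicit false

namespace Crest.Agent.R013.OneP1_920

open Polynomial One_622 A2b_275
open scoped ENNReal

section Lift

variable {k : Type*} [NormedField k] [IsUltrametricDist k] {L : Type*} [Field L] [Algebra k L]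

/-- integral polynomials live over the unit ball -/
theorem exists_lift (Q : k[X]) (hQ : ∀ j, ‖Q.coeff j‖ ≤ 1) :
    ∃ Q' : (R0 k)[X], (∀ j, ((Q'.coeff j : R0 k) : k) = Q.coeff j) ∧
      ∀ f : L, aeval f Q' = aeval f Q := by
  classical
  have h1 : (↑Q.coeffs : Set k) ⊆ R0 k := by
    intro c hc
    obtain ⟨j, _, rfl⟩ := mem_coeffs_iff.1 (by exact_mod_cast hc)
    exact hQ j
  refine ⟨Q.toSubring (R0 k) h1, fun j => coeff_toSubring _ _ _, fun f => ?_⟩
  have h2 : (Q.toSubring (R0 k) h1).map (R0 k).subtype = Q := map_toSubring _ _ _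
  conv_rhs => rw [← h2]
  rw [aeval_def, aeval_def, eval₂_map]
  rfl

end Lift

theorem p1Stmt (p : ℕ) [Fact p.Prime] : P1Stmt p := by
  intro L _ _ _ _ _ l hl hlp h h0 hloc
  have hU := isUnif_p p
  have hπ0 : (p : ℚ_[p]) ≠ 0 := norm_pos_iff.1 hU.pos
  have htX : Transcendental ℚ_[p] (algebraMap (RatFunc ℚ_[p]) L RatFunc.X) := by
    have h1 : Transcendental ℚ_[p] (RatFunc.X : RatFunc ℚ_[p]) := RatFunc.transcendental_X
    exact (transcendental_algebraMap_iff (algebraMap (RatFunc ℚ_[p]) L).injective).2 h1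
  obtain ⟨s, u₀, m, h1, h2, h3, h4, h5, h6⟩ := p1 (L := L) (k := ℚ_[p]) hπ0 (fun c hc => hU.le c hc)
    (fun f hf g => by
      have := finite_adjoin f hf
      exact Algebra.IsAlgebraic.isAlgebraic g)
    _ htX h0 hl.two_le (fun W hW hp => by
      obtain ⟨φ, hφ, hφ1⟩ := AEPt_854.exists_pt p W hW (by simpa using hp)
      obtain ⟨u, hu, hu1⟩ := hloc φ hφ
      exact ⟨u, hu, hφ1 _ hu1⟩)
  refine ⟨L, s, fun b => b, u₀, m, h1, h2, h3, h4, ?_, ?_⟩
  · intro W hW hp
    exact h5 W (fun c hc => hW ⟨c, hc⟩) hp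
  · intro W hW hp i hi _ hQ
    refine h6 W (fun c hc => hW ⟨c, hc⟩) hp i hi fun Q hQ' => ?_
    obtain ⟨Q', hc, he⟩ := exists_lift (L := L) Q hQ'.1
    rw [← he]
    refine hQ Q' ?_
    obtain ⟨j, hj⟩ := hQ'.2
    refine ⟨j, fun hmem => ?_⟩
    rw [mem_span_pi0, hc, hj] at hmem
    exact lt_irrefl _ hmem

/-- **Theorem (ONE)** -/
theorem one (p : ℕ) [Fact p.Prime] : AEAsm_854.ONE p := one_of_p1 (p1Stmt p)

end Crest.Agent.R013.OneP1_920
end

-- ▼ part R013/PartA_854
section

/-!
# Row 13: `PartA` (helper349) from `S16`, 337's `HStmt` and 512's constants `CAt`.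
-/

set_option autoImplicit false

namespace Crest.Agent.R013.PartA_854

open Crest.NumberTheoryR.Sect
open Crest.Agent.R013 Crest.Agent.R013.Tau2_512 Crest.Agent.R013.Tau5_512
  Crest.Agent.R013.UAsm_854
open scoped NNReal

variable {p : ℕ} [Fact p.Prime] {k K : Type} [Field k] [Algebra ℚ_[p] k] [FiniteDimensional ℚ_[p] k]
    [Field K] [Algebra k K] [Algebra (RatFunc k) K] [IsScalarTower k (RatFunc k) K]
    [FiniteDimensional (RatFunc k) K]

/-- **Part A** from `S16`, `HStmt` and `CAt`. -/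
theorem partA (HS : UH_337.HStmt p k K) (h16 : AAsm_349.S16 p k K)
    (HC : ∀ (W : Valuation (constField k K) ℝ≥0)
      (_ : ∀ q : ℚ_[p], W (APt_349.iQ p k (constField k K) q) = ‖q‖₊) (l : ℕ) (_ : l ≠ p) (ϖ : k)
      (_ : Hyp k W l ϖ) (P : Subgroup (ConstGal k K)) (τ φ : ConstGal k K)
      (vp : ℕ → constField k K) (_ : TauData W l ϖ P τ φ vp)
      (s : ConstGal k K →* PiGroup k K) (_ : IsSection k K s) (j : ℕ),
      CAt p k K W (s (τ ^ l ^ j))) : AAsm_349.PartA p k K :=
  AEFin_854.partA_of (OneP1_920.p1Stmt p) (uin_of HS h16 HC)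

end Crest.Agent.R013.PartA_854
end

-- ▼ part R013/UC_512
section

/-!
# Row 13, part A, leaf A-U, (C): the field of constants fixed by `s (τ ^ l ^ j)`   (helper512)

`constants` : the intermediate field `C` of `M = maxUnramified k K` of the elements algebraic over
`k` and fixed by `s (τ ^ l ^ j)`, with the valuation induced by `W`: the residue field is
algebraically closed and the value group is not discrete.
-/

set_option autoImplicit false
set_option linter.unusedSectionVars false
set_option linter.style.haveILetI false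

open scoped NNReal
open Crest.NumberTheoryR.Sect
open Crest.Agent.R013
open Crest.Agent.R013.Fp4_831
open Crest.Agent.R013.Tau1_512
open Crest.Agent.R013.Tau2_512
open Crest.Agent.R013.Clause1_97 Crest.Agent.R013.MaxUnr_97

namespace Crest.Agent.R013.UC_512

variable {k : Type*} [Field k] {K : Type*} [Field K] [Algebra k K]

/-- The elements of `maxUnramified k K` algebraic over `k` and fixed by `σ`. -/
def fixC (σ : PiGroup k K) : IntermediateField k (maxUnramified k K) where
  carrier := {c | IsAlgebraic k c ∧ σ c = c}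
  mul_mem' ha hb := ⟨ha.1.mul hb.1, by rw [map_mul, ha.2, hb.2]⟩
  one_mem' := ⟨isAlgebraic_one, map_one σ⟩
  add_mem' ha hb := ⟨ha.1.add hb.1, by rw [map_add, ha.2, hb.2]⟩
  zero_mem' := ⟨isAlgebraic_zero, map_zero σ⟩
  algebraMap_mem' c := ⟨isAlgebraic_algebraMap c, by
    rw [IsScalarTower.algebraMap_apply k K (maxUnramified k K), AlgEquiv.commutes]⟩
  inv_mem' c hc := ⟨hc.1.inv, by rw [map_inv₀, hc.2]⟩


lemma fixC_le (σ : PiGroup k K) : fixC σ ≤ constField k K := fun _ hc =>
  mem_algebraicClosure_iff.2 hc.1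

variable {p : ℕ} [Fact p.Prime] [Algebra ℚ_[p] k] [CharZero k] [Algebra (RatFunc k) K]
  [IsScalarTower k (RatFunc k) K] [FiniteDimensional (RatFunc k) K]

/-- **(C) of #4015.** -/
theorem constants {W : Valuation (constField k K) ℝ≥0}
    (hW : ∀ q : ℚ_[p], W (APt_349.iQ p k (constField k K) q) = ‖q‖₊) {l : ℕ} {ϖ : k}
    (H : Hyp k W l ϖ) {P : Subgroup (ConstGal k K)} {τ φ : ConstGal k K}
    {vp : ℕ → constField k K} (hT : Tau5_512.TauData W l ϖ P τ φ vp)
    (s : ConstGal k K →* PiGroup k K) (hs : IsSection k K s) (j : ℕ) :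
    ∃ (C : IntermediateField k (maxUnramified k K)) (nC : Valuation C ℝ≥0),
      Algebra.IsAlgebraic k C ∧
      (∀ c, c ∈ C ↔ IsAlgebraic k c ∧ s (τ ^ l ^ j) c = c) ∧
      (∀ q : ℚ_[p], nC (algebraMap k C (algebraMap ℚ_[p] k q)) = ‖q‖₊) ∧
      (∀ c : C, ∀ c' : constField k K,
        (c' : maxUnramified k K) = (c : maxUnramified k K) → nC c = W c') ∧
      RZ_365.ResClosed nC ∧ (∀ r : ℝ≥0, r < 1 → ∃ c, r < nC c ∧ nC c < 1) := by
  have hacl : IsAlgClosed (constField k K) := Tau7_512.isAlgClosed_constField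
  have hgal : IsGalois k (constField k K) := by
    have : IsAlgClosure k (constField k K) := Tau7_512.isAlgClosure_constField
    exact IsAlgClosure.isGalois k (constField k K)
  let C := fixC (s (τ ^ l ^ j))
  let ι : C →ₐ[k] constField k K := IntermediateField.inclusion (fixC_le (s (τ ^ l ^ j)))
  have hι : ∀ c : C, ((ι c : constField k K) : maxUnramified k K) = (c : maxUnramified k K) :=
    fun c => rfl
  letI : Algebra C (constField k K) := ι.toRingHom.toAlgebra
  have hmem : ∀ x : constField k K, (τ ^ l ^ j) x = x → ∃ c : C, ι c = x := by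
    intro x hx
    refine ⟨⟨x, ⟨mem_algebraicClosure_iff.1 x.2, ?_⟩⟩, rfl⟩
    rw [hs.2, hx]
  refine ⟨C, W.comap ι.toRingHom, ?_, fun c => Iff.rfl, ?_, ?_, ?_, ?_⟩
  · exact ⟨fun c => by
      have h := c.2.1
      exact (isAlgebraic_algebraMap_iff (algebraMap C (maxUnramified k K)).injective).1 h⟩
  · intro q
    rw [← hW q]
    change W (ι (algebraMap k C (algebraMap ℚ_[p] k q))) = _
    rw [AlgHom.commutes]
    rfl
  · intro c c' h
    change W (ι c) = W c'
    congr 1
    apply Subtype.ext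
    rw [hι, h]
  · intro Q hQ hd hi
    refine Tau7_512.exists_root_mod (w := W) H.res (C := C) ?_ Q hQ hd hi
    intro z hz
    obtain ⟨c, hc⟩ := hmem z (Tau5_512.pow_apply_of_fix (hT.tau_MU z hz) _)
    exact ⟨c, hc⟩
  · intro r hr
    obtain ⟨x, hx, h1, h2, -⟩ := hT.between r 1 hr j
    obtain ⟨c, rfl⟩ := hmem x hx
    exact ⟨c, h1, h2⟩

end Crest.Agent.R013.UC_512
end

-- ▼ part R013/UFin_337
section

/-!
Row 13, part A (helper337, helper854, helper512): part A from S0016.
-/

set_option autoImplicit false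
set_option linter.style.haveILetI false

noncomputable section

namespace Crest.Agent.R013.UFin_337

open Crest.NumberTheoryR.Sect
open scoped NNReal

variable {p : ℕ} [Fact p.Prime] {k K : Type} [Field k] [Algebra ℚ_[p] k]
  [FiniteDimensional ℚ_[p] k] [Field K] [Algebra k K] [Algebra (RatFunc k) K]
  [IsScalarTower k (RatFunc k) K] [FiniteDimensional (RatFunc k) K]

/-- **Part A** from S0016. -/
theorem partA (h16 : AAsm_349.S16 p k K) : AAsm_349.PartA p k K := by
  haveI : CharZero k := charZero_of_injective_algebraMap (algebraMap ℚ_[p] k).injective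
  exact PartA_854.partA U10_337.hStmt h16
    fun W hW l _ ϖ H P τ φ vp hT s hs j => UC_512.constants hW H hT s hs j

/-- **S0015 from S0016.** -/
theorem S0015_of_S16 (p : ℕ) [Fact p.Prime] (k : Type) [Field k] [Algebra ℚ_[p] k]
    [FiniteDimensional ℚ_[p] k]
    (K : Type) [Field K] [Algebra k K] [Algebra (RatFunc k) K] [IsScalarTower k (RatFunc k) K]
    [FunctionField k K] (h16 : AAsm_349.S16 p k K) :
    (∀ vt : Valuation (maxUnramified k K) ℝ≥0, LiesOverRationalPlace k K vt →
        ∃ s : ConstGal k K →* PiGroup k K, IsSection k K s ∧ Set.range s = decomp k K vt) ∧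
    (∀ s : ConstGal k K →* PiGroup k K, IsSection k K s →
        ∃ vt : Valuation (maxUnramified k K) ℝ≥0, LiesOverRationalPlace k K vt ∧
          Set.range s = decomp k K vt) ∧
    (∀ vt vt' : Valuation (maxUnramified k K) ℝ≥0, LiesOverRationalPlace k K vt →
        LiesOverRationalPlace k K vt' → decomp k K vt = decomp k K vt' →
        (vt.comap (algebraMap K (maxUnramified k K))).IsEquiv
          (vt'.comap (algebraMap K (maxUnramified k K)))) :=
  AAsm_349.S0015_of p k K h16 (partA h16)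

end Crest.Agent.R013.UFin_337
end
end

-- ▼ part R013/TopR_803
section

/-!
# Row 13: `S0015` and `S0016` from B-NB, the end step and `GOODP`
-/

set_option autoImplicit false

namespace Crest.Agent.R013.TopR_803

open scoped NNReal Topology
open Filter Crest.NumberTheoryR Crest.NumberTheoryR.Sect SE_669 CGood_588 GoodP_797 VData_803 TopB_803
  TopS_803

/-- **B-MAIN from B-NB and the end step.** -/
theorem bMain_of' {p : ℕ} [Fact p.Prime] (h2 : NBP p) (h3 : EndP p) : BMain p :=
  bMain_of (TopL_803.liftP p) h2 h3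

/-- **`S0016` from B-NB, the end step and GOODP.** -/
theorem s0016_of {p : ℕ} [Fact p.Prime] (h2 : NBP p) (h3 : EndP p)
    (hG : GOODPall p) (k : Type) [Field k]
    [Algebra ℚ_[p] k] [FiniteDimensional ℚ_[p] k]
    (K : Type) [Field K] [Algebra k K] [Algebra (RatFunc k) K] [IsScalarTower k (RatFunc k) K]
    [FunctionField k K] (hc : algebraicClosure k K = ⊥) (hg : 2 ≤ genus k K)
    (v : Valuation K ℝ≥0) (hv : ExtendsPadicNorm k K p v)
    (w : Valuation (AlgebraicClosure K) ℝ≥0)
    (hw : w.comap (algebraMap K (AlgebraicClosure K)) = v) :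
    ∀ a : AlgebraicClosure K, ∀ ε : ℝ≥0, 0 < ε →
      ∃ b : maxUnramified k K, w (a - (b : AlgebraicClosure K)) < ε :=
  TopS_803.s0016_of (bMain_of' h2 h3) hG k K hc hg v hv w hw

/-- **`S0015` from B-MAIN and GOODP.** -/
theorem s0015_of {p : ℕ} [Fact p.Prime] (hB : BMain p) (hG : GOODPall p) (k : Type) [Field k]
    [Algebra ℚ_[p] k] [FiniteDimensional ℚ_[p] k]
    (K : Type) [Field K] [Algebra k K] [Algebra (RatFunc k) K] [IsScalarTower k (RatFunc k) K]
    [FunctionField k K] (hc : algebraicClosure k K = ⊥) (hg : 2 ≤ genus k K) :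
    (∀ vt : Valuation (maxUnramified k K) ℝ≥0, LiesOverRationalPlace k K vt →
        ∃ s : ConstGal k K →* PiGroup k K, IsSection k K s ∧ Set.range s = decomp k K vt) ∧
    (∀ s : ConstGal k K →* PiGroup k K, IsSection k K s →
        ∃ vt : Valuation (maxUnramified k K) ℝ≥0, LiesOverRationalPlace k K vt ∧
          Set.range s = decomp k K vt) ∧
    (∀ vt vt' : Valuation (maxUnramified k K) ℝ≥0, LiesOverRationalPlace k K vt →
        LiesOverRationalPlace k K vt' → decomp k K vt = decomp k K vt' →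
        (vt.comap (algebraMap K (maxUnramified k K))).IsEquiv
          (vt'.comap (algebraMap K (maxUnramified k K)))) :=
  UFin_337.S0015_of_S16 p k K fun v hv w hw =>
    TopS_803.s0016_of hB hG k K hc hg v hv w hw

end Crest.Agent.R013.TopR_803
end

-- ▼ part R013/CofBR_669
section

/-!
# Row 13, part B, last step (BR): from the annulus to (SE)

`U` is unramified everywhere over `K`, contains the constants `C` and is embedded (`ι`) in the field
`E` of the circle `|x| = |π|`; `h : U` has all its orders divisible by `e` and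
`ι h = c y^m (1 + ε) g^e` with `m ≡ ± 1 mod e` and `‖ε‖ < ‖e‖²`. Then the `e`-th roots of `x` are in
the closure of `maxUnramified` for every norm of `AlgebraicClosure K` which extends the norm of `U`
defined by `ι`: this is (SE).
-/

set_option autoImplicit false
set_option linter.unusedSectionVars false

namespace Crest.Agent.R013.CofBR_669

open scoped NNReal Topology
open Filter Polynomial Crest.NumberTheoryR.Sect
open Crest.Agent.R013.SE_669 Crest.Agent.R013.Unr3_957 Crest.Agent.R013.Unr4_957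
  Crest.Agent.R013.Cof1_669 Crest.Agent.R013.Cof2_669 Crest.Agent.R013.Cof10_669

section root

variable {Ω : Type*} [Field Ω] [IsAlgClosed Ω]

/-- if `a` is approximated by `e`-th powers of elements of `F` then an `e`-th root of `a` is
approximated by elements of `F` -/
theorem exists_root_cl {v : Valuation Ω ℝ≥0} {F : Set Ω} {e : ℕ} (he : 0 < e) (a : Ω)
    (h : ∀ ε : ℝ≥0, 0 < ε → ∃ u ∈ F, v (u ^ e - a) < ε) : ∃ η ∈ cl v F, η ^ e = a := by
  classical
  by_contra hcon
  push Not at hcon
  have hmon : (X ^ e - C a : Polynomial Ω).Monic := monic_X_pow_sub_C a he.ne'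
  have hroots : ∀ r ∈ (X ^ e - C a : Polynomial Ω).roots, ∃ ε : ℝ≥0, 0 < ε ∧ ∀ u ∈ F, ε ≤ v (u - r) := by
    intro r hr
    have hr1 : r ^ e = a := by
      have := (mem_roots'.mp hr).2
      simpa [sub_eq_zero] using this
    have hr2 : r ∉ cl v F := fun h1 => hcon r h1 hr1
    have hr3 : ¬ ∀ ε : ℝ≥0, 0 < ε → ∃ b ∈ F, v (r - b) < ε := hr2
    push Not at hr3
    obtain ⟨ε, hε, h1⟩ := hr3
    exact ⟨ε, hε, fun u hu => by rw [Valuation.map_sub_swap]; exact h1 u hu⟩
  choose! ε hε0 hε using hroots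
  have hpos : 0 < ((X ^ e - C a : Polynomial Ω).roots.map ε).prod := by
    apply pos_of_ne_zero
    intro h0
    rw [Multiset.prod_eq_zero_iff] at h0
    obtain ⟨r, hr, hr0⟩ := Multiset.mem_map.mp h0
    exact (hε0 r hr).ne' hr0
  obtain ⟨u, hu, hlt⟩ := h _ hpos
  have hprod : u ^ e - a = ((X ^ e - C a : Polynomial Ω).roots.map fun r => u - r).prod := by
    have h1 := (IsAlgClosed.splits (X ^ e - C a : Polynomial Ω)).eq_prod_roots_of_monic hmon
    have h2 := congrArg (eval u) h1
    rw [eval_multiset_prod, Multiset.map_map] at h2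
    simpa using h2
  rw [hprod, map_multiset_prod, Multiset.map_map] at hlt
  refine absurd hlt (not_lt.mpr ?_)
  refine Multiset.prod_map_le_prod_map₀ _ _ (fun r _ => zero_le) ?_
  intro r hr
  exact hε r hr u hu

end root

section br1

variable {k : Type*} [Field k] {K : Type*} [Field K] [Algebra k K]
variable [CharZero k] [Algebra (RatFunc k) K] [IsScalarTower k (RatFunc k) K]
  [FiniteDimensional (RatFunc k) K]

local notation "Kb" => AlgebraicClosure K

theorem exists_pow_kb {c : Kb} (hc : c ∈ kb k K) {e : ℕ} (he : 0 < e) :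
    ∃ γ ∈ kb k K, γ ^ e = c := by
  obtain ⟨γ, hγ⟩ := IsAlgClosed.exists_pow_nat_eq c he
  refine ⟨γ, ?_, hγ⟩
  rw [mem_kb]
  exact IsIntegral.of_pow he (by rw [hγ]; exact mem_kb.mp hc)

/-- **BR, on the algebraic closure of `K`** -/
theorem br1 {v : Valuation Kb ℝ≥0} {e : ℕ} (he : 0 < e) {h c x h' g y : Kb}
    (hy : y ∈ cl v (maxUnramified k K : Set Kb)) (hyh : y ^ e = h)
    (hc : c ∈ kb k K) (hc0 : c ≠ 0) (hx0 : x ≠ 0)
    (hxM : x ∈ cl v (maxUnramified k K : Set Kb)) (hg : g ∈ cl v (maxUnramified k K : Set Kb))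
    (hg0 : g ≠ 0) (hh0 : h' ≠ 0)
    (hh' : ∀ ε : ℝ≥0, 0 < ε → ∃ u ∈ cl v (maxUnramified k K : Set Kb), v (u ^ e - h') < ε)
    (m q : ℤ) (hm : m = e * q + 1 ∨ m = e * q - 1)
    (heq : h = c * x ^ m * h' * g ^ e) {ξ : Kb} (hξ : ξ ^ e = x) :
    ξ ∈ cl v (maxUnramified k K : Set Kb) := by
  obtain ⟨γ, hγ, hγe⟩ := exists_pow_kb hc he
  obtain ⟨η, hη, hηe⟩ := exists_root_cl he h' hh'
  have hη' : η ∈ clI v (maxUnramified k K) := cl_trans v (F := cl v (maxUnramified k K : Set Kb))
    (G := (maxUnramified k K : Set Kb)) (fun a ha => ha) hη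
  have hγ' : γ ∈ clI v (maxUnramified k K) := le_clI v _ (kb_le_M hγ)
  have hy' : y ∈ clI v (maxUnramified k K) := hy
  have hg' : g ∈ clI v (maxUnramified k K) := hg
  have hx' : x ∈ clI v (maxUnramified k K) := hxM
  have hγ0 : γ ≠ 0 := by
    rintro rfl
    rw [zero_pow he.ne'] at hγe
    exact hc0 hγe.symm
  have hη0 : η ≠ 0 := by
    rintro rfl
    rw [zero_pow he.ne'] at hηe
    exact hh0 hηe.symm
  -- `z = y / (γ x^q η g)`, `z^e = x^{±1}`
  set z := y / (γ * x ^ q * η * g) with hz
  have hzM : z ∈ clI v (maxUnramified k K) :=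
    div_mem hy' (mul_mem (mul_mem (mul_mem hγ' (zpow_mem hx' q)) hη') hg')
  have hze : z ^ e = x ^ (m - e * q) := by
    rw [hz, div_pow, hyh, mul_pow, mul_pow, mul_pow, hγe, hηe, ← zpow_natCast (x ^ q) e,
      ← zpow_mul, heq, zpow_sub₀ hx0, mul_comm q (e : ℤ)]
    have hge : g ^ e ≠ 0 := pow_ne_zero _ hg0
    have hxe : x ^ ((e : ℤ) * q) ≠ 0 := zpow_ne_zero _ hx0
    field_simp
  rcases hm with hm | hm
  · have h1 : z ^ e = x := by
      rw [hze, hm, add_sub_cancel_left, zpow_one]
    exact root_mem_cl he h1 hξ hx0 hzM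
  · have h1 : z⁻¹ ^ e = x := by
      rw [inv_pow, hze, hm, sub_sub_cancel_left, zpow_neg, zpow_one, inv_inv]
    exact root_mem_cl he h1 hξ hx0 (inv_mem hzM)

end br1

section gauss

variable {k' : Type*} [NormedField k'] {E : Type*} [NormedField E] [IsUltrametricDist E]
  [NormedAlgebra k' E] {y : E}


end gauss

section se

variable {k : Type*} [Field k] {K : Type*} [Field K] [Algebra k K]
variable [CharZero k] [Algebra (RatFunc k) K] [IsScalarTower k (RatFunc k) K]
  [FiniteDimensional (RatFunc k) K]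

local notation "Kb" => AlgebraicClosure K




end se

end Crest.Agent.R013.CofBR_669
end

-- ▼ part R013/BRLast1_669
section

/-!
# Row 13, part B, last step: from `f = y z ^ n` in a big field to the closure of `maxUnramified`
-/

set_option autoImplicit false
set_option linter.unusedSectionVars false

namespace Crest.Agent.R013.BRLast_669

open scoped NNReal Topology
open Filter Polynomial Crest.NumberTheoryR.Sect
open Crest.Agent.R013.SE_669 Crest.Agent.R013.Unr3_957 Crest.Agent.R013.Unr4_957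
  Crest.Agent.R013.Cof1_669 Crest.Agent.R013.Cof2_669 Crest.Agent.R013.Cof5_669
  Crest.Agent.R013.Cof10_669 Crest.Agent.R013.CofBR_669 Crest.Agent.R013.BTor4_914

section transport

/-- `LDiv` along an isomorphism of fields whose constants are integral over the new constants -/
theorem LDiv_transport {k₁ k₂ F₁ F₂ : Type*} [Field k₁] [Field k₂] [Field F₁] [Field F₂]
    [Algebra k₁ F₁] [Algebra k₂ F₂] (e : F₁ ≃+* F₂)
    (hk : ∀ a : k₁, IsIntegral k₂ (e (algebraMap k₁ F₁ a))) {n : ℕ} {f : F₁}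
    (h : LDiv k₁ n f) : LDiv k₂ n (e f) := by
  intro u hu
  have hpl : IsPlace k₁ (u.comap (e : F₁ →+* F₂)) := by
    refine ⟨fun c hc => ?_, ?_⟩
    · -- an integral element has value one
      have h1 : ∀ z : F₂, IsIntegral k₂ z → u z ≤ 1 := by
        intro z hz
        exact Set_803.place_le_one (fun c => by
          by_cases h0 : c = 0
          · rw [h0, map_zero, map_zero]; exact zero_le_one
          · exact (hu.1 c h0).le) hz.isAlgebraic
      rw [Valuation.comap_apply]
      have h2 : e (algebraMap k₁ F₁ c) ≠ 0 := by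
        intro h0
        have h3 := (map_eq_zero_iff e e.injective).mp h0
        exact hc ((map_eq_zero (algebraMap k₁ F₁)).mp h3)
      refine le_antisymm (h1 _ (hk c)) ?_
      have h3 := h1 _ (hk c⁻¹)
      rw [map_inv₀, map_inv₀, map_inv₀] at h3
      exact (inv_le_one₀ ((Valuation.pos_iff u).mpr h2)).mp h3
    · obtain ⟨a, h0, h1⟩ := hu.2
      refine ⟨e.symm a, ?_, ?_⟩
      · rw [Valuation.comap_apply]
        change u (e (e.symm a)) ≠ 0
        rwa [RingEquiv.apply_symm_apply]
      · rw [Valuation.comap_apply]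
        change u (e (e.symm a)) ≠ 1
        rwa [RingEquiv.apply_symm_apply]
  obtain ⟨a, ha⟩ := h _ hpl
  exact ⟨e a, ha⟩

end transport

section core

variable {k : Type*} [Field k] {K : Type*} [Field K] [Algebra k K]
variable [CharZero k] [Algebra (RatFunc k) K] [IsScalarTower k (RatFunc k) K]
  [FiniteDimensional (RatFunc k) K]

local notation "Kb" => AlgebraicClosure K

theorem sup_unr {U : IntermediateField K Kb} (hU : IsUnramifiedEverywhere k K U)
    (C' : IntermediateField k Kb) [FiniteDimensional k C'] :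
    IsUnramifiedEverywhere k K (U ⊔ KC K C' : IntermediateField K Kb) := by
  have := hU.1
  have := finite_KC (K := K) C'
  have := IntermediateField.finiteDimensional_sup U (KC K C')
  exact Unr5_957.le_maxUnramified_iff.mp (sup_le (Unr5_957.le_maxUnramified_iff.mpr hU) (KC_le_M C'))

/-- **last step**, in a big field -/
theorem last_core (x : K) (hx0 : x ≠ 0) {n : ℕ} (hn : 0 < n)
    {Om : Type*} [NormedField Om] (emb : Kb →+* Om)
    {v : Valuation Kb ℝ≥0} (hv : ∀ a, v a = ‖emb a‖₊)
    {V : IntermediateField K Kb} (hV : IsUnramifiedEverywhere k K V)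
    {f₀ : V} (hf0 : f₀ ≠ 0) (hdiv : LDiv k n f₀) {π : Kb} (hπ : π ∈ kb k K) (hπ0 : π ≠ 0)
    {z : Om} (heq : emb (f₀ : Kb) = emb (algebraMap K Kb x / π) * z ^ n)
    (happ : ∀ ε : ℝ, 0 < ε → ∃ u ∈ V, ‖z - emb u‖ < ε) {ξ : Kb} (hξ : ξ ^ n = algebraMap K Kb x) :
    ξ ∈ cl v (maxUnramified k K : Set Kb) := by
  classical
  have hVf := hV.1
  have hVM : V ≤ maxUnramified k K := Unr5_957.le_maxUnramified_iff.mpr hV
  have hxK : algebraMap K Kb x ≠ 0 := (_root_.map_ne_zero _).mpr hx0
  have hf0' : (f₀ : Kb) ≠ 0 := fun h => hf0 (Subtype.ext h)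
  obtain ⟨y, hy⟩ := IsAlgClosed.exists_pow_nat_eq (f₀ : Kb) hn
  have hyM : y ∈ maxUnramified k K := Unr10_957.kummer_mem_maxUnramified hV hn.ne' hdiv hy
  -- `z` comes from `Kb`
  set a : Kb := (f₀ : Kb) * π / algebraMap K Kb x with ha
  have ha0 : a ≠ 0 := div_ne_zero (mul_ne_zero hf0' hπ0) hxK
  have hza : z ^ n = emb a := by
    have h1 : emb (algebraMap K Kb x / π) ≠ 0 := (_root_.map_ne_zero _).mpr (div_ne_zero hxK hπ0)
    apply mul_left_cancel₀ h1
    rw [← heq, ← map_mul, ha]
    congr 1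
    field_simp
  have hz : ∃ z₀ : Kb, emb z₀ = z := by
    have h1 : ((X ^ n - C a : Kb[X]).map emb).roots = ((X ^ n - C a : Kb[X]).roots).map emb :=
      (IsAlgClosed.splits _).roots_map emb
    have h2 : z ∈ ((X ^ n - C a : Kb[X]).map emb).roots := by
      rw [mem_roots']
      refine ⟨?_, ?_⟩
      · exact ((monic_X_pow_sub_C a hn.ne').map emb).ne_zero
      · simp [hza]
    rw [h1, Multiset.mem_map] at h2
    obtain ⟨z₀, -, h3⟩ := h2
    exact ⟨z₀, h3⟩
  obtain ⟨z₀, rfl⟩ := hz
  have hz₀ : z₀ ^ n = a := emb.injective (by rw [map_pow, hza])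
  have hz₀0 : z₀ ≠ 0 := by
    rintro rfl
    rw [zero_pow hn.ne'] at hz₀
    exact ha0 hz₀.symm
  have hz₀cl : z₀ ∈ cl v (maxUnramified k K : Set Kb) := by
    intro ε hε
    obtain ⟨u, hu, h1⟩ := happ ε (by exact_mod_cast hε)
    refine ⟨u, hVM hu, ?_⟩
    rw [hv, map_sub]
    exact_mod_cast h1
  refine br1 hn (h := (f₀ : Kb)) (c := π⁻¹) (x := algebraMap K Kb x) (h' := 1) (g := z₀) (y := y)
    (subset_cl v _ hyM) hy (inv_mem hπ) (inv_ne_zero hπ0) hxK
    (subset_cl v _ ((maxUnramified k K).algebraMap_mem x)) hz₀cl hz₀0 one_ne_zero ?_ 1 0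
    (Or.inl (by simp)) ?_ hξ
  · intro ε hε
    refine ⟨1, subset_cl v _ (maxUnramified k K).one_mem, ?_⟩
    rw [one_pow, sub_self, map_zero]
    exact hε
  · rw [hz₀, ha, zpow_one]
    field_simp

end core

end Crest.Agent.R013.BRLast_669
end

-- ▼ part R013/BRLast2_669
section

/-!
# Row 13, part B, last step: the constants of a finite extension inside a big field
-/

set_option autoImplicit false
set_option linter.unusedSectionVars false

namespace Crest.Agent.R013.BRLast_669

open scoped NNReal Topology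
open Filter Polynomial Crest.NumberTheoryR.Sect
open Crest.Agent.R013.SE_669 Crest.Agent.R013.Unr3_957 Crest.Agent.R013.Unr4_957
  Crest.Agent.R013.Cof1_669 Crest.Agent.R013.Cof2_669 Crest.Agent.R013.Cof5_669
  Crest.Agent.R013.Cof10_669 Crest.Agent.R013.CofBR_669 Crest.Agent.R013.BTor4_914

/-- every element of a field algebraic over the image of an algebraically closed field is in the
image -/
theorem exists_preimage {A B : Type*} [Field A] [IsAlgClosed A] [Field B] (emb : A →+* B) {b : B}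
    {f : A[X]} (hf : f ≠ 0) (h : f.eval₂ emb b = 0) : ∃ a : A, emb a = b ∧ f.eval a = 0 := by
  have h1 : (f.map emb).roots = f.roots.map emb := (IsAlgClosed.splits f).roots_map emb
  have h2 : b ∈ (f.map emb).roots := by
    rw [mem_roots']
    refine ⟨(Polynomial.map_ne_zero_iff emb.injective).mpr hf, ?_⟩
    rw [IsRoot.def, eval_map]
    exact h
  rw [h1, Multiset.mem_map] at h2
  obtain ⟨a, ha, h3⟩ := h2
  exact ⟨a, h3, (mem_roots'.mp ha).2⟩

section consts

variable {k : Type*} [Field k] {A : Type*} [Field A] [IsAlgClosed A] [Algebra k A]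
variable {κ : Type*} [Field κ] {Om : Type*} [Field Om] [Algebra κ Om]

/-- The preimage in `A` of a finite extension `k'` of (the image of) `C` inside `Om`. -/
theorem exists_consts (emb : A →+* Om) (C : IntermediateField k A) [FiniteDimensional k C]
    (j : κ →+* A) (hj : ∀ a, emb (j a) = algebraMap κ Om a) (hjC : ∀ a, j a ∈ C)
    (hCj : ∀ c ∈ C, ∃ a, j a = c) (k' : IntermediateField κ Om) [FiniteDimensional κ k'] :
    ∃ C' : IntermediateField k A, FiniteDimensional k C' ∧ C ≤ C' ∧
      ∀ a : Om, a ∈ k' ↔ ∃ b ∈ C', emb b = a := by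
  classical
  have hkk : ∀ a : κ, algebraMap κ Om a ∈ k' := fun a => k'.algebraMap_mem a
  let C' : IntermediateField k A :=
    { k'.toSubfield.comap emb with
      algebraMap_mem' := by
        intro r
        change emb (algebraMap k A r) ∈ k'
        obtain ⟨a, ha⟩ := hCj _ (C.algebraMap_mem r)
        rw [← ha, hj]
        exact hkk a }
  have hmem : ∀ b, b ∈ C' ↔ emb b ∈ k' := fun b => Iff.rfl
  have hCC' : C ≤ C' := by
    intro c hc
    obtain ⟨a, rfl⟩ := hCj c hc
    rw [hmem, hj]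
    exact hkk a
  -- integrality
  have hjint : ∀ a : κ, IsIntegral k (j a) := by
    intro a
    have h1 : IsIntegral k (⟨j a, hjC a⟩ : C) := Algebra.IsIntegral.isIntegral _
    exact h1.map C.val
  have hpre : ∀ a ∈ k', ∃ b : A, emb b = a ∧ IsIntegral k b := by
    intro a ha
    have h1 : IsIntegral κ (⟨a, ha⟩ : k') := Algebra.IsIntegral.isIntegral _
    have h2 : IsIntegral κ a := h1.map k'.val
    obtain ⟨f, hfm, hf⟩ := h2
    have h3 : (f.map j).Monic := hfm.map j
    have h4 : (f.map j).eval₂ emb a = 0 := by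
      rw [eval₂_map]
      have h5 : emb.comp j = algebraMap κ Om := RingHom.ext hj
      rw [h5]; exact hf
    obtain ⟨b, hb, hb2⟩ := exists_preimage emb h3.ne_zero h4
    refine ⟨b, hb, ?_⟩
    -- `b` is integral over `C`, hence over `k`
    have h6 : IsIntegral C b := by
      let jC : κ →+* C := ⟨⟨⟨fun a => ⟨j a, hjC a⟩, Subtype.ext (map_one j)⟩,
        fun a b => Subtype.ext (map_mul j a b)⟩, Subtype.ext (map_zero j),
        fun a b => Subtype.ext (map_add j a b)⟩
      refine ⟨f.map jC, hfm.map jC, ?_⟩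
      rw [eval₂_map]
      have h7 : (algebraMap C A).comp jC = j := RingHom.ext fun _ => rfl
      rw [h7, ← eval_map]
      exact hb2
    exact isIntegral_trans b h6
  refine ⟨C', ?_, hCC', ?_⟩
  · -- finite dimension
    let B := Module.finBasis κ k'
    choose c hc hci using fun i => hpre (B i : Om) (B i).2
    have hle : C' ≤ C ⊔ IntermediateField.adjoin k (Set.range c) := by
      intro b hb
      have hb' := (hmem b).mp hb
      have h1 := B.sum_repr ⟨emb b, hb'⟩
      have h2 := congrArg (fun t : k' => (t : Om)) h1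
      simp only at h2
      have h3 : b = ∑ i, j (B.repr ⟨emb b, hb'⟩ i) * c i := by
        apply emb.injective
        rw [map_sum]
        refine h2.symm.trans ?_
        push_cast
        refine Finset.sum_congr rfl fun i _ => ?_
        rw [map_mul, hj, hc, Algebra.smul_def]
      rw [h3]
      refine sum_mem fun i _ => mul_mem ?_ ?_
      · exact (le_sup_left : C ≤ _) (hjC _)
      · exact (le_sup_right : IntermediateField.adjoin k (Set.range c) ≤ _)
          (IntermediateField.subset_adjoin k _ ⟨i, rfl⟩)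
    have hf1 : FiniteDimensional k (IntermediateField.adjoin k (Set.range c)) := by
      refine IntermediateField.finiteDimensional_adjoin ?_
      rintro _ ⟨i, rfl⟩
      exact hci i
    have hf2 : FiniteDimensional k (C ⊔ IntermediateField.adjoin k (Set.range c) :
      IntermediateField k A) := IntermediateField.finiteDimensional_sup _ _
    exact FiniteDimensional.of_injective (IntermediateField.inclusion hle).toLinearMap
      (IntermediateField.inclusion hle).injective
  · intro a
    constructor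
    · intro ha
      obtain ⟨b, hb, -⟩ := hpre a ha
      exact ⟨b, by rw [hmem, hb]; exact ha, hb⟩
    · rintro ⟨b, hb, rfl⟩
      exact hb

end consts

end Crest.Agent.R013.BRLast_669
end

-- ▼ part R013/AnnP_669
section

/-!
# Row 13, part B: the interface between LEMW + ANNU (623) and the end step (669)

`AnnP` (= the statement of 623's `lemw`, σ-form): from a non-bridge over `U` (92's `NBOut`) over a
circle field `E` over `k`, inside a big field `Ω`: a finite extension `k'` of `k`, a function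
`f ≠ 0` of `U k'` with all orders divisible by `n` and `f = y z ^ n`, `z ∈ E k'`.
-/

set_option autoImplicit false
set_option linter.unusedSectionVars false
set_option linter.style.haveILetI false

namespace Crest.Agent.R013.AnnP_669

open scoped NNReal
open Crest.NumberTheoryR.Sect
open Crest.Agent.R013.BTor4_914 (LDiv)
open Crest.Agent.R013.Gl946 Crest.Agent.R013.NB_92 Crest.Agent.R013.CutCov_92
  Crest.Agent.R013.Half_930 Crest.Agent.R013.Desc_372 Crest.Agent.R013.Desc_372.CE

/-- **LEMW + ANNU** (623). -/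
def AnnP : Prop :=
  ∀ {k E Ω U V : Type} [NontriviallyNormedField k] [ProperSpace k] [IsUltrametricDist k]
    [CharZero k] [NormedField E] [NormedAlgebra k E] [IsUltrametricDist E]
    [CompleteSpace E] [NormedField Ω] [NormedAlgebra k Ω] [NormedAlgebra E Ω] [IsScalarTower k E Ω]
    [IsUltrametricDist Ω] [IsAlgClosed Ω] {y : E} (hG : IsGauss k y) {ϖ : k} (hϖ : IsUnif ϖ)
    (hd : DenseRat k y) {s : ℝ≥0} (hs : 1 < s) {n : ℕ} (_ : 0 < n)
    (_ : (s : ℝ)⁻¹ ≤ ‖(n : k)‖ ^ 2) [Field U] [Algebra k U] [CommRing V] [Algebra E V] {d : ℕ}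
    (X : Edge (gaussDatum hG hϖ hd) V d) (j : U →+* V) (σ : V →ₐ[E] E)
    (_ : NBOut (gaussDatum hG hϖ hd) (Am hG hϖ hd hs) (Ap hG hϖ hd hs) U V d X j σ)
    (_ : ∀ c : k, σ (j (algebraMap k U c)) = algebraMap k E c) (xU : U) (_ : σ (j xU) = y)
    [Algebra U Ω] [IsScalarTower k U Ω]
    (_ : ∀ u : U, algebraMap U Ω u = algebraMap E Ω (σ (j u))),
    ∃ (k' : IntermediateField k Ω) (_ : FiniteDimensional k k') (f : lev U Ω k')
      (z : lev E Ω k'), f ≠ 0 ∧ LDiv k' n f ∧ z ≠ 0 ∧
        (f : Ω) = algebraMap E Ω y * (z : Ω) ^ n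

end Crest.Agent.R013.AnnP_669
end

-- ▼ part R013/BRLast3_669
section

/-!
# Row 13, part B, end step: from `AnnP` to the closure of `maxUnramified`
-/

set_option autoImplicit false
set_option linter.unusedSectionVars false
set_option linter.style.haveILetI false

namespace Crest.Agent.R013.BRLast_669

open scoped NNReal Topology
open Filter Polynomial Crest.NumberTheoryR.Sect
open Crest.Agent.R013.SE_669 Crest.Agent.R013.Unr3_957 Crest.Agent.R013.Unr4_957
  Crest.Agent.R013.Cof1_669 Crest.Agent.R013.Cof2_669 Crest.Agent.R013.Cof5_669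
  Crest.Agent.R013.Cof10_669 Crest.Agent.R013.CofBR_669 Crest.Agent.R013.BTor4_914
  Crest.Agent.R013.AnnP_669
open Crest.Agent.R013.Gl946 Crest.Agent.R013.NB_92 Crest.Agent.R013.CutCov_92
  Crest.Agent.R013.Half_930 Crest.Agent.R013.Desc_372 Crest.Agent.R013.Desc_372.CE
  Crest.Agent.R013.LemC623

/-- a big field: an algebraically closed valued field over `E` -/
theorem exists_big (k E : Type) [NormedField k] [NontriviallyNormedField E] [NormedAlgebra k E]
    [IsUltrametricDist E] [CompleteSpace E] :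
    ∃ (Om : Type) (_ : NormedField Om) (_ : NormedAlgebra k Om) (_ : NormedAlgebra E Om),
      IsScalarTower k E Om ∧ IsUltrametricDist Om ∧ IsAlgClosed Om := by
  let Om := AlgebraicClosure E
  letI n1 : NormedField Om := spectralNorm.normedField E Om
  letI n2 : NormedAlgebra E Om := spectralNorm.normedAlgebra E Om
  letI n3 : NormedAlgebra k Om :=
    { ((algebraMap E Om).comp (algebraMap k E)).toAlgebra with
      norm_smul_le := fun c x => by
        change ‖algebraMap E Om (algebraMap k E c) * x‖ ≤ ‖c‖ * ‖x‖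
        rw [norm_mul, norm_algebraMap', norm_algebraMap'] }
  refine ⟨Om, n1, n3, n2, ?_, ?_, (inferInstance : IsAlgClosed (AlgebraicClosure E))⟩
  · exact @IsScalarTower.of_algebraMap_eq k E Om _ _ _ _ n2.toAlgebra n3.toAlgebra fun _ => rfl
  refine IsUltrametricDist.isUltrametricDist_of_forall_norm_add_le_max_norm ?_
  intro x y
  exact isNonarchimedean_spectralNorm (K := E) (L := Om) x y

section lev

variable {k : Type*} [Field k] {K : Type*} [Field K] [Algebra k K]

local notation "Kb" => AlgebraicClosure K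

/-- The level `U k'` inside the big field is the image of `U C'`. -/
theorem mem_lev_iff_emb {κ Om : Type*} [Field κ] [Field Om] [Algebra κ Om]
    (U : IntermediateField K Kb) [Algebra κ U] [Algebra U Om] [IsScalarTower κ U Om]
    (emb : Kb →+* Om) (hemb : ∀ u : U, emb (u : Kb) = algebraMap U Om u)
    (k' : IntermediateField κ Om) (C' : IntermediateField k Kb)
    (hk' : ∀ a : Om, a ∈ k' ↔ ∃ b ∈ C', emb b = a) (a : Om) :
    a ∈ lev U Om k' ↔ ∃ b ∈ (U ⊔ KC K C' : IntermediateField K Kb), emb b = a := by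
  constructor
  · intro ha
    -- the image of `U C'` as an intermediate field
    let S : IntermediateField U Om :=
      { (U ⊔ KC K C' : IntermediateField K Kb).toSubfield.map emb with
        algebraMap_mem' := fun u => ⟨(u : Kb), (le_sup_left : U ≤ U ⊔ KC K C') u.2, hemb u⟩ }
    have hS : lev U Om k' ≤ S := by
      rw [lev_le_iff]
      intro c hc
      obtain ⟨b, hb, hbc⟩ := (hk' c).mp hc
      exact ⟨b, (le_sup_right : KC K C' ≤ U ⊔ KC K C') (le_KC hb), hbc⟩
    obtain ⟨b, hb, hba⟩ := hS ha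
    exact ⟨b, hb, hba⟩
  · rintro ⟨b, hb, rfl⟩
    let T : IntermediateField K Kb :=
      { (lev U Om k').toSubfield.comap emb with
        algebraMap_mem' := fun r => by
          change emb (algebraMap K Kb r) ∈ lev U Om k'
          have h1 : emb (algebraMap K Kb r) = algebraMap U Om (algebraMap K U r) :=
            hemb (algebraMap K U r)
          rw [h1]
          exact (lev U Om k').algebraMap_mem _ }
    have hT : (U ⊔ KC K C' : IntermediateField K Kb) ≤ T := by
      refine sup_le ?_ ?_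
      · intro u hu
        change emb u ∈ lev U Om k'
        rw [show emb u = algebraMap U Om ⟨u, hu⟩ from hemb ⟨u, hu⟩]
        exact (lev U Om k').algebraMap_mem _
      · unfold KC
        rw [IntermediateField.adjoin_le_iff]
        intro c hc
        change emb c ∈ lev U Om k'
        exact algebraMap_mem_lev U Om k' ((hk' _).mpr ⟨c, hc, rfl⟩)
    exact hT hb

end lev

section main

variable {k : Type} [Field k] {K : Type} [Field K] [Algebra k K]
variable [CharZero k] [Algebra (RatFunc k) K] [IsScalarTower k (RatFunc k) K]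
  [FiniteDimensional (RatFunc k) K]

local notation "Kb" => AlgebraicClosure K

/-- **End step**, abstract constants -/
theorem end_abs (hAnn : AnnP) {κ E : Type} [NontriviallyNormedField κ] [ProperSpace κ]
    [IsUltrametricDist κ] [CharZero κ] [NontriviallyNormedField E] [NormedAlgebra κ E]
    [IsUltrametricDist E] [CompleteSpace E] {y : E} (hG : IsGauss κ y) {ϖ : κ} (hϖ : IsUnif ϖ)
    (hd : DenseRat κ y) {s : ℝ≥0} (hs : 1 < s) {n : ℕ} (hn : 0 < n)
    (hsn : (s : ℝ)⁻¹ ≤ ‖(n : κ)‖ ^ 2)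
    (C : IntermediateField k Kb) [FiniteDimensional k C] (U : IntermediateField K Kb)
    (hU : IsUnramifiedEverywhere k K U) (j₀ : κ →+* U) (hjC : ∀ a, (j₀ a : Kb) ∈ C)
    (hCj : ∀ c ∈ C, ∃ a, (j₀ a : Kb) = c)
    {V : Type} [CommRing V] [Algebra E V] {d : ℕ} (X : Edge (gaussDatum hG hϖ hd) V d)
    (j : U →+* V) (σ : V →ₐ[E] E)
    (hNB : NBOut (gaussDatum hG hϖ hd) (Am hG hϖ hd hs) (Ap hG hϖ hd hs) U V d X j σ)
    (hσj : ∀ a : κ, σ (j (j₀ a)) = algebraMap κ E a)
    (x : K) (hx0 : x ≠ 0) {π : κ} (hπ0 : π ≠ 0)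
    (hσx : σ (j (algebraMap K U x)) = algebraMap κ E π * y) :
    ∃ v' : Valuation Kb ℝ≥0, (∀ u : U, v' (u : Kb) = ‖σ (j u)‖₊) ∧
      ∀ ξ : Kb, ξ ^ n = algebraMap K Kb x → ξ ∈ cl v' (maxUnramified k K : Set Kb) := by
  classical
  have hK0 := charZero_K k K
  have hUf := hU.1
  obtain ⟨Om, n1, n2, n3, tOm, uOm, aOm⟩ := exists_big κ E
  letI iκU : Algebra κ U := j₀.toAlgebra
  letI iUOm : Algebra U Om := ((algebraMap E Om).comp (σ.toRingHom.comp j)).toAlgebra
  have hUOm : ∀ u : U, algebraMap U Om u = algebraMap E Om (σ (j u)) := fun _ => rfl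
  have tκ : IsScalarTower κ U Om := IsScalarTower.of_algebraMap_eq fun a => by
    rw [hUOm]
    change _ = algebraMap E Om (σ (j (j₀ a)))
    rw [hσj, ← IsScalarTower.algebraMap_apply]
  have hjπ0 : j₀ π ≠ 0 := (_root_.map_ne_zero j₀).mpr hπ0
  have hEπ0 : algebraMap κ E π ≠ 0 := (_root_.map_ne_zero _).mpr hπ0
  -- `y` comes from `U`
  set xU : U := algebraMap K U x / j₀ π with hxU
  have hyU : σ (j xU) = y := by
    have h1 : ∀ u : U, (σ.toRingHom.comp j) u = σ (j u) := fun _ => rfl
    rw [hxU, ← h1, map_div₀ (σ.toRingHom.comp j), h1, h1, hσx, hσj,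
      mul_div_cancel_left₀ _ hEπ0]
  obtain ⟨k', hk'f, f, z, hf0, hfdiv, hz0, hfz⟩ := hAnn (k := κ) (E := E) (Ω := Om) (U := U)
    (V := V) hG hϖ hd hs hn hsn X j σ hNB hσj xU hyU hUOm
  -- the embedding of `Kb`
  have aU : Algebra.IsAlgebraic U Kb := Algebra.IsAlgebraic.tower_top (K := K) U
  let embA : Kb →ₐ[U] Om := IsAlgClosed.lift
  let emb : Kb →+* Om := embA.toRingHom
  have hemb : ∀ u : U, emb (u : Kb) = algebraMap U Om u := fun u => embA.commutes u
  let v' : Valuation Kb ℝ≥0 := (NormedField.valuation (K := Om)).comap emb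
  have hv' : ∀ a, v' a = ‖emb a‖₊ := fun _ => rfl
  refine ⟨v', fun u => by rw [hv', hemb, hUOm, nnnorm_algebraMap'], ?_⟩
  intro ξ hξ
  -- the constants
  obtain ⟨C', hC'f, hCC', hk'C⟩ := exists_consts (k := k) (A := Kb) emb C
    ((algebraMap U Kb).comp j₀) (fun a => by
      change emb (j₀ a : Kb) = _
      rw [hemb]
      exact (IsScalarTower.algebraMap_apply κ U Om a).symm) hjC hCj k'
  set W : IntermediateField K Kb := U ⊔ KC K C' with hW
  have hWu : IsUnramifiedEverywhere k K W := sup_unr hU C'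
  have hUW : U ≤ W := le_sup_left
  have hCW : ∀ c ∈ C', c ∈ W := fun c hc => (le_sup_right : KC K C' ≤ W) (le_KC hc)
  have hlev : ∀ a : Om, a ∈ lev U Om k' ↔ ∃ b ∈ W, emb b = a := fun a =>
    mem_lev_iff_emb U emb hemb k' C' hk'C a
  -- the isomorphism `lev U Om k' ≃ W`
  let φ : W →+* lev U Om k' :=
    (emb.comp (algebraMap W Kb)).codRestrict (lev U Om k') fun b => (hlev _).mpr ⟨b, b.2, rfl⟩
  have hφ : ∀ b : W, ((φ b : lev U Om k') : Om) = emb (b : Kb) := fun _ => rfl
  have hφb : Function.Bijective φ := by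
    refine ⟨φ.injective, fun a => ?_⟩
    obtain ⟨b, hb, hba⟩ := (hlev a).mp a.2
    exact ⟨⟨b, hb⟩, Subtype.ext hba⟩
  let e : lev U Om k' ≃+* W := (RingEquiv.ofBijective φ hφb).symm
  have he : ∀ a : lev U Om k', emb ((e a : W) : Kb) = (a : Om) := by
    intro a
    have h1 : φ (e a) = a := (RingEquiv.ofBijective φ hφb).apply_symm_apply a
    rw [← hφ, h1]
  set f₀ : W := e f with hf₀
  have hf₀0 : f₀ ≠ 0 := by
    rw [hf₀]
    exact (map_ne_zero_iff e e.injective).mpr hf0
  have hdiv : LDiv k n f₀ := by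
    refine LDiv_transport e (fun a => ?_) hfdiv
    -- constants
    have h1 := he (algebraMap k' (lev U Om k') a)
    obtain ⟨b, hb, hba⟩ := (hk'C _).mp a.2
    have h2 : ((e (algebraMap k' (lev U Om k') a) : W) : Kb) = b := by
      apply emb.injective
      rw [h1, hba]
      rfl
    have h3 : IsIntegral k (⟨b, hb⟩ : C') := Algebra.IsIntegral.isIntegral _
    have h4 : IsIntegral k b := h3.map C'.val
    have h5 : IsIntegral k ((e (algebraMap k' (lev U Om k') a) : W) : Kb) := by
      rw [h2]; exact h4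
    have tW : IsScalarTower k W Kb := tower_kLb W
    exact (isIntegral_algebraMap_iff (algebraMap W Kb).injective).mp h5
  -- the core
  have hπkb : ((j₀ π : U) : Kb) ∈ kb k K := Cof5_669.le_kb C (hjC π)
  have hπKb0 : ((j₀ π : U) : Kb) ≠ 0 := fun h => hjπ0 (Subtype.ext h)
  have hembx : emb (algebraMap K Kb x / ((j₀ π : U) : Kb)) = algebraMap E Om y := by
    have h1 : algebraMap K Kb x / ((j₀ π : U) : Kb) = ((xU : U) : Kb) := by
      rw [hxU]; push_cast; rfl
    rw [h1, hemb, hUOm, hyU]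
  refine last_core x hx0 hn emb hv' hWu hf₀0 hdiv hπkb hπKb0 (z := (z : Om)) ?_ ?_ hξ
  · rw [hf₀, he, hfz, hembx]
  · intro ε hε
    have hden := dense_lev (Ω := Om) hG hd k'
    obtain ⟨F, G, -, hFG⟩ := hden z ε hε
    -- the values of polynomials come from `W`
    have hval : ∀ F : k'[X], ∃ b ∈ W, emb b = ((aeval (yl y k') F : lev E Om k') : Om) := by
      intro F
      rw [coe_aeval_lev, aeval_eq_sum_range]
      have hy1 : ∃ b ∈ W, emb b = algebraMap E Om y :=
        ⟨(xU : Kb), hUW xU.2, by rw [hemb, hUOm, hyU]⟩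
      obtain ⟨by', hby, hby'⟩ := hy1
      have hc : ∀ i, ∃ b ∈ W, emb b = ((F.coeff i : k') : Om) := fun i => by
        obtain ⟨b, hb, hb'⟩ := (hk'C _).mp (F.coeff i).2
        exact ⟨b, hCW b hb, hb'⟩
      choose bc hbc hbc' using hc
      refine ⟨∑ i ∈ Finset.range (F.natDegree + 1), bc i * by' ^ i,
        sum_mem fun i _ => mul_mem (hbc i) (pow_mem hby i), ?_⟩
      rw [map_sum]
      refine Finset.sum_congr rfl fun i _ => ?_
      rw [map_mul, map_pow, hbc', hby', Algebra.smul_def]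
      rfl
    obtain ⟨bF, hbF, hbF'⟩ := hval F
    obtain ⟨bG, hbG, hbG'⟩ := hval G
    refine ⟨bF / bG, div_mem hbF hbG, ?_⟩
    rw [map_div₀, hbF', hbG']
    exact hFG

end main

end Crest.Agent.R013.BRLast_669
end

-- ▼ part R013/EndP_669

/-!
# Row 13, part B, end step: `EndP p` from `AnnP`
-/

set_option autoImplicit false
set_option linter.unusedSectionVars false
set_option linter.style.haveILetI false

namespace Crest.Agent.R013.BRLast_669

open scoped NNReal Topology
open Filter Polynomial Crest.NumberTheoryR.Sect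
open Crest.Agent.R013.SE_669 Crest.Agent.R013.Unr3_957 Crest.Agent.R013.Unr4_957
  Crest.Agent.R013.AnnP_669 Crest.Agent.R013.Set_803 Crest.Agent.R013.VData_803
open Crest.Agent.R013.Gl946 Crest.Agent.R013.NB_92 Crest.Agent.R013.CutCov_92
  Crest.Agent.R013.Half_930
open Crest.Agent.R013.BTor6_914 (Lbar LC)

/-- **The end step** -/
theorem endP (p : ℕ) [Fact p.Prime] (hAnn : AnnP) : TopB_803.EndP p := by
  intro e he s hs hse k _ _ _ K _ _ _ _ _ hc hg P x hP hx π v hNB
  classical
  obtain ⟨C, hCf, hπC, π0, q, c, R, D, hKSD, hπR, E, iE, A, uE, cE, y, hy, hd, ϖ, hϖ, U, V, iV,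
    iEV, d, X, j, σ, hUf, hUM, hCU, hNBO, hσ⟩ := hNB
  haveI hk0 : CharZero k := charZero_of_injective_algebraMap (algebraMap ℚ_[p] k).injective
  letI i1 := nC D.hv C
  haveI := ultra_nC D.hv C
  haveI := complete_nC D.hv C
  haveI := proper_nC D.hv C
  letI := A
  have hC0 : CharZero C := charZero_of_injective_algebraMap (algebraMap k C).injective
  let j₀ : C →+* U := (algebraMap C (AlgebraicClosure K)).codRestrict U fun a => hCU a a.2
  have hj₀ : ∀ a : C, ((j₀ a : U) : AlgebraicClosure K) = a := fun _ => rfl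
  have hCLC : ∀ a ∈ C, a ∈ LC (⊥ : IntermediateField K (AlgebraicClosure K)) C := fun a ha =>
    (le_sup_right : IntermediateField.adjoin K (C : Set (AlgebraicClosure K)) ≤ _)
      (IntermediateField.subset_adjoin K _ ha)
  have hρ0 : (⟨π, hπC⟩ : C) ≠ 0 := fun h => π0 (congrArg Subtype.val h)
  have hσj : ∀ a : C, σ (j (j₀ a)) = algebraMap C E a := fun a =>
    (hσ a (hCLC a a.2) (hCU a a.2) (D.C_le_SD a)).trans
      (D.iota_const A hy ⟨π, hπC⟩ hπR hρ0 a (D.C_le_SD a))
  have hσx : σ (j (algebraMap K U x)) = algebraMap C E ⟨π, hπC⟩ * y :=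
    (hσ (algebraMap K (AlgebraicClosure K) x) (IntermediateField.algebraMap_mem _ x)
      (U.algebraMap_mem x) D.x_mem_SD).trans
      (D.iota_x A hy ⟨π, hπC⟩ hπR hρ0 D.x_mem_SD)
  have hy1 : ‖y‖ = 1 := IsGauss.norm_eq hy
  have hx0 : x ≠ 0 := by
    rintro rfl
    rw [map_zero, map_zero, map_zero] at hσx
    rcases mul_eq_zero.mp hσx.symm with h | h
    · exact hρ0 ((_root_.map_eq_zero _).mp h)
    · rw [h, norm_zero] at hy1; exact zero_ne_one hy1
  have hnC : ∀ a : C, ‖a‖ = v (a : AlgebraicClosure K) := norm_nC D.hv C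
  have hsn : (s : ℝ)⁻¹ ≤ ‖((e : ℕ) : C)‖ ^ 2 := by
    have h1 := D.hv (e : ℚ_[p])
    rw [map_natCast, map_natCast] at h1
    have h2 : (((e : ℕ) : C) : AlgebraicClosure K) = (e : AlgebraicClosure K) := by simp
    rw [hnC, h2, h1]
    exact_mod_cast hse
  have hU : IsUnramifiedEverywhere k K U := Unr5_957.le_maxUnramified_iff.mp hUM
  obtain ⟨v', hv'U, hv'⟩ := end_abs hAnn hy hϖ hd hs he hsn C U hU j₀ (fun a => a.2)
    (fun c hc => ⟨⟨c, hc⟩, rfl⟩) X j σ hNBO hσj x hx0 hρ0 hσx
  obtain ⟨ξ, hξ⟩ := IsAlgClosed.exists_pow_nat_eq (algebraMap K (AlgebraicClosure K) x) he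
  have hv'C : ∀ a ∈ C, v' a = v a := by
    intro a ha
    have h1 := hv'U (j₀ ⟨a, ha⟩)
    rw [hσj, nnnorm_algebraMap'] at h1
    rw [hj₀] at h1
    rw [h1]
    exact NNReal.coe_injective (hnC ⟨a, ha⟩)
  have hLU : LC (⊥ : IntermediateField K (AlgebraicClosure K)) C ≤ U := by
    refine sup_le bot_le ?_
    rw [IntermediateField.adjoin_le_iff]
    exact fun a ha => hCU a ha
  have hLSD : ∀ f ∈ LC (⊥ : IntermediateField K (AlgebraicClosure K)) C, f ∈ D.SD := by
    refine D.sup_le_SDK (L := ⊥) (fun f hf => ?_) (C : Set (AlgebraicClosure K))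
      (fun a ha => D.C_le_SD ⟨a, ha⟩)
    obtain ⟨g, rfl⟩ := IntermediateField.mem_bot.mp hf
    exact hKSD g
  refine ⟨C, ξ, v', hCf, hπC, hv'C π hπC, ?_, ?_, hξ, hv' ξ hξ⟩
  · intro a
    have h1 : algebraMap k (AlgebraicClosure K) (algebraMap ℚ_[p] k a) ∈ C := C.algebraMap_mem _
    rw [hv'C _ h1]
    exact D.hv a
  · refine D.isCircle A hy ⟨π, hπC⟩ hπR hρ0
      (LC (⊥ : IntermediateField K (AlgebraicClosure K)) C).toSubfield hLSD
      (fun f => IntermediateField.algebraMap_mem _ f) hCLC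
      (IntermediateField.algebraMap_mem _ x) v' ?_
    intro f hf
    have h1 := hv'U ⟨f, hLU hf⟩
    rw [hσ f hf (hLU hf) (hLSD f hf)] at h1
    change v' f = _ at h1
    rw [h1]
    rfl

end Crest.Agent.R013.BRLast_669
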