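import Mathlib
import Crest.Agent.R013.GR4_921

-- ▼ part R013/GR1_921
section

/-!
# R013 / GR1: orbit sums modulo `p` (helper921)

Pure combinatorics behind C-GR (post 2715): `σ` a permutation of order `p` without fixed points,
`G` invariant with total sum zero, `d (σ b) - d b + G (σ b) ≡ 0 mod p`. Then `∑ d ≡ 0 mod p`.
-/

set_option autoImplicit false

namespace Crest.Agent.R013.GR1_921

open Finset

section one

variable {B : Type*} [DecidableEq B]

/-- powers of a permutation of prime order without fixed points have no fixed points -/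
theorem pow_ne {p : ℕ} (hp : p.Prime) {σ : Equiv.Perm B} (hσ : σ ^ p = 1) (hfree : ∀ b, σ b ≠ b)
    (b : B) {i : ℕ} (hi : 0 < i) (hip : i < p) : (σ ^ i) b ≠ b := by
  intro h
  have hco : Nat.Coprime i p :=
    ((Nat.Prime.coprime_iff_not_dvd hp).mpr fun hd => by
      have := Nat.le_of_dvd hi hd; omega).symm
  -- `b` is fixed by `σ ^ i` and `σ ^ p`
  have h1 : ∀ n : ℕ, ((σ ^ i) ^ n) b = b := by
    intro n
    induction n with
    | zero => simp
    | succ n ih => rw [pow_succ, Equiv.Perm.mul_apply, h, ih]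
  obtain ⟨n, hn⟩ := Nat.exists_mul_mod_eq_one_of_coprime hco hp.one_lt
  have h2 := h1 n
  rw [← pow_mul, ← Nat.div_add_mod (i * n) p, hn.2, pow_add, pow_mul, hσ, one_pow, one_mul,
    pow_one] at h2
  exact hfree b h2

/-- the orbit -/
def orb (p : ℕ) (σ : Equiv.Perm B) (b : B) : Finset B := (range p).image fun i => (σ ^ i) b

theorem orb_injOn {p : ℕ} (hp : p.Prime) {σ : Equiv.Perm B} (hσ : σ ^ p = 1)
    (hfree : ∀ b, σ b ≠ b) (b : B) : Set.InjOn (fun i => (σ ^ i) b) (range p : Finset ℕ) := by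
  have key : ∀ i j : ℕ, i < j → j < p → (σ ^ i) b ≠ (σ ^ j) b := by
    intro i j hij hj h
    have h1 : σ ^ j = σ ^ i * σ ^ (j - i) := by rw [← pow_add]; congr 1; omega
    rw [h1, Equiv.Perm.mul_apply] at h
    have h2 := (σ ^ i).injective h
    exact pow_ne hp hσ hfree b (i := j - i) (by omega) (by omega) h2.symm
  intro i hi j hj h
  simp only [coe_range, Set.mem_Iio] at hi hj
  by_contra hne
  rcases Nat.lt_or_gt_of_ne hne with h1 | h1
  · exact key i j h1 hj h
  · exact key j i h1 hi h.symm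

theorem mem_orb_self {p : ℕ} (hp : p.Prime) (σ : Equiv.Perm B) (b : B) : b ∈ orb p σ b := by
  unfold orb
  rw [mem_image]
  exact ⟨0, mem_range.mpr hp.pos, by simp⟩

theorem sum_orb {p : ℕ} (hp : p.Prime) {σ : Equiv.Perm B} (hσ : σ ^ p = 1)
    (hfree : ∀ b, σ b ≠ b) (b : B) (f : B → ℤ) :
    ∑ x ∈ orb p σ b, f x = ∑ i ∈ range p, f ((σ ^ i) b) := by
  unfold orb
  rw [sum_image (orb_injOn hp hσ hfree b)]

theorem orb_subset {p : ℕ} {σ : Equiv.Perm B} {b : B} {F : Finset B} (hF : ∀ x ∈ F, σ x ∈ F)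
    (hb : b ∈ F) : orb p σ b ⊆ F := by
  intro x hx
  unfold orb at hx
  rw [mem_image] at hx
  obtain ⟨i, _, rfl⟩ := hx
  have key : ∀ i : ℕ, (σ ^ i) b ∈ F := by
    intro i
    induction i with
    | zero => simpa using hb
    | succ i ih =>
      rw [pow_succ', Equiv.Perm.mul_apply]
      exact hF _ ih
  exact key i

theorem mem_of_apply_mem {p : ℕ} (hp : p.Prime) {σ : Equiv.Perm B} (hσ : σ ^ p = 1) {b x : B}
    (hx : σ x ∈ orb p σ b) : x ∈ orb p σ b := by
  unfold orb at hx ⊢
  rw [mem_image] at hx ⊢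
  obtain ⟨i, hi, h⟩ := hx
  rw [mem_range] at hi
  have hinj := σ.injective
  rcases Nat.eq_zero_or_pos i with h0 | h0
  · subst h0
    refine ⟨p - 1, mem_range.mpr (by have := hp.pos; omega), ?_⟩
    apply hinj
    rw [← h, ← Equiv.Perm.mul_apply, ← pow_succ', Nat.sub_add_cancel hp.one_le, hσ]
    simp
  · refine ⟨i - 1, mem_range.mpr (by omega), ?_⟩
    apply hinj
    rw [← h, ← Equiv.Perm.mul_apply, ← pow_succ', Nat.sub_add_cancel h0]

/-- the sum over a stable finite set -/
theorem orbit_sum {p : ℕ} (hp : p.Prime) {σ : Equiv.Perm B} (hσ : σ ^ p = 1)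
    (hfree : ∀ b, σ b ≠ b) (d G : B → ℤ) (hG : ∀ b, G (σ b) = G b)
    (h : ∀ b, (p : ℤ) ∣ d (σ b) - d b + G b) (n : ℕ) :
    ∀ F : Finset B, F.card ≤ n → (∀ b ∈ F, σ b ∈ F) →
      ∃ m : ℤ, ∑ b ∈ F, G b = p * m ∧
        (p : ℤ) ∣ ∑ b ∈ F, d b + m * ∑ i ∈ range p, (i : ℤ) := by
  induction n with
  | zero =>
    intro F hF _
    have : F = ∅ := Finset.card_eq_zero.mp (by omega)
    subst this
    exact ⟨0, by simp, by simp⟩
  | succ n ih =>
    intro F hF hst
    rcases F.eq_empty_or_nonempty with rfl | ⟨b, hb⟩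
    · exact ⟨0, by simp, by simp⟩
    have hsub := orb_subset (p := p) hst hb
    have hst' : ∀ x ∈ F \ orb p σ b, σ x ∈ F \ orb p σ b := by
      intro x hx
      rw [mem_sdiff] at hx ⊢
      exact ⟨hst x hx.1, fun h' => hx.2 (mem_of_apply_mem hp hσ h')⟩
    have hcard : (F \ orb p σ b).card ≤ n := by
      have h1 : (F \ orb p σ b) ⊂ F := by
        refine ⟨sdiff_subset, fun h' => ?_⟩
        have h2 := h' hb
        rw [mem_sdiff] at h2
        exact h2.2 (mem_orb_self hp σ b)
      have h2 := Finset.card_lt_card h1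
      omega
    obtain ⟨m, hm1, hm2⟩ := ih _ hcard hst'
    have hGi : ∀ i : ℕ, G ((σ ^ i) b) = G b := by
      intro i
      induction i with
      | zero => simp
      | succ i ih => rw [pow_succ', Equiv.Perm.mul_apply, hG, ih]
    have hdi : ∀ i : ℕ, (p : ℤ) ∣ d ((σ ^ i) b) - d b + i * G b := by
      intro i
      induction i with
      | zero => simp
      | succ i ih =>
        have h1 := h ((σ ^ i) b)
        rw [hGi] at h1
        have h2 := dvd_add h1 ih
        rw [pow_succ', Equiv.Perm.mul_apply]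
        have : d (σ ((σ ^ i) b)) - d b + ((i + 1 : ℕ) : ℤ) * G b
            = d (σ ((σ ^ i) b)) - d ((σ ^ i) b) + G b + (d ((σ ^ i) b) - d b + i * G b) := by
          push_cast; ring
        rw [this]; exact h2
    refine ⟨m + G b, ?_, ?_⟩
    · rw [← sum_sdiff hsub, hm1, sum_orb hp hσ hfree, sum_congr rfl fun i _ => hGi i, sum_const,
        card_range]
      simp; ring
    · rw [← sum_sdiff hsub, sum_orb hp hσ hfree]
      have h1 : (p : ℤ) ∣ ∑ i ∈ range p, (d ((σ ^ i) b) - d b + i * G b) :=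
        dvd_sum fun i _ => hdi i
      have h2 : ∑ i ∈ range p, (d ((σ ^ i) b) - d b + i * G b)
          = ∑ i ∈ range p, d ((σ ^ i) b) - p * d b + G b * ∑ i ∈ range p, (i : ℤ) := by
        rw [sum_add_distrib, sum_sub_distrib, sum_const, card_range, ← sum_mul]
        simp; ring
      rw [h2] at h1
      have h3 : (p : ℤ) ∣ p * d b := dvd_mul_right _ _
      have h4 := dvd_add (dvd_add h1 h3) hm2
      have h5 : ∑ b ∈ F \ orb p σ b, d b + ∑ i ∈ range p, d ((σ ^ i) b)
          + (m + G b) * ∑ i ∈ range p, (i : ℤ)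
          = ∑ i ∈ range p, d ((σ ^ i) b) - p * d b + G b * ∑ i ∈ range p, (i : ℤ) + p * d b
            + (∑ b ∈ F \ orb p σ b, d b + m * ∑ i ∈ range p, (i : ℤ)) := by ring
      rw [h5]; exact h4

end one

/-- **orbit sum lemma.** -/
theorem dvd_sum_of_orbit {B : Type*} {p : ℕ} (hp : p.Prime) (σ : Equiv.Perm B) (hσ : σ ^ p = 1)
    (hfree : ∀ b, σ b ≠ b) (d G : B →₀ ℤ) (hG : ∀ b, G (σ b) = G b)
    (h : ∀ b, (p : ℤ) ∣ d (σ b) - d b + G b) (h0 : (G.sum fun _ n => n) = 0) :
    (p : ℤ) ∣ d.sum fun _ n => n := by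
  classical
  let F0 : Finset B := d.support ∪ G.support
  let F : Finset B := F0.biUnion (orb p σ)
  have hF0 : F0 ⊆ F := by
    intro b hb
    exact mem_biUnion.mpr ⟨b, hb, mem_orb_self hp σ b⟩
  have hst : ∀ b ∈ F, σ b ∈ F := by
    intro b hb
    obtain ⟨a, ha, hb⟩ := mem_biUnion.mp hb
    refine mem_biUnion.mpr ⟨a, ha, ?_⟩
    unfold orb at hb ⊢
    rw [mem_image] at hb ⊢
    obtain ⟨i, hi, rfl⟩ := hb
    rw [mem_range] at hi
    rcases Nat.lt_or_ge (i + 1) p with h1 | h1
    · exact ⟨i + 1, mem_range.mpr h1, by rw [pow_succ', Equiv.Perm.mul_apply]⟩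
    · have h2 : i + 1 = p := by omega
      refine ⟨0, mem_range.mpr hp.pos, ?_⟩
      rw [← Equiv.Perm.mul_apply, ← pow_succ', h2, hσ]; simp
  obtain ⟨m, hm1, hm2⟩ := orbit_sum hp hσ hfree d G hG h _ F le_rfl hst
  have hsum : ∀ f : B →₀ ℤ, f.support ⊆ F0 → ∑ b ∈ F, f b = f.sum fun _ n => n := by
    intro f hf
    unfold Finsupp.sum
    symm
    refine sum_subset (hf.trans hF0) ?_
    intro x _ hx
    exact Finsupp.notMem_support_iff.mp hx
  rw [hsum G subset_union_right, h0] at hm1
  have hp0 : (p : ℤ) ≠ 0 := by exact_mod_cast hp.ne_zero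
  have hm0 : m = 0 := by
    rcases mul_eq_zero.mp hm1.symm with h1 | h1
    · exact absurd h1 hp0
    · exact h1
  rw [hm0, zero_mul, add_zero, hsum d subset_union_left] at hm2
  exact hm2

end Crest.Agent.R013.GR1_921
end

-- ▼ part R013/GR5_921
section

/-!
# R013 / GR5: the specialisation map of a norm with good reduction; the main claim of C-GR
(helper921, post 2715)
-/

set_option autoImplicit false
set_option linter.all false

namespace Crest.Agent.R013.GR5_921

open Polynomial WithZero Module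
open scoped NNReal
open Crest.Agent.R013.RR7_948 Crest.Agent.R013.RR8_948 Crest.Agent.R013.RR9_948
open Crest.Agent.R013.RR11_948 Crest.Agent.R013.RR12_948
open Crest.Agent.R013.RR18_948 Crest.Agent.R013.RR19_948
open Crest.Agent.R013.RR21_948
open Crest.Agent.R013.GR1_921 Crest.Agent.R013.GR2_921 Crest.Agent.R013.GR4_921

/-! ### Hilbert 90 -/

theorem hilbert90 {F : Type*} [Field F] (σ : F ≃+* F) {p : ℕ} (hp : p.Prime) (hσ : σ ^ p = 1)
    (hne : σ ≠ 1) {y : F} (hy : ∏ i ∈ Finset.range p, (σ ^ i) y = 1) :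
    ∃ ψ : F, ψ ≠ 0 ∧ y * σ ψ = ψ := by
  classical
  let a : ℕ → F := fun n => ∏ i ∈ Finset.range n, (σ ^ i) y
  have ha0 : a 0 = 1 := by simp [a]
  have hap : a p = 1 := hy
  have hstep : ∀ n, y * σ (a n) = a (n + 1) := by
    intro n
    show y * σ (∏ i ∈ Finset.range n, (σ ^ i) y) = ∏ i ∈ Finset.range (n + 1), (σ ^ i) y
    rw [map_prod, Finset.prod_range_succ', pow_zero, mul_comm]
    congr 1
    refine Finset.prod_congr rfl fun i _ => ?_
    rw [pow_succ']; rfl
  -- powers are distinct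
  have hinj : Function.Injective fun i : Fin p => ((σ ^ (i : ℕ) : F ≃+* F) : F →* F) := by
    intro i j hij
    haveI : Fact p.Prime := ⟨hp⟩
    have hord : orderOf σ = p := orderOf_eq_prime hσ hne
    have h1 : σ ^ (i : ℕ) = σ ^ (j : ℕ) := by
      ext x
      exact DFunLike.congr_fun hij x
    have h2 := pow_inj_mod.mp h1
    rw [hord, Nat.mod_eq_of_lt i.2, Nat.mod_eq_of_lt j.2] at h2
    exact Fin.ext h2
  have hli := (linearIndependent_monoidHom F F).comp _ hinj
  have hne0 : ∑ i : Fin p, a i • (fun x : F => (σ ^ (i : ℕ)) x) ≠ 0 := by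
    intro h0
    have h1 := Fintype.linearIndependent_iff.mp hli (fun i => a i) (by
      rw [← h0]; rfl) ⟨0, hp.pos⟩
    simp only [ha0] at h1
    exact one_ne_zero h1
  obtain ⟨θ, hθ⟩ := Function.ne_iff.mp hne0
  let ψ : F := ∑ i ∈ Finset.range p, a i * (σ ^ i) θ
  have hψ : ψ ≠ 0 := by
    intro h0
    apply hθ
    rw [Finset.sum_apply, Pi.zero_apply, ← h0]
    show _ = ∑ i ∈ Finset.range p, a i * (σ ^ i) θ
    rw [Finset.sum_range]
    rfl
  refine ⟨ψ, hψ, ?_⟩
  have h1 : y * σ ψ = ∑ i ∈ Finset.range p, a (i + 1) * (σ ^ (i + 1)) θ := by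
    show y * σ (∑ i ∈ Finset.range p, a i * (σ ^ i) θ) = _
    rw [map_sum, Finset.mul_sum]
    refine Finset.sum_congr rfl fun i _ => ?_
    rw [map_mul, ← mul_assoc, hstep, pow_succ']; rfl
  have h2 : ∑ i ∈ Finset.range (p + 1), a i * (σ ^ i) θ
      = (∑ i ∈ Finset.range p, a (i + 1) * (σ ^ (i + 1)) θ) + a 0 * (σ ^ 0) θ :=
    Finset.sum_range_succ' _ _
  have h3 : ∑ i ∈ Finset.range (p + 1), a i * (σ ^ i) θ = ψ + a p * (σ ^ p) θ :=
    Finset.sum_range_succ _ _
  rw [h1]
  rw [h3, hap, ha0, hσ, pow_zero] at h2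
  exact (add_right_cancel h2).symm

/-! ### divisors -/

section mapDomain

variable {A B : Type*}

theorem mapDomain_nonneg_of (D : A →₀ ℤ) (f : A → B) (b : B) (h : ∀ a, f a = b → 0 ≤ D a) :
    0 ≤ D.mapDomain f b := by
  classical
  unfold Finsupp.mapDomain Finsupp.sum
  rw [Finsupp.finsetSum_apply]
  refine Finset.sum_nonneg fun a _ => ?_
  rw [Finsupp.single_apply]
  split_ifs with h1
  · exact h a h1
  · exact le_refl _

theorem sum_mapDomain (D : A →₀ ℤ) (f : A → B) :
    ((D.mapDomain f).sum fun _ n => n) = D.sum fun _ n => n :=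
  Finsupp.sum_mapDomain_index (fun _ => rfl) (fun _ _ _ => rfl)

end mapDomain

section poles

variable {k : Type*} [Field k] [IsAlgClosed k] {κ : Type*} [Field κ] [Algebra k κ]
  [Algebra (RatFunc k) κ] [IsScalarTower k (RatFunc k) κ] [FiniteDimensional (RatFunc k) κ]
  [Algebra.IsSeparable (RatFunc k) κ]

theorem exists_pole {z : κ} (hz : z ∉ Set.range (algebraMap k κ)) : ∃ b : Pl k κ, 1 < b.v z := by
  by_contra hcon
  push Not at hcon
  have h1 := isAlgebraic_of_no_poles (k := k) hcon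
  have h2 : z ∈ algebraicClosure k κ := mem_algebraicClosure_iff.mpr h1
  rw [hc_of_isAlgClosed (k := k) (K := κ), IntermediateField.mem_bot] at h2
  exact hz h2

theorem divf_neg_of_pole {z : κ} {b : Pl k κ} (h : 1 < b.v z) : divf (k := k) z b < 0 := by
  have hz : z ≠ 0 := by rintro rfl; simp at h
  rw [v_eq hz, ← exp_zero, exp_lt_exp] at h
  omega

theorem divf_nonneg_of_le {z : κ} {b : Pl k κ} (h : b.v z ≤ 1) : 0 ≤ divf (k := k) z b := by
  by_cases hz : z = 0
  · rw [hz]; unfold divf; rw [dif_pos rfl]; rfl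
  rw [v_eq hz, ← exp_zero, exp_le_exp] at h
  omega

/-- a separating transcendental residue exists -/
theorem exists_notMem_range : ∃ z : κ, z ∉ Set.range (algebraMap k κ) := by
  refine ⟨xK k κ, ?_⟩
  rintro ⟨c, hc⟩
  have h1 := RR20_948.transcendental_xK (k := k) (K := κ)
  rw [← hc] at h1
  exact h1 (isAlgebraic_algebraMap c)

end poles

section sp

variable {C : Type*} [Field C] [IsAlgClosed C] [CharZero C] {L : Type*} [Field L] [Algebra C L]
  [Algebra (RatFunc C) L] [IsScalarTower C (RatFunc C) L] [FiniteDimensional (RatFunc C) L]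
  {k κ : Type*} [Field k] [IsAlgClosed k] [Field κ] [Algebra k κ]
  [Algebra (RatFunc k) κ] [IsScalarTower k (RatFunc k) κ] [FiniteDimensional (RatFunc k) κ]
  [Algebra.IsSeparable (RatFunc k) κ]
  {vC : Valuation C ℝ≥0} {ρC : C → k} {w : Valuation L ℝ≥0} {ρ : L → κ}

/-- the specialisation property: divisors of functions of norm one reduce to the divisors of their
reductions -/
def SpP (w : Valuation L ℝ≥0) (ρ : L → κ) (sp : Pl C L → Pl k κ) : Prop :=
  ∀ u, w u = 1 → divf (k := k) (ρ u) = (divf (k := C) u).mapDomain sp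

theorem sp_eq_of_pole {sp : Pl C L → Pl k κ} (hsp : SpP w ρ sp) {u : L} {P : Pl C L}
    (hu : ∀ Q, Q ≠ P → Q.v u ≤ 1) (hwu : w u = 1) {b : Pl k κ} (hb : 1 < b.v (ρ u)) :
    sp P = b := by
  by_contra hne
  have h1 := divf_neg_of_pole hb
  rw [hsp u hwu] at h1
  refine absurd (mapDomain_nonneg_of (divf (k := C) u) sp b fun Q hQ => ?_) (not_le.mpr h1)
  apply divf_nonneg_of_le
  apply hu
  rintro rfl
  exact hne hQ

/-- a function with only pole `P` and non constant residue of norm one -/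
theorem exists_fun (h : Red vC ρC w ρ) (P : Pl C L) :
    ∃ u : L, (∀ Q, Q ≠ P → Q.v u ≤ 1) ∧ w u = 1 ∧ ρ u ∉ Set.range (algebraMap k κ) := by
  obtain ⟨f, hf1, hf2⟩ := exists_pole_order (k := C) (K := L) hc_of_isAlgClosed P
    (2 * gen C L + 2) (by rw [degP_eq_one]; push_cast; linarith) (by omega)
  have htr : Transcendental C f := by
    intro halg
    have h1 : f ∈ algebraicClosure C L := mem_algebraicClosure_iff.mpr halg
    rw [hc_of_isAlgClosed (k := C) (K := L), IntermediateField.mem_bot] at h1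
    obtain ⟨c, rfl⟩ := h1
    by_cases hc : c = 0
    · rw [hc, map_zero, map_zero] at hf1
      exact exp_ne_zero hf1.symm
    · rw [P.const c hc, ← exp_zero, exp_inj] at hf1
      push_cast at hf1
      omega
  obtain ⟨a, c, hc0, h1, h2⟩ := exists_good_lift h exists_notMem_range htr
  refine ⟨_, fun Q hQ => ?_, h1, h2⟩
  have hconst : ∀ c : C, Q.v (algebraMap C L c) ≤ 1 := by
    intro c
    by_cases hc : c = 0
    · simp [hc]
    · rw [Q.const c hc]
  rw [map_mul]
  exact mul_le_one' ((Valuation.map_sub _ _ _).trans (max_le (hf2 Q hQ) (hconst a))) (hconst _)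

/-- **equivariance** of the specialisation map -/
theorem sp_equivariant (h : Red vC ρC w ρ) {sp : Pl C L → Pl k κ} (hsp : SpP w ρ sp)
    {σ : L ≃ₐ[C] L} (hσ : ∀ x, w (σ x) = w x) {σb : κ ≃ₐ[k] κ}
    (hσb : ∀ x, w x ≤ 1 → ρ (σ x) = σb (ρ x)) (P : Pl C L) :
    sp (mapPl σ P) = mapPl σb (sp P) := by
  obtain ⟨u, hu1, hu2, hu3⟩ := exists_fun h P
  obtain ⟨b, hb⟩ := exists_pole hu3
  rw [sp_eq_of_pole hsp hu1 hu2 hb]
  apply sp_eq_of_pole hsp (u := σ u) (P := mapPl σ P) ?_ (by rw [hσ, hu2])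
  · rw [hσb u hu2.le, mapPl_v_apply]; exact hb
  · intro Q hQ
    have h1 := hu1 (mapPl σ.symm Q) (by
      intro h2; apply hQ; rw [← h2, mapPl_mapPl_symm])
    exact h1

theorem mapDomain_mapD (h : Red vC ρC w ρ) {sp : Pl C L → Pl k κ} (hsp : SpP w ρ sp)
    {σ : L ≃ₐ[C] L} (hσ : ∀ x, w (σ x) = w x) {σb : κ ≃ₐ[k] κ}
    (hσb : ∀ x, w x ≤ 1 → ρ (σ x) = σb (ρ x)) (E : Pl C L →₀ ℤ) :
    (mapD σ E).mapDomain sp = mapD σb (E.mapDomain sp) := by
  have h1 : mapD σ E = E.mapDomain (mapPl σ) := by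
    unfold mapD
    rw [Finsupp.domCongr_apply, Finsupp.equivMapDomain_eq_mapDomain]; rfl
  have h2 : mapD σb (E.mapDomain sp) = (E.mapDomain sp).mapDomain (mapPl σb) := by
    unfold mapD
    rw [Finsupp.domCongr_apply, Finsupp.equivMapDomain_eq_mapDomain]; rfl
  rw [h1, h2, ← Finsupp.mapDomain_comp, ← Finsupp.mapDomain_comp]
  congr 1
  funext P
  exact sp_equivariant h hsp hσ hσb P

end sp

section main

variable {C : Type*} [Field C] [IsAlgClosed C] [CharZero C]
  {K : Type*} [Field K] [Algebra C K]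
  {L : Type*} [Field L] [Algebra C L] [Algebra K L] [IsScalarTower C K L]
  [Algebra (RatFunc C) L] [IsScalarTower C (RatFunc C) L] [FiniteDimensional (RatFunc C) L]
  {k κ : Type*} [Field k] [IsAlgClosed k] [Field κ] [Algebra k κ]
  [Algebra (RatFunc k) κ] [IsScalarTower k (RatFunc k) κ] [FiniteDimensional (RatFunc k) κ]
  [Algebra.IsSeparable (RatFunc k) κ]
  {vC : Valuation C ℝ≥0} {ρC : C → k} {w : Valuation L ℝ≥0} {ρ : L → κ}

theorem w_pow {σ : L ≃ₐ[K] L} (hσ : ∀ x, w (σ x) = w x) (i : ℕ) (x : L) :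
    w ((σ ^ i) x) = w x := by
  induction i with
  | zero => rfl
  | succ i ih => rw [pow_succ', AlgEquiv.mul_apply, hσ, ih]

theorem res_pow {σ : L ≃ₐ[K] L} (hσ : ∀ x, w (σ x) = w x) {σb : κ ≃ₐ[k] κ}
    (hσb : ∀ x, w x ≤ 1 → ρ (σ x) = σb (ρ x)) (i : ℕ) {x : L} (hx : w x ≤ 1) :
    ρ ((σ ^ i) x) = (σb ^ i) (ρ x) := by
  induction i with
  | zero => rfl
  | succ i ih =>
    rw [pow_succ', AlgEquiv.mul_apply, hσb _ (by rw [w_pow hσ]; exact hx), ih, pow_succ',
      AlgEquiv.mul_apply]

theorem sb_pow (h : Red vC ρC w ρ) {p : ℕ} {σ : L ≃ₐ[K] L} (hσp : σ ^ p = 1)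
    (hσ : ∀ x, w (σ x) = w x) {σb : κ ≃ₐ[k] κ}
    (hσb : ∀ x, w x ≤ 1 → ρ (σ x) = σb (ρ x)) : σb ^ p = 1 := by
  ext y
  obtain ⟨x, hx, rfl⟩ := h.res.surj y
  rw [← res_pow hσ hσb p hx, hσp]; rfl

/-- **main claim** of C-GR -/
theorem main_claim (h : Red vC ρC w ρ) {sp : Pl C L → Pl k κ} (hsp : SpP w ρ sp) {p : ℕ}
    (hp : p.Prime) {σ : L ≃ₐ[K] L} (hσp : σ ^ p = 1) (hσ : ∀ x, w (σ x) = w x)
    {σb : κ ≃ₐ[k] κ} (hσb : ∀ x, w x ≤ 1 → ρ (σ x) = σb (ρ x))
    (hfree : ∀ b : Pl k κ, mapPl σb b ≠ b) {Q : Pl C L} {V : Pl C L →₀ ℤ} {f : L} (hf : w f = 1)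
    (hdiv : Finsupp.single Q 1 - Finsupp.single (mapPl (σ.restrictScalars C) Q) 1
      = (p : ℤ) • V + divf (k := C) f)
    {h0 : K} (hh : algebraMap K L h0 = ∏ i ∈ Finset.range p, (σ ^ i) f) :
    ¬ ∃ g : K, w (algebraMap K L g) = 1 ∧ ρ (algebraMap K L (h0 * g ^ p)) = 1 := by
  classical
  rintro ⟨g, hg, hρ⟩
  set g' := algebraMap K L g with hg'
  have hσg : ∀ i : ℕ, (σ ^ i) g' = g' := fun i => AlgEquiv.commutes _ _
  have hσbp := sb_pow h hσp hσ hσb
  have hσbne : σb ≠ 1 := by
    rintro rfl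
    obtain ⟨b, _⟩ := exists_notMem (k := k) (K := κ) ∅
    exact hfree b (mapPl_one b)
  -- the element `x = f g` has norm with reduction one
  have hfg : w (f * g') = 1 := by rw [map_mul, hf, hg, one_mul]
  have hprod : ∏ i ∈ Finset.range p, (σb ^ i) (ρ (f * g')) = 1 := by
    have h1 : ∀ i ∈ Finset.range p, (σb ^ i) (ρ (f * g')) = ρ ((σ ^ i) (f * g')) := fun i _ =>
      (res_pow hσ hσb i hfg.le).symm
    rw [Finset.prod_congr rfl h1, ← h.res.prod _ _ (fun i _ => by rw [w_pow hσ]; exact hfg.le)]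
    have h2 : ∏ i ∈ Finset.range p, (σ ^ i) (f * g') = algebraMap K L (h0 * g ^ p) := by
      have h3 : ∏ i ∈ Finset.range p, (σ ^ i) (f * g')
          = ∏ i ∈ Finset.range p, ((σ ^ i) f * g') :=
        Finset.prod_congr rfl fun i _ => by rw [map_mul, hσg]
      rw [h3, Finset.prod_mul_distrib, Finset.prod_const, Finset.card_range, map_mul, map_pow, hh]
    rw [h2, hρ]
  have hpowb : ∀ (i : ℕ) (y : κ), ((σb : κ ≃+* κ) ^ i) y = (σb ^ i) y := by
    intro i y
    induction i with
    | zero => rfl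
    | succ i ih => rw [pow_succ', pow_succ', AlgEquiv.mul_apply, ← ih]; rfl
  obtain ⟨ψb, hψb0, hψb⟩ := hilbert90 (σb : κ ≃+* κ) hp (by
      ext y
      rw [hpowb, hσbp]; rfl) (by
      intro h1
      apply hσbne
      ext y
      exact DFunLike.congr_fun h1 y) (y := ρ (f * g')) (by
      rw [← hprod]
      exact Finset.prod_congr rfl fun i _ => hpowb i _)
  obtain ⟨ψ, hψ, hψρ⟩ := h.res.lift hψb0
  have hψ0 : ψ ≠ 0 := by rintro rfl; simp at hψ
  have hσψ : w (σ ψ) = 1 := by rw [hσ, hψ]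
  have hσψ0 : σ ψ ≠ 0 := by simpa using hψ0
  have hf0 : f ≠ 0 := by rintro rfl; simp at hf
  have hg0 : g' ≠ 0 := by rintro h1; rw [h1] at hg; simp at hg
  set f' := f * g' * σ ψ / ψ with hf'
  have hwf' : w f' = 1 := by rw [hf', map_div₀, map_mul, hfg, hσψ, hψ]; simp
  have hρf' : ρ f' = 1 := by
    rw [hf', h.res.div (by rw [map_mul, hfg, hσψ, one_mul]) hψ,
      h.res.mul _ _ hfg.le hσψ.le, hσb ψ hψ.le, hψρ]
    have h1 : ρ (f * g') * σb ψb = ψb := hψb
    rw [h1, div_self hψb0]
  -- divisors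
  have hdσ : divf (k := C) (σ ψ) = mapD (σ.restrictScalars C) (divf ψ) :=
    divf_map (σ.restrictScalars C) ψ
  have hdivf' : divf (k := C) f' = divf f + divf g' + mapD (σ.restrictScalars C) (divf ψ)
      - divf ψ := by
    rw [hf', div_eq_mul_inv, divf_mul (mul_ne_zero (mul_ne_zero hf0 hg0) hσψ0) (inv_ne_zero hψ0),
      divf_mul (mul_ne_zero hf0 hg0) hσψ0, divf_mul hf0 hg0, divf_inv hψ0, hdσ, sub_eq_add_neg]
  set E : Pl C L →₀ ℤ := Finsupp.single Q 1 - divf ψ with hE
  have hE' : divf (k := C) f' = E - mapD (σ.restrictScalars C) E - (p : ℤ) • V + divf g' := by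
    have h1 : divf (k := C) f = Finsupp.single Q 1
        - Finsupp.single (mapPl (σ.restrictScalars C) Q) 1 - (p : ℤ) • V := by
      rw [hdiv]; abel
    rw [hdivf', h1, hE, map_sub, mapD_single]
    abel
  have hsp' := hsp f' hwf'
  have hd1 : divf (k := k) (1 : κ) = 0 := divf_one
  have hσres : ∀ x, w ((σ.restrictScalars C) x) = w x := hσ
  have hσbres : ∀ x, w x ≤ 1 → ρ ((σ.restrictScalars C) x) = σb (ρ x) := hσb
  set d : Pl k κ →₀ ℤ := E.mapDomain sp with hd
  set V' : Pl k κ →₀ ℤ := V.mapDomain sp with hV'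
  have hmap : ((E - mapD (σ.restrictScalars C) E - (p : ℤ) • V + divf g').mapDomain sp)
      = d - mapD σb d - (p : ℤ) • V' + divf (k := k) (ρ g') := by
    have hadd : ∀ X Y : Pl C L →₀ ℤ, (X + Y).mapDomain sp = X.mapDomain sp + Y.mapDomain sp :=
      fun X Y => Finsupp.mapDomain_add
    have hneg : ∀ X : Pl C L →₀ ℤ, (-X).mapDomain sp = -(X.mapDomain sp) := fun X =>
      map_neg (Finsupp.mapDomain.addMonoidHom sp) X
    rw [sub_eq_add_neg, sub_eq_add_neg, hadd, hadd, hadd, hneg, hneg, hsp g' hg,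
      mapDomain_mapD h hsp hσres hσbres, Finsupp.mapDomain_smul, ← sub_eq_add_neg,
      ← sub_eq_add_neg]
  rw [hρf', hd1, hE', hmap] at hsp'
  -- invariance of `G`
  set G : Pl k κ →₀ ℤ := divf (k := k) (ρ g') with hG
  have hGinv : ∀ b, G (plEquiv σb b) = G b := by
    intro b
    have h1 : σb (ρ g') = ρ g' := by
      rw [← hσb g' hg.le]
      congr 1
      exact hσg 1
    have h2 : mapD σb G = G := by rw [hG, ← divf_map, h1]
    rw [plEquiv_apply]
    conv_lhs => rw [← h2]
    rw [mapD_mapPl]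
  have hdvd := dvd_sum_of_orbit hp (plEquiv σb) (by
      ext b : 1
      have h1 : ∀ i : ℕ, ((plEquiv σb : Equiv.Perm (Pl k κ)) ^ i) b = mapPl (σb ^ i) b := by
        intro i
        induction i with
        | zero => exact (mapPl_one b).symm
        | succ i ih => rw [pow_succ', pow_succ', Equiv.Perm.mul_apply, ih, mapPl_mul]; rfl
      rw [h1, hσbp, mapPl_one]; rfl) hfree d G hGinv (by
      intro b
      have h1 := DFunLike.congr_fun hsp' (mapPl σb b)
      rw [Finsupp.zero_apply, Finsupp.add_apply, Finsupp.sub_apply, Finsupp.sub_apply, mapD_mapPl,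
        Finsupp.smul_apply, smul_eq_mul] at h1
      have h2 := hGinv b
      rw [plEquiv_apply] at h2 ⊢
      rw [h2] at h1
      exact ⟨V' (mapPl σb b), by linarith⟩) (by
      rw [← degD_eq_sum, hG]
      exact degD_divf (by rw [h.res.ne_zero_iff hg.le]; exact hg))
  rw [hd, sum_mapDomain, ← degD_eq_sum, hE, degD_sub, degD_single, degD_divf hψ0,
    degP_eq_one] at hdvd
  have h1 : (p : ℤ) ∣ 1 := by simpa using hdvd
  have h2 : p ∣ 1 := by exact_mod_cast h1
  exact hp.one_lt.ne' (Nat.dvd_one.mp h2)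

end main

end Crest.Agent.R013.GR5_921
end

-- ▼ part R013/GR6_921

/-!
# R013 / GR6: orthonormal bases, reductions of finite dimensional subspaces, degrees of reductions
(helper921)

* `HasON vC w V` : the `C`-subspace `V` of `L` has a finite `w`-orthonormal basis;
  `HasON.mono`, `Orth` (all finite dimensional subspaces);
* `red h V` reduction of a subspace, `finrank_red`;
* `degD_poles_red_le` = (DEG): `deg ρ(u) ≤ deg u`.
-/

set_option autoImplicit false
set_option linter.all false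

namespace Crest.Agent.R013.GR6_921

open Polynomial WithZero Module
open scoped NNReal
open Crest.Agent.R013.RR7_948 Crest.Agent.R013.RR8_948 Crest.Agent.R013.RR9_948
open Crest.Agent.R013.RR11_948 Crest.Agent.R013.RR12_948
open Crest.Agent.R013.RR18_948 Crest.Agent.R013.RR19_948 Crest.Agent.R013.RR20_948
open Crest.Agent.R013.RR21_948
open Crest.Agent.R013.GR1_921 Crest.Agent.R013.GR2_921 Crest.Agent.R013.GR4_921
open Crest.Agent.R013.GR5_921

section echelon

variable {C : Type*} [Field C] (vC : Valuation C ℝ≥0)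

/-- subspaces of `C^n` with the maximum norm have orthonormal bases -/
theorem echelon {ι : Type} [Fintype ι] (n : ℕ) :
    ∀ W : Submodule C (ι → C), finrank C W ≤ n →
    ∃ (m : ℕ) (y : Fin m → (ι → C)), (∀ j, y j ∈ W) ∧ W ≤ Submodule.span C (Set.range y) ∧
      (∀ j i, vC (y j i) ≤ 1) ∧
      ∀ (c : Fin m → C) (j : Fin m), ∃ i, vC (c j) ≤ vC ((∑ l, c l • y l) i) := by
  classical
  induction n with
  | zero =>
    intro W hW
    refine ⟨0, Fin.elim0, fun j => j.elim0, ?_, fun j => j.elim0, fun c j => j.elim0⟩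
    have : finrank C W = 0 := by omega
    rw [Submodule.finrank_eq_zero.mp this]
    exact bot_le
  | succ n ih =>
    intro W hW
    by_cases h0 : W = ⊥
    · refine ⟨0, Fin.elim0, fun j => j.elim0, ?_, fun j => j.elim0, fun c j => j.elim0⟩
      rw [h0]; exact bot_le
    obtain ⟨x, hxW, hx0⟩ := Submodule.exists_mem_ne_zero_of_ne_bot h0
    obtain ⟨i1, hi1⟩ := Function.ne_iff.mp hx0
    obtain ⟨i0, _, hmax⟩ := Finset.exists_max_image Finset.univ (fun i => vC (x i))
      ⟨i1, Finset.mem_univ _⟩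
    have hxi0 : x i0 ≠ 0 := by
      intro h
      have h1 := hmax i1 (Finset.mem_univ _)
      rw [h, map_zero] at h1
      exact hi1 ((Valuation.zero_iff vC).mp (le_antisymm h1 zero_le))
    -- normalised vector
    let x' : ι → C := (x i0)⁻¹ • x
    have hx'W : x' ∈ W := W.smul_mem _ hxW
    have hx'i0 : x' i0 = 1 := by simp [x', hxi0]
    have hx'le : ∀ i, vC (x' i) ≤ 1 := by
      intro i
      show vC ((x i0)⁻¹ * x i) ≤ 1
      rw [map_mul, map_inv₀]
      have h1 := hmax i (Finset.mem_univ _)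
      have h2 : 0 < vC (x i0) := by rw [Valuation.pos_iff]; exact hxi0
      rw [inv_mul_le_iff₀ h2, mul_one]
      exact h1
    let W' : Submodule C (ι → C) := W ⊓ LinearMap.ker (LinearMap.proj (R := C) (φ := fun _ => C) i0)
    have hlt : finrank C W' < finrank C W := by
      apply Submodule.finrank_lt_finrank_of_lt
      refine lt_of_le_of_ne inf_le_left ?_
      intro heq
      have h1 : x' ∈ W' := by rw [heq]; exact hx'W
      have h2 : x' i0 = 0 := h1.2
      rw [hx'i0] at h2
      exact one_ne_zero h2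
    obtain ⟨m, y, hy1, hy2, hy3, hy4⟩ := ih W' (by omega)
    refine ⟨m + 1, Fin.cons x' y, ?_, ?_, ?_, ?_⟩
    · intro j
      refine Fin.cases hx'W (fun j => ?_) j
      exact (hy1 j).1
    · intro z hz
      have h1 : z - z i0 • x' ∈ W' := by
        refine ⟨W.sub_mem hz (W.smul_mem _ hx'W), ?_⟩
        rw [SetLike.mem_coe, LinearMap.mem_ker]
        show z i0 - z i0 * x' i0 = 0
        rw [hx'i0]; ring
      have h2 := hy2 h1
      have h3 : z = (z - z i0 • x') + z i0 • x' := by abel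
      rw [h3, Fin.range_cons, Submodule.span_insert]
      refine Submodule.add_mem _ (Submodule.mem_sup_right h2) (Submodule.mem_sup_left ?_)
      exact Submodule.smul_mem _ _ (Submodule.mem_span_singleton_self x')
    · intro j i
      refine Fin.cases (hx'le i) (fun j => ?_) j
      exact hy3 j i
    · intro c j
      have hsum : ∑ l, c l • (Fin.cons x' y : Fin (m + 1) → (ι → C)) l
          = c 0 • x' + ∑ l, c (Fin.succ l) • y l := by
        rw [Fin.sum_univ_succ]; rfl
      rw [hsum]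
      have hi0 : (c 0 • x' + ∑ l, c (Fin.succ l) • y l) i0 = c 0 := by
        have h1 : (∑ l, c (Fin.succ l) • y l) i0 = 0 := by
          have h2 : (∑ l, c (Fin.succ l) • y l) ∈ W' :=
            Submodule.sum_mem _ fun l _ => Submodule.smul_mem _ _ (hy1 l)
          exact h2.2
        rw [Pi.add_apply, h1, Pi.smul_apply, hx'i0, smul_eq_mul, mul_one, add_zero]
      refine Fin.cases ⟨i0, by rw [hi0]⟩ (fun j => ?_) j
      by_contra hcon
      push Not at hcon
      obtain ⟨i, hi⟩ := hy4 (fun l => c (Fin.succ l)) j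
      have h1 := hcon i
      have h2 := hcon i0
      rw [hi0] at h2
      have h3 : (∑ l, c (Fin.succ l) • y l) i
          = (c 0 • x' + ∑ l, c (Fin.succ l) • y l) i - c 0 * x' i := by
        rw [Pi.add_apply, Pi.smul_apply, smul_eq_mul]; ring
      have h4 : vC ((∑ l, c (Fin.succ l) • y l) i) < vC (c (Fin.succ j)) := by
        rw [h3]
        refine lt_of_le_of_lt (Valuation.map_sub _ _ _) (max_lt h1 ?_)
        rw [map_mul]
        exact lt_of_le_of_lt (mul_le_of_le_one_right' (hx'le i)) h2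
      exact absurd hi (not_le.mpr h4)

variable {L : Type*} [Field L] [Algebra C L] (w : Valuation L ℝ≥0)

/-- `V` has a finite orthonormal basis -/
def HasON (V : Submodule C L) : Prop :=
  ∃ (m : ℕ) (b : Fin m → L), (∀ i, b i ∈ V) ∧ V ≤ Submodule.span C (Set.range b) ∧
    (∀ i, w (b i) ≤ 1) ∧ ∀ (c : Fin m → C) i, vC (c i) ≤ w (∑ j, c j • b j)

/-- every finite dimensional `C`-subspace has an orthonormal basis -/
def Orth : Prop := ∀ V : Submodule C L, FiniteDimensional C V → HasON vC w V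

variable {vC w}

/-- orthonormal families indexed by any finite type -/
theorem HasON.of_family {ι : Type} [Fintype ι] {V : Submodule C L}
    (hn : ∀ c : C, w (algebraMap C L c) = vC c) (b : ι → L)
    (h1 : ∀ i, b i ∈ V) (h2 : V ≤ Submodule.span C (Set.range b)) (h3 : ∀ i, w (b i) ≤ 1)
    (h4 : ∀ (c : ι → C) i, vC (c i) ≤ w (∑ j, c j • b j)) : HasON vC w V := by
  classical
  let e := Fintype.equivFin ι
  refine ⟨Fintype.card ι, b ∘ e.symm, fun i => h1 _, ?_, fun i => h3 _, fun c i => ?_⟩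
  · rw [Set.range_comp, Equiv.range_eq_univ, Set.image_univ]; exact h2
  · have h5 := h4 (c ∘ e) (e.symm i)
    rw [Function.comp_apply, Equiv.apply_symm_apply] at h5
    have h6 : ∑ j, (c ∘ e) j • b j = ∑ j, c j • (b ∘ e.symm) j := by
      rw [← Equiv.sum_comp e]
      refine Finset.sum_congr rfl fun j _ => ?_
      simp
    rw [h6] at h5
    exact h5

theorem HasON.mono (hn : ∀ c : C, w (algebraMap C L c) = vC c) {V V' : Submodule C L}
    (h : HasON vC w V) (hle : V' ≤ V) : HasON vC w V' := by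
  classical
  obtain ⟨m, b, hb1, hb2, hb3, hb4⟩ := h
  let T : (Fin m → C) →ₗ[C] L := Fintype.linearCombination C b
  have hT : ∀ c, T c = ∑ j, c j • b j := fun c => Fintype.linearCombination_apply C b c
  obtain ⟨m', y, hy1, hy2, hy3, hy4⟩ := echelon vC _ (V'.comap T) le_rfl
  refine ⟨m', fun j => T (y j), fun j => hy1 j, ?_, ?_, ?_⟩
  · intro z hz
    have h1 : z ∈ Submodule.span C (Set.range b) := hb2 (hle hz)
    rw [← Fintype.range_linearCombination, LinearMap.mem_range] at h1
    obtain ⟨c, hc⟩ := h1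
    have h2 : c ∈ V'.comap T := by
      rw [Submodule.mem_comap]
      have : T c = z := hc
      rw [this]; exact hz
    have h3 := hy2 h2
    have h4 : T c ∈ (Submodule.span C (Set.range y)).map T := Submodule.mem_map_of_mem h3
    rw [Submodule.map_span, ← Set.range_comp] at h4
    have : T c = z := hc
    rw [this] at h4
    exact h4
  · intro j
    show w (T (y j)) ≤ 1
    rw [hT]
    refine Valuation.map_sum_le _ fun i _ => ?_
    rw [Algebra.smul_def, map_mul, hn]
    exact mul_le_one' (hy3 j i) (hb3 i)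
  · intro c j
    obtain ⟨i, hi⟩ := hy4 c j
    have h1 : ∑ l, c l • T (y l) = T (∑ l, c l • y l) := by
      rw [map_sum]
      exact Finset.sum_congr rfl fun l _ => (map_smul T _ _).symm
    rw [h1]
    refine hi.trans ?_
    rw [hT]
    exact hb4 (∑ l, c l • y l) i

end echelon

section red

variable {C L k κ : Type*} [Field C] [Field L] [Algebra C L] [Field k] [Field κ] [Algebra k κ]
    {vC : Valuation C ℝ≥0} {ρC : C → k} {w : Valuation L ℝ≥0} {ρ : L → κ}

/-- the reduction of a subspace -/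
def red (h : Red vC ρC w ρ) (V : Submodule C L) : Submodule k κ where
  carrier := {z | ∃ x ∈ V, w x ≤ 1 ∧ ρ x = z}
  add_mem' := by
    rintro _ _ ⟨x, hx, hx1, rfl⟩ ⟨y, hy, hy1, rfl⟩
    exact ⟨x + y, V.add_mem hx hy, (Valuation.map_add _ _ _).trans (max_le hx1 hy1),
      h.res.add x y hx1 hy1⟩
  zero_mem' := ⟨0, V.zero_mem, by simp, h.res.zero⟩
  smul_mem' := by
    rintro r _ ⟨x, hx, hx1, rfl⟩
    obtain ⟨c, hc, rfl⟩ := h.resC.surj r
    have hc1 : w (algebraMap C L c) ≤ 1 := by rw [h.norm]; exact hc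
    refine ⟨c • x, V.smul_mem c hx, ?_, ?_⟩
    · rw [Algebra.smul_def, map_mul]; exact mul_le_one' hc1 hx1
    · rw [Algebra.smul_def, h.res.mul _ _ hc1 hx1, h.comp c hc, ← Algebra.smul_def]


theorem mem_red_of {h : Red vC ρC w ρ} {V : Submodule C L} {x : L} (hx : x ∈ V) (hw : w x ≤ 1) :
    ρ x ∈ red h V := ⟨x, hx, hw, rfl⟩

/-- an orthonormal basis reduces to a basis -/
theorem finrank_red (h : Red vC ρC w ρ) {V : Submodule C L} (hV : HasON vC w V) :
    FiniteDimensional k (red h V) ∧ finrank k (red h V) = finrank C V := by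
  classical
  obtain ⟨m, b, hb1, hb2, hb3, hb4⟩ := hV
  have hspan : V = Submodule.span C (Set.range b) := by
    apply le_antisymm hb2
    rw [Submodule.span_le]
    rintro _ ⟨i, rfl⟩
    exact hb1 i
  have hli : LinearIndependent C b := by
    rw [Fintype.linearIndependent_iff]
    intro c hc i
    have h1 := hb4 c i
    rw [hc, map_zero] at h1
    exact (Valuation.zero_iff vC).mp (le_antisymm h1 zero_le)
  have hdimV : finrank C V = m := by
    rw [hspan, finrank_span_eq_card hli, Fintype.card_fin]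
  have hli' : LinearIndependent k (fun i => ρ (b i)) := by
    rw [Fintype.linearIndependent_iff]
    intro r hr i
    choose c hc1 hc2 using fun i => h.resC.surj (r i)
    have hw1 : ∀ j, w (c j • b j) ≤ 1 := fun j => by
      rw [Algebra.smul_def, map_mul, h.norm]; exact mul_le_one' (hc1 j) (hb3 j)
    have h1 : ρ (∑ j, c j • b j) = 0 := by
      rw [h.res.sum _ _ fun j _ => hw1 j, ← hr]
      refine Finset.sum_congr rfl fun j _ => ?_
      rw [Algebra.smul_def, h.res.mul _ _ (by rw [h.norm]; exact hc1 j) (hb3 j), h.comp _ (hc1 j),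
        hc2, ← Algebra.smul_def]
    rw [h.res.zero_iff _ (Valuation.map_sum_le _ fun j _ => hw1 j)] at h1
    have h2 := lt_of_le_of_lt (hb4 c i) h1
    rw [← hc2 i, h.resC.zero_iff _ (hc1 i)]
    exact h2
  have hspan' : red h V = Submodule.span k (Set.range fun i => ρ (b i)) := by
    apply le_antisymm
    · rintro _ ⟨x, hx, hx1, rfl⟩
      have h1 := hb2 hx
      rw [← Fintype.range_linearCombination, LinearMap.mem_range] at h1
      obtain ⟨c, hc⟩ := h1
      rw [Fintype.linearCombination_apply] at hc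
      have hc1 : ∀ j, vC (c j) ≤ 1 := fun j => (hb4 c j).trans (by rw [hc]; exact hx1)
      rw [← hc, h.res.sum _ _ fun j _ => by
        rw [Algebra.smul_def, map_mul, h.norm]; exact mul_le_one' (hc1 j) (hb3 j)]
      refine Submodule.sum_mem _ fun j _ => ?_
      rw [Algebra.smul_def, h.res.mul _ _ (by rw [h.norm]; exact hc1 j) (hb3 j), h.comp _ (hc1 j),
        ← Algebra.smul_def]
      exact Submodule.smul_mem _ _ (Submodule.subset_span ⟨j, rfl⟩)
    · rw [Submodule.span_le]
      rintro _ ⟨i, rfl⟩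
      exact mem_red_of (hb1 i) (hb3 i)
  constructor
  · rw [hspan']
    exact FiniteDimensional.span_of_finite k (Set.finite_range _)
  · rw [hspan', finrank_span_eq_card hli', Fintype.card_fin, hdimV]

end red

/-! ### (IND): `k(y)`-independent elements, as many as the degree of the zero divisor of `y` -/

section ind

variable {k : Type*} [Field k] [IsAlgClosed k] {κ : Type*} [Field κ] [Algebra k κ]
  [Algebra (RatFunc k) κ] [IsScalarTower k (RatFunc k) κ] [FiniteDimensional (RatFunc k) κ]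
  [Algebra.IsSeparable (RatFunc k) κ]

theorem v_aeval_le_of_coeff_zero {b : Pl k κ} {y : κ} {e : ℤ} (he : 0 < e) (hy : b.v y = exp (-e))
    (f : k[X]) (hf : f.coeff 0 = 0) : b.v (aeval y f) ≤ exp (-e) := by
  obtain ⟨g, rfl⟩ := X_dvd_iff.mpr hf
  rw [map_mul, aeval_X, map_mul, hy]
  have h1 : b.v (aeval y g) ≤ 1 := by
    rw [aeval_eq_sum_range]
    refine Valuation.map_sum_le _ fun i _ => ?_
    rw [Algebra.smul_def, map_mul, map_pow, hy]
    have h2 : b.v (algebraMap k κ (g.coeff i)) ≤ 1 := by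
      by_cases hc : g.coeff i = 0
      · simp [hc]
      · rw [b.const _ hc]
    refine mul_le_one' h2 (pow_le_one' ?_ i)
    rw [← exp_zero, exp_le_exp]; omega
  calc _ ≤ exp (-e) * 1 := mul_le_mul_right h1 _
    _ = exp (-e) := mul_one _

theorem v_aeval_eq_one {b : Pl k κ} {y : κ} {e : ℤ} (he : 0 < e) (hy : b.v y = exp (-e))
    (f : k[X]) (hf : f.coeff 0 ≠ 0) : b.v (aeval y f) = 1 := by
  have h1 : f = (f - Polynomial.C (f.coeff 0)) + Polynomial.C (f.coeff 0) := by ring
  have h2 := v_aeval_le_of_coeff_zero he hy (f - Polynomial.C (f.coeff 0)) (by simp)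
  rw [h1, map_add, aeval_C]
  have h3 : b.v (algebraMap k κ (f.coeff 0)) = 1 := b.const _ hf
  have h4 : b.v (aeval y (f - Polynomial.C (f.coeff 0))) < b.v (algebraMap k κ (f.coeff 0)) := by
    rw [h3]
    refine lt_of_le_of_lt h2 ?_
    rw [← exp_zero, exp_lt_exp]; omega
  rw [Valuation.map_add_eq_of_lt_right _ h4, h3]

theorem exists_indep {y : κ} (hy : y ≠ 0) :
    ∃ (ι : Type) (_ : Fintype ι) (η : ι → κ), (Fintype.card ι : ℤ) = degD (zeros (k := k) y) ∧
      ∀ φ : ι → k[X], ∑ i, aeval y (φ i) * η i = 0 → ∀ i, φ i = 0 := by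
  classical
  set Z := zeros (k := k) y with hZ
  let S : Finset (Pl k κ) := Z.support
  have hZpos : ∀ b ∈ S, 0 < Z b := by
    intro b hb
    have h1 : Z b ≠ 0 := Finsupp.mem_support_iff.mp hb
    have h2 : 0 ≤ Z b := by rw [hZ, zeros_apply]; exact le_max_right _ _
    omega
  have hyv : ∀ b ∈ S, b.v y = exp (-Z b) := by
    intro b hb
    have h1 := hZpos b hb
    rw [v_eq hy]
    congr 2
    have h2 : Z b = max (divf (k := k) y b) 0 := zeros_apply y b
    rcases le_total (divf (k := k) y b) 0 with h3 | h3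
    · rw [max_eq_right h3] at h2; omega
    · rw [max_eq_left h3] at h2; exact h2.symm
  -- index type: small model
  let e := S.equivFin
  let J : Type := Σ i : Fin S.card, Fin (Z (e.symm i)).toNat
  -- the elements
  choose η hη0 hη using fun j : J =>
    exists_prescribed S (fun b => if b = (e.symm j.1 : Pl k κ) then -((j.2 : ℕ) : ℤ) else -Z b)
  refine ⟨J, inferInstance, η, ?_, ?_⟩
  · rw [degD_eq_sum, Fintype.card_sigma]
    simp only [Fintype.card_fin]
    push_cast
    have h1 : ∀ i : Fin S.card, (((Z (e.symm i)).toNat : ℕ) : ℤ) = Z (e.symm i) := fun i =>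
      Int.toNat_of_nonneg (hZpos _ (e.symm i).2).le
    rw [Finset.sum_congr rfl fun i _ => h1 i, Equiv.sum_comp e.symm (fun b : S => Z b)]
    unfold Finsupp.sum
    exact Finset.sum_coe_sort S (fun b => Z b)
  · -- all constant terms vanish
    have key : ∀ φ : J → k[X], ∑ i, aeval y (φ i) * η i = 0 → ∀ i, (φ i).coeff 0 = 0 := by
      intro φ hφ
      by_contra hcon
      push Not at hcon
      obtain ⟨⟨i0, a0⟩, ha0⟩ := hcon
      -- minimal second component
      let T : Finset (Fin (Z (e.symm i0)).toNat) :=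
        Finset.univ.filter fun a => (φ ⟨i0, a⟩).coeff 0 ≠ 0
      have hT : T.Nonempty := ⟨a0, by simp [T, ha0]⟩
      let a := T.min' hT
      have haT : (φ ⟨i0, a⟩).coeff 0 ≠ 0 := by
        have h1 := Finset.min'_mem T hT
        simp only [T, Finset.mem_filter] at h1
        exact h1.2
      have hamin : ∀ a' : Fin (Z (e.symm i0)).toNat, a' < a → (φ ⟨i0, a'⟩).coeff 0 = 0 := by
        intro a' ha'
        by_contra h1
        have h2 : a' ∈ T := by simp [T, h1]
        exact absurd (Finset.min'_le T a' h2) (not_le.mpr ha')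
      obtain ⟨b, hb⟩ : ∃ b : Pl k κ, b = (e.symm i0 : Pl k κ) := ⟨_, rfl⟩
      have hbS : b ∈ S := by rw [hb]; exact (e.symm i0).2
      have hZb := hZpos b hbS
      have hvy := hyv b hbS
      have haZ : ((a : ℕ) : ℤ) < Z b := by
        have h1 := a.2
        have h2 : (((Z b).toNat : ℕ) : ℤ) = Z b := Int.toNat_of_nonneg hZb.le
        have h3 : (a : ℕ) < (Z b).toNat := by rw [hb]; exact h1
        omega
      have hmain : b.v (aeval y (φ ⟨i0, a⟩) * η ⟨i0, a⟩) = exp (-((a : ℕ) : ℤ)) := by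
        rw [map_mul, v_aeval_eq_one hZb hvy _ haT, one_mul, hη _ b hbS, if_pos hb]
      have hother : ∀ j : J, j ≠ ⟨i0, a⟩ →
          b.v (aeval y (φ j) * η j) < exp (-((a : ℕ) : ℤ)) := by
        rintro ⟨i, a'⟩ hne
        have hle1 : b.v (aeval y (φ ⟨i, a'⟩)) ≤ 1 := by
          by_cases h1 : (φ ⟨i, a'⟩).coeff 0 = 0
          · refine (v_aeval_le_of_coeff_zero hZb hvy _ h1).trans ?_
            rw [← exp_zero, exp_le_exp]; omega
          · exact (v_aeval_eq_one hZb hvy _ h1).le
        rw [map_mul, hη _ b hbS]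
        by_cases hi : i = i0
        · subst hi
          rw [if_pos hb]
          rcases lt_trichotomy a' a with h1 | h1 | h1
          · have h2 := v_aeval_le_of_coeff_zero hZb hvy _ (hamin a' h1)
            calc _ ≤ exp (-Z b) * exp (-((a' : ℕ) : ℤ)) := mul_le_mul_left h2 _
              _ = exp (-Z b + -((a' : ℕ) : ℤ)) := (exp_add _ _).symm
              _ < _ := by rw [exp_lt_exp]; omega
          · exact absurd (by rw [h1]) hne
          · calc _ ≤ 1 * exp (-((a' : ℕ) : ℤ)) := mul_le_mul_left hle1 _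
              _ = exp (-((a' : ℕ) : ℤ)) := one_mul _
              _ < _ := by
                rw [exp_lt_exp]
                have : (a : ℕ) < a' := h1
                omega
        · have hne' : b ≠ (e.symm i : Pl k κ) := by
            intro h1
            apply hi
            have h2 : e.symm i0 = e.symm i := Subtype.ext (hb.symm.trans h1)
            exact (e.symm.injective h2).symm
          rw [if_neg hne']
          calc _ ≤ 1 * exp (-Z b) := mul_le_mul_left hle1 _
            _ = exp (-Z b) := one_mul _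
            _ < _ := by rw [exp_lt_exp]; omega
      have hsum : b.v (∑ j, aeval y (φ j) * η j) = exp (-((a : ℕ) : ℤ)) := by
        rw [← Finset.add_sum_erase Finset.univ _ (Finset.mem_univ (⟨i0, a⟩ : J))]
        have h1 : b.v (∑ x ∈ Finset.univ.erase (⟨i0, a⟩ : J), aeval y (φ x) * η x)
            < b.v (aeval y (φ ⟨i0, a⟩) * η ⟨i0, a⟩) := by
          rw [hmain]
          refine Valuation.map_sum_lt _ exp_ne_zero fun j hj => ?_
          exact hother j (Finset.ne_of_mem_erase hj)
        rw [Valuation.map_add_eq_of_lt_left _ h1, hmain]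
      rw [hφ, map_zero] at hsum
      exact exp_ne_zero hsum.symm
    -- induction on the degree
    have hind : ∀ (n : ℕ) (φ : J → k[X]), (∀ i, (φ i).natDegree ≤ n) →
        ∑ i, aeval y (φ i) * η i = 0 → ∀ i, φ i = 0 := by
      intro n
      induction n with
      | zero =>
        intro φ hn hφ i
        rw [eq_C_of_natDegree_le_zero (hn i), key φ hφ i, map_zero]
      | succ n ih =>
        intro φ hn hφ i
        have h0 := key φ hφ
        have hX : ∀ i, φ i = X * (φ i).divX := fun i => by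
          conv_lhs => rw [← divX_mul_X_add (φ i), h0 i, map_zero, add_zero, mul_comm]
        have h1 : ∑ i, aeval y ((φ i).divX) * η i = 0 := by
          have h2 : y * ∑ i, aeval y ((φ i).divX) * η i = 0 := by
            rw [← hφ, Finset.mul_sum]
            refine Finset.sum_congr rfl fun i _ => ?_
            conv_rhs => rw [hX i]
            rw [map_mul, aeval_X]; ring
          exact (mul_eq_zero.mp h2).resolve_left hy
        have h2 := ih (fun i => (φ i).divX) (fun i => by
          rw [natDegree_divX_eq_natDegree_tsub_one]; have := hn i; omega) h1 i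
        rw [hX i]
        have h3 : (φ i).divX = 0 := h2
        rw [h3, mul_zero]
    intro φ hφ
    exact hind (Finset.univ.sup fun i => (φ i).natDegree) φ
      (fun i => Finset.le_sup (f := fun i => (φ i).natDegree) (Finset.mem_univ i)) hφ

end ind

/-! ### (DEG): the degree of the reduction is at most the degree -/

section deg

variable {C : Type*} [Field C] [IsAlgClosed C] [CharZero C] {L : Type*} [Field L] [Algebra C L]
  [Algebra (RatFunc C) L] [IsScalarTower C (RatFunc C) L] [FiniteDimensional (RatFunc C) L]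
  {k κ : Type*} [Field k] [IsAlgClosed k] [Field κ] [Algebra k κ]
  [Algebra (RatFunc k) κ] [IsScalarTower k (RatFunc k) κ] [FiniteDimensional (RatFunc k) κ]
  [Algebra.IsSeparable (RatFunc k) κ]
  {vC : Valuation C ℝ≥0} {ρC : C → k} {w : Valuation L ℝ≥0} {ρ : L → κ}

/-- reduction of a polynomial -/
noncomputable def redP (ρC : C → k) (Ψ : C[X]) : k[X] :=
  ∑ n ∈ Finset.range (Ψ.natDegree + 1), Polynomial.C (ρC (Ψ.coeff n)) * X ^ n

omit [IsAlgClosed C] [CharZero C] [Algebra (RatFunc C) L] [IsScalarTower C (RatFunc C) L]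
  [FiniteDimensional (RatFunc C) L] [IsAlgClosed k] [Algebra (RatFunc k) κ]
  [IsScalarTower k (RatFunc k) κ] [FiniteDimensional (RatFunc k) κ]
  [Algebra.IsSeparable (RatFunc k) κ] in
theorem coeff_redP (h : Red vC ρC w ρ) (Ψ : C[X]) (n : ℕ) :
    (redP ρC Ψ).coeff n = ρC (Ψ.coeff n) := by
  unfold redP
  rw [finsetSum_coeff]
  by_cases hn : n ∈ Finset.range (Ψ.natDegree + 1)
  · rw [Finset.sum_eq_single n]
    · rw [coeff_C_mul, coeff_X_pow, if_pos rfl, mul_one]
    · intro m _ hm
      rw [coeff_C_mul, coeff_X_pow, if_neg (Ne.symm hm), mul_zero]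
    · intro h'; exact absurd hn h'
  · rw [Finset.sum_eq_zero]
    · rw [Finset.mem_range, not_lt] at hn
      rw [coeff_eq_zero_of_natDegree_lt (by omega), h.resC.zero]
    · intro m hm
      rw [coeff_C_mul, coeff_X_pow, if_neg, mul_zero]
      rintro rfl
      exact hn hm

omit [IsAlgClosed C] [CharZero C] [Algebra (RatFunc C) L] [IsScalarTower C (RatFunc C) L]
  [FiniteDimensional (RatFunc C) L] [IsAlgClosed k] [Algebra (RatFunc k) κ]
  [IsScalarTower k (RatFunc k) κ] [FiniteDimensional (RatFunc k) κ]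
  [Algebra.IsSeparable (RatFunc k) κ] in
theorem w_aeval_le (h : Red vC ρC w ρ) {Ψ : C[X]} (hΨ : ∀ n, vC (Ψ.coeff n) ≤ 1) {t : L}
    (ht : w t ≤ 1) : w (aeval t Ψ) ≤ 1 := by
  rw [aeval_eq_sum_range]
  refine Valuation.map_sum_le _ fun i _ => ?_
  rw [Algebra.smul_def, map_mul, map_pow, h.norm]
  exact mul_le_one' (hΨ i) (pow_le_one' ht i)

omit [IsAlgClosed C] [CharZero C] [Algebra (RatFunc C) L] [IsScalarTower C (RatFunc C) L]
  [FiniteDimensional (RatFunc C) L] [IsAlgClosed k] [Algebra (RatFunc k) κ]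
  [IsScalarTower k (RatFunc k) κ] [FiniteDimensional (RatFunc k) κ]
  [Algebra.IsSeparable (RatFunc k) κ] in
theorem res_aeval (h : Red vC ρC w ρ) {Ψ : C[X]} (hΨ : ∀ n, vC (Ψ.coeff n) ≤ 1) {t : L}
    (ht : w t ≤ 1) : ρ (aeval t Ψ) = aeval (ρ t) (redP ρC Ψ) := by
  unfold redP
  rw [aeval_eq_sum_range, map_sum, h.res.sum _ _ fun i _ => by
    rw [Algebra.smul_def, map_mul, map_pow, h.norm]; exact mul_le_one' (hΨ i) (pow_le_one' ht i)]
  refine Finset.sum_congr rfl fun i _ => ?_
  rw [Algebra.smul_def, h.res.mul _ _ (by rw [h.norm]; exact hΨ i)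
    (by rw [map_pow]; exact pow_le_one' ht i), h.comp _ (hΨ i), h.res.pow ht, map_mul, map_pow,
    aeval_C, aeval_X]

/-- lifts of `k(y)`-independent elements are `C(t)`-independent -/
theorem lift_indep (h : Red vC ρC w ρ) {t : L} (ht : w t ≤ 1) {ι : Type} [Fintype ι] {η : ι → κ}
    (hη : ∀ φ : ι → k[X], ∑ i, aeval (ρ t) (φ i) * η i = 0 → ∀ i, φ i = 0) {g : ι → L}
    (hg : ∀ i, w (g i) ≤ 1) (hgη : ∀ i, ρ (g i) = η i) (Φ : ι → C[X])
    (hΦ : ∑ i, aeval t (Φ i) * g i = 0) : ∀ i, Φ i = 0 := by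
  classical
  by_contra hcon
  push Not at hcon
  obtain ⟨i1, hi1⟩ := hcon
  -- maximal coefficient
  let N := Finset.univ.sup fun i => (Φ i).natDegree
  have hN : ∀ i, (Φ i).natDegree ≤ N := fun i =>
    Finset.le_sup (f := fun i => (Φ i).natDegree) (Finset.mem_univ i)
  obtain ⟨⟨i0, n0⟩, _, hmax⟩ := Finset.exists_max_image
    (Finset.univ ×ˢ Finset.range (N + 1) : Finset (ι × ℕ)) (fun x => vC ((Φ x.1).coeff x.2))
    ⟨(i1, 0), by simp⟩
  have hmax' : ∀ i n, vC ((Φ i).coeff n) ≤ vC ((Φ i0).coeff n0) := by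
    intro i n
    by_cases hn : n < N + 1
    · exact hmax (i, n) (by simp; omega)
    · rw [coeff_eq_zero_of_natDegree_lt (by have := hN i; omega), map_zero]
      exact zero_le
  set c := (Φ i0).coeff n0 with hc
  have hc0 : c ≠ 0 := by
    intro h0
    have h1 := hmax' i1 (Φ i1).natDegree
    rw [h0, map_zero] at h1
    have h2 := (Valuation.zero_iff vC).mp (le_antisymm h1 zero_le)
    exact hi1 (leadingCoeff_eq_zero.mp h2)
  have hvc : 0 < vC c := by rw [Valuation.pos_iff]; exact hc0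
  let Ψ : ι → C[X] := fun i => Polynomial.C c⁻¹ * Φ i
  have hΨ : ∀ i n, vC ((Ψ i).coeff n) ≤ 1 := by
    intro i n
    show vC ((Polynomial.C c⁻¹ * Φ i).coeff n) ≤ 1
    rw [coeff_C_mul, map_mul, map_inv₀, inv_mul_le_iff₀ hvc, mul_one]
    exact hmax' i n
  have hsum : ∑ i, aeval t (Ψ i) * g i = 0 := by
    have h1 : ∑ i, aeval t (Ψ i) * g i = algebraMap C L c⁻¹ * ∑ i, aeval t (Φ i) * g i := by
      rw [Finset.mul_sum]
      refine Finset.sum_congr rfl fun i _ => ?_
      show aeval t (Polynomial.C c⁻¹ * Φ i) * g i = _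
      rw [map_mul, aeval_C]; ring
    rw [h1, hΦ, mul_zero]
  have hred := hη (fun i => redP ρC (Ψ i)) (by
    have h1 := congrArg ρ hsum
    rw [h.res.zero, h.res.sum _ _ fun i _ => by
      rw [map_mul]; exact mul_le_one' (w_aeval_le h (hΨ i) ht) (hg i)] at h1
    rw [← h1]
    refine Finset.sum_congr rfl fun i _ => ?_
    rw [h.res.mul _ _ (w_aeval_le h (hΨ i) ht) (hg i), res_aeval h (hΨ i) ht, hgη]) i0
  have h1 := congrArg (fun q => Polynomial.coeff q n0) hred
  simp only [coeff_redP h, coeff_zero] at h1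
  have h2 : (Ψ i0).coeff n0 = 1 := by
    show (Polynomial.C c⁻¹ * Φ i0).coeff n0 = 1
    rw [coeff_C_mul, ← hc, inv_mul_cancel₀ hc0]
  rw [h2, h.resC.one] at h1
  exact one_ne_zero h1

/-- **(DEG)** -/
theorem degD_poles_le (h : Red vC ρC w ρ) {u : L} (hu : w u = 1)
    (hns : ρ u ∉ Set.range (algebraMap k κ)) :
    degD (poles (k := k) (ρ u)) ≤ degD (poles (k := C) u) := by
  classical
  have hu0 : u ≠ 0 := by rintro rfl; simp at hu
  have hρu0 : ρ u ≠ 0 := by rw [h.res.ne_zero_iff hu.le]; exact hu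
  set t := u⁻¹ with ht
  have ht0 : t ≠ 0 := inv_ne_zero hu0
  have hwt : w t = 1 := by rw [ht, map_inv₀, hu, inv_one]
  have hρt : ρ t = (ρ u)⁻¹ := h.res.inv hu
  have hρt0 : ρ t ≠ 0 := by rw [hρt]; exact inv_ne_zero hρu0
  -- `t` is transcendental
  have htr : Transcendental C t := by
    intro halg
    have h1 : t ∈ algebraicClosure C L := mem_algebraicClosure_iff.mpr halg
    rw [hc_of_isAlgClosed (k := C) (K := L), IntermediateField.mem_bot] at h1
    obtain ⟨c, hc⟩ := h1
    have hc1 : vC c = 1 := by rw [← h.norm, hc, hwt]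
    have h2 : ρ t = algebraMap k κ (ρC c) := by rw [← hc, h.comp c hc1.le]
    apply hns
    refine ⟨(ρC c)⁻¹, ?_⟩
    rw [map_inv₀, ← h2, hρt, inv_inv]
  obtain ⟨ι, _, η, hcard, hη⟩ := exists_indep (k := k) hρt0
  choose g hg hgη using fun i => h.res.surj (η i)
  have hind := lift_indep h hwt.le hη hg hgη
  have hfin := ratAlg_finite (k := C) t htr
  have hsep := ratAlg_isSeparable (k := C) t htr
  have hdeg := degD_poles_eq (k := C) t htr hsep
  have hle : Fintype.card ι ≤ @finrank (RatFunc C) L _ _ (ratAlg t htr).toModule := by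
    letI := ratAlg t htr
    haveI := ratAlg_tower t htr
    haveI : FiniteDimensional (RatFunc C) L := hfin
    letI : Algebra C[X] L :=
      ((algebraMap (RatFunc C) L).comp (algebraMap C[X] (RatFunc C))).toAlgebra
    haveI : IsScalarTower C[X] (RatFunc C) L := IsScalarTower.of_algebraMap_eq fun _ => rfl
    have hmap : ∀ f : C[X], algebraMap C[X] L f = aeval t f := by
      intro f
      show (ratHom t htr) (algebraMap C[X] (RatFunc C) f) = _
      unfold ratHom
      have h1 := RatFunc.liftAlgHom_apply_div (Polynomial.aeval t)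
        (nonZeroDivisors_le_comap_nonZeroDivisors_of_injective _
          (transcendental_iff_injective.mp htr)) f 1
      simp only [map_one, div_one] at h1
      exact h1
    have hli : LinearIndependent C[X] g := by
      rw [Fintype.linearIndependent_iff]
      intro Φ hΦ
      apply hind Φ
      rw [← hΦ]
      refine Finset.sum_congr rfl fun i _ => ?_
      rw [Algebra.smul_def, hmap]
    have hli2 : LinearIndependent (RatFunc C) g :=
      (LinearIndependent.iff_fractionRing C[X] (RatFunc C)).mp hli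
    exact hli2.fintype_card_le_finrank
  have h1 : poles (k := k) (ρ u) = zeros (ρ t) := by
    rw [← poles_inv hρt0, hρt, inv_inv]
  have h2 : degD (poles (k := C) u) = degD (poles (k := C) t) := by
    rw [ht, poles_inv hu0]; exact (degD_zeros_eq_poles hu0).symm
  rw [h1, ← hcard, h2, hdeg]
  exact_mod_cast hle

end deg

end Crest.Agent.R013.GR6_921
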