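import Crest.Agent.R013.Comp4_267
import Crest.Agent.R013.Good1_408
import Crest.Agent.R013.Pts3_315

-- ▼ part R013/Cell5_408
section

/-!
# Structure of `BD k C`

Factorisation of a nonzero element as constant, polynomial with zeros in the open unit disc and
unit; `BD k C` is a principal ideal ring; points of the disc are height one primes; the valuations
`ordT τ` of the fraction field `FD k C`.
-/

set_option autoImplicit false
set_option linter.unusedSectionVars false

noncomputable section

namespace Crest.Agent.R013.Cell_408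

open Topology Filter
open Crest.Agent.R013.Comp_267 (FD TF XB)

variable {k C : Type*} [NontriviallyNormedField k] [CompleteSpace k] [IsUltrametricDist k]
  [NormedField C] [IsUltrametricDist C] [NormedAlgebra k C] [Algebra.IsAlgebraic k C]
  [IsAlgClosed C]

variable (k C) in
/-- the coordinate `T` of the open unit disc -/
def TT : BD k C := ⟨PowerSeries.X, X_mem_BD⟩

variable (k C) in
/-- polynomials as bounded series -/
def polyBD : Polynomial C →ₐ[C] BD k C := Polynomial.aeval (TT k C)

theorem coe_TT : ((TT k C : BD k C) : PowerSeries C) = PowerSeries.X := rfl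

theorem coe_algebraMap (c : C) :
    ((algebraMap C (BD k C) c : BD k C) : PowerSeries C) = PowerSeries.C c := rfl

theorem coe_polyBD (P : Polynomial C) :
    ((polyBD k C P : BD k C) : PowerSeries C) = (P : PowerSeries C) := by
  induction P using Polynomial.induction_on' with
  | add P Q hP hQ => rw [map_add, Subalgebra.coe_add, hP, hQ, Polynomial.coe_add]
  | monomial n a =>
    rw [polyBD, Polynomial.aeval_monomial, Subalgebra.coe_mul, Subalgebra.coe_pow, coe_TT,
      coe_algebraMap, Polynomial.coe_monomial, PowerSeries.monomial_eq_C_mul_X_pow]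

theorem polyBD_injective : Function.Injective (polyBD k C) := by
  intro P Q h
  have := congrArg (fun f : BD k C => (f : PowerSeries C)) h
  simp only [coe_polyBD] at this
  exact Polynomial.coe_injective C this

@[simp] theorem polyBD_X : polyBD k C Polynomial.X = TT k C := by
  rw [polyBD, Polynomial.aeval_X]

@[simp] theorem polyBD_C (c : C) : polyBD k C (Polynomial.C c) = algebraMap C (BD k C) c := by
  rw [polyBD, Polynomial.aeval_C]

theorem IsU.isUnit {u : PowerSeries C} (hu : IsU k u) : IsUnit (⟨u, hu.mem⟩ : BD k C) := by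
  obtain ⟨v, hv, huv⟩ := hu.inv
  exact IsUnit.of_mul_eq_one ⟨v, hv.mem⟩ (Subtype.ext huv)

theorem isUnit_const {c : C} (hc : c ≠ 0) : IsUnit (algebraMap C (BD k C) c) :=
  (IsUnit.mk0 c hc).map (algebraMap C (BD k C))

/-- factorisation of a non-zero element of `BD k C` -/
theorem BD_factor (hk : DiscNorm k) {f : BD k C} (h0 : f ≠ 0) :
    ∃ (c : C) (S : Multiset C) (u : PowerSeries C) (hu : IsU k u), c ≠ 0 ∧ (∀ τ ∈ S, ‖τ‖ < 1) ∧
      f = algebraMap C (BD k C) c * (⟨u, hu.mem⟩ : BD k C) * polyBD k C (rootPoly S) := by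
  have h0' : (f : PowerSeries C) ≠ 0 := fun h => h0 (Subtype.ext h)
  obtain ⟨c, g, m, hc, hg, hfg, -, -⟩ := exists_normalise hk f.2 h0'
  obtain ⟨u, S, hu, -, hS, hgu⟩ := hg.exists_roots
  refine ⟨c, S, u, hu, hc, hS, Subtype.ext ?_⟩
  rw [hfg, hgu, Subalgebra.coe_mul, Subalgebra.coe_mul, coe_polyBD, coe_algebraMap, mul_assoc]

theorem BD_factor' (hk : DiscNorm k) {f : BD k C} (h0 : f ≠ 0) :
    ∃ (w : (BD k C)ˣ) (S : Multiset C), (∀ τ ∈ S, ‖τ‖ < 1) ∧
      f = w * polyBD k C (rootPoly S) := by
  obtain ⟨c, S, u, hu, hc, hS, hf⟩ := BD_factor hk h0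
  exact ⟨((isUnit_const hc).mul hu.isUnit).unit, S, hS, by rw [IsUnit.unit_spec]; exact hf⟩

/-- `BD k C` is a principal ideal ring -/
theorem isPrincipalIdealRing (hk : DiscNorm k) : IsPrincipalIdealRing (BD k C) := by
  refine ⟨fun I => ?_⟩
  obtain ⟨P, hP⟩ := (IsPrincipalIdealRing.principal (I.comap (polyBD k C))).principal
  refine ⟨⟨polyBD k C P, ?_⟩⟩
  have hP1 : P ∈ I.comap (polyBD k C) := by
    rw [hP]; exact Submodule.mem_span_singleton_self P
  apply le_antisymm
  · intro f hf
    by_cases h0 : f = 0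
    · rw [h0]; exact zero_mem _
    obtain ⟨w, S, -, hf'⟩ := BD_factor' hk h0
    have h1 : rootPoly S ∈ I.comap (polyBD k C) := by
      rw [Ideal.mem_comap]
      have h2 := I.mul_mem_left (↑w⁻¹) hf
      rwa [hf', Units.inv_mul_cancel_left] at h2
    rw [hP, Submodule.mem_span_singleton] at h1
    obtain ⟨Q, hQ⟩ := h1
    rw [Submodule.mem_span_singleton]
    refine ⟨w * polyBD k C Q, ?_⟩
    rw [hf', ← hQ, smul_eq_mul, smul_eq_mul, map_mul, mul_assoc]
  · rw [Submodule.span_singleton_le_iff_mem]
    exact hP1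

theorem isDedekindDomain (hk : DiscNorm k) : IsDedekindDomain (BD k C) := by
  have := isPrincipalIdealRing (C := C) hk
  infer_instance

@[simp] theorem ev_TT {t : C} (ht : ‖t‖ < 1) : ev t ht (TT k C) = t := evp_X t

@[simp] theorem ev_polyBD {t : C} (ht : ‖t‖ < 1) (P : Polynomial C) :
    ev t ht (polyBD k C P) = P.eval t := by
  change evp t ((polyBD k C P : BD k C) : PowerSeries C) = _
  rw [coe_polyBD, evp_coe]

/-- the linear element `T - τ` -/
def lin (k : Type*) {C : Type*} [NontriviallyNormedField k] [CompleteSpace k] [IsUltrametricDist k]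
    [NormedField C] [IsUltrametricDist C] [NormedAlgebra k C] [Algebra.IsAlgebraic k C]
    [IsAlgClosed C] (τ : C) : BD k C := TT k C - algebraMap C _ τ

theorem polyBD_lin (τ : C) : polyBD k C (Polynomial.X - Polynomial.C τ) = lin k τ := by
  rw [map_sub, polyBD_X, polyBD_C, lin]

@[simp] theorem ev_lin {t : C} (ht : ‖t‖ < 1) (τ : C) : ev t ht (lin k τ) = t - τ := by
  rw [lin, map_sub, ev_TT, AlgHom.commutes]; rfl

theorem lin_ne_zero (τ : C) : lin k τ ≠ 0 := by
  rw [← polyBD_lin, Ne, map_eq_zero_iff _ polyBD_injective]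
  exact Polynomial.X_sub_C_ne_zero τ



/-- a point of the open unit disc as a height one prime of `BD k C` -/
def pt (k : Type*) {C : Type*} [NontriviallyNormedField k] [CompleteSpace k] [IsUltrametricDist k]
    [NormedField C] [IsUltrametricDist C] [NormedAlgebra k C] [Algebra.IsAlgebraic k C]
    [IsAlgClosed C] (t : C) (ht : ‖t‖ < 1) : IsDedekindDomain.HeightOneSpectrum (BD k C) where
  asIdeal := RingHom.ker (ev (k := k) t ht)
  isPrime := RingHom.ker_isPrime _
  ne_bot := by
    intro h
    have : lin k t ∈ RingHom.ker (ev (k := k) t ht) := by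
      rw [RingHom.mem_ker, ev_lin, sub_self]
    rw [h, Ideal.mem_bot] at this
    exact lin_ne_zero t this

theorem mem_pt {t : C} (ht : ‖t‖ < 1) {f : BD k C} : f ∈ (pt k t ht).asIdeal ↔ ev t ht f = 0 :=
  RingHom.mem_ker





/-- the valuation at a point of the disc -/
def ordT (hk : DiscNorm k) (t : C) (ht : ‖t‖ < 1) : Valuation (FD k C) (WithZero (Multiplicative ℤ)) :=
  haveI := isDedekindDomain (C := C) hk
  (pt k t ht).valuation (FD k C)

variable {hk : DiscNorm k}

theorem ordT_le_one {t : C} (ht : ‖t‖ < 1) (f : BD k C) :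
    ordT hk t ht (algebraMap (BD k C) (FD k C) f) ≤ 1 := by
  have := isDedekindDomain (C := C) hk
  exact (pt k t ht).valuation_le_one f

theorem ordT_lt_one_iff {t : C} (ht : ‖t‖ < 1) (f : BD k C) :
    ordT hk t ht (algebraMap (BD k C) (FD k C) f) < 1 ↔ ev t ht f = 0 := by
  have := isDedekindDomain (C := C) hk
  exact ((pt k t ht).valuation_lt_one_iff_mem f).trans (mem_pt ht)

theorem ordT_eq_one_iff {t : C} (ht : ‖t‖ < 1) (f : BD k C) :
    ordT hk t ht (algebraMap (BD k C) (FD k C) f) = 1 ↔ ev t ht f ≠ 0 := by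
  rw [← not_iff_not, not_not, ← ordT_lt_one_iff (hk := hk) ht]
  exact ⟨fun h => lt_of_le_of_ne (ordT_le_one ht f) h, fun h => h.ne⟩

@[simp] theorem ordT_const {t : C} (ht : ‖t‖ < 1) {c : C} (hc : c ≠ 0) :
    ordT hk t ht (algebraMap C (FD k C) c) = 1 := by
  rw [IsScalarTower.algebraMap_apply C (BD k C) (FD k C), ordT_eq_one_iff, AlgHom.commutes]
  exact hc













end Crest.Agent.R013.Cell_408
end
end

-- ▼ part R013/Good2_408

/-!
# Good discs: the product decomposition in the form of `Pts1_315`, `Pts3_315`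
-/

set_option autoImplicit false
set_option linter.unusedSectionVars false

noncomputable section

namespace Crest.Agent.R013.Good_408

open Module TensorProduct
open Crest.Agent.R013.Cell_408 Crest.Agent.R013.Comp_267
open Crest.Agent.R013.Pts1_315 Crest.Agent.R013.Pts2_315 Crest.Agent.R013.Pts3_315

section Abs

variable {F0 Fc K : Type*} [Field F0] [Field Fc] [Field K] [Algebra F0 Fc] [Algebra F0 K]
variable {J : Type*} [Finite J] {E : J → Type*} [∀ j, Field (E j)]
variable {φ : ∀ j, Fc →+* E j} {ι : ∀ j, K →+* E j}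

theorem exists_tensor_repr {I : Type*} [Fintype I] (b : Basis I F0 K) (t : K ⊗[F0] Fc) :
    ∃ e : I → Fc, t = ∑ i, b i ⊗ₜ[F0] e i := by
  induction t using TensorProduct.induction_on with
  | zero => exact ⟨0, by simp⟩
  | tmul a c =>
    refine ⟨fun i => b.repr a i • c, ?_⟩
    conv_lhs => rw [← b.sum_repr a, TensorProduct.sum_tmul]
    refine Finset.sum_congr rfl fun i _ => ?_
    rw [TensorProduct.smul_tmul]
  | add s t hs ht =>
    obtain ⟨e, rfl⟩ := hs
    obtain ⟨e', rfl⟩ := ht
    refine ⟨e + e', ?_⟩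
    rw [← Finset.sum_add_distrib]
    refine Finset.sum_congr rfl fun i _ => ?_
    rw [Pi.add_apply, TensorProduct.tmul_add]

/-- injectivity and surjectivity for a basis: the product decomposition -/
theorem pd_of_inj (hc : ∀ j a, φ j (algebraMap F0 Fc a) = ι j (algebraMap F0 K a))
    {I : Type*} [Fintype I] (b : Basis I F0 K) (hb : Inj φ ι b)
    (hs : ∀ z : ∀ j, E j, ∃ e : I → Fc, ∀ j, ∑ i, φ j (e i) * ι j (b i) = z j) :
    PD (algebraMap F0 K) (algebraMap F0 Fc) ι φ := by
  let _ : Algebra F0 (∀ j, E j) := (RingHom.pi fun j => (φ j).comp (algebraMap F0 Fc)).toAlgebra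
  let f : K →ₐ[F0] (∀ j, E j) :=
    { RingHom.pi ι with
      commutes' := fun a => by
        funext j
        change ι j (algebraMap F0 K a) = φ j (algebraMap F0 Fc a)
        rw [hc] }
  let g : Fc →ₐ[F0] (∀ j, E j) :=
    { RingHom.pi φ with
      commutes' := fun a => by
        funext j
        rfl }
  let Φ : K ⊗[F0] Fc →ₐ[F0] (∀ j, E j) := Algebra.TensorProduct.productMap f g
  have hΦ : ∀ a c j, Φ (a ⊗ₜ c) j = ι j a * φ j c := by
    intro a c j
    change (Algebra.TensorProduct.productMap f g (a ⊗ₜ c)) j = _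
    rw [Algebra.TensorProduct.productMap_apply_tmul]
    rfl
  have hΦs : ∀ e : I → Fc, ∀ j, Φ (∑ i, b i ⊗ₜ[F0] e i) j = ∑ i, φ j (e i) * ι j (b i) := by
    intro e j
    rw [map_sum, Finset.sum_apply]
    refine Finset.sum_congr rfl fun i _ => ?_
    rw [hΦ, mul_comm]
  refine PD.of_tensor ι φ (fun j x => (hc j x).symm) Φ.toRingHom (fun a c j => hΦ a c j) ⟨?_, ?_⟩
  · rw [injective_iff_map_eq_zero]
    intro t ht
    obtain ⟨e, rfl⟩ := exists_tensor_repr b t
    have h0 : e = 0 := by
      refine hb e fun j => ?_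
      rw [← hΦs]
      exact congrFun ht j
    rw [h0]
    simp
  · intro z
    obtain ⟨e, he⟩ := hs z
    refine ⟨∑ i, b i ⊗ₜ[F0] e i, ?_⟩
    funext j
    exact (hΦs e j).trans (he j)

end Abs

section BDring

variable {k C : Type*} [NontriviallyNormedField k] [CompleteSpace k] [IsUltrametricDist k]
  [NormedField C] [IsUltrametricDist C] [NormedAlgebra k C] [Algebra.IsAlgebraic k C]
  [IsAlgClosed C]

/-- `BD k C` is the ring of functions of the open unit disc in the sense of `Pts2_315` -/
theorem cellRing_BD (hk : DiscNorm k) : CellRing (XB : BD k C) {τ : C | ‖τ‖ < 1} where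
  fac := by
    intro b hb
    obtain ⟨w, S, hS, hf⟩ := BD_factor' hk hb
    refine ⟨S, hS, ?_⟩
    have h1 : polyBD k C (rootPoly S) =
        (S.map fun τ => (XB : BD k C) - algebraMap C (BD k C) τ).prod := by
      rw [rootPoly, map_multiset_prod, Multiset.map_map]
      congr 1
      refine Multiset.map_congr rfl fun τ _ => ?_
      rw [Function.comp_apply, polyBD_lin]
      rfl
    rw [← h1, hf]
    exact (associated_unit_mul_left _ _ w.isUnit)
  ev := fun τ hτ => ⟨ev τ hτ, ev_TT hτ⟩
  nc := by
    intro c h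
    have h1 := congrArg (ev (k := k) (0 : C) (by simp)) h
    rw [AlgHom.commutes] at h1
    have h2 : ev (k := k) (0 : C) (by simp) (XB : BD k C) = 0 := ev_TT _
    rw [h2] at h1
    obtain ⟨x, hx0, hx1⟩ := NormedField.exists_norm_lt_one k
    have hx : ‖algebraMap k C x‖ < 1 := by rwa [norm_algebraMap']
    have h3 := congrArg (ev (k := k) (algebraMap k C x) hx) h
    rw [AlgHom.commutes] at h3
    have h4 : ev (k := k) (algebraMap k C x) hx (XB : BD k C) = algebraMap k C x := ev_TT _
    rw [h4] at h3
    have h5 : algebraMap k C x = 0 := h3.trans h1.symm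
    rw [← norm_algebraMap' C x, h5, norm_zero] at hx0
    exact lt_irrefl _ hx0

/-- `comp f` is an integral ring homomorphism -/
theorem comp_integral (hk : DiscNorm k) {f : PowerSeries C} {m : ℕ} (hf : WD k f m) (hm : m ≠ 0)
    (b : BD k C) : (comp f (WD.co hf hm)).toRingHom.IsIntegralElem b := by
  set ψ := (comp f (WD.co hf hm)).toRingHom with hψ
  have hX : ψ.IsIntegralElem (XB : BD k C) := by
    obtain ⟨A, hA⟩ := exists_repr_BD hk hf hm ((XB : BD k C) ^ m)
    refine ⟨Polynomial.X ^ m - ∑ i ∈ Finset.range m, Polynomial.C (A i) * Polynomial.X ^ i, ?_, ?_⟩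
    · refine Polynomial.monic_X_pow_sub ?_
      rw [Finset.sum_range (fun i => Polynomial.C (A i) * Polynomial.X ^ i)]
      exact Polynomial.degree_sum_fin_lt (fun i : Fin m => A i)
    · rw [Polynomial.eval₂_sub, Polynomial.eval₂_pow, Polynomial.eval₂_X,
        Polynomial.eval₂_finsetSum, hA, sub_eq_zero]
      refine Finset.sum_congr rfl fun i _ => ?_
      rw [Polynomial.eval₂_mul, Polynomial.eval₂_C, Polynomial.eval₂_pow, Polynomial.eval₂_X]
      rfl
  obtain ⟨A, hA⟩ := exists_repr_BD hk hf hm b
  rw [hA]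
  have hpow : ∀ i : ℕ, ψ.IsIntegralElem ((XB : BD k C) ^ i) := by
    intro i
    induction i with
    | zero =>
      rw [pow_zero, ← map_one ψ]
      exact RingHom.isIntegralElem_map ψ
    | succ n ih' =>
      rw [pow_succ]
      exact RingHom.IsIntegralElem.mul ψ ih' hX
  have hsum : ∀ s : Finset ℕ, ψ.IsIntegralElem
      (∑ i ∈ s, comp f (WD.co hf hm) (A i) * (XB : BD k C) ^ i) := by
    intro s
    classical
    induction s using Finset.induction_on with
    | empty => rw [Finset.sum_empty]; exact RingHom.isIntegralElem_zero ψ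
    | insert i s hi ih =>
      rw [Finset.sum_insert hi]
      refine RingHom.IsIntegralElem.add ψ (RingHom.IsIntegralElem.mul ψ ?_ ?_) ih
      · exact RingHom.isIntegralElem_map ψ
      · exact hpow i
  exact hsum _

end BDring

section Rat

variable {C : Type*} [Field C]

theorem gen_of_mem {t : RatFunc C} (ht : (RatFunc.X : RatFunc C) ∈ IntermediateField.adjoin C {t})
    (f : RatFunc C) : ∃ p q : Polynomial C, Polynomial.aeval t q ≠ 0 ∧
      f = Polynomial.aeval t p / Polynomial.aeval t q := by
  have h1 : f ∈ IntermediateField.adjoin C {t} := by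
    have h2 : ∀ P : Polynomial C, algebraMap (Polynomial C) (RatFunc C) P ∈
        IntermediateField.adjoin C {t} := by
      intro P
      rw [← aeval_ratFunc_X]
      induction P using Polynomial.induction_on' with
      | add P Q hP hQ => rw [map_add]; exact add_mem hP hQ
      | monomial n a =>
        rw [Polynomial.aeval_monomial]
        exact mul_mem (algebraMap_mem _ a) (pow_mem ht n)
    rw [← RatFunc.num_div_denom f]
    exact div_mem (h2 _) (h2 _)
  obtain ⟨p, q, hpq⟩ := (IntermediateField.mem_adjoin_simple_iff C f).1 h1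
  by_cases hq : Polynomial.aeval t q = 0
  · refine ⟨0, 1, by simp, ?_⟩
    rw [hpq, hq]
    simp
  · exact ⟨p, q, hq, hpq⟩

end Rat

namespace DCells

variable {k C : Type*} [NontriviallyNormedField k] [CompleteSpace k] [IsUltrametricDist k]
  [NormedField C] [IsUltrametricDist C] [NormedAlgebra k C] [Algebra.IsAlgebraic k C]
  [IsAlgClosed C] [hk : Fact (DiscNorm k)]
  {K : Type*} [Field K] [Algebra C K] [Algebra (RatFunc C) K]
    [IsScalarTower C (RatFunc C) K] [FiniteDimensional (RatFunc C) K] {y : FD k C}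

/-- the product decomposition of `K ⊗ FD` in the form of `Pts1_315` -/
theorem pd (D : DCells k C K y) : PD (algebraMap (RatFunc C) K) D.i.toRingHom
    (fun j => (D.io j).toRingHom) (fun j => (D.φ j).toRingHom) := by
  let _ : Algebra (RatFunc C) (FD k C) := D.i.toRingHom.toAlgebra
  let b := Module.finBasis (RatFunc C) K
  exact pd_of_inj (F0 := RatFunc C) (Fc := FD k C) (E := fun _ => FD k C)
    (φ := fun j => (D.φ j).toRingHom) (ι := fun j => (D.io j).toRingHom)
    (fun j r => D.comm j r) b (D.inj' b b.linearIndependent) (fun z => D.surj b z)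

/-- the cells of `K` over the disc, in the form of `Pts3_315` -/
theorem cover (D : DCells k C K y) (t₀ : RatFunc C)
    (ht : (RatFunc.X : RatFunc C) ∈ IntermediateField.adjoin C {t₀}) (h : D.i t₀ = TF k C) :
    CellCover (C := C) (F₀ := RatFunc C) (K := K) (Bc := BD k C) (Fc := FD k C)
      (XB : BD k C) {τ : C | ‖τ‖ < 1} D.i.toRingHom t₀ (J := D.J) (B := fun _ => BD k C)
      (F := fun _ => FD k C) (fun _ => (XB : BD k C)) (fun _ => {τ : C | ‖τ‖ < 1})
      (fun j => (D.io j).toRingHom) (fun j => (D.φ j).toRingHom)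
      (fun j => comp (D.f j) (WD.co (D.wd j) (D.m_ne j))) where
  base := cellRing_BD hk.out
  up := fun _ => cellRing_BD hk.out
  gen := gen_of_mem ht
  i_C := fun c => D.i.commutes c
  i_t := h
  io_C := fun j c => (D.io j).commutes c
  sg_alg := fun j b => compF_algebraMap hk.out (D.wd j) (D.m_ne j) b
  pd := D.pd
  int := fun j b => comp_integral hk.out (D.wd j) (D.m_ne j) b

end DCells

end Crest.Agent.R013.Good_408
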