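import Crest.Agent.R013.Annu6_930

-- ▼ part R013/Half1_930
section

/-!
# Half annuli, part 1: the ring `A + {∑ b_n t^n, |b_n| s^n → 0}`

`A` a closed subalgebra of `E`, `t : E` of norm one with
`t a = a' + c t`, `a' ∈ A`, `c ∈ k`, `‖a'‖, ‖c‖ ≤ ‖a‖` for `a ∈ A`.
For `(A, t) = (AU, y)`: functions on `1 ≤ |y| ≤ s`; for `(A, t) = (AP, 1/y)`: functions on
`1/s ≤ |y| < 1` (with the boundary behaviour of `AP` at `|y| = 1`).
-/

set_option autoImplicit false
set_option linter.unusedSectionVars false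

namespace Crest.Agent.R013.Half_930

open Filter Topology Polynomial Crest.Agent.R013.Gl946 Crest.Agent.R013.Annu_930
open scoped NNReal

variable {k E : Type*} [NormedField k] [NormedField E] [NormedAlgebra k E]

/-- The condition on `(A, t)`. -/
def Step (A : Subalgebra k E) (t : E) : Prop :=
  ∀ a ∈ A, ∃ c : k, ∃ a' ∈ A, t * a = a' + c • t ∧ ‖c‖ ≤ ‖a‖ ∧ ‖a'‖ ≤ ‖a‖

/-- Elements `a + q(t)`, `‖a‖ ≤ D`, `‖q_n‖ ≤ D s^(-n)`. -/
def GG (A : Subalgebra k E) (t : E) (s D : ℝ≥0) : AddSubgroup E :=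
  AddSubgroup.closure ({x | x ∈ A ∧ ‖x‖₊ ≤ D} ∪ {x | ∃ (n : ℕ) (c : k), ‖c‖₊ * s ^ n ≤ D ∧
    x = c • t ^ n})

section GG

variable {A : Subalgebra k E} {t : E} {s D D' : ℝ≥0}

theorem mem_GG_of_mem {x : E} (hx : x ∈ A) (h : ‖x‖₊ ≤ D) : x ∈ GG A t s D :=
  AddSubgroup.subset_closure (Or.inl ⟨hx, h⟩)

theorem smul_pow_mem_GG {c : k} {n : ℕ} (h : ‖c‖₊ * s ^ n ≤ D) : c • t ^ n ∈ GG A t s D :=
  AddSubgroup.subset_closure (Or.inr ⟨n, c, h, rfl⟩)

theorem GG_mono (h : D ≤ D') : GG A t s D ≤ GG A t s D' := by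
  refine AddSubgroup.closure_mono ?_
  rintro x (⟨h1, h2⟩ | ⟨n, c, h1, h2⟩)
  · exact Or.inl ⟨h1, h2.trans h⟩
  · exact Or.inr ⟨n, c, h1.trans h, h2⟩


/-- induction on generators -/
theorem GG_induction {P : E → Prop} (hA : ∀ x ∈ A, ‖x‖₊ ≤ D → P x)
    (hT : ∀ (n : ℕ) (c : k), ‖c‖₊ * s ^ n ≤ D → P (c • t ^ n)) (h0 : P 0)
    (hadd : ∀ x y, P x → P y → P (x + y)) (hneg : ∀ x, P x → P (-x)) {x : E}
    (hx : x ∈ GG A t s D) : P x := by
  refine AddSubgroup.closure_induction ?_ h0 (fun x y _ _ h1 h2 => hadd x y h1 h2)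
    (fun x _ h => hneg x h) hx
  rintro x (⟨h1, h2⟩ | ⟨n, c, h1, rfl⟩)
  · exact hA x h1 h2
  · exact hT n c h1

theorem pow_mul_mem (hst : Step A t) (hs : 1 ≤ s) (n : ℕ) : ∀ a ∈ A, ∀ c : k,
    c • t ^ n * a ∈ GG A t s (‖c‖₊ * s ^ n * ‖a‖₊) := by
  induction n with
  | zero =>
    intro a ha c
    refine mem_GG_of_mem ?_ ?_
    · rw [pow_zero, smul_mul_assoc, one_mul]; exact A.smul_mem ha c
    · rw [pow_zero, pow_zero, smul_mul_assoc, one_mul, mul_one, nnnorm_smul]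
  | succ n ih =>
    intro a ha c
    obtain ⟨d, a', ha', e, hd, hn⟩ := hst a ha
    have hd' : ‖d‖₊ ≤ ‖a‖₊ := hd
    have hn' : ‖a'‖₊ ≤ ‖a‖₊ := hn
    have e2 : c • t ^ (n + 1) * a = c • t ^ n * a' + (c * d) • t ^ (n + 1) := by
      rw [pow_succ, smul_mul_assoc, mul_assoc, e, mul_add, smul_add, smul_mul_assoc]
      congr 1
      rw [mul_smul, mul_smul_comm]
    rw [e2]
    refine add_mem (GG_mono ?_ (ih a' ha' c)) (smul_pow_mem_GG ?_)
    · refine mul_le_mul' (mul_le_mul_right ?_ _) hn'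
      exact pow_le_pow_right₀ hs (Nat.le_succ n)
    · rw [nnnorm_mul]
      calc ‖c‖₊ * ‖d‖₊ * s ^ (n + 1) ≤ ‖c‖₊ * ‖a‖₊ * s ^ (n + 1) :=
            mul_le_mul_left (mul_le_mul_right hd' _) _
        _ = _ := by ring

theorem mul_mem_GG (hst : Step A t) (hs : 1 ≤ s) {x x' : E} (hx : x ∈ GG A t s D)
    (hx' : x' ∈ GG A t s D') : x * x' ∈ GG A t s (D * D') := by
  refine GG_induction (P := fun x => x * x' ∈ GG A t s (D * D')) ?_ ?_ ?_ ?_ ?_ hx
  · intro a ha haD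
    refine GG_induction (P := fun x' => a * x' ∈ GG A t s (D * D')) ?_ ?_ ?_ ?_ ?_ hx'
    · intro a' ha' haD'
      exact mem_GG_of_mem (mul_mem ha ha') ((nnnorm_mul _ _).le.trans (mul_le_mul' haD haD'))
    · intro n c hc
      rw [mul_comm a]
      refine GG_mono ?_ (pow_mul_mem hst hs n a ha c)
      rw [mul_comm D]
      exact mul_le_mul' hc haD
    · rw [mul_zero]; exact zero_mem _
    · intro u v hu hv; rw [mul_add]; exact add_mem hu hv
    · intro u hu; rw [mul_neg]; exact neg_mem hu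
  · intro n c hc
    refine GG_induction (P := fun x' => c • t ^ n * x' ∈ GG A t s (D * D')) ?_ ?_ ?_ ?_ ?_ hx'
    · intro a' ha' haD'
      exact GG_mono (mul_le_mul' hc haD') (pow_mul_mem hst hs n a' ha' c)
    · intro m d hd
      rw [smul_mul_smul_comm, ← pow_add]
      refine smul_pow_mem_GG ?_
      rw [nnnorm_mul, pow_add]
      calc ‖c‖₊ * ‖d‖₊ * (s ^ n * s ^ m) = (‖c‖₊ * s ^ n) * (‖d‖₊ * s ^ m) := by ring
        _ ≤ D * D' := mul_le_mul' hc hd
    · rw [mul_zero]; exact zero_mem _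
    · intro u v hu hv; rw [mul_add]; exact add_mem hu hv
    · intro u hu; rw [mul_neg]; exact neg_mem hu
  · simp only [zero_mul]; exact zero_mem _
  · intro u v hu hv; simp only [add_mul]; exact add_mem hu hv
  · intro u hu; simp only [neg_mul]; exact neg_mem hu

variable [IsUltrametricDist E]

theorem norm_le_of_mem_GG (ht : ‖t‖ = 1) (hs : 1 ≤ s) {x : E} (hx : x ∈ GG A t s D) :
    ‖x‖ ≤ D := by
  refine GG_induction (P := fun x => ‖x‖ ≤ D) ?_ ?_ ?_ ?_ ?_ hx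
  · intro a _ h; exact_mod_cast h
  · intro n c hc
    rw [norm_smul, norm_pow, ht, one_pow, mul_one]
    have : ‖c‖₊ ≤ D := by
      refine le_trans ?_ hc
      calc ‖c‖₊ = ‖c‖₊ * 1 := (mul_one _).symm
        _ ≤ _ := mul_le_mul_right (one_le_pow₀ hs) _
    exact_mod_cast this
  · rw [norm_zero]; exact D.2
  · intro u v hu hv; exact (nadd u v).trans (max_le hu hv)
  · intro u hu; rw [norm_neg]; exact hu

/-- Representation of elements of `GG`. -/
theorem exists_of_mem_GG {x : E} (hx : x ∈ GG A t s D) :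
    ∃ a ∈ A, ∃ q : k[X], x = a + aeval t q ∧ ‖a‖₊ ≤ D ∧ ∀ n, ‖q.coeff n‖₊ * s ^ n ≤ D := by
  refine GG_induction (P := fun x => ∃ a ∈ A, ∃ q : k[X], x = a + aeval t q ∧ ‖a‖₊ ≤ D ∧
    ∀ n, ‖q.coeff n‖₊ * s ^ n ≤ D) ?_ ?_ ?_ ?_ ?_ hx
  · intro a ha h; exact ⟨a, ha, 0, by simp, h, by simp⟩
  · intro n c hc
    refine ⟨0, zero_mem _, monomial n c, by rw [aeval_monomial, Algebra.smul_def, zero_add],
      by simp, fun m => ?_⟩
    rw [coeff_monomial]
    split_ifs with h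
    · rw [← h]; exact hc
    · simp
  · exact ⟨0, zero_mem _, 0, by simp, by simp, by simp⟩
  · rintro _ _ ⟨a, ha, q, rfl, h1, h2⟩ ⟨a', ha', q', rfl, h1', h2'⟩
    refine ⟨a + a', add_mem ha ha', q + q', by rw [map_add]; ring, ?_, fun n => ?_⟩
    · exact (nnadd_k' a a').trans (max_le h1 h1')
    · rw [coeff_add]
      calc _ ≤ max ‖q.coeff n‖₊ ‖q'.coeff n‖₊ * s ^ n := mul_le_mul_left (nnadd_k E _ _) _
        _ ≤ D := by
          rcases max_choice ‖q.coeff n‖₊ ‖q'.coeff n‖₊ with h | h <;> rw [h]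
          · exact h2 n
          · exact h2' n
  · rintro _ ⟨a, ha, q, rfl, h1, h2⟩
    exact ⟨-a, neg_mem ha, -q, by rw [map_neg]; ring, by rwa [nnnorm_neg], fun n => by
      rw [coeff_neg, nnnorm_neg]; exact h2 n⟩
where
  nnadd_k' (a b : E) : ‖a + b‖₊ ≤ max ‖a‖₊ ‖b‖₊ := by
    have := nadd a b
    exact_mod_cast this

end GG

/-! ### The ring -/

/-- being a sum of a geometric series of elements of `GG` -/
def IsH (A : Subalgebra k E) (t : E) (s : ℝ≥0) (x : E) : Prop :=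
  ∃ (C θ : ℝ≥0) (X : ℕ → E), θ < 1 ∧ (∀ i, X i ∈ GG A t s (C * θ ^ i)) ∧ HasSum X x

section H

variable [IsUltrametricDist E] {A : Subalgebra k E} {t : E} {s : ℝ≥0}

theorem IsH.of_mem {x : E} (hx : x ∈ A) : IsH A t s x := by
  classical
  refine ⟨‖x‖₊, 0, fun i => if i = 0 then x else 0, zero_lt_one, fun i => ?_, hasSum_ite_eq 0 x⟩
  dsimp only
  split_ifs with h
  · rw [h, pow_zero, mul_one]; exact mem_GG_of_mem hx le_rfl
  · exact zero_mem _

theorem IsH.of_mem_GG {D : ℝ≥0} {x : E} (hx : x ∈ GG A t s D) : IsH A t s x := by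
  classical
  refine ⟨D, 0, fun i => if i = 0 then x else 0, zero_lt_one, fun i => ?_, hasSum_ite_eq 0 x⟩
  dsimp only
  split_ifs with h
  · rw [h, pow_zero, mul_one]; exact hx
  · exact zero_mem _

theorem IsH.smul_pow (c : k) (n : ℕ) : IsH A t s (c • t ^ n) :=
  IsH.of_mem_GG (D := ‖c‖₊ * s ^ n) (smul_pow_mem_GG le_rfl)

theorem IsH.add {x x' : E} (hx : IsH A t s x) (hx' : IsH A t s x') : IsH A t s (x + x') := by
  obtain ⟨C, θ, X, h1, h2, h3⟩ := hx
  obtain ⟨C', θ', X', h1', h2', h3'⟩ := hx'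
  refine ⟨max C C', max θ θ', fun i => X i + X' i, max_lt h1 h1', fun i => ?_, h3.add h3'⟩
  exact add_mem (GG_mono (mul_le_mul' (le_max_left _ _) (pow_le_pow_left₀ zero_le
    (le_max_left _ _) i)) (h2 i)) (GG_mono (mul_le_mul' (le_max_right _ _)
    (pow_le_pow_left₀ zero_le (le_max_right _ _) i)) (h2' i))

theorem IsH.mul [CompleteSpace E] (hst : Step A t) (ht : ‖t‖ = 1) (hs : 1 ≤ s) {x x' : E}
    (hx : IsH A t s x) (hx' : IsH A t s x') : IsH A t s (x * x') := by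
  obtain ⟨C, θ, X, h1, h2, h3⟩ := hx
  obtain ⟨C', θ', X', h1', h2', h3'⟩ := hx'
  set Θ := max θ θ' with hΘ
  have hΘ1 : Θ < 1 := max_lt h1 h1'
  have hn : ∀ (C θ : ℝ≥0) (X : ℕ → E), θ < 1 → (∀ i, X i ∈ GG A t s (C * θ ^ i)) →
      Summable fun i => ‖X i‖ := by
    intro C θ X h1 h2
    refine Summable.of_nonneg_of_le (fun _ => norm_nonneg _)
      (fun i => norm_le_of_mem_GG ht hs (h2 i)) ?_
    have h1' : (θ : ℝ) < 1 := by exact_mod_cast h1
    have := (summable_geometric_of_lt_one θ.2 h1').mul_left (C : ℝ)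
    simpa using this
  have hs1 := hn C θ X h1 h2
  have hs2 := hn C' θ' X' h1' h2'
  refine ⟨C * C', Θ, fun n => ∑ kl ∈ Finset.HasAntidiagonal.antidiagonal n, X kl.1 * X' kl.2, hΘ1, fun n => ?_, ?_⟩
  · refine AddSubgroup.sum_mem _ fun kl hkl => ?_
    rw [Finset.HasAntidiagonal.mem_antidiagonal] at hkl
    refine GG_mono ?_ (mul_mem_GG hst hs (h2 kl.1) (h2' kl.2))
    calc C * θ ^ kl.1 * (C' * θ' ^ kl.2) ≤ C * Θ ^ kl.1 * (C' * Θ ^ kl.2) :=
          mul_le_mul' (mul_le_mul_right (pow_le_pow_left₀ zero_le (le_max_left _ _) _) _)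
            (mul_le_mul_right (pow_le_pow_left₀ zero_le (le_max_right _ _) _) _)
      _ = C * C' * Θ ^ n := by rw [← hkl, pow_add]; ring
  · have e := tsum_mul_tsum_eq_tsum_sum_antidiagonal_of_summable_norm hs1 hs2
    rw [h3.tsum_eq, h3'.tsum_eq] at e
    rw [e]
    exact (summable_norm_sum_mul_antidiagonal_of_summable_norm hs1 hs2).of_norm.hasSum

/-- The ring `A + {∑ b_n t^n : |b_n| s^n → 0}`. -/
def HH [CompleteSpace E] (hst : Step A t) (ht : ‖t‖ = 1) (hs : 1 ≤ s) : Subalgebra k E where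
  carrier := {x | IsH A t s x}
  mul_mem' := fun hx hx' => IsH.mul hst ht hs hx hx'
  add_mem' := fun hx hx' => IsH.add hx hx'
  algebraMap_mem' := fun c => IsH.of_mem (A.algebraMap_mem c)

theorem le_HH [CompleteSpace E] (hst : Step A t) (ht : ‖t‖ = 1) (hs : 1 ≤ s) :
    A ≤ HH hst ht hs := fun _ hx => IsH.of_mem hx

theorem pow_mem_HH [CompleteSpace E] (hst : Step A t) (ht : ‖t‖ = 1) (hs : 1 ≤ s) (n : ℕ) :
    t ^ n ∈ HH hst ht hs := by
  have := IsH.smul_pow (A := A) (t := t) (s := s) (1 : k) n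
  rwa [one_smul] at this

/-- Decomposition of an element of `HH`. -/
theorem exists_add [CompleteSpace E] (hA : IsClosed (A : Set E)) (hG : IsGauss k t) (hs : 1 < s)
    {x : E} (hx : IsH A t s x) : ∃ a ∈ A, ∃ v ∈ AN hG hs, x = a + v ∧
      v ∈ closure ((aeval t : k[X] →ₐ[k] E).range : Set E) := by
  obtain ⟨C, θ, X, h1, h2, h3⟩ := hx
  choose a ha q hq haD hqD using fun i => exists_of_mem_GG (h2 i)
  have h1' : (θ : ℝ) < 1 := by exact_mod_cast h1
  have hgeo : Summable fun i => ((C * θ ^ i : ℝ≥0) : ℝ) := by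
    have := (summable_geometric_of_lt_one θ.2 h1').mul_left (C : ℝ)
    simpa using this
  have hsa : Summable a := Summable.of_norm_bounded hgeo fun i => by exact_mod_cast haD i
  have hB : ∀ i, (aeval t (q i) : E) ∈ B k t s (θ ^ i * C) (θ ^ i * C) := by
    intro i
    rw [aeval_eq_sum_range]
    refine AddSubgroup.sum_mem _ fun n _ => ?_
    rw [← zpow_natCast t n]
    have hsp : 0 < s := zero_lt_one.trans hs
    have h4 : ‖(q i).coeff n‖₊ ≤ θ ^ i * C * s ^ (-(n : ℤ)) := by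
      rw [zpow_neg, zpow_natCast, ← div_eq_mul_inv, le_div_iff₀ (pow_pos hsp _), mul_comm (θ ^ i)]
      exact hqD i n
    exact smul_mem_Box (k := k) (y := t) (b := w s (θ ^ i * C) (θ ^ i * C))
      (le_min h4 (h4.trans (mul_le_mul_right (zpow_le_zpow_right₀ hs.le (by omega)) _)))
  obtain ⟨v, hv, hsum, -⟩ := hasSum_mem_AN hG hs h1 hB fun i => aeval_mem_AN hG hs (q i)
  refine ⟨∑' i, a i, ?_, v, hv, ?_, ?_⟩
  · exact hA.mem_of_tendsto hsa.hasSum.tendsto_sum_nat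
      (Eventually.of_forall fun n => sum_mem fun i _ => ha i)
  · have h5 := hsa.hasSum.add hsum
    have h6 : (fun i => a i + aeval t (q i)) = X := funext fun i => (hq i).symm
    rw [h6] at h5
    exact h3.unique h5
  · refine mem_closure_of_tendsto hsum.tendsto_sum_nat (Eventually.of_forall fun n => ?_)
    exact (aeval t : k[X] →ₐ[k] E).range.sum_mem fun i _ => ⟨q i, rfl⟩


end H

end Crest.Agent.R013.Half_930
end

-- ▼ part R013/Half2_930

/-!
# Half annuli, part 2: the rings `Ap ≥ RU`, `Am ≥ FP` with `Ap ⊓ Am = MN`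
-/

set_option autoImplicit false
set_option linter.unusedSectionVars false

namespace Crest.Agent.R013.Half_930

open Filter Topology Polynomial Crest.Agent.R013.Gl946 Crest.Agent.R013.Annu_930
open scoped NNReal

variable {k E : Type*} [NormedField k] [NormedField E] [NormedAlgebra k E] [IsUltrametricDist E]
  {y : E}

theorem yinv_mem_AU : y⁻¹ ∈ AU k y := by
  have := aeval_inv_mem_AU (k := k) y X
  rwa [aeval_X] at this

theorem y_mem_AP (hG : IsGauss k y) : y ∈ AP hG := by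
  have := aeval_mem_AP hG X
  rwa [aeval_X] at this

/-- Elements of `AU` have no terms of positive degree. -/
theorem AU_mem_Box (hG : IsGauss k y) {x : E} (hx : x ∈ AU k y) :
    x ∈ Box k y (fun n => if n ≤ 0 then ‖x‖₊ else 0) := by
  by_cases hx0 : x = 0
  · rw [hx0]; exact zero_mem _
  have hxn : 0 < ‖x‖ := norm_pos_iff.2 hx0
  change x ∈ closure (Box0 k y _ : Set E)
  rw [Metric.mem_closure_iff]
  intro ε hε
  obtain ⟨_, ⟨f, rfl⟩, hf⟩ := Metric.mem_closure_iff.1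
    (show x ∈ closure (((aeval (y⁻¹) : k[X] →ₐ[k] E).range : Subalgebra k E) : Set E) from hx)
    (min ε ‖x‖) (lt_min hε hxn)
  refine ⟨_, ?_, hf.trans_le (min_le_left _ _)⟩
  change aeval y⁻¹ f ∈ Box0 k y _
  have hfn : ‖aeval y⁻¹ f‖ ≤ ‖x‖ := by
    have e : aeval y⁻¹ f = x - (x - aeval y⁻¹ f) := by ring
    rw [e]
    refine (nsub _ _).trans (max_le le_rfl ?_)
    rw [← dist_eq_norm]
    exact hf.le.trans (min_le_right _ _)
  rw [aeval_eq_sum_range]
  refine AddSubgroup.sum_mem _ fun n _ => ?_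
  have e : (y⁻¹ : E) ^ n = y ^ (-(n : ℤ)) := by rw [zpow_neg, zpow_natCast, inv_pow]
  rw [e]
  refine smul_mem_Box0 ?_
  rw [if_pos (by omega)]
  exact ((isGauss_inv hG).coeff_le f n).trans hfn

/-- A polynomial without constant term which lies in `AU` vanishes. -/
theorem eq_zero_of_mul_mem_AU (hG : IsGauss k y) (r : k[X]) (h : aeval y (X * r) ∈ AU k y) :
    r = 0 := by
  obtain ⟨P, hP, hPc⟩ := aeval_eq_ev (y := y) (X * r)
  have h1 := AU_mem_Box hG h
  rw [← hP] at h1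
  have h2 := (ev_mem_Box_iff hG).1 h1
  ext n
  have h3 := h2 ((n + 1 : ℕ) : ℤ)
  rw [hPc, coeff_X_mul, if_neg (by omega)] at h3
  simpa using h3

variable [CompleteSpace k] [CompleteSpace E] {π : k}

theorem linear_form (hG : IsGauss k y) (hπ : IsUnif π) {w : E} (hw : w ∈ AP hG)
    (hw' : w / y ∈ AU k y) : ∃ p0 p1 : k, w = algebraMap k E p0 + p1 • y ∧ ‖p0‖ ≤ ‖w‖ ∧
      ‖p1‖ ≤ ‖w‖ := by
  obtain ⟨p, hp⟩ := inter_poly hG hπ 1 w hw (by rwa [pow_one])
  obtain ⟨l, g, e1, e2, e3, -⟩ := split_low p 2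
  have hl : l = C (p.coeff 0) + C (p.coeff 1) * X := by
    ext i
    rw [coeff_add, coeff_C, coeff_C_mul, coeff_X]
    rcases lt_or_ge i 2 with h | h
    · rw [e2 i h]
      interval_cases i <;> simp
    · rw [e3 i h]
      have h0 : i ≠ 0 := by omega
      have h1 : 1 ≠ i := by omega
      simp [h0, h1]
  have hpe : aeval y p = algebraMap k E (p.coeff 0) + algebraMap k E (p.coeff 1) * y +
      y ^ 2 * aeval y g := by
    conv_lhs => rw [e1, hl]
    simp only [map_add, map_mul, aeval_C, aeval_X, map_pow]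
  have hg : g = 0 := by
    refine eq_zero_of_mul_mem_AU hG g ?_
    have hy := hG.ne_zero
    have e : aeval y (X * g) = w / y - (algebraMap k E (p.coeff 0) * y⁻¹ +
        algebraMap k E (p.coeff 1)) := by
      rw [hp, hpe, map_mul, aeval_X]
      field_simp
      ring
    rw [e]
    refine sub_mem hw' (add_mem (mul_mem ((AU k y).algebraMap_mem _) yinv_mem_AU)
      ((AU k y).algebraMap_mem _))
  refine ⟨p.coeff 0, p.coeff 1, ?_, ?_, ?_⟩
  · rw [hp, hpe, hg, map_zero, mul_zero, add_zero, Algebra.smul_def]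
  · rw [hp]; exact hG.coeff_le p 0
  · rw [hp]; exact hG.coeff_le p 1

theorem step_AU (hG : IsGauss k y) (hπ : IsUnif π) (hd : DenseRat k y) : Step (AU k y) y := by
  intro a ha
  obtain ⟨u, hu, a', ha', e, hun, han⟩ := dec hG hπ hd (y * a)
  have hya : ‖y * a‖ = ‖a‖ := by rw [norm_mul, hG.norm_eq, one_mul]
  rw [hya] at hun han
  have hy := hG.ne_zero
  obtain ⟨p0, p1, e1, h0, h1⟩ := linear_form hG hπ ha' (by
    have e2 : a' / y = a - u * y⁻¹ := by
      have : a' = y * a - u := by rw [e]; ring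
      rw [this]; field_simp
    rw [e2]
    exact sub_mem ha (mul_mem hu yinv_mem_AU))
  refine ⟨p1, u + algebraMap k E p0, add_mem hu ((AU k y).algebraMap_mem _), ?_, h1.trans han, ?_⟩
  · rw [e, e1]; ring
  · refine (nadd _ _).trans (max_le hun ?_)
    rw [norm_algebraMap']; exact h0.trans han

theorem step_AP (hG : IsGauss k y) (hπ : IsUnif π) (hd : DenseRat k y) : Step (AP hG) y⁻¹ := by
  intro a ha
  obtain ⟨u, hu, a', ha', e, hun, han⟩ := dec hG hπ hd (y⁻¹ * a)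
  have hya : ‖y⁻¹ * a‖ = ‖a‖ := by rw [norm_mul, norm_inv, hG.norm_eq, inv_one, one_mul]
  rw [hya] at hun han
  have hy := hG.ne_zero
  obtain ⟨p0, p1, e1, h0, h1⟩ := linear_form hG hπ (w := y * u) (by
    have e2 : y * u = a - y * a' := by
      have : u = y⁻¹ * a - a' := by rw [e]; ring
      rw [this]; field_simp
    rw [e2]
    exact sub_mem ha (mul_mem (y_mem_AP hG) ha')) (by rwa [mul_div_cancel_left₀ _ hy])
  have hyu : ‖y * u‖ = ‖u‖ := by rw [norm_mul, hG.norm_eq, one_mul]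
  rw [hyu] at h0 h1
  refine ⟨p0, a' + algebraMap k E p1, add_mem ha' ((AP hG).algebraMap_mem _), ?_, h0.trans hun, ?_⟩
  · have e3 : u = y⁻¹ * (algebraMap k E p0 + p1 • y) := by
      rw [← e1, inv_mul_cancel_left₀ hy]
    rw [e, e3, Algebra.smul_def, Algebra.smul_def]
    field_simp
    ring
  · refine (nadd _ _).trans (max_le han ?_)
    rw [norm_algebraMap']; exact h1.trans hun

section Defs

variable (hG : IsGauss k y) (hπ : IsUnif π) (hd : DenseRat k y) {s : ℝ≥0} (hs : 1 < s)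

/-- Functions on `1 ≤ |y| ≤ s`. -/
noncomputable def Apos : Subalgebra k E := HH (step_AU hG hπ hd) hG.norm_eq hs.le

/-- Functions on `1/s ≤ |y| < 1`. -/
noncomputable def Aneg : Subalgebra k E :=
  HH (step_AP hG hπ hd) (by rw [norm_inv, hG.norm_eq, inv_one]) hs.le



theorem AU_le_Apos : AU k y ≤ Apos hG hπ hd hs := le_HH _ _ _

theorem AP_le_Aneg : AP hG ≤ Aneg hG hπ hd hs := le_HH _ _ _

theorem y_mem_Apos : y ∈ Apos hG hπ hd hs := by
  have := pow_mem_HH (step_AU hG hπ hd) hG.norm_eq hs.le 1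
  rwa [pow_one] at this

theorem aeval_mem_Apos (f : k[X]) : aeval y f ∈ Apos hG hπ hd hs := by
  have : (aeval y : k[X] →ₐ[k] E) = (Apos hG hπ hd hs).val.comp
      (aeval (⟨y, y_mem_Apos hG hπ hd hs⟩ : Apos hG hπ hd hs)) := by
    refine Polynomial.algHom_ext ?_
    simp
  rw [this]
  exact (aeval (⟨y, y_mem_Apos hG hπ hd hs⟩ : Apos hG hπ hd hs) f).2

/-- The ring `k[y]` in `E`. -/
noncomputable def kY (y : E) : Subring E := (aeval y : k[X] →ₐ[k] E).range.toSubring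

/-- The ring `Ap ≥ RU` of meromorphic functions on `1 ≤ |y| ≤ s`. -/
noncomputable def Ap : Subring E :=
  fracSub (Apos hG hπ hd hs).toSubring (kY (k := k) y) (by
    rintro _ ⟨f, rfl⟩; exact aeval_mem_Apos hG hπ hd hs f)

/-- The ring `Am ≥ FP` of meromorphic functions on `1/s ≤ |y| < 1`. -/
noncomputable def Am : Subring E :=
  fracSub (Aneg hG hπ hd hs).toSubring (kY (k := k) y) (by
    rintro _ ⟨f, rfl⟩; exact AP_le_Aneg hG hπ hd hs (aeval_mem_AP hG f))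

theorem mem_Ap {z : E} : z ∈ Ap hG hπ hd hs ↔ ∃ a ∈ Apos hG hπ hd hs, ∃ g : k[X], g ≠ 0 ∧
    z = a / aeval y g := by
  constructor
  · rintro ⟨a, ha, _, ⟨g, rfl⟩, h1, rfl⟩
    exact ⟨a, ha, g, by rintro rfl; exact h1 (map_zero _), rfl⟩
  · rintro ⟨a, ha, g, h1, rfl⟩
    exact ⟨a, ha, _, ⟨g, rfl⟩, hG.aeval_ne_zero h1, rfl⟩

theorem mem_Am {z : E} : z ∈ Am hG hπ hd hs ↔ ∃ a ∈ Aneg hG hπ hd hs, ∃ g : k[X], g ≠ 0 ∧
    z = a / aeval y g := by
  constructor
  · rintro ⟨a, ha, _, ⟨g, rfl⟩, h1, rfl⟩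
    exact ⟨a, ha, g, by rintro rfl; exact h1 (map_zero _), rfl⟩
  · rintro ⟨a, ha, g, h1, rfl⟩
    exact ⟨a, ha, _, ⟨g, rfl⟩, hG.aeval_ne_zero h1, rfl⟩

theorem FP_le_Am : (FP hG hπ hd).toSubring ≤ Am hG hπ hd hs := by
  intro z hz
  obtain ⟨a, ha, g, hg, rfl⟩ := (mem_FP hG hπ hd z).1 hz
  exact (mem_Am hG hπ hd hs).2 ⟨a, AP_le_Aneg hG hπ hd hs ha, g, hg, rfl⟩

theorem RU_le_Ap : RU k y ≤ Ap hG hπ hd hs := by
  rintro z ⟨a, ha, _, ⟨h, rfl⟩, h1, rfl⟩
  have hy := hG.ne_zero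
  obtain ⟨q, hq⟩ := inv_poly_mul_pow hG h
  have h1' : aeval (y⁻¹) h ≠ 0 := h1
  have hqne : aeval y q ≠ 0 := by rw [← hq]; exact mul_ne_zero h1' (pow_ne_zero _ hy)
  refine (mem_Ap hG hπ hd hs).2 ⟨a * y ^ h.natDegree, ?_, q, ?_, ?_⟩
  · exact mul_mem (AU_le_Apos hG hπ hd hs ha) (pow_mem (y_mem_Apos hG hπ hd hs) _)
  · rintro rfl; exact hqne (map_zero _)
  · rw [← hq, mul_div_mul_right _ _ (pow_ne_zero _ hy)]
    rfl

/-! ### The intersection -/

theorem AN_inv {x : E} (hx : x ∈ AN (isGauss_inv hG) hs) : x ∈ AN hG hs := by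
  intro ε hε
  obtain ⟨p, hp⟩ := hx ε hε
  refine ⟨mir p, ?_⟩
  have h1 : mir (mir p) = p := by ext n; rw [mir_apply, mir_apply, neg_neg]
  have h2 : ev k y⁻¹ p = ev k y (mir p) := by
    rw [← ev_mir (y := y) (mir p), h1]
  rwa [h2, B_inv] at hp

theorem mem_AN_of_both {x : E} (h1 : x ∈ Apos hG hπ hd hs) (h2 : x ∈ Aneg hG hπ hd hs) :
    x ∈ AN hG hs := by
  obtain ⟨u, hu, v, hv, e1, hv'⟩ := exists_add (isClosed_AU (k := k) y) hG hs h1
  obtain ⟨a, ha, v', hv2, e2, hv2'⟩ := exists_add (isClosed_AP hG) (isGauss_inv hG) hs h2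
  have hvP : v ∈ AP hG := by
    refine closure_minimal ?_ (isClosed_AP hG) hv'
    rintro _ ⟨f, rfl⟩; exact aeval_mem_AP hG f
  have hvU : v' ∈ AU k y := hv2'
  obtain ⟨p, hp⟩ := inter_poly hG hπ 0 (a - v) (sub_mem ha hvP) (by
    have : a - v = u - v' := by linear_combination e1 - e2
    rw [pow_zero, div_one, this]
    exact sub_mem hu hvU)
  have e3 : x = aeval y p + v + v' := by rw [← hp, e2]; ring
  rw [e3]
  exact add_mem (add_mem (aeval_mem_AN hG hs p) hv) (AN_inv hG hs hv2)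

/-- **`Ap ⊓ Am ⊆ MN`.** -/
theorem mem_MN_of_both {z : E} (h1 : z ∈ Ap hG hπ hd hs) (h2 : z ∈ Am hG hπ hd hs) :
    z ∈ MN hG hs := by
  obtain ⟨a, ha, f, hf, e1⟩ := (mem_Ap hG hπ hd hs).1 h1
  obtain ⟨b, hb, g, hg, e2⟩ := (mem_Am hG hπ hd hs).1 h2
  have hfn := hG.aeval_ne_zero hf
  have hgn := hG.aeval_ne_zero hg
  have e3 : a * aeval y g = b * aeval y f := by
    rw [e1, div_eq_div_iff hfn hgn] at e2
    exact e2
  have h3 : a * aeval y g ∈ AN hG hs := by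
    refine mem_AN_of_both hG hπ hd hs (mul_mem ha (aeval_mem_Apos hG hπ hd hs g)) ?_
    rw [e3]
    exact mul_mem hb (AP_le_Aneg hG hπ hd hs (aeval_mem_AP hG f))
  refine ⟨_, h3, aeval y (f * g), aeval_mem_AN hG hs _, hG.aeval_ne_zero (mul_ne_zero hf hg), ?_⟩
  rw [e1, map_mul]
  field_simp

include hG hs in
theorem ev_mem_GG_AU {D : ℝ≥0} {p : ℤ →₀ k} (hp : ev k y p ∈ B k y s D D) :
    ev k y p ∈ GG (AU k y) y s D := by
  have hsp : 0 < s := zero_lt_one.trans hs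
  have h1 := (ev_mem_B_iff hG).1 hp
  rw [ev_apply]
  refine AddSubgroup.sum_mem _ fun n _ => ?_
  change p n • y ^ n ∈ _
  rcases le_or_gt 0 n with h | h
  · obtain ⟨m, rfl⟩ := Int.eq_ofNat_of_zero_le h
    rw [zpow_natCast]
    refine smul_pow_mem_GG ?_
    have h2 := (h1 m).trans (min_le_left _ _)
    rw [zpow_neg, zpow_natCast, ← div_eq_mul_inv, le_div_iff₀ (pow_pos hsp _)] at h2
    exact h2
  · refine mem_GG_of_mem ?_ ?_
    · refine (AU k y).smul_mem ?_ _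
      have : y ^ n = (y⁻¹) ^ n.natAbs := by
        rw [inv_pow, ← zpow_natCast, ← zpow_neg]; congr 1; omega
      rw [this]
      exact pow_mem yinv_mem_AU _
    · rw [nnnorm_smul]
      have : ‖y ^ n‖₊ = 1 := NNReal.eq (nyz hG n)
      rw [this, mul_one]
      exact (h1 n).trans (w_le hs.le le_rfl le_rfl n)

include hG hs in
theorem ev_mem_GG_AP {D : ℝ≥0} {p : ℤ →₀ k} (hp : ev k y p ∈ B k y s D D) :
    ev k y p ∈ GG (AP hG) y⁻¹ s D := by
  have hsp : 0 < s := zero_lt_one.trans hs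
  have h1 := (ev_mem_B_iff hG).1 hp
  rw [ev_apply]
  refine AddSubgroup.sum_mem _ fun n _ => ?_
  change p n • y ^ n ∈ _
  rcases le_or_gt n 0 with h | h
  · obtain ⟨m, hm⟩ := Int.eq_ofNat_of_zero_le (show 0 ≤ -n by omega)
    obtain rfl : n = -(m : ℤ) := by omega
    have e : y ^ (-(m : ℤ)) = (y⁻¹) ^ m := by rw [zpow_neg, zpow_natCast, inv_pow]
    rw [e]
    refine smul_pow_mem_GG ?_
    have h2 := (h1 (-(m : ℤ))).trans (min_le_right _ _)
    rw [zpow_neg, zpow_natCast, ← div_eq_mul_inv, le_div_iff₀ (pow_pos hsp _)] at h2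
    exact h2
  · refine mem_GG_of_mem ?_ ?_
    · refine (AP hG).smul_mem ?_ _
      have : y ^ n = y ^ n.natAbs := by rw [← zpow_natCast]; congr 1; omega
      rw [this]
      exact pow_mem (y_mem_AP hG) _
    · rw [nnnorm_smul]
      have : ‖y ^ n‖₊ = 1 := NNReal.eq (nyz hG n)
      rw [this, mul_one]
      exact (h1 n).trans (w_le hs.le le_rfl le_rfl n)

/-- Telescoping. -/
theorem exists_telescope {x : E} (hx : x ∈ AN hG hs) : ∃ (C : ℝ≥0) (p : ℕ → ℤ →₀ k),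
    (∀ i, ev k y (p i) ∈ B k y s (C * (1 / 2) ^ i) (C * (1 / 2) ^ i)) ∧
    HasSum (fun i => ev k y (p i)) x := by
  have hsp : 0 < s := zero_lt_one.trans hs
  have hpos : ∀ i : ℕ, (0 : ℝ≥0) < (1 / 2) ^ i := fun i => by positivity
  choose P hP using fun i : ℕ => hx ((1 / 2) ^ i) (hpos i)
  obtain ⟨C0, hC0⟩ := exists_ev_mem_B (y := y) hsp (P 0)
  let p : ℕ → ℤ →₀ k := fun i => match i with
    | 0 => P 0
    | i + 1 => P (i + 1) - P i
  have hB : ∀ i, ev k y (p i) ∈ B k y s ((C0 + 2) * (1 / 2) ^ i) ((C0 + 2) * (1 / 2) ^ i) := by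
    intro i
    cases i with
    | zero =>
      have : C0 ≤ (C0 + 2) * (1 / 2) ^ 0 := by rw [pow_zero, mul_one]; exact le_self_add
      exact B_mono this this hC0
    | succ i =>
      change ev k y (P (i + 1) - P i) ∈ _
      have e : ev k y (P (i + 1) - P i) = (x - ev k y (P i)) - (x - ev k y (P (i + 1))) := by
        rw [map_sub]; ring
      rw [e]
      have h1 : (1 / 2 : ℝ≥0) ^ i ≤ (C0 + 2) * (1 / 2) ^ (i + 1) := by
        rw [pow_succ]
        calc (1 / 2 : ℝ≥0) ^ i = 2 * ((1 / 2) ^ i * (1 / 2)) := by ring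
          _ ≤ _ := mul_le_mul_left le_add_self _
      have h2 : (1 / 2 : ℝ≥0) ^ (i + 1) ≤ (C0 + 2) * (1 / 2) ^ (i + 1) := by
        calc (1 / 2 : ℝ≥0) ^ (i + 1) = 1 * (1 / 2) ^ (i + 1) := (one_mul _).symm
          _ ≤ _ := mul_le_mul_left (le_add_left one_le_two) _
      exact sub_mem (B_mono h1 h1 (hP i)) (B_mono h2 h2 (hP (i + 1)))
  refine ⟨C0 + 2, p, hB, ?_⟩
  have hsum : Summable fun i => ev k y (p i) := by
    refine Summable.of_norm_bounded (g := fun i => (((C0 + 2) * (1 / 2) ^ i : ℝ≥0) : ℝ)) ?_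
      fun i => norm_le_of_mem_B hG hs.le le_rfl le_rfl (hB i)
    have := (summable_geometric_of_lt_one (r := (1 / 2 : ℝ)) (by norm_num) (by norm_num)).mul_left
      ((C0 + 2 : ℝ≥0) : ℝ)
    simpa using this
  have hpart : ∀ n, ∑ i ∈ Finset.range (n + 1), ev k y (p i) = ev k y (P n) := by
    intro n
    induction n with
    | zero => simp [p]
    | succ n ih =>
      rw [Finset.sum_range_succ, ih]
      change ev k y (P n) + ev k y (P (n + 1) - P n) = _
      rw [map_sub]; ring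
  have hlim : Tendsto (fun n => ev k y (P n)) atTop (𝓝 x) := by
    rw [tendsto_iff_norm_sub_tendsto_zero]
    refine squeeze_zero (g := fun i : ℕ => (((1 / 2) ^ i : ℝ≥0) : ℝ)) (fun _ => norm_nonneg _)
      (fun i => ?_) ?_
    · rw [norm_sub_rev]
      exact norm_le_of_mem_B hG hs.le le_rfl le_rfl (hP i)
    · simpa using tendsto_pow_atTop_nhds_zero_of_lt_one (r := (1 / 2 : ℝ)) (by norm_num)
        (by norm_num)
  have h1 := (hsum.hasSum.tendsto_sum_nat).comp (tendsto_add_atTop_nat 1)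
  have h2 : (fun n => ev k y (P n)) = (fun n => ∑ i ∈ Finset.range n, ev k y (p i)) ∘
      fun n => n + 1 := funext fun n => (hpart n).symm
  rw [h2] at hlim
  rw [← tendsto_nhds_unique h1 hlim]
  exact hsum.hasSum

theorem AN_le_Apos : AN hG hs ≤ Apos hG hπ hd hs := by
  intro x hx
  obtain ⟨C, p, h1, h2⟩ := exists_telescope hG hs hx
  exact ⟨C, 1 / 2, _, by
    rw [div_lt_one two_pos]; exact one_lt_two, fun i => ev_mem_GG_AU hG hs (h1 i), h2⟩

theorem AN_le_Aneg : AN hG hs ≤ Aneg hG hπ hd hs := by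
  intro x hx
  obtain ⟨C, p, h1, h2⟩ := exists_telescope hG hs hx
  exact ⟨C, 1 / 2, _, by
    rw [div_lt_one two_pos]; exact one_lt_two, fun i => ev_mem_GG_AP hG hs (h1 i), h2⟩

theorem MN_le_Ap : (MN hG hs).toSubfield.toSubring ≤ Ap hG hπ hd hs := by
  intro z hz
  obtain ⟨a, ha, g, hg, rfl⟩ := (mem_MN_iff_Fr hG hs hπ).1 hz
  exact (mem_Ap hG hπ hd hs).2 ⟨a, AN_le_Apos hG hπ hd hs ha, g, hg, rfl⟩

theorem MN_le_Am : (MN hG hs).toSubfield.toSubring ≤ Am hG hπ hd hs := by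
  intro z hz
  obtain ⟨a, ha, g, hg, rfl⟩ := (mem_MN_iff_Fr hG hs hπ).1 hz
  exact (mem_Am hG hπ hd hs).2 ⟨a, AN_le_Aneg hG hπ hd hs ha, g, hg, rfl⟩


end Defs

end Crest.Agent.R013.Half_930
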