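import Mathlib
import Crest.Agent.R013.Pow4_931
import Crest.Agent.R013.BTor2_914
import Crest.Agent.R013.EE5_809
import Crest.Agent.R013.Inh5_770
import Crest.Agent.R013.Kumv_275

-- ▼ part R013/Pow5_931
section

/-!
# R013 / TOPSPLIT-P, file 5 (helper931): `n`-th powers in the cells of a semistable structure

`S : SSK k C K`, `h : K` with all orders (at the places of `K / C`) divisible by `n`.
* `disc_pow`: every `n`-th root of `em d h` in `EE` (`d` a disc direction) is a quotient of series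
  on the disc;
* `ann_pow`: if `em (e0 e) h` and `em (e1 e) h` are `n`-th powers `w ^ n`, `w' ^ n`, then `w` and
  `w'` are (up to a root of unity) the two expansions of one quotient of bounded series on the
  annulus `e`.
-/

set_option autoImplicit false
set_option linter.all false

namespace Crest.Agent.R013.Pow5_931

open WithZero
open Crest.Agent.R013.RR7_948 Crest.Agent.R013.Red332
open Crest.Agent.R013.Cell_408 Crest.Agent.R013.EE809 Crest.Agent.R013.Pow1_931
open Crest.Agent.R013.SSK_332 Crest.Agent.R013.Pow2_931 Crest.Agent.R013.Pow3_931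

variable {k : Type*} [NontriviallyNormedField k] [CompleteSpace k] [IsUltrametricDist k]
variable {C : Type*} [NormedField C] [IsUltrametricDist C] [NormedAlgebra k C]
variable [Algebra.IsAlgebraic k C] [IsAlgClosed C]
variable {K : Type*} [Field K] [Algebra C K]

theorem exp_int_inj {a b : ℤ} (h : (exp a : WithZero (Multiplicative ℤ)) = exp b) : a = b := by
  simpa using h

theorem disc_pow (S : SSK k C K) (hk : DiscNorm k) {n : ℕ} (hn : 0 < n) {h : K} (h0 : h ≠ 0)
    (hdiv : ∀ P : Pl C K, ∃ j : ℤ, P.v h = exp ((n : ℤ) * j))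
    (d : S.Dir) (hd : S.IsDisc d) {w : EE k C} (hw : w ^ n = S.em d h) :
    ∃ g H : EE k C, H ≠ 0 ∧ InD g ∧ InD H ∧ w * H = g := by
  obtain ⟨G, H, hH0, hG, hH, he⟩ := S.disc d hd.1 hd.2 h
  refine ⟨w * H, H, hH0, ?_, hH, rfl⟩
  refine Pow2_931.disc_pow hk hn hG hH hH0 ((map_ne_zero_iff _ (S.em d).injective).2 h0) he ?_ hw
  intro τ hτ
  obtain ⟨a, b, g, h', h1, h2, h3, h4, h5, h6⟩ := S.ptD_ord d hd.1 hd.2 τ hτ h h0
  obtain ⟨j, hj⟩ := hdiv (S.ptD d hd.1 hd.2 τ hτ)
  refine ⟨a, b, g, h', h1, h2, h3, h4, h5, ?_⟩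
  rw [h6] at hj
  exact ⟨j, exp_int_inj hj⟩

theorem ann_pow (S : SSK k C K) (hk : DiscNorm k) {n : ℕ} (hn : 0 < n) {h : K} (h0 : h ≠ 0)
    (hdiv : ∀ P : Pl C K, ∃ j : ℤ, P.v h = exp ((n : ℤ) * j))
    (e : S.Ed) {w w' : EE k C} (hw : w ^ n = S.em (S.e0 e) h) (hw' : w' ^ n = S.em (S.e1 e) h) :
    ∃ g H g' H' : EE k C, H ≠ 0 ∧ InA (S.cc e) g ∧ InA (S.cc e) H ∧ Flip (S.cc e) g g' ∧
      Flip (S.cc e) H H' ∧ w * H = g ∧
      ∃ ζ : C, ζ ^ n = 1 ∧ algebraMap C (EE k C) ζ * w' * H' = g' := by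
  obtain ⟨G, H, G', H', hH0, hG, hH, hGG, hHH, he, he'⟩ := S.ann e h
  obtain ⟨hin, ζ, hζ, hfl⟩ := Pow4_931.ann_pow hk (S.cc_ne e) (S.cc_lt e) hn hG hH hH0
    ((map_ne_zero_iff _ (S.em (S.e0 e)).injective).2 h0) he (by
      intro τ hτ0 hτ1
      obtain ⟨a, b, g, h', h1, h2, h3, h4, h5, h6⟩ := S.ptA_ord e τ hτ0 hτ1 h h0
      obtain ⟨j, hj⟩ := hdiv (S.ptA e τ hτ0 hτ1)
      refine ⟨a, b, g, h', h1, h2, h3, h4, h5, ?_⟩
      rw [h6] at hj
      exact ⟨j, exp_int_inj hj⟩) hw hGG hHH he' hw'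
  exact ⟨w * H, H, _, H', hH0, hin, hH, hfl, hHH, rfl, ζ, hζ, by rw [mul_assoc]⟩

end Crest.Agent.R013.Pow5_931
end

-- ▼ part R013/InhK1_275
section

/-!
# Row 13, INH-KUM 1: `N`-th roots in 809's field `EE k C`

`‖N‖ = 1`: an element of `EE k C` whose order is divisible by `N` is an `N`-th power.
-/

set_option autoImplicit false
set_option linter.all false

noncomputable section

namespace Crest.Agent.R013.InhK_275

open Polynomial
open Crest.Agent.R013.Cell_408 Crest.Agent.R013.EE809 Crest.Agent.R013.Pow1_931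

variable {k : Type*} [NontriviallyNormedField k] [CompleteSpace k] [IsUltrametricDist k]
variable {C : Type*} [NormedField C] [IsUltrametricDist C] [NormedAlgebra k C]
variable [Algebra.IsAlgebraic k C] [IsAlgClosed C] [hk : Fact (DiscNorm k)]

/-- the ring of integers of a subfield -/
def OL (L : IntermediateField k C) : Subring C where
  carrier := {c | c ∈ L ∧ ‖c‖ ≤ 1}
  mul_mem' {a b} ha hb := ⟨mul_mem ha.1 hb.1, by
    rw [norm_mul]; exact mul_le_one₀ ha.2 (norm_nonneg _) hb.2⟩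
  one_mem' := ⟨one_mem L, by rw [norm_one]⟩
  add_mem' {a b} ha hb := ⟨add_mem ha.1 hb.1, (IsUltrametricDist.norm_add_le_max a b).trans (max_le ha.2 hb.2)⟩
  zero_mem' := ⟨zero_mem L, by rw [norm_zero]; exact zero_le_one⟩
  neg_mem' {a} ha := ⟨neg_mem ha.1, by rw [norm_neg]; exact ha.2⟩

lemma isUnit_nat {N : ℕ} (hN : ‖(N : C)‖ = 1) (L : IntermediateField k C) :
    IsUnit ((N : ℕ) : OL L) := by
  have h0 : (N : C) ≠ 0 := by
    intro h
    rw [h, norm_zero] at hN
    exact zero_ne_one hN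
  refine IsUnit.of_mul_eq_one (⟨(N : C)⁻¹, inv_mem (natCast_mem L N), by
    rw [norm_inv, hN, inv_one]⟩ : OL L) ?_
  ext
  exact mul_inv_cancel₀ h0

/-- a one-sided root: a bounded series with constant term one is an `N`-th power up to its
negative part -/
lemma approx_root {N : ℕ} (hN : ‖(N : C)‖ = 1) {w : EE k C} (hw : gn w ≤ 1) (h0 : w.co 0 = 1) :
    ∃ z : EE k C, gn z = 1 ∧ z ^ N = P w := by
  obtain ⟨L, hL, hLw⟩ := w.exists_inL
  have hle : ∀ n, ‖w.co n‖ ≤ 1 := fun n => (le_gn w n).trans hw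
  let f : PowerSeries (OL L) := PowerSeries.mk fun n => ⟨w.co n, hLw n, hle n⟩
  obtain ⟨g, hg, hg0⟩ := BTor2_914.exists_root_one (isUnit_nat hN L) f (by
    rw [← PowerSeries.coeff_zero_eq_constantCoeff_apply, PowerSeries.coeff_mk]
    ext
    exact h0)
  let G : PowerSeries C := PowerSeries.map (OL L).subtype g
  have hGc : ∀ n, PowerSeries.coeff n G = ((PowerSeries.coeff n g : OL L) : C) := fun n => by
    rw [PowerSeries.coeff_map]; rfl
  have hGm : G ∈ BD k C := ⟨⟨L, hL, fun n => by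
      change PowerSeries.coeff n G ∈ L
      rw [hGc]; exact (PowerSeries.coeff n g).2.1⟩, 1,
    fun n => by rw [hGc]; exact (PowerSeries.coeff n g).2.2⟩
  have hGN : G ^ N = (posPart w).1 := by
    have h1 : G ^ N = PowerSeries.map (OL L).subtype f := by rw [← hg, map_pow]
    rw [h1]
    ext n
    rw [PowerSeries.coeff_map, coeff_posPart, PowerSeries.coeff_mk]
    rfl
  refine ⟨ofBD ⟨G, hGm⟩, ?_, ?_⟩
  · refine le_antisymm (gn_le fun n => ?_) ?_
    · rcases lt_or_ge n 0 with hn | hn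
      · rw [co_ofBD_neg _ hn, norm_zero]; exact zero_le_one
      · obtain ⟨m, rfl⟩ := Int.eq_ofNat_of_zero_le hn
        rw [co_ofBD_nat, hGc]
        exact (PowerSeries.coeff m g).2.2
    · have h1 := le_gn (ofBD (⟨G, hGm⟩ : BD k C)) 0
      have h2 : (ofBD (⟨G, hGm⟩ : BD k C)).co 0 = 1 := by
        have h3 := co_ofBD_nat (⟨G, hGm⟩ : BD k C) 0
        rw [Nat.cast_zero] at h3
        rw [h3, hGc, PowerSeries.coeff_zero_eq_constantCoeff_apply, hg0]
        rfl
      rwa [h2, norm_one] at h1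
  · rw [← map_pow]
    have h1 : (⟨G, hGm⟩ : BD k C) ^ N = posPart w := Subtype.ext hGN
    rw [h1]
    rfl

/-- a series with constant term one and small negative part is an `N`-th power -/
lemma root_unit {N : ℕ} (hN : ‖(N : C)‖ = 1) {w : EE k C} (hw : gn w ≤ 1) (h0 : w.co 0 = 1)
    (hneg : ∀ n < 0, ‖w.co n‖ < 1) : ∃ z : EE k C, z ^ N = w := by
  have hN0 : N ≠ 0 := by
    rintro rfl
    rw [Nat.cast_zero, norm_zero] at hN
    exact zero_ne_one hN
  obtain ⟨z, hz1, hz⟩ := approx_root hN hw h0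
  have hsub : gn (w - P w) < 1 := by
    refine gn_lt_one_of (fun n hn => ?_) (fun n hn => ?_)
    · rw [co_sub, co_P, if_pos hn, sub_self]
    · rw [co_sub, co_P, if_neg (not_le.mpr hn), sub_zero]
      exact hneg n hn
  have hNE : gn ((N : ℕ) : EE k C) = 1 := by
    have h1 : ((N : ℕ) : EE k C) = algebraMap C (EE k C) (N : C) := by rw [map_natCast]
    refine le_antisymm (gn_le fun n => ?_) ?_
    · rw [h1, co_algebraMap]
      split_ifs
      · exact hN.le
      · rw [norm_zero]; exact zero_le_one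
    · have h2 := le_gn ((N : ℕ) : EE k C) 0
      rw [h1, co_algebraMap, if_pos rfl, hN] at h2
      rw [h1]
      exact h2
  obtain ⟨f, hf, -⟩ := hensel (P := (X ^ N - Polynomial.C w : (EE k C)[X])) (z := z) (fun i => by
      rw [coeff_sub, coeff_X_pow, coeff_C]
      refine (gn_sub_le _ _).trans (max_le ?_ ?_)
      · split_ifs
        · rw [gn_one]
        · rw [gn_zero]; exact zero_le_one
      · split_ifs
        · exact hw
        · rw [gn_zero]; exact zero_le_one) hz1.le (by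
      rw [eval_sub, eval_pow, eval_X, eval_C, hz, gn_sub_comm]
      exact hsub) (by
      rw [derivative_sub, derivative_C, sub_zero, derivative_X_pow, eval_mul, eval_C, eval_pow,
        eval_X, gn_mul hk.out, hNE, one_mul, EE809.gn_pow, hz1, one_pow])
  refine ⟨f, ?_⟩
  rw [eval_sub, eval_pow, eval_X, eval_C, sub_eq_zero] at hf
  exact hf

/-- **`N`-th roots in `EE k C`** -/
theorem exists_root {N : ℕ} (hN : ‖(N : C)‖ = 1) {a : EE k C} (ha : a ≠ 0) {m : ℤ}
    (hm : EE809.od a = N * m) : ∃ b : EE k C, b ^ N = a := by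
  have hN0 : N ≠ 0 := by
    rintro rfl
    rw [Nat.cast_zero, norm_zero] at hN
    exact zero_ne_one hN
  obtain ⟨z, hz⟩ := root_unit hN (w := nrm a) (gn_le fun n => nrm_le hk.out ha n)
    (nrm_zero_coeff hk.out ha) (fun n hn => nrm_lt hk.out ha hn)
  obtain ⟨c, hc⟩ := IsAlgClosed.exists_pow_nat_eq (a.co (EE809.od a)) (Nat.pos_of_ne_zero hN0)
  refine ⟨mo m c * z, ?_⟩
  rw [mul_pow, hz]
  have h1 : (mo m c : EE k C) ^ N = mo (N * m) (c ^ N) := by
    clear hz hc hm hN hN0
    induction N with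
    | zero => simp [mo_zero_one]
    | succ n ih =>
      rw [pow_succ, ih, mo_mul_mo, pow_succ]
      congr 1
      push_cast
      ring
  rw [h1, hc, ← hm]
  exact mo_mul_nrm hk.out ha

end Crest.Agent.R013.InhK_275
end
end

-- ▼ part R013/InhK2_275

/-!
# Row 13, INH-KUM 2: Kummer covers with all orders divisible by `N` split over the cells

`spl_of_kummer`: `L = K(y)`, `y ^ N = h`, `‖N‖ = 1`, all orders of `h` at the places of `K / C` and
at the directions of the semistable structure `S` divisible by `N`: `Spl S L` (770).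
-/

set_option autoImplicit false
set_option linter.all false

noncomputable section

namespace Crest.Agent.R013.InhK_275

open Polynomial WithZero
open scoped NNReal IntermediateField
open Crest.Agent.R013.Cell_408 Crest.Agent.R013.EE809 Crest.Agent.R013.Pow1_931
open Crest.Agent.R013.RR7_948 Crest.Agent.R013.Red332 Crest.Agent.R013.SSK_332
open Crest.Agent.R013.Pow3_931 Crest.Agent.R013.Inh_770

section general

variable {K L E : Type*} [Field K] [Field L] [Field E] [Algebra K L]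

lemma isIntegral_of_pow {N : ℕ} (hN0 : 0 < N) {h : K} {y : L} (hy : y ^ N = algebraMap K L h) :
    IsIntegral K y := by
  refine ⟨X ^ N - C h, monic_X_pow_sub_C h hN0.ne', ?_⟩
  simp [hy]

lemma adjoin_top' {N : ℕ} (hN0 : 0 < N) {h : K} {y : L} (hy : y ^ N = algebraMap K L h)
    (htop : K⟮y⟯ = ⊤) (z : L) : ∃ P : K[X], z = aeval y P := by
  have h1 := IntermediateField.adjoin_simple_toSubalgebra_of_isAlgebraic
    (isIntegral_of_pow hN0 hy).isAlgebraic
  have hz : z ∈ Algebra.adjoin K {y} := by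
    rw [← h1, htop, IntermediateField.top_toSubalgebra]; trivial
  rw [Algebra.adjoin_singleton_eq_range_aeval] at hz
  obtain ⟨P, hP⟩ := hz
  exact ⟨P, hP.symm⟩

/-- embeddings of a Kummer extension -/
lemma exists_hom (φ : K →+* E) {N : ℕ} (hN0 : 0 < N) {ζ : K} (hζ : IsPrimitiveRoot ζ N) {h : K}
    {y : L} (hy : y ^ N = algebraMap K L h) (htop : K⟮y⟯ = ⊤) {b0 : E} (hb0 : b0 ^ N = φ h) :
    (∃ ψ : L →+* E, ∀ f, ψ (algebraMap K L f) = φ f) ∧
    ∀ b : E, (minpoly K y).eval₂ φ b = 0 → ∃ ψ : L →+* E, (∀ f, ψ (algebraMap K L f) = φ f) ∧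
      ψ y = b := by
  letI : Algebra K E := φ.toAlgebra
  have hsplit : ∀ s ∈ ({y} : Set L), IsIntegral K s ∧
      ((minpoly K s).map (algebraMap K E)).Splits := by
    intro s hs
    rw [Set.mem_singleton_iff] at hs
    subst hs
    refine ⟨isIntegral_of_pow hN0 hy, ?_⟩
    have h1 : minpoly K s ∣ X ^ N - C h := minpoly.dvd K s (by simp [hy])
    have h2 : (X ^ N - C h : K[X]).map (algebraMap K E) = X ^ N - C (φ h) := by
      rw [Polynomial.map_sub, Polynomial.map_pow, map_X, map_C]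
      rfl
    have h3 : (X ^ N - C (φ h) : E[X]).Splits :=
      X_pow_sub_C_splits_of_isPrimitiveRoot (hζ.map_of_injective φ.injective) hb0
    refine Splits.of_dvd (h2 ▸ h3) ?_ (Polynomial.map_dvd _ h1)
    rw [h2]
    exact X_pow_sub_C_ne_zero hN0 _
  refine ⟨?_, ?_⟩
  · obtain ⟨ψ⟩ := IntermediateField.nonempty_algHom_of_adjoin_splits hsplit htop
    exact ⟨ψ.toRingHom, fun f => ψ.commutes f⟩
  · intro b hb
    obtain ⟨ψ, hψ⟩ := IntermediateField.exists_algHom_of_adjoin_splits_of_aeval (K := E) hsplit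
      htop (x := y) (y := b) hb
    exact ⟨ψ.toRingHom, fun f => ψ.commutes f, hψ⟩

/-- `1 - ζ` is a unit for `ζ ≠ 1`, `ζ ^ N = 1`, `v N = 1` -/
lemma val_sub_one (v : Valuation K ℝ≥0) {N : ℕ} (hN0 : 0 < N) (hvN : v (N : K) = 1) {ζ : K}
    (h1 : ζ ^ N = 1) (hne : ζ ≠ 1) : v (ζ - 1) = 1 := by
  have hζ := IsPrimitiveRoot.orderOf ζ
  set m := orderOf ζ with hm
  have hdvd : m ∣ N := orderOf_dvd_of_pow_eq_one h1
  have hm1 : m ≠ 1 := by
    intro h
    exact hne (orderOf_eq_one_iff.mp (hm ▸ h))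
  have hm0 : m ≠ 0 := by
    rintro h
    rw [h, zero_dvd_iff] at hdvd
    exact hN0.ne' hdvd
  have hvle : ∀ j : ℕ, v (j : K) ≤ 1 := fun j => by
    induction j with
    | zero => simp
    | succ j ih =>
      rw [Nat.cast_succ]
      exact (v.map_add _ _).trans (max_le ih (map_one v).le)
  have hvm : v (m : K) = 1 := by
    obtain ⟨r, hr⟩ := hdvd
    rw [hr, Nat.cast_mul, map_mul] at hvN
    refine le_antisymm (hvle m) ?_
    rw [← hvN]
    exact mul_le_of_le_one_right zero_le (hvle r)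
  have hζ1 : v ζ = 1 := Kumv_275.val_root v hm0 hζ.pow_eq_one
  have hle : ∀ j : ℕ, v (1 - ζ ^ j) ≤ 1 := by
    intro j
    refine (v.map_sub _ _).trans (max_le (map_one v).le ?_)
    rw [map_pow, hζ1, one_pow]
  obtain ⟨n, hn⟩ : ∃ n, m = n + 1 := ⟨m - 1, by omega⟩
  rw [hn] at hζ hvm
  have hn0 : 0 < n := by omega
  have hprod := hζ.prod_one_sub_pow_eq_order
  have h2 : v (∏ j ∈ Finset.range n, (1 - ζ ^ (j + 1))) = 1 := by
    rw [hprod]
    have : ((n : K) + 1) = ((n + 1 : ℕ) : K) := by push_cast; rfl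
    rw [this, hvm]
  rw [map_prod, ← Finset.mul_prod_erase _ _ (Finset.mem_range.mpr hn0)] at h2
  have h3 : ∏ x ∈ (Finset.range n).erase 0, v (1 - ζ ^ (x + 1)) ≤ 1 :=
    Finset.prod_le_one' fun j _ => hle (j + 1)
  have h4 := hle 1
  rw [zero_add] at h2
  rw [pow_one] at h2 h4
  rw [Valuation.map_sub_swap]
  refine le_antisymm h4 ?_
  by_contra hlt
  push Not at hlt
  have h5 : v (1 - ζ) * ∏ x ∈ (Finset.range n).erase 0, v (1 - ζ ^ (x + 1)) < 1 :=
    lt_of_le_of_lt (mul_le_of_le_one_right zero_le h3) hlt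
  exact absurd h2 h5.ne

end general

section cells

variable {k : Type*} [NontriviallyNormedField k] [CompleteSpace k] [IsUltrametricDist k]
variable {C : Type*} [NormedField C] [IsUltrametricDist C] [NormedAlgebra k C]
variable [Algebra.IsAlgebraic k C] [IsAlgClosed C] [hk : Fact (DiscNorm k)]

/-- quotients of series on the disc -/
def QD (a : EE k C) : Prop := ∃ g h : EE k C, h ≠ 0 ∧ InD g ∧ InD h ∧ a * h = g

lemma QD.add {a b : EE k C} (ha : QD a) (hb : QD b) : QD (a + b) := by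
  obtain ⟨g, h, h0, h1, h2, h3⟩ := ha
  obtain ⟨g', h', h0', h1', h2', h3'⟩ := hb
  refine ⟨g * h' + g' * h, h * h', mul_ne_zero h0 h0', ?_, ?_, ?_⟩
  · exact Pos.add (Pos.mul h1 h2') (Pos.mul h1' h2)
  · exact Pos.mul h2 h2'
  · rw [← h3, ← h3']; ring

lemma QD.mul {a b : EE k C} (ha : QD a) (hb : QD b) : QD (a * b) := by
  obtain ⟨g, h, h0, h1, h2, h3⟩ := ha
  obtain ⟨g', h', h0', h1', h2', h3'⟩ := hb
  exact ⟨g * g', h * h', mul_ne_zero h0 h0', Pos.mul h1 h1', Pos.mul h2 h2', by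
    rw [← h3, ← h3']; ring⟩

/-- the two expansions of a quotient of bounded series on the annulus -/
def RA (c : C) (a a' : EE k C) : Prop := ∃ g h g' h' : EE k C, h ≠ 0 ∧ InA c g ∧ InA c h ∧
    Flip c g g' ∧ Flip c h h' ∧ a * h = g ∧ a' * h' = g'

lemma inA_add {c : C} {a b : EE k C} (ha : InA c a) (hb : InA c b) : InA c (a + b) := by
  obtain ⟨M, hM⟩ := ha
  obtain ⟨N, hN⟩ := hb
  refine ⟨max M N, fun n => ?_⟩
  have h1 : ‖(a + b).co n‖ ≤ max ‖a.co n‖ ‖b.co n‖ := by
    rw [co_add]; exact IsUltrametricDist.norm_add_le_max _ _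
  rcases le_total ‖a.co n‖ ‖b.co n‖ with h | h
  · rw [max_eq_right h] at h1
    exact (mul_le_mul_of_nonneg_right h1 (zpow_nonneg (norm_nonneg c) n)).trans
      ((hN n).trans (le_max_right _ _))
  · rw [max_eq_left h] at h1
    exact (mul_le_mul_of_nonneg_right h1 (zpow_nonneg (norm_nonneg c) n)).trans
      ((hM n).trans (le_max_left _ _))

lemma RA.add {c : C} (hc : c ≠ 0) {a b a' b' : EE k C} (ha : RA c a a') (hb : RA c b b') :
    RA c (a + b) (a' + b') := by
  obtain ⟨g, h, g', h', h0, h1, h2, h3, h4, h5, h6⟩ := ha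
  obtain ⟨p, q, p', q', i0, i1, i2, i3, i4, i5, i6⟩ := hb
  refine ⟨g * q + p * h, h * q, g' * q' + p' * h', h' * q', mul_ne_zero h0 i0,
    inA_add (InA.mul hc h1 i2) (InA.mul hc i1 h2), InA.mul hc h2 i2,
    Flip.add (Flip.mul hc h3 i4) (Flip.mul hc i3 h4), Flip.mul hc h4 i4, ?_, ?_⟩
  · rw [← h5, ← i5]; ring
  · rw [← h6, ← i6]; ring

lemma RA.mul {c : C} (hc : c ≠ 0) {a b a' b' : EE k C} (ha : RA c a a') (hb : RA c b b') :
    RA c (a * b) (a' * b') := by
  obtain ⟨g, h, g', h', h0, h1, h2, h3, h4, h5, h6⟩ := ha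
  obtain ⟨p, q, p', q', i0, i1, i2, i3, i4, i5, i6⟩ := hb
  refine ⟨g * p, h * q, g' * p', h' * q', mul_ne_zero h0 i0,
    InA.mul hc h1 i1, InA.mul hc h2 i2, Flip.mul hc h3 i3, Flip.mul hc h4 i4, ?_, ?_⟩
  · rw [← h5, ← i5]; ring
  · rw [← h6, ← i6]; ring

lemma flip_zero' {c : C} {b : EE k C} (h : Flip c 0 b) : b = 0 := by
  ext n
  rw [h n, co_zero, zero_mul, co_zero]

lemma RA.zero {c : C} (hc : c ≠ 0) {a' : EE k C} (ha : RA c 0 a') : a' = 0 := by
  obtain ⟨g, h, g', h', h0, h1, h2, h3, h4, h5, h6⟩ := ha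
  rw [zero_mul] at h5
  subst h5
  rw [flip_zero' h3] at h6
  rcases mul_eq_zero.mp h6 with h7 | h7
  · exact h7
  · exfalso
    apply h0
    rw [h7] at h4
    exact flip_zero' (Flip.symm hc h4)

section main

variable {K : Type*} [Field K] [Algebra C K]
variable {L : Type*} [Field L] [Algebra C L] [Algebra K L] [IsScalarTower C K L]

/-- **INH-KUM**: a Kummer cover whose orders are divisible by `N` splits over the cells. -/
theorem spl_of_kummer (S : SSK k C K) {N : ℕ} (hN : ‖(N : C)‖ = 1) {h : K} (h0 : h ≠ 0)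
    {y : L} (hy : y ^ N = algebraMap K L h) (htop : K⟮y⟯ = ⊤)
    (hdiv : ∀ P : Pl C K, ∃ m : ℤ, P.v h = exp ((N : ℤ) * m))
    (hod : ∀ d : S.Dir, ∃ m : ℤ, Red332.od (S.nm d.1) d.2 h = N * m) : Nonempty (Spl S L) := by
  classical
  have hN0 : 0 < N := by
    rcases Nat.eq_zero_or_pos N with rfl | h
    · rw [Nat.cast_zero, norm_zero] at hN
      exact absurd hN zero_ne_one
    · exact h
  have hNC : (N : C) ≠ 0 := by
    intro h
    rw [h, norm_zero] at hN
    exact zero_ne_one hN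
  -- roots of unity
  obtain ⟨ζ, hζ⟩ : ∃ ζ : C, IsPrimitiveRoot ζ N := by
    haveI : NeZero (N : C) := ⟨hNC⟩
    exact HasEnoughRootsOfUnity.exists_primitiveRoot C N
  have hζK : IsPrimitiveRoot (algebraMap C K ζ) N :=
    hζ.map_of_injective (algebraMap C K).injective
  have hem0 : ∀ d, S.em d h ≠ 0 := fun d => (map_ne_zero_iff _ (S.em d).injective).2 h0
  -- roots of `em d h`
  have hroot : ∀ d : S.Dir, ∃ b : EE k C, b ^ N = S.em d h := by
    intro d
    obtain ⟨m, hm⟩ := hod d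
    exact exists_root hN (hem0 d) (m := m) (by rw [S.em_od d h h0, hm])
  have hps0 : ∀ d : S.Dir, ∃ ψ : L →+* EE k C, ∀ f, ψ (algebraMap K L f) = S.em d f := by
    intro d
    obtain ⟨b, hb⟩ := hroot d
    exact (exists_hom (S.em d) hN0 hζK hy htop hb).1
  choose ps0 hps0 using hps0
  -- the other side of an annulus
  have hann : ∀ e : S.Ed, ∃ ψ : L →+* EE k C, (∀ f, ψ (algebraMap K L f) = S.em (S.e1 e) f) ∧
      ∀ f, RA (S.cc e) (ps0 (S.e0 e) f) (ψ f) := by
    intro e
    have hc := S.cc_ne e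
    obtain ⟨b, hb⟩ := hroot (S.e1 e)
    have hw : ps0 (S.e0 e) y ^ N = S.em (S.e0 e) h := by
      rw [← map_pow, hy, hps0]
    obtain ⟨g, H, g', H', i0, i1, i2, i3, i4, i5, η, hη, i6⟩ :=
      Pow5_931.ann_pow S hk.out hN0 h0 hdiv e hw hb
    have hRK : ∀ f : K, RA (S.cc e) (S.em (S.e0 e) f) (S.em (S.e1 e) f) := by
      intro f
      obtain ⟨g, h, g', h', j0, j1, j2, j3, j4, j5, j6⟩ := S.ann e f
      exact ⟨g, h, g', h', j0, j1, j2, j3, j4, j5, j6⟩
    have hRy : RA (S.cc e) (ps0 (S.e0 e) y) (algebraMap C (EE k C) η * b) :=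
      ⟨g, H, g', H', i0, i1, i2, i3, i4, i5, i6⟩
    have hRP : ∀ P : K[X], RA (S.cc e) (P.eval₂ (S.em (S.e0 e)) (ps0 (S.e0 e) y))
        (P.eval₂ (S.em (S.e1 e)) (algebraMap C (EE k C) η * b)) := by
      intro P
      induction P using Polynomial.induction_on' with
      | add p q hp hq =>
        rw [eval₂_add, eval₂_add]
        exact RA.add hc hp hq
      | monomial n a =>
        rw [eval₂_monomial, eval₂_monomial]
        refine RA.mul hc (hRK a) ?_
        induction n with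
        | zero =>
          rw [pow_zero, pow_zero]
          have := hRK 1
          rwa [map_one, map_one] at this
        | succ n ih =>
          rw [pow_succ, pow_succ]
          exact RA.mul hc ih hRy
    have hmin : (minpoly K y).eval₂ (S.em (S.e1 e)) (algebraMap C (EE k C) η * b) = 0 := by
      have h1 := hRP (minpoly K y)
      have h2 : (minpoly K y).eval₂ (S.em (S.e0 e)) (ps0 (S.e0 e) y) = 0 := by
        have h3 : S.em (S.e0 e) = (ps0 (S.e0 e)).comp (algebraMap K L) := by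
          ext1 f
          rw [RingHom.comp_apply, hps0]
        rw [h3, ← Polynomial.hom_eval₂]
        have h4 : (minpoly K y).eval₂ (algebraMap K L) y = 0 := minpoly.aeval K y
        rw [h4, map_zero]
      rw [h2] at h1
      exact RA.zero hc h1
    obtain ⟨ψ, hψ, hψy⟩ := (exists_hom (S.em (S.e1 e)) hN0 hζK hy htop hb).2 _ hmin
    refine ⟨ψ, hψ, fun f => ?_⟩
    obtain ⟨P, rfl⟩ := adjoin_top' hN0 hy htop f
    have h1 := hRP P
    have h2 : ps0 (S.e0 e) (aeval y P) = P.eval₂ (S.em (S.e0 e)) (ps0 (S.e0 e) y) := by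
      rw [aeval_def, Polynomial.hom_eval₂]
      congr 1
      ext1 f
      rw [RingHom.comp_apply, hps0]
    have h3 : ψ (aeval y P) = P.eval₂ (S.em (S.e1 e)) (algebraMap C (EE k C) η * b) := by
      rw [aeval_def, Polynomial.hom_eval₂, hψy]
      congr 1
      ext1 f
      rw [RingHom.comp_apply, hψ]
    rw [h2, h3]
    exact h1
  choose q hqK hqR using hann
  let ps : S.Dir → L →+* EE k C := fun d =>
    if hd : ∃ e, d = S.e1 e then q hd.choose else ps0 d
  have he1 : ∀ e, ps (S.e1 e) = q e := by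
    intro e
    have hd : ∃ e', S.e1 e = S.e1 e' := ⟨e, rfl⟩
    have h1 : hd.choose = e := by
      have h2 := hd.choose_spec
      exact (Sum.inr_injective (S.ends_inj (a₁ := Sum.inr e) (a₂ := Sum.inr hd.choose) h2)).symm
    simp only [ps, dif_pos hd, h1]
  have he0 : ∀ e, ps (S.e0 e) = ps0 (S.e0 e) := by
    intro e
    have hd : ¬ ∃ e', S.e0 e = S.e1 e' := by
      rintro ⟨e', he'⟩
      have := S.ends_inj (a₁ := Sum.inl e) (a₂ := Sum.inr e') he'
      exact Sum.inl_ne_inr this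
    simp only [ps, dif_neg hd]
  have hpsK : ∀ d f, ps d (algebraMap K L f) = S.em d f := by
    intro d f
    by_cases hd : ∃ e, d = S.e1 e
    · obtain ⟨e, rfl⟩ := hd
      rw [he1, hqK]
    · simp only [ps, dif_neg hd, hps0]
  have hpsy : ∀ d, ps d y ^ N = S.em d h := by
    intro d
    rw [← map_pow, hy, hpsK]
  refine ⟨⟨ps, hpsK, ?_, ?_, ?_⟩⟩
  · intro e f
    rw [he0, he1]
    exact hqR e f
  · intro d hd f
    obtain ⟨P, rfl⟩ := adjoin_top' hN0 hy htop f
    have h2 : ps d (aeval y P) = P.eval₂ (S.em d) (ps d y) := by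
      rw [aeval_def, Polynomial.hom_eval₂]
      congr 1
      ext1 f
      rw [RingHom.comp_apply, hpsK]
    have hK : ∀ f, QD (S.em d f) := fun f => S.disc d hd.1 hd.2 f
    have hyQ : QD (ps d y) := Pow5_931.disc_pow S hk.out hN0 h0 hdiv d hd (hpsy d)
    rw [h2]
    change QD _
    induction P using Polynomial.induction_on' with
    | add p q hp hq =>
      rw [eval₂_add]
      exact QD.add (hp (by rw [aeval_def, Polynomial.hom_eval₂]; congr 1; ext1 f; rw [RingHom.comp_apply, hpsK]))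
        (hq (by rw [aeval_def, Polynomial.hom_eval₂]; congr 1; ext1 f; rw [RingHom.comp_apply, hpsK]))
    | monomial n a =>
      rw [eval₂_monomial]
      refine QD.mul (hK a) ?_
      clear h2
      induction n with
      | zero =>
        rw [pow_zero]
        have := hK 1
        rwa [map_one] at this
      | succ n ih =>
        rw [pow_succ]
        exact QD.mul ih hyQ
  · intro d σ hσ _
    have hy0 : y ≠ 0 := by
      rintro rfl
      rw [zero_pow hN0.ne'] at hy
      exact h0 ((map_eq_zero _).mp hy.symm)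
    -- normalise
    obtain ⟨c, hc⟩ := (S.nm d.1).val h h0
    have hc0 : c ≠ 0 := by
      rintro rfl
      rw [nnnorm_zero] at hc
      exact h0 ((map_eq_zero (S.nm d.1).v).mp hc)
    obtain ⟨c', hc'⟩ := IsAlgClosed.exists_pow_nat_eq c hN0
    have hc'0 : c' ≠ 0 := by
      rintro rfl
      rw [zero_pow hN0.ne'] at hc'
      exact hc0 hc'.symm
    set w : Valuation L ℝ≥0 := gnV.comap (ps d) with hw
    have hwK : ∀ f : K, w (algebraMap K L f) = (S.nm d.1).v f := by
      intro f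
      rw [hw, Valuation.comap_apply, hpsK, Spl.em_gnV]
    have hwC : ∀ a : C, w (algebraMap C L a) = ‖a‖₊ := by
      intro a
      rw [IsScalarTower.algebraMap_apply C K L, hwK]
      exact (S.nm d.1).hC a
    have hwy : w y = ‖c'‖₊ := by
      have h1 : w y ^ N = ‖c'‖₊ ^ N := by
        rw [← map_pow, hy, hwK, hc, ← hc', nnnorm_pow]
      exact (pow_left_inj₀ zero_le zero_le hN0.ne').mp h1
    -- `σ y = η y`
    have hη : (σ y / y) ^ N = 1 := by
      rw [div_pow, ← map_pow, hy, AlgEquiv.commutes, div_self]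
      rw [Ne, map_eq_zero]
      exact h0
    have hη1 : σ y / y ≠ 1 := by
      intro h1
      apply hσ
      have h2 : σ y = y := by rwa [div_eq_one_iff_eq hy0] at h1
      ext z
      obtain ⟨P, rfl⟩ := adjoin_top' hN0 hy htop z
      rw [AlgEquiv.one_apply, ← Polynomial.aeval_algHom_apply, h2]
    have hwN : w ((N : ℕ) : L) = 1 := by
      have h1 := hwC (N : C)
      rw [map_natCast] at h1
      rw [h1]
      ext
      exact hN
    have h3 := val_sub_one w hN0 hwN hη hη1
    have hcc : ‖c'‖₊ ≠ 0 := by rwa [Ne, nnnorm_eq_zero]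
    refine ⟨y / algebraMap C L c', ?_, ?_⟩
    · rw [map_div₀, hwy, hwC, div_self hcc]
    · have h4 : σ (y / algebraMap C L c') - y / algebraMap C L c' =
          (σ y / y - 1) * (y / algebraMap C L c') := by
        rw [map_div₀, IsScalarTower.algebraMap_apply C K L, AlgEquiv.commutes]
        field_simp
      rw [h4, map_mul, h3, map_div₀, hwy, hwC, div_self hcc, one_mul]

end main

end cells

end Crest.Agent.R013.InhK_275
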