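import Mathlib
import Crest.Agent.R013.Inh12_770
import Crest.Agent.R013.InhK2_275
import Crest.Agent.R013.Conn4_315
import Crest.Agent.R013.TopE8_957

/-!
# Row 13 (helper770): abelian covers, splitting over the cells

* `adjoin_kummer` : an abelian extension is generated by `N`-th roots;
* `spl_of_abelian` : abelian, split at the vertices and unramified => `Spl`;
* `discNorm_padic`.
-/

set_option autoImplicit false
set_option linter.all false
open WithZero
open scoped NNReal
open Crest.NumberTheoryR.Sect
open Crest.Agent.R013.RR7_948 Crest.Agent.R013.Red332 Crest.Agent.R013.EE809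
open Crest.Agent.R013.Cell_408 (FinDef DiscNorm)
open Crest.Agent.R013.SSK_332 Crest.Agent.R013.TopE1_957 Crest.Agent.R013.Unr10_957

namespace Crest.Agent.R013.Inh_770

theorem discNorm_padic (p : ℕ) [hp : Fact p.Prime] : DiscNorm ℚ_[p] := by
  have h0 : (0 : ℝ) < p := by exact_mod_cast hp.out.pos
  refine ⟨p, ?_, ?_, fun x hx => ?_⟩
  · rw [Padic.norm_p]; exact inv_pos.2 h0
  · exact Padic.norm_p_lt_one
  · refine ⟨x.valuation, ?_⟩
    rw [Padic.norm_p, inv_zpow, ← zpow_neg]
    exact Padic.norm_eq_zpow_neg_valuation hx

instance factDiscNorm (p : ℕ) [hp : Fact p.Prime] : Fact (DiscNorm ℚ_[p]) := ⟨discNorm_padic p⟩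

section Kummer

variable {K L : Type*} [Field K] [Field L] [Algebra K L] [FiniteDimensional K L] [IsGalois K L]



end Kummer

section Split

variable {k : Type*} [NontriviallyNormedField k] [CompleteSpace k] [IsUltrametricDist k]
variable {C : Type*} [NormedField C] [IsUltrametricDist C] [NormedAlgebra k C]
variable [Algebra.IsAlgebraic k C] [IsAlgClosed C] [hk : Fact (DiscNorm k)] [CharZero C]
variable {K : Type*} [Field K] [Algebra C K]
variable {L : Type*} [Field L] [Algebra C L] [Algebra K L] [IsScalarTower C K L]
  [FiniteDimensional K L] [IsGalois K L]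


end Split

end Crest.Agent.R013.Inh_770
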