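import Crest.Agent.R013.EE4_809
import Crest.Agent.R013.SSDefs_332
import Crest.Agent.R013.AnW3_201
import Crest.Agent.R013.Pow4_931
import Crest.Agent.R013.Conn3_315
import Crest.Agent.R013.CE1_280
import Crest.Agent.R013.Conn4_315
import Crest.Agent.R013.NB7_102
import Crest.Agent.R013.Red1_332
import Crest.Agent.R013.RR12_948

-- ▼ part R013/Nrm1_671
section

/-!
# R013 / Nrm1: the norm at radius `t` of a bounded series on an annulus (helper671)

`An ρ a` : `a` is bounded at radius `ρ` (and at radius one, as an element of `EE k C`);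
`gr t a = sup ‖a_n‖ t^n`, for `ρ ≤ t ≤ 1`: ultrametric, multiplicative, continuous in `t` on the
closed interval `[ρ, 1]`, monomial near `t = 1`.
-/

set_option autoImplicit false
set_option linter.all false

namespace Crest.Agent.R013.Nrm_671

open Filter Topology
open Crest.Agent.R013.Cell_408 Crest.Agent.R013.EE809

variable {k : Type*} [NontriviallyNormedField k] [CompleteSpace k]
variable {C : Type*} [NormedField C] [IsUltrametricDist C] [NormedAlgebra k C]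

/-- bounded at radius `ρ` -/
def An (ρ : ℝ) (a : EE k C) : Prop := ∃ M : ℝ, Bdd ρ M a

/-- norm at radius `t` -/
noncomputable def gr (t : ℝ) (a : EE k C) : ℝ := ⨆ n : ℤ, ‖a.co n‖ * t ^ n

theorem gr_one (a : EE k C) : gr 1 a = gn a := by
  unfold gr gn
  congr 1
  funext n
  rw [one_zpow, mul_one]

section An

variable {ρ : ℝ} (hρ : 0 < ρ)

include hρ

theorem An.add {a b : EE k C} (ha : An ρ a) (hb : An ρ b) : An ρ (a + b) := by
  obtain ⟨M, hM⟩ := ha
  obtain ⟨N, hN⟩ := hb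
  exact ⟨max M N, (hM.le (le_max_left _ _)).add hρ (hN.le (le_max_right _ _))⟩

theorem An.sub {a b : EE k C} (ha : An ρ a) (hb : An ρ b) : An ρ (a - b) := by
  obtain ⟨M, hM⟩ := ha
  obtain ⟨N, hN⟩ := hb
  exact ⟨max M N, (hM.le (le_max_left _ _)).sub hρ (hN.le (le_max_right _ _))⟩

theorem An.mul {a b : EE k C} (ha : An ρ a) (hb : An ρ b) : An ρ (a * b) := by
  obtain ⟨M, hM⟩ := ha
  obtain ⟨N, hN⟩ := hb
  exact ⟨M * N, hM.mul hρ hN⟩

omit hρ in
theorem An.neg {a : EE k C} (ha : An ρ a) : An ρ (-a) := by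
  obtain ⟨M, hM⟩ := ha
  exact ⟨M, hM.neg⟩

omit hρ in
theorem An.one : An ρ (1 : EE k C) := ⟨1, Bdd.one⟩

omit hρ in
theorem An.zero : An ρ (0 : EE k C) := ⟨0, Bdd.zero le_rfl⟩

theorem An.mono (n : ℤ) (c : C) (hc : FinDef k (fun _ : Unit => c)) :
    An ρ (EE809.mono n c hc : EE k C) := ⟨_, Bdd.mono hρ n c hc⟩

/-- a common bound on the whole interval -/
theorem An.bound {a : EE k C} (ha : An ρ a) : ∃ M : ℝ, 0 < M ∧ (∀ n, ‖a.co n‖ ≤ M) ∧
    (∀ n, ‖a.co n‖ * ρ ^ n ≤ M) ∧ ∀ t, ρ ≤ t → t ≤ 1 → Bdd t M a := by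
  obtain ⟨M, hM⟩ := ha
  obtain ⟨N, hN, hN'⟩ := a.bd'
  have h1 : Bdd 1 (max M N) a := by
    intro n
    rw [one_zpow, mul_one]
    exact (hN' n).trans (le_max_right _ _)
  have h2 : Bdd ρ (max M N) a := hM.le (le_max_left _ _)
  exact ⟨max M N, lt_max_of_lt_right hN, fun n => (hN' n).trans (le_max_right _ _), h2,
    fun t ht1 ht2 => h2.interp hρ ht1 ht2 h1⟩

variable {t : ℝ} (h1 : ρ ≤ t) (h2 : t ≤ 1)

include h1 h2

theorem An.bddAbove {a : EE k C} (ha : An ρ a) :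
    BddAbove (Set.range fun n : ℤ => ‖a.co n‖ * t ^ n) := by
  obtain ⟨M, -, -, -, hM⟩ := ha.bound hρ
  exact ⟨M, by rintro _ ⟨n, rfl⟩; exact hM t h1 h2 n⟩

theorem le_gr {a : EE k C} (ha : An ρ a) (n : ℤ) : ‖a.co n‖ * t ^ n ≤ gr t a :=
  le_ciSup (ha.bddAbove hρ h1 h2) n

theorem bdd_gr {a : EE k C} (ha : An ρ a) : Bdd t (gr t a) a := le_gr hρ h1 h2 ha

omit hρ h1 h2 in
theorem gr_le {a : EE k C} {M : ℝ} (h : Bdd t M a) : gr t a ≤ M := ciSup_le h

theorem gr_nonneg (a : EE k C) : 0 ≤ gr t a :=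
  Real.iSup_nonneg fun n => mul_nonneg (norm_nonneg _) (zpow_nonneg (hρ.le.trans h1) _)

theorem gr_pos {a : EE k C} (ha : An ρ a) (h : a ≠ 0) : 0 < gr t a := by
  have hne : ∃ i, a.co i ≠ 0 := by
    by_contra h'
    push Not at h'
    exact h (EE.ext h')
  obtain ⟨i, hi⟩ := hne
  exact (mul_pos (norm_pos_iff.2 hi) (zpow_pos (hρ.trans_le h1) _)).trans_le (le_gr hρ h1 h2 ha i)

omit h2 in
theorem gr_zero : gr t (0 : EE k C) = 0 := by
  refine le_antisymm (gr_le (Bdd.zero le_rfl)) ?_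
  exact Real.iSup_nonneg fun n => mul_nonneg (norm_nonneg _) (zpow_nonneg (hρ.le.trans h1) _)

theorem gr_add_le {a b : EE k C} (ha : An ρ a) (hb : An ρ b) :
    gr t (a + b) ≤ max (gr t a) (gr t b) :=
  gr_le (((bdd_gr hρ h1 h2 ha).le (le_max_left _ _)).add (hρ.trans_le h1)
    ((bdd_gr hρ h1 h2 hb).le (le_max_right _ _)))

theorem gr_mul_le {a b : EE k C} (ha : An ρ a) (hb : An ρ b) :
    gr t (a * b) ≤ gr t a * gr t b :=
  gr_le ((bdd_gr hρ h1 h2 ha).mul (hρ.trans_le h1) (bdd_gr hρ h1 h2 hb))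

end An

/-! ### the open interval: terms tend to zero, multiplicativity -/

theorem tendsto_term {ρ t : ℝ} (hρ : 0 < ρ) (h1 : ρ < t) (h2 : t < 1) {a : EE k C} (ha : An ρ a) :
    Tendsto (fun n : ℤ => ‖a.co n‖ * t ^ n) cofinite (𝓝 0) := by
  obtain ⟨M, hM0, hM1, hM2, -⟩ := ha.bound hρ
  have ht : 0 < t := hρ.trans h1
  rw [Int.cofinite_eq]
  refine Tendsto.sup ?_ ?_
  · -- at `-∞`
    have h3 : Tendsto (fun n : ℤ => M * (ρ / t) ^ (-n).toNat) atBot (𝓝 0) := by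
      have h4 : Tendsto (fun m : ℕ => M * (ρ / t) ^ m) atTop (𝓝 (M * 0)) :=
        (tendsto_pow_atTop_nhds_zero_of_lt_one (by positivity) ((div_lt_one ht).2 h1)).const_mul M
      rw [mul_zero] at h4
      have h5 : Tendsto (fun n : ℤ => (-n).toNat) atBot atTop := by
        rw [tendsto_atTop]
        intro b
        rw [eventually_atBot]
        exact ⟨-(b : ℤ), fun n hn => by omega⟩
      exact h4.comp h5
    refine squeeze_zero' (Eventually.of_forall fun n => mul_nonneg (norm_nonneg _)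
      (zpow_nonneg ht.le _)) ?_ h3
    rw [eventually_atBot]
    refine ⟨0, fun n hn => ?_⟩
    obtain ⟨m, hm⟩ := Int.eq_ofNat_of_zero_le (show 0 ≤ -n by omega)
    have hn' : n = -(m : ℤ) := by omega
    have h6 := hM2 n
    rw [hn', neg_neg, Int.toNat_natCast]
    rw [hn', zpow_neg, zpow_natCast] at h6
    rw [zpow_neg, zpow_natCast, div_pow]
    calc ‖a.co (-(m : ℤ))‖ * (t ^ m)⁻¹
        = (‖a.co (-(m : ℤ))‖ * (ρ ^ m)⁻¹) * (ρ ^ m * (t ^ m)⁻¹) := by
          field_simp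
      _ ≤ M * (ρ ^ m * (t ^ m)⁻¹) := mul_le_mul_of_nonneg_right h6 (by positivity)
      _ = M * (ρ ^ m / t ^ m) := by rw [div_eq_mul_inv]
  · have h3 : Tendsto (fun n : ℤ => M * t ^ n.toNat) atTop (𝓝 0) := by
      have h4 : Tendsto (fun m : ℕ => M * t ^ m) atTop (𝓝 (M * 0)) :=
        (tendsto_pow_atTop_nhds_zero_of_lt_one ht.le h2).const_mul M
      rw [mul_zero] at h4
      have h5 : Tendsto (fun n : ℤ => n.toNat) atTop atTop := by
        rw [tendsto_atTop]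
        intro b
        rw [eventually_atTop]
        exact ⟨(b : ℤ), fun n hn => by omega⟩
      exact h4.comp h5
    refine squeeze_zero' (Eventually.of_forall fun n => mul_nonneg (norm_nonneg _)
      (zpow_nonneg ht.le _)) ?_ h3
    rw [eventually_atTop]
    refine ⟨0, fun n hn => ?_⟩
    obtain ⟨m, rfl⟩ := Int.eq_ofNat_of_zero_le hn
    rw [Int.toNat_natCast, zpow_natCast]
    exact mul_le_mul_of_nonneg_right (hM1 _) (by positivity)

/-- the least index of maximal term -/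
theorem exists_lead {ρ t : ℝ} (hρ : 0 < ρ) (h1 : ρ < t) (h2 : t < 1) {a : EE k C} (ha : An ρ a)
    (h0 : a ≠ 0) : ∃ i : ℤ, ‖a.co i‖ * t ^ i = gr t a ∧ ∀ n < i, ‖a.co n‖ * t ^ n < gr t a := by
  have hpos := gr_pos hρ h1.le h2.le ha h0
  set g : ℤ → ℝ := fun n => ‖a.co n‖ * t ^ n with hg
  have hlt : gr t a / 2 < gr t a := by linarith
  obtain ⟨n0, hn0⟩ := exists_lt_of_lt_ciSup (f := g) hlt
  have hn0' : gr t a / 2 < g n0 := hn0
  have hfin : {n | g n0 ≤ g n}.Finite := by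
    have h3 := (tendsto_term hρ h1 h2 ha).eventually (gt_mem_nhds (show (0 : ℝ) < g n0 by linarith))
    rw [eventually_cofinite] at h3
    refine h3.subset fun n hn => ?_
    exact not_lt.2 hn
  obtain ⟨m, hm1, hm2⟩ := Set.exists_max_image _ g hfin ⟨n0, le_refl (g n0)⟩
  have hmax : ∀ n, g n ≤ g m := by
    intro n
    by_cases hn : g n0 ≤ g n
    · exact hm2 n hn
    · exact (not_le.1 hn).le.trans hm1
  have hgm : g m = gr t a := le_antisymm (le_gr hρ h1.le h2.le ha m) (ciSup_le hmax)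
  have hfin2 : {n | g n = gr t a}.Finite := hfin.subset fun n hn => by
    have hn' : g n = gr t a := hn
    show g n0 ≤ g n
    rw [hn', ← hgm]
    exact hm1
  obtain ⟨i, hi1, hi2⟩ := Set.exists_min_image _ (fun n : ℤ => n) hfin2 ⟨m, hgm⟩
  refine ⟨i, hi1, fun n hn => lt_of_le_of_ne (le_gr hρ h1.le h2.le ha n) fun h => ?_⟩
  exact absurd (hi2 n h) (not_le.2 hn)

theorem gr_mul_of_lt {ρ t : ℝ} (hρ : 0 < ρ) (h1 : ρ < t) (h2 : t < 1) {a b : EE k C}
    (ha : An ρ a) (hb : An ρ b) : gr t (a * b) = gr t a * gr t b := by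
  have ht : 0 < t := hρ.trans h1
  by_cases ha0 : a = 0
  · rw [ha0, zero_mul, gr_zero hρ h1.le, zero_mul]
  by_cases hb0 : b = 0
  · rw [hb0, mul_zero, gr_zero hρ h1.le, mul_zero]
  refine le_antisymm (gr_mul_le hρ h1.le h2.le ha hb) ?_
  obtain ⟨i, hi, hi'⟩ := exists_lead hρ h1 h2 ha ha0
  obtain ⟨j, hj, hj'⟩ := exists_lead hρ h1 h2 hb hb0
  have hA := gr_pos hρ h1.le h2.le ha ha0
  have hB := gr_pos hρ h1.le h2.le hb hb0
  have htz : 0 < t ^ (i + j) := zpow_pos ht _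
  set r := gr t a * gr t b / t ^ (i + j) with hr
  have hr0 : 0 < r := by positivity
  have hsplit : ∀ m : ℤ, t ^ (i + j) = t ^ m * t ^ (i + j - m) := by
    intro m
    rw [← zpow_add₀ ht.ne']; congr 1; ring
  have hterm : ∀ m : ℤ, ‖a.co m * b.co (i + j - m)‖ * t ^ (i + j) =
      (‖a.co m‖ * t ^ m) * (‖b.co (i + j - m)‖ * t ^ (i + j - m)) := by
    intro m
    rw [hsplit m, norm_mul]; ring
  have hlt : ∀ m, m ≠ i → ‖a.co m * b.co (i + j - m)‖ < r := by
    intro m hm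
    rw [hr, lt_div_iff₀ htz, hterm]
    rcases lt_or_gt_of_ne hm with h | h
    · exact mul_lt_mul_of_lt_of_le_of_nonneg_of_pos (hi' m h) (le_gr hρ h1.le h2.le hb _)
        (mul_nonneg (norm_nonneg _) (zpow_nonneg ht.le _)) hB
    · calc (‖a.co m‖ * t ^ m) * (‖b.co (i + j - m)‖ * t ^ (i + j - m))
          ≤ gr t a * (‖b.co (i + j - m)‖ * t ^ (i + j - m)) :=
            mul_le_mul_of_nonneg_right (le_gr hρ h1.le h2.le ha _)
              (mul_nonneg (norm_nonneg _) (zpow_nonneg ht.le _))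
        _ < gr t a * gr t b := mul_lt_mul_of_pos_left (hj' _ (by omega)) hA
  have heq : ‖a.co i * b.co (i + j - i)‖ = r := by
    rw [hr, eq_div_iff htz.ne', hterm, add_sub_cancel_left, hi, hj]
  have hco : ‖(a * b).co (i + j)‖ = r := by
    rw [co_mul, (summable_conv a b _).tsum_eq_add_tsum_ite i]
    have h3 : ‖∑' m, (if m = i then 0 else a.co m * b.co (i + j - m))‖ < r := by
      refine norm_tsum_lt hr0 ?_ fun m => ?_
      · refine (tendsto_conv a b (i + j)).congr' ?_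
        rw [EventuallyEq, eventually_cofinite]
        refine (Set.finite_singleton i).subset fun m hm => ?_
        by_contra hne
        apply hm
        rw [if_neg (show ¬ m = i from hne)]
      · by_cases hm : m = i
        · rw [if_pos hm, norm_zero]; exact hr0
        · rw [if_neg hm]
          exact hlt m hm
    rw [add_comm, IsUltrametricDist.norm_add_eq_max_of_norm_ne_norm (by rw [heq]; exact h3.ne),
      heq, max_eq_right h3.le]
  have := le_gr hρ h1.le h2.le (ha.mul hρ hb) (i + j)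
  rw [hco, hr, div_mul_cancel₀ _ htz.ne'] at this
  exact this

/-! ### continuity in the radius -/

theorem gr_usc {ρ : ℝ} (hρ : 0 < ρ) {a : EE k C} (ha : An ρ a) {t₀ : ℝ} (h0 : t₀ ∈ Set.Icc ρ 1)
    {ε : ℝ} (hε : 0 < ε) : ∀ᶠ t in 𝓝[Set.Icc ρ 1] t₀, gr t a ≤ gr t₀ a + ε := by
  obtain ⟨M, hM0, hM1, hM2, -⟩ := ha.bound hρ
  have ht0 : 0 < t₀ := hρ.trans_le h0.1
  have hle : ∀ n, ‖a.co n‖ * t₀ ^ n ≤ gr t₀ a + ε := fun n =>
    (le_gr hρ h0.1 h0.2 ha n).trans (by linarith)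
  have hmem : ∀ᶠ t in 𝓝[Set.Icc ρ 1] t₀, t ∈ Set.Icc ρ 1 := eventually_mem_nhdsWithin
  have hgn : 0 ≤ gr t₀ a := gr_nonneg hρ h0.1 h0.2 a
  -- right tail
  have hT : ∃ N : ℕ, ∀ᶠ t in 𝓝[Set.Icc ρ 1] t₀, ∀ n : ℤ, (N : ℤ) ≤ n →
      ‖a.co n‖ * t ^ n ≤ gr t₀ a + ε := by
    rcases h0.2.eq_or_lt with h | h
    · refine ⟨0, hmem.mono fun t ht n hn => ?_⟩
      obtain ⟨m, rfl⟩ := Int.eq_ofNat_of_zero_le (by simpa using hn)
      refine le_trans (mul_le_mul_of_nonneg_left ?_ (norm_nonneg _)) (hle m)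
      rw [h, one_zpow, zpow_natCast]
      exact pow_le_one₀ (hρ.le.trans ht.1) ht.2
    · obtain ⟨t1, h3, h4⟩ := exists_between h
      obtain ⟨N, hN⟩ := exists_pow_lt_of_lt_one (x := ε / M) (y := t1) (by positivity) h4
      refine ⟨N, ?_⟩
      have h5 : ∀ᶠ t in 𝓝[Set.Icc ρ 1] t₀, t < t1 :=
        mem_nhdsWithin_of_mem_nhds (Iio_mem_nhds h3)
      filter_upwards [hmem, h5] with t ht ht1 n hn
      obtain ⟨m, rfl⟩ := Int.eq_ofNat_of_zero_le (show 0 ≤ n by omega)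
      have hmN : N ≤ m := by exact_mod_cast hn
      rw [zpow_natCast]
      have ht' : 0 ≤ t := hρ.le.trans ht.1
      calc ‖a.co m‖ * t ^ m ≤ M * t1 ^ N := by
            refine mul_le_mul (hM1 _) ?_ (pow_nonneg ht' _) hM0.le
            calc t ^ m ≤ t1 ^ m := pow_le_pow_left₀ ht' ht1.le _
              _ ≤ t1 ^ N := pow_le_pow_of_le_one (ht'.trans ht1.le) h4.le hmN
        _ ≤ M * (ε / M) := mul_le_mul_of_nonneg_left hN.le hM0.le
        _ = ε := by field_simp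
        _ ≤ gr t₀ a + ε := by linarith
  -- left tail
  have hT' : ∃ N : ℕ, ∀ᶠ t in 𝓝[Set.Icc ρ 1] t₀, ∀ n : ℤ, n ≤ -(N : ℤ) →
      ‖a.co n‖ * t ^ n ≤ gr t₀ a + ε := by
    rcases h0.1.eq_or_lt with h | h
    · refine ⟨0, hmem.mono fun t ht n hn => ?_⟩
      obtain ⟨m, hm⟩ := Int.eq_ofNat_of_zero_le (show 0 ≤ -n by omega)
      have hn' : n = -(m : ℤ) := by omega
      refine le_trans (mul_le_mul_of_nonneg_left ?_ (norm_nonneg _)) (hle n)
      rw [← h, hn', zpow_neg, zpow_neg, zpow_natCast, zpow_natCast]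
      exact inv_anti₀ (pow_pos hρ m) (pow_le_pow_left₀ hρ.le ht.1 m)
    · obtain ⟨t1, h3, h4⟩ := exists_between h
      have ht1 : 0 < t1 := hρ.trans h3
      obtain ⟨N, hN⟩ := exists_pow_lt_of_lt_one (x := ε / M) (y := ρ / t1) (by positivity)
        ((div_lt_one ht1).2 h3)
      refine ⟨N, ?_⟩
      have h5 : ∀ᶠ t in 𝓝[Set.Icc ρ 1] t₀, t1 < t :=
        mem_nhdsWithin_of_mem_nhds (Ioi_mem_nhds h4)
      filter_upwards [hmem, h5] with t ht htt n hn
      obtain ⟨m, hm⟩ := Int.eq_ofNat_of_zero_le (show 0 ≤ -n by omega)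
      have hn' : n = -(m : ℤ) := by omega
      have hmN : N ≤ m := by omega
      have ht' : 0 < t := hρ.trans_le ht.1
      have h6 := hM2 n
      rw [hn', zpow_neg, zpow_natCast] at h6 ⊢
      calc ‖a.co (-(m : ℤ))‖ * (t ^ m)⁻¹ ≤ ‖a.co (-(m : ℤ))‖ * (t1 ^ m)⁻¹ := by
            refine mul_le_mul_of_nonneg_left ?_ (norm_nonneg _)
            exact inv_anti₀ (pow_pos ht1 m) (pow_le_pow_left₀ ht1.le htt.le m)
        _ = (‖a.co (-(m : ℤ))‖ * (ρ ^ m)⁻¹) * (ρ / t1) ^ m := by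
            rw [div_pow]; field_simp
        _ ≤ M * (ρ / t1) ^ N := by
            refine mul_le_mul h6 ?_ (by positivity) hM0.le
            exact pow_le_pow_of_le_one (by positivity) ((div_lt_one ht1).2 h3).le hmN
        _ ≤ M * (ε / M) := mul_le_mul_of_nonneg_left hN.le hM0.le
        _ = ε := by field_simp
        _ ≤ gr t₀ a + ε := by linarith
  obtain ⟨N, hN⟩ := hT
  obtain ⟨N', hN'⟩ := hT'
  have hmid : ∀ᶠ t in 𝓝[Set.Icc ρ 1] t₀, ∀ n ∈ Finset.Icc (-(N' : ℤ)) N,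
      ‖a.co n‖ * t ^ n ≤ gr t₀ a + ε := by
    rw [Finset.eventually_all]
    intro n _
    have hc : ContinuousAt (fun t : ℝ => ‖a.co n‖ * t ^ n) t₀ :=
      (continuousAt_zpow₀ t₀ n (Or.inl ht0.ne')).const_mul _
    have h3 : ‖a.co n‖ * t₀ ^ n < gr t₀ a + ε :=
      lt_of_le_of_lt (le_gr hρ h0.1 h0.2 ha n) (by linarith)
    have h4 := hc.eventually (gt_mem_nhds h3)
    have h5 : ∀ᶠ t in 𝓝[Set.Icc ρ 1] t₀, ‖a.co n‖ * t ^ n < gr t₀ a + ε :=
      mem_nhdsWithin_of_mem_nhds h4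
    exact h5.mono fun t ht => le_of_lt ht
  filter_upwards [hN, hN', hmid] with t ht1 ht2 ht3
  refine gr_le fun n => ?_
  rcases le_or_gt (N : ℤ) n with h | h
  · exact ht1 n h
  rcases le_or_gt n (-(N' : ℤ)) with h' | h'
  · exact ht2 n h'
  · exact ht3 n (Finset.mem_Icc.2 ⟨h'.le, h.le⟩)

theorem gr_lsc {ρ : ℝ} (hρ : 0 < ρ) {a : EE k C} (ha : An ρ a) {t₀ : ℝ} (h0 : t₀ ∈ Set.Icc ρ 1)
    {ε : ℝ} (hε : 0 < ε) : ∀ᶠ t in 𝓝[Set.Icc ρ 1] t₀, gr t₀ a - ε ≤ gr t a := by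
  have ht0 : 0 < t₀ := hρ.trans_le h0.1
  obtain ⟨n, hn⟩ := exists_lt_of_lt_ciSup
    (show gr t₀ a - ε < ⨆ n : ℤ, ‖a.co n‖ * t₀ ^ n from sub_lt_self _ hε)
  have hc : ContinuousAt (fun t : ℝ => ‖a.co n‖ * t ^ n) t₀ :=
    (continuousAt_zpow₀ t₀ n (Or.inl ht0.ne')).const_mul _
  have h4 := hc.eventually (lt_mem_nhds hn)
  have hmem : ∀ᶠ t in 𝓝[Set.Icc ρ 1] t₀, t ∈ Set.Icc ρ 1 := eventually_mem_nhdsWithin
  have h5 : ∀ᶠ t in 𝓝[Set.Icc ρ 1] t₀, gr t₀ a - ε < ‖a.co n‖ * t ^ n :=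
    mem_nhdsWithin_of_mem_nhds h4
  filter_upwards [hmem, h5] with t ht h6
  exact h6.le.trans (le_gr hρ ht.1 ht.2 ha n)

theorem continuousOn_gr {ρ : ℝ} (hρ : 0 < ρ) {a : EE k C} (ha : An ρ a) :
    ContinuousOn (fun t => gr t a) (Set.Icc ρ 1) := by
  intro t₀ h0
  rw [ContinuousWithinAt, Metric.tendsto_nhds]
  intro ε hε
  filter_upwards [gr_usc hρ ha h0 (half_pos hε), gr_lsc hρ ha h0 (half_pos hε)] with t h1 h2
  rw [Real.dist_eq, abs_lt]
  constructor <;> linarith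

/-- the interval is the closure of its interior -/
theorem eqOn_Icc {ρ : ℝ} (h : ρ < 1) {f g : ℝ → ℝ} (hf : ContinuousOn f (Set.Icc ρ 1))
    (hg : ContinuousOn g (Set.Icc ρ 1)) (hfg : ∀ t ∈ Set.Ioo ρ 1, f t = g t) :
    ∀ t ∈ Set.Icc ρ 1, f t = g t := by
  have hcl : Set.Icc ρ 1 = closure (Set.Ioo ρ 1) := (closure_Ioo h.ne).symm
  have h1 : Set.EqOn f g (Set.Icc ρ 1) :=
    Set.EqOn.of_subset_closure (s := Set.Ioo ρ 1) (fun t ht => hfg t ht) hf hg
      Set.Ioo_subset_Icc_self hcl.le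
  exact fun t ht => h1 ht

/-- multiplicativity on the closed interval -/
theorem gr_mul {ρ : ℝ} (hρ : 0 < ρ) (hρ1 : ρ < 1) {t : ℝ} (h1 : ρ ≤ t) (h2 : t ≤ 1)
    {a b : EE k C} (ha : An ρ a) (hb : An ρ b) : gr t (a * b) = gr t a * gr t b :=
  eqOn_Icc hρ1 (continuousOn_gr hρ (ha.mul hρ hb))
    ((continuousOn_gr hρ ha).mul (continuousOn_gr hρ hb))
    (fun t ht => gr_mul_of_lt hρ ht.1 ht.2 ha hb) t ⟨h1, h2⟩

theorem gr_const {t : ℝ} (ht : 0 < t) (c : C) (hc : FinDef k (fun _ : Unit => c)) :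
    gr t (EE809.mono 0 c hc : EE k C) = ‖c‖ := by
  refine le_antisymm (gr_le ?_) ?_
  · have := Bdd.mono ht 0 c hc
    rwa [zpow_zero, mul_one] at this
  · have h := Bdd.mono ht 0 c hc
    have hb : BddAbove (Set.range fun n : ℤ => ‖(EE809.mono 0 c hc : EE k C).co n‖ * t ^ n) :=
      ⟨_, by rintro _ ⟨n, rfl⟩; exact h n⟩
    have h1 := le_ciSup hb 0
    have h2 : ‖(EE809.mono 0 c hc : EE k C).co 0‖ * t ^ (0 : ℤ) = ‖c‖ := by
      rw [co_mono, if_pos rfl, zpow_zero, mul_one]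
    rw [h2] at h1
    exact h1

/-! ### near the end -/

section Disc

variable [IsUltrametricDist k] [Algebra.IsAlgebraic k C] [IsAlgClosed C]

omit [IsUltrametricDist k] [IsAlgClosed C] in
theorem An.T {ρ : ℝ} (hρ : 0 < ρ) (n : ℤ) : An ρ (EE809.T n : EE k C) := ⟨_, Bdd.mo hρ n 1⟩

omit [IsUltrametricDist k] [IsAlgClosed C] in
theorem co_T' (n m : ℤ) : (EE809.T n : EE k C).co m = if m = n then 1 else 0 := by
  unfold EE809.T EE809.mo
  rw [co_mono]

/-- near `t = 1` the norm is monomial, with exponent the order of the reduction -/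
theorem gr_near_one (hk : DiscNorm k) {ρ : ℝ} (hρ : 0 < ρ) (hρ1 : ρ < 1) {a : EE k C}
    (ha : An ρ a) (h0 : a ≠ 0) :
    ∃ ρ', ρ < ρ' ∧ ρ' < 1 ∧ ∀ t, ρ' ≤ t → t ≤ 1 → gr t a = gn a * t ^ (od a) := by
  have hg := gn_pos h0
  set b : EE k C := T (-od a) * a with hb
  have hbco : ∀ m, b.co m = a.co (m + od a) := by
    intro m
    rw [hb, co_T_mul, sub_neg_eq_add]
  have hgb : gn b = gn a := by
    refine le_antisymm (gn_le fun n => ?_) (gn_le fun n => ?_)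
    · rw [hbco]; exact le_gn a _
    · have := le_gn b (n - od a)
      rwa [hbco, sub_add_cancel] at this
  have hb0 : ‖b.co 0‖ = gn a := by rw [hbco, zero_add, norm_co_od hk h0]
  have hneg : ∀ n < 0, ‖b.co n‖ < gn a := fun n hn => by
    rw [hbco]
    exact norm_lt_of_lt_od h0 (by omega)
  set c : EE k C := b - ofBD (posPart b) with hc
  have hcn : ∀ n, n < 0 → c.co n = b.co n := by
    intro n hn
    rw [hc, co_sub, co_ofBD_posPart, if_neg (by omega), sub_zero]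
  have hgc : gn c < gn a := gn_sub_posPart_lt hg hneg
  have hbA : An ρ b := (An.T hρ (-od a)).mul hρ ha
  have hcA : An ρ c := by
    obtain ⟨M, hM⟩ := hbA
    refine ⟨M, fun n => ?_⟩
    rw [hc, co_sub, co_ofBD_posPart]
    split_ifs with h
    · rw [sub_self, norm_zero, zero_mul]; exact hM.nonneg hρ
    · rw [sub_zero]; exact hM n
  obtain ⟨M, hM⟩ := hcA
  obtain ⟨ρ', h1, h2, h3⟩ := hM.shrink hρ hρ1 hgc
  refine ⟨ρ', h1, h2, fun t ht1 ht2 => ?_⟩
  have hρ'0 : 0 < ρ' := hρ.trans h1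
  have ht0 : 0 < t := hρ'0.trans_le ht1
  have hbt : gr t b = gn a := by
    refine le_antisymm (gr_le fun n => ?_) ?_
    · rcases le_or_gt 0 n with h | h
      · obtain ⟨m, rfl⟩ := Int.eq_ofNat_of_zero_le h
        rw [← hgb, zpow_natCast]
        exact (mul_le_of_le_one_right (norm_nonneg _) (pow_le_one₀ ht0.le ht2)).trans (le_gn b m)
      · rw [← hcn n h]
        refine le_trans (mul_le_mul_of_nonneg_left ?_ (norm_nonneg _)) (h3 n)
        obtain ⟨m, hm⟩ := Int.eq_ofNat_of_zero_le (show 0 ≤ -n by omega)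
        have hn : n = -(m : ℤ) := by omega
        rw [hn, zpow_neg, zpow_neg, zpow_natCast, zpow_natCast]
        exact inv_anti₀ (pow_pos hρ'0 m) (pow_le_pow_left₀ hρ'0.le ht1 m)
    · have := le_gr hρ (h1.le.trans ht1) ht2 hbA 0
      rwa [zpow_zero, mul_one, hb0] at this
  have hab : a = T (od a) * b := by
    rw [hb, ← mul_assoc, T_mul_T, add_neg_cancel, T_zero, one_mul]
  have hAT : An ρ (T (od a) : EE k C) := An.T hρ (od a)
  have hTt : gr t (T (od a) : EE k C) = t ^ (od a) := by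
    refine le_antisymm (gr_le fun n => ?_) ?_
    · rw [co_T']
      split_ifs with h
      · rw [norm_one, one_mul, h]
      · rw [norm_zero, zero_mul]; exact zpow_nonneg ht0.le _
    · have := le_gr hρ (h1.le.trans ht1) ht2 hAT (od a)
      rwa [co_T', if_pos rfl, norm_one, one_mul] at this
  have := gr_mul hρ hρ1 (h1.le.trans ht1) ht2 hAT hbA
  rw [← hab, hTt, hbt, mul_comm] at this
  exact this

end Disc

end Crest.Agent.R013.Nrm_671
end

-- ▼ part R013/Nrm2_671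
section

/-!
# R013 / Nrm2: the path of norms of an annulus (helper671)

`ψ : K →+* EE k C` with values in quotients of series bounded on `ρ ≤ |T|`: the norms
`nr ψ hψ t`, `ρ ≤ t ≤ 1`, of `K`; for an annulus `e` of a semistable structure `S` (332's `SSK`)
`S.nrm e t`, from the norm of the vertex `(e0 e).1` at `t = 1` to the norm of `(e1 e).1` at
`t = ‖cc e‖`, continuous in `t`, monomial near both ends.
-/

set_option autoImplicit false
set_option linter.all false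

namespace Crest.Agent.R013.Nrm_671

open Filter Topology
open scoped NNReal
open Crest.Agent.R013.Cell_408 Crest.Agent.R013.EE809

variable {k : Type*} [NontriviallyNormedField k] [CompleteSpace k]
variable {C : Type*} [NormedField C] [IsUltrametricDist C] [NormedAlgebra k C]
variable {K : Type*} [Field K]

/-- all values of `ψ` are quotients of bounded series on the annulus `ρ < |T| < 1` -/
def Fr (ρ : ℝ) (ψ : K →+* EE k C) : Prop :=
  ∀ f : K, ∃ g h : EE k C, h ≠ 0 ∧ An ρ g ∧ An ρ h ∧ ψ f * h = g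

variable {ρ : ℝ} {ψ : K →+* EE k C}

/-- the norm at radius `t` (a real number) -/
noncomputable def nrR (hψ : Fr ρ ψ) (t : ℝ) (f : K) : ℝ :=
  gr t (hψ f).choose / gr t (hψ f).choose_spec.choose

section

variable (hρ : 0 < ρ) (hρ1 : ρ < 1) (hψ : Fr ρ ψ)

include hρ hρ1

theorem nrR_eq {t : ℝ} (h1 : ρ ≤ t) (h2 : t ≤ 1) {f : K} {g h : EE k C} (hg : An ρ g)
    (hh : An ρ h) (h0 : h ≠ 0) (e : ψ f * h = g) : nrR hψ t f = gr t g / gr t h := by
  unfold nrR
  set g' := (hψ f).choose with hg'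
  set h' := (hψ f).choose_spec.choose with hh'
  obtain ⟨h3, h4, h5, h6⟩ := (hψ f).choose_spec.choose_spec
  change h' ≠ 0 at h3
  change An ρ g' at h4
  change An ρ h' at h5
  change ψ f * h' = g' at h6
  have p1 := gr_pos hρ h1 h2 hh h0
  have p2 := gr_pos hρ h1 h2 h5 h3
  rw [div_eq_div_iff p2.ne' p1.ne', ← gr_mul hρ hρ1 h1 h2 h4 hh, ← gr_mul hρ hρ1 h1 h2 hg h5,
    ← h6, ← e]
  congr 1
  ring

theorem nrR_nonneg {t : ℝ} (h1 : ρ ≤ t) (h2 : t ≤ 1) (f : K) : 0 ≤ nrR hψ t f :=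
  div_nonneg (gr_nonneg hρ h1 h2 _) (gr_nonneg hρ h1 h2 _)

theorem nrR_zero {t : ℝ} (h1 : ρ ≤ t) (h2 : t ≤ 1) : nrR hψ t 0 = 0 := by
  have h := nrR_eq hρ hρ1 hψ h1 h2 (f := 0) (g := 0) (h := 1) An.zero An.one
    one_ne_zero (by rw [map_zero, zero_mul])
  rw [h, gr_zero hρ h1, zero_div]

theorem gr_one_right {t : ℝ} (h1 : ρ ≤ t) (h2 : t ≤ 1) : gr t (1 : EE k C) = 1 := by
  have h3 : (1 : EE k C) = EE809.mono 0 1 EE809.finDef_one := one_def
  rw [h3, gr_const (hρ.trans_le h1), norm_one]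

theorem nrR_one' {t : ℝ} (h1 : ρ ≤ t) (h2 : t ≤ 1) : nrR hψ t 1 = 1 := by
  have h := nrR_eq hρ hρ1 hψ h1 h2 (f := 1) (g := 1) (h := 1) An.one An.one
    one_ne_zero (by rw [map_one, one_mul])
  rw [h, gr_one_right hρ hρ1 h1 h2, div_one]

theorem nrR_mul {t : ℝ} (h1 : ρ ≤ t) (h2 : t ≤ 1) (f f' : K) :
    nrR hψ t (f * f') = nrR hψ t f * nrR hψ t f' := by
  obtain ⟨g, h, h0, hg, hh, e⟩ := hψ f
  obtain ⟨g', h', h0', hg', hh', e'⟩ := hψ f'
  have p1 := gr_pos hρ h1 h2 hh h0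
  have p2 := gr_pos hρ h1 h2 hh' h0'
  have p3 : h * h' ≠ 0 := by
    intro h3
    have h4 := gr_mul hρ hρ1 h1 h2 hh hh'
    rw [h3, gr_zero hρ h1] at h4
    exact (mul_pos p1 p2).ne h4
  rw [nrR_eq hρ hρ1 hψ h1 h2 hg hh h0 e, nrR_eq hρ hρ1 hψ h1 h2 hg' hh' h0' e',
    nrR_eq hρ hρ1 hψ h1 h2 (f := f * f') (g := g * g') (h := h * h') (hg.mul hρ hg')
    (hh.mul hρ hh') p3 (by rw [map_mul, ← e, ← e']; ring), gr_mul hρ hρ1 h1 h2 hg hg',
    gr_mul hρ hρ1 h1 h2 hh hh', div_mul_div_comm]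

theorem nrR_add {t : ℝ} (h1 : ρ ≤ t) (h2 : t ≤ 1) (f f' : K) :
    nrR hψ t (f + f') ≤ max (nrR hψ t f) (nrR hψ t f') := by
  obtain ⟨g, h, h0, hg, hh, e⟩ := hψ f
  obtain ⟨g', h', h0', hg', hh', e'⟩ := hψ f'
  have p1 := gr_pos hρ h1 h2 hh h0
  have p2 := gr_pos hρ h1 h2 hh' h0'
  have p3 : h * h' ≠ 0 := by
    intro h3
    have h4 := gr_mul hρ hρ1 h1 h2 hh hh'
    rw [h3, gr_zero hρ h1] at h4
    exact (mul_pos p1 p2).ne h4
  have hA : nrR hψ t f = gr t (g * h') / gr t (h * h') :=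
    nrR_eq hρ hρ1 hψ h1 h2 (hg.mul hρ hh') (hh.mul hρ hh') p3 (by rw [← e]; ring)
  have hB : nrR hψ t f' = gr t (g' * h) / gr t (h * h') :=
    nrR_eq hρ hρ1 hψ h1 h2 (hg'.mul hρ hh) (hh.mul hρ hh') p3 (by rw [← e']; ring)
  have hS : nrR hψ t (f + f') = gr t (g * h' + g' * h) / gr t (h * h') :=
    nrR_eq hρ hρ1 hψ h1 h2 ((hg.mul hρ hh').add hρ (hg'.mul hρ hh)) (hh.mul hρ hh') p3
      (by rw [map_add, ← e, ← e']; ring)
  have p4 : 0 < gr t (h * h') := gr_pos hρ h1 h2 (hh.mul hρ hh') p3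
  rw [hA, hB, hS, max_div_div_right p4.le]
  exact div_le_div_of_nonneg_right (gr_add_le hρ h1 h2 (hg.mul hρ hh') (hg'.mul hρ hh)) p4.le

/-- **the norm at radius `t`** -/
noncomputable def nr (t : ℝ) (h1 : ρ ≤ t) (h2 : t ≤ 1) : Valuation K ℝ≥0 where
  toFun f := ⟨nrR hψ t f, nrR_nonneg hρ hρ1 hψ h1 h2 f⟩
  map_zero' := NNReal.eq (nrR_zero hρ hρ1 hψ h1 h2)
  map_one' := NNReal.eq (nrR_one' hρ hρ1 hψ h1 h2)
  map_mul' f g := NNReal.eq (nrR_mul hρ hρ1 hψ h1 h2 f g)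
  map_add_le_max' f g := by
    have h := nrR_add hρ hρ1 hψ h1 h2 f g
    exact_mod_cast h


theorem nrR_pos {t : ℝ} (h1 : ρ ≤ t) (h2 : t ≤ 1) {f : K} (hf : f ≠ 0) : 0 < nrR hψ t f := by
  have h : nr hρ hρ1 hψ t h1 h2 f ≠ 0 := (Valuation.ne_zero_iff _).2 hf
  have h3 : (0 : ℝ) < nr hρ hρ1 hψ t h1 h2 f := by
    exact_mod_cast zero_lt_iff.2 h
  exact h3


theorem continuousOn_nrR (f : K) : ContinuousOn (fun t => nrR hψ t f) (Set.Icc ρ 1) := by
  obtain ⟨g, h, h0, hg, hh, e⟩ := hψ f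
  have h3 : ContinuousOn (fun t => gr t g / gr t h) (Set.Icc ρ 1) :=
    (continuousOn_gr hρ hg).div (continuousOn_gr hρ hh)
      fun t ht => (gr_pos hρ ht.1 ht.2 hh h0).ne'
  exact h3.congr fun t ht => nrR_eq hρ hρ1 hψ ht.1 ht.2 hg hh h0 e

theorem nrR_C [Algebra C K] (hC : ∀ (c : C) (n : ℤ),
    (ψ (algebraMap C K c)).co n = if n = 0 then c else 0) {t : ℝ} (h1 : ρ ≤ t) (h2 : t ≤ 1)
    (c : C) : nrR hψ t (algebraMap C K c) = ‖c‖ := by
  have ht : 0 < t := hρ.trans_le h1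
  have hb : Bdd t ‖c‖ (ψ (algebraMap C K c)) := by
    intro n
    rw [hC]
    split_ifs with h
    · rw [h, zpow_zero, mul_one]
    · rw [norm_zero, zero_mul]; exact norm_nonneg _
  have hA : An ρ (ψ (algebraMap C K c)) := by
    refine ⟨‖c‖, fun n => ?_⟩
    rw [hC]
    split_ifs with h
    · rw [h, zpow_zero, mul_one]
    · rw [norm_zero, zero_mul]; exact norm_nonneg _
  rw [nrR_eq hρ hρ1 hψ h1 h2 hA An.one one_ne_zero (mul_one _), gr_one_right hρ hρ1 h1 h2, div_one]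
  refine le_antisymm (gr_le hb) ?_
  have := le_gr hρ h1 h2 hA 0
  rwa [hC, if_pos rfl, zpow_zero, mul_one] at this

section Disc

variable [IsUltrametricDist k] [Algebra.IsAlgebraic k C] [IsAlgClosed C] (hk : DiscNorm k)

include hk

theorem nrR_one (f : K) : nrR hψ 1 f = gn (ψ f) := by
  obtain ⟨g, h, h0, hg, hh, e⟩ := hψ f
  rw [nrR_eq hρ hρ1 hψ hρ1.le le_rfl hg hh h0 e, gr_one, gr_one, ← e, gn_mul hk,
    mul_div_cancel_right₀ _ (gn_pos h0).ne']

theorem nrR_near_one {f : K} (hf : f ≠ 0) :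
    ∃ ρ', ρ < ρ' ∧ ρ' < 1 ∧ ∀ t, ρ' ≤ t → t ≤ 1 → nrR hψ t f = gn (ψ f) * t ^ (od (ψ f)) := by
  obtain ⟨g, h, h0, hg, hh, e⟩ := hψ f
  have hψf : ψ f ≠ 0 := by
    intro h3
    have h4 := nrR_pos hρ hρ1 hψ hρ1.le le_rfl hf
    rw [nrR_one hρ hρ1 hψ hk, h3, gn_zero] at h4
    exact lt_irrefl _ h4
  have hg0 : g ≠ 0 := by rw [← e]; exact mul_ne_zero' hk hψf h0
  obtain ⟨ρ1, h1, h2, h3⟩ := gr_near_one hk hρ hρ1 hg hg0
  obtain ⟨ρ2, h4, h5, h6⟩ := gr_near_one hk hρ hρ1 hh h0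
  refine ⟨max ρ1 ρ2, lt_max_of_lt_left h1, max_lt h2 h5, fun t ht1 ht2 => ?_⟩
  have ht0 : 0 < t := (hρ.trans h1).trans_le ((le_max_left _ _).trans ht1)
  rw [nrR_eq hρ hρ1 hψ (h1.le.trans ((le_max_left _ _).trans ht1)) ht2 hg hh h0 e,
    h3 t ((le_max_left _ _).trans ht1) ht2, h6 t ((le_max_right _ _).trans ht1) ht2, ← e,
    gn_mul hk, od_mul hk hψf h0, zpow_add₀ ht0.ne']
  have h7 := (gn_pos h0).ne'
  have h8 := (zpow_pos ht0 (od h)).ne'
  field_simp

end Disc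

end

/-! ### the reversed annulus -/

open Crest.Agent.R013.SSK_332

theorem gr_flip {c : C} (hc : c ≠ 0) {a b : EE k C} (h : Flip c a b) (t : ℝ) :
    gr t b = gr (‖c‖ / t) a := by
  unfold gr
  refine Equiv.iSup_congr (Equiv.neg ℤ) fun n => ?_
  rw [Equiv.neg_apply, h, norm_mul, norm_zpow, div_zpow, zpow_neg t, div_inv_eq_mul, mul_assoc]

/-! ### semistable structures -/

section SSK

variable {k C K : Type*} [NontriviallyNormedField k] [CompleteSpace k]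
    [NormedField C] [IsUltrametricDist C] [NormedAlgebra k C] [Algebra.IsAlgebraic k C]
    [Field K] [Algebra C K] (S : SSK k C K)

theorem cc_pos (e : S.Ed) : 0 < ‖S.cc e‖ := norm_pos_iff.2 (S.cc_ne e)

theorem fr_e0 (e : S.Ed) : Fr ‖S.cc e‖ (S.em (S.e0 e)) := by
  intro f
  obtain ⟨g, h, g', h', h0, hg, hh, -, -, e1, -⟩ := S.ann e f
  exact ⟨g, h, h0, hg, hh, e1⟩

/-- the norm at radius `t` of the annulus `e`, as a real number -/
noncomputable def nrmR (e : S.Ed) (t : ℝ) (f : K) : ℝ := nrR (fr_e0 S e) t f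

/-- **the path of norms of an annulus** -/
noncomputable def nrm (e : S.Ed) (t : ℝ) (h1 : ‖S.cc e‖ ≤ t) (h2 : t ≤ 1) : Valuation K ℝ≥0 :=
  nr (cc_pos S e) (S.cc_lt e) (fr_e0 S e) t h1 h2

theorem nrm_coe (e : S.Ed) (t : ℝ) (h1 : ‖S.cc e‖ ≤ t) (h2 : t ≤ 1) (f : K) :
    (nrm S e t h1 h2 f : ℝ) = nrmR S e t f := rfl

theorem continuousOn_nrmR (e : S.Ed) (f : K) :
    ContinuousOn (fun t => nrmR S e t f) (Set.Icc ‖S.cc e‖ 1) :=
  continuousOn_nrR (cc_pos S e) (S.cc_lt e) (fr_e0 S e) f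

theorem nrmR_C (e : S.Ed) {t : ℝ} (h1 : ‖S.cc e‖ ≤ t) (h2 : t ≤ 1) (c : C) :
    nrmR S e t (algebraMap C K c) = ‖c‖ :=
  nrR_C (cc_pos S e) (S.cc_lt e) (fr_e0 S e) (S.em_C _) h1 h2 c

theorem nrmR_pos (e : S.Ed) {t : ℝ} (h1 : ‖S.cc e‖ ≤ t) (h2 : t ≤ 1) {f : K} (hf : f ≠ 0) :
    0 < nrmR S e t f := nrR_pos (cc_pos S e) (S.cc_lt e) (fr_e0 S e) h1 h2 hf

section Disc

variable [IsUltrametricDist k] [IsAlgClosed C] (hk : DiscNorm k)

include hk

/-- at the outer end -/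
theorem nrmR_one (e : S.Ed) (f : K) : nrmR S e 1 f = (S.nm (S.e0 e).1).v f := by
  unfold nrmR
  rw [nrR_one (cc_pos S e) (S.cc_lt e) (fr_e0 S e) hk]
  exact S.em_gn _ _

/-- norm at radius `t` from the other end -/
theorem nrmR_flip (e : S.Ed) {t : ℝ} (h1 : ‖S.cc e‖ ≤ t) (h2 : t ≤ 1) (f : K) :
    ∃ g' h' : EE k C, h' ≠ 0 ∧ An ‖S.cc e‖ g' ∧ An ‖S.cc e‖ h' ∧ S.em (S.e1 e) f * h' = g' ∧
      nrmR S e t f = gr (‖S.cc e‖ / t) g' / gr (‖S.cc e‖ / t) h' := by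
  obtain ⟨g, h, g', h', h0, hg, hh, fg, fh, e1, e2⟩ := S.ann e f
  have hc := cc_pos S e
  have hflip : ∀ {a b : EE k C}, Flip (S.cc e) a b → InA (S.cc e) a → An ‖S.cc e‖ b := by
    intro a b hab ha
    obtain ⟨M, hM⟩ := a.bd'
    refine ⟨M, fun n => ?_⟩
    rw [hab n, norm_mul, norm_zpow, mul_assoc, ← zpow_add₀ hc.ne', neg_add_cancel, zpow_zero,
      mul_one]
    exact hM.2 _
  have h0' : h' ≠ 0 := by
    intro h3
    apply h0
    apply EE.ext
    intro n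
    have h4 := fh (-n)
    rw [h3, co_zero, neg_neg] at h4
    rw [co_zero]
    rcases mul_eq_zero.1 h4.symm with h5 | h5
    · exact h5
    · exact absurd h5 (zpow_ne_zero _ (S.cc_ne e))
  have hg' : An ‖S.cc e‖ g' := hflip fg hg
  have hh' : An ‖S.cc e‖ h' := hflip fh hh
  refine ⟨g', h', h0', hg', hh', e2, ?_⟩
  have ht : 0 < t := hc.trans_le h1
  have h5 : ‖S.cc e‖ / (‖S.cc e‖ / t) = t := by field_simp
  rw [gr_flip (S.cc_ne e) fg, gr_flip (S.cc_ne e) fh, h5]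
  exact nrR_eq hc (S.cc_lt e) (fr_e0 S e) h1 h2 hg hh h0 e1

theorem fr_e1 (e : S.Ed) : Fr ‖S.cc e‖ (S.em (S.e1 e)) := by
  intro f
  obtain ⟨g', h', h0, hg, hh, e2, -⟩ := nrmR_flip S hk e (S.cc_lt e).le le_rfl f
  exact ⟨g', h', h0, hg, hh, e2⟩

/-- the path from the other end -/
theorem nrmR_eq_flip (e : S.Ed) {t : ℝ} (h1 : ‖S.cc e‖ ≤ t) (h2 : t ≤ 1) (f : K) :
    nrmR S e t f = nrR (fr_e1 S hk e) (‖S.cc e‖ / t) f := by
  obtain ⟨g', h', h0, hg, hh, e2, h3⟩ := nrmR_flip S hk e h1 h2 f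
  have hc := cc_pos S e
  have ht : 0 < t := hc.trans_le h1
  rw [h3]
  refine (nrR_eq hc (S.cc_lt e) (fr_e1 S hk e) ?_ ?_ hg hh h0 e2).symm
  · rw [le_div_iff₀ ht]
    exact mul_le_of_le_one_right hc.le h2
  · rw [div_le_one ht]; exact h1

/-- at the inner end -/
theorem nrmR_cc (e : S.Ed) (f : K) : nrmR S e ‖S.cc e‖ f = (S.nm (S.e1 e).1).v f := by
  rw [nrmR_eq_flip S hk e le_rfl (S.cc_lt e).le, div_self (cc_pos S e).ne',
    nrR_one (cc_pos S e) (S.cc_lt e) (fr_e1 S hk e) hk]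
  exact S.em_gn _ _

/-- near the outer end -/
theorem nrmR_near_one (e : S.Ed) {f : K} (hf : f ≠ 0) :
    ∃ ρ', ‖S.cc e‖ < ρ' ∧ ρ' < 1 ∧ ∀ t, ρ' ≤ t → t ≤ 1 →
      nrmR S e t f = (S.nm (S.e0 e).1).v f * t ^ (EE809.od (S.em (S.e0 e) f)) := by
  obtain ⟨ρ', h1, h2, h3⟩ := nrR_near_one (cc_pos S e) (S.cc_lt e) (fr_e0 S e) hk hf
  refine ⟨ρ', h1, h2, fun t ht1 ht2 => ?_⟩
  have := h3 t ht1 ht2
  rw [S.em_gn] at this
  exact this

/-- near the inner end -/
theorem nrmR_near_cc (e : S.Ed) {f : K} (hf : f ≠ 0) :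
    ∃ ρ', ‖S.cc e‖ < ρ' ∧ ρ' < 1 ∧ ∀ t, ‖S.cc e‖ ≤ t → t ≤ ρ' →
      nrmR S e t f = (S.nm (S.e1 e).1).v f * (‖S.cc e‖ / t) ^ (EE809.od (S.em (S.e1 e) f)) := by
  obtain ⟨ρ', h1, h2, h3⟩ := nrR_near_one (cc_pos S e) (S.cc_lt e) (fr_e1 S hk e) hk hf
  have hc := cc_pos S e
  have hρ' : 0 < ρ' := hc.trans h1
  refine ⟨‖S.cc e‖ / ρ', ?_, (div_lt_one hρ').2 h1, fun t ht1 ht2 => ?_⟩
  · rw [lt_div_iff₀ hρ']
    exact mul_lt_of_lt_one_right hc h2
  have ht : 0 < t := hc.trans_le ht1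
  have h4 : ρ' ≤ ‖S.cc e‖ / t := by
    rw [le_div_iff₀ ht]
    rw [le_div_iff₀ hρ'] at ht2
    rwa [mul_comm]
  have h5 : ‖S.cc e‖ / t ≤ 1 := (div_le_one ht).2 ht1
  have h6 := h3 _ h4 h5
  rw [S.em_gn] at h6
  rw [nrmR_eq_flip S hk e ht1 ?_]
  · exact h6
  · refine ht2.trans ?_
    rw [div_le_one hρ']; exact h1.le

end Disc

end SSK

end Crest.Agent.R013.Nrm_671
end

-- ▼ part R013/Nrm3_671
section

/-!
# R013 / Nrm3: the norm along an annulus in terms of the divisor (helper671)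

`exists_form` : `log ‖f‖_t = α + m log t + ∑ n_τ log max(t, |τ|)` along an annulus, `n_τ` the order
of `f` at the point `τ`; `seg` : on a segment without poles either `‖f‖_t` is smaller than the
maximum at the end points, or `‖f‖_t` is constant and `f` has no zeros over the segment.
-/

set_option autoImplicit false
set_option linter.all false

namespace Crest.Agent.R013.Nrm_671

open Filter Topology
open scoped NNReal
open WithZero (exp)
open Crest.Agent.R013.Cell_408 Crest.Agent.R013.EE809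
open Crest.Agent.R013.RR7_948

/-! ### norms of the factors -/

section factors

variable {k : Type*} [NontriviallyNormedField k] [CompleteSpace k]
variable {C : Type*} [NormedField C] [IsUltrametricDist C] [NormedAlgebra k C]
  [Algebra.IsAlgebraic k C] [DecidableEq C]

variable {c : C} (hc0 : c ≠ 0) (hc1 : ‖c‖ < 1) {t : ℝ} (h1 : ‖c‖ ≤ t) (h2 : t ≤ 1)

include hc0 hc1 h1 h2

theorem gr_mo (n : ℤ) (A : C) : gr t (mo n A : EE k C) = ‖A‖ * t ^ n := by
  have hc : 0 < ‖c‖ := norm_pos_iff.2 hc0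
  have ht : 0 < t := hc.trans_le h1
  refine le_antisymm (gr_le (Bdd.mo ht n A)) ?_
  have hA : An ‖c‖ (mo n A : EE k C) := ⟨_, Bdd.mo hc n A⟩
  have := le_gr hc h1 h2 hA n
  rwa [co_mo, if_pos rfl] at this

theorem gr_lin {τ : C} (hτ : ‖τ‖ < 1) : gr t (AnW_201.lin τ : EE k C) = max t ‖τ‖ := by
  have hc : 0 < ‖c‖ := norm_pos_iff.2 hc0
  have ht : 0 < t := hc.trans_le h1
  have hA : An ‖c‖ (AnW_201.lin τ : EE k C) := AnW_201.inA_lin c τ
  refine le_antisymm (gr_le fun n => ?_) (max_le ?_ ?_)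
  · rcases eq_or_ne n 0 with rfl | hn0
    · rw [AnW_201.co_lin_zero, norm_neg, zpow_zero, mul_one]; exact le_max_right _ _
    rcases eq_or_ne n 1 with rfl | hn1
    · rw [AnW_201.co_lin_one, norm_one, zpow_one, one_mul]; exact le_max_left _ _
    rw [AnW_201.co_lin_of τ hn0 hn1, norm_zero, zero_mul]
    exact le_max_of_le_left ht.le
  · have := le_gr hc h1 h2 hA 1
    rwa [AnW_201.co_lin_one, norm_one, one_mul, zpow_one] at this
  · have := le_gr hc h1 h2 hA 0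
    rwa [AnW_201.co_lin_zero, norm_neg, zpow_zero, mul_one] at this

theorem an_prod (S : Multiset C) : An ‖c‖ ((S.map AnW_201.lin).prod : EE k C) := by
  have hc : 0 < ‖c‖ := norm_pos_iff.2 hc0
  induction S using Multiset.induction_on with
  | empty => rw [Multiset.map_zero, Multiset.prod_zero]; exact An.one
  | cons i S ih =>
    rw [Multiset.map_cons, Multiset.prod_cons]
    exact An.mul hc (AnW_201.inA_lin c i) ih

theorem gr_prod {S : Multiset C} (hS : ∀ τ ∈ S, ‖τ‖ < 1) :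
    gr t ((S.map AnW_201.lin).prod : EE k C) = (S.map fun τ => max t ‖τ‖).prod := by
  have hc : 0 < ‖c‖ := norm_pos_iff.2 hc0
  induction S using Multiset.induction_on with
  | empty =>
    rw [Multiset.map_zero, Multiset.prod_zero, Multiset.map_zero, Multiset.prod_zero]
    exact gr_one_right hc hc1 h1 h2
  | cons i S ih =>
    rw [Multiset.map_cons, Multiset.prod_cons, Multiset.map_cons, Multiset.prod_cons,
      gr_mul hc hc1 h1 h2 (AnW_201.inA_lin c i) (an_prod hc0 hc1 h1 h2 S),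
      gr_lin hc0 hc1 h1 h2 (hS i (Multiset.mem_cons_self i S)),
      ih fun τ hτ => hS τ (Multiset.mem_cons_of_mem hτ)]

theorem gr_ua {u : EE k C} (hu : AnW_201.IsUA c u) : gr t u = 1 := by
  have hc : 0 < ‖c‖ := norm_pos_iff.2 hc0
  have hB : Bdd t 1 u := Bdd.interp hc h1 h2 (M := 1) hu.le' fun n => by
    rw [one_zpow, mul_one]; exact hu.le n
  refine le_antisymm (gr_le hB) ?_
  have := le_gr hc h1 h2 hu.inA 0
  rwa [hu.zero, zpow_zero, mul_one] at this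

/-- norm of a factored series -/
theorem gr_form {A : C} {N : ℤ} {S : Multiset C} {u : EE k C} (hS : ∀ τ ∈ S, ‖τ‖ < 1)
    (hu : AnW_201.IsUA c u) {U : Finset C} (hU : S.toFinset ⊆ U) :
    gr t (mo N A * (S.map AnW_201.lin).prod * u) =
      ‖A‖ * t ^ N * ∏ τ ∈ U, (max t ‖τ‖) ^ (S.count τ) := by
  have hc : 0 < ‖c‖ := norm_pos_iff.2 hc0
  have a1 : An ‖c‖ (mo N A : EE k C) := ⟨_, Bdd.mo hc N A⟩
  have a2 := an_prod (k := k) hc0 hc1 h1 h2 S
  rw [gr_mul hc hc1 h1 h2 (An.mul hc a1 a2) hu.inA, gr_mul hc hc1 h1 h2 a1 a2, gr_ua hc0 hc1 h1 h2 hu,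
    mul_one, gr_mo hc0 hc1 h1 h2, gr_prod hc0 hc1 h1 h2 hS, Finset.prod_multiset_map_count]
  congr 1
  refine Finset.prod_subset hU fun τ _ hτ => ?_
  rw [Multiset.count_eq_zero_of_notMem (fun h => hτ (Multiset.mem_toFinset.2 h)), pow_zero]

end factors

/-! ### the value at a point -/

section points

variable {k : Type*} [NontriviallyNormedField k] [CompleteSpace k] [IsUltrametricDist k]
variable {C : Type*} [NormedField C] [IsUltrametricDist C] [NormedAlgebra k C]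
  [Algebra.IsAlgebraic k C] [IsAlgClosed C] [DecidableEq C]

/-- split off the zeros at `τ` -/
theorem exists_split {c : C} (hc0 : c ≠ 0) {τ : C} (h1 : ‖c‖ < ‖τ‖) (h2 : ‖τ‖ < 1)
    {A : C} (hA : A ≠ 0) (N : ℤ) (S : Multiset C) {u v : EE k C} (hu : AnW_201.IsUA c u)
    (hv : AnW_201.IsUA c v) (huv : u * v = 1) :
    ∃ g : EE k C, SSK_332.InA c g ∧ SSK_332.evE τ g ≠ 0 ∧
      mo N A * (S.map AnW_201.lin).prod * u = SSK_332.lin τ ^ (S.count τ) * g := by
  have hτ0 : τ ≠ 0 := norm_pos_iff.1 ((norm_nonneg c).trans_lt h1)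
  have hprod : ∀ S' : Multiset C, (∀ σ ∈ S', σ ≠ τ) →
      AnW_201.InA c ((S'.map AnW_201.lin).prod : EE k C) ∧
      AnW_201.evE τ ((S'.map AnW_201.lin).prod : EE k C) ≠ 0 := by
    intro S'
    induction S' using Multiset.induction_on with
    | empty =>
      intro _
      rw [Multiset.map_zero, Multiset.prod_zero]
      refine ⟨AnW_201.inA_one c, ?_⟩
      have := AnW_201.evE_mo (k := k) τ 0 1
      rw [zpow_zero, mul_one] at this
      rw [show (1 : EE k C) = mo 0 1 from mo_zero_one.symm, this]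
      exact one_ne_zero
    | cons i S' ih =>
      intro h
      obtain ⟨h3, h4⟩ := ih fun σ hσ => h σ (Multiset.mem_cons_of_mem hσ)
      rw [Multiset.map_cons, Multiset.prod_cons]
      refine ⟨AnW_201.InA.mul (AnW_201.inA_lin c i) h3, ?_⟩
      rw [AnW_201.evE_mul h1 h2 hc0 (AnW_201.inA_lin c i) h3, AnW_201.evE_lin h1 h2 hc0]
      refine mul_ne_zero ?_ h4
      rw [sub_ne_zero]
      exact (h i (Multiset.mem_cons_self i S')).symm
  obtain ⟨h3, h4⟩ := hprod (S.filter fun σ => σ ≠ τ) fun σ hσ => (Multiset.mem_filter.1 hσ).2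
  set G : EE k C := ((S.filter fun σ => σ ≠ τ).map AnW_201.lin).prod with hG
  have hsplit : ((S.map AnW_201.lin).prod : EE k C) = AnW_201.lin τ ^ (S.count τ) * G := by
    conv_lhs => rw [← Multiset.filter_add_not (fun σ => σ = τ) S]
    rw [Multiset.map_add, Multiset.prod_add, Multiset.filter_eq', Multiset.map_replicate,
      Multiset.prod_replicate]
  have hmo := AnW_201.inA_mo (k := k) c N A
  have heu : AnW_201.evE τ u ≠ 0 := by
    intro h
    have h5 := AnW_201.evE_mul h1 h2 hc0 hu.inA hv.inA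
    rw [huv, h, zero_mul] at h5
    have := AnW_201.evE_mo (k := k) τ 0 1
    rw [zpow_zero, mul_one] at this
    rw [show (1 : EE k C) = mo 0 1 from mo_zero_one.symm, this] at h5
    exact one_ne_zero h5
  refine ⟨mo N A * G * u, (hmo.mul h3).mul hu.inA, ?_, ?_⟩
  · have : AnW_201.evE τ (mo N A * G * u) ≠ 0 := by
      rw [AnW_201.evE_mul h1 h2 hc0 (hmo.mul h3) hu.inA, AnW_201.evE_mul h1 h2 hc0 hmo h3,
        AnW_201.evE_mo]
      exact mul_ne_zero (mul_ne_zero (mul_ne_zero hA (zpow_ne_zero _ hτ0)) h4) heu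
    exact this
  · rw [hsplit]
    have : (SSK_332.lin τ : EE k C) = AnW_201.lin τ := rfl
    rw [this]
    ring

end points

/-! ### convexity -/

/-- **convexity**: a piecewise linear function with nonnegative kinks is smaller than the maximum
at the end points, or constant without kinks. -/
theorem conv {C : Type*} [NormedField C] (α : ℝ) (m : ℤ) (U : Finset C) (n : C → ℤ)
    {r1 t r2 : ℝ} (h0 : 0 < r1) (h1 : r1 < t) (h2 : t < r2)
    (hn : ∀ τ ∈ U, r1 < ‖τ‖ → ‖τ‖ < r2 → 0 ≤ n τ) (L : ℝ → ℝ)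
    (hL : ∀ s ∈ ({r1, t, r2} : Set ℝ),
      L s = α + m * Real.log s + ∑ τ ∈ U, n τ * Real.log (max s ‖τ‖)) :
    L t < max (L r1) (L r2) ∨
      (L r1 = L t ∧ L r2 = L t ∧ ∀ τ ∈ U, r1 < ‖τ‖ → ‖τ‖ < r2 → n τ = 0) := by
  have ht0 : 0 < t := h0.trans h1
  have hx1 : Real.log r1 < Real.log t := Real.log_lt_log h0 h1
  have hx2 : Real.log t < Real.log r2 := Real.log_lt_log ht0 h2
  set x1 := Real.log r1 with hx1'
  set x := Real.log t with hx'
  set x2 := Real.log r2 with hx2'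
  set ψ : C → ℝ := fun τ => (x2 - x) * Real.log (max r1 ‖τ‖) + (x - x1) * Real.log (max r2 ‖τ‖)
    - (x2 - x1) * Real.log (max t ‖τ‖) with hψ
  have hψ0 : ∀ τ : C, ¬ (r1 < ‖τ‖ ∧ ‖τ‖ < r2) → ψ τ = 0 := by
    intro τ hτ
    simp only [hψ]
    by_cases h : r1 < ‖τ‖
    · have h' : r2 ≤ ‖τ‖ := not_lt.1 fun h' => hτ ⟨h, h'⟩
      rw [max_eq_right h.le, max_eq_right h', max_eq_right (h2.le.trans h')]
      ring
    · have h' : ‖τ‖ ≤ r1 := not_lt.1 h
      rw [max_eq_left h', max_eq_left (h'.trans (h1.trans h2).le), max_eq_left (h'.trans h1.le),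
        ← hx1', ← hx2', ← hx']
      ring
  have hψ1 : ∀ τ : C, r1 < ‖τ‖ → ‖τ‖ < r2 → 0 < ψ τ := by
    intro τ h3 h4
    simp only [hψ]
    have hy1 : x1 < Real.log ‖τ‖ := Real.log_lt_log h0 h3
    have hy2 : Real.log ‖τ‖ < x2 := Real.log_lt_log (h0.trans h3) h4
    rw [max_eq_right h3.le, max_eq_left h4.le, ← hx2']
    rcases le_or_gt ‖τ‖ t with h | h
    · rw [max_eq_left h, ← hx']
      have : (x2 - x) * Real.log ‖τ‖ + (x - x1) * x2 - (x2 - x1) * x =
        (x2 - x) * (Real.log ‖τ‖ - x1) := by ring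
      rw [this]
      exact mul_pos (by linarith) (by linarith)
    · rw [max_eq_right h.le]
      have : (x2 - x) * Real.log ‖τ‖ + (x - x1) * x2 - (x2 - x1) * Real.log ‖τ‖ =
        (x - x1) * (x2 - Real.log ‖τ‖) := by ring
      rw [this]
      exact mul_pos (by linarith) (by linarith)
  have hnn : ∀ τ ∈ U, 0 ≤ (n τ : ℝ) * ψ τ := by
    intro τ hτ
    by_cases h : r1 < ‖τ‖ ∧ ‖τ‖ < r2
    · exact mul_nonneg (by exact_mod_cast hn τ hτ h.1 h.2) (hψ1 τ h.1 h.2).le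
    · rw [hψ0 τ h, mul_zero]
  have key : (x2 - x) * L r1 + (x - x1) * L r2 - (x2 - x1) * L t = ∑ τ ∈ U, (n τ : ℝ) * ψ τ := by
    rw [hL r1 (by simp), hL r2 (by simp), hL t (by simp), ← hx1', ← hx2', ← hx']
    have h3 : ∑ τ ∈ U, (n τ : ℝ) * ψ τ = (x2 - x) * ∑ τ ∈ U, (n τ : ℝ) * Real.log (max r1 ‖τ‖)
        + (x - x1) * ∑ τ ∈ U, (n τ : ℝ) * Real.log (max r2 ‖τ‖)
        - (x2 - x1) * ∑ τ ∈ U, (n τ : ℝ) * Real.log (max t ‖τ‖) := by
      rw [Finset.mul_sum, Finset.mul_sum, Finset.mul_sum, ← Finset.sum_add_distrib,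
        ← Finset.sum_sub_distrib]
      refine Finset.sum_congr rfl fun τ _ => ?_
      simp only [hψ]
      ring
    rw [h3]
    ring
  have hsum := Finset.sum_nonneg hnn
  by_cases hlt : L t < max (L r1) (L r2)
  · exact Or.inl hlt
  right
  rw [not_lt, max_le_iff] at hlt
  have h3 : 0 ≤ (x2 - x) * (L t - L r1) := mul_nonneg (by linarith) (by linarith [hlt.1])
  have h4 : 0 ≤ (x - x1) * (L t - L r2) := mul_nonneg (by linarith) (by linarith [hlt.2])
  have h5 : (x2 - x) * (L t - L r1) + (x - x1) * (L t - L r2) + ∑ τ ∈ U, (n τ : ℝ) * ψ τ = 0 := by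
    rw [← key]; ring
  have h6 : (x2 - x) * (L t - L r1) = 0 := by linarith
  have h7 : (x - x1) * (L t - L r2) = 0 := by linarith
  have h8 : ∑ τ ∈ U, (n τ : ℝ) * ψ τ = 0 := by linarith
  refine ⟨?_, ?_, ?_⟩
  · rcases mul_eq_zero.1 h6 with h | h
    · exact absurd h (by linarith)
    · linarith
  · rcases mul_eq_zero.1 h7 with h | h
    · exact absurd h (by linarith)
    · linarith
  · intro τ hτ h9 h10
    have h11 := (Finset.sum_eq_zero_iff_of_nonneg hnn).1 h8 τ hτ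
    rcases mul_eq_zero.1 h11 with h | h
    · exact_mod_cast h
    · exact absurd h (hψ1 τ h9 h10).ne'

/-! ### the formula along an annulus -/

section SSK

variable {k C K : Type*} [NontriviallyNormedField k] [CompleteSpace k] [IsUltrametricDist k]
    [NormedField C] [IsUltrametricDist C] [NormedAlgebra k C] [Algebra.IsAlgebraic k C]
    [IsAlgClosed C] [Field K] [Algebra C K] (S : SSK_332.SSK k C K) (hk : DiscNorm k)

include hk

theorem exists_form (e : S.Ed) {f : K} (hf : f ≠ 0) :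
    ∃ (α : ℝ) (m : ℤ) (U : Finset C) (n : C → ℤ),
      (∀ t, ‖S.cc e‖ ≤ t → t ≤ 1 → Real.log (nrmR S e t f) =
        α + m * Real.log t + ∑ τ ∈ U, n τ * Real.log (max t ‖τ‖)) ∧
      (∀ τ ∈ U, ‖S.cc e‖ < ‖τ‖ ∧ ‖τ‖ < 1) ∧ (∀ τ, τ ∉ U → n τ = 0) ∧
      ∀ τ h0 h1, (S.ptA e τ h0 h1).v f = exp (-(n τ)) := by
  classical
  obtain ⟨g, h, g', h', h0, hg, hh, -, -, e1, -⟩ := S.ann e f
  have hc0 := S.cc_ne e
  have hc1 := S.cc_lt e
  have hc : 0 < ‖S.cc e‖ := norm_pos_iff.2 hc0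
  have hψ : S.em (S.e0 e) f ≠ 0 := (map_ne_zero_iff _ (S.em _).injective).2 hf
  have hg0 : g ≠ 0 := by rw [← e1]; exact mul_ne_zero' hk hψ h0
  obtain ⟨A, N, S1, u, v, hA, hS1, hu, hv, huv, eg⟩ := AnW_201.exists_W hk hc0 hc1 hg hg0
  obtain ⟨A', N', S2, u', v', hA', hS2, hu', hv', huv', eh⟩ := AnW_201.exists_W hk hc0 hc1 hh h0
  refine ⟨Real.log ‖A‖ - Real.log ‖A'‖, N - N', S1.toFinset ∪ S2.toFinset,
    fun τ => (S1.count τ : ℤ) - S2.count τ, ?_, ?_, ?_, ?_⟩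
  · intro t h1 h2
    have ht : 0 < t := hc.trans_le h1
    have hmax : ∀ τ : C, 0 < max t ‖τ‖ := fun τ => lt_max_of_lt_left ht
    have e2 : nrmR S e t f = gr t g / gr t h := nrR_eq hc hc1 (fr_e0 S e) h1 h2 hg hh h0 e1
    rw [e2, eg, eh, gr_form hc0 hc1 h1 h2 (fun τ hτ => (hS1 τ hτ).2) hu
      (Finset.subset_union_left (s₂ := S2.toFinset)),
      gr_form hc0 hc1 h1 h2 (fun τ hτ => (hS2 τ hτ).2) hu'
      (Finset.subset_union_right (s₁ := S1.toFinset))]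
    have p1 : ∀ (A : C) (N : ℤ) (S : Multiset C) (U : Finset C), A ≠ 0 →
        0 < ‖A‖ * t ^ N * ∏ τ ∈ U, (max t ‖τ‖) ^ (S.count τ) := by
      intro A N S U hA
      exact mul_pos (mul_pos (norm_pos_iff.2 hA) (zpow_pos ht _))
        (Finset.prod_pos fun τ _ => pow_pos (hmax τ) _)
    have p2 : ∀ (A : C) (N : ℤ) (S : Multiset C) (U : Finset C), A ≠ 0 →
        Real.log (‖A‖ * t ^ N * ∏ τ ∈ U, (max t ‖τ‖) ^ (S.count τ)) =
        Real.log ‖A‖ + N * Real.log t + ∑ τ ∈ U, (S.count τ : ℝ) * Real.log (max t ‖τ‖) := by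
      intro A N S U hA
      rw [Real.log_mul (mul_pos (norm_pos_iff.2 hA) (zpow_pos ht _)).ne'
        (Finset.prod_pos fun τ _ => pow_pos (hmax τ) _).ne',
        Real.log_mul (norm_pos_iff.2 hA).ne' (zpow_pos ht _).ne', Real.log_zpow, Real.log_prod
        (fun τ _ => (pow_pos (hmax τ) _).ne')]
      congr 1
      exact Finset.sum_congr rfl fun τ _ => Real.log_pow _ _
    rw [Real.log_div (p1 _ _ _ _ hA).ne' (p1 _ _ _ _ hA').ne', p2 _ _ _ _ hA, p2 _ _ _ _ hA']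
    push_cast
    simp only [sub_mul, Finset.sum_sub_distrib]
    ring
  · intro τ hτ
    rcases Finset.mem_union.1 hτ with h | h
    · exact hS1 τ (Multiset.mem_toFinset.1 h)
    · exact hS2 τ (Multiset.mem_toFinset.1 h)
  · intro τ hτ
    rw [Finset.mem_union, not_or, Multiset.mem_toFinset, Multiset.mem_toFinset] at hτ
    dsimp only
    rw [Multiset.count_eq_zero_of_notMem hτ.1, Multiset.count_eq_zero_of_notMem hτ.2]
    simp
  · intro τ h1 h2
    obtain ⟨a, b, g1, h3, ig1, ih3, eg1, eh3, e3, ev⟩ := S.ptA_ord e τ h1 h2 f hf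
    obtain ⟨g2, ig2, eg2, e4⟩ := exists_split (k := k) hc0 h1 h2 hA N S1 hu hv huv
    obtain ⟨h4, ih4, eh4, e5⟩ := exists_split (k := k) hc0 h1 h2 hA' N' S2 hu' hv' huv'
    rw [← eg] at e4
    rw [← eh] at e5
    have e6 : SSK_332.lin τ ^ (S2.count τ + a) * (g1 * h4) =
        SSK_332.lin τ ^ (S1.count τ + b) * (g2 * h3) := by
      have e7 : S.em (S.e0 e) f * (SSK_332.lin τ ^ b * h3) * h =
          S.em (S.e0 e) f * h * (SSK_332.lin τ ^ b * h3) := by ring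
      rw [e3, e1, e4, e5] at e7
      rw [pow_add, pow_add]
      linear_combination e7
    have ev1 : ∀ {x y : EE k C}, SSK_332.InA (S.cc e) x → SSK_332.InA (S.cc e) y →
        SSK_332.evE τ x ≠ 0 → SSK_332.evE τ y ≠ 0 → SSK_332.evE τ (x * y) ≠ 0 := by
      intro x y hx hy hx0 hy0
      have := AnW_201.evE_mul h1 h2 hc0 hx hy
      have h5 : SSK_332.evE τ (x * y) = SSK_332.evE τ x * SSK_332.evE τ y := this
      rw [h5]
      exact mul_ne_zero hx0 hy0
    have e8 := Pow4_931.order_uniqueA hk hc0 hc1 h1 h2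
      (show SSK_332.InA (S.cc e) (g1 * h4) from AnW_201.InA.mul ig1 ih4)
      (show SSK_332.InA (S.cc e) (g2 * h3) from AnW_201.InA.mul ig2 ih3)
      (ev1 ig1 ih4 eg1 eh4) (ev1 ig2 ih3 eg2 eh3) e6
    rw [ev]
    congr 1
    dsimp only
    omega

/-- **segments**: on a segment `(r1, r2)` of an annulus without poles of `f` the norm is smaller
than the maximum at the end points, or constant, and then `f` has no zeros over the segment. -/
theorem seg (e : S.Ed) {f : K} (hf : f ≠ 0) {r1 t r2 : ℝ} (h0 : ‖S.cc e‖ ≤ r1) (h1 : r1 < t)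
    (h2 : t < r2) (h3 : r2 ≤ 1)
    (hreg : ∀ τ i0 i1, r1 < ‖τ‖ → ‖τ‖ < r2 → (S.ptA e τ i0 i1).v f ≤ 1) :
    nrmR S e t f < max (nrmR S e r1 f) (nrmR S e r2 f) ∨
      (nrmR S e r1 f = nrmR S e t f ∧ nrmR S e r2 f = nrmR S e t f ∧
        ∀ τ i0 i1, r1 < ‖τ‖ → ‖τ‖ < r2 → (S.ptA e τ i0 i1).v f = 1) := by
  obtain ⟨α, m, U, n, hlog, hU, hU', hord⟩ := exists_form S hk e hf
  have hc := cc_pos S e
  have hp : ∀ s, ‖S.cc e‖ ≤ s → s ≤ 1 → 0 < nrmR S e s f := fun s a b => nrmR_pos S e a b hf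
  have p1 := hp r1 h0 ((h1.trans h2).le.trans h3)
  have p2 := hp t (h0.trans h1.le) (h2.le.trans h3)
  have p3 := hp r2 (h0.trans (h1.trans h2).le) h3
  have key := conv α m U n (hc.trans_le h0) h1 h2 (fun τ hτ a b => by
    obtain ⟨i0, i1⟩ := hU τ hτ
    have h4 := hreg τ i0 i1 a b
    rw [hord τ i0 i1, ← WithZero.exp_zero, WithZero.exp_le_exp] at h4
    omega) (fun s => Real.log (nrmR S e s f)) (by
    intro s hs
    simp only [Set.mem_insert_iff, Set.mem_singleton_iff] at hs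
    rcases hs with rfl | rfl | rfl
    · exact hlog _ h0 ((h1.trans h2).le.trans h3)
    · exact hlog _ (h0.trans h1.le) (h2.le.trans h3)
    · exact hlog _ (h0.trans (h1.trans h2).le) h3)
  rcases key with h | ⟨h, h', h''⟩
  · left
    rcases lt_max_iff.1 h with h | h
    · exact lt_max_of_lt_left ((Real.log_lt_log_iff p2 p1).1 h)
    · exact lt_max_of_lt_right ((Real.log_lt_log_iff p2 p3).1 h)
  · right
    refine ⟨Real.log_injOn_pos p1 p2 h, Real.log_injOn_pos p3 p2 h', fun τ i0 i1 a b => ?_⟩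
    rw [hord τ i0 i1]
    by_cases hτ : τ ∈ U
    · rw [h'' τ hτ a b]; rfl
    · rw [hU' τ hτ]; rfl

end SSK

end Crest.Agent.R013.Nrm_671
end

-- ▼ part R013/Nrm4_671
section

/-!
# R013 / Nrm4: the norms of a semistable structure are distinct (helper671)

Maximum principle on the graph of a semistable structure, annuli included: a function whose only
pole is `ptA e ρ₀` is maximal at the norm `(e, ‖ρ₀‖)`.  Hence `ne_vertex`, `ne_annulus`:
`nrm e ‖ρ₀‖` is different from all vertex norms and from all other norms of annuli.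
-/

set_option autoImplicit false
set_option linter.all false

namespace Crest.Agent.R013.Nrm_671

open Filter Topology
open scoped NNReal
open WithZero (exp)
open Crest.Agent.R013.Cell_408 Crest.Agent.R013.EE809
open Crest.Agent.R013.RR7_948 Crest.Agent.R013.RR8_948 Crest.Agent.R013.RR9_948
open Crest.Agent.R013.RR11_948 Crest.Agent.R013.RR12_948

theorem zpow_lt_one_pos {t : ℝ} (h0 : 0 < t) (h1 : t < 1) {n : ℤ} (h : t ^ n < 1) : 0 < n := by
  by_contra hn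
  push Not at hn
  exact absurd h (not_lt.2 (one_le_zpow_of_nonpos₀ h0 h1.le hn))

theorem zpow_eq_one_zero {t : ℝ} (h0 : 0 < t) (h1 : t < 1) {n : ℤ} (h : t ^ n = 1) : n = 0 := by
  by_contra hn
  rcases lt_or_gt_of_ne hn with h2 | h2
  · exact absurd h (one_lt_zpow_of_neg₀ h0 h1 h2).ne'
  · exact absurd h (zpow_lt_one₀ h0 h1 h2).ne

variable {k C K : Type*} [NontriviallyNormedField k] [CompleteSpace k] [IsUltrametricDist k]
    [NormedField C] [IsUltrametricDist C] [NormedAlgebra k C] [Algebra.IsAlgebraic k C]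
    [IsAlgClosed C] [hk : Fact (DiscNorm k)] [Field K] [Algebra C K] (S : SSK_332.SSK k C K)

/-- the outer end of a segment `(r1, 1)` without poles, `‖f‖` not larger at `r1` -/
theorem outer_gen (e : S.Ed) {f : K} (hf : f ≠ 0) {r1 : ℝ} (h0 : ‖S.cc e‖ ≤ r1) (h1 : r1 < 1)
    (hreg : ∀ τ i0 i1, r1 < ‖τ‖ → (S.ptA e τ i0 i1).v f ≤ 1)
    (hle : nrmR S e r1 f ≤ nrmR S e 1 f) :
    0 < EE809.od (S.em (S.e0 e) f) ∨
      (EE809.od (S.em (S.e0 e) f) = 0 ∧ nrmR S e r1 f = nrmR S e 1 f) := by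
  obtain ⟨ρ', h2, h3, h4⟩ := nrmR_near_one S hk.out e hf
  obtain ⟨t, h5, h6⟩ := exists_between (max_lt h1 h3)
  have h7 : r1 < t := (le_max_left _ _).trans_lt h5
  have h8 : ρ' ≤ t := (le_max_right _ _).trans h5.le
  have ht : 0 < t := (cc_pos S e).trans_le (h0.trans h7.le)
  have hone := nrmR_one S hk.out e f
  have hpos : 0 < nrmR S e 1 f := nrmR_pos S e (S.cc_lt e).le le_rfl hf
  have h9 := h4 t h8 h6.le
  rw [← hone] at h9
  rcases seg S hk.out e hf h0 h7 h6 le_rfl (fun τ i0 i1 a _ => hreg τ i0 i1 a) with h | ⟨h, h', -⟩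
  · left
    rw [max_eq_right hle, h9] at h
    exact zpow_lt_one_pos ht h6 (by
      by_contra hcon
      rw [not_lt] at hcon
      exact absurd h (not_lt.2 (le_mul_of_one_le_right hpos.le hcon)))
  · right
    rw [h9] at h'
    refine ⟨zpow_eq_one_zero ht h6 ?_, ?_⟩
    · exact (mul_eq_left₀ hpos.ne').1 h'.symm
    · rw [h, h9]; exact h'.symm

/-- the inner end -/
theorem inner_gen (e : S.Ed) {f : K} (hf : f ≠ 0) {r2 : ℝ} (h0 : ‖S.cc e‖ < r2) (h1 : r2 ≤ 1)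
    (hreg : ∀ τ i0 i1, ‖τ‖ < r2 → (S.ptA e τ i0 i1).v f ≤ 1)
    (hle : nrmR S e r2 f ≤ nrmR S e ‖S.cc e‖ f) :
    0 < EE809.od (S.em (S.e1 e) f) ∨
      (EE809.od (S.em (S.e1 e) f) = 0 ∧ nrmR S e r2 f = nrmR S e ‖S.cc e‖ f) := by
  obtain ⟨ρ', h2, h3, h4⟩ := nrmR_near_cc S hk.out e hf
  have hc := cc_pos S e
  obtain ⟨t, h5, h6⟩ := exists_between (lt_min h0 h2)
  have h7 : t < r2 := h6.trans_le (min_le_left _ _)
  have h8 : t ≤ ρ' := h6.le.trans (min_le_right _ _)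
  have ht : 0 < t := hc.trans h5
  have hone := nrmR_cc S hk.out e f
  have hpos : 0 < nrmR S e ‖S.cc e‖ f := nrmR_pos S e le_rfl (S.cc_lt e).le hf
  have h9 := h4 t h5.le h8
  rw [← hone] at h9
  have hq0 : 0 < ‖S.cc e‖ / t := by positivity
  have hq1 : ‖S.cc e‖ / t < 1 := (div_lt_one ht).2 h5
  rcases seg S hk.out e hf le_rfl h5 h7 h1 (fun τ i0 i1 _ a => hreg τ i0 i1 a) with h | ⟨h, h', -⟩
  · left
    rw [max_eq_left hle, h9] at h
    exact zpow_lt_one_pos hq0 hq1 (by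
      by_contra hcon
      rw [not_lt] at hcon
      exact absurd h (not_lt.2 (le_mul_of_one_le_right hpos.le hcon)))
  · right
    rw [h9] at h
    refine ⟨zpow_eq_one_zero hq0 hq1 ?_, ?_⟩
    · exact (mul_eq_left₀ hpos.ne').1 h.symm
    · rw [h', h9]; exact h.symm

section Max

variable {S} {e : S.Ed} {r0 : ℝ} (h0 : ‖S.cc e‖ < r0) (h1 : r0 < 1) {f : K} (hf : f ≠ 0)
  (regD : ∀ d (hd : S.IsDisc d) τ hτ, (S.ptD d hd.1 hd.2 τ hτ).v f ≤ 1)
  (regA : ∀ a τ i0 i1, (a = e → ‖τ‖ ≠ r0) → (S.ptA a τ i0 i1).v f ≤ 1)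





end Max

omit [CompleteSpace k] [IsUltrametricDist k] [Algebra.IsAlgebraic k C] hk [IsUltrametricDist C] in
/-- the norms of an algebraically closed field are dense -/
theorem exists_norm_between (k : Type*) [NontriviallyNormedField k] {C : Type*} [NormedField C]
    [NormedAlgebra k C] [IsAlgClosed C] {a b : ℝ} (ha : 0 < a) (hab : a < b) :
    ∃ c : C, a < ‖c‖ ∧ ‖c‖ < b := by
  obtain ⟨x, hx⟩ := NormedField.exists_one_lt_norm k
  have hx' : 1 < ‖algebraMap k C x‖ := by rwa [norm_algebraMap']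
  have hb : 0 < b := ha.trans hab
  have hba : 1 < b / a := (one_lt_div ha).2 hab
  obtain ⟨n, hn⟩ := pow_unbounded_of_one_lt ‖algebraMap k C x‖ hba
  have hn0 : 0 < n := by
    rcases Nat.eq_zero_or_pos n with rfl | h
    · rw [pow_zero] at hn; exact absurd hn (not_lt.2 hx'.le)
    · exact h
  obtain ⟨z, hz⟩ := IsAlgClosed.exists_pow_nat_eq (algebraMap k C x) hn0
  have hz1 : ‖z‖ ^ n = ‖algebraMap k C x‖ := by rw [← norm_pow, hz]
  have h1 : 1 < ‖z‖ := by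
    by_contra h
    rw [not_lt] at h
    have := pow_le_one₀ (n := n) (norm_nonneg z) h
    rw [hz1] at this
    exact absurd hx' (not_lt.2 this)
  have h2 : ‖z‖ < b / a := lt_of_pow_lt_pow_left₀ n (div_pos hb ha).le (by rw [hz1]; exact hn)
  obtain ⟨m, hm1, hm2⟩ := exists_mem_Ioc_zpow hb h1
  refine ⟨z ^ m, ?_, by rw [norm_zpow]; exact hm1⟩
  rw [norm_zpow]
  have hz0 : 0 < ‖z‖ := one_pos.trans h1
  have h3 : b ≤ ‖z‖ ^ m * ‖z‖ := by rwa [← zpow_add_one₀ hz0.ne']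
  have h4 : ‖z‖ ^ m * ‖z‖ < ‖z‖ ^ m * (b / a) := mul_lt_mul_of_pos_left h2 (zpow_pos hz0 _)
  have h5 : b < ‖z‖ ^ m * (b / a) := h3.trans_lt h4
  have h6 : b * a < ‖z‖ ^ m * b := by
    have := mul_lt_mul_of_pos_right h5 ha
    rwa [mul_assoc, div_mul_cancel₀ _ ha.ne'] at this
  rw [mul_comm] at h6
  exact lt_of_mul_lt_mul_right h6 hb.le

section Distinct

variable [Algebra (RatFunc C) K] [IsScalarTower C (RatFunc C) K]
    [FiniteDimensional (RatFunc C) K] [Algebra.IsSeparable (RatFunc C) K]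

omit [NontriviallyNormedField k] [CompleteSpace k] [IsUltrametricDist k] [NormedField C]
  [IsUltrametricDist C] [NormedAlgebra k C] [Algebra.IsAlgebraic k C] [IsAlgClosed C] hk [Algebra C K]
  [Algebra (RatFunc C) K] [IsScalarTower C (RatFunc C) K] [FiniteDimensional (RatFunc C) K]
  [Algebra.IsSeparable (RatFunc C) K] in
/-- a function with its only pole at `P1` and a zero at `P2` -/
theorem exists_fun {C K : Type*} [Field C] [IsAlgClosed C] [Field K] [Algebra C K]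
    [Algebra (RatFunc C) K] [IsScalarTower C (RatFunc C) K]
    [FiniteDimensional (RatFunc C) K] [Algebra.IsSeparable (RatFunc C) K]
    (P1 P2 : Pl C K) (h12 : P2 ≠ P1) :
    ∃ f : K, f ≠ 0 ∧ (∀ Q, Q ≠ P1 → Q.v f ≤ 1) ∧ P2.v f < 1 := by
  have hbot : algebraicClosure C K = ⊥ := by
    rw [eq_bot_iff]
    intro x hx
    rw [mem_algebraicClosure_iff] at hx
    have hmon := minpoly.monic hx.isIntegral
    have hirr := minpoly.irreducible hx.isIntegral
    have hdeg := IsAlgClosed.degree_eq_one_of_irreducible C hirr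
    obtain ⟨y, hy⟩ := minpoly.mem_range_of_degree_eq_one C x hdeg
    exact IntermediateField.mem_bot.2 ⟨y, hy⟩
  obtain ⟨n, hn1, hn2⟩ : ∃ n : ℕ, 1 ≤ n ∧ 2 * (gen C K : ℤ) - 2 < (n - 1) * degP P1 := by
    refine ⟨(2 * gen C K + 1 : ℕ), by omega, ?_⟩
    have h1 : (1 : ℤ) ≤ degP P1 := by exact_mod_cast degP_pos P1
    have h2 : (0 : ℤ) ≤ gen C K := by positivity
    push_cast
    nlinarith
  obtain ⟨f, hf1, hf2⟩ := exists_pole_order hbot P1 n hn2 hn1
  obtain ⟨l, hl⟩ := CE1_280.exists_residue P2 (hf2 P2 h12)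
  have hconst : ∀ P : Pl C K, P.v (algebraMap C K l) ≤ 1 := by
    intro P
    by_cases h : l = 0
    · rw [h, map_zero, map_zero]; exact zero_le
    · exact (P.const l h).le
  refine ⟨f - algebraMap C K l, ?_, fun Q hQ => ?_, hl⟩
  · intro h
    have h1 : f = algebraMap C K l := sub_eq_zero.1 h
    have h2 := hconst P1
    rw [← h1, hf1, ← WithZero.exp_zero, WithZero.exp_le_exp] at h2
    omega
  · exact (Valuation.map_sub _ _ _).trans (max_le (hf2 Q hQ) (hconst _))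

variable (hconn : S.Conn) (e : S.Ed) {ρ₀ : C} (h0 : ‖S.cc e‖ < ‖ρ₀‖) (h1 : ‖ρ₀‖ < 1)

include hconn h0 h1



end Distinct

end Crest.Agent.R013.Nrm_671
end

-- ▼ part R013/NB10_102
section

/-!
# Row 13, C-NB, part 10: the norms of the annuli are different from the vertex norms

`max_disc` : a function whose only poles are in one open disc `d` is maximal at the vertex of `d`.
`nrm_ne_nm` : for every real radius `‖cc e‖ < r < 1` the norm `nrm e r` is different from `nm v`.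
(Nrm4_671's `ne_vertex` is for radii in the value group of `C`.)
-/

set_option autoImplicit false
set_option linter.unusedSectionVars false

namespace Crest.Agent.R013.NB_102

open Filter Topology
open scoped NNReal
open WithZero (exp)
open Crest.Agent.R013.Cell_408 Crest.Agent.R013.EE809 Crest.Agent.R013.Nrm_671
open Crest.Agent.R013.RR7_948 Crest.Agent.R013.RR8_948 Crest.Agent.R013.RR9_948
open Crest.Agent.R013.RR11_948 Crest.Agent.R013.RR12_948

variable {k C K : Type*} [NontriviallyNormedField k] [CompleteSpace k] [IsUltrametricDist k]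
    [NormedField C] [IsUltrametricDist C] [NormedAlgebra k C] [Algebra.IsAlgebraic k C]
    [IsAlgClosed C] [hk : Fact (DiscNorm k)] [Field K] [Algebra C K] (S : SSK_332.SSK k C K)

section

variable {S} {f : K} (hf : f ≠ 0) {d0 : S.Dir}
  (regD : ∀ d (hd : S.IsDisc d), d ≠ d0 → ∀ τ hτ, (S.ptD d hd.1 hd.2 τ hτ).v f ≤ 1)
  (regA : ∀ a τ i0 i1, (S.ptA a τ i0 i1).v f ≤ 1)

include hf regA in
theorem outer_full {M : ℝ} (hmax : ∀ w, ((S.nm w).v f : ℝ) ≤ M) (a : S.Ed)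
    (ha : ((S.nm (S.e0 a).1).v f : ℝ) = M) :
    0 < EE809.od (S.em (S.e0 a) f) ∨
      (EE809.od (S.em (S.e0 a) f) = 0 ∧ ((S.nm (S.e1 a).1).v f : ℝ) = M) := by
  have hone : nrmR S a 1 f = M := by rw [nrmR_one S hk.out]; exact ha
  have hcc : nrmR S a ‖S.cc a‖ f = (S.nm (S.e1 a).1).v f := nrmR_cc S hk.out a f
  rcases outer_gen S a hf le_rfl (S.cc_lt a) (fun τ i0 i1 _ => regA a τ i0 i1)
    (by rw [hone, hcc]; exact hmax _) with h | ⟨h, h'⟩
  · exact Or.inl h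
  · exact Or.inr ⟨h, by rw [← hcc, h', hone]⟩

include hf regA in
theorem inner_full {M : ℝ} (hmax : ∀ w, ((S.nm w).v f : ℝ) ≤ M) (a : S.Ed)
    (ha : ((S.nm (S.e1 a).1).v f : ℝ) = M) :
    0 < EE809.od (S.em (S.e1 a) f) ∨
      (EE809.od (S.em (S.e1 a) f) = 0 ∧ ((S.nm (S.e0 a).1).v f : ℝ) = M) := by
  have hcc : nrmR S a ‖S.cc a‖ f = M := by rw [nrmR_cc S hk.out]; exact ha
  have hone : nrmR S a 1 f = (S.nm (S.e0 a).1).v f := nrmR_one S hk.out a f
  rcases inner_gen S a hf (S.cc_lt a) le_rfl (fun τ i0 i1 _ => regA a τ i0 i1)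
    (by rw [hcc, hone]; exact hmax _) with h | ⟨h, h'⟩
  · exact Or.inl h
  · exact Or.inr ⟨h, by rw [← hone, h', hcc]⟩

include hf regD regA in
/-- all orders vanish at a maximal vertex which is not the vertex of `d0` -/
theorem vertex_full {M : ℝ} (hmax : ∀ w, ((S.nm w).v f : ℝ) ≤ M) (d : S.Dir)
    (hd0 : d.1 ≠ d0.1) (hv : ((S.nm d.1).v f : ℝ) = M) : EE809.od (S.em d f) = 0 := by
  have key : ∀ x, 0 ≤ Red332.od (S.nm d.1) x f := by
    intro x
    have hodx := S.em_od ⟨d.1, x⟩ f hf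
    rw [← hodx]
    by_cases i0 : ∃ a, (⟨d.1, x⟩ : S.Dir) = S.e0 a
    · obtain ⟨a, ha⟩ := i0
      rw [ha]
      rcases outer_full hf regA hmax a (by rw [← ha]; exact hv) with h | ⟨h, -⟩
      · exact h.le
      · exact h.ge
    by_cases i1 : ∃ a, (⟨d.1, x⟩ : S.Dir) = S.e1 a
    · obtain ⟨a, ha⟩ := i1
      rw [ha]
      rcases inner_full hf regA hmax a (by rw [← ha]; exact hv) with h | ⟨h, -⟩
      · exact h.le
      · exact h.ge
    push Not at i0 i1
    obtain ⟨b, hb⟩ := Conn_315.disc_regular S (d := ⟨d.1, x⟩) ⟨i0, i1⟩ (f := f)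
      (fun τ hτ => regD _ ⟨i0, i1⟩ (fun h => hd0 (by rw [← h])) τ hτ)
    rw [hb]
    refine Conn_315.od_ofBD_nonneg ?_
    rintro rfl
    rw [map_zero] at hb
    exact (map_ne_zero_iff _ (S.em _).injective).2 hf hb
  have h2 := Conn_315.kirchhoff (S.nm d.1) (S.ff d.1) hf key
  rw [S.em_od d f hf]
  exact h2 d.2

include hf regD regA in
/-- **maximum principle**: all poles of `f` in the disc `d0` -/
theorem max_disc (hconn : S.Conn) (v : S.V) : (S.nm v).v f ≤ (S.nm d0.1).v f := by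
  haveI := S.fV
  haveI := hconn.1
  obtain ⟨v', hv'⟩ := Finite.exists_max fun w : S.V => ((S.nm w).v f : ℝ)
  refine NNReal.coe_le_coe.1 ((hv' v).trans ?_)
  by_contra hcon
  rw [not_le] at hcon
  set M := ((S.nm v').v f : ℝ) with hMdef
  have hne : ∀ w, ((S.nm w).v f : ℝ) = M → w ≠ d0.1 := by
    rintro w hw rfl
    exact hcon.ne hw
  have step : ∀ w w', ((S.nm w).v f : ℝ) = M → S.Adj w w' → ((S.nm w').v f : ℝ) = M := by
    rintro w w' hw ⟨a, h | h⟩
    · obtain ⟨rfl, rfl⟩ := h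
      have h2 := vertex_full hf regD regA hv' (S.e0 a) (hne _ hw) hw
      rcases outer_full hf regA hv' a hw with h | ⟨-, h⟩
      · exact absurd h (by rw [h2]; exact lt_irrefl _)
      · exact h
    · obtain ⟨rfl, rfl⟩ := h
      have h2 := vertex_full hf regD regA hv' (S.e1 a) (hne _ hw) hw
      rcases inner_full hf regA hv' a hw with h | ⟨-, h⟩
      · exact absurd h (by rw [h2]; exact lt_irrefl _)
      · exact h
  have hreach : ∀ w, Relation.ReflTransGen S.Adj v' w → ((S.nm w).v f : ℝ) = M := by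
    intro w hw
    induction hw with
    | refl => rfl
    | tail _ h ih => exact step _ _ ih h
  exact hne _ (hreach _ (hconn.2 v' d0.1)) rfl

end

section Distinct

variable [Algebra (RatFunc C) K] [IsScalarTower C (RatFunc C) K]
    [FiniteDimensional (RatFunc C) K] [Algebra.IsSeparable (RatFunc C) K]

/-- **the norms inside an annulus are no vertices** (all real radii) -/
theorem nrmR_lt_nm (e : S.Ed) {r : ℝ} (h0 : ‖S.cc e‖ < r) (h1 : r < 1) (v : S.V) :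
    ∃ f : K, f ≠ 0 ∧ nrmR S e r f < ((S.nm v).v f : ℝ) := by
  obtain ⟨d, hd, rfl⟩ := Conn_315.exists_disc S v
  have h00 : ‖(0 : C)‖ < 1 := by rw [norm_zero]; exact one_pos
  obtain ⟨ρ, hρ0, hρ1⟩ := exists_norm_between k (C := C) (cc_pos S e) (S.cc_lt e)
  obtain ⟨f, hf, hreg, hz⟩ := exists_fun (S.ptD d hd.1 hd.2 0 h00) (S.ptA e ρ hρ0 hρ1)
    (S.ptDA _ _ _ _ _ _ _ _ _).symm
  have regD : ∀ d' (hd' : S.IsDisc d'), d' ≠ d → ∀ τ hτ,
      (S.ptD d' hd'.1 hd'.2 τ hτ).v f ≤ 1 := by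
    intro d' hd' hne τ hτ
    exact hreg _ fun h => hne (S.ptD_inj _ _ _ _ _ _ _ _ _ _ h).1
  have regA : ∀ a τ i0 i1, (S.ptA a τ i0 i1).v f ≤ 1 := fun a τ i0 i1 =>
    hreg _ (S.ptDA _ _ _ _ _ _ _ _ _).symm
  have hmax := max_disc hf regD regA S.conn
  refine ⟨f, hf, ?_⟩
  rcases seg S hk.out e hf le_rfl h0 h1 le_rfl (fun τ i0 i1 _ _ => regA e τ i0 i1) with h | h
  · refine h.trans_le (max_le ?_ ?_)
    · rw [nrmR_cc S hk.out]; exact NNReal.coe_le_coe.2 (hmax _)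
    · rw [nrmR_one S hk.out]; exact NNReal.coe_le_coe.2 (hmax _)
  · exact absurd (h.2.2 ρ hρ0 hρ1 hρ0 hρ1) hz.ne

/-- the norms inside an annulus are no vertices -/
theorem nrm_ne_nm (e : S.Ed) {r : ℝ} (h0 : ‖S.cc e‖ < r) (h1 : r < 1) (v : S.V) :
    nrm S e r h0.le h1.le ≠ (S.nm v).v := by
  intro h
  obtain ⟨f, -, hf⟩ := nrmR_lt_nm S e h0 h1 v
  rw [← nrm_coe S e r h0.le h1.le, h] at hf
  exact lt_irrefl _ hf

end Distinct

end Crest.Agent.R013.NB_102
end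

-- ▼ part R013/NB11_102
section

/-!
# Row 13, C-NB, part 11: a function with a pole and a zero at two ends of a vertex

`gauss_of_pole` : if `w y = 1` and the reduction of `y` has a pole, then `w` is the Gauss norm on
`C[y]`;  `exists_y` : for two places `x' ≠ x''` of the residue field there is `y` with `w y = 1`,
order `-1` at `x'` and order `1` at `x''`.
-/

set_option autoImplicit false
set_option linter.unusedSectionVars false

namespace Crest.Agent.R013.NB_102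

open Polynomial
open scoped NNReal
open WithZero (exp)
open Crest.Agent.R013.RR7_948 Crest.Agent.R013.Red332

section

variable {C K : Type*} [NormedField C] [IsUltrametricDist C] [Field K] [Algebra C K]

theorem red_sum (w : Nm C K) {ι : Type*} (s : Finset ι) (g : ι → K) (h : ∀ i ∈ s, w.v (g i) ≤ 1) :
    red w (∑ i ∈ s, g i) = ∑ i ∈ s, red w (g i) := by
  classical
  induction s using Finset.induction_on with
  | empty => rw [Finset.sum_empty, Finset.sum_empty, red_zero]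
  | insert a s ha ih =>
    have h1 : ∀ i ∈ s, w.v (g i) ≤ 1 := fun i hi => h i (Finset.mem_insert_of_mem hi)
    rw [Finset.sum_insert ha, Finset.sum_insert ha,
      red_add w (h a (Finset.mem_insert_self a s)) (Valuation.map_sum_le w.v h1), ih h1]

theorem pl_red_C_le {w : Nm C K} (x : Pl (Ct C) (kap w)) {c : C} (hc : ‖c‖₊ ≤ 1) :
    x.v (red w (algebraMap C K c)) ≤ 1 := by
  rw [red_C w c hc]
  by_cases h : rc c = 0
  · rw [h, map_zero, map_zero]; exact zero_le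
  · exact (x.const _ h).le

/-- **Gauss norm** -/
theorem gauss_of_pole (w : Nm C K) (x : Pl (Ct C) (kap w)) {y : K} (hy : w.v y = 1)
    (hx : 1 < x.v (red w y)) (f : C[X]) (i : ℕ) : ‖f.coeff i‖₊ ≤ w.v (aeval y f) := by
  classical
  by_cases hf : f = 0
  · rw [hf, coeff_zero, nnnorm_zero]; exact zero_le
  have hs : f.support.Nonempty := nonempty_support_iff.2 hf
  obtain ⟨j, hj, hjmax⟩ := Finset.exists_max_image f.support (fun i => ‖f.coeff i‖₊) hs
  set M : ℝ≥0 := ‖f.coeff j‖₊ with hM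
  set s1 : Finset ℕ := f.support.filter fun i => ‖f.coeff i‖₊ = M with hs1
  have hs1n : s1.Nonempty := ⟨j, Finset.mem_filter.2 ⟨hj, rfl⟩⟩
  set i0 := s1.max' hs1n with hi0
  have hi0m : i0 ∈ s1 := s1.max'_mem hs1n
  have hi0s : i0 ∈ f.support := (Finset.mem_filter.1 hi0m).1
  have hi0M : ‖f.coeff i0‖₊ = M := (Finset.mem_filter.1 hi0m).2
  set c : C := f.coeff i0 with hc
  have hc0 : c ≠ 0 := mem_support_iff.1 hi0s
  have hle : ∀ i, ‖f.coeff i‖₊ ≤ ‖c‖₊ := by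
    intro i
    rw [hi0M]
    by_cases h : i ∈ f.support
    · exact hjmax i h
    · rw [notMem_support_iff.1 h, nnnorm_zero]; exact zero_le
  have hlt : ∀ i, i0 < i → ‖f.coeff i‖₊ < ‖c‖₊ := by
    intro i hi
    refine lt_of_le_of_ne (hle i) fun h => ?_
    have hci : f.coeff i ≠ 0 := by
      intro h0
      rw [h0, nnnorm_zero] at h
      exact hc0 (nnnorm_eq_zero.1 h.symm)
    have : i ∈ s1 := Finset.mem_filter.2 ⟨mem_support_iff.2 hci, by rw [h, hi0M]⟩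
    exact absurd (s1.le_max' i this) (not_le.2 hi)
  have hcn : 0 < ‖c‖₊ := nnnorm_pos.2 hc0
  -- the normalised terms
  set g : ℕ → K := fun i => algebraMap C K (f.coeff i * c⁻¹) * y ^ i with hg
  have hgv : ∀ i, w.v (g i) = ‖f.coeff i‖₊ * ‖c‖₊⁻¹ := by
    intro i
    rw [hg]
    simp only
    rw [map_mul, map_pow, hy, one_pow, mul_one, w.hC, nnnorm_mul, nnnorm_inv]
  have hg1 : ∀ i, w.v (g i) ≤ 1 := by
    intro i
    rw [hgv i]
    exact mul_inv_le_one_of_le₀ (hle i) zero_le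
  have hcle : ∀ i, ‖f.coeff i * c⁻¹‖₊ ≤ 1 := by
    intro i
    rw [nnnorm_mul, nnnorm_inv]
    exact mul_inv_le_one_of_le₀ (hle i) zero_le
  have hred : ∀ i, x.v (red w (g i)) =
      x.v (red w (algebraMap C K (f.coeff i * c⁻¹))) * x.v (red w y) ^ i := by
    intro i
    rw [hg]
    simp only
    rw [red_mul w (by rw [w.hC]; exact hcle i) (by rw [map_pow, hy, one_pow]), map_mul,
      red_pow w hy.le, map_pow]
  have hi0v : x.v (red w (g i0)) = x.v (red w y) ^ i0 := by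
    rw [hred, mul_inv_cancel₀ hc0, map_one, red_one, map_one, one_mul]
  have hxy0 : 0 < x.v (red w y) := zero_lt_one.trans hx
  have hoth : ∀ i, i ≠ i0 → x.v (red w (g i)) < x.v (red w (g i0)) := by
    intro i hi
    rw [hi0v]
    rcases lt_or_gt_of_ne hi with h | h
    · rw [hred]
      calc x.v (red w (algebraMap C K (f.coeff i * c⁻¹))) * x.v (red w y) ^ i
          ≤ 1 * x.v (red w y) ^ i := mul_le_mul_left (pl_red_C_le x (hcle i)) _
        _ = x.v (red w y) ^ i := one_mul _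
        _ < x.v (red w y) ^ i0 := pow_lt_pow_right₀ hx h
    · have h2 : w.v (g i) < 1 := by
        rw [hgv i]
        exact (mul_inv_lt_iff₀ hcn).2 (by rw [one_mul]; exact hlt i h)
      rw [(red_eq_zero_iff w h2.le).2 h2, map_zero]
      exact pow_pos hxy0 _
  have hsum : aeval y f * (algebraMap C K c)⁻¹ = ∑ i ∈ Finset.range (f.natDegree + 1), g i := by
    rw [aeval_eq_sum_range, Finset.sum_mul]
    refine Finset.sum_congr rfl fun i _ => ?_
    rw [hg]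
    simp only
    rw [Algebra.smul_def, map_mul, map_inv₀]
    ring
  have hmem : i0 ∈ Finset.range (f.natDegree + 1) :=
    Finset.mem_range.2 (Nat.lt_succ_of_le (le_natDegree_of_mem_supp i0 hi0s))
  have hv1 : x.v (red w (aeval y f * (algebraMap C K c)⁻¹)) = x.v (red w (g i0)) := by
    rw [hsum, red_sum w _ _ fun i _ => hg1 i, ← Finset.add_sum_erase _ _ hmem]
    refine Valuation.map_add_eq_of_lt_left _ ?_
    refine Valuation.map_sum_lt' x.v (by rw [hi0v]; exact pow_pos hxy0 _) fun i hi => ?_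
    exact hoth i (Finset.ne_of_mem_erase hi)
  have hle1 : w.v (aeval y f * (algebraMap C K c)⁻¹) ≤ 1 := by
    rw [hsum]; exact Valuation.map_sum_le w.v fun i _ => hg1 i
  have hne : red w (aeval y f * (algebraMap C K c)⁻¹) ≠ 0 := by
    intro h
    rw [h, map_zero, hi0v] at hv1
    exact (pow_pos hxy0 i0).ne hv1
  have h1 : w.v (aeval y f * (algebraMap C K c)⁻¹) = 1 := (red_ne_zero_iff w hle1).1 hne
  rw [map_mul, map_inv₀, w.hC] at h1
  have h2 : w.v (aeval y f) = ‖c‖₊ := by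
    rwa [mul_inv_eq_one₀ hcn.ne'] at h1
  rw [h2]
  exact hle i

/-- a function with a pole at `x'` and a zero at `x''` -/
theorem exists_y (w : Nm C K)
    (hff : ∃ i : Algebra (RatFunc (Ct C)) (kap w),
      IsScalarTower (Ct C) (RatFunc (Ct C)) (kap w) ∧
      FiniteDimensional (RatFunc (Ct C)) (kap w) ∧
      Algebra.IsSeparable (RatFunc (Ct C)) (kap w))
    (x' x'' : Pl (Ct C) (kap w)) (hne : x' ≠ x'') :
    ∃ y : K, w.v y = 1 ∧ x'.v (red w y) = exp 1 ∧ od w x' y = -1 ∧ od w x'' y = 1 := by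
  classical
  obtain ⟨i, h1, h2, h3⟩ := hff
  obtain ⟨z, hz0, hz⟩ := Crest.Agent.R013.RR12_948.exists_prescribed (k := Ct C) {x', x''}
    (fun x => if x = x' then 1 else -1)
  obtain ⟨y, hy1, hyz⟩ := red_surj w z
  have hy : w.v y = 1 := (red_ne_zero_iff w hy1).1 (by rw [hyz]; exact hz0)
  have e1 : x'.v (red w y) = exp 1 := by
    rw [hyz, hz x' (by simp), if_pos rfl]
  have e2 : x''.v (red w y) = exp (-1) := by
    rw [hyz, hz x'' (by simp), if_neg hne.symm]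
  refine ⟨y, hy, e1, ?_, ?_⟩
  · rw [od_of_one x' hy, e1, WithZero.log_exp]
  · rw [od_of_one x'' hy, e2, WithZero.log_exp, neg_neg]

end

end Crest.Agent.R013.NB_102
end

-- ▼ part R013/NB12_102

/-!
# Row 13, C-NB, part 12: the loop of norms of an edge which is no bridge

`AdjOff S e₀` : adjacency of vertices through edges `≠ e₀`.  `exists_loopAt` : if the two ends of
`e₀` are joined in the graph without `e₀`, then there is a loop of norms at the vertex of the outer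
end of `e₀` (`LoopAt C y (nm v)` for some function `y`).
-/

set_option autoImplicit false
set_option linter.unusedSectionVars false
set_option linter.style.haveILetI false

namespace Crest.Agent.R013.NB_102

open Filter Topology unitInterval
open scoped NNReal
open WithZero (exp)
open Crest.Agent.R013.Cell_408 Crest.Agent.R013.EE809 Crest.Agent.R013.Nrm_671
open Crest.Agent.R013.RR7_948 Crest.Agent.R013.Red332

variable {k C K : Type*} [NontriviallyNormedField k] [CompleteSpace k] [IsUltrametricDist k]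
    [NormedField C] [IsUltrametricDist C] [NormedAlgebra k C] [Algebra.IsAlgebraic k C]
    [IsAlgClosed C] [hk : Fact (DiscNorm k)] [Field K] [Algebra C K] (S : SSK_332.SSK k C K)

/-- adjacency through the edges `≠ e₀` -/
def AdjOff (e₀ : S.Ed) (v w : S.V) : Prop :=
  ∃ e, e ≠ e₀ ∧ (((S.e0 e).1 = v ∧ (S.e1 e).1 = w) ∨ ((S.e1 e).1 = v ∧ (S.e0 e).1 = w))

/-- the norm of an annulus as a point of the space of norms -/
noncomputable def pt (e : S.Ed) (t : Set.Icc ‖S.cc e‖ 1) : NS K :=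
  NS.mk (nrm S e t.1 t.2.1 t.2.2)

theorem pt_coe (e : S.Ed) (t : Set.Icc ‖S.cc e‖ 1) (f : K) :
    (((pt S e t).v f : ℝ≥0) : ℝ) = nrmR S e t.1 f := rfl

theorem continuous_pt (e : S.Ed) : Continuous (pt S e) := by
  rw [NS.continuous_iff]
  intro f
  have h : Continuous fun t : Set.Icc ‖S.cc e‖ 1 => nrmR S e t.1 f :=
    (continuousOn_nrmR S e f).domRestrict
  exact continuous_induced_rng.2 h

theorem NK_pt (e : S.Ed) (t : Set.Icc ‖S.cc e‖ 1) : NK C (pt S e t).v := fun c =>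
  nrmR_C S e t.2.1 t.2.2 c

theorem NK_nm (v : S.V) : NK C (S.nm v).v := fun c => by
  rw [(S.nm v).hC]; rfl

/-- the path along an annulus -/
theorem exists_path (e : S.Ed) (a b : Set.Icc ‖S.cc e‖ 1) :
    ∃ γ : Path (pt S e a) (pt S e b), ∀ s : I, ∃ t : Set.Icc ‖S.cc e‖ 1,
      γ s = pt S e t ∧ t.1 = (1 - s.1) * a.1 + s.1 * b.1 := by
  have hmem : ∀ s : I, (1 - s.1) * a.1 + s.1 * b.1 ∈ Set.Icc ‖S.cc e‖ 1 := fun s =>
    (convex_Icc ‖S.cc e‖ 1) a.2 b.2 (by linarith [s.2.2]) s.2.1 (by ring)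
  refine ⟨{ toFun := fun s => pt S e ⟨(1 - s.1) * a.1 + s.1 * b.1, hmem s⟩,
            continuous_toFun := (continuous_pt S e).comp (by fun_prop),
            source' := ?_, target' := ?_ }, fun s => ⟨⟨_, hmem s⟩, rfl, rfl⟩⟩
  · congr 1
    apply Subtype.ext
    simp
  · congr 1
    apply Subtype.ext
    simp

theorem one_mem (e : S.Ed) : (1 : ℝ) ∈ Set.Icc ‖S.cc e‖ 1 := ⟨(S.cc_lt e).le, le_rfl⟩

theorem cc_mem (e : S.Ed) : ‖S.cc e‖ ∈ Set.Icc ‖S.cc e‖ 1 := ⟨le_rfl, (S.cc_lt e).le⟩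

theorem pt_one (e : S.Ed) : pt S e ⟨1, one_mem S e⟩ = NS.mk (S.nm (S.e0 e).1).v := by
  apply NS.v_inj
  ext f
  exact nrmR_one S hk.out e f

theorem pt_cc (e : S.Ed) : pt S e ⟨‖S.cc e‖, cc_mem S e⟩ = NS.mk (S.nm (S.e1 e).1).v := by
  apply NS.v_inj
  ext f
  exact nrmR_cc S hk.out e f

/-- **the germ of the path at an end** -/
theorem germ (d : S.Dir) (e : S.Ed) (hd : d = S.e0 e ∨ d = S.e1 e) {y : K}
    (hy : (S.nm d.1).v y = 1) {m : ℤ} (hm : Red332.od (S.nm d.1) d.2 y = m) :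
    ∃ t1 : Set.Icc ‖S.cc e‖ 1, ‖S.cc e‖ < t1.1 ∧ t1.1 < 1 ∧
      ∃ α : Path (NS.mk (S.nm d.1).v) (pt S e t1), ∀ s, NK C (α s).v ∧
        ∃ q : ℝ, 0 < q ∧ q ≤ 1 ∧ (s ≠ 0 → q < 1) ∧ (((α s).v y : ℝ≥0) : ℝ) = q ^ m := by
  have hy0 : y ≠ 0 := by
    rintro rfl
    rw [map_zero] at hy
    exact zero_ne_one hy
  have hcc := cc_pos S e
  rcases hd with rfl | rfl
  · obtain ⟨ρ', h1, h2, h3⟩ := nrmR_near_one S hk.out e hy0
    refine ⟨⟨ρ', h1.le, h2.le⟩, h1, h2, ?_⟩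
    obtain ⟨γ, hγ⟩ := exists_path S e ⟨1, one_mem S e⟩ ⟨ρ', h1.le, h2.le⟩
    refine ⟨γ.cast (pt_one S e).symm rfl, fun s => ?_⟩
    obtain ⟨t, ht1, ht2⟩ := hγ s
    rw [Path.cast_coe, ht1]
    refine ⟨NK_pt S e t, t.1, hcc.trans_le t.2.1, t.2.2, fun hs => ?_, ?_⟩
    · rw [ht2]
      have hs0 : 0 < s.1 := lt_of_le_of_ne s.2.1 fun h => hs (Subtype.ext h.symm)
      change (1 - s.1) * 1 + s.1 * ρ' < 1
      nlinarith
    · have hle : ρ' ≤ t.1 := by
        rw [ht2]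
        change ρ' ≤ (1 - s.1) * 1 + s.1 * ρ'
        nlinarith [s.2.1, s.2.2]
      rw [pt_coe, h3 t.1 hle t.2.2, hy, S.em_od _ _ hy0, hm]
      simp
  · obtain ⟨ρ', h1, h2, h3⟩ := nrmR_near_cc S hk.out e hy0
    refine ⟨⟨ρ', h1.le, h2.le⟩, h1, h2, ?_⟩
    obtain ⟨γ, hγ⟩ := exists_path S e ⟨‖S.cc e‖, cc_mem S e⟩ ⟨ρ', h1.le, h2.le⟩
    refine ⟨γ.cast (pt_cc S e).symm rfl, fun s => ?_⟩
    obtain ⟨t, ht1, ht2⟩ := hγ s
    have htp : 0 < t.1 := hcc.trans_le t.2.1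
    rw [Path.cast_coe, ht1]
    refine ⟨NK_pt S e t, ‖S.cc e‖ / t.1, div_pos hcc htp, (div_le_one htp).2 t.2.1,
      fun hs => ?_, ?_⟩
    · rw [div_lt_one htp, ht2]
      have hs0 : 0 < s.1 := lt_of_le_of_ne s.2.1 fun h => hs (Subtype.ext h.symm)
      change ‖S.cc e‖ < (1 - s.1) * ‖S.cc e‖ + s.1 * ρ'
      nlinarith
    · have hle : t.1 ≤ ρ' := by
        rw [ht2]
        change (1 - s.1) * ‖S.cc e‖ + s.1 * ρ' ≤ ρ'
        nlinarith [s.2.1, s.2.2]
      rw [pt_coe, h3 t.1 t.2.1 hle, hy, S.em_od _ _ hy0, hm]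
      simp

section Loop

variable [Algebra (RatFunc C) K] [IsScalarTower C (RatFunc C) K]
    [FiniteDimensional (RatFunc C) K] [Algebra.IsSeparable (RatFunc C) K]

/-- the norms different from `nm v` -/
def Gd (v : S.V) : Set (NS K) := {w | NK C w.v ∧ w.v ≠ (S.nm v).v}

theorem pt_mem_Gd (v : S.V) (e : S.Ed) (t : Set.Icc ‖S.cc e‖ 1) (h0 : ‖S.cc e‖ < t.1)
    (h1 : t.1 < 1) : pt S e t ∈ Gd S v :=
  ⟨NK_pt S e t, nrm_ne_nm S e h0 h1 v⟩

theorem nm_mem_Gd {v w : S.V} (h : w ≠ v) : NS.mk (S.nm w).v ∈ Gd S v :=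
  ⟨NK_nm S w, fun h' => h (S.nm_inj (Nm.ext' fun f => by
    have := congrArg (fun z : Valuation K ℝ≥0 => z f) h'
    exact this))⟩

/-- joined inside an annulus -/
theorem joined_inside (v : S.V) (e : S.Ed) (a b : Set.Icc ‖S.cc e‖ 1) (ha0 : ‖S.cc e‖ < a.1)
    (ha1 : a.1 < 1) (hb0 : ‖S.cc e‖ < b.1) (hb1 : b.1 < 1) :
    JoinedIn (Gd S v) (pt S e a) (pt S e b) := by
  obtain ⟨γ, hγ⟩ := exists_path S e a b
  refine ⟨γ, fun s => ?_⟩
  obtain ⟨t, ht1, ht2⟩ := hγ s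
  rw [ht1]
  have hm := (convex_Ioo ‖S.cc e‖ 1) (x := a.1) ⟨ha0, ha1⟩ (y := b.1) ⟨hb0, hb1⟩
    (a := 1 - s.1) (b := s.1) (by linarith [s.2.2]) s.2.1 (by ring)
  have hm' : t.1 ∈ Set.Ioo ‖S.cc e‖ 1 := by
    rw [ht2]; exact hm
  exact pt_mem_Gd S v e t hm'.1 hm'.2

/-- joined to an end vertex -/
theorem joined_end (v : S.V) (e : S.Ed) (d : S.Dir) (hd : d = S.e0 e ∨ d = S.e1 e)
    (hne : d.1 ≠ v) (b : Set.Icc ‖S.cc e‖ 1) (hb0 : ‖S.cc e‖ < b.1) (hb1 : b.1 < 1) :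
    JoinedIn (Gd S v) (NS.mk (S.nm d.1).v) (pt S e b) := by
  rcases hd with rfl | rfl
  · obtain ⟨γ, hγ⟩ := exists_path S e ⟨1, one_mem S e⟩ b
    refine ⟨γ.cast (pt_one S e).symm rfl, fun s => ?_⟩
    rw [Path.cast_coe]
    rcases eq_or_ne s 0 with rfl | hs
    · rw [γ.source, pt_one]; exact nm_mem_Gd S hne
    obtain ⟨t, ht1, ht2⟩ := hγ s
    rw [ht1]
    have hs0 : 0 < s.1 := lt_of_le_of_ne s.2.1 fun h => hs (Subtype.ext h.symm)
    have h1 : t.1 < 1 := by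
      rw [ht2]
      change (1 - s.1) * 1 + s.1 * b.1 < 1
      nlinarith
    have h0 : ‖S.cc e‖ < t.1 := by
      rw [ht2]
      change ‖S.cc e‖ < (1 - s.1) * 1 + s.1 * b.1
      nlinarith [s.2.2]
    exact pt_mem_Gd S v e t h0 h1
  · obtain ⟨γ, hγ⟩ := exists_path S e ⟨‖S.cc e‖, cc_mem S e⟩ b
    refine ⟨γ.cast (pt_cc S e).symm rfl, fun s => ?_⟩
    rw [Path.cast_coe]
    rcases eq_or_ne s 0 with rfl | hs
    · rw [γ.source, pt_cc]; exact nm_mem_Gd S hne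
    obtain ⟨t, ht1, ht2⟩ := hγ s
    rw [ht1]
    have hs0 : 0 < s.1 := lt_of_le_of_ne s.2.1 fun h => hs (Subtype.ext h.symm)
    have h0 : ‖S.cc e‖ < t.1 := by
      rw [ht2]
      change ‖S.cc e‖ < (1 - s.1) * ‖S.cc e‖ + s.1 * b.1
      nlinarith
    have h1 : t.1 < 1 := by
      rw [ht2]
      change (1 - s.1) * ‖S.cc e‖ + s.1 * b.1 < 1
      nlinarith [s.2.2, S.cc_lt e]
    exact pt_mem_Gd S v e t h0 h1

/-- joined neighbours -/
theorem joined_adj (v : S.V) (e : S.Ed) (a b : S.V) (ha : a ≠ v) (hb : b ≠ v)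
    (h : ((S.e0 e).1 = a ∧ (S.e1 e).1 = b) ∨ ((S.e1 e).1 = a ∧ (S.e0 e).1 = b)) :
    JoinedIn (Gd S v) (NS.mk (S.nm a).v) (NS.mk (S.nm b).v) := by
  obtain ⟨t, ht0, ht1⟩ := exists_between (S.cc_lt e)
  rcases h with ⟨rfl, rfl⟩ | ⟨rfl, rfl⟩
  · exact (joined_end S v e _ (Or.inl rfl) ha ⟨t, ht0.le, ht1.le⟩ ht0 ht1).trans
      (joined_end S v e _ (Or.inr rfl) hb ⟨t, ht0.le, ht1.le⟩ ht0 ht1).symm
  · exact (joined_end S v e _ (Or.inr rfl) ha ⟨t, ht0.le, ht1.le⟩ ht0 ht1).trans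
      (joined_end S v e _ (Or.inl rfl) hb ⟨t, ht0.le, ht1.le⟩ ht0 ht1).symm

/-- the first return to `v` -/
theorem first_return {V : Type*} {R : V → V → Prop} {u v : V} (h : Relation.ReflTransGen R u v)
    (hne : u ≠ v) :
    ∃ u'', Relation.ReflTransGen (fun a b => R a b ∧ a ≠ v ∧ b ≠ v) u u'' ∧ u'' ≠ v ∧ R u'' v := by
  induction h using Relation.ReflTransGen.head_induction_on with
  | refl => exact absurd rfl hne
  | head hac hcb ih =>
    rename_i a c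
    by_cases hc : c = v
    · subst hc
      exact ⟨a, .refl, hne, hac⟩
    · obtain ⟨u'', h1, h2, h3⟩ := ih hc
      exact ⟨u'', Relation.ReflTransGen.head ⟨hac, hne, hc⟩ h1, h2, h3⟩

/-- **THE LOOP OF NORMS of an edge which is no bridge.** -/
theorem exists_loopAt (e₀ : S.Ed)
    (hloop : Relation.ReflTransGen (AdjOff S e₀) (S.e1 e₀).1 (S.e0 e₀).1) :
    ∃ y : K, LoopAt C y (S.nm (S.e0 e₀).1).v := by
  classical
  set v := (S.e0 e₀).1 with hv
  -- the other direction at `v`, with its annulus, and the path to it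
  obtain ⟨e'', d'', hd'', hd''v, hd''ne, hjoin⟩ : ∃ (e'' : S.Ed) (d'' : S.Dir),
      (d'' = S.e0 e'' ∨ d'' = S.e1 e'') ∧ d''.1 = v ∧ d'' ≠ S.e0 e₀ ∧
      ∀ (a : Set.Icc ‖S.cc e₀‖ 1) (b : Set.Icc ‖S.cc e''‖ 1), ‖S.cc e₀‖ < a.1 → a.1 < 1 →
        ‖S.cc e''‖ < b.1 → b.1 < 1 → JoinedIn (Gd S v) (pt S e₀ a) (pt S e'' b) := by
    have hinj := S.ends_inj
    by_cases huv : (S.e1 e₀).1 = v
    · refine ⟨e₀, S.e1 e₀, Or.inr rfl, huv, fun h => ?_, fun a b ha0 ha1 hb0 hb1 =>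
        joined_inside S v e₀ a b ha0 ha1 hb0 hb1⟩
      have : (Sum.inr e₀ : S.Ed ⊕ S.Ed) = Sum.inl e₀ := hinj (by simpa using h)
      exact absurd this (by simp)
    · obtain ⟨u'', h1, h2, e'', hne, h3⟩ := first_return hloop huv
      have hchain : JoinedIn (Gd S v) (NS.mk (S.nm (S.e1 e₀).1).v) (NS.mk (S.nm u'').v) := by
        clear h3 h2
        induction h1 with
        | refl => exact JoinedIn.refl (nm_mem_Gd S huv)
        | tail _ h ih =>
          obtain ⟨⟨e, -, he⟩, ha, hb⟩ := h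
          exact ih.trans (joined_adj S v e _ _ ha hb he)
      rcases h3 with ⟨h3, h4⟩ | ⟨h3, h4⟩
      · refine ⟨e'', S.e1 e'', Or.inr rfl, h4, fun h => ?_, fun a b ha0 ha1 hb0 hb1 => ?_⟩
        · have : (Sum.inr e'' : S.Ed ⊕ S.Ed) = Sum.inl e₀ := hinj (by simpa using h)
          exact absurd this (by simp)
        · refine ((joined_end S v e₀ _ (Or.inr rfl) huv a ha0 ha1).symm.trans hchain).trans ?_
          rw [← h3]
          exact joined_end S v e'' _ (Or.inl rfl) (by rw [h3]; exact h2) b hb0 hb1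
      · refine ⟨e'', S.e0 e'', Or.inl rfl, h4, fun h => ?_, fun a b ha0 ha1 hb0 hb1 => ?_⟩
        · have : (Sum.inl e'' : S.Ed ⊕ S.Ed) = Sum.inl e₀ := hinj (by simpa using h)
          exact hne (by simpa using this)
        · refine ((joined_end S v e₀ _ (Or.inr rfl) huv a ha0 ha1).symm.trans hchain).trans ?_
          rw [← h3]
          exact joined_end S v e'' _ (Or.inr rfl) (by rw [h3]; exact h2) b hb0 hb1
  obtain ⟨v'', x''⟩ := d''
  have hd''v' : v'' = v := hd''v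
  subst hd''v'
  -- the function
  have hx : (S.e0 e₀).2 ≠ x'' := by
    intro h
    apply hd''ne
    rw [← h]
  obtain ⟨y, hy1, hyx, hy2, hy3⟩ := exists_y (S.nm (S.e0 e₀).1) (S.ff _) (S.e0 e₀).2 x'' hx
  obtain ⟨a, ha0, ha1, α, hα⟩ := germ S (S.e0 e₀) e₀ (Or.inl rfl) hy1 hy2
  obtain ⟨b, hb0, hb1, β, hβ⟩ := germ S ⟨(S.e0 e₀).1, x''⟩ e'' hd'' hy1 hy3
  obtain ⟨γ, hγ⟩ := hjoin a b ha0 ha1 hb0 hb1
  refine ⟨y, NK_nm S _, hy1.le, fun f i => ?_, pt S e₀ a, pt S e'' b,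
    ⟨α, fun s => ⟨(hα s).1, ?_⟩⟩, ⟨β, fun s => ⟨(hβ s).1, fun hs => ?_⟩⟩, ⟨γ, fun s => hγ s⟩⟩
  · have h1 : 1 < (S.e0 e₀).2.v (red (S.nm (S.e0 e₀).1) y) := by
      rw [hyx, ← WithZero.exp_zero, WithZero.exp_lt_exp]; exact one_pos
    exact gauss_of_pole _ _ hy1 h1 f i
  · obtain ⟨q, hq0, hq1, -, hq⟩ := (hα s).2
    have : (1 : ℝ) ≤ (((α s).v y : ℝ≥0) : ℝ) := by
      rw [hq, zpow_neg, zpow_one]
      exact (one_le_inv₀ hq0).2 hq1
    exact_mod_cast this
  · obtain ⟨q, hq0, -, hq1, hq⟩ := (hβ s).2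
    have : (((β s).v y : ℝ≥0) : ℝ) < 1 := by
      rw [hq, zpow_one]
      exact hq1 hs
    exact_mod_cast this

end Loop

end Crest.Agent.R013.NB_102
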