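import Crest.Agent.R013.CutCov1_92
import Crest.Agent.R013.Gl8_946
import Crest.Agent.R013.A2a_275
import Crest.Agent.R013.CutCov2_92

-- ▼ part R013/NB1_102
section

/-!
# Row 13, C-NB, part 1: values of elements of `U ⊗ R` at norms of `U`

`E` a normed field, `S0 ⊆ F0 ⊆ E` (`F0` a field, quotients of elements of `S0`), `R` = quotients of
elements of the closure of `S0` by elements of `S0`; `V = E ⊗_{F0} U` is given by an `E`-basis `b`
whose `F0`-span is the range of `j : U →+* V`, and `VS` = elements with coordinates in `R`.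
For `κ : U → Ω` with `‖κ s‖ ≤ ‖s‖` on `S0`, `Ω` complete ultrametric, there is an evaluation
`Φ : VS →+* Ω`, and elements of `VS` are approximated by fractions `u / d` of `U`, uniformly in `κ`.
-/

set_option autoImplicit false

noncomputable section

namespace Crest.Agent.R013.NB_102

open Module Filter Topology
open Crest.Agent.R013.Gl946 Crest.Agent.R013.A2a_275
open scoped NNReal

/-- Extension of a norm-nonincreasing ring homomorphism to the closure of a subring, with the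
bound. -/
theorem ext_closure_bd {E : Type*} [NormedField E] (S0 : Subring E) {Ω : Type*} [NormedField Ω]
    [CompleteSpace Ω] (ψ : S0 →+* Ω) (hψ : ∀ s, ‖ψ s‖ ≤ ‖(s : E)‖) :
    ∃ Ψ : S0.topologicalClosure →+* Ω,
      (∀ s (hs : s ∈ S0), Ψ ⟨s, S0.le_topologicalClosure hs⟩ = ψ ⟨s, hs⟩) ∧
        ∀ a, ‖Ψ a‖ ≤ ‖(a : E)‖ := by
  set i : S0 →+* S0.topologicalClosure := Subring.inclusion S0.le_topologicalClosure with hi
  have hui : IsUniformInducing i := by
    have h1 : IsUniformInducing (fun x : S0.topologicalClosure => (x : E)) :=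
      isUniformInducing_val _
    have h2 : IsUniformInducing (fun x : S0 => (x : E)) := isUniformInducing_val _
    exact h1.of_comp_iff.1 h2
  have hdr : DenseRange i := by
    intro x
    rw [Metric.mem_closure_iff]
    intro ε hε
    obtain ⟨s, hs, hxs⟩ := Metric.mem_closure_iff.1 (show (x : E) ∈ closure (S0 : Set E) from x.2)
      ε hε
    exact ⟨i ⟨s, hs⟩, ⟨⟨s, hs⟩, rfl⟩, hxs⟩
  have huc : UniformContinuous ψ := by
    refine AddMonoidHomClass.uniformContinuous_of_bound ψ 1 fun s => ?_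
    rw [one_mul]; exact hψ s
  have hex : ∀ s : S0, IsDenseInducing.extendRingHom hui hdr huc (i s) = ψ s := fun s =>
    (hui.isDenseInducing hdr).extend_eq huc.continuous s
  refine ⟨IsDenseInducing.extendRingHom hui hdr huc, ?_, ?_⟩
  · intro s hs
    exact hex ⟨s, hs⟩
  · intro a
    have hcont : Continuous (IsDenseInducing.extendRingHom hui hdr huc) :=
      uniformContinuous_uniformly_extend hui hdr huc |>.continuous
    have hcl : IsClosed {a : S0.topologicalClosure |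
        ‖IsDenseInducing.extendRingHom hui hdr huc a‖ ≤ ‖(a : E)‖} :=
      isClosed_le hcont.norm continuous_subtype_val.norm
    refine hcl.closure_subset_iff.2 ?_ (hdr a)
    rintro _ ⟨s, rfl⟩
    change ‖IsDenseInducing.extendRingHom hui hdr huc (i s)‖ ≤ ‖(s : E)‖
    rw [hex s]; exact hψ s

section Setup

variable {E V U ι : Type*} [NormedField E] [CommRing V] [Algebra E V] [Field U]

/-- The data of `V = E ⊗_{F0} U`, `S0 ⊆ F0`, `R`, `VS`. -/
structure Dat (E V U : Type*) [NormedField E] [CommRing V] [Algebra E V] [Field U]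
    (ι : Type*) [Fintype ι] where
  b : Basis ι E V
  F0 : Subfield E
  j : U →+* V
  hj : ∀ v, v ∈ j.range ↔ v ∈ cs b F0.toSubring

variable [Fintype ι] (X : Dat E V U ι)

/-- A subring `S0` of `F0` with its "meromorphic completion" `R`. -/
structure Reg (F0 : Subfield E) where
  S0 : Subring E
  le : S0 ≤ F0.toSubring
  fr : ∀ z ∈ F0, ∃ a ∈ S0, ∃ d ∈ S0, d ≠ 0 ∧ z = a / d
  R : Subring E
  hR : ∀ z, z ∈ R ↔ ∃ a ∈ S0.topologicalClosure, ∃ d ∈ S0, d ≠ 0 ∧ z = a / d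

namespace Reg

variable {F0 : Subfield E} (Q : Reg F0)

theorem cl_le : Q.S0.topologicalClosure ≤ Q.R := fun a ha =>
  (Q.hR a).2 ⟨a, ha, 1, one_mem _, one_ne_zero, by simp⟩

theorem F0_le : F0.toSubring ≤ Q.R := fun z hz => by
  obtain ⟨a, ha, d, hd, hd0, e⟩ := Q.fr z hz
  exact (Q.hR z).2 ⟨a, Q.S0.le_topologicalClosure ha, d, hd, hd0, e⟩

/-- common denominators -/
theorem common {ι : Type*} (s : Finset ι) (f : ι → E) (hf : ∀ i ∈ s, f i ∈ Q.R) :
    ∃ d ∈ Q.S0, d ≠ 0 ∧ ∀ i ∈ s, d * f i ∈ Q.S0.topologicalClosure := by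
  classical
  induction s using Finset.induction_on with
  | empty => exact ⟨1, one_mem _, one_ne_zero, by simp⟩
  | insert i s hi ih =>
    obtain ⟨d, hd, hd0, h⟩ := ih fun i' hi' => hf i' (Finset.mem_insert_of_mem hi')
    obtain ⟨a, ha, d', hd', hd0', e⟩ := (Q.hR (f i)).1 (hf i (Finset.mem_insert_self i s))
    refine ⟨d * d', mul_mem hd hd', mul_ne_zero hd0 hd0', ?_⟩
    intro i' hi'
    rcases Finset.mem_insert.1 hi' with rfl | hi'
    · have : d * d' * f i' = d * a := by rw [e]; field_simp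
      rw [this]
      exact mul_mem (Q.S0.le_topologicalClosure hd) ha
    · have : d * d' * f i' = d' * (d * f i') := by ring
      rw [this]
      exact mul_mem (Q.S0.le_topologicalClosure hd') (h i' hi')

end Reg

namespace Dat

/-- `U ⊗ R` -/
def VR (R : Subring E) (hR : X.F0.toSubring ≤ R) : Subring V :=
  csRing X.b X.F0.toSubring R hR X.j.range X.hj


theorem j_mem (R : Subring E) (hR : X.F0.toSubring ≤ R) (u : U) : X.j u ∈ X.VR R hR :=
  cs_mono X.b hR ((X.hj _).1 ⟨u, rfl⟩)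

theorem alg_mem_cs (S : Subring E) (h0 : X.F0.toSubring ≤ S) {z : E} (hz : z ∈ S) :
    algebraMap E V z ∈ cs X.b S := by
  have h1 : (1 : V) ∈ cs X.b S := cs_mono X.b h0 ((X.hj 1).1 ⟨1, map_one _⟩)
  rw [Algebra.algebraMap_eq_smul_one]
  exact smul_mem_cs X.b S hz h1

theorem alg_mem (R : Subring E) (hR : X.F0.toSubring ≤ R) {z : E} (hz : z ∈ R) :
    algebraMap E V z ∈ X.VR R hR := X.alg_mem_cs R hR hz

theorem exists_F0 {z : E} (hz : z ∈ X.F0) : ∃ u : U, X.j u = algebraMap E V z :=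
  (X.hj _).2 (X.alg_mem_cs _ le_rfl hz)

theorem exists_b (i : ι) : ∃ u : U, X.j u = X.b i :=
  (X.hj _).2 (basis_mem_cs X.b _ i)

end Dat

/-- `Φ` is the evaluation at `κ`. -/
structure IsEv {X : Dat E V U ι} (Q : Reg X.F0) {Ω : Type*} [NormedField Ω] (κ : U →+* Ω)
    (Φ : X.VR Q.R Q.F0_le →+* Ω) : Prop where
  eq : ∀ u, Φ ⟨X.j u, X.j_mem Q.R Q.F0_le u⟩ = κ u
  bd : ∀ a (ha : a ∈ Q.S0.topologicalClosure),
    ‖Φ ⟨algebraMap E V a, X.alg_mem Q.R Q.F0_le (Q.cl_le ha)⟩‖ ≤ ‖a‖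

/-- The bound which makes the evaluation exist. -/
def Bd {X : Dat E V U ι} (Q : Reg X.F0) {Ω : Type*} [NormedField Ω] (κ : U →+* Ω) : Prop :=
  ∀ s ∈ Q.S0, ∀ u : U, X.j u = algebraMap E V s → ‖κ u‖ ≤ ‖s‖

variable {X}


/-- **Existence of the evaluation.** -/
theorem exists_ev [Nontrivial V] (Q : Reg X.F0) {Ω : Type*} [NormedField Ω] [CompleteSpace Ω]
    (κ : U →+* Ω) (h : Bd Q κ) : ∃ Φ : X.VR Q.R Q.F0_le →+* Ω, IsEv Q κ Φ := by
  classical
  -- the inverse of `j`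
  have hinj : Function.Injective X.j := X.j.injective
  let jr : U ≃+* X.j.range := RingEquiv.ofBijective X.j.rangeRestrict
    ⟨fun a b hab => hinj (congrArg Subtype.val hab), X.j.rangeRestrict_surjective⟩
  have hjr : ∀ u, (jr u : V) = X.j u := fun u => rfl
  let g : X.j.range →+* Ω := κ.comp jr.symm.toRingHom
  have hg : ∀ u (hu : X.j u ∈ X.j.range), g ⟨X.j u, hu⟩ = κ u := by
    intro u hu
    have : (⟨X.j u, hu⟩ : X.j.range) = jr u := rfl
    change κ (jr.symm _) = _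
    rw [this, RingEquiv.symm_apply_apply]
  have hF0A : ∀ z ∈ X.F0.toSubring, algebraMap E V z ∈ X.j.range := fun z hz => by
    obtain ⟨u, hu⟩ := X.exists_F0 hz
    exact ⟨u, hu⟩
  -- the homomorphism on `F0`
  let ψ : X.F0 →+* Ω := g.comp
    ((algebraMap E V).comp X.F0.subtype |>.codRestrict X.j.range fun z => hF0A z z.2)
  have hψ : ∀ (z : E) (hz : z ∈ X.F0), ψ ⟨z, hz⟩ = g ⟨algebraMap E V z, hF0A z hz⟩ :=
    fun z hz => rfl
  -- the homomorphism on the closure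
  obtain ⟨Ψ, hΨ1, hΨ2⟩ := ext_closure_bd Q.S0 (ψ.comp (Subring.inclusion Q.le)) (by
    rintro ⟨s, hs⟩
    obtain ⟨u, hu⟩ := X.exists_F0 (Q.le hs)
    have h1 : (ψ.comp (Subring.inclusion Q.le)) ⟨s, hs⟩ = κ u := by
      change g ⟨algebraMap E V s, hF0A s (Q.le hs)⟩ = κ u
      rw [← hg u ⟨u, rfl⟩]
      congr 1
      exact Subtype.ext hu.symm
    rw [h1]
    exact h s hs u hu)
  obtain ⟨φ', hφ'⟩ := ext_frac Q.S0.topologicalClosure Q.S0 Q.S0.le_topologicalClosure Ψ (by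
    intro d hd hd0 h0
    have h1 := hΨ1 d hd
    rw [h0] at h1
    have h2 : ψ ⟨d, Q.le hd⟩ = 0 := h1.symm
    exact hd0 (congrArg Subtype.val ((map_eq_zero ψ).1 h2)))
  have hle : ∀ z, z ∈ Q.R → z ∈ fracSub Q.S0.topologicalClosure Q.S0
      Q.S0.le_topologicalClosure := fun z hz => (Q.hR z).1 hz
  let φ : Q.R →+* Ω := φ'.comp (Subring.inclusion (S := Q.R) (T := fracSub Q.S0.topologicalClosure
    Q.S0 Q.S0.le_topologicalClosure) hle)
  have hφ : ∀ z (hz : z ∈ Q.R) a (ha : a ∈ Q.S0.topologicalClosure) d (hd : d ∈ Q.S0), d ≠ 0 →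
      z = a / d → φ ⟨z, hz⟩ = Ψ ⟨a, ha⟩ / Ψ ⟨d, Q.S0.le_topologicalClosure hd⟩ :=
    fun z hz a ha d hd hd0 e => hφ' z (hle z hz) a ha d hd hd0 e
  have hφcl : ∀ a (ha : a ∈ Q.S0.topologicalClosure), φ ⟨a, Q.cl_le ha⟩ = Ψ ⟨a, ha⟩ := by
    intro a ha
    rw [hφ a (Q.cl_le ha) a ha 1 (one_mem _) one_ne_zero (by simp)]
    have : Ψ ⟨1, Q.S0.le_topologicalClosure (one_mem _)⟩ = 1 := map_one Ψ
    rw [this, div_one]
  have hcomp : ∀ (z : E) (hz : z ∈ X.F0.toSubring),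
      g ⟨algebraMap E V z, hF0A z hz⟩ = φ ⟨z, Q.F0_le hz⟩ := by
    intro z hz
    obtain ⟨a, ha, d, hd, hd0, e⟩ := Q.fr z hz
    rw [hφ z _ a (Q.S0.le_topologicalClosure ha) d hd hd0 e, hΨ1 a ha, hΨ1 d hd]
    change ψ ⟨z, hz⟩ = ψ ⟨a, Q.le ha⟩ / ψ ⟨d, Q.le hd⟩
    rw [← map_div₀]
    congr 1
    exact Subtype.ext e
  obtain ⟨Φ, h1, h2, -⟩ := ext_hom X.b X.F0.toSubring Q.R Q.F0_le X.j.range (X.VR Q.R Q.F0_le)
    X.hj (fun v => Iff.rfl) φ g hF0A hcomp
  refine ⟨Φ, ⟨fun u => ?_, fun a ha => ?_⟩⟩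
  · exact (h1 (X.j u) ⟨u, rfl⟩ _).trans (hg u _)
  · rw [h2 a (Q.cl_le ha), hφcl a ha]
    exact hΨ2 ⟨a, ha⟩

/-- Approximation data of `v`: `d v ≈ u`. -/
structure Apx {X : Dat E V U ι} (Q : Reg X.F0) (v : V) (η : ℝ) (d u : U) : Prop where
  ex : ∃ (d0 : E) (A A0 : ι → E), d0 ∈ Q.S0 ∧ X.j d = algebraMap E V d0 ∧
    (∀ i, A i ∈ Q.S0.topologicalClosure) ∧ (∀ i, A0 i ∈ Q.S0) ∧ (∀ i, ‖A0 i - A i‖ ≤ η) ∧
    algebraMap E V d0 * v = ∑ i, A i • X.b i ∧ X.j u = ∑ i, A0 i • X.b i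

theorem exists_apx [Nontrivial V] (Q : Reg X.F0) (v : V) (hv : v ∈ X.VR Q.R Q.F0_le) :
    ∃ d : U, d ≠ 0 ∧ ∀ η : ℝ, 0 < η → ∃ u : U, Apx Q v η d u := by
  classical
  obtain ⟨d0, hd0, hd00, hd⟩ := Q.common Finset.univ (fun i => X.b.repr v i) fun i _ => hv i
  obtain ⟨d, hdj⟩ := X.exists_F0 (Q.le hd0)
  refine ⟨d, ?_, ?_⟩
  · rintro rfl
    rw [map_zero] at hdj
    have : Function.Injective (algebraMap E V) := (algebraMap E V).injective
    exact hd00 (this (by rw [map_zero, ← hdj]))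
  · intro η hη
    have hex : ∀ i, ∃ a ∈ Q.S0, ‖a - d0 * X.b.repr v i‖ ≤ η := by
      intro i
      obtain ⟨a, ha, hlt⟩ := Metric.mem_closure_iff.1
        (show d0 * X.b.repr v i ∈ closure (Q.S0 : Set E) from hd i (Finset.mem_univ i)) η hη
      refine ⟨a, ha, ?_⟩
      rw [dist_eq_norm, norm_sub_rev] at hlt
      exact hlt.le
    choose A0 hA0 hle using hex
    have hmem : (∑ i, A0 i • X.b i) ∈ X.j.range := by
      rw [X.hj]
      refine sum_mem fun i _ => ?_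
      exact smul_mem_cs X.b _ (Q.le (hA0 i)) (basis_mem_cs X.b _ i)
    obtain ⟨u, hu⟩ := hmem
    refine ⟨u, ⟨d0, fun i => d0 * X.b.repr v i, A0, hd0, hdj,
      fun i => hd i (Finset.mem_univ i), hA0, hle, ?_, hu⟩⟩
    conv_lhs => rw [← X.b.sum_repr v]
    rw [Finset.mul_sum]
    refine Finset.sum_congr rfl fun i _ => ?_
    rw [← Algebra.smul_def, smul_smul]

/-- The approximation is uniform in the evaluation. -/
theorem Apx.bound (Q : Reg X.F0) {v : V} {η : ℝ} {d u : U} (h : Apx Q v η d u) (hη : 0 ≤ η)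
    (hv : v ∈ X.VR Q.R Q.F0_le)
    {Ω : Type*} [NormedField Ω] [IsUltrametricDist Ω] (κ : U →+* Ω)
    (Φ : X.VR Q.R Q.F0_le →+* Ω) (hΦ : IsEv Q κ Φ) (B : ℝ) (hB0 : 0 ≤ B)
    (hB : ∀ i, ∀ x : U, X.j x = X.b i → ‖κ x‖ ≤ B) : ‖κ u - κ d * Φ ⟨v, hv⟩‖ ≤ η * B := by
  classical
  obtain ⟨d0, A, A0, hd0, hdj, hA, hA0, hle, e1, e2⟩ := h.ex
  choose β hβ using X.exists_b
  have hAm : ∀ i, algebraMap E V (A0 i - A i) ∈ X.VR Q.R Q.F0_le := fun i =>
    X.alg_mem Q.R Q.F0_le (Q.cl_le (sub_mem (Q.S0.le_topologicalClosure (hA0 i)) (hA i)))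
  have key : (⟨X.j u, X.j_mem Q.R Q.F0_le u⟩ : X.VR Q.R Q.F0_le) -
      ⟨X.j d, X.j_mem Q.R Q.F0_le d⟩ * ⟨v, hv⟩ =
      ∑ i, (⟨algebraMap E V (A0 i - A i), hAm i⟩ : X.VR Q.R Q.F0_le) *
        ⟨X.j (β i), X.j_mem Q.R Q.F0_le (β i)⟩ := by
    apply Subtype.ext
    rw [AddSubmonoidClass.coe_finsetSum]
    change X.j u - X.j d * v = ∑ i, algebraMap E V (A0 i - A i) * X.j (β i)
    rw [hdj, e1, e2, ← Finset.sum_sub_distrib]
    refine Finset.sum_congr rfl fun i _ => ?_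
    rw [hβ, ← sub_smul, Algebra.smul_def]
  have h1 : κ u - κ d * Φ ⟨v, hv⟩ = ∑ i, Φ ⟨algebraMap E V (A0 i - A i), hAm i⟩ * κ (β i) := by
    rw [← hΦ.eq u, ← hΦ.eq d, ← map_mul, ← map_sub, key, map_sum]
    refine Finset.sum_congr rfl fun i _ => ?_
    rw [map_mul, hΦ.eq]
  rw [h1]
  refine IsUltrametricDist.norm_sum_le_of_forall_le_of_nonneg (mul_nonneg hη hB0) fun i _ => ?_
  rw [norm_mul]
  exact mul_le_mul ((hΦ.bd _ (sub_mem (Q.S0.le_topologicalClosure (hA0 i)) (hA i))).trans (hle i))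
    (hB i (β i) (hβ i)) (norm_nonneg _) hη

end Setup

end Crest.Agent.R013.NB_102
end
end

-- ▼ part R013/NB2_102
section

/-!
# Row 13, C-NB, part 2: values of idempotents at norms, local constancy
-/

set_option autoImplicit false

noncomputable section

namespace Crest.Agent.R013.NB_102

open Module Filter Topology
open Crest.Agent.R013.Gl946 Crest.Agent.R013.A2a_275
open scoped NNReal

variable {E V U ι : Type*} [NormedField E] [CommRing V] [Algebra E V] [Field U] [Fintype ι]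
variable {X : Dat E V U ι}

/-- `w` is bounded by the norm of `E` on `S0`. -/
def BdV (Q : Reg X.F0) (w : Valuation U ℝ≥0) : Prop :=
  ∀ s ∈ Q.S0, ∀ u : U, X.j u = algebraMap E V s → (w u : ℝ) ≤ ‖s‖

theorem BdV.bd {Q : Reg X.F0} {w : Valuation U ℝ≥0} (h : BdV Q w) : Bd Q (toCpl w) :=
  fun s hs u hu => by rw [norm_toCpl]; exact h s hs u hu

/-- `ε` has value `0` at `w`. -/
def Val0 (Q : Reg X.F0) (w : Valuation U ℝ≥0) (ε : V) : Prop :=
  ∃ (hε : ε ∈ X.VR Q.R Q.F0_le) (Φ : X.VR Q.R Q.F0_le →+* Cpl w),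
    IsEv Q (toCpl w) Φ ∧ Φ ⟨ε, hε⟩ = 0

theorem idem_zero_or_one {A Ω : Type*} [CommRing A] [Field Ω] (Φ : A →+* Ω) {ε : A}
    (h : ε * ε = ε) : Φ ε = 0 ∨ Φ ε = 1 := by
  have h1 : Φ ε * Φ ε = Φ ε := by rw [← map_mul, h]
  rcases eq_or_ne (Φ ε) 0 with h0 | h0
  · exact Or.inl h0
  · right
    exact mul_left_cancel₀ h0 (by rw [h1, mul_one])

/-- The value of an idempotent is detected by an approximation. -/
theorem test (Q : Reg X.F0) {ε : V} (hε : ε ∈ X.VR Q.R Q.F0_le) (hεε : ε * ε = ε) {η : ℝ}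
    {d u : U} (h : Apx Q ε η d u) (hη : 0 ≤ η)
    {Ω : Type*} [NormedField Ω] [IsUltrametricDist Ω] (κ : U →+* Ω)
    (Φ : X.VR Q.R Q.F0_le →+* Ω) (hΦ : IsEv Q κ Φ) (B : ℝ) (hB0 : 0 ≤ B)
    (hB : ∀ i, ∀ x : U, X.j x = X.b i → ‖κ x‖ ≤ B) (hlt : η * B < ‖κ d‖) :
    (Φ ⟨ε, hε⟩ = 0 ↔ ‖κ u‖ < ‖κ d‖) ∧ (Φ ⟨ε, hε⟩ ≠ 0 ↔ ‖κ (u - d)‖ < ‖κ d‖) := by
  have hb := h.bound Q hη hε κ Φ hΦ B hB0 hB
  have h0 : Φ ⟨ε, hε⟩ = 0 → ‖κ u‖ < ‖κ d‖ := by
    intro h0
    rw [h0, mul_zero, sub_zero] at hb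
    exact hb.trans_lt hlt
  have h1 : Φ ⟨ε, hε⟩ ≠ 0 → ‖κ (u - d)‖ < ‖κ d‖ := by
    intro h1
    have h2 : Φ ⟨ε, hε⟩ = 1 := by
      rcases idem_zero_or_one Φ (ε := (⟨ε, hε⟩ : X.VR Q.R Q.F0_le)) (Subtype.ext hεε) with h | h
      · exact absurd h h1
      · exact h
    rw [h2, mul_one] at hb
    rw [map_sub]
    exact hb.trans_lt hlt
  have hex : ‖κ u‖ < ‖κ d‖ → ‖κ (u - d)‖ < ‖κ d‖ → False := by
    intro a b
    have : κ d = κ u - κ (u - d) := by rw [map_sub]; ring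
    have h3 : ‖κ d‖ ≤ max ‖κ u‖ ‖κ (u - d)‖ := by
      conv_lhs => rw [this]
      exact nsub _ _
    exact absurd h3 (not_le.2 (max_lt a b))
  refine ⟨⟨h0, fun h => ?_⟩, ⟨h1, fun h hc => hex (h0 hc) h⟩⟩
  by_contra hne
  exact hex h (h1 hne)

theorem exists_B (X : Dat E V U ι) [Nontrivial V] (w : Valuation U ℝ≥0) :
    ∃ B : ℝ, 0 < B ∧ ∀ i, ∀ x : U, X.j x = X.b i → (w x : ℝ) < B := by
  classical
  choose β hβ using X.exists_b
  refine ⟨1 + ∑ i, (w (β i) : ℝ), ?_, ?_⟩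
  · have : 0 ≤ ∑ i, (w (β i) : ℝ) := Finset.sum_nonneg fun i _ => (w (β i)).coe_nonneg
    linarith
  · intro i x hx
    have : x = β i := X.j.injective (hx.trans (hβ i).symm)
    rw [this]
    have h1 : (w (β i) : ℝ) ≤ ∑ i, (w (β i) : ℝ) :=
      Finset.single_le_sum (f := fun i => (w (β i) : ℝ)) (fun i _ => (w (β i)).coe_nonneg)
        (Finset.mem_univ i)
    linarith

/-- The value of an idempotent does not depend on the choices. -/
theorem val0_iff [Nontrivial V] (Q : Reg X.F0) (w : Valuation U ℝ≥0) {ε : V}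
    (hε : ε ∈ X.VR Q.R Q.F0_le) (hεε : ε * ε = ε)
    {Ω : Type*} [NormedField Ω] [IsUltrametricDist Ω] (κ : U →+* Ω) (hκ : ∀ u, ‖κ u‖ = w u)
    (Φ : X.VR Q.R Q.F0_le →+* Ω) (hΦ : IsEv Q κ Φ) (hw : BdV Q w) :
    Val0 Q w ε ↔ Φ ⟨ε, hε⟩ = 0 := by
  obtain ⟨B, hB0, hB⟩ := exists_B X w
  obtain ⟨d, hd0, hd⟩ := exists_apx Q ε hε
  have hwd : (0 : ℝ) < w d := by
    have := (Valuation.ne_zero_iff w).2 hd0
    exact_mod_cast pos_iff_ne_zero.2 this
  obtain ⟨u, hu⟩ := hd (w d / (2 * B)) (by positivity)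
  have hlt : (w d / (2 * B) : ℝ) * B < w d := by
    have : (w d / (2 * B) : ℝ) * B = w d / 2 := by field_simp
    rw [this]; linarith
  have hη : (0 : ℝ) ≤ w d / (2 * B) := by positivity
  have t1 := test Q hε hεε hu hη κ Φ hΦ B hB0.le (fun i x hx => by rw [hκ]; exact (hB i x hx).le)
    (by rw [hκ]; exact hlt)
  rw [hκ, hκ] at t1
  have hgen : ∀ Ψ : X.VR Q.R Q.F0_le →+* Cpl w, IsEv Q (toCpl w) Ψ →
      (Ψ ⟨ε, hε⟩ = 0 ↔ Φ ⟨ε, hε⟩ = 0) := by
    intro Ψ hΨ
    have t2 := test Q hε hεε hu hη (toCpl w) Ψ hΨ B hB0.le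
      (fun i x hx => by rw [norm_toCpl]; exact (hB i x hx).le) (by rw [norm_toCpl]; exact hlt)
    rw [norm_toCpl, norm_toCpl] at t2
    rw [t2.1, t1.1]
  constructor
  · rintro ⟨_, Ψ, hΨ, h0⟩
    exact (hgen Ψ hΨ).1 h0
  · intro h0
    obtain ⟨Ψ, hΨ⟩ := exists_ev Q (toCpl w) hw.bd
    exact ⟨hε, Ψ, hΨ, (hgen Ψ hΨ).2 h0⟩

/-- **Local constancy of the value of an idempotent.** -/
theorem eventually_val0 [Nontrivial V] (Q : Reg X.F0) {ε : V} (hε : ε ∈ X.VR Q.R Q.F0_le)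
    (hεε : ε * ε = ε) {T : Type*} [TopologicalSpace T] (w : T → Valuation U ℝ≥0) (t0 : T)
    (hc : ∀ u, ContinuousAt (fun t => w t u) t0) (hw : BdV Q (w t0)) :
    ∀ᶠ t in 𝓝 t0, BdV Q (w t) → (Val0 Q (w t) ε ↔ Val0 Q (w t0) ε) := by
  classical
  have hc' : ∀ u, ContinuousAt (fun t => (w t u : ℝ)) t0 := fun u =>
    NNReal.continuous_coe.continuousAt.comp (hc u)
  choose β hβ using X.exists_b
  obtain ⟨B, hB0, hB⟩ := exists_B X (w t0)
  obtain ⟨d, hd0, hd⟩ := exists_apx Q ε hε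
  have hwd : (0 : ℝ) < w t0 d := by
    have := (Valuation.ne_zero_iff (w t0)).2 hd0
    exact_mod_cast pos_iff_ne_zero.2 this
  set η : ℝ := w t0 d / (4 * B) with hη
  have hη0 : 0 < η := by positivity
  obtain ⟨u, hu⟩ := hd η hη0
  have hηB : η * B = w t0 d / 4 := by rw [hη]; field_simp
  -- the neighbourhood
  have e1 : ∀ᶠ t in 𝓝 t0, (w t0 d : ℝ) / 2 < w t d :=
    (hc' d).eventually (lt_mem_nhds (by linarith))
  have e2 : ∀ᶠ t in 𝓝 t0, ∀ i, (w t (β i) : ℝ) < B := by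
    rw [eventually_all]
    intro i
    exact (hc' (β i)).eventually (gt_mem_nhds (hB i (β i) (hβ i)))
  -- the test at `t`
  have key : ∀ t, (w t0 d : ℝ) / 2 < w t d → (∀ i, (w t (β i) : ℝ) < B) → BdV Q (w t) →
      (Val0 Q (w t) ε ↔ (w t u : ℝ) < w t d) ∧ (¬ Val0 Q (w t) ε ↔ (w t (u - d) : ℝ) < w t d) := by
    intro t h1 h2 h3
    obtain ⟨Ψ, hΨ⟩ := exists_ev Q (toCpl (w t)) h3.bd
    have t2 := test Q hε hεε hu hη0.le (toCpl (w t)) Ψ hΨ B hB0.le
      (fun i x hx => by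
        rw [norm_toCpl]
        have : x = β i := X.j.injective (hx.trans (hβ i).symm)
        rw [this]; exact (h2 i).le)
      (by rw [norm_toCpl, hηB]; linarith)
    rw [norm_toCpl, norm_toCpl, norm_toCpl] at t2
    have t3 := val0_iff Q (w t) hε hεε (toCpl (w t)) (norm_toCpl (w t)) Ψ hΨ h3
    rw [t3]
    exact t2
  have k0 := key t0 (by linarith) (fun i => hB i (β i) (hβ i)) hw
  by_cases hv : Val0 Q (w t0) ε
  · have h5 : ∀ᶠ t in 𝓝 t0, (w t u : ℝ) < w t d := by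
      have := k0.1.1 hv
      exact (hc' u).eventually_lt (hc' d) this
    filter_upwards [e1, e2, h5] with t h1 h2 h6 h3
    exact ⟨fun _ => hv, fun _ => (key t h1 h2 h3).1.2 h6⟩
  · have h5 : ∀ᶠ t in 𝓝 t0, (w t (u - d) : ℝ) < w t d := by
      have := k0.2.1 hv
      exact (hc' (u - d)).eventually_lt (hc' d) this
    filter_upwards [e1, e2, h5] with t h1 h2 h6 h3
    exact ⟨fun h => absurd h ((key t h1 h2 h3).2.2 h6), fun h => absurd h hv⟩

end Crest.Agent.R013.NB_102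
end
end

-- ▼ part R013/NB3_102
section

/-!
# Row 13, C-NB, part 3: norms over the circle, separation of idempotents, atoms
-/

set_option autoImplicit false

noncomputable section

namespace Crest.Agent.R013.NB_102

open Module Filter Topology
open Crest.Agent.R013.Gl946 Crest.Agent.R013.A2a_275
open scoped NNReal

section Basic

variable {E V U ι : Type*} [NormedField E] [CommRing V] [Algebra E V] [Field U] [Fintype ι]

/-- `w` lies over the norm of `E` ("over the circle"). -/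
def GT (X : Dat E V U ι) (w : Valuation U ℝ≥0) : Prop :=
  ∀ z ∈ X.F0, ∀ u, X.j u = algebraMap E V z → (w u : ℝ) = ‖z‖

variable {X : Dat E V U ι}

theorem GT.bdV {w : Valuation U ℝ≥0} (h : GT X w) (Q : Reg X.F0) : BdV Q w :=
  fun s hs u hu => (h s (Q.le hs) u hu).le

/-- The full region. -/
def Qtop (X : Dat E V U ι) (hd : Dense (X.F0 : Set E)) : Reg X.F0 where
  S0 := X.F0.toSubring
  le := le_rfl
  fr z hz := ⟨z, hz, 1, one_mem _, one_ne_zero, by simp⟩
  R := ⊤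
  hR z := ⟨fun _ => ⟨z, hd z, 1, one_mem _, one_ne_zero, by simp⟩, fun _ => trivial⟩

/-- **(T0)** the evaluation of `V` at a norm over the circle. -/
theorem GT.exists_evV [Nontrivial V] (hd : Dense (X.F0 : Set E)) {w : Valuation U ℝ≥0}
    (h : GT X w) : ∃ Φ : V →+* Cpl w, (∀ u, Φ (X.j u) = toCpl w u) ∧
      ∀ a : E, ‖Φ (algebraMap E V a)‖ = ‖a‖ := by
  obtain ⟨Φ, hΦ⟩ := exists_ev (Qtop X hd) (toCpl w) (h.bdV _).bd
  have hmem : ∀ v : V, v ∈ X.VR (Qtop X hd).R (Qtop X hd).F0_le := fun v i => trivial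
  let Φ' : V →+* Cpl w := Φ.comp ((RingHom.id V).codRestrict _ hmem)
  have h1 : ∀ a : E, ‖Φ' (algebraMap E V a)‖ ≤ ‖a‖ := fun a => hΦ.bd a (hd a)
  refine ⟨Φ', hΦ.eq, fun a => ?_⟩
  rcases eq_or_ne a 0 with rfl | ha
  · rw [map_zero, map_zero, norm_zero, norm_zero]
  · refine le_antisymm (h1 a) ?_
    have h2 := h1 a⁻¹
    have h3 : Φ' (algebraMap E V a) * Φ' (algebraMap E V a⁻¹) = 1 := by
      rw [← map_mul, ← map_mul, mul_inv_cancel₀ ha, map_one, map_one]
    have h4 : ‖Φ' (algebraMap E V a)‖ * ‖Φ' (algebraMap E V a⁻¹)‖ = 1 := by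
      rw [← norm_mul, h3, norm_one]
    rw [norm_inv] at h2
    have ha' : 0 < ‖a‖ := norm_pos_iff.2 ha
    by_contra hlt
    push Not at hlt
    have h5 : ‖Φ' (algebraMap E V a)‖ * ‖Φ' (algebraMap E V a⁻¹)‖ < ‖a‖ * ‖a‖⁻¹ := by
      have h6 : 0 < ‖Φ' (algebraMap E V a⁻¹)‖ := by
        rw [norm_pos_iff]
        exact right_ne_zero_of_mul_eq_one h3
      calc _ < ‖a‖ * ‖Φ' (algebraMap E V a⁻¹)‖ := mul_lt_mul_of_pos_right hlt h6
        _ ≤ ‖a‖ * ‖a‖⁻¹ := mul_le_mul_of_nonneg_left h2 ha'.le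
    rw [h4, mul_inv_cancel₀ ha'.ne'] at h5
    exact lt_irrefl _ h5

/-- Evaluations of `V` are unique. -/
theorem evV_unique (hd : Dense (X.F0 : Set E)) {Ω : Type*} [NormedField Ω] (κ : U →+* Ω)
    (Φ Ψ : V →+* Ω) (h1 : ∀ u, Φ (X.j u) = κ u) (h2 : ∀ u, Ψ (X.j u) = κ u)
    (b1 : ∀ a : E, ‖Φ (algebraMap E V a)‖ = ‖a‖) (b2 : ∀ a : E, ‖Ψ (algebraMap E V a)‖ = ‖a‖) :
    Φ = Ψ := by
  have hE : ∀ a : E, Φ (algebraMap E V a) = Ψ (algebraMap E V a) := by
    have c1 : Continuous (fun a : E => Φ (algebraMap E V a)) :=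
      (AddMonoidHomClass.isometry_of_norm (Φ.comp (algebraMap E V)) b1).continuous
    have c2 : Continuous (fun a : E => Ψ (algebraMap E V a)) :=
      (AddMonoidHomClass.isometry_of_norm (Ψ.comp (algebraMap E V)) b2).continuous
    intro a
    have hcl : IsClosed {a : E | Φ (algebraMap E V a) = Ψ (algebraMap E V a)} := isClosed_eq c1 c2
    refine hcl.closure_subset_iff.2 ?_ (hd a)
    intro z hz
    obtain ⟨u, hu⟩ := X.exists_F0 hz
    change Φ (algebraMap E V z) = Ψ (algebraMap E V z)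
    rw [← hu, h1, h2]
  ext v
  rw [← X.b.sum_repr v, map_sum, map_sum]
  refine Finset.sum_congr rfl fun i _ => ?_
  obtain ⟨u, hu⟩ := X.exists_b i
  rw [Algebra.smul_def, map_mul, map_mul, hE, ← hu, h1, h2]

/-- Value of an idempotent at a norm over the circle, through the evaluation of `V`. -/
theorem val0_iff_evV [Nontrivial V] (Q : Reg X.F0) {w : Valuation U ℝ≥0} (hw : GT X w) {ε : V}
    (hε : ε ∈ X.VR Q.R Q.F0_le) (hεε : ε * ε = ε)
    {Ω : Type*} [NormedField Ω] [IsUltrametricDist Ω] (κ : U →+* Ω) (hκ : ∀ u, ‖κ u‖ = w u)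
    (Φ : V →+* Ω) (h1 : ∀ u, Φ (X.j u) = κ u)
    (b1 : ∀ a : E, ‖Φ (algebraMap E V a)‖ = ‖a‖) :
    Val0 Q w ε ↔ Φ ε = 0 :=
  val0_iff Q w hε hεε κ hκ (Φ.comp (X.VR Q.R Q.F0_le).subtype)
    ⟨fun u => h1 u, fun a _ => (b1 a).le⟩ (hw.bdV Q)

end Basic

section Sep

variable {E V U ι : Type*} [NontriviallyNormedField E] [IsUltrametricDist E] [CompleteSpace E]
  [CommRing V] [Algebra E V] [Field U] [Fintype ι] {X : Dat E V U ι}

/-- A finite extension `L` of `E` with `V → L` gives a norm over the circle. -/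
theorem exists_norm_of_field [Nontrivial V] (L : Type*) [Field L] [Algebra E L]
    [FiniteDimensional E L] (q : V →ₐ[E] L) :
    ∃ w : Valuation U ℝ≥0, GT X w ∧ (∀ u, (w u : ℝ) = spectralNorm E L (q (X.j u))) ∧
      ∀ (Q : Reg X.F0) (ε : V), ε ∈ X.VR Q.R Q.F0_le → ε * ε = ε → (Val0 Q w ε ↔ q ε = 0) := by
  have : Algebra.IsAlgebraic E L := inferInstance
  let nf : NormedField L := spectralNorm.normedField E L
  have : CompleteSpace L := spectralNorm.completeSpace E L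
  have : IsUltrametricDist L :=
    IsUltrametricDist.isUltrametricDist_of_isNonarchimedean_norm
      (isNonarchimedean_spectralNorm (K := E) (L := L))
  have hext : ∀ e : E, ‖algebraMap E L e‖ = ‖e‖ := fun e => spectralNorm_extends e
  set κ : U →+* L := q.toRingHom.comp X.j with hκ
  set w : Valuation U ℝ≥0 := (NormedField.valuation (K := L)).comap κ with hw
  have hwapp : ∀ a : U, (w a : ℝ) = ‖κ a‖ := fun a => rfl
  have hGT : GT X w := by
    intro z hz u hu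
    rw [hwapp]
    change ‖q (X.j u)‖ = _
    rw [hu, AlgHom.commutes, hext]
  refine ⟨w, hGT, fun u => rfl, fun Q ε hε hεε => ?_⟩
  exact val0_iff_evV Q hGT hε hεε κ (fun u => (hwapp u).symm) q.toRingHom (fun u => rfl)
    (fun a => by
      change ‖q (algebraMap E V a)‖ = _
      rw [AlgHom.commutes, hext])

omit [IsUltrametricDist E] [CompleteSpace E] [Field U] in
theorem eq_zero_of_mem_maximal {r : V} (hr : r * r = r)
    (h : ∀ m : Ideal V, m.IsMaximal → r ∈ m) : r = 0 := by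
  have h1 : IsUnit (1 - r) := by
    by_contra hnu
    obtain ⟨m, hm, hmem⟩ := exists_max_ideal_of_mem_nonunits (mem_nonunits_iff.2 hnu)
    have h2 : (1 : V) ∈ m := by
      have : (1 : V) = (1 - r) + r := by ring
      rw [this]
      exact m.add_mem hmem (h m hm)
    exact hm.ne_top ((Ideal.eq_top_iff_one m).2 h2)
  have h3 : (1 - r) * r = 0 := by linear_combination -hr
  exact (h1.mul_right_eq_zero).1 h3

/-- **Separation**: idempotents with the same values at all norms over the circle are equal. -/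
theorem eq_of_values [Nontrivial V] (Q Q' : Reg X.F0) {ε δ : V} (hε : ε ∈ X.VR Q.R Q.F0_le)
    (hδ : δ ∈ X.VR Q'.R Q'.F0_le) (hεε : ε * ε = ε) (hδδ : δ * δ = δ)
    (h : ∀ w : Valuation U ℝ≥0, GT X w → (Val0 Q w ε ↔ Val0 Q' w δ)) : ε = δ := by
  have hfin : Module.Finite E V := Module.Finite.of_basis X.b
  set s := ε - δ with hs
  have hmem : ∀ m : Ideal V, m.IsMaximal → s ∈ m := by
    intro m hm
    let _ : Field (V ⧸ m) := Ideal.Quotient.field m
    have hfin2 : Module.Finite E (V ⧸ m) :=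
      Module.Finite.of_surjective (Ideal.Quotient.mkₐ E m).toLinearMap
        (Ideal.Quotient.mkₐ_surjective E m)
    obtain ⟨w, hw, -, hval⟩ := exists_norm_of_field (X := X) (V ⧸ m) (Ideal.Quotient.mkₐ E m)
    have h1 := hval Q ε hε hεε
    have h2 := hval Q' δ hδ hδδ
    have h3 := h w hw
    have h4 : Ideal.Quotient.mkₐ E m ε = 0 ↔ Ideal.Quotient.mkₐ E m δ = 0 := by
      rw [← h1, ← h2, h3]
    have h5 : Ideal.Quotient.mkₐ E m ε = Ideal.Quotient.mkₐ E m δ := by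
      rcases idem_zero_or_one (Ideal.Quotient.mkₐ E m).toRingHom hεε with ha | ha <;>
      rcases idem_zero_or_one (Ideal.Quotient.mkₐ E m).toRingHom hδδ with hb | hb
      · exact ha.trans hb.symm
      · have := h4.1 ha
        exact absurd (hb.symm.trans this) one_ne_zero
      · have := h4.2 hb
        exact absurd (ha.symm.trans this) one_ne_zero
      · exact ha.trans hb.symm
    rw [hs]
    refine (Ideal.Quotient.eq_zero_iff_mem).1 ?_
    have h6 : Ideal.Quotient.mkₐ E m (ε - δ) = 0 := by rw [map_sub, h5, sub_self]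
    exact h6
  have hr : (s * s) * (s * s) = s * s := by
    rw [hs]
    have e1 : (ε - δ) * (ε - δ) = ε + δ - 2 * (ε * δ) := by
      linear_combination hεε + hδδ
    rw [e1]
    linear_combination (1 - 4 * δ + 4 * δ * δ) * hεε + (1 - 4 * ε + 4 * ε) * hδδ
  have h0 : s * s = 0 := eq_zero_of_mem_maximal hr fun m hm => m.mul_mem_left _ (hmem m hm)
  have h1 : s * s * s = s := by
    rw [hs]
    linear_combination (ε - 3 * δ + 1) * hεε + (3 * ε - δ - 1) * hδδ
  rw [h0, zero_mul] at h1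
  exact sub_eq_zero.1 h1.symm

end Sep

end Crest.Agent.R013.NB_102
end
end

-- ▼ part R013/NB4_102
section

/-!
# Row 13, C-NB, part 4: (T0), (T1): norms over the circle = maximal ideals of `E ⊗ U`, atoms
-/

set_option autoImplicit false

noncomputable section

namespace Crest.Agent.R013.NB_102

open Module Filter Topology
open Crest.Agent.R013.Gl946 Crest.Agent.R013.A2a_275
open scoped NNReal

section Basic

variable {E V U ι : Type*} [NormedField E] [CommRing V] [Algebra E V] [Field U] [Fintype ι]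

/-- `Φ` is the evaluation of `V = E ⊗ U` at `κ`. -/
structure IsEvV (X : Dat E V U ι) {Ω : Type*} [NormedField Ω] (κ : U →+* Ω) (Φ : V →+* Ω) :
    Prop where
  eq : ∀ u, Φ (X.j u) = κ u
  nm : ∀ a : E, ‖Φ (algebraMap E V a)‖ = ‖a‖

variable {X : Dat E V U ι}

theorem GT.exists_isEvV [Nontrivial V] (hd : Dense (X.F0 : Set E)) {w : Valuation U ℝ≥0}
    (h : GT X w) : ∃ Φ : V →+* Cpl w, IsEvV X (toCpl w) Φ := by
  obtain ⟨Φ, h1, h2⟩ := h.exists_evV hd
  exact ⟨Φ, h1, h2⟩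

theorem IsEvV.unique (hd : Dense (X.F0 : Set E)) {Ω : Type*} [NormedField Ω] {κ : U →+* Ω}
    {Φ Ψ : V →+* Ω} (h1 : IsEvV X κ Φ) (h2 : IsEvV X κ Ψ) : Φ = Ψ :=
  evV_unique hd κ Φ Ψ h1.eq h2.eq h1.nm h2.nm

theorem IsEvV.isEv {Ω : Type*} [NormedField Ω] {κ : U →+* Ω} {Φ : V →+* Ω} (h : IsEvV X κ Φ)
    (Q : Reg X.F0) : IsEv Q κ (Φ.comp (X.VR Q.R Q.F0_le).subtype) :=
  ⟨fun u => h.eq u, fun a _ => (h.nm a).le⟩

theorem IsEvV.val0 [Nontrivial V] (Q : Reg X.F0) {w : Valuation U ℝ≥0} (hw : GT X w) {ε : V}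
    (hε : ε ∈ X.VR Q.R Q.F0_le) (hεε : ε * ε = ε)
    {Φ : V →+* Cpl w} (h : IsEvV X (toCpl w) Φ) : Val0 Q w ε ↔ Φ ε = 0 :=
  val0_iff_evV Q hw hε hεε (toCpl w) (norm_toCpl w) Φ h.eq h.nm

/-- The norm of the value only depends on `w`. -/
theorem IsEvV.norm_eq [Nontrivial V] (hd : Dense (X.F0 : Set E)) {Ω Ω' : Type*} [NormedField Ω]
    [IsUltrametricDist Ω] [NormedField Ω'] [IsUltrametricDist Ω'] {κ : U →+* Ω} {κ' : U →+* Ω'}
    {Φ : V →+* Ω} {Φ' : V →+* Ω'} (h : IsEvV X κ Φ) (h' : IsEvV X κ' Φ')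
    (he : ∀ u, ‖κ u‖ = ‖κ' u‖) (v : V) : ‖Φ v‖ = ‖Φ' v‖ := by
  classical
  have hmem : v ∈ X.VR (Qtop X hd).R (Qtop X hd).F0_le := fun i => trivial
  obtain ⟨d, hd0, hap⟩ := exists_apx (Qtop X hd) v hmem
  choose β hβ using X.exists_b
  set B : ℝ := 1 + ∑ i, ‖κ (β i)‖ with hB
  have hB1 : ∀ i, ∀ x : U, X.j x = X.b i → ‖κ x‖ ≤ B := by
    intro i x hx
    have : x = β i := X.j.injective (hx.trans (hβ i).symm)
    rw [this]
    have h1 : ‖κ (β i)‖ ≤ ∑ i, ‖κ (β i)‖ :=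
      Finset.single_le_sum (f := fun i => ‖κ (β i)‖) (fun i _ => norm_nonneg _)
        (Finset.mem_univ i)
    linarith
  have hB0 : 0 < B := by
    have : 0 ≤ ∑ i, ‖κ (β i)‖ := Finset.sum_nonneg fun i _ => norm_nonneg _
    linarith
  have key : ∀ η : ℝ, 0 < η → |‖κ d * Φ v‖ - ‖κ' d * Φ' v‖| ≤ 2 * (η * B) := by
    intro η hη
    obtain ⟨u, hu⟩ := hap η hη
    have b1 := hu.bound (Qtop X hd) hη.le hmem κ _ (h.isEv _) B hB0.le hB1
    have b2 := hu.bound (Qtop X hd) hη.le hmem κ' _ (h'.isEv _) B hB0.le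
      (fun i x hx => by rw [← he]; exact hB1 i x hx)
    have c1 := abs_norm_sub_norm_le (κ u) (κ d * Φ v)
    have c2 := abs_norm_sub_norm_le (κ' u) (κ' d * Φ' v)
    have b1' : ‖κ u - κ d * Φ v‖ ≤ η * B := b1
    have b2' : ‖κ' u - κ' d * Φ' v‖ ≤ η * B := b2
    rw [← he u] at c2
    rw [abs_le] at c1 c2 ⊢
    constructor <;> linarith
  have heq : ‖κ d * Φ v‖ = ‖κ' d * Φ' v‖ := by
    by_contra hne
    have hpos : 0 < |‖κ d * Φ v‖ - ‖κ' d * Φ' v‖| := abs_pos.2 (sub_ne_zero.2 hne)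
    have := key (|‖κ d * Φ v‖ - ‖κ' d * Φ' v‖| / (4 * B)) (by positivity)
    have e1 : 2 * (|‖κ d * Φ v‖ - ‖κ' d * Φ' v‖| / (4 * B) * B) =
        |‖κ d * Φ v‖ - ‖κ' d * Φ' v‖| / 2 := by field_simp; ring
    rw [e1] at this
    linarith
  rw [norm_mul, norm_mul, ← he d] at heq
  exact mul_left_cancel₀ (norm_ne_zero_iff.2 ((map_ne_zero κ).2 hd0)) heq

end Basic

section Complete

variable {E V U ι : Type*} [NontriviallyNormedField E] [IsUltrametricDist E] [CompleteSpace E]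
  [CommRing V] [Algebra E V] [Field U] [Fintype ι] {X : Dat E V U ι}

omit [IsUltrametricDist E] [CompleteSpace E] in
theorem isArtinianRing (X : Dat E V U ι) : IsArtinianRing V := by
  have hfin : Module.Finite E V := Module.Finite.of_basis X.b
  exact IsArtinianRing.of_finite E V

omit [IsUltrametricDist E] [CompleteSpace E] in
theorem ker_isMaximal (X : Dat E V U ι) {Ω : Type*} [Field Ω] (Φ : V →+* Ω) :
    (RingHom.ker Φ).IsMaximal := by
  have := isArtinianRing X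
  have h1 : (RingHom.ker Φ).IsPrime := RingHom.ker_isPrime Φ
  exact IsArtinianRing.isMaximal_of_isPrime _

/-- The norm of the value is the spectral norm of the factor. -/
theorem norm_eq_spectral (X : Dat E V U ι) {Ω : Type*} [NormedField Ω] [IsUltrametricDist Ω]
    (Φ : V →+* Ω) (hΦ : ∀ a : E, ‖Φ (algebraMap E V a)‖ = ‖a‖) (m : Ideal V) [hm : m.IsMaximal]
    (hk : RingHom.ker Φ = m) (v : V) :
    letI : Field (V ⧸ m) := Ideal.Quotient.field m
    ‖Φ v‖ = spectralNorm E (V ⧸ m) (Ideal.Quotient.mk m v) := by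
  have hfin : Module.Finite E V := Module.Finite.of_basis X.b
  let _ : Field (V ⧸ m) := Ideal.Quotient.field m
  have hfin2 : Module.Finite E (V ⧸ m) :=
    Module.Finite.of_surjective (Ideal.Quotient.mkₐ E m).toLinearMap
      (Ideal.Quotient.mkₐ_surjective E m)
  let Ψ : V ⧸ m →+* Ω := Ideal.Quotient.lift m Φ (fun a ha => by rw [← hk] at ha; exact ha)
  have hΨ : ∀ v, Ψ (Ideal.Quotient.mk m v) = Φ v := fun v => Ideal.Quotient.lift_mk _ _ _
  let f : AbsoluteValue (V ⧸ m) ℝ :=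
    { toFun := fun x => ‖Ψ x‖
      map_mul' := fun x y => by rw [map_mul, norm_mul]
      nonneg' := fun x => norm_nonneg _
      eq_zero' := fun x => by rw [norm_eq_zero, map_eq_zero]
      add_le' := fun x y => by rw [map_add]; exact norm_add_le _ _ }
  have hf : ∀ x : E, f (algebraMap E (V ⧸ m) x) = ‖x‖ := by
    intro x
    change ‖Ψ (Ideal.Quotient.mk m (algebraMap E V x))‖ = _
    rw [hΨ, hΦ]
  have h := spectralNorm_unique_field_norm_ext (K := E) (L := V ⧸ m) hf (Ideal.Quotient.mk m v)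
  rw [← h]
  change _ = ‖Ψ (Ideal.Quotient.mk m v)‖
  rw [hΨ]

/-- The kernel of the evaluation determines the norm. -/
theorem eq_of_ker {w w' : Valuation U ℝ≥0} {Φ : V →+* Cpl w} {Φ' : V →+* Cpl w'}
    (h : IsEvV X (toCpl w) Φ) (h' : IsEvV X (toCpl w') Φ') (hk : RingHom.ker Φ = RingHom.ker Φ') :
    w = w' := by
  have hm := ker_isMaximal X Φ
  ext u
  have e1 := norm_eq_spectral X Φ h.nm (RingHom.ker Φ) rfl (X.j u)
  have e2 := norm_eq_spectral X Φ' h'.nm (RingHom.ker Φ) hk.symm (X.j u)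
  rw [h.eq, norm_toCpl] at e1
  rw [h'.eq, norm_toCpl] at e2
  rw [e1, e2]


/-- **(T1) ATOMS.** -/
theorem exists_atom [Nontrivial V] [IsReduced V] (hd : Dense (X.F0 : Set E))
    {w0 : Valuation U ℝ≥0} (h0 : GT X w0) :
    ∃ e : V, e * e = e ∧ e ≠ 0 ∧
      (∀ Φ : V →+* Cpl w0, IsEvV X (toCpl w0) Φ → Φ e = 1) ∧
      (∀ w : Valuation U ℝ≥0, GT X w → w ≠ w0 → ∀ Φ : V →+* Cpl w, IsEvV X (toCpl w) Φ → Φ e = 0) ∧
      (∀ f : V, f * f = f → e * f = f → f = 0 ∨ f = e) := by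
  classical
  have hart := isArtinianRing X
  obtain ⟨Φ0, hΦ0⟩ := h0.exists_isEvV hd
  let I0 : MaximalSpectrum V := ⟨RingHom.ker Φ0, ker_isMaximal X Φ0⟩
  let θ := IsArtinianRing.equivPi V
  have hθ : ∀ (v : V) (I : MaximalSpectrum V), θ v I = Ideal.Quotient.mk I.asIdeal v :=
    fun v I => rfl
  set e : V := θ.symm (Pi.single I0 1) with he
  have hθe : θ e = Pi.single I0 1 := θ.apply_symm_apply _
  have hmem : ∀ I : MaximalSpectrum V, I ≠ I0 → e ∈ I.asIdeal := by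
    intro I hI
    rw [← Ideal.Quotient.eq_zero_iff_mem, ← hθ, hθe, Pi.single_eq_of_ne hI]
  have h1mem : 1 - e ∈ I0.asIdeal := by
    rw [← Ideal.Quotient.eq_zero_iff_mem, map_sub, map_one, ← hθ, hθe, Pi.single_eq_same, sub_self]
  have hee : e * e = e := by
    apply θ.injective
    rw [map_mul, hθe, ← Pi.single_mul, one_mul]
  have hΦe : Φ0 e = 1 := by
    have h1 : Φ0 (1 - e) = 0 := h1mem
    rw [map_sub, map_one, sub_eq_zero] at h1
    exact h1.symm
  refine ⟨e, hee, ?_, ?_, ?_, ?_⟩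
  · intro h
    rw [h, map_zero] at hΦe
    exact zero_ne_one hΦe
  · intro Φ hΦ
    rw [hΦ.unique hd hΦ0]; exact hΦe
  · intro w hw hne Φ hΦ
    let I : MaximalSpectrum V := ⟨RingHom.ker Φ, ker_isMaximal X Φ⟩
    have hI : I ≠ I0 := by
      intro h
      exact hne (eq_of_ker hΦ hΦ0 (congrArg MaximalSpectrum.asIdeal h))
    exact hmem I hI
  · intro f hf hef
    have h1 : ∀ I : MaximalSpectrum V, I ≠ I0 → θ f I = 0 := by
      intro I hI
      rw [hθ, Ideal.Quotient.eq_zero_iff_mem, ← hef]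
      exact I.asIdeal.mul_mem_right _ (hmem I hI)
    have hm0 := I0.isMaximal
    let _ : Field (V ⧸ I0.asIdeal) := Ideal.Quotient.field I0.asIdeal
    rcases idem_zero_or_one (Ideal.Quotient.mk I0.asIdeal) hf with h2 | h2
    · left
      apply θ.injective
      rw [map_zero]
      funext I
      by_cases hI : I = I0
      · subst hI; exact h2
      · exact h1 I hI
    · right
      apply θ.injective
      funext I
      by_cases hI : I = I0
      · subst hI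
        rw [hθe, Pi.single_eq_same]; exact h2
      · rw [h1 I hI, hθe, Pi.single_eq_of_ne hI]

end Complete

end Crest.Agent.R013.NB_102
end
end

-- ▼ part R013/NB5_102
section

/-!
# Row 13, C-NB, part 5: the two sides of 946's circle `|y| = 1`
-/

set_option autoImplicit false

noncomputable section

namespace Crest.Agent.R013.NB_102

open Module Filter Topology Polynomial
open Crest.Agent.R013.Gl946 Crest.Agent.R013.A2a_275 Crest.Agent.R013.CutCov_92
open scoped NNReal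

section Circle

variable {k E : Type*} [NormedField k] [NormedField E] [NormedAlgebra k E] {y : E}
  (hG : IsGauss k y)

/-- the outer side: `k[1/y]`, `RU` -/
def QU (hG : IsGauss k y) (F0 : Subfield E) (hF : ∀ z : E, z ∈ F0 ↔ z ∈ KY hG) : Reg F0 where
  S0 := (aeval (y⁻¹) : k[X] →ₐ[k] E).range.toSubring
  le := by
    rintro _ ⟨f, rfl⟩
    exact (hF _).2 (aeval_inv_mem_KY hG f)
  fr z hz := by
    obtain ⟨p, q, hq, e⟩ := KY_inv_rep hG ((hF z).1 hz)
    exact ⟨_, ⟨p, rfl⟩, _, ⟨q, rfl⟩, hq, e⟩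
  R := RU k y
  hR z := Iff.rfl

/-- the inner side: `AP0`, `FP` -/
def QP [IsUltrametricDist E] [CompleteSpace E] [CompleteSpace k] (hG : IsGauss k y) {π : k}
    (hπ : IsUnif π) (hd : DenseRat k y) (F0 : Subfield E)
    (hF : ∀ z : E, z ∈ F0 ↔ z ∈ KY hG) : Reg F0 where
  S0 := (AP0alg hG).toSubring
  le := by
    rintro _ ⟨f, g, h1, h2, rfl⟩
    exact (hF _).2 ⟨f, g, by rintro rfl; simp at h2, rfl⟩
  fr z hz := by
    obtain ⟨f, g, hg, e⟩ := (hF z).1 hz
    refine ⟨aeval y f, ⟨f, 1, ?_, ?_, ?_⟩, aeval y g, ⟨g, 1, ?_, ?_, ?_⟩, hG.aeval_ne_zero hg, e⟩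
    · rw [map_one, norm_one]
    · simp
    · rw [map_one, div_one]
    · rw [map_one, norm_one]
    · simp
    · rw [map_one, div_one]
  R := (FP hG hπ hd).toSubring
  hR z := by
    constructor
    · intro hz
      obtain ⟨a, ha, g, hg, e⟩ := (mem_FP hG hπ hd z).1 hz
      refine ⟨a, ha, aeval y g, ⟨g, 1, ?_, ?_, ?_⟩, hG.aeval_ne_zero hg, e⟩
      · rw [map_one, norm_one]
      · simp
      · rw [map_one, div_one]
    · rintro ⟨a, ha, d, ⟨f, g, h1, h2, rfl⟩, hd0, rfl⟩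
      have hg : g ≠ 0 := by rintro rfl; simp at h2
      have hf : f ≠ 0 := by rintro rfl; rw [map_zero, zero_div] at hd0; exact hd0 rfl
      refine (mem_FP hG hπ hd _).2 ⟨a * aeval y g, mul_mem ha (aeval_mem_AP hG g), f, hf, ?_⟩
      rw [div_div_eq_mul_div]

section Norms

variable {V U ι : Type*} [CommRing V] [Algebra E V] [Field U] [Fintype ι] [Algebra k U]

/-- `w` is the norm of `k` on constants -/
def NK (k : Type*) {U : Type*} [NormedField k] [Field U] [Algebra k U]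
    (w : Valuation U ℝ≥0) : Prop := ∀ c : k, (w (algebraMap k U c) : ℝ) = ‖c‖

theorem NK.poly_le {w : Valuation U ℝ≥0} (h : NK k w) (t : U) (ht : w t ≤ 1) (f : k[X]) {r : ℝ}
    (hr : 0 ≤ r) (hf : ∀ i, ‖f.coeff i‖ ≤ r) : (w (aeval t f) : ℝ) ≤ r := by
  lift r to ℝ≥0 using hr
  have h1 : w (aeval t f) ≤ r := by
    rw [aeval_eq_sum_range]
    refine Valuation.map_sum_le w fun i _ => ?_
    rw [Algebra.smul_def, map_mul, map_pow]
    have h2 : w (algebraMap k U (f.coeff i)) ≤ r := by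
      rw [← NNReal.coe_le_coe, h (f.coeff i)]
      exact hf i
    calc w (algebraMap k U (f.coeff i)) * w t ^ i ≤ r * 1 :=
          mul_le_mul' h2 (pow_le_one₀ (zero_le) ht)
      _ = r := mul_one _
  exact_mod_cast h1

variable {X : Dat E V U ι} (hF : ∀ z : E, z ∈ X.F0 ↔ z ∈ KY hG)
  (hk : ∀ c : k, X.j (algebraMap k U c) = algebraMap E V (algebraMap k E c))
  {yU : U} (hy : X.j yU = algebraMap E V y)

include hk in
theorem j_aeval (t : U) (s : E) (ht : X.j t = algebraMap E V s) (f : k[X]) :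
    X.j (aeval t f) = algebraMap E V (aeval s f) := by
  rw [aeval_eq_sum_range, aeval_eq_sum_range, map_sum, map_sum]
  refine Finset.sum_congr rfl fun i _ => ?_
  rw [Algebra.smul_def, Algebra.smul_def, map_mul, map_mul, map_pow, map_pow, hk, ht]

include hk hy in
theorem bdU [Nontrivial V] {w : Valuation U ℝ≥0} (h : NK k w) (h1 : 1 ≤ w yU) :
    BdV (QU hG X.F0 hF) w := by
  rintro _ ⟨f, rfl⟩ u hu
  change X.j u = algebraMap E V (aeval (y⁻¹) f) at hu
  change (w u : ℝ) ≤ ‖aeval (y⁻¹) f‖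
  have hyi : X.j yU⁻¹ = algebraMap E V y⁻¹ := by
    have h2 : X.j yU * X.j yU⁻¹ = 1 := by
      rw [← map_mul, mul_inv_cancel₀ (by rintro rfl; simp at h1), map_one]
    have h3 : algebraMap E V y * algebraMap E V y⁻¹ = 1 := by
      rw [← map_mul, mul_inv_cancel₀ hG.ne_zero, map_one]
    rw [hy] at h2
    calc X.j yU⁻¹ = (algebraMap E V y * algebraMap E V y⁻¹) * X.j yU⁻¹ := by rw [h3, one_mul]
      _ = algebraMap E V y⁻¹ * (algebraMap E V y * X.j yU⁻¹) := by ring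
      _ = _ := by rw [h2, mul_one]
  have hu2 : u = aeval yU⁻¹ f := X.j.injective (by rw [hu, j_aeval hk _ _ hyi])
  rw [hu2]
  refine h.poly_le _ ?_ f (norm_nonneg _) (hG.inv.coeff_le f)
  rw [map_inv₀]
  exact inv_le_one_of_one_le₀ h1

include hk hy in
theorem bdP [IsUltrametricDist E] [CompleteSpace E] [CompleteSpace k] {π : k} (hπ : IsUnif π)
    (hd : DenseRat k y) [Nontrivial V] {w : Valuation U ℝ≥0} (h : NK k w) (h1 : w yU < 1) :
    BdV (QP hG hπ hd X.F0 hF) w := by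
  rintro _ ⟨f, g, hg1, hg0, rfl⟩ u hu
  have hgn := hG.norm_of_coeff_zero g hg1 hg0
  have hgne : g ≠ 0 := by rintro rfl; simp at hg0
  -- `w (g(y)) = 1`
  have hwg : w (aeval yU g) = 1 := by
    have e1 : aeval yU g = aeval yU g.divX * yU + 1 := by
      conv_lhs => rw [← divX_mul_X_add g, hg0]
      simp
    have e2 : w (aeval yU g.divX * yU) < 1 := by
      rw [map_mul]
      have e3 : w (aeval yU g.divX) ≤ 1 := by
        have := h.poly_le yU h1.le g.divX zero_le_one fun i => by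
          rw [coeff_divX]; exact (hG.coeff_le g _).trans hg1
        exact_mod_cast this
      calc _ ≤ 1 * w yU := mul_le_mul_left e3 _
        _ < 1 := by rw [one_mul]; exact h1
    rw [e1, Valuation.map_add_eq_of_lt_right w (by rw [map_one]; exact e2), map_one]
  have hu2 : u * aeval yU g = aeval yU f := by
    apply X.j.injective
    rw [map_mul, hu, j_aeval hk _ _ hy, j_aeval hk _ _ hy, ← map_mul,
      div_mul_cancel₀ _ (hG.aeval_ne_zero hgne)]
  have hwu : w u = w (aeval yU f) := by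
    rw [← hu2, map_mul, hwg, mul_one]
  rw [hwu, norm_div, hgn, div_one]
  exact h.poly_le _ h1.le f (norm_nonneg _) (hG.coeff_le f)

include hF hk hy in
theorem gt_of_poly [Nontrivial V] {w : Valuation U ℝ≥0}
    (h : ∀ f : k[X], (w (aeval yU f) : ℝ) = ‖aeval y f‖) : GT X w := by
  intro z hz u hu
  obtain ⟨f, g, hg, rfl⟩ := (hF z).1 hz
  have hu2 : u * aeval yU g = aeval yU f := by
    apply X.j.injective
    rw [map_mul, hu, j_aeval hk _ _ hy, j_aeval hk _ _ hy, ← map_mul,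
      div_mul_cancel₀ _ (hG.aeval_ne_zero hg)]
  have h1 : (w u : ℝ) * ‖aeval y g‖ = ‖aeval y f‖ := by
    rw [← h g, ← h f, ← hu2, map_mul, NNReal.coe_mul]
  rw [norm_div, eq_div_iff (norm_ne_zero_iff.2 (hG.aeval_ne_zero hg)), h1]


include hG in
/-- **A path leaves `|y| < 1` only through norms over the circle.** -/
theorem poly_of_frequently [IsUltrametricDist E] {T : Type*} [TopologicalSpace T]
    (w : T → Valuation U ℝ≥0) (t0 : T) (hc : ∀ u, ContinuousAt (fun t => w t u) t0)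
    (hNK : ∀ t, NK k (w t)) (h1 : w t0 yU = 1) (hfr : ∃ᶠ t in 𝓝 t0, w t yU < 1) (f : k[X]) :
    (w t0 (aeval yU f) : ℝ) = ‖aeval y f‖ := by
  classical
  rcases eq_or_ne f 0 with rfl | hf0
  · rw [map_zero, map_zero, map_zero, norm_zero]; rfl
  have hc' : ∀ u, ContinuousAt (fun t => (w t u : ℝ)) t0 := fun u =>
    NNReal.continuous_coe.continuousAt.comp (hc u)
  obtain ⟨m, hm, hlt⟩ := hG.exists_index hf0
  set M : ℝ := ‖aeval y f‖ with hM
  have hM0 : 0 < M := norm_pos_iff.2 (hG.aeval_ne_zero hf0)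
  -- bound for the small coefficients
  obtain ⟨θ, hθ0, hθM, hθ⟩ : ∃ θ : ℝ, 0 ≤ θ ∧ θ < M ∧ ∀ i < m, ‖f.coeff i‖ ≤ θ := by
    rcases Nat.eq_zero_or_pos m with hm0 | hm0
    · exact ⟨0, le_rfl, hM0, fun i hi => by omega⟩
    · have hs : (Finset.range m).Nonempty := ⟨0, Finset.mem_range.2 hm0⟩
      refine ⟨(Finset.range m).sup' hs fun i => ‖f.coeff i‖, ?_, ?_, ?_⟩
      · exact (norm_nonneg (f.coeff 0)).trans
          (Finset.le_sup' (fun i => ‖f.coeff i‖) (Finset.mem_range.2 hm0))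
      · rw [Finset.sup'_lt_iff]
        exact fun i hi => hlt i (Finset.mem_range.1 hi)
      · intro i hi
        exact Finset.le_sup' (fun i => ‖f.coeff i‖) (Finset.mem_range.2 hi)
  set F : Filter T := 𝓝 t0 ⊓ 𝓟 {t | w t yU < 1} with hFdef
  have hne : F.NeBot := by
    rw [hFdef]
    exact frequently_mem_iff_neBot.1 hfr
  have hlim : Tendsto (fun t => (w t (aeval yU f) : ℝ)) F (𝓝 (w t0 (aeval yU f))) :=
    (hc' _).tendsto.mono_left inf_le_left
  have hlim2 : Tendsto (fun t => M * (w t yU : ℝ) ^ m) F (𝓝 (M * 1 ^ m)) := by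
    have h2 : Tendsto (fun t => (w t yU : ℝ)) F (𝓝 1) := by
      have := (hc' yU).tendsto.mono_left (inf_le_left : F ≤ 𝓝 t0)
      rw [h1] at this
      exact this
    exact (h2.pow m).const_mul M
  have hev : ∀ᶠ t in F, θ < M * (w t yU : ℝ) ^ m :=
    hlim2.eventually (lt_mem_nhds (by rw [one_pow, mul_one]; exact hθM))
  have hev2 : ∀ᶠ t in F, w t yU < 1 := mem_inf_of_right (mem_principal_self _)
  have hev3 : ∀ᶠ t in F, 0 < w t yU := by
    have h2 : Tendsto (fun t => w t yU) F (𝓝 1) := by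
      have := (hc yU).tendsto.mono_left (inf_le_left : F ≤ 𝓝 t0)
      rw [h1] at this
      exact this
    exact h2.eventually (lt_mem_nhds one_pos)
  have heq : ∀ᶠ t in F, (w t (aeval yU f) : ℝ) = M * (w t yU : ℝ) ^ m := by
    filter_upwards [hev, hev2, hev3] with t h2 h3 h4
    -- the terms
    have hterm : ∀ i, (w t (f.coeff i • yU ^ i) : ℝ) = ‖f.coeff i‖ * (w t yU : ℝ) ^ i := by
      intro i
      rw [Algebra.smul_def, map_mul, map_pow, NNReal.coe_mul, hNK t, NNReal.coe_pow]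
    have hw1 : (w t yU : ℝ) < 1 := by exact_mod_cast h3
    have hw0 : (0 : ℝ) < w t yU := by exact_mod_cast h4
    have hlt' : ∀ i, i ≠ m → (w t (f.coeff i • yU ^ i) : ℝ) < M * (w t yU : ℝ) ^ m := by
      intro i hi
      rw [hterm]
      rcases lt_or_gt_of_ne hi with h | h
      · calc ‖f.coeff i‖ * (w t yU : ℝ) ^ i ≤ θ * 1 :=
              mul_le_mul (hθ i h) (pow_le_one₀ hw0.le hw1.le) (by positivity) hθ0
          _ = θ := mul_one _
          _ < _ := h2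
      · calc ‖f.coeff i‖ * (w t yU : ℝ) ^ i ≤ M * (w t yU : ℝ) ^ i :=
              mul_le_mul_of_nonneg_right (hG.coeff_le f i) (by positivity)
          _ < M * (w t yU : ℝ) ^ m :=
              mul_lt_mul_of_pos_left (pow_lt_pow_right_of_lt_one₀ hw0 hw1 h) hM0
    have hmm : (w t (f.coeff m • yU ^ m) : ℝ) = M * (w t yU : ℝ) ^ m := by
      rw [hterm, hm]
    have hmr : m ∈ Finset.range (f.natDegree + 1) := by
      rw [Finset.mem_range]
      by_contra hcon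
      have : f.coeff m = 0 := coeff_eq_zero_of_natDegree_lt (by omega)
      rw [this, norm_zero] at hm
      exact hM0.ne hm
    have hsum : aeval yU f = f.coeff m • yU ^ m +
        ∑ i ∈ (Finset.range (f.natDegree + 1)).erase m, f.coeff i • yU ^ i := by
      rw [aeval_eq_sum_range]
      exact (Finset.add_sum_erase _ (fun i => f.coeff i • yU ^ i) hmr).symm
    have hrest : w t (∑ i ∈ (Finset.range (f.natDegree + 1)).erase m, f.coeff i • yU ^ i) <
        w t (f.coeff m • yU ^ m) := by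
      refine Valuation.map_sum_lt' (w t) ?_ fun i hi => ?_
      · rw [← NNReal.coe_lt_coe, hmm, NNReal.coe_zero]; positivity
      · rw [← NNReal.coe_lt_coe, hmm]
        exact hlt' i (Finset.ne_of_mem_erase hi)
    rw [hsum, Valuation.map_add_eq_of_lt_left _ hrest, hmm]
  have h5 := tendsto_nhds_unique (hlim.congr' heq) hlim2
  rw [h5, one_pow, mul_one]

end Norms

end Circle

end Crest.Agent.R013.NB_102
end
namespace Crest.Agent.R013.NB_102.GT
end Crest.Agent.R013.NB_102.GT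
end

-- ▼ part R013/NB6_102

/-!
# Row 13, C-NB, part 6: LOOP ⇒ NonBridge

`w0` a norm of `U` over the circle `|y| = 1`, `e` the atom of `w0` in `V = E ⊗ U`.  If a path of norms
with `|y| ≥ 1` and a path of norms with `|y| < 1` (except at `w0`) start at `w0` and their ends are
joined by a path of norms `≠ w0`, then `e` is not a bridge.
-/

set_option autoImplicit false
set_option linter.unusedSectionVars false
set_option linter.unusedTactic false

noncomputable section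

namespace Crest.Agent.R013.NB_102

open Module Filter Topology Polynomial
open Crest.Agent.R013.Gl946 Crest.Agent.R013.A2a_275 Crest.Agent.R013.CutCov_92
open scoped NNReal

/-- A locally constant predicate on a preconnected space is constant. -/
theorem const_of_eventually {T : Type*} [TopologicalSpace T] [PreconnectedSpace T] (P : T → Prop)
    (h : ∀ t0, ∀ᶠ t in 𝓝 t0, (P t ↔ P t0)) (s t : T) : P s ↔ P t := by
  have hcl : IsClopen {t | P t} := by
    refine ⟨⟨?_⟩, ?_⟩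
    · rw [isOpen_iff_mem_nhds]
      intro t0 ht0
      filter_upwards [h t0] with t ht h1
      exact ht0 (ht.1 h1)
    · rw [isOpen_iff_mem_nhds]
      intro t0 ht0
      filter_upwards [h t0] with t ht
      exact ht.2 ht0
  rcases isClopen_iff.1 hcl with h1 | h1
  · have a : ¬ P s := fun hs => (Set.eq_empty_iff_forall_notMem.1 h1 s) hs
    have b : ¬ P t := fun hs => (Set.eq_empty_iff_forall_notMem.1 h1 t) hs
    exact ⟨fun h => absurd h a, fun h => absurd h b⟩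
  · have a : P s := (Set.eq_univ_iff_forall.1 h1 s)
    have b : P t := (Set.eq_univ_iff_forall.1 h1 t)
    exact ⟨fun _ => b, fun _ => a⟩

section Loop

variable {k E : Type*} [NormedField k] [CompleteSpace k] [NormedField E] [NormedAlgebra k E]
  [IsUltrametricDist E] [CompleteSpace E] {y : E}
  (hG : IsGauss k y) {π : k} (hπ : IsUnif π) (hd : DenseRat k y)

theorem dense_F0 {y : E} (hd : DenseRat k y) (hG : IsGauss k y) (F0 : Subfield E)
    (hF : ∀ z : E, z ∈ F0 ↔ z ∈ KY hG) : Dense (F0 : Set E) := by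
  intro x
  rw [Metric.mem_closure_iff]
  intro η hη
  obtain ⟨f, g, hg, h⟩ := hd x η hη
  refine ⟨aeval y f / aeval y g, (hF _).2 ⟨f, g, hg, rfl⟩, ?_⟩
  rw [dist_eq_norm]; exact h

section Abs

variable {V U ι : Type*} [CommRing V] [Algebra E V] [Nontrivial V] [Field U] [Fintype ι]
  [Algebra k U] {X : Dat E V U ι} (hF : ∀ z : E, z ∈ X.F0 ↔ z ∈ KY hG)
  (hk : ∀ c : k, X.j (algebraMap k U c) = algebraMap E V (algebraMap k E c))
  {yU : U} (hy : X.j yU = algebraMap E V y)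

/-- The label: `δ` inside, `ε` outside. -/
def Lab (yU : U) (ε δ : V) (w : Valuation U ℝ≥0) : Prop :=
  (w yU < 1 → Val0 (QP hG hπ hd X.F0 hF) w δ) ∧ (1 ≤ w yU → Val0 (QU hG X.F0 hF) w ε)

omit [Nontrivial V] [Algebra k U] in
theorem lab_in {ε δ : V} {w : Valuation U ℝ≥0} (h : w yU < 1) :
    Lab hG hπ hd hF yU ε δ w ↔ Val0 (QP hG hπ hd X.F0 hF) w δ :=
  ⟨fun H => H.1 h, fun H => ⟨fun _ => H, fun h' => absurd h (not_lt.2 h')⟩⟩

omit [Nontrivial V] [Algebra k U] in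
theorem lab_out {ε δ : V} {w : Valuation U ℝ≥0} (h : 1 ≤ w yU) :
    Lab hG hπ hd hF yU ε δ w ↔ Val0 (QU hG X.F0 hF) w ε :=
  ⟨fun H => H.2 h, fun H => ⟨fun h' => absurd h' (not_lt.2 h), fun _ => H⟩⟩

include hk hy in
/-- The label is locally constant, if it is consistent at the norms over the circle. -/
theorem lab_eventually {ε δ : V} (hε : ε ∈ X.VR (QU hG X.F0 hF).R (QU hG X.F0 hF).F0_le)
    (hδ : δ ∈ X.VR (QP hG hπ hd X.F0 hF).R (QP hG hπ hd X.F0 hF).F0_le)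
    (hεε : ε * ε = ε) (hδδ : δ * δ = δ) {T : Type*} [TopologicalSpace T]
    (w : T → Valuation U ℝ≥0) (t0 : T) (hc : ∀ u, ContinuousAt (fun t => w t u) t0)
    (hNK : ∀ t, NK k (w t))
    (hcons : GT X (w t0) → (Val0 (QU hG X.F0 hF) (w t0) ε ↔ Val0 (QP hG hπ hd X.F0 hF) (w t0) δ)) :
    ∀ᶠ t in 𝓝 t0, (Lab hG hπ hd hF yU ε δ (w t) ↔ Lab hG hπ hd hF yU ε δ (w t0)) := by
  rcases lt_trichotomy (w t0 yU) 1 with h | h | h
  · have h1 := eventually_val0 (QP hG hπ hd X.F0 hF) hδ hδδ w t0 hc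
      (bdP hG hF hk hy hπ hd (hNK t0) h)
    have h2 : ∀ᶠ t in 𝓝 t0, w t yU < 1 := (hc yU).eventually (gt_mem_nhds h)
    filter_upwards [h1, h2] with t h3 h4
    rw [lab_in hG hπ hd hF h4, lab_in hG hπ hd hF h]
    exact h3 (bdP hG hF hk hy hπ hd (hNK t) h4)
  · have hU0 := bdU hG hF hk hy (hNK t0) h.ge
    have hU := eventually_val0 (QU hG X.F0 hF) hε hεε w t0 hc hU0
    by_cases hfr : ∃ᶠ t in 𝓝 t0, w t yU < 1
    · have hgt : GT X (w t0) := gt_of_poly hG hF hk hy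
        (poly_of_frequently hG w t0 hc hNK h hfr)
      have hP := eventually_val0 (QP hG hπ hd X.F0 hF) hδ hδδ w t0 hc (hgt.bdV _)
      filter_upwards [hU, hP] with t h3 h4
      rw [lab_out hG hπ hd hF h.ge]
      rcases lt_or_ge (w t yU) 1 with h5 | h5
      · rw [lab_in hG hπ hd hF h5, h4 (bdP hG hF hk hy hπ hd (hNK t) h5), hcons hgt]
      · rw [lab_out hG hπ hd hF h5]
        exact h3 (bdU hG hF hk hy (hNK t) h5)
    · rw [not_frequently] at hfr
      filter_upwards [hU, hfr] with t h3 h4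
      rw [lab_out hG hπ hd hF h.ge, lab_out hG hπ hd hF (not_lt.1 h4)]
      exact h3 (bdU hG hF hk hy (hNK t) (not_lt.1 h4))
  · have h1 := eventually_val0 (QU hG X.F0 hF) hε hεε w t0 hc
      (bdU hG hF hk hy (hNK t0) h.le)
    have h2 : ∀ᶠ t in 𝓝 t0, 1 < w t yU := (hc yU).eventually (lt_mem_nhds h)
    filter_upwards [h1, h2] with t h3 h4
    rw [lab_out hG hπ hd hF h4.le, lab_out hG hπ hd hF h.le]
    exact h3 (bdU hG hF hk hy (hNK t) h4.le)

include hk hy in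
/-- **LOOP, abstract form.** -/
theorem eq_of_loop {ε δ e : V} (hε : ε ∈ X.VR (QU hG X.F0 hF).R (QU hG X.F0 hF).F0_le)
    (hδ : δ ∈ X.VR (QP hG hπ hd X.F0 hF).R (QP hG hπ hd X.F0 hF).F0_le)
    (hεε : ε * ε = ε) (hδδ : δ * δ = δ) (heq : (1 - e) * ε = (1 - e) * δ)
    {w0 : Valuation U ℝ≥0} (h0 : GT X w0)
    (he : ∀ w : Valuation U ℝ≥0, GT X w → w ≠ w0 →
      ∀ Φ : V →+* Cpl w, IsEvV X (toCpl w) Φ → Φ e = 0)
    {A : Type*} [TopologicalSpace A] [PreconnectedSpace A] (α : A → Valuation U ℝ≥0) (a0 a1 : A)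
    (hαc : ∀ u, Continuous fun t => α t u) (hαK : ∀ t, NK k (α t)) (hα0 : α a0 = w0)
    (hαy : ∀ t, 1 ≤ α t yU)
    {B : Type*} [TopologicalSpace B] [PreconnectedSpace B] (β : B → Valuation U ℝ≥0) (b0 b1 : B)
    (hβc : ∀ u, Continuous fun t => β t u) (hβK : ∀ t, NK k (β t)) (hβ0 : β b0 = w0)
    (hβy : ∀ t, t ≠ b0 → β t yU < 1) (hb : b1 ≠ b0)
    {C : Type*} [TopologicalSpace C] [PreconnectedSpace C] (γ : C → Valuation U ℝ≥0) (c0 c1 : C)
    (hγc : ∀ u, Continuous fun t => γ t u) (hγK : ∀ t, NK k (γ t)) (hγ0 : γ c0 = α a1)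
    (hγ1 : γ c1 = β b1) (hγne : ∀ t, γ t ≠ w0) : ε = δ := by
  have hden := dense_F0 hd hG X.F0 hF
  -- consistency away from `w0`
  have hcons : ∀ w : Valuation U ℝ≥0, GT X w → w ≠ w0 →
      (Val0 (QU hG X.F0 hF) w ε ↔ Val0 (QP hG hπ hd X.F0 hF) w δ) := by
    intro w hw hne
    obtain ⟨Φ, hΦ⟩ := hw.exists_isEvV hden
    rw [hΦ.val0 _ hw hε hεε, hΦ.val0 _ hw hδ hδδ]
    have h1 := congrArg Φ heq
    rw [map_mul, map_mul, map_sub, map_one, he w hw hne Φ hΦ, sub_zero, one_mul, one_mul] at h1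
    rw [h1]
  -- along `α`
  have h1 : Val0 (QU hG X.F0 hF) w0 ε ↔ Val0 (QU hG X.F0 hF) (α a1) ε := by
    rw [← hα0]
    refine const_of_eventually (fun t => Val0 (QU hG X.F0 hF) (α t) ε) (fun t0 => ?_) a0 a1
    filter_upwards [eventually_val0 (QU hG X.F0 hF) hε hεε α t0 (fun u => (hαc u).continuousAt)
      (bdU hG hF hk hy (hαK t0) (hαy t0))] with t ht
    exact ht (bdU hG hF hk hy (hαK t) (hαy t))
  -- along `β`
  have hβbd : ∀ t, BdV (QP hG hπ hd X.F0 hF) (β t) := by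
    intro t
    by_cases ht : t = b0
    · rw [ht, hβ0]; exact h0.bdV _
    · exact bdP hG hF hk hy hπ hd (hβK t) (hβy t ht)
  have h2 : Val0 (QP hG hπ hd X.F0 hF) w0 δ ↔ Val0 (QP hG hπ hd X.F0 hF) (β b1) δ := by
    rw [← hβ0]
    refine const_of_eventually (fun t => Val0 (QP hG hπ hd X.F0 hF) (β t) δ) (fun t0 => ?_) b0 b1
    filter_upwards [eventually_val0 (QP hG hπ hd X.F0 hF) hδ hδδ β t0
      (fun u => (hβc u).continuousAt) (hβbd t0)] with t ht
    exact ht (hβbd t)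
  -- along `γ`
  have h3 : Lab hG hπ hd hF yU ε δ (γ c0) ↔ Lab hG hπ hd hF yU ε δ (γ c1) := by
    refine const_of_eventually (fun t => Lab hG hπ hd hF yU ε δ (γ t)) (fun t0 => ?_) c0 c1
    exact lab_eventually hG hπ hd hF hk hy hε hδ hεε hδδ γ t0 (fun u => (hγc u).continuousAt) hγK
      (fun hgt => hcons _ hgt (hγne t0))
  rw [hγ0, hγ1, lab_out hG hπ hd hF (hαy a1), lab_in hG hπ hd hF (hβy b1 hb)] at h3
  have h4 : Val0 (QU hG X.F0 hF) w0 ε ↔ Val0 (QP hG hπ hd X.F0 hF) w0 δ := by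
    rw [h1, h3, ← h2]
  let nn : NontriviallyNormedField E :=
    { ‹NormedField E› with
      non_trivial := ⟨algebraMap k E π⁻¹, by
        change 1 < ‖algebraMap k E π⁻¹‖
        rw [norm_algebraMap', norm_inv]
        exact (one_lt_inv₀ hπ.pos).2 hπ.lt_one⟩ }
  refine eq_of_values (X := X) (QU hG X.F0 hF) (QP hG hπ hd X.F0 hF) hε hδ hεε hδδ fun w hw => ?_
  by_cases hne : w = w0
  · rw [hne]; exact h4
  · exact hcons w hw hne

end Abs

section Final

variable {V : Type*} [CommRing V] [Algebra E V] {D : PatchDatum E} {d : ℕ}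
  {U : Type*} [Field U]

/-- The data of `Dat` from an `Edge` (helper92). -/
def datOf (X : Edge D V d) (j : U →+* V) (hj : ∀ v, v ∈ X.L ↔ ∃ u, j u = v) :
    Dat E V U (Fin d) where
  b := X.b
  F0 := D.F0
  j := j
  hj v := by
    rw [← X.hL, hj]
    rfl

/-- **LOOP ⇒ NonBridge.** -/
theorem nonBridge_of_loop [Nontrivial V]
    (hD0 : ∀ z : E, z ∈ D.F0 ↔ z ∈ KY hG) (hDU : ∀ z ∈ D.RU, z ∈ RU k y)
    (hDP : ∀ z ∈ D.FP, z ∈ FP hG hπ hd)
    (X : Edge D V d) (j : U →+* V) (hj : ∀ v, v ∈ X.L ↔ ∃ u, j u = v) [Algebra k U]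
    (hk : ∀ c : k, j (algebraMap k U c) = algebraMap E V (algebraMap k E c))
    {yU : U} (hy : j yU = algebraMap E V y)
    {w0 : Valuation U ℝ≥0} (h0 : GT (datOf X j hj) w0)
    (he : ∀ w : Valuation U ℝ≥0, GT (datOf X j hj) w → w ≠ w0 →
      ∀ Φ : V →+* Cpl w, IsEvV (datOf X j hj) (toCpl w) Φ → Φ X.e = 0)
    {A : Type*} [TopologicalSpace A] [PreconnectedSpace A] (α : A → Valuation U ℝ≥0) (a0 a1 : A)
    (hαc : ∀ u, Continuous fun t => α t u) (hαK : ∀ t, NK k (α t)) (hα0 : α a0 = w0)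
    (hαy : ∀ t, 1 ≤ α t yU)
    {B : Type*} [TopologicalSpace B] [PreconnectedSpace B] (β : B → Valuation U ℝ≥0) (b0 b1 : B)
    (hβc : ∀ u, Continuous fun t => β t u) (hβK : ∀ t, NK k (β t)) (hβ0 : β b0 = w0)
    (hβy : ∀ t, t ≠ b0 → β t yU < 1) (hb : b1 ≠ b0)
    {C : Type*} [TopologicalSpace C] [PreconnectedSpace C] (γ : C → Valuation U ℝ≥0) (c0 c1 : C)
    (hγc : ∀ u, Continuous fun t => γ t u) (hγK : ∀ t, NK k (γ t)) (hγ0 : γ c0 = α a1)
    (hγ1 : γ c1 = β b1) (hγne : ∀ t, γ t ≠ w0) : X.NonBridge := by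
  intro ε hε δ hδ hεε hδδ heq
  refine eq_of_loop (X := datOf X j hj) hG hπ hd hD0 hk hy (fun i => hDU _ (hε i))
    (fun i => hDP _ (hδ i)) hεε hδδ heq h0 he α a0 a1 hαc hαK hα0 hαy β b0 b1 hβc hβK hβ0 hβy hb
    γ c0 c1 hγc hγK hγ0 hγ1 hγne

end Final

end Loop

end Crest.Agent.R013.NB_102
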