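import Mathlib
import Crest.Agent.R013.RR19_948

-- ▼ part R013/Slo1_671
section

/-!
# R013 / Slo1: slopes over a topological cover, the graph computation (helper671)

`EM → VM` is the graph of the cover, `π : EM → E` the edges of the base, `θ : VM → G` the sheet
number (values in an abelian group killed by `n`), `δ : E → G` the jump along an edge.
-/

set_option autoImplicit false

namespace Crest.Agent.R013.Slo1_671

open Finset

section

variable {VM EM E G : Type*} [Fintype VM] [DecidableEq VM] [Fintype EM] [Fintype E]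
  [DecidableEq E] [AddCommGroup G]

theorem smul_eq_of_dvd {n : ℕ} (hn : ∀ g : G, n • g = 0) {a b : ℤ} (h : (n : ℤ) ∣ a - b) (g : G) :
    a • g = b • g := by
  obtain ⟨c, hc⟩ := h
  have h1 : a = b + c * n := by rw [mul_comm]; omega
  rw [h1, add_smul, mul_smul, natCast_zsmul, hn, smul_zero, add_zero]

/-- multiply Kirchhoff's law at `w` by `θ w` and sum over `w` -/
theorem sum_smul_theta (src tgt : EM → VM) (o1 o2 : EM → ℤ) (D : VM → ℤ) (θ : VM → G)
    (K : ∀ w, D w + ∑ e with src e = w, o1 e + ∑ e with tgt e = w, o2 e = 0) :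
    ∑ w, D w • θ w + ∑ e, o1 e • θ (src e) + ∑ e, o2 e • θ (tgt e) = 0 := by
  have h1 : ∑ w, (D w + ∑ e with src e = w, o1 e + ∑ e with tgt e = w, o2 e) • θ w = 0 := by
    simp [K]
  have h2 : ∀ (o : EM → ℤ) (s : EM → VM),
      ∑ w, (∑ e with s e = w, o e) • θ w = ∑ e, o e • θ (s e) := by
    intro o s
    calc ∑ w, (∑ e with s e = w, o e) • θ w
        = ∑ w, ∑ e with s e = w, o e • θ (s e) := by
          apply Finset.sum_congr rfl
          intro w _
          rw [Finset.sum_smul]
          apply Finset.sum_congr rfl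
          intro e he
          rw [(Finset.mem_filter.mp he).2]
      _ = ∑ e, o e • θ (s e) := Finset.sum_fiberwise _ _ _
  simp only [add_smul, Finset.sum_add_distrib] at h1
  rw [h2 o1 src, h2 o2 tgt] at h1
  exact h1

/-- the slope formula over the cover -/
theorem sum_slope {n : ℕ} (hn : ∀ g : G, n • g = 0) (src tgt : EM → VM) (π : EM → E)
    (o1 o2 : EM → ℤ) (D : VM → ℤ) (θ : VM → G) (δ : E → G) (s : E → ℤ)
    (hθ : ∀ e, θ (tgt e) = θ (src e) + δ (π e))
    (K : ∀ w, D w + ∑ e with src e = w, o1 e + ∑ e with tgt e = w, o2 e = 0)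
    (hA : ∀ e, (n : ℤ) ∣ o1 e + o2 e)
    (hs : ∀ e, (n : ℤ) ∣ s e - ∑ e' with π e' = e, o1 e') :
    ∑ w, D w • θ w = ∑ e, s e • δ e := by
  have h1 := sum_smul_theta src tgt o1 o2 D θ K
  have h2 : ∀ e, o2 e • θ (tgt e) = -(o1 e • θ (src e)) - o1 e • δ (π e) := by
    intro e
    have h3 : o2 e • θ (tgt e) = (-o1 e) • θ (tgt e) := by
      apply smul_eq_of_dvd hn
      have := hA e
      rwa [sub_neg_eq_add, add_comm]
    rw [h3, hθ, neg_smul, smul_add, neg_add, sub_eq_add_neg]
  have h4 : ∑ e, s e • δ e = ∑ e, o1 e • δ (π e) := by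
    calc ∑ e, s e • δ e = ∑ e, (∑ e' with π e' = e, o1 e') • δ e :=
          Finset.sum_congr rfl fun e _ => smul_eq_of_dvd hn (hs e) _
      _ = ∑ e, ∑ e' with π e' = e, o1 e' • δ (π e') := by
          apply Finset.sum_congr rfl
          intro e _
          rw [Finset.sum_smul]
          apply Finset.sum_congr rfl
          intro e' he
          rw [(Finset.mem_filter.mp he).2]
      _ = ∑ e, o1 e • δ (π e) := Finset.sum_fiberwise _ _ _
  simp only [h2, Finset.sum_sub_distrib, Finset.sum_neg_distrib] at h1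
  rw [h4]
  have h5 : ∑ w, D w • θ w - ∑ e, o1 e • δ (π e) = 0 := by
    rw [← h1]; abel
  exact sub_eq_zero.mp h5

end

/-! ### path lifting: the group of the cover is everything -/

section path

variable {VM EM V E G Γ : Type*} [AddCommGroup G] [Group Γ] [MulAction Γ VM]

/-- Walks in a graph `src, tgt : E → V`: lists of oriented edges. -/
inductive Walk (src tgt : E → V) : V → V → Type _
  | nil (v : V) : Walk src tgt v v
  | fwd {v w : V} (e : E) (h : src e = v) (p : Walk src tgt (tgt e) w) : Walk src tgt v w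
  | bwd {v w : V} (e : E) (h : tgt e = v) (p : Walk src tgt (src e) w) : Walk src tgt v w

variable {src tgt : E → V}

/-- the total jump along a walk -/
def Walk.jump (δ : E → G) : {v w : V} → Walk src tgt v w → G
  | _, _, .nil _ => 0
  | _, _, .fwd e _ p => δ e + p.jump δ
  | _, _, .bwd e _ p => -δ e + p.jump δ

/-- a walk in the base lifts -/
theorem Walk.lift {srcM tgtM : EM → VM} {πV : VM → V} {πE : EM → E} {θ : VM → G} {δ : E → G}
    (hsrc : ∀ e' v', src e' = πV v' → ∃ e, πE e = e' ∧ srcM e = v')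
    (htgt : ∀ e' v', tgt e' = πV v' → ∃ e, πE e = e' ∧ tgtM e = v')
    (hs : ∀ e, πV (srcM e) = src (πE e)) (ht : ∀ e, πV (tgtM e) = tgt (πE e))
    (hθ : ∀ e, θ (tgtM e) = θ (srcM e) + δ (πE e)) :
    ∀ {v w : V} (p : Walk src tgt v w) (v' : VM), πV v' = v →
      ∃ w' : VM, πV w' = w ∧ θ w' = θ v' + p.jump δ := by
  intro v w p
  induction p with
  | nil v => exact fun v' hv => ⟨v', hv, by simp [Walk.jump]⟩
  | fwd e h p ih =>
    intro v' hv
    obtain ⟨e', he, he'⟩ := hsrc e v' (h.trans hv.symm)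
    obtain ⟨w', hw, hw'⟩ := ih (tgtM e') (by rw [ht, he])
    refine ⟨w', hw, ?_⟩
    rw [hw', hθ, he, he', Walk.jump, add_assoc]
  | bwd e h p ih =>
    intro v' hv
    obtain ⟨e', he, he'⟩ := htgt e v' (h.trans hv.symm)
    obtain ⟨w', hw, hw'⟩ := ih (srcM e') (by rw [hs, he])
    refine ⟨w', hw, ?_⟩
    have h1 := hθ e'
    rw [he, he'] at h1
    rw [hw', Walk.jump, h1]
    abel


end path

end Crest.Agent.R013.Slo1_671
private theorem rz_b538a59031 : type_of% @_root_.Crest.Agent.R013.Slo1_671.Walk.jump.eq_def := @_root_.Crest.Agent.R013.Slo1_671.Walk.jump.eq_def -- L99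
private theorem rz_b1f87b014e : type_of% @_root_.Crest.Agent.R013.Slo1_671.Walk.jump.eq_1 := @_root_.Crest.Agent.R013.Slo1_671.Walk.jump.eq_1 -- L99
end

-- ▼ part R013/Slo2_671

/-!
# R013 / Slo2: functions with prescribed slopes from a topological cover (helper671)

`M/K` a finite Galois extension of function fields over `C` (948's context), which is a topological
cover: `Gal(M/K)` acts on the finite graph `EM ⇉ VM`, `θ : VM → G` the sheet number.
The Galois group acts on the places of `M` (`act`), the divisors of a conjugate function (`divf_act`),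
the norm of a function whose divisor is `(σ Q) - (Q) + n D` (`exists_slope`).
-/

set_option autoImplicit false
set_option linter.all false

namespace Crest.Agent.R013.Slo2_671

open WithZero Module Finset
open Crest.Agent.R013.RR7_948 Crest.Agent.R013.RR8_948 Crest.Agent.R013.RR9_948
open Crest.Agent.R013.RR11_948 Crest.Agent.R013.RR12_948 Crest.Agent.R013.RR13_948
open Crest.Agent.R013.RR18_948 Crest.Agent.R013.RR19_948
open Crest.Agent.R013.Slo1_671

section act

variable {k : Type*} [Field k] {K : Type*} [Field K] [Algebra k K] {M : Type*} [Field M]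
  [Algebra k M] [Algebra K M] [IsScalarTower k K M]

/-- the action of a `K`-automorphism on the places: `(σ P)(f) = P(σ⁻¹ f)` -/
noncomputable def act (σ : M ≃ₐ[K] M) (P : Pl k M) : Pl k M where
  v := P.v.comap ((σ.symm : M ≃ₐ[K] M) : M →+* M)
  const := fun c hc => by
    rw [Valuation.comap_apply]
    have h : (σ.symm : M →+* M) (algebraMap k M c) = algebraMap k M c := by
      rw [IsScalarTower.algebraMap_apply k K M]
      exact σ.symm.commutes _
    rw [h]
    exact P.const c hc
  surj := fun y => by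
    obtain ⟨x, hx⟩ := P.surj y
    refine ⟨σ x, ?_⟩
    rw [Valuation.comap_apply]
    have h : (σ.symm : M →+* M) (σ x) = x := σ.symm_apply_apply x
    rw [h, hx]

theorem act_v (σ : M ≃ₐ[K] M) (P : Pl k M) (f : M) : (act σ P).v f = P.v (σ.symm f) := rfl

theorem act_v' (σ : M ≃ₐ[K] M) (P : Pl k M) (f : M) : (act σ P).v (σ f) = P.v f := by
  rw [act_v, σ.symm_apply_apply]

theorem act_one (P : Pl k M) : act (1 : M ≃ₐ[K] M) P = P := by
  apply Pl.ext; ext f; rfl

theorem act_mul (σ τ : M ≃ₐ[K] M) (P : Pl k M) : act (σ * τ) P = act σ (act τ P) := by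
  apply Pl.ext; ext f; rfl


end act

section ctx

variable {k : Type*} [Field k] {K : Type*} [Field K] [Algebra k K] {M : Type*} [Field M]
  [Algebra k M] [Algebra (RatFunc k) M] [IsScalarTower k (RatFunc k) M]
  [FiniteDimensional (RatFunc k) M] [Algebra.IsSeparable (RatFunc k) M] [Algebra K M]
  [IsScalarTower k K M]

theorem divf_act {f : M} (hf : f ≠ 0) (σ : M ≃ₐ[K] M) (P : Pl k M) :
    divf (k := k) (σ f) (act σ P) = divf f P := by
  have hσ : σ f ≠ 0 := by simpa using hf
  have h := act_v' σ P f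
  rw [v_eq hσ, v_eq hf, exp_inj] at h
  omega

theorem divf_act' {f : M} (hf : f ≠ 0) (σ : M ≃ₐ[K] M) (P : Pl k M) :
    divf (k := k) (σ f) P = divf f (act σ⁻¹ P) := by
  rw [← divf_act hf σ (act σ⁻¹ P), ← act_mul, mul_inv_cancel, act_one]

theorem divf_prod {ι : Type*} (s : Finset ι) (f : ι → M) (hf : ∀ i ∈ s, f i ≠ 0) :
    divf (k := k) (∏ i ∈ s, f i) = ∑ i ∈ s, divf (f i) := by
  classical
  induction s using Finset.induction_on with
  | empty => simp [divf_one]
  | insert a s ha ih =>
    rw [Finset.prod_insert ha, Finset.sum_insert ha, divf_mul (hf a (mem_insert_self a s))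
      (Finset.prod_ne_zero_iff.mpr fun i hi => hf i (mem_insert_of_mem hi)),
      ih fun i hi => hf i (mem_insert_of_mem hi)]

/-- the degree of the part of a divisor in a cell (places of degree one) -/
noncomputable def cdeg {X : Type*} [DecidableEq X] (cell : Pl k M → X) (x : X) :
    (Pl k M →₀ ℤ) →+ ℤ where
  toFun D := D.sum fun P n => if cell P = x then n else 0
  map_zero' := by simp
  map_add' D E := by
    rw [Finsupp.sum_add_index']
    · intro P; simp
    · intro P a b; split_ifs <;> simp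

theorem cdeg_apply {X : Type*} [DecidableEq X] (cell : Pl k M → X) (x : X) (D : Pl k M →₀ ℤ) :
    cdeg cell x D = D.sum fun P n => if cell P = x then n else 0 := rfl

theorem cdeg_single {X : Type*} [DecidableEq X] (cell : Pl k M → X) (x : X) (P : Pl k M) (n : ℤ) :
    cdeg cell x (Finsupp.single P n) = if cell P = x then n else 0 := by
  rw [cdeg_apply, Finsupp.sum_single_index]; simp

end ctx

section main

variable {k : Type*} [Field k] {K : Type*} [Field K] [Algebra k K] [Algebra (RatFunc k) K]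
  [IsScalarTower k (RatFunc k) K] [FiniteDimensional (RatFunc k) K]
  [Algebra.IsSeparable (RatFunc k) K]
  {M : Type*} [Field M]
  [Algebra k M] [Algebra (RatFunc k) M] [IsScalarTower k (RatFunc k) M]
  [FiniteDimensional (RatFunc k) M] [Algebra.IsSeparable (RatFunc k) M] [Algebra K M]
  [IsScalarTower k K M] [FiniteDimensional K M] [IsGalois K M]

/-- **slopes from a topological cover.** `VM, EM` the graph of `M`, `E` the edges of `K`. -/
theorem exists_slope {VM EM E G : Type*} [Fintype VM] [DecidableEq VM] [Fintype EM]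
    [DecidableEq EM] [Fintype E] [DecidableEq E] [AddCommGroup G] {n : ℕ} (hn0 : 0 < n)
    (hn : ∀ g : G, n • g = 0)
    (hdiv : ∀ D : Pl k M →₀ ℤ, degD D = 0 →
      ∃ (F : Pl k M →₀ ℤ) (f : M), f ≠ 0 ∧ D = n • F + divf f)
    (hdeg : ∀ P : Pl k M, degP P = 1)
    (hunr : ∀ Q : Pl k M, eR K Q = 1)
    (src tgt : EM → VM) (π : EM → E)
    (aV : (M ≃ₐ[K] M) → VM → VM) (aE : (M ≃ₐ[K] M) → EM → EM)
    (aE_mul : ∀ σ τ e, aE (σ * τ) e = aE σ (aE τ e)) (aE_one : ∀ e, aE 1 e = e)
    (hπ : ∀ e e', π e = π e' ↔ ∃ σ, aE σ e = e')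
    (hfree : ∀ σ e, aE σ e = e → σ = 1)
    (hπs : Function.Surjective π)
    (cell : Pl k M → VM ⊕ EM)
    (hcell : ∀ σ P, cell (act σ P) = Sum.map (aV σ) (aE σ) (cell P))
    (o1 o2 : EM → M → ℤ)
    (o1_mul : ∀ e f g, f ≠ 0 → g ≠ 0 → o1 e (f * g) = o1 e f + o1 e g)
    (o1_act : ∀ σ e f, f ≠ 0 → o1 (aE σ e) (σ f) = o1 e f)
    (kirch : ∀ f : M, f ≠ 0 → ∀ w, cdeg cell (Sum.inl w) (divf f) + ∑ e with src e = w, o1 e f
      + ∑ e with tgt e = w, o2 e f = 0)
    (ann : ∀ f : M, f ≠ 0 → ∀ e, o1 e f + o2 e f = cdeg cell (Sum.inr e) (divf f))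
    (s : E → K → ℤ) (hs : ∀ e h, h ≠ 0 → o1 e (algebraMap K M h) = s (π e) h)
    (θ : VM → G) (φ : (M ≃ₐ[K] M) → G) (hθ : ∀ σ w, θ (aV σ w) = θ w + φ σ)
    (δ : E → G) (hδ : ∀ e, θ (tgt e) = θ (src e) + δ (π e))
    (Q : Pl k M) (w₀ : VM) (hQ : cell Q = Sum.inl w₀) (σ : M ≃ₐ[K] M) :
    ∃ h : K, h ≠ 0 ∧ (∀ P : Pl k K, (n : ℤ) ∣ divf h P) ∧ ∑ e, s e h • δ e = φ σ := by
  classical
  obtain ⟨F, f, hf, hD⟩ := hdiv (Finsupp.single (act σ Q) 1 - Finsupp.single Q 1) (by
    rw [sub_eq_add_neg, degD_add, ← Finsupp.single_neg, degD_single, degD_single, hdeg, hdeg]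
    simp)
  have hdivf : divf (k := k) f = Finsupp.single (act σ Q) 1 - Finsupp.single Q 1 - n • F := by
    rw [hD]; abel
  have hN : algebraMap K M (Algebra.norm K f) = ∏ τ : M ≃ₐ[K] M, τ f :=
    Algebra.norm_eq_prod_automorphisms K f
  have hNf : Algebra.norm K f ≠ 0 := by
    rw [Ne, Algebra.norm_eq_zero_iff]; exact hf
  have hτ : ∀ τ : M ≃ₐ[K] M, τ f ≠ 0 := fun τ => by simpa using hf
  have hcd : ∀ x : VM ⊕ EM, (n : ℤ) ∣ cdeg cell x (divf f) -
      ((if cell (act σ Q) = x then 1 else 0) - (if cell Q = x then 1 else 0)) := by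
    intro x
    rw [hdivf, map_sub, map_sub, cdeg_single, cdeg_single, map_nsmul, nsmul_eq_mul]
    exact ⟨-cdeg cell x F, by ring⟩
  refine ⟨Algebra.norm K f, hNf, ?_, ?_⟩
  · intro P
    obtain ⟨R, hR⟩ := above_nonempty (L := M) P
    rw [mem_above] at hR
    have h1 : divf (k := k) (algebraMap K M (Algebra.norm K f)) R
        = divf (Algebra.norm K f) P := by
      have h0 := v_algebraMap (K := K) R (Algebra.norm K f)
      rw [hunr, pow_one, hR, v_eq (k := k) hNf, v_eq (k := k)
        (by simpa using hNf : algebraMap K M (Algebra.norm K f) ≠ 0), exp_inj] at h0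
      omega
    rw [← h1, hN, divf_prod _ _ fun τ _ => hτ τ, Finsupp.finset_sum_apply]
    have h2 : ∀ τ : M ≃ₐ[K] M, divf (k := k) (τ f) R
        = (if act σ Q = act τ⁻¹ R then 1 else 0) - (if Q = act τ⁻¹ R then 1 else 0)
          - n * F (act τ⁻¹ R) := by
      intro τ
      rw [divf_act' hf, hdivf]
      simp only [Finsupp.sub_apply, Finsupp.single_apply, Finsupp.smul_apply, nsmul_eq_mul]
    simp only [h2]
    rw [Finset.sum_sub_distrib, Finset.sum_sub_distrib]
    have h3 : ∑ τ : M ≃ₐ[K] M, (if act σ Q = act τ⁻¹ R then (1 : ℤ) else 0)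
        = ∑ τ : M ≃ₐ[K] M, (if Q = act τ⁻¹ R then (1 : ℤ) else 0) := by
      apply Fintype.sum_equiv (Equiv.mulRight σ)
      intro τ
      have h4 : (act σ Q = act τ⁻¹ R) ↔ (Q = act ((Equiv.mulRight σ) τ)⁻¹ R) := by
        rw [Equiv.coe_mulRight, mul_inv_rev, act_mul]
        constructor
        · intro h
          rw [← h, ← act_mul, inv_mul_cancel, act_one]
        · intro h
          rw [h, ← act_mul, mul_inv_cancel, act_one]
      by_cases h5 : act σ Q = act τ⁻¹ R
      · rw [if_pos h5, if_pos (h4.mp h5)]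
      · rw [if_neg h5, if_neg (mt h4.mpr h5)]
    rw [h3, sub_self, zero_sub, ← Finset.mul_sum]
    exact (Dvd.intro _ rfl).neg_right
  · have key := sum_slope (n := n) hn src tgt π (fun e => o1 e f) (fun e => o2 e f)
      (fun w => cdeg cell (Sum.inl w) (divf f)) θ δ (fun e => s e (Algebra.norm K f)) hδ
      (kirch f hf) (by
        intro e
        rw [ann f hf e]
        have h1 := hcd (Sum.inr e)
        rw [hcell, hQ] at h1
        simpa using h1) (by
        intro e
        obtain ⟨e₀, rfl⟩ := hπs e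
        have h1 : s (π e₀) (Algebra.norm K f) = ∑ τ : M ≃ₐ[K] M, o1 (aE τ e₀) f := by
          rw [← hs e₀ _ hNf, hN]
          have h2 : ∀ t : Finset (M ≃ₐ[K] M), o1 e₀ (∏ τ ∈ t, τ f) = ∑ τ ∈ t, o1 (aE τ⁻¹ e₀) f := by
            intro t
            induction t using Finset.induction_on with
            | empty =>
              have h3 := o1_mul e₀ 1 1 one_ne_zero one_ne_zero
              rw [mul_one] at h3
              simp only [Finset.prod_empty, Finset.sum_empty]
              omega
            | insert τ t ht ih =>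
              rw [Finset.prod_insert ht, Finset.sum_insert ht, o1_mul _ _ _ (hτ τ)
                (Finset.prod_ne_zero_iff.mpr fun i _ => hτ i), ih]
              congr 1
              have h4 := o1_act τ (aE τ⁻¹ e₀) f hf
              rw [← aE_mul, mul_inv_cancel, aE_one] at h4
              exact h4
          rw [h2]
          exact Fintype.sum_equiv (Equiv.inv _) _ _ fun τ => rfl
        have h5 : ∑ τ : M ≃ₐ[K] M, o1 (aE τ e₀) f = ∑ e' with π e' = π e₀, o1 e' f := by
          refine Finset.sum_bij (fun τ _ => aE τ e₀) ?_ ?_ ?_ ?_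
          · intro τ _
            rw [Finset.mem_filter]
            exact ⟨mem_univ _, ((hπ _ _).mpr ⟨τ, rfl⟩).symm⟩
          · intro τ _ τ' _ h
            have h6 : aE (τ'⁻¹ * τ) e₀ = e₀ := by
              rw [aE_mul, h, ← aE_mul, inv_mul_cancel, aE_one]
            have h7 := hfree _ _ h6
            exact (inv_mul_eq_one.mp h7).symm
          · intro e' he'
            obtain ⟨τ, hτ'⟩ := (hπ e₀ e').mp (Finset.mem_filter.mp he').2.symm
            exact ⟨τ, mem_univ _, hτ'⟩
          · intro τ _; rfl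
        simp only [h1, h5, sub_self, dvd_zero])
    rw [← key]
    have h6 : ∀ w : VM, cdeg cell (Sum.inl w) (divf f) • θ w
        = (((if cell (act σ Q) = Sum.inl w then 1 else 0) - (if cell Q = Sum.inl w then 1 else 0) : ℤ))
          • θ w := fun w => smul_eq_of_dvd hn (hcd (Sum.inl w)) _
    rw [Finset.sum_congr rfl fun w _ => h6 w]
    simp only [sub_smul, Finset.sum_sub_distrib]
    rw [hcell, hQ]
    simp only [Sum.map_inl, Sum.inl.injEq, ite_smul, one_smul, zero_smul]
    rw [Finset.sum_ite_eq, Finset.sum_ite_eq]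
    simp [hθ]

end main

end Crest.Agent.R013.Slo2_671
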