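import Mathlib
import Crest.Agent.R013.RedD1_310
import Crest.Agent.R013.Cell4_408
import Crest.Agent.R013.EE4_809
import Crest.Agent.R013.AnW3_201
import Crest.Agent.R013.RedD3_310
import Crest.Agent.R013.GR3_921

-- ▼ part R013/RedD4_310
section

/-!
# R013 / RedD4: evaluation of two-sided series, cells, orders at points (helper310)
-/

set_option autoImplicit false
set_option linter.all false

namespace Crest.Agent.R013.RedD_310

open Filter Topology
open Crest.Agent.R013.Cell_408 (FinDef DiscNorm)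
open Crest.Agent.R013.EE809 Crest.Agent.R013.SSK_332

variable {k : Type*} [NontriviallyNormedField k] [CompleteSpace k]
variable {C : Type*} [NormedField C] [IsUltrametricDist C] [NormedAlgebra k C]
  [Algebra.IsAlgebraic k C]

/-! ### evaluation -/

/-- the series converges at `τ` -/
def Cv (τ : C) (a : EE k C) : Prop := Tendsto (fun n : ℤ => a.co n * τ ^ n) cofinite (𝓝 0)

omit [CompleteSpace k] [IsUltrametricDist C] in
theorem finDef_zpow {a : ℤ → C} (ha : FinDef k a) (τ : C) : FinDef k fun n : ℤ => a n * τ ^ n := by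
  obtain ⟨L, hL, h1, h2⟩ := ha.common (finDef_const (k := k) τ)
  exact ⟨L, hL, fun n => mul_mem (h1 n) (zpow_mem (h2 ()) n)⟩

theorem Cv.summable {τ : C} {a : EE k C} (h : Cv τ a) : Summable fun n : ℤ => a.co n * τ ^ n := by
  obtain ⟨L, hL, h1⟩ := finDef_zpow a.fd τ
  exact summable_of L h1 h

theorem evE_add {τ : C} {a b : EE k C} (ha : Cv τ a) (hb : Cv τ b) :
    evE τ (a + b) = evE τ a + evE τ b := by
  unfold evE
  rw [← ha.summable.tsum_add hb.summable]
  refine tsum_congr fun n => ?_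
  rw [co_add, add_mul]


theorem Cv.add {τ : C} {a b : EE k C} (ha : Cv τ a) (hb : Cv τ b) : Cv τ (a + b) := by
  have := Tendsto.add ha hb
  rw [add_zero] at this
  refine this.congr fun n => ?_
  rw [co_add, add_mul]

theorem Cv.neg {τ : C} {a : EE k C} (ha : Cv τ a) : Cv τ (-a) := by
  have := Tendsto.neg ha
  rw [neg_zero] at this
  refine this.congr fun n => ?_
  rw [co_neg, neg_mul]

theorem Cv.sub {τ : C} {a b : EE k C} (ha : Cv τ a) (hb : Cv τ b) : Cv τ (a - b) := by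
  rw [sub_eq_add_neg]; exact ha.add hb.neg


/-- multiplicativity of the evaluation at `τ ≠ 0` -/
theorem evE_mul {τ : C} (hτ : τ ≠ 0) {a b : EE k C} (ha : Cv τ a) (hb : Cv τ b) :
    evE τ (a * b) = evE τ a * evE τ b := by
  haveI : NonarchimedeanRing C := Crest.Agent.R013.Cell_408.nonarchRing C
  have hs := ha.summable.mul_of_nonarchimedean hb.summable
  have e1 : evE τ a * evE τ b =
      ∑' p : ℤ × ℤ, (a.co p.1 * τ ^ p.1) * (b.co p.2 * τ ^ p.2) :=
    ha.summable.tsum_mul_tsum hb.summable hs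
  have hsh : ∀ p : ℤ × ℤ, (a.co (shearEquiv p).2 * b.co ((shearEquiv p).1 - (shearEquiv p).2))
      * τ ^ (shearEquiv p).1 = (a.co p.1 * τ ^ p.1) * (b.co p.2 * τ ^ p.2) := by
    intro p
    simp only [shearEquiv, Equiv.coe_fn_mk]
    rw [show p.1 + p.2 - p.1 = p.2 by ring, zpow_add₀ hτ]
    ring
  have hs2 : Summable fun q : ℤ × ℤ => (a.co q.2 * b.co (q.1 - q.2)) * τ ^ q.1 := by
    rw [← shearEquiv.summable_iff]
    exact hs.congr fun p => (hsh p).symm
  have hfib : ∀ n : ℤ, Summable fun i : ℤ => (a.co i * b.co (n - i)) * τ ^ n :=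
    fun n => (summable_conv a b n).mul_right (τ ^ n)
  rw [e1]
  have e2 : (∑' p : ℤ × ℤ, (a.co p.1 * τ ^ p.1) * (b.co p.2 * τ ^ p.2)) =
      ∑' q : ℤ × ℤ, (a.co q.2 * b.co (q.1 - q.2)) * τ ^ q.1 :=
    (tsum_congr fun p => (hsh p).symm).trans
      (shearEquiv.tsum_eq (fun q : ℤ × ℤ => (a.co q.2 * b.co (q.1 - q.2)) * τ ^ q.1))
  rw [e2, Summable.tsum_prod' (f := fun q : ℤ × ℤ => (a.co q.2 * b.co (q.1 - q.2)) * τ ^ q.1) hs2 hfib]
  unfold evE
  refine tsum_congr fun n => ?_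
  rw [co_mul]
  exact (tsum_mul_right (f := fun i : ℤ => a.co i * b.co (n - i)) (a := τ ^ n)).symm

theorem evE_zero_eq (a : EE k C) : evE 0 a = a.co 0 := by
  unfold evE
  rw [tsum_eq_single 0]
  · simp
  · intro n hn
    rw [zero_zpow n hn, mul_zero]

/-- `a` is a Laurent polynomial with terms `0, 1` : the value of `T - σ` -/
theorem co_lin (σ : C) (n : ℤ) : (lin σ : EE k C).co n =
    (if n = 1 then 1 else 0) - (if n = 0 then σ else 0) := rfl

theorem evE_lin (τ σ : C) : evE τ (lin σ : EE k C) = τ - σ := by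
  unfold evE
  rw [tsum_eq_sum (s := {0, 1})]
  · rw [Finset.sum_pair (by norm_num), co_lin, co_lin]
    simp
    ring
  · intro n hn
    simp only [Finset.mem_insert, Finset.mem_singleton, not_or] at hn
    rw [co_lin, if_neg hn.2, if_neg hn.1, sub_zero, zero_mul]

theorem evE_one (τ : C) : evE τ (1 : EE k C) = 1 := by
  unfold evE
  rw [tsum_eq_single 0]
  · rw [co_one, if_pos rfl, zpow_zero, one_mul]
  · intro n hn
    rw [co_one, if_neg hn, zero_mul]

theorem lin_ne_zero (σ : C) : (lin σ : EE k C) ≠ 0 := by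
  intro h
  have := congrArg (fun a : EE k C => a.co 1) h
  simp only [co_lin, co_zero] at this
  simp at this

theorem dFun_lin (σ : C) : dFun (lin σ : EE k C) = 1 := by
  ext n
  rw [co_dFun, co_lin, co_one]
  by_cases h : n = 0
  · rw [if_pos h, if_pos (by omega), if_neg (by omega), h]; simp
  · rw [if_neg h, if_neg (by omega)]
    by_cases h2 : n + 1 = 0
    · rw [h2]; simp
    · rw [if_neg h2]; simp

/-! ### discs and annuli are rings -/

theorem InD.cv {a : EE k C} (h : InD a) {τ : C} (hτ : ‖τ‖ < 1) : Cv τ a := by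
  obtain ⟨M, hM0, hM⟩ := a.bd'
  unfold Cv
  rw [Metric.tendsto_nhds]
  intro ε hε
  rw [eventually_cofinite]
  obtain ⟨N, hN⟩ : ∃ N : ℕ, M * ‖τ‖ ^ N < ε := by
    obtain ⟨N, hN⟩ := exists_pow_lt_of_lt_one (y := ‖τ‖) (x := ε / M) (by positivity) hτ
    exact ⟨N, by rw [lt_div_iff₀ hM0] at hN; rw [mul_comm]; exact hN⟩
  refine (Set.finite_Icc (0 : ℤ) N).subset fun n hn => ?_
  rw [Set.mem_Icc]
  constructor
  · by_contra hlt
    apply hn
    rw [h n (not_le.1 hlt), zero_mul, dist_self]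
    exact hε
  · by_contra hlt
    apply hn
    push Not at hlt
    rw [dist_zero_right, norm_mul, norm_zpow]
    have h1 : ‖τ‖ ^ n ≤ ‖τ‖ ^ N := by
      obtain ⟨m, rfl⟩ : ∃ m : ℕ, n = m := ⟨n.toNat, by omega⟩
      rw [zpow_natCast]
      exact pow_le_pow_of_le_one (norm_nonneg _) hτ.le (by omega)
    calc ‖a.co n‖ * ‖τ‖ ^ n ≤ M * ‖τ‖ ^ N := mul_le_mul (hM n) h1 (by positivity) hM0.le
      _ < ε := hN

theorem InA.cv {c : C} {a : EE k C} (h : InA c a) {τ : C} (hτ : ‖τ‖ < 1) (hcτ : ‖c‖ < ‖τ‖)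
    (hc : c ≠ 0) : Cv τ a := by
  obtain ⟨M, hM0, hM⟩ := a.bd'
  obtain ⟨M', hM'⟩ := h
  have hM'0 : 0 < max M' 1 := lt_max_of_lt_right one_pos
  have hτ0 : 0 < ‖τ‖ := (norm_nonneg c).trans_lt hcτ
  have hc0 : 0 < ‖c‖ := norm_pos_iff.2 hc
  unfold Cv
  rw [Metric.tendsto_nhds]
  intro ε hε
  rw [eventually_cofinite]
  obtain ⟨N, hN⟩ : ∃ N : ℕ, M * ‖τ‖ ^ N < ε := by
    obtain ⟨N, hN⟩ := exists_pow_lt_of_lt_one (y := ‖τ‖) (x := ε / M) (by positivity) hτ
    exact ⟨N, by rw [lt_div_iff₀ hM0] at hN; rw [mul_comm]; exact hN⟩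
  have hq : ‖c‖ / ‖τ‖ < 1 := by rw [div_lt_one hτ0]; exact hcτ
  obtain ⟨N', hN'⟩ : ∃ N' : ℕ, max M' 1 * (‖c‖ / ‖τ‖) ^ N' < ε := by
    obtain ⟨N, hN⟩ := exists_pow_lt_of_lt_one (y := ‖c‖ / ‖τ‖) (x := ε / max M' 1) (by positivity) hq
    exact ⟨N, by rw [lt_div_iff₀ hM'0] at hN; rw [mul_comm]; exact hN⟩
  refine (Set.finite_Icc (-(N' : ℤ)) N).subset fun n hn => ?_
  rw [Set.mem_Icc]
  constructor
  · by_contra hlt
    apply hn
    push Not at hlt
    rw [dist_zero_right, norm_mul, norm_zpow]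
    obtain ⟨m, rfl⟩ : ∃ m : ℕ, n = -m := ⟨(-n).toNat, by omega⟩
    have h1 : ‖a.co (-m)‖ * ‖τ‖ ^ (-(m : ℤ)) = (‖a.co (-m)‖ * ‖c‖ ^ (-(m : ℤ))) * (‖c‖ / ‖τ‖) ^ m := by
      rw [div_pow, zpow_neg, zpow_neg, zpow_natCast, zpow_natCast]
      field_simp
    rw [h1]
    calc (‖a.co (-m)‖ * ‖c‖ ^ (-(m : ℤ))) * (‖c‖ / ‖τ‖) ^ m
        ≤ max M' 1 * (‖c‖ / ‖τ‖) ^ N' := by
          refine mul_le_mul ((hM' _).trans (le_max_left _ _)) ?_ (by positivity) hM'0.le
          exact pow_le_pow_of_le_one (by positivity) hq.le (by omega)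
      _ < ε := hN'
  · by_contra hlt
    apply hn
    push Not at hlt
    rw [dist_zero_right, norm_mul, norm_zpow]
    have h1 : ‖τ‖ ^ n ≤ ‖τ‖ ^ N := by
      obtain ⟨m, rfl⟩ : ∃ m : ℕ, n = m := ⟨n.toNat, by omega⟩
      rw [zpow_natCast]
      exact pow_le_pow_of_le_one (norm_nonneg _) hτ.le (by omega)
    calc ‖a.co n‖ * ‖τ‖ ^ n ≤ M * ‖τ‖ ^ N := mul_le_mul (hM n) h1 (by positivity) hM0.le
      _ < ε := hN

theorem InD.mul {a b : EE k C} (ha : InD a) (hb : InD b) : InD (a * b) := by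
  intro n hn
  rw [co_mul]
  refine (tsum_congr fun i => ?_).trans tsum_zero
  rcases lt_or_ge i 0 with h | h
  · rw [ha i h, zero_mul]
  · rw [hb (n - i) (by omega), mul_zero]


theorem InA.mul {c : C} (hc : c ≠ 0) {a b : EE k C} (ha : InA c a) (hb : InA c b) :
    InA c (a * b) := by
  obtain ⟨M, hM⟩ := ha
  obtain ⟨N, hN⟩ := hb
  exact ⟨_, Bdd.mul (norm_pos_iff.2 hc) hM hN⟩

variable (k C) in
/-- bounded series on the open disc -/
def rD : Subring (EE k C) where
  carrier := {a | InD a}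
  mul_mem' := fun ha hb => InD.mul ha hb
  one_mem' := fun n hn => by rw [co_one, if_neg hn.ne]
  add_mem' := fun {a b} ha hb n hn => by rw [co_add, ha n hn, hb n hn, add_zero]
  zero_mem' := fun n hn => rfl
  neg_mem' := fun {a} ha n hn => by rw [co_neg, ha n hn, neg_zero]

variable (k) in
/-- bounded series on the open annulus -/
def rA (c : C) (hc : c ≠ 0) : Subring (EE k C) where
  carrier := {a | InA c a}
  mul_mem' := fun ha hb => InA.mul hc ha hb
  one_mem' := ⟨1, Bdd.one⟩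
  add_mem' := fun {a b} ha hb => by
    obtain ⟨M, hM⟩ := ha
    obtain ⟨N, hN⟩ := hb
    exact ⟨_, (Bdd.le hM (le_max_left M N)).add (norm_pos_iff.2 hc) (Bdd.le hN (le_max_right M N))⟩
  zero_mem' := ⟨0, Bdd.zero le_rfl⟩
  neg_mem' := fun {a} ha => by
    obtain ⟨M, hM⟩ := ha
    exact ⟨M, fun n => by rw [co_neg, norm_neg]; exact hM n⟩

/-- a cell: a ring of series that can be evaluated on a set of points -/
structure CellI (k C : Type*) [NontriviallyNormedField k] [CompleteSpace k] [NormedField C]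
    [IsUltrametricDist C] [NormedAlgebra k C] [Algebra.IsAlgebraic k C] where
  B : Subring (EE k C)
  S : Set C
  lin_mem : ∀ σ, lin σ ∈ B
  d_mem : ∀ a ∈ B, dFun a ∈ B
  ev_add : ∀ τ ∈ S, ∀ a ∈ B, ∀ b ∈ B, evE τ (a + b) = evE τ a + evE τ b
  ev_mul : ∀ τ ∈ S, ∀ a ∈ B, ∀ b ∈ B, evE τ (a * b) = evE τ a * evE τ b

theorem inD_lin (σ : C) : InD (lin σ : EE k C) := by
  intro n hn
  rw [co_lin, if_neg (by omega), if_neg (by omega), sub_zero]

theorem inA_lin {c : C} (hc : c ≠ 0) (σ : C) : InA c (lin σ : EE k C) := by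
  have h1 : (lin σ : EE k C) = T 1 - mo 0 σ := rfl
  have h2 : (T 1 : EE k C) ∈ rA k c hc :=
    ⟨_, Bdd.mono (norm_pos_iff.2 hc) 1 (1 : C) (finDef_const 1)⟩
  have h3 : (mo 0 σ : EE k C) ∈ rA k c hc :=
    ⟨_, Bdd.mono (norm_pos_iff.2 hc) 0 σ (finDef_const σ)⟩
  rw [h1]
  exact sub_mem h2 h3

variable (k C) in
/-- the open unit disc -/
def cD : CellI k C where
  B := rD k C
  S := {τ | ‖τ‖ < 1}
  lin_mem := inD_lin
  d_mem := fun a ha => inD_dFun ha
  ev_add := fun τ hτ a ha b hb => evE_add (InD.cv ha hτ) (InD.cv hb hτ)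
  ev_mul := fun τ hτ a ha b hb => by
    by_cases h0 : τ = 0
    · rw [h0, evE_zero_eq, evE_zero_eq, evE_zero_eq, co_mul, tsum_eq_single 0]
      · rw [sub_zero]
      · intro i hi
        rcases lt_or_gt_of_ne hi with h | h
        · have := (show InD a from ha) i h
          rw [this, zero_mul]
        · have := (show InD b from hb) (0 - i) (by omega)
          rw [this, mul_zero]
    · exact evE_mul h0 (InD.cv ha hτ) (InD.cv hb hτ)

variable (k) in
/-- the open annulus `|c| < |T| < 1` -/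
def cA (c : C) (hc : c ≠ 0) : CellI k C where
  B := rA k c hc
  S := {τ | ‖c‖ < ‖τ‖ ∧ ‖τ‖ < 1}
  lin_mem := inA_lin hc
  d_mem := fun a ha => inA_dFun hc ha
  ev_add := fun τ hτ a ha b hb => evE_add (InA.cv ha hτ.2 hτ.1 hc) (InA.cv hb hτ.2 hτ.1 hc)
  ev_mul := fun τ hτ a ha b hb => by
    have h0 : τ ≠ 0 := by
      rintro rfl
      have := hτ.1
      rw [norm_zero] at this
      exact absurd this (not_lt.2 (norm_nonneg c))
    exact evE_mul h0 (InA.cv ha hτ.2 hτ.1 hc) (InA.cv hb hτ.2 hτ.1 hc)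

end Crest.Agent.R013.RedD_310
end

-- ▼ part R013/RedD5_310
section

/-!
# R013 / RedD5: orders at the points of a cell, slope formula (helper310)
-/

set_option autoImplicit false
set_option linter.all false

namespace Crest.Agent.R013.RedD_310

open Filter Topology
open Crest.Agent.R013.Cell_408 (FinDef DiscNorm BD WD IsU rootPoly)
open Crest.Agent.R013.EE809 Crest.Agent.R013.SSK_332

section

variable {k : Type*} [NontriviallyNormedField k] [CompleteSpace k] [IsUltrametricDist k]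
variable {C : Type*} [NormedField C] [IsUltrametricDist C] [NormedAlgebra k C]
  [Algebra.IsAlgebraic k C] [IsAlgClosed C] [hk : Fact (DiscNorm k)]

theorem evE_zero (τ : C) : evE τ (0 : EE k C) = 0 := by
  unfold evE
  refine (tsum_congr fun n => ?_).trans tsum_zero
  rw [co_zero, zero_mul]

theorem ne_zero_of_evE {τ : C} {a : EE k C} (h : evE τ a ≠ 0) : a ≠ 0 := by
  rintro rfl
  exact h (evE_zero τ)

/-- `u` has order `n` at the point `τ` of the cell -/
def HasOrd (X : CellI k C) (τ : C) (u : EE k C) (n : ℤ) : Prop :=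
  ∃ (a b : ℕ) (g h : EE k C), g ∈ X.B ∧ h ∈ X.B ∧ evE τ g ≠ 0 ∧ evE τ h ≠ 0 ∧
    u * (lin τ ^ b * h) = lin τ ^ a * g ∧ n = (a : ℤ) - b

variable {X : CellI k C} {τ : C}

theorem ev_lin_mul (hτ : τ ∈ X.S) {g : EE k C} (hg : g ∈ X.B) (n : ℕ) :
    evE τ (lin τ ^ (n + 1) * g) = 0 := by
  rw [pow_succ', mul_assoc, X.ev_mul τ hτ _ (X.lin_mem τ) _
    (X.B.mul_mem (X.B.pow_mem (X.lin_mem τ) n) hg), evE_lin, sub_self, zero_mul]

theorem eq_of_lin_pow (hτ : τ ∈ X.S) {g g' : EE k C} (hg : g ∈ X.B) (hg' : g' ∈ X.B)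
    (h : evE τ g ≠ 0) (h' : evE τ g' ≠ 0) {m n : ℕ} (e : lin τ ^ m * g = lin τ ^ n * g') :
    m = n := by
  have key : ∀ {g g' : EE k C} (hg : g ∈ X.B) (hg' : g' ∈ X.B) (h : evE τ g ≠ 0) {m n : ℕ}
      (e : lin τ ^ m * g = lin τ ^ n * g'), n ≤ m := by
    intro g g' hg hg' h m n e
    by_contra hlt
    push Not at hlt
    obtain ⟨d, rfl⟩ : ∃ d, n = m + (d + 1) := ⟨n - m - 1, by omega⟩
    rw [pow_add, mul_assoc] at e
    have e' := mul_left_cancel₀ (pow_ne_zero m (lin_ne_zero τ)) e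
    exact h (by rw [e', ev_lin_mul hτ hg'])
  exact le_antisymm (key hg' hg h' e.symm) (key hg hg' h e)

theorem HasOrd.ne_zero {u : EE k C} {n : ℤ} (h : HasOrd X τ u n) : u ≠ 0 := by
  obtain ⟨a, b, g, h, hg, hh, hg0, hh0, e, -⟩ := h
  rintro rfl
  rw [zero_mul] at e
  exact mul_ne_zero (pow_ne_zero a (lin_ne_zero τ)) (ne_zero_of_evE hg0) e.symm

/-- the order is unique -/
theorem HasOrd.uniq (hτ : τ ∈ X.S) {u : EE k C} {n m : ℤ} (h : HasOrd X τ u n)
    (h' : HasOrd X τ u m) : n = m := by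
  have hu := h.ne_zero
  obtain ⟨a, b, g, h, hg, hh, hg0, hh0, e, rfl⟩ := h
  obtain ⟨a', b', g', h', hg', hh', hg0', hh0', e', rfl⟩ := h'
  have e1 : lin τ ^ (a + b') * (g * h') = lin τ ^ (a' + b) * (g' * h) := by
    calc lin τ ^ (a + b') * (g * h') = (lin τ ^ a * g) * (lin τ ^ b' * h') := by ring
      _ = (u * (lin τ ^ b' * h')) * (lin τ ^ b * h) := by rw [← e]; ring
      _ = lin τ ^ (a' + b) * (g' * h) := by rw [e']; ring
  have h1 := eq_of_lin_pow hτ (X.B.mul_mem hg hh') (X.B.mul_mem hg' hh)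
    (by rw [X.ev_mul τ hτ _ hg _ hh']; exact mul_ne_zero hg0 hh0')
    (by rw [X.ev_mul τ hτ _ hg' _ hh]; exact mul_ne_zero hg0' hh0) e1
  omega

theorem HasOrd.mul (hτ : τ ∈ X.S) {u u' : EE k C} {n m : ℤ} (h : HasOrd X τ u n)
    (h' : HasOrd X τ u' m) : HasOrd X τ (u * u') (n + m) := by
  obtain ⟨a, b, g, h, hg, hh, hg0, hh0, e, rfl⟩ := h
  obtain ⟨a', b', g', h', hg', hh', hg0', hh0', e', rfl⟩ := h'
  refine ⟨a + a', b + b', g * g', h * h', X.B.mul_mem hg hg', X.B.mul_mem hh hh', ?_, ?_, ?_, ?_⟩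
  · rw [X.ev_mul τ hτ _ hg _ hg']; exact mul_ne_zero hg0 hg0'
  · rw [X.ev_mul τ hτ _ hh _ hh']; exact mul_ne_zero hh0 hh0'
  · calc u * u' * (lin τ ^ (b + b') * (h * h')) = (u * (lin τ ^ b * h)) * (u' * (lin τ ^ b' * h')) := by
          ring
      _ = lin τ ^ (a + a') * (g * g') := by rw [e, e']; ring
  · push_cast; ring

theorem HasOrd.inv {u : EE k C} {n : ℤ} (h : HasOrd X τ u n) : HasOrd X τ u⁻¹ (-n) := by
  have hu := h.ne_zero
  obtain ⟨a, b, g, h, hg, hh, hg0, hh0, e, rfl⟩ := h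
  refine ⟨b, a, h, g, hh, hg, hh0, hg0, ?_, by ring⟩
  rw [← e, inv_mul_cancel_left₀ hu]

theorem HasOrd.div (hτ : τ ∈ X.S) {u u' : EE k C} {n m : ℤ} (h : HasOrd X τ u n)
    (h' : HasOrd X τ u' m) : HasOrd X τ (u / u') (n - m) := by
  rw [div_eq_mul_inv, sub_eq_add_neg]
  exact h.mul hτ h'.inv


/-- the derivative of a uniformizer is a unit at the point -/
theorem HasOrd.deriv (hτ : τ ∈ X.S) {t : EE k C} (ht : HasOrd X τ t 1) :
    HasOrd X τ (dFun t) 0 := by
  obtain ⟨a, b, g, h, hg, hh, hg0, hh0, e, hab⟩ := ht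
  obtain rfl : a = b + 1 := by omega
  have e1 : t * h = lin τ * g := by
    have h1 : lin τ ^ b * (t * h) = lin τ ^ b * (lin τ * g) := by
      calc lin τ ^ b * (t * h) = t * (lin τ ^ b * h) := by ring
        _ = lin τ ^ b * (lin τ * g) := by rw [e]; ring
    exact mul_left_cancel₀ (pow_ne_zero b (lin_ne_zero τ)) h1
  have e2 := congrArg dFun e1
  rw [dFun_mul, dFun_mul, dFun_lin] at e2
  -- dt * h ^ 2 = g * h + lin * (h * dg - g * dh)
  have e3 : dFun t * (h * h) = g * h + lin τ * (h * dFun g - g * dFun h) := by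
    have : dFun t * (h * h) = h * (t * dFun h + h * dFun t) - (t * h) * dFun h := by ring
    rw [this, e2, e1]
    ring
  have hd1 := X.d_mem g hg
  have hd2 := X.d_mem h hh
  have hm : h * dFun g - g * dFun h ∈ X.B :=
    X.B.sub_mem (X.B.mul_mem hh hd1) (X.B.mul_mem hg hd2)
  refine ⟨0, 0, g * h + lin τ * (h * dFun g - g * dFun h), h * h,
    X.B.add_mem (X.B.mul_mem hg hh) (X.B.mul_mem (X.lin_mem τ) hm), X.B.mul_mem hh hh, ?_, ?_, ?_,
    by simp⟩
  · rw [X.ev_add τ hτ _ (X.B.mul_mem hg hh) _ (X.B.mul_mem (X.lin_mem τ) hm),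
      X.ev_mul τ hτ _ (X.lin_mem τ) _ hm, evE_lin, sub_self, zero_mul, add_zero,
      X.ev_mul τ hτ _ hg _ hh]
    exact mul_ne_zero hg0 hh0
  · rw [X.ev_mul τ hτ _ hh _ hh]
    exact mul_ne_zero hh0 hh0
  · rw [pow_zero, one_mul, one_mul, e3]

/-! ### factored elements -/

/-- product of the `T - σ` -/
noncomputable def linP (k : Type*) {C : Type*} [NontriviallyNormedField k] [CompleteSpace k] [NormedField C]
    [IsUltrametricDist C] [NormedAlgebra k C] [Algebra.IsAlgebraic k C] (Z : Multiset C) : EE k C :=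
  (Z.map fun σ => (lin σ : EE k C)).prod

theorem linP_add (Z Z' : Multiset C) : linP k (Z + Z') = linP k Z * linP k Z' := by
  unfold linP; rw [Multiset.map_add, Multiset.prod_add]

theorem linP_cons (σ : C) (Z : Multiset C) : linP k (σ ::ₘ Z) = lin σ * linP k Z := by
  unfold linP; rw [Multiset.map_cons, Multiset.prod_cons]

theorem linP_zero : linP k (0 : Multiset C) = 1 := by
  unfold linP; rw [Multiset.map_zero, Multiset.prod_zero]

theorem linP_ne_zero (Z : Multiset C) : linP k Z ≠ 0 := by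
  induction Z using Multiset.induction_on with
  | empty => rw [linP_zero]; exact one_ne_zero
  | cons σ Z ih => rw [linP_cons]; exact mul_ne_zero (lin_ne_zero σ) ih

theorem linP_mem (Z : Multiset C) : linP k Z ∈ X.B := by
  induction Z using Multiset.induction_on with
  | empty => rw [linP_zero]; exact X.B.one_mem
  | cons σ Z ih => rw [linP_cons]; exact X.B.mul_mem (X.lin_mem σ) ih

theorem evE_linP_ne (hτ : τ ∈ X.S) {Z : Multiset C} (hZ : τ ∉ Z) : evE τ (linP k Z) ≠ 0 := by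
  induction Z using Multiset.induction_on with
  | empty => rw [linP_zero, evE_one]; exact one_ne_zero
  | cons σ Z ih =>
    rw [linP_cons, X.ev_mul τ hτ _ (X.lin_mem σ) _ (linP_mem Z), evE_lin]
    rw [Multiset.mem_cons, not_or] at hZ
    exact mul_ne_zero (sub_ne_zero.2 hZ.1) (ih hZ.2)

open Classical in
theorem linP_split (τ : C) (Z : Multiset C) :
    linP k Z = lin τ ^ (Z.count τ) * linP k (Z.filter fun σ => ¬ σ = τ) := by
  conv_lhs => rw [← Multiset.filter_add_not (fun σ => σ = τ) Z]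
  rw [linP_add]
  congr 1
  have h1 : Z.filter (fun σ => σ = τ) = Multiset.replicate (Z.count τ) τ := by
    convert Multiset.filter_eq' Z τ
  unfold linP
  rw [h1, Multiset.map_replicate, Multiset.prod_replicate]

open Classical in
theorem hasOrd_linP (hτ : τ ∈ X.S) (Z : Multiset C) {e e' : EE k C} (he : e ∈ X.B) (he' : e' ∈ X.B)
    (h : e * e' = 1) : HasOrd X τ (linP k Z * e) (Z.count τ) := by
  have hev : evE τ e ≠ 0 := by
    intro h0
    have := X.ev_mul τ hτ _ he _ he'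
    rw [h, evE_one, h0, zero_mul] at this
    exact one_ne_zero this
  refine ⟨Z.count τ, 0, linP k (Z.filter fun σ => ¬ σ = τ) * e, 1,
    X.B.mul_mem (linP_mem _) he, X.B.one_mem, ?_, by rw [evE_one]; exact one_ne_zero, ?_, by simp⟩
  · rw [X.ev_mul τ hτ _ (linP_mem _) _ he]
    exact mul_ne_zero (evE_linP_ne hτ (by simp)) hev
  · rw [linP_split τ Z, pow_zero, one_mul, mul_one, mul_assoc]

/-- the multiplicities of a quotient of two products, as a function with finite support -/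
noncomputable def mlt (Z Z' : Multiset C) : C →₀ ℤ := by
  classical
  exact (Multiset.toFinsupp Z).mapRange (fun n : ℕ => (n : ℤ)) rfl
    - (Multiset.toFinsupp Z').mapRange (fun n : ℕ => (n : ℤ)) rfl

omit [IsUltrametricDist C] [IsAlgClosed C] in
open Classical in
theorem mlt_apply (Z Z' : Multiset C) (τ : C) : mlt Z Z' τ = (Z.count τ : ℤ) - Z'.count τ := by
  unfold mlt
  rw [Finsupp.sub_apply, Finsupp.mapRange_apply, Finsupp.mapRange_apply, Multiset.toFinsupp_apply,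
    Multiset.toFinsupp_apply]

omit [IsUltrametricDist C] [IsAlgClosed C] in
theorem mlt_sum (Z Z' : Multiset C) :
    ((mlt Z Z').sum fun _ n => n) = (Z.card : ℤ) - Z'.card := by
  classical
  have h1 : ∀ Y : Multiset C, (((Multiset.toFinsupp Y).mapRange (fun n : ℕ => (n : ℤ)) rfl).sum
      fun _ n => n) = (Y.card : ℤ) := by
    intro Y
    rw [Finsupp.sum_mapRange_index (fun _ => rfl)]
    have := Multiset.toFinsupp_sum_eq Y
    rw [← this]
    unfold Finsupp.sum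
    push_cast
    rfl
  unfold mlt
  rw [Finsupp.sum_sub_index (fun _ _ _ => rfl), h1, h1]

/-- a quotient of factored elements -/
theorem hasOrd_quot {u : EE k C} {Z Z' : Multiset C} {e e' e₂ e₂' : EE k C} (he : e ∈ X.B)
    (he' : e' ∈ X.B) (h : e * e' = 1) (he₂ : e₂ ∈ X.B) (he₂' : e₂' ∈ X.B) (h₂ : e₂ * e₂' = 1)
    (hu : u * (linP k Z' * e₂) = linP k Z * e) (hτ : τ ∈ X.S) : HasOrd X τ u (mlt Z Z' τ) := by
  classical
  rw [mlt_apply]
  have h1 : u = (linP k Z * e) / (linP k Z' * e₂) := by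
    rw [eq_div_iff, hu]
    refine mul_ne_zero (linP_ne_zero _) ?_
    intro h0
    rw [h0, zero_mul] at h₂
    exact zero_ne_one h₂
  rw [h1]
  exact (hasOrd_linP hτ Z he he' h).div hτ (hasOrd_linP hτ Z' he₂ he₂' h₂)

/-- a quotient of factored elements without poles is in the ring of the cell -/
theorem mem_of_nonneg {u : EE k C} {Z Z' : Multiset C} {e e₂ e₂' : EE k C} (he : e ∈ X.B)
    (he₂' : e₂' ∈ X.B) (h₂ : e₂ * e₂' = 1)
    (hu : u * (linP k Z' * e₂) = linP k Z * e) (hm : ∀ τ, 0 ≤ mlt Z Z' τ) : u ∈ X.B := by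
  classical
  have hle : Z' ≤ Z := by
    rw [Multiset.le_iff_count]
    intro τ
    have := hm τ
    rw [mlt_apply] at this
    omega
  obtain ⟨Y, rfl⟩ := Multiset.le_iff_exists_add.1 hle
  rw [linP_add] at hu
  have h1 : linP k Z' * (u * e₂) = linP k Z' * (linP k Y * e) := by
    calc linP k Z' * (u * e₂) = u * (linP k Z' * e₂) := by ring
      _ = linP k Z' * (linP k Y * e) := by rw [hu]; ring
  have h3 := mul_left_cancel₀ (linP_ne_zero Z') h1
  have h4 : u = linP k Y * e * e₂' := by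
    calc u = u * e₂ * e₂' := by rw [mul_assoc, h₂, mul_one]
      _ = linP k Y * e * e₂' := by rw [h3]
  rw [h4]
  exact X.B.mul_mem (X.B.mul_mem (linP_mem Y) he) he₂'

/-! ### Weierstrass factorisation on the disc -/

theorem gn_lin {σ : C} (hσ : ‖σ‖ ≤ 1) : gn (lin σ : EE k C) = 1 := by
  have h1 : (lin σ : EE k C).co 1 = 1 := by rw [co_lin]; simp
  have : gn (lin σ : EE k C) = ‖(lin σ : EE k C).co 1‖ := by
    refine gn_eq_of fun m => ?_
    rw [h1, norm_one, co_lin]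
    by_cases hm : m = 1
    · rw [if_pos hm, if_neg (by omega), sub_zero, norm_one]
    · rw [if_neg hm, zero_sub, norm_neg]
      split_ifs
      · exact hσ
      · rw [norm_zero]; exact zero_le_one
  rw [this, h1, norm_one]

theorem od_lin {σ : C} (hσ : ‖σ‖ < 1) : EE809.od (lin σ : EE k C) = 1 := by
  have h1 : (lin σ : EE k C).co 1 = 1 := by rw [co_lin]; simp
  refine od_eq_of (by rw [gn_lin hσ.le, h1, norm_one]) fun m hm => ?_
  rw [gn_lin hσ.le, co_lin, if_neg (by omega), zero_sub, norm_neg]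
  split_ifs
  · exact hσ
  · rw [norm_zero]; exact zero_lt_one

theorem od_linP {Z : Multiset C} (hZ : ∀ σ ∈ Z, ‖σ‖ < 1) : EE809.od (linP k Z) = Z.card := by
  induction Z using Multiset.induction_on with
  | empty => rw [linP_zero, EE809.od_one]; simp
  | cons σ Z ih =>
    rw [linP_cons, EE809.od_mul hk.out (lin_ne_zero σ) (linP_ne_zero Z),
      od_lin (hZ σ (Multiset.mem_cons_self σ Z)), ih fun τ h => hZ τ (Multiset.mem_cons_of_mem h),
      Multiset.card_cons]
    push_cast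
    ring

theorem ofBD_posPart {a : EE k C} (ha : InD a) : ofBD (posPart a) = a := by
  ext n
  rw [co_ofBD_posPart]
  split_ifs with h
  · rfl
  · exact (ha n (not_le.1 h)).symm

theorem inD_ofBD (f : BD k C) : InD (ofBD f : EE k C) := fun n hn => co_ofBD_neg f hn

/-- **Weierstrass factorisation on the disc** -/
theorem wD {a : EE k C} (ha0 : a ≠ 0) (ha : InD a) : ∃ Z : Multiset C, (∀ σ ∈ Z, ‖σ‖ < 1) ∧
    (Z.card : ℤ) = EE809.od a ∧ ∃ e e' : EE k C, InD e ∧ InD e' ∧ e * e' = 1 ∧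
      a = linP k Z * e := by
  have hf0 : (posPart a).1 ≠ 0 := by
    intro h
    apply ha0
    rw [← ofBD_posPart ha]
    have : posPart a = 0 := Subtype.ext h
    rw [this, map_zero]
  obtain ⟨c, g, m, hc, hg, hfg, -, -⟩ :=
    Crest.Agent.R013.Cell_408.exists_normalise hk.out (posPart a).2 hf0
  obtain ⟨u, Z, hu, hZc, hZ, hgu⟩ := hg.exists_roots
  obtain ⟨v, hv, huv⟩ := hu.inv
  let U : BD k C := ⟨u, hu.mem⟩
  let V : BD k C := ⟨v, hv.mem⟩
  have hUV : U * V = 1 := Subtype.ext huv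
  let R : BD k C := ⟨(rootPoly Z : PowerSeries C), Crest.Agent.R013.Cell_408.coe_mem_BD _⟩
  have hR : (ofBD R : EE k C) = linP k Z := by
    have key : ∀ Y : Multiset C, ∀ (hY : (rootPoly Y : PowerSeries C) ∈ BD k C),
        (ofBD (⟨(rootPoly Y : PowerSeries C), hY⟩ : BD k C) : EE k C) = linP k Y := by
      intro Y
      induction Y using Multiset.induction_on with
      | empty =>
        intro hY
        rw [linP_zero]
        have : (⟨(rootPoly (0 : Multiset C) : PowerSeries C), hY⟩ : BD k C) = 1 := by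
          apply Subtype.ext
          show ((rootPoly (0 : Multiset C) : Polynomial C) : PowerSeries C) = 1
          unfold rootPoly
          rw [Multiset.map_zero, Multiset.prod_zero, Polynomial.coe_one]
        rw [this, map_one]
      | cons σ Y ih =>
        intro hY
        have hl : ((Polynomial.X - Polynomial.C σ : Polynomial C) : PowerSeries C) ∈ BD k C :=
          Crest.Agent.R013.Cell_408.coe_mem_BD _
        have hY' : (rootPoly Y : PowerSeries C) ∈ BD k C :=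
          Crest.Agent.R013.Cell_408.coe_mem_BD _
        have : (⟨(rootPoly (σ ::ₘ Y) : PowerSeries C), hY⟩ : BD k C) =
            ⟨((Polynomial.X - Polynomial.C σ : Polynomial C) : PowerSeries C), hl⟩ *
              ⟨(rootPoly Y : PowerSeries C), hY'⟩ := by
          apply Subtype.ext
          show ((rootPoly (σ ::ₘ Y) : Polynomial C) : PowerSeries C) =
            ((Polynomial.X - Polynomial.C σ : Polynomial C) : PowerSeries C) *
              (rootPoly Y : PowerSeries C)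
          unfold rootPoly
          rw [Multiset.map_cons, Multiset.prod_cons, Polynomial.coe_mul]
        rw [this, map_mul, ih, linP_cons]
        congr 1
        ext n
        rw [co_ofBD, co_lin]
        unfold psFun
        rw [Polynomial.coeff_coe, Polynomial.coeff_sub, Polynomial.coeff_X, Polynomial.coeff_C]
        by_cases h0 : 0 ≤ n
        · obtain ⟨m, rfl⟩ := Int.eq_ofNat_of_zero_le h0
          rw [if_pos h0, Int.toNat_natCast]
          congr 1
          · by_cases h1 : m = 1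
            · rw [if_pos h1.symm, if_pos (by omega)]
            · rw [if_neg (fun h => h1 h.symm), if_neg (by omega)]
          · by_cases h1 : m = 0
            · rw [if_pos h1, if_pos (by omega)]
            · rw [if_neg h1, if_neg (by omega)]
        · rw [if_neg h0, if_neg (by omega), if_neg (by omega), sub_zero]
    exact key Z _
  have hP : posPart a = algebraMap C (BD k C) c * U * R := by
    apply Subtype.ext
    show (posPart a).1 = PowerSeries.C c * u * (rootPoly Z : PowerSeries C)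
    rw [hfg, hgu, mul_assoc]
  have hcc : algebraMap C (EE k C) c * algebraMap C (EE k C) c⁻¹ = 1 := by
    rw [← map_mul, mul_inv_cancel₀ hc, map_one]
  have hce : ∀ d : C, InD (algebraMap C (EE k C) d) := fun d n hn => by
    rw [co_algebraMap, if_neg hn.ne]
  have ha' : a = linP k Z * (algebraMap C (EE k C) c * ofBD U) := by
    conv_lhs => rw [← ofBD_posPart ha, hP, map_mul, map_mul, ofBD_algebraMap, hR]
    ring
  refine ⟨Z, hZ, ?_, algebraMap C (EE k C) c * ofBD U, algebraMap C (EE k C) c⁻¹ * ofBD V,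
    InD.mul (hce c) (inD_ofBD U), InD.mul (hce c⁻¹) (inD_ofBD V), ?_, ha'⟩
  · have hu0 : (ofBD U : EE k C) ≠ 0 := by
      intro h0
      have h1 : (ofBD U * ofBD V : EE k C) = 1 := by rw [← map_mul, hUV, map_one]
      rw [h0, zero_mul] at h1
      exact zero_ne_one h1
    have hc0 : algebraMap C (EE k C) c ≠ 0 := by
      intro h0
      rw [h0, zero_mul] at hcc
      exact zero_ne_one hcc
    have h1 : ‖(ofBD U : EE k C).co 0‖ = 1 := by
      have h2 := co_ofBD_nat U 0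
      have h3 := hu.zero
      rw [Nat.cast_zero] at h2
      rw [h2]
      exact h3
    have h2 : EE809.od (ofBD U : EE k C) = 0 := by
      have hle : ∀ m, ‖(ofBD U : EE k C).co m‖ ≤ ‖(ofBD U : EE k C).co 0‖ := by
        intro m
        rw [h1]
        rcases lt_or_ge m 0 with hm | hm
        · rw [inD_ofBD U m hm, norm_zero]; exact zero_le_one
        · obtain ⟨j, rfl⟩ := Int.eq_ofNat_of_zero_le hm
          rw [co_ofBD_nat]
          exact hu.le j
      refine od_eq_of (gn_eq_of hle).symm fun m hm => ?_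
      rw [inD_ofBD U m hm, norm_zero]
      exact gn_pos hu0
    rw [ha', EE809.od_mul hk.out (linP_ne_zero Z) (mul_ne_zero hc0 hu0),
      EE809.od_mul hk.out hc0 hu0, h2, od_linP hZ]
    have h3 : EE809.od (algebraMap C (EE k C) c) = 0 := EE809.od_mono 0 (finDef_const c) hc
    rw [h3]
    ring
  · calc algebraMap C (EE k C) c * ofBD U * (algebraMap C (EE k C) c⁻¹ * ofBD V)
        = (algebraMap C (EE k C) c * algebraMap C (EE k C) c⁻¹) * (ofBD U * ofBD V) := by ring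
      _ = 1 := by rw [hcc, ← map_mul, hUV, map_one, mul_one]

/-- **slope formula on a disc** -/
theorem slopeD {u g h : EE k C} (hg : InD g) (hh : InD h) (hh0 : h ≠ 0) (hu : u * h = g)
    (hu0 : u ≠ 0) : ∃ m : C →₀ ℤ, (∀ τ, m τ ≠ 0 → ‖τ‖ < 1) ∧
      (∀ τ, ‖τ‖ < 1 → HasOrd (cD k C) τ u (m τ)) ∧ (m.sum fun _ n => n) = EE809.od u ∧
      ((∀ τ, 0 ≤ m τ) → InD u) := by
  classical
  have hg0 : g ≠ 0 := by rw [← hu]; exact mul_ne_zero hu0 hh0
  obtain ⟨Z, hZ, hZc, e, e', he, he', hee, rfl⟩ := wD hg0 hg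
  obtain ⟨Z', hZ', hZc', e₂, e₂', he₂, he₂', hee₂, rfl⟩ := wD hh0 hh
  refine ⟨mlt Z Z', fun τ hτ => ?_, fun τ hτ => ?_, ?_, fun hm => ?_⟩
  · rw [mlt_apply] at hτ
    by_cases h1 : τ ∈ Z
    · exact hZ τ h1
    · by_cases h2 : τ ∈ Z'
      · exact hZ' τ h2
      · rw [Multiset.count_eq_zero_of_notMem h1, Multiset.count_eq_zero_of_notMem h2, sub_self] at hτ
        exact absurd rfl hτ
  · exact hasOrd_quot (X := cD k C) he he' hee he₂ he₂' hee₂ hu hτ
  · rw [mlt_sum, hZc, hZc', ← hu, EE809.od_mul hk.out hu0 hh0]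
    ring
  · exact mem_of_nonneg (X := cD k C) he he₂' hee₂ hu hm

end

end Crest.Agent.R013.RedD_310
end

-- ▼ part R013/RedD6_310
section

/-!
# R013 / RedD6: annuli: flip, slope formula (helper310)
-/

set_option autoImplicit false
set_option linter.all false

namespace Crest.Agent.R013.RedD_310

open Filter Topology
open Crest.Agent.R013.Cell_408 (FinDef DiscNorm)
open Crest.Agent.R013.EE809 Crest.Agent.R013.SSK_332

section flip

variable {k : Type*} [NontriviallyNormedField k] [CompleteSpace k]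
variable {C : Type*} [NormedField C] [IsUltrametricDist C] [NormedAlgebra k C]
  [Algebra.IsAlgebraic k C] {c : C}

theorem Flip.eq_flip (hc0 : c ≠ 0) (hc1 : ‖c‖ < 1) {a b : EE k C} (ha : InA c a) (h : Flip c a b) :
    b = AnW_201.flip c hc0 hc1 a ha := by
  ext n
  exact h n

theorem flip_flip' (hc0 : c ≠ 0) (hc1 : ‖c‖ < 1) {a : EE k C} (ha : InA c a) :
    Flip c a (AnW_201.flip c hc0 hc1 a ha) := fun n => rfl

theorem Flip.mul {hc0 : c ≠ 0} (hc1 : ‖c‖ < 1) {a b a' b' : EE k C} (ha : InA c a) (hb : InA c b)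
    (h : Flip c a a') (h' : Flip c b b') : Flip c (a * b) (a' * b') := by
  rw [Flip.eq_flip hc0 hc1 ha h, Flip.eq_flip hc0 hc1 hb h', ← AnW_201.flip_mul ha hb]
  exact flip_flip' hc0 hc1 _

theorem Flip.add {a b a' b' : EE k C} (h : Flip c a a') (h' : Flip c b b') :
    Flip c (a + b) (a' + b') := fun n => by
  rw [co_add, co_add, h n, h' n, add_mul]

theorem Flip.neg {a a' : EE k C} (h : Flip c a a') : Flip c (-a) (-a') := fun n => by
  rw [co_neg, co_neg, h n, neg_mul]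

theorem Flip.sub {a b a' b' : EE k C} (h : Flip c a a') (h' : Flip c b b') :
    Flip c (a - b) (a' - b') := by
  rw [sub_eq_add_neg, sub_eq_add_neg]; exact Flip.add h (Flip.neg h')

theorem Flip.ne_zero {a a' : EE k C} (hc : c ≠ 0) (h : Flip c a a') (ha : a ≠ 0) : a' ≠ 0 := by
  intro h0
  apply ha
  ext n
  have := h (-n)
  rw [h0, co_zero, neg_neg, eq_comm, mul_eq_zero] at this
  rcases this with h1 | h1
  · exact h1
  · exact absurd h1 (zpow_ne_zero _ hc)

theorem Flip.inA {a a' : EE k C} (hc : c ≠ 0) (h : Flip c a a') : InA c a' := by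
  obtain ⟨M, hM⟩ := a.bd
  have hc' : 0 < ‖c‖ := norm_pos_iff.2 hc
  refine ⟨M, fun n => ?_⟩
  rw [h n, norm_mul, norm_zpow, mul_assoc, ← zpow_add₀ hc'.ne', neg_add_cancel, zpow_zero, mul_one]
  exact hM _

theorem Flip.symm {a a' : EE k C} (hc : c ≠ 0) (h : Flip c a a') : Flip c a' a := fun n => by
  rw [h (-n), neg_neg, mul_assoc, ← zpow_add₀ hc, add_neg_cancel, zpow_zero, mul_one]

theorem Flip.uniq {a b b' : EE k C} (h : Flip c a b) (h' : Flip c a b') : b = b' := by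
  ext n; rw [h n, h' n]

/-- the derivative of the flipped series: `d/dT a(c/T) = -c T⁻² a'(c/T)` -/
theorem Flip.deriv {a a' : EE k C} (hc : c ≠ 0) (h : Flip c a a') :
    Flip c (dFun a) (mo 2 (-c⁻¹) * dFun a') := fun n => by
  rw [co_mo_mul, co_dFun, co_dFun, h]
  have e1 : -(n - 2 + 1) = -n + 1 := by ring
  have e2 : c ^ (-n + 1) = c ^ (-n) * c := by rw [zpow_add₀ hc, zpow_one]
  rw [e1, e2]
  push_cast
  field_simp
  ring

/-- `u'` is `u` seen from the other end of the annulus -/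
def FlipF (c : C) (u u' : EE k C) : Prop :=
  ∃ g h g' h' : EE k C, h ≠ 0 ∧ InA c g ∧ InA c h ∧ Flip c g g' ∧ Flip c h h' ∧ u * h = g ∧
    u' * h' = g'

end flip

section

variable {k : Type*} [NontriviallyNormedField k] [CompleteSpace k] [IsUltrametricDist k]
variable {C : Type*} [NormedField C] [IsUltrametricDist C] [NormedAlgebra k C]
  [Algebra.IsAlgebraic k C] [IsAlgClosed C] [hk : Fact (DiscNorm k)] {c : C}

theorem FlipF.mul (hc0 : c ≠ 0) (hc1 : ‖c‖ < 1) {u u' v v' : EE k C} (h : FlipF c u u')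
    (h' : FlipF c v v') : FlipF c (u * v) (u' * v') := by
  obtain ⟨a, b, a', b', hb0, ha, hb, e1, e2, e3, e4⟩ := h
  obtain ⟨p, q, p', q', hq0, hp, hq, f1, f2, f3, f4⟩ := h'
  refine ⟨a * p, b * q, a' * p', b' * q', mul_ne_zero hb0 hq0, InA.mul hc0 ha hp,
    InA.mul hc0 hb hq, Flip.mul (hc0 := hc0) hc1 ha hp e1 f1, Flip.mul (hc0 := hc0) hc1 hb hq e2 f2,
    ?_, ?_⟩
  · rw [← e3, ← f3]; ring
  · rw [← e4, ← f4]; ring

theorem FlipF.deriv (hc0 : c ≠ 0) (hc1 : ‖c‖ < 1) {u u' : EE k C} (h : FlipF c u u') :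
    FlipF c (dFun u) (mo 2 (-c⁻¹) * dFun u') := by
  obtain ⟨g, h, g', h', hb0, ha, hb, e1, e2, e3, e4⟩ := h
  have key : ∀ {u g h : EE k C}, u * h = g → dFun u * (h * h) = h * dFun g - g * dFun h := by
    intro u g h e
    have e' := congrArg dFun e
    rw [dFun_mul] at e'
    rw [← e', ← e]
    ring
  have hdg := inA_dFun hc0 ha
  have hdh := inA_dFun hc0 hb
  have hm : InA c (h * dFun g - g * dFun h) :=
    (rA k c hc0).sub_mem (InA.mul hc0 hb hdg) (InA.mul hc0 ha hdh)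
  refine ⟨h * dFun g - g * dFun h, h * h,
    h' * (mo 2 (-c⁻¹) * dFun g') - g' * (mo 2 (-c⁻¹) * dFun h'), h' * h', mul_ne_zero hb0 hb0,
    hm, InA.mul hc0 hb hb,
    Flip.sub (Flip.mul (hc0 := hc0) hc1 hb hdg e2 (Flip.deriv hc0 e1))
      (Flip.mul (hc0 := hc0) hc1 ha hdh e1 (Flip.deriv hc0 e2)),
    Flip.mul (hc0 := hc0) hc1 hb hb e2 e2, key e3, ?_⟩
  rw [mul_assoc, key e4]
  ring

/-- the order from the other side of a product of `T - τ` -/
theorem od_flip_linP (hc0 : c ≠ 0) (hc1 : ‖c‖ < 1) {Z : Multiset C} (hZ : ∀ σ ∈ Z, ‖c‖ < ‖σ‖)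
    {b : EE k C} (h : Flip c (linP k Z) b) : EE809.od b = 0 := by
  induction Z using Multiset.induction_on generalizing b with
  | empty =>
    rw [linP_zero] at h
    have : b = 1 := by
      ext n
      rw [h n, co_one, co_one]
      by_cases hn : n = 0
      · rw [hn]; simp
      · rw [if_neg (by omega), if_neg hn, zero_mul]
    rw [this, EE809.od_one]
  | cons σ Z ih =>
    have h1 : InA c (lin σ : EE k C) := inA_lin hc0 σ
    have h2 : InA c (linP k Z) := linP_mem (X := cA k c hc0) Z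
    have h3 : Flip c (linP k (σ ::ₘ Z)) (AnW_201.flip c hc0 hc1 (lin σ) h1 *
        AnW_201.flip c hc0 hc1 (linP k Z) h2) := by
      rw [linP_cons]
      exact Flip.mul (hc0 := hc0) hc1 h1 h2 (flip_flip' hc0 hc1 h1) (flip_flip' hc0 hc1 h2)
    rw [Flip.uniq h h3]
    have h4 : AnW_201.flip c hc0 hc1 (lin σ : EE k C) h1 ≠ 0 :=
      Flip.ne_zero hc0 (flip_flip' hc0 hc1 h1) (lin_ne_zero σ)
    have h5 : AnW_201.flip c hc0 hc1 (linP k Z) h2 ≠ 0 :=
      Flip.ne_zero hc0 (flip_flip' hc0 hc1 h2) (linP_ne_zero Z)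
    rw [EE809.od_mul hk.out h4 h5,
      ih (fun τ hτ => hZ τ (Multiset.mem_cons_of_mem hτ)) (flip_flip' hc0 hc1 h2), add_zero]
    exact AnW_201.od_flip_lin hc0 hc1 (hZ σ (Multiset.mem_cons_self σ Z))

/-- **Weierstrass factorisation on the annulus** (helper201's `exists_W`) -/
theorem wA (hc0 : c ≠ 0) (hc1 : ‖c‖ < 1) {a a' : EE k C} (ha0 : a ≠ 0) (ha : InA c a)
    (hf : Flip c a a') : ∃ Z : Multiset C, (∀ σ ∈ Z, ‖c‖ < ‖σ‖ ∧ ‖σ‖ < 1) ∧
    (Z.card : ℤ) = EE809.od a + EE809.od a' ∧ ∃ e e' : EE k C, InA c e ∧ InA c e' ∧ e * e' = 1 ∧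
      a = linP k Z * e := by
  obtain ⟨A, N, Z, u, v, hA, hZ, hu, hv, huv, rfl⟩ := AnW_201.exists_W hk.out hc0 hc1 ha ha0
  have hl : (Z.map AnW_201.lin).prod = linP k Z := rfl
  rw [hl] at hf ⊢
  have hmo : InA c (mo N A : EE k C) := AnW_201.inA_mo c N A
  have hmo' : InA c (mo (-N) A⁻¹ : EE k C) := AnW_201.inA_mo c (-N) A⁻¹
  have hlin : InA c (linP k Z) := linP_mem (X := cA k c hc0) Z
  have hmm : (mo N A * mo (-N) A⁻¹ : EE k C) = 1 := by
    rw [mo_mul_mo, add_neg_cancel, mul_inv_cancel₀ hA, mo_zero_one]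
  have hmo0 : (mo N A : EE k C) ≠ 0 := AnW_201.mo_ne_zero N hA
  refine ⟨Z, hZ, ?_, mo N A * u, mo (-N) A⁻¹ * v, InA.mul hc0 hmo hu.inA, InA.mul hc0 hmo' hv.inA,
    ?_, by ring⟩
  · have h1 := flip_flip' (k := k) hc0 hc1 hlin
    have h2 : Flip c (mo N A * linP k Z * u)
        (mo (-N) (A * c ^ N) * AnW_201.flip c hc0 hc1 (linP k Z) hlin *
          AnW_201.flip c hc0 hc1 u hu.inA) := by
      refine Flip.mul (hc0 := hc0) hc1 (InA.mul hc0 hmo hlin) hu.inA
        (Flip.mul (hc0 := hc0) hc1 hmo hlin ?_ h1) (flip_flip' hc0 hc1 hu.inA)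
      rw [← AnW_201.flip_mo (hc0 := hc0) (hc1 := hc1)]
      exact flip_flip' hc0 hc1 _
    have hAc : A * c ^ N ≠ 0 := mul_ne_zero hA (zpow_ne_zero _ hc0)
    rw [Flip.uniq hf h2, EE809.od_mul hk.out (mul_ne_zero hmo0 (linP_ne_zero Z)) hu.ne_zero,
      EE809.od_mul hk.out hmo0 (linP_ne_zero Z), AnW_201.od_mo N hA, hu.od hc0 hc1,
      od_linP fun σ hσ => (hZ σ hσ).2,
      EE809.od_mul hk.out (mul_ne_zero (AnW_201.mo_ne_zero _ hAc)
        (Flip.ne_zero hc0 h1 (linP_ne_zero Z))) (hu.flip hc0 hc1).ne_zero,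
      EE809.od_mul hk.out (AnW_201.mo_ne_zero _ hAc) (Flip.ne_zero hc0 h1 (linP_ne_zero Z)),
      AnW_201.od_mo _ hAc, (hu.flip hc0 hc1).od hc0 hc1,
      od_flip_linP hc0 hc1 (fun σ hσ => (hZ σ hσ).1) h1]
    ring
  · calc mo N A * u * (mo (-N) A⁻¹ * v) = (mo N A * mo (-N) A⁻¹) * (u * v) := by ring
      _ = 1 := by rw [hmm, huv, mul_one]

/-- **slope formula on an annulus** -/
theorem slopeA (hc0 : c ≠ 0) (hc1 : ‖c‖ < 1) {u u' : EE k C} (hu0 : u ≠ 0) (h : FlipF c u u') :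
    ∃ m : C →₀ ℤ, (∀ τ, m τ ≠ 0 → ‖c‖ < ‖τ‖ ∧ ‖τ‖ < 1) ∧
      (∀ τ, ‖c‖ < ‖τ‖ → ‖τ‖ < 1 → HasOrd (cA k c hc0) τ u (m τ)) ∧
      (m.sum fun _ n => n) = EE809.od u + EE809.od u' ∧
      ((∀ τ, 0 ≤ m τ) → InA c u ∧ Flip c u u') := by
  classical
  obtain ⟨g, h, g', h', hh0, hg, hh, e1, e2, e3, e4⟩ := h
  have hg0 : g ≠ 0 := by rw [← e3]; exact mul_ne_zero hu0 hh0
  have hh0' : h' ≠ 0 := Flip.ne_zero hc0 e2 hh0
  have hg0' : g' ≠ 0 := Flip.ne_zero hc0 e1 hg0
  have hu0' : u' ≠ 0 := by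
    rintro rfl
    rw [zero_mul] at e4
    exact hg0' e4.symm
  obtain ⟨Z, hZ, hZc, e, e', he, he', hee, hgf⟩ := wA hc0 hc1 hg0 hg e1
  obtain ⟨Z', hZ', hZc', e₂, e₂', he₂, he₂', hee₂, hhf⟩ := wA hc0 hc1 hh0 hh e2
  have hu : u * (linP k Z' * e₂) = linP k Z * e := by rw [← hgf, ← hhf, e3]
  refine ⟨mlt Z Z', fun τ hτ => ?_, fun τ hτ hτ' => ?_, ?_, fun hm => ?_⟩
  · rw [mlt_apply] at hτ
    by_cases h1 : τ ∈ Z
    · exact hZ τ h1
    · by_cases h2 : τ ∈ Z'
      · exact hZ' τ h2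
      · rw [Multiset.count_eq_zero_of_notMem h1, Multiset.count_eq_zero_of_notMem h2, sub_self] at hτ
        exact absurd rfl hτ
  · exact hasOrd_quot (X := cA k c hc0) he he' hee he₂ he₂' hee₂ hu ⟨hτ, hτ'⟩
  · rw [mlt_sum, hZc, hZc', ← e3, ← e4, EE809.od_mul hk.out hu0 hh0, EE809.od_mul hk.out hu0' hh0']
    ring
  · have h1 : InA c u := mem_of_nonneg (X := cA k c hc0) he he₂' hee₂ hu hm
    refine ⟨h1, ?_⟩
    have h2 := flip_flip' (k := k) hc0 hc1 h1
    have h3 := Flip.mul (hc0 := hc0) hc1 h1 hh h2 e2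
    rw [e3] at h3
    have h4 := Flip.uniq e1 h3
    rw [← e4] at h4
    rw [mul_right_cancel₀ hh0' h4]
    exact h2

end

end Crest.Agent.R013.RedD_310
end

-- ▼ part R013/RedD7_310

/-!
# R013 / RedD7: semistable structures: slope formulas for functions and differentials, the genus
formula (helper310)
-/

set_option autoImplicit false
set_option linter.all false

namespace Crest.Agent.R013.RedD_310

open WithZero
open scoped NNReal
open Crest.Agent.R013.Cell_408 (FinDef DiscNorm)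
open Crest.Agent.R013.EE809 Crest.Agent.R013.SSK_332
open Crest.Agent.R013.RR7_948 Crest.Agent.R013.RR8_948 Crest.Agent.R013.RR9_948
open Crest.Agent.R013.RR11_948 Crest.Agent.R013.RR14_948
open Crest.Agent.R013.Red332 hiding od

theorem mapDom_apply {α β : Type*} [DecidableEq β] (f : α → β) (x : α →₀ ℤ) (b : β) :
    (x.mapDomain f) b = ∑ i ∈ x.support with f i = b, x i := by
  simp [Finsupp.mapDomain, Finsupp.sum, Finsupp.single_apply, Finset.sum_ite]

variable {k : Type*} [NontriviallyNormedField k] [CompleteSpace k] [IsUltrametricDist k]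
variable {C : Type*} [NormedField C] [IsUltrametricDist C] [NormedAlgebra k C]
  [Algebra.IsAlgebraic k C] [IsAlgClosed C] [hk : Fact (DiscNorm k)]
variable {K : Type*} [Field K] [Algebra C K] [Algebra (RatFunc C) K]
  [IsScalarTower C (RatFunc C) K] [FiniteDimensional (RatFunc C) K]
  [Algebra.IsSeparable (RatFunc C) K]

/-! ### the order of a differential at a point of a cell -/

/-- functions ⇒ differentials -/
theorem hasOrd_ex {X : CellI k C} {τ : C} (hτ : τ ∈ X.S) {em : K →+* EE k C}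
    (hC : ∀ (c : C) (n : ℤ), (em (algebraMap C K c)).co n = if n = 0 then c else 0)
    {P : Pl C K} (h : ∀ f, f ≠ 0 → HasOrd X τ (em f) (divf (k := C) f P)) {g : K} (hg : g ≠ 0) :
    HasOrd X τ (ex em g) ((divf (k := C) g + canD C K) P) := by
  obtain ⟨t, ht⟩ := P.surj (exp (-1))
  have ht0 : t ≠ 0 := by
    rintro rfl
    rw [map_zero] at ht
    exact exp_ne_zero ht.symm
  have hdt0 : del C K t ≠ 0 := RR15_948.del_uniformizer_ne_zero P ht
  have h1 : divf (k := C) t P = 1 := by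
    rw [v_eq ht0, exp_inj] at ht
    omega
  have h2 : divf (k := C) (del C K t) P = -canD C K P := by
    have h3 := Car5_700.v_del_eq P ht
    rw [v_eq hdt0, exp_inj] at h3
    omega
  have h4 := h t ht0
  rw [h1] at h4
  have h5 : HasOrd X τ (ex em (del C K t)) 0 := by
    rw [ex_del em hC]
    exact h4.deriv hτ
  have h6 : g / del C K t ≠ 0 := div_ne_zero hg hdt0
  have h7 : ex em g = em (g / del C K t) * ex em (del C K t) := by
    rw [← ex_mul, div_mul_cancel₀ _ hdt0]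
  rw [h7]
  have h8 := (h _ h6).mul hτ h5
  have h9 : (divf (k := C) (g / del C K t)) P + 0 = (divf (k := C) g + canD C K) P := by
    rw [div_eq_mul_inv, divf_mul hg (inv_ne_zero hdt0), divf_inv hdt0, Finsupp.add_apply,
      Finsupp.neg_apply, h2, Finsupp.add_apply]
    ring
  rwa [h9] at h8

variable (S : SSK k C K)

theorem hasOrd_ptD (d) (h0 h1) (τ : C) (hτ) {f : K} (hf : f ≠ 0) :
    HasOrd (cD k C) τ (S.em d f) (divf (k := C) f (S.ptD d h0 h1 τ hτ)) := by
  obtain ⟨a, b, g, h, hg, hh, hg0, hh0, e, hv⟩ := S.ptD_ord d h0 h1 τ hτ f hf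
  refine ⟨a, b, g, h, hg, hh, hg0, hh0, e, ?_⟩
  rw [v_eq hf, exp_inj] at hv
  omega

theorem hasOrd_ptA (e) (τ : C) (h0 h1) {f : K} (hf : f ≠ 0) :
    HasOrd (cA k (S.cc e) (S.cc_ne e)) τ (S.em (S.e0 e) f)
      (divf (k := C) f (S.ptA e τ h0 h1)) := by
  obtain ⟨a, b, g, h, hg, hh, hg0, hh0, e', hv⟩ := S.ptA_ord e τ h0 h1 f hf
  refine ⟨a, b, g, h, hg, hh, hg0, hh0, e', ?_⟩
  rw [v_eq hf, exp_inj] at hv
  omega

theorem hasOrd_exD (d) (h0 h1) (τ : C) (hτ) {g : K} (hg : g ≠ 0) :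
    HasOrd (cD k C) τ (ex (S.em d) g)
      ((divf (k := C) g + canD C K) (S.ptD d h0 h1 τ hτ)) :=
  hasOrd_ex (X := cD k C) hτ (S.em_C d) (fun f hf => hasOrd_ptD S d h0 h1 τ hτ hf) hg

theorem hasOrd_exA (e) (τ : C) (h0 h1) {g : K} (hg : g ≠ 0) :
    HasOrd (cA k (S.cc e) (S.cc_ne e)) τ (ex (S.em (S.e0 e)) g)
      ((divf (k := C) g + canD C K) (S.ptA e τ h0 h1)) :=
  hasOrd_ex (X := cA k (S.cc e) (S.cc_ne e)) ⟨h0, h1⟩ (S.em_C _)
    (fun f hf => hasOrd_ptA S e τ h0 h1 hf) hg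

/-! ### the expansions are in the fields of the cells -/

/-- quotients of bounded series on the disc -/
def QD (u : EE k C) : Prop := ∃ g h : EE k C, h ≠ 0 ∧ InD g ∧ InD h ∧ u * h = g

omit [Algebra (RatFunc C) K] [IsScalarTower C (RatFunc C) K] [FiniteDimensional (RatFunc C) K]
  [Algebra.IsSeparable (RatFunc C) K] [Field K] [Algebra C K] in
theorem deriv_quot {u g h : EE k C} (e : u * h = g) :
    dFun u * (h * h) = h * dFun g - g * dFun h := by
  have e' := congrArg dFun e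
  rw [dFun_mul] at e'
  rw [← e', ← e]
  ring

omit [Algebra (RatFunc C) K] [IsScalarTower C (RatFunc C) K] [FiniteDimensional (RatFunc C) K]
  [Algebra.IsSeparable (RatFunc C) K] [Field K] [Algebra C K] in
theorem QD.mul {u v : EE k C} (hu : QD u) (hv : QD v) : QD (u * v) := by
  obtain ⟨g, h, h0, hg, hh, e⟩ := hu
  obtain ⟨g', h', h0', hg', hh', e'⟩ := hv
  exact ⟨g * g', h * h', mul_ne_zero h0 h0', InD.mul hg hg', InD.mul hh hh', by
    rw [← e, ← e']; ring⟩

omit [Algebra (RatFunc C) K] [IsScalarTower C (RatFunc C) K] [FiniteDimensional (RatFunc C) K]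
  [Algebra.IsSeparable (RatFunc C) K] [Field K] [Algebra C K] in
theorem QD.deriv {u : EE k C} (hu : QD u) : QD (dFun u) := by
  obtain ⟨g, h, h0, hg, hh, e⟩ := hu
  refine ⟨h * dFun g - g * dFun h, h * h, mul_ne_zero h0 h0, ?_, InD.mul hh hh, deriv_quot e⟩
  exact (rD k C).sub_mem (InD.mul hh (inD_dFun hg)) (InD.mul hg (inD_dFun hh))

theorem qD_em (d) (h0 : ∀ e, d ≠ S.e0 e) (h1 : ∀ e, d ≠ S.e1 e) (f : K) : QD (S.em d f) := by
  obtain ⟨g, h, hh0, hg, hh, e⟩ := S.disc d h0 h1 f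
  exact ⟨g, h, hh0, hg, hh, e⟩

theorem qD_ex (d) (h0 : ∀ e, d ≠ S.e0 e) (h1 : ∀ e, d ≠ S.e1 e) (g : K) : QD (ex (S.em d) g) :=
  (qD_em S d h0 h1 g).mul (qD_em S d h0 h1 _).deriv

theorem flipF_em (e) (f : K) : FlipF (S.cc e) (S.em (S.e0 e) f) (S.em (S.e1 e) f) := by
  obtain ⟨g, h, g', h', hh0, hg, hh, e1, e2, e3, e4⟩ := S.ann e f
  exact ⟨g, h, g', h', hh0, hg, hh, e1, e2, e3, e4⟩

/-- the two expansions of a differential at an annulus: `u₁ = -c T⁻² u₀(c/T)` -/
theorem flipF_ex (e) (g : K) :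
    FlipF (S.cc e) (ex (S.em (S.e0 e)) g) (mo 2 (-(S.cc e)⁻¹) * ex (S.em (S.e1 e)) g) := by
  have h1 := (flipF_em S e g).mul (S.cc_ne e) (S.cc_lt e)
    ((flipF_em S e (xK C K)).deriv (S.cc_ne e) (S.cc_lt e))
  have h2 : S.em (S.e1 e) g * (mo 2 (-(S.cc e)⁻¹) * dFun (S.em (S.e1 e) (xK C K))) =
      mo 2 (-(S.cc e)⁻¹) * ex (S.em (S.e1 e)) g := by
    unfold ex
    rw [dT_apply]
    ring
  rw [h2] at h1
  exact h1

/-! ### slope formulas -/

theorem dT_xK_ne_zero {em : K →+* EE k C} {w : Nm C K}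
    (hC : ∀ (c : C) (n : ℤ), (em (algebraMap C K c)).co n = if n = 0 then c else 0)
    (hgn : ∀ f, gn (em f) = w.v f) (x : Pl (Ct C) (kap w))
    (hod : ∀ f, f ≠ 0 → EE809.od (em f) = Red332.od w x f) : dT k C (em (xK C K)) ≠ 0 := by
  intro h0
  obtain ⟨s, hs⟩ := x.surj (exp (-1))
  obtain ⟨t, ht, rfl⟩ := red_surj w s
  have ht1 : w.v t = 1 := by
    rw [← red_ne_zero_iff w ht]
    intro h0
    rw [h0, map_zero] at hs
    exact exp_ne_zero hs.symm
  have h1 := (gn_dT_uniformizer x hC hgn hod ht1 hs).1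
  rw [← ex_del em hC, ex, h0, mul_zero, gn_zero] at h1
  exact zero_ne_one h1

theorem ex_ne_zero (d : S.Dir) {g : K} (hg : g ≠ 0) : ex (S.em d) g ≠ 0 :=
  mul_ne_zero ((map_ne_zero _).2 hg)
    (dT_xK_ne_zero (S.em_C d) (S.em_gn d) d.2 (S.em_od d))

/-- **slope formula on a disc, functions** -/
theorem slope_fD (d) (h0 h1) {f : K} (hf : f ≠ 0) : ∃ m : C →₀ ℤ, (∀ τ, m τ ≠ 0 → ‖τ‖ < 1) ∧
    (∀ τ hτ, m τ = divf (k := C) f (S.ptD d h0 h1 τ hτ)) ∧
    (m.sum fun _ n => n) = EE809.od (S.em d f) := by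
  obtain ⟨g, h, hh0, hg, hh, e⟩ := qD_em S d h0 h1 f
  obtain ⟨m, hm, hm', hs, -⟩ := slopeD hg hh hh0 e ((map_ne_zero _).2 hf)
  exact ⟨m, hm, fun τ hτ => (hm' τ hτ).uniq (X := cD k C) hτ (hasOrd_ptD S d h0 h1 τ hτ hf), hs⟩

/-- **slope formula on an annulus, functions** -/
theorem slope_fA (e) {f : K} (hf : f ≠ 0) : ∃ m : C →₀ ℤ,
    (∀ τ, m τ ≠ 0 → ‖S.cc e‖ < ‖τ‖ ∧ ‖τ‖ < 1) ∧
    (∀ τ h0 h1, m τ = divf (k := C) f (S.ptA e τ h0 h1)) ∧
    (m.sum fun _ n => n) = EE809.od (S.em (S.e0 e) f) + EE809.od (S.em (S.e1 e) f) := by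
  obtain ⟨m, hm, hm', hs, -⟩ := slopeA (S.cc_ne e) (S.cc_lt e) ((map_ne_zero _).2 hf)
    (flipF_em S e f)
  exact ⟨m, hm, fun τ h0 h1 => (hm' τ h0 h1).uniq (X := cA k (S.cc e) (S.cc_ne e)) ⟨h0, h1⟩
    (hasOrd_ptA S e τ h0 h1 hf), hs⟩

/-- **slope formula on a disc, differentials** -/
theorem slope_gD (d) (h0 h1) {g : K} (hg : g ≠ 0) : ∃ m : C →₀ ℤ, (∀ τ, m τ ≠ 0 → ‖τ‖ < 1) ∧
    (∀ τ hτ, m τ = (divf (k := C) g + canD C K) (S.ptD d h0 h1 τ hτ)) ∧
    (m.sum fun _ n => n) = EE809.od (ex (S.em d) g) ∧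
    ((∀ τ, 0 ≤ m τ) → InD (ex (S.em d) g)) := by
  obtain ⟨a, b, hb0, ha, hb, e⟩ := qD_ex S d h0 h1 g
  obtain ⟨m, hm, hm', hs, hr⟩ := slopeD ha hb hb0 e (ex_ne_zero S d hg)
  exact ⟨m, hm, fun τ hτ => (hm' τ hτ).uniq (X := cD k C) hτ (hasOrd_exD S d h0 h1 τ hτ hg), hs, hr⟩

/-- **slope formula on an annulus, differentials** -/
theorem slope_gA (e) {g : K} (hg : g ≠ 0) : ∃ m : C →₀ ℤ,
    (∀ τ, m τ ≠ 0 → ‖S.cc e‖ < ‖τ‖ ∧ ‖τ‖ < 1) ∧
    (∀ τ h0 h1, m τ = (divf (k := C) g + canD C K) (S.ptA e τ h0 h1)) ∧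
    (m.sum fun _ n => n) = EE809.od (ex (S.em (S.e0 e)) g) + EE809.od (ex (S.em (S.e1 e)) g) + 2 ∧
    ((∀ τ, 0 ≤ m τ) → InA (S.cc e) (ex (S.em (S.e0 e)) g) ∧
      Flip (S.cc e) (ex (S.em (S.e0 e)) g) (mo 2 (-(S.cc e)⁻¹) * ex (S.em (S.e1 e)) g)) := by
  obtain ⟨m, hm, hm', hs, hr⟩ := slopeA (S.cc_ne e) (S.cc_lt e) (ex_ne_zero S _ hg)
    (flipF_ex S e g)
  refine ⟨m, hm, fun τ h0 h1 => (hm' τ h0 h1).uniq (X := cA k (S.cc e) (S.cc_ne e)) ⟨h0, h1⟩
    (hasOrd_exA S e τ h0 h1 hg), ?_, hr⟩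
  have h2 : -(S.cc e)⁻¹ ≠ 0 := neg_ne_zero.2 (inv_ne_zero (S.cc_ne e))
  rw [hs, EE809.od_mul hk.out (AnW_201.mo_ne_zero 2 h2) (ex_ne_zero S _ hg), AnW_201.od_mo 2 h2]
  ring

/-! ### the cell of a place -/

open Classical in
/-- the cell of a place -/
noncomputable def cellOf (P : Pl C K) : S.Dir ⊕ S.Ed :=
  if h : ∃ d h0 h1 τ hτ, P = S.ptD d h0 h1 τ hτ then Sum.inl h.choose
  else Sum.inr ((S.pt_surj P).resolve_left h).choose

omit [IsUltrametricDist k] [IsAlgClosed C] hk [Algebra (RatFunc C) K]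
  [IsScalarTower C (RatFunc C) K] [FiniteDimensional (RatFunc C) K]
  [Algebra.IsSeparable (RatFunc C) K] in
theorem cellOf_ptD (d h0 h1 τ hτ) : cellOf S (S.ptD d h0 h1 τ hτ) = Sum.inl d := by
  have h : ∃ d' h0' h1' τ' hτ', S.ptD d h0 h1 τ hτ = S.ptD d' h0' h1' τ' hτ' :=
    ⟨d, h0, h1, τ, hτ, rfl⟩
  unfold cellOf
  rw [dif_pos h]
  obtain ⟨h0', h1', τ', hτ', e⟩ := h.choose_spec
  rw [← (S.ptD_inj _ _ _ _ _ _ _ _ _ _ e).1]

omit [IsUltrametricDist k] [IsAlgClosed C] hk [Algebra (RatFunc C) K]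
  [IsScalarTower C (RatFunc C) K] [FiniteDimensional (RatFunc C) K]
  [Algebra.IsSeparable (RatFunc C) K] in
theorem cellOf_ptA (e τ h0 h1) : cellOf S (S.ptA e τ h0 h1) = Sum.inr e := by
  have h : ¬ ∃ d' h0' h1' τ' hτ', S.ptA e τ h0 h1 = S.ptD d' h0' h1' τ' hτ' := by
    rintro ⟨d', h0', h1', τ', hτ', e'⟩
    exact S.ptDA _ _ _ _ _ _ _ _ _ e'.symm
  unfold cellOf
  rw [dif_neg h]
  obtain ⟨τ', h0', h1', e'⟩ := ((S.pt_surj (S.ptA e τ h0 h1)).resolve_left h).choose_spec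
  rw [← (S.ptA_inj _ _ _ _ _ _ _ _ e').1]

omit [IsUltrametricDist k] [IsAlgClosed C] hk [Algebra (RatFunc C) K]
  [IsScalarTower C (RatFunc C) K] [FiniteDimensional (RatFunc C) K]
  [Algebra.IsSeparable (RatFunc C) K] in
/-- sum of a divisor over the points of a disc -/
theorem mapDomain_inl (E : Pl C K →₀ ℤ) (d) (h0 h1) (m : C →₀ ℤ) (hm : ∀ τ, m τ ≠ 0 → ‖τ‖ < 1)
    (hm' : ∀ τ hτ, m τ = E (S.ptD d h0 h1 τ hτ)) :
    E.mapDomain (cellOf S) (Sum.inl d) = m.sum fun _ n => n := by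
  classical
  rw [mapDom_apply]
  refine (Finset.sum_bij (fun τ hτ => S.ptD d h0 h1 τ (hm τ (Finsupp.mem_support_iff.1 hτ)))
    ?_ ?_ ?_ ?_).symm
  · intro τ hτ
    rw [Finset.mem_filter, Finsupp.mem_support_iff, ← hm' τ]
    exact ⟨Finsupp.mem_support_iff.1 hτ, cellOf_ptD S _ _ _ _ _⟩
  · intro τ hτ τ' hτ' e
    exact (S.ptD_inj _ _ _ _ _ _ _ _ _ _ e).2
  · intro P hP
    rw [Finset.mem_filter, Finsupp.mem_support_iff] at hP
    rcases S.pt_surj P with ⟨d', h0', h1', τ, hτ, rfl⟩ | ⟨e, τ, h0', h1', rfl⟩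
    · have h2 := hP.2
      rw [cellOf_ptD] at h2
      obtain rfl := Sum.inl.inj h2
      have h3 : τ ∈ m.support := by
        rw [Finsupp.mem_support_iff, hm' τ hτ]
        exact hP.1
      exact ⟨τ, h3, rfl⟩
    · have h2 := hP.2
      rw [cellOf_ptA] at h2
      exact absurd h2 (by simp)
  · intro τ hτ
    exact hm' τ _

omit [IsUltrametricDist k] [IsAlgClosed C] hk [Algebra (RatFunc C) K]
  [IsScalarTower C (RatFunc C) K] [FiniteDimensional (RatFunc C) K]
  [Algebra.IsSeparable (RatFunc C) K] in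
theorem mapDomain_inl_of_not (E : Pl C K →₀ ℤ) (d : S.Dir) (h : ¬ S.IsDisc d) :
    E.mapDomain (cellOf S) (Sum.inl d) = 0 := by
  classical
  rw [mapDom_apply]
  refine Finset.sum_eq_zero fun P hP => ?_
  rw [Finset.mem_filter] at hP
  exfalso
  rcases S.pt_surj P with ⟨d', h0', h1', τ, hτ, rfl⟩ | ⟨e, τ, h0', h1', rfl⟩
  · have h2 := hP.2
    rw [cellOf_ptD] at h2
    obtain rfl := Sum.inl.inj h2
    exact h ⟨h0', h1'⟩
  · have h2 := hP.2
    rw [cellOf_ptA] at h2
    exact absurd h2 (by simp)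

omit [IsUltrametricDist k] [IsAlgClosed C] hk [Algebra (RatFunc C) K]
  [IsScalarTower C (RatFunc C) K] [FiniteDimensional (RatFunc C) K]
  [Algebra.IsSeparable (RatFunc C) K] in
/-- sum of a divisor over the points of an annulus -/
theorem mapDomain_inr (E : Pl C K →₀ ℤ) (e) (m : C →₀ ℤ)
    (hm : ∀ τ, m τ ≠ 0 → ‖S.cc e‖ < ‖τ‖ ∧ ‖τ‖ < 1)
    (hm' : ∀ τ h0 h1, m τ = E (S.ptA e τ h0 h1)) :
    E.mapDomain (cellOf S) (Sum.inr e) = m.sum fun _ n => n := by
  classical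
  rw [mapDom_apply]
  refine (Finset.sum_bij (fun τ hτ => S.ptA e τ (hm τ (Finsupp.mem_support_iff.1 hτ)).1
    (hm τ (Finsupp.mem_support_iff.1 hτ)).2) ?_ ?_ ?_ ?_).symm
  · intro τ hτ
    rw [Finset.mem_filter, Finsupp.mem_support_iff, ← hm' τ]
    exact ⟨Finsupp.mem_support_iff.1 hτ, cellOf_ptA S _ _ _ _⟩
  · intro τ hτ τ' hτ' e'
    exact (S.ptA_inj _ _ _ _ _ _ _ _ e').2
  · intro P hP
    rw [Finset.mem_filter, Finsupp.mem_support_iff] at hP
    rcases S.pt_surj P with ⟨d', h0', h1', τ, hτ, rfl⟩ | ⟨e', τ, h0', h1', rfl⟩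
    · have h2 := hP.2
      rw [cellOf_ptD] at h2
      exact absurd h2 (by simp)
    · have h2 := hP.2
      rw [cellOf_ptA] at h2
      obtain rfl := Sum.inr.inj h2
      have h3 : τ ∈ m.support := by
        rw [Finsupp.mem_support_iff, hm' τ h0' h1']
        exact hP.1
      exact ⟨τ, h3, rfl⟩
  · intro τ hτ
    exact hm' τ _ _

/-! ### the genus formula -/

open Classical in
/-- the cell at a direction -/
noncomputable def cellDir (d : S.Dir) : S.Dir ⊕ S.Ed :=
  if h : ∃ e, d = S.e0 e ∨ d = S.e1 e then Sum.inr h.choose else Sum.inl d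

omit [IsUltrametricDist k] [IsAlgClosed C] hk [Algebra (RatFunc C) K]
  [IsScalarTower C (RatFunc C) K] [FiniteDimensional (RatFunc C) K]
  [Algebra.IsSeparable (RatFunc C) K] in
theorem ends_inj' {e e' : S.Ed} {d : S.Dir} (h : d = S.e0 e ∨ d = S.e1 e)
    (h' : d = S.e0 e' ∨ d = S.e1 e') : e = e' := by
  rcases h with rfl | rfl <;> rcases h' with h' | h'
  · have := S.ends_inj (a₁ := Sum.inl e) (a₂ := Sum.inl e') h'
    exact Sum.inl.inj this
  · have := S.ends_inj (a₁ := Sum.inl e) (a₂ := Sum.inr e') h'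
    exact absurd this (by simp)
  · have := S.ends_inj (a₁ := Sum.inr e) (a₂ := Sum.inl e') h'
    exact absurd this (by simp)
  · have := S.ends_inj (a₁ := Sum.inr e) (a₂ := Sum.inr e') h'
    exact Sum.inr.inj this

omit [IsUltrametricDist k] [IsAlgClosed C] hk [Algebra (RatFunc C) K]
  [IsScalarTower C (RatFunc C) K] [FiniteDimensional (RatFunc C) K]
  [Algebra.IsSeparable (RatFunc C) K] in
theorem cellDir_end {e : S.Ed} {d : S.Dir} (h : d = S.e0 e ∨ d = S.e1 e) :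
    cellDir S d = Sum.inr e := by
  have h' : ∃ e, d = S.e0 e ∨ d = S.e1 e := ⟨e, h⟩
  unfold cellDir
  rw [dif_pos h', ends_inj' S h'.choose_spec h]

omit [IsUltrametricDist k] [IsAlgClosed C] hk [Algebra (RatFunc C) K]
  [IsScalarTower C (RatFunc C) K] [FiniteDimensional (RatFunc C) K]
  [Algebra.IsSeparable (RatFunc C) K] in
theorem cellDir_disc {d : S.Dir} (h : S.IsDisc d) : cellDir S d = Sum.inl d := by
  have h' : ¬ ∃ e, d = S.e0 e ∨ d = S.e1 e := by
    rintro ⟨e, h1 | h1⟩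
    · exact h.1 e h1
    · exact h.2 e h1
  unfold cellDir
  rw [dif_neg h']

omit [IsUltrametricDist k] [IsAlgClosed C] hk [Algebra (RatFunc C) K]
  [IsScalarTower C (RatFunc C) K] [FiniteDimensional (RatFunc C) K]
  [Algebra.IsSeparable (RatFunc C) K] in
theorem isDisc_iff {d : S.Dir} : ¬ S.IsDisc d ↔ ∃ e, d = S.e0 e ∨ d = S.e1 e := by
  unfold SSK.IsDisc
  constructor
  · intro h
    by_contra h'
    push Not at h'
    exact h ⟨fun e => (h' e).1, fun e => (h' e).2⟩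
  · rintro ⟨e, h1 | h1⟩ ⟨h2, h3⟩
    · exact h2 e h1
    · exact h3 e h1

omit [IsUltrametricDist k] [IsAlgClosed C] hk [Algebra (RatFunc C) K]
  [IsScalarTower C (RatFunc C) K] [FiniteDimensional (RatFunc C) K]
  [Algebra.IsSeparable (RatFunc C) K] in
theorem mapDir_inl (D : S.Dir →₀ ℤ) (d : S.Dir) (h : S.IsDisc d) :
    D.mapDomain (cellDir S) (Sum.inl d) = D d := by
  classical
  rw [mapDom_apply]
  rw [Finset.sum_eq_single d]
  · intro d' hd' hne
    rw [Finset.mem_filter] at hd'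
    exfalso
    by_cases h2 : S.IsDisc d'
    · have h3 := hd'.2
      rw [cellDir_disc S h2] at h3
      exact hne (Sum.inl.inj h3)
    · obtain ⟨e, he⟩ := (isDisc_iff S).1 h2
      have h3 := hd'.2
      rw [cellDir_end S he] at h3
      exact absurd h3 (by simp)
  · intro hd
    rw [Finset.mem_filter, not_and_or] at hd
    rcases hd with hd | hd
    · exact Finsupp.notMem_support_iff.1 hd
    · exact absurd (cellDir_disc S h) hd

omit [IsUltrametricDist k] [IsAlgClosed C] hk [Algebra (RatFunc C) K]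
  [IsScalarTower C (RatFunc C) K] [FiniteDimensional (RatFunc C) K]
  [Algebra.IsSeparable (RatFunc C) K] in
theorem mapDir_inl_of_not (D : S.Dir →₀ ℤ) (d : S.Dir) (h : ¬ S.IsDisc d) :
    D.mapDomain (cellDir S) (Sum.inl d) = 0 := by
  classical
  rw [mapDom_apply]
  refine Finset.sum_eq_zero fun d' hd' => ?_
  rw [Finset.mem_filter] at hd'
  exfalso
  by_cases h2 : S.IsDisc d'
  · have h3 := hd'.2
    rw [cellDir_disc S h2] at h3
    obtain rfl := Sum.inl.inj h3
    exact h h2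
  · obtain ⟨e, he⟩ := (isDisc_iff S).1 h2
    have h3 := hd'.2
    rw [cellDir_end S he] at h3
    exact absurd h3 (by simp)

omit [IsUltrametricDist k] [IsAlgClosed C] hk [Algebra (RatFunc C) K]
  [IsScalarTower C (RatFunc C) K] [FiniteDimensional (RatFunc C) K]
  [Algebra.IsSeparable (RatFunc C) K] in
theorem mapDir_inr (D : S.Dir →₀ ℤ) (e : S.Ed) :
    D.mapDomain (cellDir S) (Sum.inr e) = D (S.e0 e) + D (S.e1 e) := by
  classical
  have hne : S.e0 e ≠ S.e1 e := by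
    intro h
    have := S.ends_inj (a₁ := Sum.inl e) (a₂ := Sum.inr e) h
    exact absurd this (by simp)
  rw [mapDom_apply, ← Finset.sum_pair hne]
  refine Finset.sum_subset ?_ ?_
  · intro d hd
    rw [Finset.mem_filter] at hd
    rw [Finset.mem_insert, Finset.mem_singleton]
    by_cases h2 : S.IsDisc d
    · have h3 := hd.2
      rw [cellDir_disc S h2] at h3
      exact absurd h3 (by simp)
    · obtain ⟨e', he'⟩ := (isDisc_iff S).1 h2
      have h3 := hd.2
      rw [cellDir_end S he'] at h3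
      rwa [Sum.inr.inj h3] at he'
  · intro d hd hd'
    rw [Finset.mem_insert, Finset.mem_singleton] at hd
    rw [Finset.mem_filter, not_and_or] at hd'
    rcases hd' with hd' | hd'
    · exact Finsupp.notMem_support_iff.1 hd'
    · exact absurd (cellDir_end S hd) hd'

/-- a sum over all points is a sum over the cells -/
theorem sum_cells {g : K} (hg : g ≠ 0) (D : S.Dir →₀ ℤ)
    (hD : ∀ d, D d = EE809.od (ex (S.em d) g)) : letI := S.fEd
    ((divf (k := C) g + canD C K).sum fun _ n => n) =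
      (D.sum fun _ n => n) + 2 * Fintype.card S.Ed := by
  classical
  letI := S.fEd
  set E := divf (k := C) g + canD C K with hE
  have key : E.mapDomain (cellOf S) = D.mapDomain (cellDir S) +
      ∑ e : S.Ed, Finsupp.single (Sum.inr e) 2 := by
    ext c
    rw [Finsupp.add_apply, Finsupp.finsetSum_apply]
    rcases c with d | e
    · have h1 : (∑ e : S.Ed, (Finsupp.single (Sum.inr e : S.Dir ⊕ S.Ed) (2 : ℤ)) (Sum.inl d)) = 0 :=
        Finset.sum_eq_zero fun e _ => Finsupp.single_eq_of_ne (by simp)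
      rw [h1, add_zero]
      by_cases hd : S.IsDisc d
      · obtain ⟨m, hm, hm', hs, -⟩ := slope_gD S d hd.1 hd.2 hg
        rw [mapDomain_inl S E d hd.1 hd.2 m hm hm', hs, mapDir_inl S D d hd, hD]
      · rw [mapDomain_inl_of_not S E d hd, mapDir_inl_of_not S D d hd]
    · have h1 : (∑ e' : S.Ed, (Finsupp.single (Sum.inr e' : S.Dir ⊕ S.Ed) (2 : ℤ)) (Sum.inr e)) = 2 := by
        rw [Finset.sum_eq_single e]
        · exact Finsupp.single_eq_same
        · intro e' _ hne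
          exact Finsupp.single_eq_of_ne (by simpa using hne.symm)
        · intro h
          exact absurd (Finset.mem_univ e) h
      rw [h1]
      obtain ⟨m, hm, hm', hs, -⟩ := slope_gA S e hg
      rw [mapDomain_inr S E e m hm hm', hs, mapDir_inr, hD, hD]
  have h2 : ((E.mapDomain (cellOf S)).sum fun _ n => n) = E.sum fun _ n => n :=
    Finsupp.sum_mapDomain_index (fun _ => rfl) (fun _ _ _ => rfl)
  have h3 : ((D.mapDomain (cellDir S)).sum fun _ n => n) = D.sum fun _ n => n :=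
    Finsupp.sum_mapDomain_index (fun _ => rfl) (fun _ _ _ => rfl)
  rw [← h2, key, Finsupp.sum_add_index' (fun _ => rfl) (fun _ _ _ => rfl), h3,
    ← Finsupp.sum_finset_sum_index (fun _ => rfl) (fun _ _ _ => rfl)]
  congr 1
  rw [Finset.sum_congr rfl fun e _ => Finsupp.sum_single_index (h := fun _ n => n) rfl,
    Finset.sum_const, Finset.card_univ]
  ring

/-- **the genus formula** -/
theorem genus : letI := S.fV; letI := S.fEd
    (gen C K : ℤ) + Fintype.card S.V = (∑ v, (gv S v : ℤ)) + Fintype.card S.Ed + 1 := by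
  letI := S.fV
  letI := S.fEd
  obtain ⟨D, hD, hs⟩ := sum_all S (one_ne_zero : (1 : K) ≠ 0)
  have h1 := sum_cells S (one_ne_zero : (1 : K) ≠ 0) D hD
  rw [hs, ← GR2_921.degD_eq_sum, degD_add, degD_divf one_ne_zero,
    degD_canD GR2_921.hc_of_isAlgClosed, Finset.sum_sub_distrib, ← Finset.mul_sum,
    Finset.sum_const, Finset.card_univ] at h1
  simp only [nsmul_eq_mul] at h1
  linarith

/-- the genus formula for 921's `HasGen` -/
theorem genus_hasGen {g : ℕ} (hg : GR3_921.HasGen C K g) {γ : S.V → ℕ}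
    (hγ : ∀ v, GR3_921.HasGen (Ct C) (kap (S.nm v)) (γ v)) : letI := S.fV; letI := S.fEd
    g + Fintype.card S.V = (∑ v, γ v) + Fintype.card S.Ed + 1 := by
  letI := S.fV
  letI := S.fEd
  haveI := isAlgClosed_Ct (C := C)
  have h1 := genus S
  have h2 : ∀ v, gv S v = γ v := fun v => by
    letI := ffA S v
    haveI := ffA_tower S v
    haveI := ffA_fin S v
    haveI := ffA_sep S v
    exact (hγ v).eq_gen
  rw [hg.eq_gen] at h1
  have h3 : ((g + Fintype.card S.V : ℕ) : ℤ) = (((∑ v, γ v) + Fintype.card S.Ed + 1 : ℕ) : ℤ) := by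
    push_cast
    rw [h1]
    congr 2
    exact Finset.sum_congr rfl fun v _ => by rw [h2]
  exact_mod_cast h3

end Crest.Agent.R013.RedD_310
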