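import Mathlib
import Crest.Agent.R013.TP18_928
import Crest.Agent.R013.Slo2_671
import Crest.Agent.R013.Inh12_770
import Crest.Agent.R013.GR2_921
import Crest.Agent.R013.Conn4_315
import Crest.Agent.R013.TopE8_957
import Crest.Agent.R013.NB6_102
import Crest.Agent.R013.Good2_940
import Crest.Agent.R013.Gl14_946
import Crest.Agent.R013.TopE3_957
import Crest.Agent.R013.Lift7_903
import Crest.Agent.R013.DEm3_719
import Crest.Agent.R013.RZ5_365
import Crest.Agent.R013.CE1_280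
import Crest.Agent.R013.NB7_102
import Crest.Agent.R013.NB12_102

-- ▼ part R013/SlI1_770
section

/-!
# Row 13, C-SLOPES (helper770 for 671): divisors and cells of a semistable structure

* `cellD : Pl C K → Dir ⊕ Ed`, `cellV : Pl C K → V ⊕ Ed` : the cell of a place;
* `cdeg_disc`, `cdeg_ann` : the degree of `div f` on a disc / an annulus;
* `kirch` : Kirchhoff's law at a vertex.
-/

set_option autoImplicit false
set_option linter.all false

namespace Crest.Agent.R013.SlI_770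

open scoped NNReal
open WithZero Module
open Crest.Agent.R013.Cell_408 (DiscNorm)
open Crest.Agent.R013.RR7_948 Crest.Agent.R013.RR8_948 Crest.Agent.R013.RR9_948
open Crest.Agent.R013.RR11_948 Crest.Agent.R013.PicD_398
open Crest.Agent.R013.Red332 Crest.Agent.R013.SSK_332 Crest.Agent.R013.TP_928
open Crest.Agent.R013.Slo2_671 Crest.Agent.R013.Fin_928

variable {k : Type*} [NontriviallyNormedField k] [CompleteSpace k] [IsUltrametricDist k]
variable {C : Type*} [NormedField C] [IsUltrametricDist C] [NormedAlgebra k C]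
  [Algebra.IsAlgebraic k C] [IsAlgClosed C] [hk : Fact (DiscNorm k)]
variable {K : Type*} [Field K] [Algebra C K]

section cell

variable (S : SSK k C K)

theorem exists_cellD (P : Pl C K) : ∃ c : S.Dir ⊕ S.Ed,
    (∀ d h0 h1 τ hτ, P = S.ptD d h0 h1 τ hτ → c = Sum.inl d) ∧
    ∀ e τ h0 h1, P = S.ptA e τ h0 h1 → c = Sum.inr e := by
  rcases S.pt_surj P with ⟨d, h0, h1, τ, hτ, h⟩ | ⟨e, τ, h0, h1, h⟩
  · refine ⟨Sum.inl d, fun d' h0' h1' τ' hτ' h' => ?_, fun e τ' h0' h1' h' => ?_⟩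
    · rw [(S.ptD_inj _ _ _ _ _ _ _ _ _ _ (h.symm.trans h')).1]
    · exact absurd (h.symm.trans h') (S.ptDA _ _ _ _ _ _ _ _ _)
  · refine ⟨Sum.inr e, fun d' h0' h1' τ' hτ' h' => ?_, fun e' τ' h0' h1' h' => ?_⟩
    · exact absurd (h'.symm.trans h) (S.ptDA _ _ _ _ _ _ _ _ _)
    · rw [(S.ptA_inj _ _ _ _ _ _ _ _ (h.symm.trans h')).1]

/-- the cell of a place -/
noncomputable def cellD (P : Pl C K) : S.Dir ⊕ S.Ed := (exists_cellD S P).choose

theorem cellD_ptD (d h0 h1 τ hτ) : cellD S (S.ptD d h0 h1 τ hτ) = Sum.inl d :=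
  (exists_cellD S _).choose_spec.1 _ _ _ _ _ rfl

theorem cellD_ptA (e τ h0 h1) : cellD S (S.ptA e τ h0 h1) = Sum.inr e :=
  (exists_cellD S _).choose_spec.2 _ _ _ _ rfl

theorem of_cellD_inl {P : Pl C K} {d : S.Dir} (h : cellD S P = Sum.inl d) :
    ∃ h0 h1 τ hτ, P = S.ptD d h0 h1 τ hτ := by
  rcases S.pt_surj P with ⟨d', h0, h1, τ, hτ, rfl⟩ | ⟨e, τ, h0, h1, rfl⟩
  · rw [cellD_ptD] at h
    obtain rfl := Sum.inl_injective h
    exact ⟨h0, h1, τ, hτ, rfl⟩
  · rw [cellD_ptA] at h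
    exact absurd h (by simp)

theorem of_cellD_inr {P : Pl C K} {e : S.Ed} (h : cellD S P = Sum.inr e) :
    ∃ τ h0 h1, P = S.ptA e τ h0 h1 := by
  rcases S.pt_surj P with ⟨d', h0, h1, τ, hτ, rfl⟩ | ⟨e', τ, h0, h1, rfl⟩
  · rw [cellD_ptD] at h
    exact absurd h (by simp)
  · rw [cellD_ptA] at h
    obtain rfl := Sum.inr_injective h
    exact ⟨τ, h0, h1, rfl⟩

/-- the vertex or edge of a place -/
noncomputable def cellV (P : Pl C K) : S.V ⊕ S.Ed := Sum.map Sigma.fst id (cellD S P)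

theorem cellV_ptD (d h0 h1 τ hτ) : cellV S (S.ptD d h0 h1 τ hτ) = Sum.inl d.1 := by
  rw [cellV, cellD_ptD]; rfl

theorem cellV_ptA (e τ h0 h1) : cellV S (S.ptA e τ h0 h1) = Sum.inr e := by
  rw [cellV, cellD_ptA]; rfl

end cell

variable [Algebra (RatFunc C) K] [IsScalarTower C (RatFunc C) K]
  [FiniteDimensional (RatFunc C) K] [Algebra.IsSeparable (RatFunc C) K] (S : SSK k C K)

theorem cdeg_filter {X : Type*} [DecidableEq X] (cell : Pl C K → X) (x : X) (D : Pl C K →₀ ℤ) :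
    cdeg cell x D = ∑ P ∈ D.support with cell P = x, D P := by
  rw [cdeg_apply, Finsupp.sum, Finset.sum_filter]

/-- the degree of `div f` on a disc -/
theorem cdeg_disc [DecidableEq (S.Dir ⊕ S.Ed)] {f : K} (hf : f ≠ 0) {d : S.Dir} (hd : S.IsDisc d) :
    cdeg (cellD S) (Sum.inl d) (divf (k := C) f) = ord S d f := by
  obtain ⟨m, hm, hm', hs⟩ := RedD_310.slope_fD S d hd.1 hd.2 hf
  have h1 : ord S d f = m.sum fun _ n => n := by
    rw [hs, S.em_od d f hf]; rfl
  rw [h1, cdeg_filter, Finsupp.sum]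
  symm
  refine Finset.sum_bij (fun τ hτ => S.ptD d hd.1 hd.2 τ (hm τ (Finsupp.mem_support_iff.1 hτ)))
    ?_ ?_ ?_ ?_
  · intro τ hτ
    rw [Finset.mem_filter, Finsupp.mem_support_iff, ← hm']
    exact ⟨Finsupp.mem_support_iff.1 hτ, cellD_ptD S _ _ _ _ _⟩
  · intro τ hτ τ' hτ' h
    exact (S.ptD_inj _ _ _ _ _ _ _ _ _ _ h).2
  · intro P hP
    rw [Finset.mem_filter, Finsupp.mem_support_iff] at hP
    obtain ⟨h0, h1, τ, hτ, rfl⟩ := of_cellD_inl S hP.2
    refine ⟨τ, ?_, rfl⟩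
    rw [Finsupp.mem_support_iff, hm' τ hτ]
    exact hP.1
  · intro τ hτ
    exact hm' _ _

theorem cdeg_not_disc [DecidableEq (S.Dir ⊕ S.Ed)] (D : Pl C K →₀ ℤ) {d : S.Dir} (hd : ¬ S.IsDisc d) :
    cdeg (cellD S) (Sum.inl d) D = 0 := by
  rw [cdeg_filter]
  refine Finset.sum_eq_zero fun P hP => ?_
  obtain ⟨h0, h1, τ, hτ, rfl⟩ := of_cellD_inl S (Finset.mem_filter.1 hP).2
  exact absurd ⟨h0, h1⟩ hd

/-- the degree of `div f` on an annulus -/
theorem cdeg_ann [DecidableEq (S.Dir ⊕ S.Ed)] {f : K} (hf : f ≠ 0) (e : S.Ed) :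
    cdeg (cellD S) (Sum.inr e) (divf (k := C) f) = ord S (S.e0 e) f + ord S (S.e1 e) f := by
  obtain ⟨m, hm, hm', hs⟩ := RedD_310.slope_fA S e hf
  have h1 : ord S (S.e0 e) f + ord S (S.e1 e) f = m.sum fun _ n => n := by
    rw [hs, S.em_od _ f hf, S.em_od _ f hf]; rfl
  rw [h1, cdeg_filter, Finsupp.sum]
  symm
  refine Finset.sum_bij (fun τ hτ => S.ptA e τ (hm τ (Finsupp.mem_support_iff.1 hτ)).1
    (hm τ (Finsupp.mem_support_iff.1 hτ)).2) ?_ ?_ ?_ ?_
  · intro τ hτ
    rw [Finset.mem_filter, Finsupp.mem_support_iff, ← hm']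
    exact ⟨Finsupp.mem_support_iff.1 hτ, cellD_ptA S _ _ _ _⟩
  · intro τ hτ τ' hτ' h
    exact (S.ptA_inj _ _ _ _ _ _ _ _ h).2
  · intro P hP
    rw [Finset.mem_filter, Finsupp.mem_support_iff] at hP
    obtain ⟨τ, h0, h1, rfl⟩ := of_cellD_inr S hP.2
    refine ⟨τ, ?_, rfl⟩
    rw [Finsupp.mem_support_iff, hm' τ h0 h1]
    exact hP.1
  · intro τ hτ
    exact hm' _ _ _

theorem cdeg_comp {X Y : Type*} [DecidableEq Y] (cell : Pl C K → X) (g : X → Y) (y : Y) (D : Pl C K →₀ ℤ) :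
    cdeg (fun P => g (cell P)) y D =
      (D.mapDomain cell).sum fun x n => if g x = y then n else 0 := by
  rw [Finsupp.sum_mapDomain_index]
  · rfl
  · intro b; simp
  · intro b m n; split_ifs <;> simp

theorem mapDomain_cdeg {X : Type*} [DecidableEq X] (cell : Pl C K → X) (x : X) (D : Pl C K →₀ ℤ) :
    (D.mapDomain cell) x = cdeg cell x D := by
  rw [Finsupp.mapDomain, Finsupp.sum_apply, cdeg_apply]
  refine Finsupp.sum_congr fun P _ => ?_
  rw [Finsupp.single_apply]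

/-- **Kirchhoff's law** at a vertex -/
theorem kirch [Fintype S.Ed] [DecidableEq S.V] [DecidableEq (S.V ⊕ S.Ed)] {f : K} (hf : f ≠ 0) (v : S.V) :
    cdeg (cellV S) (Sum.inl v) (divf (k := C) f) +
      ∑ e with (S.e0 e).1 = v, ord S (S.e0 e) f + ∑ e with (S.e1 e).1 = v, ord S (S.e1 e) f = 0 := by
  classical
  obtain ⟨s, h1, h2, h3⟩ := exists_sum_ord S hf v
  let g : S.Dir ⊕ S.Ed → S.V ⊕ S.Ed := Sum.map Sigma.fst id
  have hgl : ∀ d : S.Dir, g (Sum.inl d) = Sum.inl d.1 := fun d => rfl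
  have hgr : ∀ e : S.Ed, g (Sum.inr e) = Sum.inr e := fun d => rfl
  let F : S.Dir ⊕ S.Ed →₀ ℤ := (divf (k := C) f).mapDomain (cellD S)
  let Φ : (S.Dir ⊕ S.Ed →₀ ℤ) →+ ℤ :=
    { toFun := fun G => G.sum fun x (n : ℤ) => if g x = Sum.inl v then n else 0
      map_zero' := by simp
      map_add' := fun G G' => by
        rw [Finsupp.sum_add_index']
        · intro x; simp
        · intro x a b; split_ifs <;> simp }
  have hΦ : ∀ x n, Φ (Finsupp.single x n) = if g x = Sum.inl v then n else 0 := by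
    intro x n
    change ((Finsupp.single x n).sum fun x (n : ℤ) => if g x = Sum.inl v then n else 0) = _
    rw [Finsupp.sum_single_index]
    simp
  have hΦ0 : ∀ G : S.Dir ⊕ S.Ed →₀ ℤ, (∀ d : S.Dir, d.1 = v → G (Sum.inl d) = 0) → Φ G = 0 := by
    intro G hG
    change (G.sum fun x (n : ℤ) => if g x = Sum.inl v then n else 0) = 0
    refine Finset.sum_eq_zero fun x hx => ?_
    rcases x with d | e
    · by_cases hd : d.1 = v
      · simp only [hG d hd, ite_self]
      · exact if_neg fun h => hd (Sum.inl_injective h)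
    · exact if_neg fun h => absurd h (by rw [hgr]; exact Sum.inr_ne_inl)
  have hsingle : ∀ (a b : S.Dir) (n : ℤ),
      (Finsupp.single (Sum.inl a : S.Dir ⊕ S.Ed) n) (Sum.inl b) = if a = b then n else 0 := by
    intro a b n
    by_cases h : a = b
    · rw [h, Finsupp.single_eq_same, if_pos rfl]
    · rw [Finsupp.single_eq_of_ne' (fun h' => h (Sum.inl_injective h')), if_neg h]
  let H : S.Dir ⊕ S.Ed →₀ ℤ := ∑ d ∈ s, Finsupp.single (Sum.inl d) (ord S d f) -
    ∑ e, Finsupp.single (Sum.inl (S.e0 e)) (ord S (S.e0 e) f) -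
    ∑ e, Finsupp.single (Sum.inl (S.e1 e)) (ord S (S.e1 e) f)
  have hH : Φ H = -∑ e with (S.e0 e).1 = v, ord S (S.e0 e) f -
      ∑ e with (S.e1 e).1 = v, ord S (S.e1 e) f := by
    simp only [H]
    rw [map_sub, map_sub, map_sum, map_sum, map_sum]
    simp only [hΦ]
    have h4 : ∑ d ∈ s, (if g (Sum.inl d) = Sum.inl v then ord S d f else 0) = 0 := by
      rw [← h3]
      refine Finset.sum_congr rfl fun d hd => if_pos ?_
      rw [hgl, h2 d hd]
    rw [h4, Finset.sum_filter, Finset.sum_filter, zero_sub]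
    congr 1
    · congr 1
      refine Finset.sum_congr rfl fun e _ => ?_
      simp only [hgl, Sum.inl.injEq]
    · refine Finset.sum_congr rfl fun e _ => ?_
      simp only [hgl, Sum.inl.injEq]
  have hFH : Φ (F - H) = 0 := by
    refine hΦ0 _ fun d hd => ?_
    rw [Finsupp.sub_apply]
    simp only [F, H, Finsupp.sub_apply, Finsupp.finset_sum_apply, hsingle, mapDomain_cdeg]
    have h5 : ∑ d' ∈ s, (if d' = d then ord S d' f else 0) = ord S d f := by
      rw [Finset.sum_ite_eq']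
      split_ifs with h
      · rfl
      · exact (h1 d h hd).symm
    rw [h5]
    have hinj := S.ends_inj
    have h01 : ∀ e e' : S.Ed, S.e0 e ≠ S.e1 e' := fun e e' h =>
      absurd (hinj (a₁ := Sum.inl e) (a₂ := Sum.inr e') h) Sum.inl_ne_inr
    by_cases hdisc : S.IsDisc d
    · rw [cdeg_disc S hf hdisc]
      have h6 : ∑ e, (if S.e0 e = d then ord S (S.e0 e) f else 0) = 0 :=
        Finset.sum_eq_zero fun e _ => if_neg fun h => hdisc.1 e h.symm
      have h7 : ∑ e, (if S.e1 e = d then ord S (S.e1 e) f else 0) = 0 :=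
        Finset.sum_eq_zero fun e _ => if_neg fun h => hdisc.2 e h.symm
      rw [h6, h7]
      ring
    · rw [cdeg_not_disc S _ hdisc]
      have h8 : (∃ e, S.e0 e = d) ∨ ∃ e, S.e1 e = d := by
        by_contra hcon
        push Not at hcon
        exact hdisc ⟨fun e h => hcon.1 e h.symm, fun e h => hcon.2 e h.symm⟩
      rcases h8 with ⟨e, rfl⟩ | ⟨e, rfl⟩
      · have h6 : ∑ e', (if S.e0 e' = S.e0 e then ord S (S.e0 e') f else 0) =
            ord S (S.e0 e) f := by
          rw [Finset.sum_eq_single e]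
          · rw [if_pos rfl]
          · intro e' _ hne
            refine if_neg fun h => hne ?_
            exact Sum.inl_injective (hinj (a₁ := Sum.inl e') (a₂ := Sum.inl e) h)
          · intro h; exact absurd (Finset.mem_univ _) h
        have h7 : ∑ e', (if S.e1 e' = S.e0 e then ord S (S.e1 e') f else 0) = 0 :=
          Finset.sum_eq_zero fun e' _ => if_neg fun h => h01 _ _ h.symm
        rw [h6, h7]
        ring
      · have h6 : ∑ e', (if S.e0 e' = S.e1 e then ord S (S.e0 e') f else 0) = 0 :=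
          Finset.sum_eq_zero fun e' _ => if_neg fun h => h01 _ _ h
        have h7 : ∑ e', (if S.e1 e' = S.e1 e then ord S (S.e1 e') f else 0) =
            ord S (S.e1 e) f := by
          rw [Finset.sum_eq_single e]
          · rw [if_pos rfl]
          · intro e' _ hne
            refine if_neg fun h => hne ?_
            exact Sum.inr_injective (hinj (a₁ := Sum.inr e') (a₂ := Sum.inr e) h)
          · intro h; exact absurd (Finset.mem_univ _) h
        rw [h6, h7]
        ring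
  have h9 : cdeg (cellV S) (Sum.inl v) (divf (k := C) f) = Φ F := cdeg_comp (cellD S) g _ _
  rw [map_sub, hH] at hFH
  rw [h9]
  linarith

/-- the degree of `div f` on an annulus, with `cellV` -/
theorem cdegV_ann [DecidableEq (S.V ⊕ S.Ed)] {f : K} (hf : f ≠ 0) (e : S.Ed) :
    cdeg (cellV S) (Sum.inr e) (divf (k := C) f) = ord S (S.e0 e) f + ord S (S.e1 e) f := by
  classical
  rw [← cdeg_ann S hf e, cdeg_filter, cdeg_filter]
  refine Finset.sum_congr ?_ fun _ _ => rfl
  ext P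
  rw [Finset.mem_filter, Finset.mem_filter, cellV]
  refine and_congr_right fun _ => ?_
  rcases cellD S P with d | e' <;> simp

end Crest.Agent.R013.SlI_770
end

-- ▼ part R013/SlI2_770
section

/-!
# Row 13, C-SLOPES (helper770 for 671), (D1): the slope formula over the inherited structure
-/

set_option autoImplicit false
set_option linter.all false

namespace Crest.Agent.R013.SlI_770

open scoped NNReal
open WithZero Module
open Crest.Agent.R013.Cell_408 (DiscNorm)
open Crest.Agent.R013.RR7_948 Crest.Agent.R013.RR8_948 Crest.Agent.R013.RR9_948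
open Crest.Agent.R013.RR11_948 Crest.Agent.R013.PicD_398
open Crest.Agent.R013.RR12_948 Crest.Agent.R013.RR18_948 Crest.Agent.R013.RR19_948
open Crest.Agent.R013.Red332 Crest.Agent.R013.SSK_332 Crest.Agent.R013.TP_928
open Crest.Agent.R013.Slo2_671 Crest.Agent.R013.Fin_928 Crest.Agent.R013.Inh_770

variable {k : Type*} [NontriviallyNormedField k] [CompleteSpace k] [IsUltrametricDist k]
variable {C : Type*} [NormedField C] [IsUltrametricDist C] [NormedAlgebra k C]
  [Algebra.IsAlgebraic k C] [IsAlgClosed C] [hk : Fact (DiscNorm k)]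
variable {K : Type*} [Field K] [Algebra C K]

/-- every vertex has a disc direction -/
theorem exists_disc (S : SSK k C K) (v : S.V) : ∃ d : S.Dir, d.1 = v ∧ S.IsDisc d := by
  classical
  obtain ⟨i, h1, h2, h3⟩ := S.ff v
  letI := i
  haveI := h1
  haveI := h2
  haveI := h3
  haveI := S.fEd
  let T : Finset (Pl (Ct C) (kap (S.nm v))) :=
    ((Finset.univ.image S.e0 ∪ Finset.univ.image S.e1)).preimage
      (fun x => (⟨v, x⟩ : S.Dir)) (fun x _ y _ h => eq_of_heq (Sigma.mk.inj h).2)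
  obtain ⟨x, hx⟩ := RR12_948.exists_notMem T
  refine ⟨⟨v, x⟩, rfl, fun e he => hx ?_, fun e he => hx ?_⟩
  · exact Finset.mem_preimage.2 (Finset.mem_union.2
      (Or.inl (Finset.mem_image.2 ⟨e, Finset.mem_univ _, he.symm⟩)))
  · exact Finset.mem_preimage.2 (Finset.mem_union.2
      (Or.inr (Finset.mem_image.2 ⟨e, Finset.mem_univ _, he.symm⟩)))

variable {M : Type*} [Field M] [Algebra C M] [Algebra K M] [IsScalarTower C K M]
  [FiniteDimensional K M] [IsGalois K M]
variable [Algebra (RatFunc C) K] [IsScalarTower C (RatFunc C) K]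
  [FiniteDimensional (RatFunc C) K] [Algebra.IsSeparable (RatFunc C) K]
variable {S : SSK k C K} (P : Spl S M)

include P in
/-- the places of `M` restrict to normalised places of `K` -/
theorem exists_restrict (Q : Pl C M) : ∃ P₀ : Pl C K, ∀ f : K, Q.v (algebraMap K M f) = P₀.v f := by
  rcases (P.SL P.ffL).pt_surj Q with ⟨y, h0, h1, τ, hτ, rfl⟩ | ⟨e, τ, h0, h1, rfl⟩
  · exact ⟨_, P.ptD_K P.ffL y h0 h1 τ hτ⟩
  · exact ⟨_, P.ptA_K P.ffL e τ h0 h1⟩

include P in
theorem eR_eq_one (Q : Pl C M) : eR K Q = 1 := by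
  obtain ⟨P₀, hP⟩ := exists_restrict P Q
  obtain ⟨t, ht⟩ := P₀.surj (exp (-1))
  have h1 := v_algebraMap (K := K) Q t
  rw [hP, ht] at h1
  have ht0 : (RR18_948.under K Q).v t ≠ 0 := by
    intro h0
    rw [h0, zero_pow (by have := eR_pos (K := K) Q; omega)] at h1
    exact exp_ne_zero h1
  rw [← exp_log ht0, ← exp_nsmul, exp_inj, nsmul_eq_mul] at h1
  have h2 : ((eR K Q : ℕ) : ℤ) ∣ 1 := ⟨-log ((RR18_948.under K Q).v t), by linarith⟩
  have h3 : (eR K Q) ∣ 1 := by exact_mod_cast h2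
  exact Nat.dvd_one.1 h3

/-- the action on the vertices -/
noncomputable def aV (a : M ≃ₐ[K] M) (w : P.inh.V) : P.inh.V := (P.exists_act_V P.ffL a w).choose


theorem aV_nm (a : M ≃ₐ[K] M) (w : P.inh.V) (f : M) :
    (P.inh.nm (aV P a w)).v (a f) = (P.inh.nm w).v f :=
  (P.exists_act_V P.ffL a w).choose_spec.2 f

theorem eq_aV {a : M ≃ₐ[K] M} {w w' : P.inh.V}
    (h : ∀ f, (P.inh.nm w').v (a f) = (P.inh.nm w).v f) : w' = aV P a w := by
  apply P.inh.nm_inj
  apply Nm.ext'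
  intro f
  have h1 := h (a.symm f)
  have h2 := aV_nm P a w (a.symm f)
  rw [AlgEquiv.apply_symm_apply] at h1 h2
  rw [h1, h2]

/-- the action on the edges -/
noncomputable def aE (a : M ≃ₐ[K] M) (e : P.inh.Ed) : P.inh.Ed := (P.actE P.ffL).toSMul.smul a e

theorem edE_aE (a : M ≃ₐ[K] M) (e : P.inh.Ed) :
    P.edE P.ffL (aE P a e) = ((P.edE P.ffL e).1, (P.edE P.ffL e).2 * a⁻¹) := P.edE_act P.ffL a e

/-- the action on the places of the discs -/
theorem act_plD (d : S.Dir) (hd : S.IsDisc d) (σ a : M ≃ₐ[K] M) (τ : C) (hτ : ‖τ‖ < 1) :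
    act a (P.plD d hd σ τ hτ) = P.plD d hd (σ * a⁻¹) τ hτ := by
  apply Pl.ext
  ext f
  rfl

theorem act_plA (e : S.Ed) (σ a : M ≃ₐ[K] M) (τ : C) (h0 : ‖S.cc e‖ < ‖τ‖) (h1 : ‖τ‖ < 1) :
    act a (P.plA e σ τ h0 h1) = P.plA e (σ * a⁻¹) τ h0 h1 := by
  apply Pl.ext
  ext f
  rfl

theorem cellV_plD (d : S.Dir) (hd : S.IsDisc d) (σ : M ≃ₐ[K] M) (τ : C) (hτ : ‖τ‖ < 1) :
    cellV P.inh (P.plD d hd σ τ hτ) = Sum.inl ((P.dirE P.ffL).symm (d, σ)).1 := by
  have h2 : S.IsDisc (P.eD (P.eD.symm (d, σ))).1 := by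
    rw [Equiv.apply_symm_apply]; exact hd
  obtain ⟨h3, h4⟩ := P.not_end_of h2
  have h5 : P.plD d hd σ τ hτ = P.inh.ptD (P.eD.symm (d, σ)) h3 h4 τ hτ :=
    P.plD_congr (q := (d, σ)) (Equiv.apply_symm_apply _ _).symm hd h2 τ hτ
  exact (congrArg (cellV P.inh) h5).trans (cellV_ptD _ _ _ _ _ _)

theorem cellV_plA (e : S.Ed) (σ : M ≃ₐ[K] M) (τ : C) (h0 : ‖S.cc e‖ < ‖τ‖) (h1 : ‖τ‖ < 1) :
    cellV P.inh (P.plA e σ τ h0 h1) = Sum.inr ((P.edE P.ffL).symm (e, σ)) := by
  have h2 : Spl.eE S M ((Spl.eE S M).symm (e, σ)) = (e, σ) := Equiv.apply_symm_apply _ _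
  have h3 : ‖S.cc (Spl.eE S M ((Spl.eE S M).symm (e, σ))).1‖ < ‖τ‖ := by rw [h2]; exact h0
  have h5 : P.plA e σ τ h0 h1 = P.inh.ptA ((Spl.eE S M).symm (e, σ)) τ h3 h1 :=
    P.plA_congr (q := (e, σ)) h2.symm τ h0 h3 h1
  exact (congrArg (cellV P.inh) h5).trans (cellV_ptA _ _ _ _ _)

theorem aV_dirE (a : M ≃ₐ[K] M) (d : S.Dir) (σ : M ≃ₐ[K] M) :
    ((P.dirE P.ffL).symm (d, σ * a⁻¹)).1 = aV P a ((P.dirE P.ffL).symm (d, σ)).1 := by
  apply eq_aV
  intro f
  have h1 := (P.eD_rel ((P.dirE P.ffL).symm (d, σ))).nm f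
  have h2 := (P.eD_rel ((P.dirE P.ffL).symm (d, σ * a⁻¹))).nm (a f)
  have e1 : P.eD ((P.dirE P.ffL).symm (d, σ)) = (d, σ) := Equiv.apply_symm_apply _ _
  have e2 : P.eD ((P.dirE P.ffL).symm (d, σ * a⁻¹)) = (d, σ * a⁻¹) := Equiv.apply_symm_apply _ _
  rw [e1] at h1
  rw [e2] at h2
  have h3 : (σ * a⁻¹) (a f) = σ f := by
    change σ (a.symm (a f)) = σ f
    rw [AlgEquiv.symm_apply_apply]
  have h4 : (P.nmL ((P.dirE P.ffL).symm (d, σ * a⁻¹)).1).v (a f) =
      (P.nmL ((P.dirE P.ffL).symm (d, σ)).1).v f := by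
    rw [h1, h2]
    exact congrArg (fun z => gnV (P.ps d z)) h3
  exact h4

/-- the cell of a conjugate place -/
theorem cellV_act (a : M ≃ₐ[K] M) (Q : Pl C M) :
    cellV P.inh (act a Q) = Sum.map (aV P a) (aE P a) (cellV P.inh Q) := by
  rcases P.pl_surj Q with ⟨d, hd, σ, τ, hτ, rfl⟩ | ⟨e, σ, τ, h0, h1, rfl⟩
  · rw [act_plD, cellV_plD, cellV_plD]
    exact congrArg Sum.inl (aV_dirE P a d σ)
  · rw [act_plA, cellV_plA, cellV_plA]
    refine congrArg Sum.inr ?_
    have h2 := edE_aE P a ((P.edE P.ffL).symm (e, σ))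
    have h3 : P.edE P.ffL ((P.edE P.ffL).symm (e, σ)) = (e, σ) := Equiv.apply_symm_apply _ _
    rw [h3] at h2
    exact (Equiv.symm_apply_eq _).2 h2.symm

theorem nsmul_of_dvd {n : ℕ} {D : Pl C K →₀ ℤ} (h : ∀ P, (n : ℤ) ∣ D P) :
    ∃ x : Pl C K →₀ ℤ, D = n • x := by
  choose g hg using h
  rcases Nat.eq_zero_or_pos n with rfl | hn
  · refine ⟨0, ?_⟩
    ext P
    rw [hg P]; simp
  · have hgs : ∀ P, g P ≠ 0 → P ∈ D.support := by
      intro P hP
      rw [Finsupp.mem_support_iff, hg P]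
      exact mul_ne_zero (by exact_mod_cast hn.ne') hP
    refine ⟨Finsupp.onFinset D.support g hgs, ?_⟩
    ext P
    rw [hg P]
    simp

variable [CharZero C]

/-- **(D1) slopes from the inherited structure** -/
theorem exists_slope_inh {G : Type*} [AddCommGroup G] {n : ℕ} (hn0 : 0 < n)
    (hn : ∀ g : G, n • g = 0)
    (θ : P.inh.V → G) (φ : (M ≃ₐ[K] M) → G)
    (hθ : ∀ (a : M ≃ₐ[K] M) (w w' : P.inh.V),
      (∀ f, (P.inh.nm w').v (a f) = (P.inh.nm w).v f) → θ w' = θ w + φ a)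
    (δ : S.Ed → G)
    (hδ : ∀ e : P.inh.Ed, θ (P.inh.e1 e).1 = θ (P.inh.e0 e).1 + δ (P.edE P.ffL e).1)
    (a : M ≃ₐ[K] M) :
    ∃ h : K, h ≠ 0 ∧ (∃ x, divf (k := C) h = n • x) ∧
      (letI := S.fEd; ∑ e : S.Ed, ord S (S.e0 e) h • δ e = φ a) := by
  classical
  letI : Algebra (RatFunc C) M := ((algebraMap K M).comp (algebraMap (RatFunc C) K)).toAlgebra
  haveI : IsScalarTower (RatFunc C) K M := IsScalarTower.of_algebraMap_eq fun _ => rfl
  haveI : IsScalarTower C (RatFunc C) M := IsScalarTower.of_algebraMap_eq fun c => by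
    rw [IsScalarTower.algebraMap_apply (RatFunc C) K M, ← IsScalarTower.algebraMap_apply C _ K,
      ← IsScalarTower.algebraMap_apply]
  haveI : FiniteDimensional (RatFunc C) M := FiniteDimensional.trans (RatFunc C) K M
  haveI : Algebra.IsSeparable (RatFunc C) M := Algebra.IsSeparable.trans (RatFunc C) K M
  letI := S.fEd
  letI := P.inh.fEd
  letI := P.inh.fV
  obtain ⟨⟨v₀⟩, -⟩ := P.inh.conn
  obtain ⟨d₀, hd₀, hdd⟩ := exists_disc P.inh v₀
  have hτ0 : ‖(0 : C)‖ < 1 := by rw [norm_zero]; exact one_pos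
  obtain ⟨h, h0, h1, h2⟩ := Slo2_671.exists_slope (k := C) (K := K) (M := M) (VM := P.inh.V)
    (EM := P.inh.Ed) (E := S.Ed) (G := G) hn0 hn
    (fun D hD => by
      obtain ⟨E, f, hf, -, hE⟩ := Div6_280.exists_div (F := C) (K := M) hn0 hD
      exact ⟨E, f, hf, hE⟩)
    (fun Q => GR2_921.degP_eq_one Q)
    (fun Q => eR_eq_one P Q)
    (fun e => (P.inh.e0 e).1) (fun e => (P.inh.e1 e).1) (fun e => (P.edE P.ffL e).1)
    (aV P) (aE P)
    (fun σ τ e => (P.actE P.ffL).mul_smul σ τ e) (fun e => (P.actE P.ffL).one_smul e)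
    (fun e e' => ⟨fun h => P.act_orbit P.ffL e e' h, by
      rintro ⟨σ, rfl⟩
      rw [edE_aE]⟩)
    (fun σ e h => P.act_free P.ffL σ e h)
    (fun e => ⟨(P.edE P.ffL).symm (e, 1),
      congrArg Prod.fst (Equiv.apply_symm_apply (P.edE P.ffL) (e, 1))⟩)
    (cellV P.inh) (cellV_act P)
    (fun e f => ord P.inh (P.inh.e0 e) f) (fun e f => ord P.inh (P.inh.e1 e) f)
    (fun e f g hf hg => by
      unfold ord
      rw [← P.inh.em_od _ _ (mul_ne_zero hf hg), ← P.inh.em_od _ _ hf, ← P.inh.em_od _ _ hg,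
        map_mul, EE809.od_mul hk.out (by rwa [Ne, map_eq_zero]) (by rwa [Ne, map_eq_zero])])
    (fun σ e f hf => P.od_e0_act P.ffL σ e f hf)
    (fun f hf w => kirch P.inh hf w)
    (fun f hf e => (cdegV_ann P.inh hf e).symm)
    (fun e h => ord S (S.e0 e) h)
    (fun e h hh => by
      unfold ord
      have hh' : algebraMap K M h ≠ 0 := by rwa [Ne, map_eq_zero]
      rw [← P.inh.em_od _ _ hh', ← S.em_od _ _ hh]
      have h3 := P.em_K P.ffL (P.inh.e0 e) h
      have h4 : P.inh.em (P.inh.e0 e) (algebraMap K M h) =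
          S.em (P.dirE P.ffL (P.inh.e0 e)).1 h := h3
      rw [h4]
      have h5 := P.e0_eq P.ffL e
      have h6 : P.dirE P.ffL (P.inh.e0 e) = (S.e0 (P.edE P.ffL e).1, (P.edE P.ffL e).2) := h5
      rw [h6])
    θ φ (fun σ w => hθ σ w _ (aV_nm P σ w)) δ hδ
    (P.inh.ptD d₀ hdd.1 hdd.2 0 hτ0) d₀.1 (cellV_ptD _ _ _ _ _ _) a
  exact ⟨h, h0, nsmul_of_dvd h1, h2⟩

end Crest.Agent.R013.SlI_770
end

-- ▼ part R013/SlI3_770
section

/-!
# Row 13, C-SLOPES (helper770 for 671), (D2): every harmonic vector modulo `n` is a slope vector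

No walks: the sheet number `θ` modulo the range of `φ` descends to the vertices of `K`, so the
jump `δ` is a coboundary modulo the range of `φ`.
-/

set_option autoImplicit false
set_option linter.all false

namespace Crest.Agent.R013.SlI_770

open scoped NNReal
open WithZero Module
open Crest.Agent.R013.Cell_408 (DiscNorm)
open Crest.Agent.R013.RR7_948 Crest.Agent.R013.RR8_948 Crest.Agent.R013.RR9_948
open Crest.Agent.R013.RR11_948 Crest.Agent.R013.PicD_398
open Crest.Agent.R013.Red332 Crest.Agent.R013.SSK_332 Crest.Agent.R013.TP_928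
open Crest.Agent.R013.Slo2_671 Crest.Agent.R013.Fin_928 Crest.Agent.R013.Inh_770

variable {k : Type*} [NontriviallyNormedField k] [CompleteSpace k] [IsUltrametricDist k]
variable {C : Type*} [NormedField C] [IsUltrametricDist C] [NormedAlgebra k C]
  [Algebra.IsAlgebraic k C] [IsAlgClosed C] [CharZero C] [hk : Fact (DiscNorm k)]
variable {K : Type*} [Field K] [Algebra C K] [Algebra (RatFunc C) K]
  [IsScalarTower C (RatFunc C) K] [FiniteDimensional (RatFunc C) K]
  [Algebra.IsSeparable (RatFunc C) K]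
variable {M : Type*} [Field M] [Algebra C M] [Algebra K M] [IsScalarTower C K M]
  [FiniteDimensional K M] [IsGalois K M]
  {S : SSK k C K} (P : Spl S M)

open Classical in
/-- **(D2)** -/
theorem exists_kirchhoff {n : ℕ} (hn0 : 0 < n) (θ : P.inh.V → S.Ed → ZMod n)
    (φ : (M ≃ₐ[K] M) → S.Ed → ZMod n)
    (hθ : ∀ (a : M ≃ₐ[K] M) (w w' : P.inh.V),
      (∀ f, (P.inh.nm w').v (a f) = (P.inh.nm w).v f) → θ w' = θ w + φ a)
    (hδ : ∀ (e : P.inh.Ed) (e' : S.Ed), θ (P.inh.e1 e).1 e' = θ (P.inh.e0 e).1 e' +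
      if (P.edE P.ffL e).1 = e' then 1 else 0)
    (lam : S.Ed → ZMod n)
    (hlam : letI := S.fEd; letI := S.fV; ∀ v : S.V,
      (∑ e : S.Ed with (S.e0 e).1 = v, lam e) - (∑ e : S.Ed with (S.e1 e).1 = v, lam e) = 0) :
    ∃ h : K, h ≠ 0 ∧ (∃ x, divf (k := C) h = n • x) ∧
      ∀ e, ((ord S (S.e0 e) h : ℤ) : ZMod n) = lam e := by
  letI := S.fEd
  letI := S.fV
  obtain ⟨⟨v₀⟩, -⟩ := S.conn
  obtain ⟨w₀, hw₀⟩ := P.vK_surj P.ffL v₀
  -- `φ` is a homomorphism
  have hmul : ∀ a b, φ (a * b) = φ a + φ b := by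
    intro a b
    have h1 := hθ b w₀ (aV P b w₀) (aV_nm P b w₀)
    have h2 := hθ a (aV P b w₀) (aV P a (aV P b w₀)) (aV_nm P a _)
    have h3 := hθ (a * b) w₀ (aV P a (aV P b w₀)) (fun f => by
      have h4 := aV_nm P a (aV P b w₀) (b f)
      have h5 := aV_nm P b w₀ f
      exact h4.trans h5)
    rw [h2, h1] at h3
    have h6 : θ w₀ + (φ b + φ a) = θ w₀ + φ (a * b) := by rw [← h3]; abel
    rw [← add_left_cancel h6, add_comm]
  have hone : φ 1 = 0 := by
    have := hmul 1 1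
    rw [mul_one] at this
    exact left_eq_add.1 this
  have hinv : ∀ a, φ a⁻¹ = -φ a := by
    intro a
    have := hmul a⁻¹ a
    rw [inv_mul_cancel, hone] at this
    exact (neg_eq_of_add_eq_zero_left this.symm).symm
  let H0 : AddSubgroup (S.Ed → ZMod n) :=
    { carrier := Set.range φ
      zero_mem' := ⟨1, hone⟩
      add_mem' := by rintro _ _ ⟨a, rfl⟩ ⟨b, rfl⟩; exact ⟨a * b, hmul a b⟩
      neg_mem' := by rintro _ ⟨a, rfl⟩; exact ⟨a⁻¹, hinv a⟩ }
  let H : Submodule (ZMod n) (S.Ed → ZMod n) := AddSubgroup.toZModSubmodule n H0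
  have hH : ∀ g, g ∈ H ↔ ∃ a, φ a = g := fun g => Iff.rfl
  -- the sheet number on the vertices of `K`
  choose wv hwv using P.vK_surj P.ffL
  let t : S.V → (S.Ed → ZMod n) ⧸ H := fun v => H.mkQ (θ (wv v))
  have ht : ∀ w : P.inh.V, H.mkQ (θ w) = t (P.vK P.ffL w) := by
    intro w
    obtain ⟨a, ha⟩ := P.exists_conj_V P.ffL (wv (P.vK P.ffL w)) w (hwv _)
    have h1 := hθ a _ _ ha
    rw [h1, map_add]
    have h2 : H.mkQ (φ a) = 0 := by
      rw [Submodule.mkQ_apply, Submodule.Quotient.mk_eq_zero, hH]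
      exact ⟨a, rfl⟩
    rw [h2, add_zero]
  have htd : ∀ e : S.Ed, t (S.e1 e).1 = t (S.e0 e).1 + H.mkQ (Pi.single e 1) := by
    intro e
    obtain ⟨e', he'⟩ := P.exists_edge P.ffL e 1
    have h1 : θ (P.inh.e1 e').1 = θ (P.inh.e0 e').1 + Pi.single e 1 := by
      funext e''
      have h2 := hδ e' e''
      rw [he'] at h2
      rw [h2, Pi.add_apply, Pi.single_apply]
      congr 1
      by_cases h3 : e = e''
      · rw [if_pos h3, if_pos h3.symm]
      · rw [if_neg h3, if_neg (Ne.symm h3)]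
    have h3 := congrArg H.mkQ h1
    rw [map_add, ht, ht] at h3
    have h4 : P.vK P.ffL (P.inh.e1 e').1 = (S.e1 (P.edE P.ffL e').1).1 := P.vK_e1 P.ffL e'
    have h5 : P.vK P.ffL (P.inh.e0 e').1 = (S.e0 (P.edE P.ffL e').1).1 := P.vK_e0 P.ffL e'
    rw [h4, h5, he'] at h3
    exact h3
  -- `lam` is in the range of `φ`
  have hsum : ∀ s : S.Ed → S.V, ∑ e, lam e • t (s e) = ∑ v, (∑ e with s e = v, lam e) • t v := by
    intro s
    calc ∑ e, lam e • t (s e) = ∑ v, ∑ e with s e = v, lam e • t (s e) :=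
          (Finset.sum_fiberwise _ _ _).symm
      _ = ∑ v, (∑ e with s e = v, lam e) • t v := by
          refine Finset.sum_congr rfl fun v _ => ?_
          rw [Finset.sum_smul]
          refine Finset.sum_congr rfl fun e he => ?_
          rw [(Finset.mem_filter.1 he).2]
  have hmem : lam ∈ H := by
    rw [← Submodule.Quotient.mk_eq_zero, ← Submodule.mkQ_apply]
    have h1 : lam = ∑ e, lam e • (Pi.single e 1 : S.Ed → ZMod n) := by
      funext e'
      rw [Finset.sum_apply]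
      simp only [Pi.smul_apply, smul_eq_mul, Pi.single_apply, mul_ite, mul_one, mul_zero]
      rw [Finset.sum_ite_eq]
      simp
    rw [h1, map_sum]
    have h2 : ∀ e, H.mkQ (lam e • (Pi.single e 1 : S.Ed → ZMod n)) =
        lam e • t (S.e1 e).1 - lam e • t (S.e0 e).1 := by
      intro e
      rw [htd, map_smul, smul_add, add_sub_cancel_left]
    simp only [h2]
    rw [Finset.sum_sub_distrib, hsum (fun e => (S.e1 e).1), hsum (fun e => (S.e0 e).1),
      ← Finset.sum_sub_distrib]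
    refine Finset.sum_eq_zero fun v _ => ?_
    rw [← sub_smul]
    have h3 := hlam v
    have h4 : (∑ e with (S.e1 e).1 = v, lam e) - (∑ e with (S.e0 e).1 = v, lam e) = 0 := by
      rw [← neg_sub, neg_eq_zero]
      exact h3
    rw [h4, zero_smul]
  obtain ⟨a, ha⟩ := (hH lam).1 hmem
  obtain ⟨h, h0, hx, hs⟩ := exists_slope_inh P (G := S.Ed → ZMod n) hn0
    (fun g => by
      funext e
      rw [Pi.smul_apply, nsmul_eq_mul, ZMod.natCast_self, zero_mul]; rfl)
    θ φ hθ (fun e => Pi.single e 1) (fun e => by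
      funext e''
      have h2 := hδ e e''
      rw [h2, Pi.add_apply, Pi.single_apply]
      congr 1
      by_cases h3 : (P.edE P.ffL e).1 = e''
      · rw [if_pos h3, if_pos h3.symm]
      · rw [if_neg h3, if_neg (Ne.symm h3)]) a
  refine ⟨h, h0, hx, fun e => ?_⟩
  have h1 := congrFun hs e
  rw [ha] at h1
  rw [← h1, Finset.sum_apply]
  simp only [Pi.smul_apply, Pi.single_apply, zsmul_eq_mul, mul_ite, mul_one, mul_zero]
  rw [Finset.sum_ite_eq]
  simp

end Crest.Agent.R013.SlI_770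
end

-- ▼ part R013/KcAsm_770
section

/-!
# Row 13, C-SLOPES, assembly (helper770): slopes of `n`-divisible divisors are onto the cycles

`KcOut S n` : labels of the cut covers (671), for every edge.
`slopes_onto` : hypothesis `hSl` of 928's `exists_class`.
-/

set_option autoImplicit false
set_option linter.all false

namespace Crest.Agent.R013.KcAsm_770

open scoped NNReal
open WithZero Module
open Crest.Agent.R013.Cell_408 (DiscNorm)
open Crest.Agent.R013.RR7_948 Crest.Agent.R013.RR8_948 Crest.Agent.R013.RR9_948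
open Crest.Agent.R013.RR11_948
open Crest.Agent.R013.Red332 Crest.Agent.R013.SSK_332 Crest.Agent.R013.TP_928
open Crest.Agent.R013.Inh_770 Crest.Agent.R013.TopE4_957

universe u v w

variable {k : Type w} [NontriviallyNormedField k] [CompleteSpace k] [IsUltrametricDist k]
variable {C : Type v} [NormedField C] [IsUltrametricDist C] [NormedAlgebra k C]
  [Algebra.IsAlgebraic k C] [IsAlgClosed C] [CharZero C] [hk : Fact (DiscNorm k)]
variable {K : Type u} [Field K] [Algebra C K] [Algebra (RatFunc C) K]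
  [IsScalarTower C (RatFunc C) K] [FiniteDimensional (RatFunc C) K]
  [Algebra.IsSeparable (RatFunc C) K]

open Classical in
/-- the labels of the cut covers -/
def KcOut (S : SSK k C K) (n : ℕ) : Prop := ∀ e : S.Ed, ∃ h : K, KSplit S n h ∧
  ∀ (M : Type u) [Field M] [Algebra C M] [Algebra K M] [IsScalarTower C K M]
    [FiniteDimensional K M] [IsGalois K M] (P : Spl S M) (r : M), r ^ n = algebraMap K M h →
    ∃ (θ : P.inh.V → ZMod n) (φ : (M ≃ₐ[K] M) → ZMod n),
      (∀ (a : M ≃ₐ[K] M) (w w' : P.inh.V),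
        (∀ f, (P.inh.nm w').v (a f) = (P.inh.nm w).v f) → θ w' = θ w + φ a) ∧
      ∀ e' : P.inh.Ed, θ (P.inh.e1 e').1 = θ (P.inh.e0 e').1 +
        if (P.edE P.ffL e').1 = e then 1 else 0

open Polynomial in
/-- the compositum of finitely many Kummer extensions -/
theorem exists_kummer {ι : Type*} [Fintype ι] {n : ℕ} (hn : 0 < n) (h : ι → K)
    (h0 : ∀ i, h i ≠ 0) :
    ∃ (M : Type u) (_ : Field M) (_ : Algebra C M) (_ : Algebra K M) (_ : IsScalarTower C K M)
      (_ : FiniteDimensional K M) (_ : IsGalois K M) (T : Set M),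
      IntermediateField.adjoin K T = ⊤ ∧
      (∀ y ∈ T, ∃ i, y ^ n = algebraMap K M (h i)) ∧ ∀ i, ∃ r : M, r ^ n = algebraMap K M (h i) := by
  classical
  haveI : CharZero K := charZero_of_injective_algebraMap (algebraMap C K).injective
  let f : K[X] := ∏ i, (X ^ n - Polynomial.C (h i))
  have hf0 : ∀ i, (X ^ n - Polynomial.C (h i) : K[X]) ≠ 0 := fun i => X_pow_sub_C_ne_zero hn _
  have hf : f ≠ 0 := Finset.prod_ne_zero_iff.2 fun i _ => hf0 i
  haveI : Normal K f.SplittingField := Normal.of_isSplittingField f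
  haveI : IsGalois K f.SplittingField := {}
  refine ⟨f.SplittingField, inferInstance, inferInstance, inferInstance, inferInstance,
    inferInstance, inferInstance, f.rootSet f.SplittingField, ?_, ?_, ?_⟩
  · rw [← top_le_iff]
    intro x _
    have h1 : x ∈ Algebra.adjoin K (f.rootSet f.SplittingField) := by
      rw [SplittingField.adjoin_rootSet]
      exact Algebra.mem_top
    exact IntermediateField.algebra_adjoin_le_adjoin K _ h1
  · intro y hy
    have h1 := (mem_rootSet.1 hy).2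
    rw [map_prod, Finset.prod_eq_zero_iff] at h1
    obtain ⟨i, -, hi⟩ := h1
    refine ⟨i, ?_⟩
    rw [map_sub, map_pow, aeval_X, aeval_C] at hi
    exact sub_eq_zero.1 hi
  · intro i
    have hs : (f.map (algebraMap K f.SplittingField)).Splits := SplittingField.splits f
    have hdvd : (X ^ n - Polynomial.C (h i) : K[X]) ∣ f := Finset.dvd_prod_of_mem _ (Finset.mem_univ i)
    have hs2 : ((X ^ n - Polynomial.C (h i) : K[X]).map (algebraMap K f.SplittingField)).Splits :=
      hs.of_dvd (Polynomial.map_ne_zero hf) (Polynomial.map_dvd _ hdvd)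
    have hdeg : ((X ^ n - Polynomial.C (h i) : K[X]).map
        (algebraMap K f.SplittingField)).degree ≠ 0 := by
      rw [Polynomial.degree_map, degree_X_pow_sub_C hn]
      exact_mod_cast hn.ne'
    obtain ⟨r, hr⟩ := hs2.exists_eval_eq_zero hdeg
    refine ⟨r, ?_⟩
    rw [Polynomial.map_sub, Polynomial.map_pow, map_X, map_C, eval_sub, eval_pow, eval_X,
      eval_C] at hr
    exact sub_eq_zero.1 hr

open Classical in
/-- **slopes are onto the cycles** -/
theorem slopes_onto {S : SSK k C K} {n : ℕ} (hn : 0 < n) (hKc : KcOut S n) (lam : S.Ed → ZMod n)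
    (hlam : Fin_928.bdry S (ZMod n) lam = 0) :
    ∃ f : K, f ≠ 0 ∧ (∃ x : Pl C K →₀ ℤ, divf (k := C) f = n • x) ∧
      ∀ e, ((ord S (S.e0 e) f : ℤ) : ZMod n) = lam e := by
  letI := S.fEd
  letI := S.fV
  choose h hsp hlab using hKc
  obtain ⟨M, i1, i2, i3, i4, i5, i6, T, hT, hroots, hr⟩ :=
    exists_kummer (C := C) hn h fun e => (hsp e).ne
  obtain ⟨P⟩ := TopE8_957.spl_of_kummer (S := S) hn T hT (fun y hy => by
    obtain ⟨i, hi⟩ := hroots y hy
    exact ⟨h i, hi, hsp i⟩)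
  choose r hr using hr
  choose θ φ hθ hδ using fun e => hlab e M P (r e) (hr e)
  refine SlI_770.exists_kirchhoff P hn (fun w e => θ e w) (fun a e => φ e a) ?_ ?_ lam ?_
  · intro a w w' hw
    funext e
    exact hθ e a w w' hw
  · intro e e'
    exact hδ e' e
  · intro v
    have h1 := congrFun hlam v
    rw [Fin_928.bdry_apply] at h1
    rw [Finset.sum_filter, Finset.sum_filter]
    exact h1

end Crest.Agent.R013.KcAsm_770
end

-- ▼ part R013/Kc1_671
section

/-!
# Row 13, C-SLOPES (helper671), Kc1: labels of a Kummer generator at norms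

`X : Dat E V U ι` (helper102), `M ⊇ U` a field, `r ∈ M` with `r ^ n = h ∈ U`, `v ∈ V` with
`v ^ n = h`, `v ∈ U ⊗ R` for a region `Q`.  At a norm `w` of `M` bounded on `Q` we have
`r = ξ Φ_w(v)` with a root of unity `ξ`, the label of `w`: `Lb Q v r w ξ`.
-/

set_option autoImplicit false
set_option linter.unusedSectionVars false

noncomputable section

namespace Crest.Agent.R013.Kc_671

open Module Filter Topology Polynomial
open Crest.Agent.R013.Gl946 Crest.Agent.R013.A2a_275 Crest.Agent.R013.NB_102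
open scoped NNReal

section roots

variable {k : Type*} [NormedField k]

theorem norm_root {n : ℕ} (hn : 0 < n) {ξ : k} (h : ξ ^ n = 1) : ‖ξ‖ = 1 := by
  have h1 : ‖ξ‖ ^ n = 1 := by rw [← norm_pow, h, norm_one]
  exact (pow_eq_one_iff_of_nonneg (norm_nonneg _) hn.ne').1 h1

/-- different `n`-th roots of unity have distance `≥ ρ` -/
theorem exists_rho (k : Type*) [NormedField k] {n : ℕ} (hn : 0 < n) :
    ∃ ρ : ℝ, 0 < ρ ∧ ρ ≤ 1 ∧ ∀ ξ ξ' : k, ξ ^ n = 1 → ξ' ^ n = 1 → ξ ≠ ξ' → ρ ≤ ‖ξ - ξ'‖ := by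
  classical
  have hne : (X ^ n - C (1 : k)) ≠ 0 := X_pow_sub_C_ne_zero hn 1
  set s : Finset k := (nthRoots n (1 : k)).toFinset with hs
  have hmem : ∀ ξ : k, ξ ^ n = 1 → ξ ∈ s := by
    intro ξ h
    rw [hs, Multiset.mem_toFinset, mem_nthRoots hn]
    exact h
  set t : Finset ℝ := insert 1 (((s ×ˢ s).filter fun p => p.1 ≠ p.2).image fun p => ‖p.1 - p.2‖)
    with ht
  have htne : t.Nonempty := ⟨1, Finset.mem_insert_self _ _⟩
  refine ⟨t.min' htne, ?_, ?_, ?_⟩
  · rw [Finset.lt_min'_iff]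
    intro x hx
    rcases Finset.mem_insert.1 hx with rfl | hx
    · exact one_pos
    · obtain ⟨p, hp, rfl⟩ := Finset.mem_image.1 hx
      exact norm_pos_iff.2 (sub_ne_zero.2 (Finset.mem_filter.1 hp).2)
  · exact Finset.min'_le _ _ (Finset.mem_insert_self _ _)
  · intro ξ ξ' h h' hne
    refine Finset.min'_le _ _ (Finset.mem_insert_of_mem (Finset.mem_image.2 ⟨(ξ, ξ'), ?_, rfl⟩))
    rw [Finset.mem_filter, Finset.mem_product]
    exact ⟨⟨hmem _ h, hmem _ h'⟩, hne⟩

end roots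

section Labels

variable {k E V U ι M : Type*} [NormedField k] [NormedField E] [CommRing V] [Algebra E V]
  [Nontrivial V] [Field U] [Fintype ι] [Field M] [Algebra U M] [Algebra k M]
  {X : Dat E V U ι}

/-- restriction of a norm -/
def rs (U : Type*) {M : Type*} [Field U] [Field M] [Algebra U M] (w : Valuation M ℝ≥0) :
    Valuation U ℝ≥0 := w.comap (algebraMap U M)

theorem rs_apply (w : Valuation M ℝ≥0) (u : U) : rs U w u = w (algebraMap U M u) := rfl

/-- `U → ` completion of `M` -/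
def kp (U : Type*) {M : Type*} [Field U] [Field M] [Algebra U M] (w : Valuation M ℝ≥0) :
    U →+* Cpl w := (toCpl w).comp (algebraMap U M)

theorem kp_apply (w : Valuation M ℝ≥0) (u : U) : kp U w u = toCpl w (algebraMap U M u) := rfl

theorem norm_kp (w : Valuation M ℝ≥0) (u : U) : ‖kp U w u‖ = rs U w u := norm_toCpl w _

/-- the label of the norm `w` -/
def Lb (Q : Reg X.F0) (v : V) (r : M) (w : Valuation M ℝ≥0) (ξ : k) : Prop :=
  ∃ (hv : v ∈ X.VR Q.R Q.F0_le) (Φ : X.VR Q.R Q.F0_le →+* Cpl w), IsEv Q (kp U w) Φ ∧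
    toCpl w r = toCpl w (algebraMap k M ξ) * Φ ⟨v, hv⟩

/-- existence of the label -/
theorem exists_Lb {n : ℕ} (hn : 0 < n) {ζ : k} (hζ : IsPrimitiveRoot ζ n) (Q : Reg X.F0) {v : V}
    (hv : v ∈ X.VR Q.R Q.F0_le) {h : U} (h0 : h ≠ 0) (e : v ^ n = X.j h) {r : M}
    (hr : r ^ n = algebraMap U M h) {w : Valuation M ℝ≥0} (hw : BdV Q (rs U w)) :
    ∃ ξ : k, ξ ^ n = 1 ∧ Lb Q v r w ξ := by
  obtain ⟨Φ, hΦ⟩ := exists_ev Q (kp U w) (fun s hs u hu => by
    rw [norm_kp]; exact hw s hs u hu)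
  have h1 : Φ ⟨v, hv⟩ ^ n = toCpl w r ^ n := by
    rw [← map_pow, ← map_pow, hr]
    have : (⟨v, hv⟩ : X.VR Q.R Q.F0_le) ^ n = ⟨X.j h, X.j_mem Q.R Q.F0_le h⟩ := Subtype.ext e
    rw [this, hΦ.eq, kp_apply]
  have h2 : Φ ⟨v, hv⟩ ≠ 0 := by
    intro h3
    rw [h3, zero_pow hn.ne', ← map_pow, hr] at h1
    exact (map_ne_zero (toCpl w)).2 ((map_ne_zero (algebraMap U M)).2 h0) h1.symm
  have hζ' : IsPrimitiveRoot (toCpl w (algebraMap k M ζ)) n :=
    (hζ.map_of_injective (algebraMap k M).injective).map_of_injective (toCpl w).injective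
  have h4 : (toCpl w r / Φ ⟨v, hv⟩) ^ n = 1 := by
    rw [div_pow, h1, div_self (h1 ▸ pow_ne_zero n h2)]
  have : NeZero n := ⟨hn.ne'⟩
  obtain ⟨i, -, hi⟩ := hζ'.eq_pow_of_pow_eq_one h4
  refine ⟨ζ ^ i, by rw [← pow_mul, mul_comm, pow_mul, hζ.pow_eq_one, one_pow], hv, Φ, hΦ, ?_⟩
  rw [map_pow, map_pow, hi, div_mul_cancel₀ _ h2]

/-- the label is detected by an approximation, easy direction -/
theorem Lb.le (Q : Reg X.F0) {v : V} {r : M} {w : Valuation M ℝ≥0} {ξ : k}
    (hξ : w (algebraMap k M ξ) = 1) (h : Lb Q v r w ξ) {η : ℝ} {d u : U} (ha : Apx Q v η d u)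
    (hη : 0 ≤ η) {B : ℝ} (hB0 : 0 ≤ B)
    (hB : ∀ i, ∀ x : U, X.j x = X.b i → (rs U w x : ℝ) ≤ B) :
    (w (algebraMap U M d * r - algebraMap k M ξ * algebraMap U M u) : ℝ) ≤ η * B := by
  obtain ⟨hv, Φ, hΦ, e⟩ := h
  have h1 := ha.bound Q hη hv (kp U w) Φ hΦ B hB0 (fun i x hx => by
    rw [norm_kp]; exact hB i x hx)
  have h2 : toCpl w (algebraMap U M d * r - algebraMap k M ξ * algebraMap U M u) =
      -(toCpl w (algebraMap k M ξ) * (kp U w u - kp U w d * Φ ⟨v, hv⟩)) := by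
    rw [map_sub, map_mul, map_mul, e, kp_apply, kp_apply]
    ring
  rw [← norm_toCpl, h2, norm_neg, norm_mul, norm_toCpl, hξ, NNReal.coe_one, one_mul]
  exact h1

theorem aux_ne {w : Valuation M ℝ≥0} {a b : M} {ρ : ℝ} (hρ1 : ρ ≤ 1) {ξ ξ' : M}
    (hξ : w ξ = 1) (hd : ρ ≤ w (ξ - ξ'))
    (h : (w (a - ξ * b) : ℝ) < ρ * w a) (h' : (w (a - ξ' * b) : ℝ) < ρ * w a) : False := by
  have ha : (0 : ℝ) ≤ w a := NNReal.coe_nonneg _
  have h1 : w (a - ξ * b) < w a := by
    have : (w (a - ξ * b) : ℝ) < w a := h.trans_le (by nlinarith)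
    exact_mod_cast this
  have h2 : w b = w a := by
    have h3 : w (ξ * b) = w a := by
      have : ξ * b = a - (a - ξ * b) := by ring
      rw [this]
      exact Valuation.map_sub_eq_of_lt_left w h1
    rwa [map_mul, hξ, one_mul] at h3
  have h4 : (w ((ξ - ξ') * b) : ℝ) < ρ * w a := by
    have : (ξ - ξ') * b = (a - ξ' * b) - (a - ξ * b) := by ring
    rw [this]
    have h5 := w.map_sub (a - ξ' * b) (a - ξ * b)
    have h6 : (w ((a - ξ' * b) - (a - ξ * b)) : ℝ) ≤ max (w (a - ξ' * b) : ℝ) (w (a - ξ * b)) := by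
      exact_mod_cast h5
    exact h6.trans_lt (max_lt h' h)
  rw [map_mul, h2, NNReal.coe_mul] at h4
  have h7 : ρ * w a ≤ (w (ξ - ξ') : ℝ) * w a := mul_le_mul_of_nonneg_right hd ha
  exact absurd h4 (not_lt.2 h7)

/-- Data of the Kummer generator in the region `Q`. -/
structure KD (n : ℕ) (ζ : k) (Q : Reg X.F0) (v : V) (h : U) (r : M) : Prop where
  hn : 0 < n
  prim : IsPrimitiveRoot ζ n
  mem : v ∈ X.VR Q.R Q.F0_le
  h0 : h ≠ 0
  pow : v ^ n = X.j h
  root : r ^ n = algebraMap U M h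

/-- `w` is the norm of `k` on constants -/
def NKM (k : Type*) {M : Type*} [NormedField k] [Field M] [Algebra k M] (w : Valuation M ℝ≥0) :
    Prop := ∀ c : k, (w (algebraMap k M c) : ℝ) = ‖c‖

variable {n : ℕ} {ζ : k} {Q : Reg X.F0} {v : V} {h : U} {r : M}

theorem NKM.root {w : Valuation M ℝ≥0} (hw : NKM k w) (hn : 0 < n) {ξ : k} (hξ : ξ ^ n = 1) :
    w (algebraMap k M ξ) = 1 := by
  have h1 := hw ξ
  rw [norm_root hn hξ] at h1
  exact_mod_cast h1

theorem KD.r_ne (D : KD (k := k) n ζ Q v h r) : r ≠ 0 := by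
  rintro rfl
  have := D.root
  rw [zero_pow D.hn.ne'] at this
  exact (map_ne_zero (algebraMap U M)).2 D.h0 this.symm

/-- **the label is detected by an approximation** -/
theorem KD.test (D : KD (k := k) n ζ Q v h r) {ρ : ℝ} (hρ1 : ρ ≤ 1)
    (hρ : ∀ ξ ξ' : k, ξ ^ n = 1 → ξ' ^ n = 1 → ξ ≠ ξ' → ρ ≤ ‖ξ - ξ'‖)
    {w : Valuation M ℝ≥0} (hNK : NKM k w) (hbd : BdV Q (rs U w)) {η : ℝ} {d u : U}
    (ha : Apx Q v η d u) (hη : 0 ≤ η) {B : ℝ} (hB0 : 0 ≤ B)
    (hB : ∀ i, ∀ x : U, X.j x = X.b i → (rs U w x : ℝ) ≤ B)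
    (hlt : η * B < ρ * w (algebraMap U M d * r)) {ξ : k} (hξ : ξ ^ n = 1) :
    Lb Q v r w ξ ↔ (w (algebraMap U M d * r - algebraMap k M ξ * algebraMap U M u) : ℝ) <
      ρ * w (algebraMap U M d * r) := by
  constructor
  · intro h1
    exact (h1.le Q (hNK.root D.hn hξ) ha hη hB0 hB).trans_lt hlt
  · intro h1
    obtain ⟨ξ', hξ', h2⟩ := exists_Lb D.hn D.prim Q D.mem D.h0 D.pow D.root hbd
    have h3 := (h2.le Q (hNK.root D.hn hξ') ha hη hB0 hB).trans_lt hlt
    rcases eq_or_ne ξ ξ' with rfl | hne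
    · exact h2
    · exfalso
      refine aux_ne hρ1 (hNK.root D.hn hξ) ?_ h1 h3
      rw [← map_sub, hNK]
      exact hρ ξ ξ' hξ hξ' hne

/-- good approximations exist -/
theorem KD.exists_good (D : KD (k := k) n ζ Q v h r) {ρ : ℝ} (hρ0 : 0 < ρ) (w : Valuation M ℝ≥0) :
    ∃ (η B : ℝ) (d u : U), 0 < η ∧ 0 < B ∧ d ≠ 0 ∧ Apx Q v η d u ∧
      (∀ i, ∀ x : U, X.j x = X.b i → (rs U w x : ℝ) < B) ∧
      η * B < ρ * (w (algebraMap U M d * r) / 2) := by
  obtain ⟨B, hB0, hB⟩ := exists_B X (rs U w)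
  obtain ⟨d, hd0, hd⟩ := exists_apx Q v D.mem
  have hwd : (0 : ℝ) < w (algebraMap U M d * r) := by
    have := (Valuation.ne_zero_iff w).2 (mul_ne_zero ((map_ne_zero (algebraMap U M)).2 hd0) D.r_ne)
    exact_mod_cast pos_iff_ne_zero.2 this
  obtain ⟨u, hu⟩ := hd (ρ * w (algebraMap U M d * r) / (4 * B)) (by positivity)
  refine ⟨_, B, d, u, by positivity, hB0, hd0, hu, hB, ?_⟩
  have : ρ * w (algebraMap U M d * r) / (4 * B) * B = ρ * w (algebraMap U M d * r) / 4 := by
    field_simp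
  rw [this]
  have : 0 < ρ * w (algebraMap U M d * r) := by positivity
  linarith

/-- **uniqueness of the label** -/
theorem KD.unique (D : KD (k := k) n ζ Q v h r) {w : Valuation M ℝ≥0} (hNK : NKM k w)
    (hbd : BdV Q (rs U w)) {ξ ξ' : k} (hξ : ξ ^ n = 1) (hξ' : ξ' ^ n = 1)
    (h1 : Lb Q v r w ξ) (h2 : Lb Q v r w ξ') : ξ = ξ' := by
  obtain ⟨ρ, hρ0, hρ1, hρ⟩ := exists_rho k D.hn
  obtain ⟨η, B, d, u, hη, hB0, hd0, ha, hB, hlt⟩ := D.exists_good hρ0 w
  have hlt' : η * B < ρ * w (algebraMap U M d * r) := by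
    have : (0 : ℝ) ≤ ρ * w (algebraMap U M d * r) := by positivity
    linarith
  by_contra hne
  have t1 := (D.test hρ1 hρ hNK hbd ha hη.le hB0.le (fun i x hx => (hB i x hx).le) hlt' hξ).1 h1
  have t2 := (D.test hρ1 hρ hNK hbd ha hη.le hB0.le (fun i x hx => (hB i x hx).le) hlt' hξ').1 h2
  refine aux_ne hρ1 (hNK.root D.hn hξ) ?_ t1 t2
  rw [← map_sub, hNK]
  exact hρ ξ ξ' hξ hξ' hne

theorem NKM.comap {w : Valuation M ℝ≥0} (hNK : NKM k w) (σ : M ≃ₐ[U] M)
    (hk : ∀ c : k, σ (algebraMap k M c) = algebraMap k M c) :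
    NKM k (w.comap (σ : M →+* M)) := fun c => by
  change (w (σ (algebraMap k M c)) : ℝ) = _
  rw [hk]
  exact hNK c

theorem rs_comap (w : Valuation M ℝ≥0) (σ : M ≃ₐ[U] M) : rs U (w.comap (σ : M →+* M)) = rs U w := by
  ext u
  refine congrArg _ ?_
  change w (σ (algebraMap U M u)) = w (algebraMap U M u)
  rw [σ.commutes]

/-- **equivariance of the label** -/
theorem KD.equivariant (D : KD (k := k) n ζ Q v h r) {w : Valuation M ℝ≥0} (hNK : NKM k w)
    (hbd : BdV Q (rs U w)) (σ : M ≃ₐ[U] M)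
    (hk : ∀ c : k, σ (algebraMap k M c) = algebraMap k M c) {ξσ : k} (hξσ : ξσ ^ n = 1)
    (hσ : σ r = algebraMap k M ξσ * r) {ξ : k} (hξ : ξ ^ n = 1)
    (h1 : Lb Q v r w ξ) : Lb Q v r (w.comap (σ : M →+* M)) (ξ * ξσ) := by
  obtain ⟨ρ, hρ0, hρ1, hρ⟩ := exists_rho k D.hn
  obtain ⟨η, B, d, u, hη, hB0, hd0, ha, hB, hlt⟩ := D.exists_good hρ0 w
  have hlt' : η * B < ρ * w (algebraMap U M d * r) := by
    have : (0 : ℝ) ≤ ρ * w (algebraMap U M d * r) := by positivity
    linarith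
  have hwσ : w (algebraMap k M ξσ) = 1 := hNK.root D.hn hξσ
  have e1 : (w.comap (σ : M →+* M)) (algebraMap U M d * r) = w (algebraMap U M d * r) := by
    change w (σ (algebraMap U M d * r)) = _
    rw [map_mul, σ.commutes, hσ, map_mul, map_mul, map_mul, hwσ, one_mul]
  have e2 : (w.comap (σ : M →+* M)) (algebraMap U M d * r -
      algebraMap k M (ξ * ξσ) * algebraMap U M u) =
      w (algebraMap U M d * r - algebraMap k M ξ * algebraMap U M u) := by
    change w (σ (algebraMap U M d * r - algebraMap k M (ξ * ξσ) * algebraMap U M u)) = _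
    have : σ (algebraMap U M d * r - algebraMap k M (ξ * ξσ) * algebraMap U M u) =
        algebraMap k M ξσ * (algebraMap U M d * r - algebraMap k M ξ * algebraMap U M u) := by
      rw [map_sub, map_mul, map_mul, σ.commutes, σ.commutes, hσ, hk, map_mul]
      ring
    rw [this, map_mul, hwσ, one_mul]
  have hrs : rs U (w.comap (σ : M →+* M)) = rs U w := rs_comap w σ
  have t1 := (D.test hρ1 hρ hNK hbd ha hη.le hB0.le (fun i x hx => (hB i x hx).le) hlt' hξ).1 h1
  refine (D.test hρ1 hρ (hNK.comap σ hk) (by rw [hrs]; exact hbd) ha hη.le hB0.le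
    (fun i x hx => by rw [hrs]; exact (hB i x hx).le) (by rw [e1]; exact hlt')
    (by rw [mul_pow, hξ, hξσ, one_mul])).2 ?_
  rw [e1, e2]
  exact t1

/-- **local constancy of the label** -/
theorem KD.eventually (D : KD (k := k) n ζ Q v h r) {T : Type*} [TopologicalSpace T]
    (w : T → Valuation M ℝ≥0) (t0 : T) (hc : ∀ x, ContinuousAt (fun t => w t x) t0)
    (hNK : ∀ t, NKM k (w t)) (hbd : BdV Q (rs U (w t0))) {ξ : k} (hξ : ξ ^ n = 1)
    (h1 : Lb Q v r (w t0) ξ) : ∀ᶠ t in 𝓝 t0, BdV Q (rs U (w t)) → Lb Q v r (w t) ξ := by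
  classical
  obtain ⟨ρ, hρ0, hρ1, hρ⟩ := exists_rho k D.hn
  obtain ⟨η, B, d, u, hη, hB0, hd0, ha, hB, hlt⟩ := D.exists_good hρ0 (w t0)
  have hwd : (0 : ℝ) < w t0 (algebraMap U M d * r) := by
    have := (Valuation.ne_zero_iff (w t0)).2
      (mul_ne_zero ((map_ne_zero (algebraMap U M)).2 hd0) D.r_ne)
    exact_mod_cast pos_iff_ne_zero.2 this
  have hc' : ∀ x, ContinuousAt (fun t => (w t x : ℝ)) t0 := fun x =>
    NNReal.continuous_coe.continuousAt.comp (hc x)
  choose β hβ using X.exists_b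
  have e1 : ∀ᶠ t in 𝓝 t0, η * B < ρ * (w t (algebraMap U M d * r)) := by
    refine ((hc' _).const_mul ρ).eventually (lt_mem_nhds ?_)
    have : (0 : ℝ) ≤ ρ * w t0 (algebraMap U M d * r) := by positivity
    linarith
  have e2 : ∀ᶠ t in 𝓝 t0, ∀ i, (w t (algebraMap U M (β i)) : ℝ) < B := by
    rw [eventually_all]
    intro i
    exact (hc' _).eventually (gt_mem_nhds (hB i (β i) (hβ i)))
  have hlt' : η * B < ρ * w t0 (algebraMap U M d * r) := by
    have : (0 : ℝ) ≤ ρ * w t0 (algebraMap U M d * r) := by positivity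
    linarith
  have t1 := (D.test hρ1 hρ (hNK t0) hbd ha hη.le hB0.le (fun i x hx => (hB i x hx).le) hlt'
    hξ).1 h1
  have e3 : ∀ᶠ t in 𝓝 t0, (w t (algebraMap U M d * r - algebraMap k M ξ * algebraMap U M u) : ℝ) <
      ρ * w t (algebraMap U M d * r) :=
    (hc' _).eventually_lt ((hc' _).const_mul ρ) t1
  filter_upwards [e1, e2, e3] with t h2 h3 h4 h5
  refine (D.test hρ1 hρ (hNK t) h5 ha hη.le hB0.le (fun i x hx => ?_) h2 hξ).2 h4
  have : x = β i := X.j.injective (hx.trans (hβ i).symm)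
  rw [this]
  exact (h3 i).le

/-- approximation of `h` by `n`-th powers -/
theorem exists_pow_approx {n : ℕ} (hn : 0 < n) (Q : Reg X.F0) {v : V}
    (hv : v ∈ X.VR Q.R Q.F0_le) {h : U} (h0 : h ≠ 0) (e : v ^ n = X.j h)
    {w : Valuation M ℝ≥0} (hw : BdV Q (rs U w)) {ε : ℝ} (hε : 0 < ε) :
    ∃ g : U, g ≠ 0 ∧ (w (algebraMap U M (h / g ^ n - 1)) : ℝ) < ε := by
  obtain ⟨Φ, hΦ⟩ := exists_ev Q (kp U w) (fun s hs u hu => by
    rw [norm_kp]; exact hw s hs u hu)
  have h1 : Φ ⟨v, hv⟩ ^ n = kp U w h := by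
    rw [← map_pow, ← hΦ.eq]
    exact congrArg Φ (Subtype.ext e)
  have h2 : Φ ⟨v, hv⟩ ≠ 0 := by
    intro h3
    rw [h3, zero_pow hn.ne'] at h1
    exact (_root_.map_ne_zero (kp U w)).2 h0 h1.symm
  obtain ⟨B, hB0, hB⟩ := exists_B X (rs U w)
  obtain ⟨d, hd0, hd⟩ := exists_apx Q v hv
  set φ := Φ ⟨v, hv⟩ with hφ
  have hφ0 : 0 < ‖φ‖ := norm_pos_iff.2 h2
  have hd1 : kp U w d ≠ 0 := (_root_.map_ne_zero (kp U w)).2 hd0
  have hd2 : 0 < ‖kp U w d‖ := norm_pos_iff.2 hd1
  -- continuity of `x ↦ φ ^ n / x ^ n - 1` at `φ`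
  have hcont : ContinuousAt (fun x : Cpl w => φ ^ n / x ^ n - 1) φ := by
    have : ContinuousAt (fun x : Cpl w => φ ^ n / x ^ n) φ :=
      ContinuousAt.div continuousAt_const (continuousAt_id.pow n) (pow_ne_zero n h2)
    exact this.sub continuousAt_const
  have hz : φ ^ n / φ ^ n - 1 = 0 := by rw [div_self (pow_ne_zero n h2), sub_self]
  obtain ⟨δ, hδ, hδ2⟩ := Metric.continuousAt_iff.1 hcont ε hε
  set δ' := min δ (‖φ‖) with hδ'
  have hδ'0 : 0 < δ' := lt_min hδ hφ0
  obtain ⟨u, hu⟩ := hd (δ' * ‖kp U w d‖ / (2 * B)) (by positivity)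
  have hb := hu.bound Q (by positivity) hv (kp U w) Φ hΦ B hB0.le
    (fun i x hx => by rw [norm_kp]; exact (hB i x hx).le)
  have hb2 : δ' * ‖kp U w d‖ / (2 * B) * B = δ' * ‖kp U w d‖ / 2 := by field_simp
  rw [hb2] at hb
  have hgφ : ‖kp U w (u / d) - φ‖ < δ' := by
    have : kp U w (u / d) - φ = (kp U w u - kp U w d * φ) / kp U w d := by
      rw [map_div₀]; field_simp
    rw [this, norm_div, div_lt_iff₀ hd2]
    have : 0 < δ' * ‖kp U w d‖ := by positivity
    linarith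
  refine ⟨u / d, ?_, ?_⟩
  · intro h0'
    rw [h0', map_zero, zero_sub, norm_neg] at hgφ
    exact absurd (min_le_right δ ‖φ‖) (not_le.2 hgφ)
  · have h3 := hδ2 (x := kp U w (u / d)) (by
      rw [dist_eq_norm]; exact hgφ.trans_le (min_le_left _ _))
    rw [hz, dist_zero_right, h1, ← map_pow, ← map_div₀] at h3
    have h4 : (1 : Cpl w) = kp U w 1 := (map_one _).symm
    rw [h4, ← map_sub, norm_kp] at h3
    exact h3

end Labels

end Crest.Agent.R013.Kc_671
end
end

-- ▼ part R013/Kc2_671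
section

/-!
# Row 13, C-SLOPES (helper671), Kc2: labels at the two sides of 946's circle, the jump at the atom
-/

set_option autoImplicit false
set_option linter.unusedSectionVars false

noncomputable section

namespace Crest.Agent.R013.Kc_671

open Module Filter Topology Polynomial
open Crest.Agent.R013.Gl946 Crest.Agent.R013.A2a_275 Crest.Agent.R013.NB_102
open scoped NNReal

section EvV

variable {E V U ι : Type*} [NormedField E] [CommRing V] [Algebra E V] [Nontrivial V] [Field U]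
  [Fintype ι] {X : Dat E V U ι}

/-- the evaluation of `V` at a homomorphism over the circle -/
theorem exists_isEvV' (hd : Dense (X.F0 : Set E)) {Ω : Type*} [NormedField Ω] [CompleteSpace Ω]
    (κ : U →+* Ω) (hκ : ∀ z ∈ X.F0, ∀ u, X.j u = algebraMap E V z → ‖κ u‖ = ‖z‖) :
    ∃ Φ : V →+* Ω, IsEvV X κ Φ := by
  obtain ⟨Φ, hΦ⟩ := exists_ev (Qtop X hd) κ (fun s hs u hu => (hκ s hs u hu).le)
  have hmem : ∀ v : V, v ∈ X.VR (Qtop X hd).R (Qtop X hd).F0_le := fun v i => trivial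
  let Φ' : V →+* Ω := Φ.comp ((RingHom.id V).codRestrict _ hmem)
  have h1 : ∀ a : E, ‖Φ' (algebraMap E V a)‖ ≤ ‖a‖ := fun a => hΦ.bd a (hd a)
  refine ⟨Φ', hΦ.eq, fun a => ?_⟩
  rcases eq_or_ne a 0 with rfl | ha
  · rw [map_zero, map_zero, norm_zero, norm_zero]
  · refine le_antisymm (h1 a) ?_
    have h2 := h1 a⁻¹
    have h3 : Φ' (algebraMap E V a) * Φ' (algebraMap E V a⁻¹) = 1 := by
      rw [← map_mul, ← map_mul, mul_inv_cancel₀ ha, map_one, map_one]
    have h4 : ‖Φ' (algebraMap E V a)‖ * ‖Φ' (algebraMap E V a⁻¹)‖ = 1 := by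
      rw [← norm_mul, h3, norm_one]
    rw [norm_inv] at h2
    have ha' : 0 < ‖a‖ := norm_pos_iff.2 ha
    by_contra hlt
    push Not at hlt
    have h5 : ‖Φ' (algebraMap E V a)‖ * ‖Φ' (algebraMap E V a⁻¹)‖ < ‖a‖ * ‖a‖⁻¹ := by
      have h6 : 0 < ‖Φ' (algebraMap E V a⁻¹)‖ := by
        rw [norm_pos_iff]
        exact right_ne_zero_of_mul_eq_one h3
      calc _ < ‖a‖ * ‖Φ' (algebraMap E V a⁻¹)‖ := mul_lt_mul_of_pos_right hlt h6
        _ ≤ ‖a‖ * ‖a‖⁻¹ := mul_le_mul_of_nonneg_left h2 ha'.le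
    rw [h4, mul_inv_cancel₀ ha'.ne'] at h5
    exact lt_irrefl _ h5

variable {M : Type*} [Field M] [Algebra U M]

theorem exists_isEvV_kp (hd : Dense (X.F0 : Set E)) {w : Valuation M ℝ≥0} (h : GT X (rs U w)) :
    ∃ Φ : V →+* Cpl w, IsEvV X (kp U w) Φ :=
  exists_isEvV' hd (kp U w) fun z hz u hu => by
    rw [norm_kp]
    exact h z hz u hu

end EvV

section Circle

variable {k E : Type*} [NormedField k] [CompleteSpace k] [NormedField E] [NormedAlgebra k E]
  [IsUltrametricDist E] [CompleteSpace E] {y : E}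
  (hG : IsGauss k y) {π : k} (hπ : IsUnif π) (hd : DenseRat k y)
  {V U ι : Type*} [CommRing V] [Algebra E V] [Nontrivial V] [Field U] [Fintype ι]
  [Algebra k U] (X : Dat E V U ι) (hF : ∀ z : E, z ∈ X.F0 ↔ z ∈ KY hG)

/-- The data of a Kummer circle class: `a d = 1 + (ζ - 1) e`, `h = a ^ n = d' ^ n`. -/
structure CD (n : ℕ) (ζ : k) (yU : U) (w0 : Valuation U ℝ≥0) (e a a' d d' : V) (h : U) : Prop where
  hk : ∀ c : k, X.j (algebraMap k U c) = algebraMap E V (algebraMap k E c)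
  hy : X.j yU = algebraMap E V y
  hn : 0 < n
  prim : IsPrimitiveRoot ζ n
  gt : GT X w0
  y1 : w0 yU = 1
  e1 : ∀ Φ : V →+* Cpl w0, IsEvV X (toCpl w0) Φ → Φ e = 1
  e0 : ∀ w : Valuation U ℝ≥0, GT X w → w ≠ w0 → ∀ Φ : V →+* Cpl w, IsEvV X (toCpl w) Φ → Φ e = 0
  aa : a * a' = 1
  dd : d * d' = 1
  ad : a * d = 1 + algebraMap E V (algebraMap k E (ζ - 1)) * e
  ha : a ∈ X.VR (QU hG X.F0 hF).R (QU hG X.F0 hF).F0_le
  hd' : d' ∈ X.VR (QP hG hπ hd X.F0 hF).R (QP hG hπ hd X.F0 hF).F0_le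
  h0 : h ≠ 0
  pa : a ^ n = X.j h
  pd : d' ^ n = X.j h

variable {hG hπ hd X hF} {M : Type*} [Field M] [Algebra U M] [Algebra k M]
  [IsScalarTower k U M] {n : ℕ} {ζ : k} {yU : U} {w0 : Valuation U ℝ≥0} {e a a' d d' : V} {h : U}
  {r : M}

/-- the label -/
def Lab (hG : IsGauss k y) {π : k} (hπ : IsUnif π) (hd : DenseRat k y) (X : Dat E V U ι)
    (hF : ∀ z : E, z ∈ X.F0 ↔ z ∈ KY hG) (yU : U) (a d' : V) (r : M) (w : Valuation M ℝ≥0)
    (ξ : k) : Prop :=
  (w (algebraMap U M yU) < 1 → Lb (QP hG hπ hd X.F0 hF) d' r w ξ) ∧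
    (1 ≤ w (algebraMap U M yU) → Lb (QU hG X.F0 hF) a r w ξ)

theorem NKM.nk {w : Valuation M ℝ≥0} (h : NKM k w) : NK k (rs U w) := fun c => by
  rw [rs_apply, ← IsScalarTower.algebraMap_apply]
  exact h c

theorem CD.kdU (D : CD hG hπ hd X hF n ζ yU w0 e a a' d d' h) (hr : r ^ n = algebraMap U M h) :
    KD n ζ (QU hG X.F0 hF) a h r := ⟨D.hn, D.prim, D.ha, D.h0, D.pa, hr⟩

theorem CD.kdP (D : CD hG hπ hd X hF n ζ yU w0 e a a' d d' h) (hr : r ^ n = algebraMap U M h) :
    KD n ζ (QP hG hπ hd X.F0 hF) d' h r := ⟨D.hn, D.prim, D.hd', D.h0, D.pd, hr⟩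

theorem CD.bdU (D : CD hG hπ hd X hF n ζ yU w0 e a a' d d' h) {w : Valuation M ℝ≥0}
    (hw : NKM k w) (h1 : 1 ≤ w (algebraMap U M yU)) : BdV (QU hG X.F0 hF) (rs U w) :=
  NB_102.bdU hG hF D.hk D.hy hw.nk h1

theorem CD.bdP (D : CD hG hπ hd X hF n ζ yU w0 e a a' d d' h) {w : Valuation M ℝ≥0}
    (hw : NKM k w) (h1 : w (algebraMap U M yU) < 1) : BdV (QP hG hπ hd X.F0 hF) (rs U w) :=
  NB_102.bdP hG hF D.hk D.hy hπ hd hw.nk h1

theorem CD.exists_lab (D : CD hG hπ hd X hF n ζ yU w0 e a a' d d' h)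
    (hr : r ^ n = algebraMap U M h) {w : Valuation M ℝ≥0} (hw : NKM k w) :
    ∃ ξ : k, ξ ^ n = 1 ∧ Lab hG hπ hd X hF yU a d' r w ξ := by
  rcases lt_or_ge (w (algebraMap U M yU)) 1 with h1 | h1
  · obtain ⟨ξ, h2, h3⟩ := exists_Lb D.hn D.prim _ D.hd' D.h0 D.pd hr (D.bdP hw h1)
    exact ⟨ξ, h2, fun _ => h3, fun h4 => absurd h1 (not_lt.2 h4)⟩
  · obtain ⟨ξ, h2, h3⟩ := exists_Lb D.hn D.prim _ D.ha D.h0 D.pa hr (D.bdU hw h1)
    exact ⟨ξ, h2, fun h4 => absurd h4 (not_lt.2 h1), fun _ => h3⟩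

theorem CD.lab_unique (D : CD hG hπ hd X hF n ζ yU w0 e a a' d d' h)
    (hr : r ^ n = algebraMap U M h) {w : Valuation M ℝ≥0} (hw : NKM k w) {ξ ξ' : k}
    (hξ : ξ ^ n = 1) (hξ' : ξ' ^ n = 1) (h1 : Lab hG hπ hd X hF yU a d' r w ξ)
    (h2 : Lab hG hπ hd X hF yU a d' r w ξ') : ξ = ξ' := by
  rcases lt_or_ge (w (algebraMap U M yU)) 1 with h3 | h3
  · exact (D.kdP hr).unique hw (D.bdP hw h3) hξ hξ' (h1.1 h3) (h2.1 h3)
  · exact (D.kdU hr).unique hw (D.bdU hw h3) hξ hξ' (h1.2 h3) (h2.2 h3)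

theorem CD.lab_equivariant (D : CD hG hπ hd X hF n ζ yU w0 e a a' d d' h)
    (hr : r ^ n = algebraMap U M h) {w : Valuation M ℝ≥0} (hw : NKM k w) (σ : M ≃ₐ[U] M)
    {ξσ : k} (hξσ : ξσ ^ n = 1)
    (hσ : σ r = algebraMap k M ξσ * r) {ξ : k} (hξ : ξ ^ n = 1)
    (h1 : Lab hG hπ hd X hF yU a d' r w ξ) :
    Lab hG hπ hd X hF yU a d' r (w.comap (σ : M →+* M)) (ξ * ξσ) := by
  have hkσ : ∀ c : k, σ (algebraMap k M c) = algebraMap k M c := fun c => by
    rw [IsScalarTower.algebraMap_apply k U M, σ.commutes]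
  have e1 : (w.comap (σ : M →+* M)) (algebraMap U M yU) = w (algebraMap U M yU) := by
    change w (σ (algebraMap U M yU)) = _
    rw [σ.commutes]
  constructor
  · intro h2
    rw [e1] at h2
    exact (D.kdP hr).equivariant hw (D.bdP hw h2) σ hkσ hξσ hσ hξ (h1.1 h2)
  · intro h2
    rw [e1] at h2
    exact (D.kdU hr).equivariant hw (D.bdU hw h2) σ hkσ hξσ hσ hξ (h1.2 h2)

/-- the value of the atom -/
theorem CD.ev_e (D : CD hG hπ hd X hF n ζ yU w0 e a a' d d' h) {w : Valuation M ℝ≥0}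
    (hw : GT X (rs U w)) {Φ : V →+* Cpl w} (hΦ : IsEvV X (kp U w) Φ) [Decidable (rs U w = w0)] :
    Φ e = if rs U w = w0 then 1 else 0 := by
  have hden := dense_F0 hd hG X.F0 hF
  obtain ⟨Ψ, hΨ⟩ := hw.exists_isEvV hden
  have hn : ∀ v, ‖Φ v‖ = ‖Ψ v‖ := fun v => hΦ.norm_eq hden hΨ (fun u => by
    rw [norm_kp, norm_toCpl]) v
  split_ifs with h1
  · subst h1
    have h2 := D.e1 Ψ hΨ
    have h3 : Ψ (1 - e) = 0 := by rw [map_sub, map_one, h2, sub_self]
    have h4 := hn (1 - e)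
    rw [h3, norm_zero, norm_eq_zero, map_sub, map_one, sub_eq_zero] at h4
    exact h4.symm
  · have h2 := D.e0 _ hw h1 Ψ hΨ
    have h4 := hn e
    rwa [h2, norm_zero, norm_eq_zero] at h4

/-- **the jump at the atom** -/
theorem CD.jump (D : CD hG hπ hd X hF n ζ yU w0 e a a' d d' h)
    (hr : r ^ n = algebraMap U M h) {w : Valuation M ℝ≥0} (hw : NKM k w)
    (hgt : GT X (rs U w)) [Decidable (rs U w = w0)] {ξ : k} (hξ : ξ ^ n = 1)
    (h1 : Lb (QU hG X.F0 hF) a r w ξ) :
    Lb (QP hG hπ hd X.F0 hF) d' r w (ξ * if rs U w = w0 then ζ else 1) := by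
  have hden := dense_F0 hd hG X.F0 hF
  obtain ⟨Φ, hΦ⟩ := exists_isEvV_kp hden hgt
  have he := D.ev_e hgt hΦ
  have hkΦ : ∀ c : k, Φ (algebraMap E V (algebraMap k E c)) = toCpl w (algebraMap k M c) := by
    intro c
    rw [← D.hk, hΦ.eq, kp_apply, ← IsScalarTower.algebraMap_apply]
  have hc : Φ a * Φ d = toCpl w (algebraMap k M (if rs U w = w0 then ζ else 1)) := by
    rw [← map_mul, D.ad, map_add, map_one, map_mul, hkΦ, he]
    split_ifs
    · rw [mul_one, map_sub, map_sub, map_one, map_one]; ring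
    · rw [mul_zero, add_zero, map_one, map_one]
  have hdd : Φ d * Φ d' = 1 := by rw [← map_mul, D.dd, map_one]
  have ha : Φ a = toCpl w (algebraMap k M (if rs U w = w0 then ζ else 1)) * Φ d' := by
    rw [← hc, mul_assoc, hdd, mul_one]
  -- the label seen by `Φ`
  have ha0 : Φ a ≠ 0 := by
    have : Φ a * Φ a' = 1 := by rw [← map_mul, D.aa, map_one]
    exact left_ne_zero_of_mul_eq_one this
  have h3 : Φ a ^ n = toCpl w r ^ n := by
    rw [← map_pow, D.pa, hΦ.eq, kp_apply, ← map_pow, hr]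
  have hζ' : IsPrimitiveRoot (toCpl w (algebraMap k M ζ)) n :=
    (D.prim.map_of_injective (algebraMap k M).injective).map_of_injective (toCpl w).injective
  have h4 : (toCpl w r / Φ a) ^ n = 1 := by
    rw [div_pow, ← h3, div_self (pow_ne_zero n ha0)]
  have : NeZero n := ⟨D.hn.ne'⟩
  obtain ⟨i, -, hi⟩ := hζ'.eq_pow_of_pow_eq_one h4
  have h5 : toCpl w r = toCpl w (algebraMap k M (ζ ^ i)) * Φ a := by
    rw [map_pow, map_pow, hi, div_mul_cancel₀ _ ha0]
  have h6 : Lb (QU hG X.F0 hF) a r w (ζ ^ i) := ⟨D.ha, _, hΦ.isEv _, h5⟩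
  have hbdU : BdV (QU hG X.F0 hF) (rs U w) := hgt.bdV _
  have h7 : ξ = ζ ^ i := (D.kdU hr).unique hw hbdU hξ
    (by rw [← pow_mul, mul_comm, pow_mul, D.prim.pow_eq_one, one_pow]) h1 h6
  refine ⟨D.hd', _, hΦ.isEv _, ?_⟩
  rw [h7, map_mul, map_mul, h5, ha]
  exact (mul_assoc _ _ _).symm

open Classical in
/-- **labels near a norm** -/
theorem CD.lab_eventually (D : CD hG hπ hd X hF n ζ yU w0 e a a' d d' h)
    (hr : r ^ n = algebraMap U M h) {T : Type*} [TopologicalSpace T]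
    (w : T → Valuation M ℝ≥0) (t0 : T) (hc : ∀ x, ContinuousAt (fun t => w t x) t0)
    (hNK : ∀ t, NKM k (w t)) {ξ : k} (hξ : ξ ^ n = 1)
    (h1 : Lab hG hπ hd X hF yU a d' r (w t0) ξ) :
    ∀ᶠ t in 𝓝 t0, (1 ≤ w t (algebraMap U M yU) → Lab hG hπ hd X hF yU a d' r (w t) ξ) ∧
      (w t (algebraMap U M yU) < 1 → Lab hG hπ hd X hF yU a d' r (w t)
        (ξ * if rs U (w t0) = w0 then ζ else 1)) := by
  have hce := hc (algebraMap U M yU)
  rcases lt_trichotomy (w t0 (algebraMap U M yU)) 1 with h2 | h2 | h2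
  · have hne : rs U (w t0) ≠ w0 := by
      intro h3
      have h4 := D.y1
      rw [← h3, rs_apply] at h4
      exact h2.ne h4
    rw [if_neg hne, mul_one]
    have h3 := (D.kdP hr).eventually w t0 hc hNK (D.bdP (hNK t0) h2) hξ (h1.1 h2)
    have h4 : ∀ᶠ t in 𝓝 t0, w t (algebraMap U M yU) < 1 := hce.eventually (gt_mem_nhds h2)
    filter_upwards [h3, h4] with t h5 h6
    refine ⟨fun h7 => absurd h6 (not_lt.2 h7), fun _ => ⟨fun _ => h5 (D.bdP (hNK t) h6),
      fun h7 => absurd h6 (not_lt.2 h7)⟩⟩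
  · have hU := (D.kdU hr).eventually w t0 hc hNK (D.bdU (hNK t0) h2.ge) hξ (h1.2 h2.ge)
    by_cases hfr : ∃ᶠ t in 𝓝 t0, w t (algebraMap U M yU) < 1
    · have hgt : GT X (rs U (w t0)) := by
        refine gt_of_poly hG hF D.hk D.hy fun f => ?_
        exact poly_of_frequently hG (fun t => rs U (w t)) t0 (fun u => hc (algebraMap U M u))
          (fun t => (hNK t).nk) h2 hfr f
      have hj := D.jump hr (hNK t0) hgt hξ (h1.2 h2.ge)
      have hζ1 : (ξ * if rs U (w t0) = w0 then ζ else 1) ^ n = 1 := by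
        rw [mul_pow, hξ, one_mul]
        split_ifs
        · exact D.prim.pow_eq_one
        · exact one_pow n
      have hP := (D.kdP hr).eventually w t0 hc hNK (hgt.bdV _) hζ1 hj
      filter_upwards [hU, hP] with t h3 h4
      constructor
      · intro h5
        exact ⟨fun h6 => absurd h6 (not_lt.2 h5), fun _ => h3 (D.bdU (hNK t) h5)⟩
      · intro h5
        exact ⟨fun _ => h4 (D.bdP (hNK t) h5), fun h6 => absurd h5 (not_lt.2 h6)⟩
    · rw [not_frequently] at hfr
      filter_upwards [hU, hfr] with t h3 h4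
      constructor
      · intro h5
        exact ⟨fun h6 => absurd h6 (not_lt.2 h5), fun _ => h3 (D.bdU (hNK t) h5)⟩
      · intro h5
        exact absurd h5 h4
  · have hU := (D.kdU hr).eventually w t0 hc hNK (D.bdU (hNK t0) h2.le) hξ (h1.2 h2.le)
    have h4 : ∀ᶠ t in 𝓝 t0, 1 < w t (algebraMap U M yU) := hce.eventually (lt_mem_nhds h2)
    filter_upwards [hU, h4] with t h3 h6
    refine ⟨fun h5 => ⟨fun h7 => absurd h7 (not_lt.2 h5), fun _ => h3 (D.bdU (hNK t) h5)⟩,
      fun h7 => absurd h6 (not_lt.2 h7.le)⟩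

end Circle

end Crest.Agent.R013.Kc_671
end
end

-- ▼ part R013/Kc3_671
section

/-!
# Row 13, C-SLOPES (helper671), Kc3: existence of the Kummer circle class at a finite level
-/

set_option autoImplicit false
set_option linter.unusedSectionVars false
set_option linter.style.haveILetI false

noncomputable section

namespace Crest.Agent.R013.Kc_671

open Module Filter Topology Polynomial TensorProduct
open Crest.Agent.R013.Gl946 Crest.Agent.R013.A2a_275 Crest.Agent.R013.NB_102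
open Crest.Agent.R013.Lift903
open scoped NNReal

attribute [local instance] Algebra.TensorProduct.rightAlgebra

universe u v

theorem twist_pow {R : Type*} [CommRing R] (e ζ : R) (he : e * e = e) (m : ℕ) :
    (1 + (ζ - 1) * e) ^ m = 1 + (ζ ^ m - 1) * e := by
  induction m with
  | zero => ring
  | succ m ih =>
    rw [pow_succ, ih, pow_succ]
    linear_combination ((ζ ^ m - 1) * (ζ - 1)) * he

theorem aeval_inj {k U : Type*} [NormedField k] [Field U] [Algebra k U] {yU : U}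
    {w0 : Valuation U ℝ≥0} (hg : ∀ (f : k[X]) (i : ℕ), ‖f.coeff i‖ ≤ w0 (aeval yU f)) :
    Function.Injective (aeval yU : k[X] →ₐ[k] U) := by
  rw [injective_iff_map_eq_zero]
  intro f hf
  ext i
  have := hg f i
  rw [hf, map_zero, NNReal.coe_zero] at this
  rw [coeff_zero, ← norm_le_zero_iff]
  exact this

section Build

variable {k : Type u} [NontriviallyNormedField k] [IsUltrametricDist k] [CompleteSpace k]
  {U : Type v} [Field U] [CharZero U] [Algebra k U]

/-- **The Kummer circle class** over a given circle. -/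
theorem exists_cd_aux {E : Type u} [NontriviallyNormedField E] [NormedAlgebra k E]
    [IsUltrametricDist E] [CompleteSpace E] {y : E} (hG : IsGauss k y) (hd : DenseRat k y)
    {π : k} (hπ : IsUnif π) (F : Type u) [Field F] [Algebra k F] [Algebra F U]
    [IsScalarTower k F U] [FiniteDimensional F U] (yF : F)
    (hgen : ∀ x : F, ∃ f g : k[X], aeval yF g ≠ 0 ∧ x = aeval yF f / aeval yF g)
    (w0 : Valuation U ℝ≥0) (hnk : NK k w0) (hy1 : w0 (algebraMap F U yF) ≤ 1)
    (hga : ∀ (f : k[X]) (i : ℕ), ‖f.coeff i‖ ≤ w0 (aeval (algebraMap F U yF) f))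
    {n : ℕ} (hn : 0 < n) {ζ : k} (hζ : IsPrimitiveRoot ζ n) :
    ∃ (V : Type (max u v))
      (_ : CommRing V) (_ : Algebra E V) (_ : Nontrivial V)
      (X : Dat E V U (Fin (finrank F U))) (hF : ∀ z : E, z ∈ X.F0 ↔ z ∈ KY hG)
      (e a a' d d' : V) (h : U),
      CD hG hπ hd X hF n ζ (algebraMap F U yF) w0 e a a' d d' h ∧
      ∀ w : Valuation U ℝ≥0, (∀ c : k, c ≠ 0 → w (algebraMap k U c) = 1) →
        (w (algebraMap F U yF) ≤ 1 → ∃ P : k[X], P ≠ 0 ∧ w (aeval (algebraMap F U yF) P) < 1) →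
        ∃ g : U, g ≠ 0 ∧ w (h / g ^ n - 1) < 1 := by
  classical
  set yU := algebraMap F U yF with hyU
  have hinjU : Function.Injective (aeval yU : k[X] →ₐ[k] U) := aeval_inj hga
  have haF : ∀ f : k[X], algebraMap F U (aeval yF f) = aeval yU f := fun f => by
    rw [hyU, aeval_algebraMap_apply]
  have hinj : Function.Injective (aeval yF : k[X] →ₐ[k] F) := by
    intro a b hab
    have := congrArg (algebraMap F U) hab
    rw [haF, haF] at this
    exact hinjU this
  -- `F → E`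
  have hgi : Function.Injective (aeval y : k[X] →ₐ[k] E) := hG.injective
  let _ : Algebra k[X] F := (aeval yF : k[X] →ₐ[k] F).toRingHom.toAlgebra
  have hfs : FaithfulSMul k[X] F := (faithfulSMul_iff_algebraMap_injective k[X] F).2 hinj
  have hfr : IsFractionRing k[X] F := by
    refine IsFractionRing.of_field k[X] F ?_
    intro z
    obtain ⟨f, g, hg, e⟩ := hgen z
    exact ⟨f, g, e⟩
  let φ : F →+* E := IsFractionRing.lift (A := k[X]) (K := F) (g := (aeval y : k[X] →ₐ[k] E).toRingHom) hgi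
  have hφ : ∀ f : k[X], φ (aeval yF f) = aeval y f := fun f =>
    IsFractionRing.lift_algebraMap (A := k[X]) (K := F) hgi f
  let _ : Algebra F E := φ.toAlgebra
  have hFE : ∀ x : F, algebraMap F E x = φ x := fun x => rfl
  have hst : IsScalarTower k F E := IsScalarTower.of_algebraMap_eq fun c => by
    rw [hFE]
    have := hφ (C c)
    rw [aeval_C, aeval_C] at this
    exact this.symm
  have hyE : algebraMap F E yF = y := by
    rw [hFE]
    have := hφ X
    rwa [aeval_X, aeval_X] at this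
  have hF1 : ∀ x : F, algebraMap F E x ∈ KY hG := mem_KY_of_gen hG hyE hgen
  have hF2 : ∀ z : E, z ∈ KY hG → z ∈ Set.range (algebraMap F E) := range_of_mem_KY hG hyE
  have hrange : ∀ z : E, z ∈ KY hG ↔ ∃ x : F, algebraMap F E x = z := fun z =>
    ⟨fun h => hF2 z h, by rintro ⟨x, rfl⟩; exact hF1 x⟩
  let V := E ⊗[F] U
  have hcF : CharZero F := (algebraMap F U).charZero
  have : Algebra.IsSeparable F U := inferInstance
  have : Algebra.FormallyUnramified F U := Algebra.FormallyUnramified.of_isSeparable F U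
  have : Algebra.FormallyUnramified E V := inferInstance
  have : Module.Finite E V := inferInstance
  have hred : IsReduced V := Algebra.FormallyUnramified.isReduced_of_field E V
  have hnt : Nontrivial V := inferInstance
  let j : U →+* V := (Algebra.TensorProduct.includeRight : U →ₐ[F] E ⊗[F] U).toRingHom
  have hju : ∀ u, j u = 1 ⊗ₜ[F] u := fun u => rfl
  let b0 : Basis (Fin (finrank F U)) F U := finBasis F U
  let b : Basis (Fin (finrank F U)) E V := Algebra.TensorProduct.basis E b0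
  have hb : ∀ i, b i = 1 ⊗ₜ b0 i := fun i => Algebra.TensorProduct.basis_apply b0 i
  let D := gaussDatum hG hπ hd
  have hjF : ∀ x : F, j (algebraMap F U x) = algebraMap E V (algebraMap F E x) := by
    intro x
    rw [hju, Algebra.TensorProduct.algebraMap_apply, Algebra.algebraMap_self, RingHom.id_apply,
      Algebra.algebraMap_eq_smul_one, Algebra.algebraMap_eq_smul_one, TensorProduct.tmul_smul,
      TensorProduct.smul_tmul']
  have hL' : ∀ v, v ∈ j.range ↔ v ∈ cs b D.F0.toSubring := by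
    intro v
    constructor
    · rintro ⟨u, rfl⟩ i
      rw [hju]
      have : b.repr (1 ⊗ₜ[F] u) i = algebraMap F E (b0.repr u i) := by
        rw [Algebra.TensorProduct.basis_repr_tmul, Finsupp.smul_apply, Finsupp.mapRange_apply,
          one_smul]
      rw [this]
      exact (hrange _).2 ⟨_, rfl⟩
    · intro hv
      have hex : ∀ i, ∃ x : F, algebraMap F E x = b.repr v i := fun i => (hrange _).1 (hv i)
      choose x hx using hex
      refine ⟨∑ i, x i • b0 i, ?_⟩
      conv_rhs => rw [← b.sum_repr v]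
      rw [map_sum]
      refine Finset.sum_congr rfl fun i _ => ?_
      rw [← hx i, hb i, Algebra.smul_def, map_mul, hjF, Algebra.smul_def, hju]
  have hk : ∀ c : k, j (algebraMap k U c) = algebraMap E V (algebraMap k E c) := by
    intro c
    rw [IsScalarTower.algebraMap_apply k F U, hjF, ← IsScalarTower.algebraMap_apply k F E]
  have hy : j yU = algebraMap E V y := by rw [hyU, hjF, hyE]
  let X0 : Dat E V U (Fin (finrank F U)) := ⟨b, D.F0, j, hL'⟩
  have hF : ∀ z : E, z ∈ X0.F0 ↔ z ∈ KY hG := fun z => Iff.rfl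
  have hden := dense_F0 hd hG X0.F0 hF
  have hpoly : ∀ f : k[X], (w0 (aeval yU f) : ℝ) = ‖aeval y f‖ := by
    intro f
    refine le_antisymm ?_ ?_
    · exact hnk.poly_le yU hy1 f (norm_nonneg _) (hG.coeff_le f)
    · rcases eq_or_ne f 0 with rfl | hf
      · rw [map_zero, norm_zero]; exact NNReal.coe_nonneg _
      · obtain ⟨m, hm, -⟩ := hG.exists_index hf
        rw [← hm]
        exact hga f m
  have hGT : GT X0 w0 := gt_of_poly hG hF hk hy hpoly
  obtain ⟨e, hee, he0, he1, hev, -⟩ := exists_atom (X := X0) hden hGT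
  -- the class
  set z : V := algebraMap E V (algebraMap k E ζ) with hz
  have hzn : z ^ n = 1 := by
    rw [hz, ← map_pow, ← map_pow, hζ.pow_eq_one, map_one, map_one]
  set c : V := 1 + (z - 1) * e with hc
  have hcn : c ^ n = 1 := by
    rw [hc, twist_pow e z hee, hzn]; ring
  have hcc : c * c ^ (n - 1) = 1 := by
    rw [← pow_succ', Nat.sub_add_cancel hn, hcn]
  obtain ⟨a, ha, a', ha', d, hd1, d', hd1', e1, e2, e3⟩ :=
    unit_fac_E hG hπ hd (isBC_tensor (E := E) b0) hF1 hF2 c (c ^ (n - 1)) hcc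
  have had : a ^ n = d' ^ n := by
    have h1 : a ^ n * d ^ n = 1 := by rw [← mul_pow, ← e3, hcn]
    have h2 : d ^ n * d' ^ n = 1 := by rw [← mul_pow, e2, one_pow]
    calc a ^ n = a ^ n * (d ^ n * d' ^ n) := by rw [h2, mul_one]
      _ = (a ^ n * d ^ n) * d' ^ n := by ring
      _ = d' ^ n := by rw [h1, one_mul]
  obtain ⟨h, hh⟩ := inter_KR (isBC_tensor (E := E) b0) (algebraMap_mem_RU hG hF1)
    (algebraMap_mem_FP hG hπ hd hF1) (fun z h1 h2 => hF2 z (inter_FP_RU hG hπ hd z h2 h1))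
    (a ^ n) (pow_mem ha n) (by rw [had]; exact pow_mem hd1' n)
  have hh' : j h = a ^ n := hh
  have hne : h ≠ 0 := by
    rintro rfl
    rw [map_zero] at hh'
    have : a ^ n * a' ^ n = 1 := by rw [← mul_pow, e1, one_pow]
    rw [← hh', zero_mul] at this
    exact zero_ne_one this
  refine ⟨V, inferInstance, inferInstance, hnt, X0, hF, e, a, a',
    d, d', h, ⟨hk, hy, hn, hζ, hGT, ?_, he1, hev, e1, e2, ?_, ha, hd1', hne, hh'.symm,
    (had ▸ hh').symm⟩, ?_⟩
  · have := hpoly X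
    rw [aeval_X, aeval_X, IsGauss.norm_eq hG] at this
    exact_mod_cast this
  · rw [← e3, hc, hz, map_sub, map_sub, map_one, map_one]
  · intro w hw hP
    have hy0 : yU ≠ 0 := by
      intro h0
      rw [h0, map_zero] at hy
      exact hG.ne_zero ((algebraMap E V).injective (by rw [← hy, map_zero]))
    have hwk : ∀ c : k, w (algebraMap k U c) ≤ 1 := by
      intro c
      rcases eq_or_ne c 0 with rfl | hc
      · rw [map_zero, map_zero]; exact zero_le_one
      · exact (hw c hc).le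
    rcases LemT_874.place_dich w hw hy0 hP with ⟨h2, Q, hQ1, hQ2, hQ3⟩ | ⟨h2, Q, hQ1, hQ2, hQ3⟩
    · obtain ⟨g, hg0, hg⟩ := pointwise_U hG hπ hyE hgen b0 hF1 n h 1 one_ne_zero a a' ha ha' e1
        (by rw [map_one, one_mul]; exact hh) w (Or.inr ⟨hwk, h2, Q, hQ1, hQ2, hQ3⟩)
      exact ⟨g, hg0, by rwa [one_mul] at hg⟩
    · obtain ⟨g, hg0, hg⟩ := pointwise_P hG hπ hd hyE hgen b0 hF1 n h 1 one_ne_zero d' d hd1' hd1
        ((mul_comm _ _).trans e2) (by rw [map_one, one_mul, ← had]; exact hh) w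
        (Or.inr ⟨hwk, h2, Q, hQ1, hQ2, hQ3⟩)
      exact ⟨g, hg0, by rwa [one_mul] at hg⟩

/-- **The Kummer circle class.** -/
theorem exists_cd {π : k} (hπ : IsUnif π) (F : Type u) [Field F] [Algebra k F] [Algebra F U]
    [IsScalarTower k F U] [FiniteDimensional F U] (yF : F)
    (hgen : ∀ x : F, ∃ f g : k[X], aeval yF g ≠ 0 ∧ x = aeval yF f / aeval yF g)
    (w0 : Valuation U ℝ≥0) (hnk : NK k w0) (hy1 : w0 (algebraMap F U yF) ≤ 1)
    (hga : ∀ (f : k[X]) (i : ℕ), ‖f.coeff i‖ ≤ w0 (aeval (algebraMap F U yF) f))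
    {n : ℕ} (hn : 0 < n) {ζ : k} (hζ : IsPrimitiveRoot ζ n) :
    ∃ (E : Type u) (_ : NormedField E) (_ : NormedAlgebra k E) (_ : IsUltrametricDist E)
      (_ : CompleteSpace E) (y : E) (hG : IsGauss k y) (hd : DenseRat k y) (V : Type (max u v))
      (_ : CommRing V) (_ : Algebra E V) (_ : Nontrivial V)
      (X : Dat E V U (Fin (finrank F U))) (hF : ∀ z : E, z ∈ X.F0 ↔ z ∈ KY hG)
      (e a a' d d' : V) (h : U),
      CD hG hπ hd X hF n ζ (algebraMap F U yF) w0 e a a' d d' h ∧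
      ∀ w : Valuation U ℝ≥0, (∀ c : k, c ≠ 0 → w (algebraMap k U c) = 1) →
        (w (algebraMap F U yF) ≤ 1 → ∃ P : k[X], P ≠ 0 ∧ w (aeval (algebraMap F U yF) P) < 1) →
        ∃ g : U, g ≠ 0 ∧ w (h / g ^ n - 1) < 1 := by
  obtain ⟨E, i1, i2, i3, i4, y, hG, hd⟩ := Good2_940.exists_circle k
  let nn : NontriviallyNormedField E :=
    { i1 with
      non_trivial := ⟨algebraMap k E π⁻¹, by
        rw [norm_algebraMap', norm_inv]
        exact (one_lt_inv₀ hπ.pos).2 hπ.lt_one⟩ }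
  obtain ⟨V, j1, j2, j3, X, hF, e, a, a', d, d', h, hC⟩ :=
    exists_cd_aux (E := E) hG hd hπ F yF hgen w0 hnk hy1 hga hn hζ
  exact ⟨E, i1, i2, i3, i4, y, hG, hd, V, j1, j2, j3, X, hF, e, a, a', d, d', h, hC⟩

end Build

/-- **The Kummer circle class**, for a normed field with a uniformizer. -/
theorem exists_cdN {k : Type u} [NormedField k] [IsUltrametricDist k] [CompleteSpace k]
    {U : Type v} [Field U] [CharZero U] [Algebra k U] {π : k} (hπ : IsUnif π) (F : Type u)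
    [Field F] [Algebra k F] [Algebra F U]
    [IsScalarTower k F U] [FiniteDimensional F U] (yF : F)
    (hgen : ∀ x : F, ∃ f g : k[X], aeval yF g ≠ 0 ∧ x = aeval yF f / aeval yF g)
    (w0 : Valuation U ℝ≥0) (hnk : NK k w0) (hy1 : w0 (algebraMap F U yF) ≤ 1)
    (hga : ∀ (f : k[X]) (i : ℕ), ‖f.coeff i‖ ≤ w0 (aeval (algebraMap F U yF) f))
    {n : ℕ} (hn : 0 < n) {ζ : k} (hζ : IsPrimitiveRoot ζ n) :
    ∃ (E : Type u) (_ : NormedField E) (_ : NormedAlgebra k E) (_ : IsUltrametricDist E)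
      (_ : CompleteSpace E) (y : E) (hG : IsGauss k y) (hd : DenseRat k y) (V : Type (max u v))
      (_ : CommRing V) (_ : Algebra E V) (_ : Nontrivial V)
      (X : Dat E V U (Fin (finrank F U))) (hF : ∀ z : E, z ∈ X.F0 ↔ z ∈ KY hG)
      (e a a' d d' : V) (h : U),
      CD hG hπ hd X hF n ζ (algebraMap F U yF) w0 e a a' d d' h ∧
      ∀ w : Valuation U ℝ≥0, (∀ c : k, c ≠ 0 → w (algebraMap k U c) = 1) →
        (w (algebraMap F U yF) ≤ 1 → ∃ P : k[X], P ≠ 0 ∧ w (aeval (algebraMap F U yF) P) < 1) →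
        ∃ g : U, g ≠ 0 ∧ w (h / g ^ n - 1) < 1 := by
  rename_i i1 i2 i3 i4 i5 i6 i7 i8 i9 i10 i11
  let nn : NontriviallyNormedField k :=
    { i1 with
      non_trivial := ⟨π⁻¹, by
        rw [norm_inv]
        exact (one_lt_inv₀ hπ.pos).2 hπ.lt_one⟩ }
  exact @exists_cd k nn i2 i3 U i4 i5 i6 π hπ F i7 i8 i9 i10 i11 yF hgen w0 hnk hy1 hga n hn ζ hζ

end Crest.Agent.R013.Kc_671
end
end

-- ▼ part R013/Kc4_671
section

/-!
# Row 13, C-SLOPES (helper671), Kc4: finite levels of a function field over `C`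

`U = k'(T) ⊆ K`, `T` finite, `C(T) = K`: `K/U` is normal, the norm of a given direction is fixed by
`Aut(K/U)`, `U` is a function field over `k'`.
-/

set_option autoImplicit false
set_option linter.unusedSectionVars false
set_option linter.style.haveILetI false

noncomputable section

namespace Crest.Agent.R013.Kc_671

open Module Filter Topology Polynomial IntermediateField
open Crest.Agent.R013.Cell_408 (DiscNorm)
open Crest.Agent.R013.RR7_948 Crest.Agent.R013.Red332 Crest.Agent.R013.SSK_332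
open Crest.Agent.R013.EE809 Crest.Agent.R013.DEm_719 Crest.Agent.R013.RR20_948
open Crest.Agent.R013.NB_102
open scoped NNReal

variable {k : Type*} [NontriviallyNormedField k] [CompleteSpace k] [IsUltrametricDist k]
variable {C : Type*} [NormedField C] [IsUltrametricDist C] [NormedAlgebra k C]
  [Algebra.IsAlgebraic k C] [IsAlgClosed C] [CharZero C]
variable {K : Type*} [Field K] [Algebra C K]

section Normal

variable (k' : IntermediateField k C) (T : Set K)

omit [NontriviallyNormedField k] [CompleteSpace k] [IsUltrametricDist k] [NormedField C]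
  [IsUltrametricDist C] [NormedAlgebra k C] [Algebra.IsAlgebraic k C] [IsAlgClosed C]
  [CharZero C] [Algebra C K] in
theorem eq_of_eqOn_adjoin {C K Ω : Type*} [Field C] [Field K] [Algebra C K] [Field Ω] {T : Set K}
    (hT : IntermediateField.adjoin C T = ⊤) (φ ψ : K →+* Ω)
    (h1 : ∀ c : C, φ (algebraMap C K c) = ψ (algebraMap C K c)) (h2 : ∀ t ∈ T, φ t = ψ t) :
    φ = ψ := by
  ext f
  have hf : f ∈ IntermediateField.adjoin C T := by rw [hT]; trivial
  refine IntermediateField.adjoin_induction C (p := fun g _ => φ g = ψ g) ?_ ?_ ?_ ?_ ?_ hf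
  · exact h2
  · exact h1
  · intro x y _ _ hx hy
    rw [map_add, map_add, hx, hy]
  · intro x _ hx
    rw [map_inv₀, map_inv₀, hx]
  · intro x y _ _ hx hy
    rw [map_mul, map_mul, hx, hy]

theorem normal_level (hT : IntermediateField.adjoin C T = ⊤) :
    Normal (IntermediateField.adjoin k' T) K := by
  set U := IntermediateField.adjoin k' T with hU
  have hgen : IntermediateField.adjoin U (Set.range (algebraMap C K)) = ⊤ := by
    rw [eq_top_iff]
    intro f _
    have hf : f ∈ IntermediateField.adjoin C T := by rw [hT]; trivial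
    have h1 : ∀ t ∈ T, t ∈ IntermediateField.adjoin U (Set.range (algebraMap C K)) := by
      intro t ht
      have h2 : t ∈ U := IntermediateField.subset_adjoin k' T ht
      exact (IntermediateField.adjoin U (Set.range (algebraMap C K))).algebraMap_mem ⟨t, h2⟩
    refine IntermediateField.adjoin_induction C (p := fun g _ =>
      g ∈ IntermediateField.adjoin U (Set.range (algebraMap C K))) h1 ?_ ?_ ?_ ?_ hf
    · intro c
      exact IntermediateField.subset_adjoin _ _ ⟨c, rfl⟩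
    · intro x y _ _ hx hy
      exact add_mem hx hy
    · intro x _ hx
      exact inv_mem hx
    · intro x y _ _ hx hy
      exact mul_mem hx hy
  have hs : ∀ x ∈ Set.range (algebraMap C K), IsIntegral U x ∧
      ((minpoly U x).map (algebraMap U K)).Splits := by
    rintro _ ⟨c, rfl⟩
    have hc : IsIntegral k' c := Algebra.IsIntegral.isIntegral c
    have hc1 : IsIntegral k' (algebraMap C K c) := hc.map (IsScalarTower.toAlgHom k' C K)
    have hc2 : IsIntegral U (algebraMap C K c) := hc1.tower_top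
    refine ⟨hc2, ?_⟩
    have h3 : minpoly U (algebraMap C K c) ∣ (minpoly k' c).map (algebraMap k' U) := by
      refine minpoly.dvd _ _ ?_
      rw [aeval_map_algebraMap, aeval_algebraMap_apply, minpoly.aeval, map_zero]
    have h4 : (((minpoly k' c).map (algebraMap k' U)).map (algebraMap U K)).Splits := by
      rw [Polynomial.map_map, ← IsScalarTower.algebraMap_eq k' U K,
        IsScalarTower.algebraMap_eq k' C K, ← Polynomial.map_map]
      exact (IsAlgClosed.splits ((minpoly k' c).map (algebraMap k' C))).map _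
    refine h4.of_dvd ?_ (Polynomial.map_dvd _ h3)
    rw [Polynomial.map_ne_zero_iff (algebraMap U K).injective,
      Polynomial.map_ne_zero_iff (algebraMap k' U).injective]
    exact minpoly.ne_zero hc
  have halg : Algebra.IsAlgebraic U K := by
    refine ⟨fun x => ?_⟩
    have hx : x ∈ IntermediateField.adjoin U (Set.range (algebraMap C K)) := by
      rw [hgen]; trivial
    have h5 : Algebra.IsAlgebraic U (IntermediateField.adjoin U (Set.range (algebraMap C K))) :=
      IntermediateField.isAlgebraic_adjoin fun y hy => (hs y hy).1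
    have h6 := h5.isAlgebraic ⟨x, hx⟩
    exact (isAlgebraic_algHom_iff (IntermediateField.val _) Subtype.val_injective).2 h6
  refine normal_iff.2 fun x => ⟨(halg.isAlgebraic x).isIntegral, ?_⟩
  refine IntermediateField.splits_of_mem_adjoin (F := U) (K := K) (L := K)
    (S := Set.range (algebraMap C K)) hs ?_
  rw [hgen]; trivial

end Normal

section Inv

variable [hk : Fact (DiscNorm k)] (S : SSK k C K)

/-- **the norm of a direction is invariant** over a large finite level -/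
theorem exists_inv (d : S.Dir) (T : Finset K) : ∃ L : IntermediateField k C,
    FiniteDimensional k L ∧ ∀ k' : IntermediateField k C, L ≤ k' →
      IntermediateField.adjoin C (T : Set K) = ⊤ →
      ∀ (σ : K ≃ₐ[IntermediateField.adjoin k' (T : Set K)] K) (f : K),
        (S.nm d.1).v (σ f) = (S.nm d.1).v f := by
  classical
  choose L hL hLf using fun t : T => exists_fix_EE (S.em d (t : K))
  refine ⟨⨆ t, L t, IntermediateField.finiteDimensional_iSup_of_finite, ?_⟩
  intro k' hk' hT σ f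
  have hnorm : Normal k' C := normal_iff.2 fun x =>
    ⟨Algebra.IsIntegral.isIntegral x, IsAlgClosed.splits _⟩
  let σ' : K ≃ₐ[k'] K := σ.restrictScalars k'
  let s : C ≃ₐ[k'] C := σ'.restrictNormal C
  have hs : ∀ c : C, algebraMap C K (s c) = σ (algebraMap C K c) := fun c =>
    AlgEquiv.restrictNormal_commutes σ' C c
  let s' : C ≃ₐ[k] C := s.restrictScalars k
  have hs' : ∀ c, s' c = s c := fun c => rfl
  have key : (S.em d).comp (σ : K →+* K) = ((actEE s' : EE k C ≃+* EE k C) : EE k C →+* EE k C).comp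
      (S.em d) := by
    refine eq_of_eqOn_adjoin hT _ _ ?_ ?_
    · intro c
      change S.em d (σ (algebraMap C K c)) = actEE s' (S.em d (algebraMap C K c))
      rw [← hs]
      ext n
      rw [S.em_C, co_actEE, S.em_C]
      split_ifs
      · rfl
      · rw [map_zero]
    · intro t ht
      change S.em d (σ t) = actEE s' (S.em d t)
      have h1 : σ t = t := σ.commutes ⟨t, IntermediateField.subset_adjoin k' _ ht⟩
      rw [h1]
      refine (hLf ⟨t, ht⟩ s' fun c hc => ?_).symm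
      have h2 : c ∈ k' := hk' (le_iSup L ⟨t, ht⟩ hc)
      exact s.commutes ⟨c, h2⟩
  have h3 : S.em d (σ f) = actEE s' (S.em d f) := congrArg (fun φ : K →+* EE k C => φ f) key
  have h4 : ((S.nm d.1).v (σ f) : ℝ) = (S.nm d.1).v f := by
    rw [← S.em_gn, ← S.em_gn, h3, gn_actEE]
  exact_mod_cast h4

end Inv

section FF

theorem ratHom_apply {k K : Type*} [Field k] [Field K] [Algebra k K] (y : K)
    (hy : Transcendental k y) (x : RatFunc k) :
    ratHom y hy x = aeval y x.num / aeval y x.denom := RatFunc.liftAlgHom_apply _ _ x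

variable [Algebra (RatFunc C) K] [IsScalarTower C (RatFunc C) K] [FiniteDimensional (RatFunc C) K]
  [Algebra.IsSeparable (RatFunc C) K]

/-- `U` is a function field over `k'` -/
theorem finite_level (k' : IntermediateField k C) (T : Finset K)
    (yU : IntermediateField.adjoin k' (T : Set K)) (hy : Transcendental C (yU : K))
    (hyU : Transcendental k' yU) :
    letI := ratAlg yU hyU
    FiniteDimensional (RatFunc k') (IntermediateField.adjoin k' (T : Set K)) := by
  letI a1 := ratAlg yU hyU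
  haveI t1 : IsScalarTower k' (RatFunc k') (IntermediateField.adjoin k' (T : Set K)) :=
    ratAlg_tower yU hyU
  have hyK : Transcendental k' (yU : K) := fun h => hyU (by
    have : IsAlgebraic k' ((IntermediateField.val _ : _ →ₐ[k'] K) yU) := h
    exact (isAlgebraic_algHom_iff _ (IntermediateField.val
      (IntermediateField.adjoin k' (T : Set K))).injective).1 this)
  letI a2 : Algebra (RatFunc k') K := ratAlg (yU : K) hyK
  haveI t2 : IsScalarTower k' (RatFunc k') K := ratAlg_tower (yU : K) hyK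
  have hcomm : ∀ f : RatFunc k', algebraMap (IntermediateField.adjoin k' (T : Set K)) K
      (algebraMap (RatFunc k') (IntermediateField.adjoin k' (T : Set K)) f) =
      algebraMap (RatFunc k') K f := by
    intro f
    change algebraMap (IntermediateField.adjoin k' (T : Set K)) K (ratHom yU hyU f) =
      ratHom (yU : K) hyK f
    rw [ratHom_apply, ratHom_apply, map_div₀]
    have h2 : ∀ p : k'[X], algebraMap (IntermediateField.adjoin k' (T : Set K)) K (aeval yU p) =
        aeval (yU : K) p := fun p => by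
      rw [← aeval_algebraMap_apply]; rfl
    rw [h2, h2]
  haveI t3 : IsScalarTower (RatFunc k') (IntermediateField.adjoin k' (T : Set K)) K :=
    IsScalarTower.of_algebraMap_eq fun f => (hcomm f).symm
  have halgK : Algebra.IsAlgebraic (RatFunc k') K := by
    refine RZ_365.isAlgebraic_rat (L := k') (C := C) (K := K) (z := (yU : K)) (r := 1) (by simp) ?_ ?_
    · rw [map_one, div_one]
      exact ratHom_X (yU : K) hyK
    · intro a
      haveI := CLiftN_903.fd_adjoin (C := C) (yU : K) hy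
      exact (IsIntegral.of_finite (IntermediateField.adjoin C {(yU : K)}) a).isAlgebraic
  have halgU : Algebra.IsAlgebraic (RatFunc k') (IntermediateField.adjoin k' (T : Set K)) :=
    Algebra.IsAlgebraic.tower_bot (K := RatFunc k') (L := IntermediateField.adjoin k' (T : Set K))
      (A := K)
  -- generators
  set TU : Set (IntermediateField.adjoin k' (T : Set K)) := Subtype.val ⁻¹' (T : Set K) with hTU
  have hTUfin : TU.Finite := Set.Finite.preimage Subtype.val_injective.injOn T.finite_toSet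
  have hmem : ∀ (x : K) (hx : x ∈ IntermediateField.adjoin k' (T : Set K)),
      (⟨x, hx⟩ : IntermediateField.adjoin k' (T : Set K)) ∈
        IntermediateField.adjoin (RatFunc k') TU := by
    intro x hx
    refine IntermediateField.adjoin_induction k' (s := (T : Set K)) (p := fun g hg =>
      (⟨g, hg⟩ : IntermediateField.adjoin k' (T : Set K)) ∈
        IntermediateField.adjoin (RatFunc k') TU) ?_ ?_ ?_ ?_ ?_ hx
    · intro t ht
      exact IntermediateField.subset_adjoin _ _ ht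
    · intro c
      have h1 : (⟨algebraMap k' K c, (IntermediateField.adjoin k' (T : Set K)).algebraMap_mem c⟩ :
          IntermediateField.adjoin k' (T : Set K)) =
          algebraMap (RatFunc k') _ (algebraMap k' (RatFunc k') c) := by
        rw [← IsScalarTower.algebraMap_apply k' (RatFunc k')]
        rfl
      rw [h1]
      exact (IntermediateField.adjoin (RatFunc k') TU).algebraMap_mem _
    · intro a b ha hb h1 h2
      exact add_mem h1 h2
    · intro a ha h1
      exact inv_mem h1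
    · intro a b ha hb h1 h2
      exact mul_mem h1 h2
  have htop : IntermediateField.adjoin (RatFunc k') TU = ⊤ := by
    rw [eq_top_iff]
    rintro ⟨x, hx⟩ -
    exact hmem x hx
  have hfin : FiniteDimensional (RatFunc k') (IntermediateField.adjoin (RatFunc k') TU) := by
    have := hTUfin.to_subtype
    exact IntermediateField.finiteDimensional_adjoin fun x _ =>
      (halgU.isAlgebraic x).isIntegral
  rw [htop] at hfin
  exact IntermediateField.topEquiv.toLinearEquiv.finiteDimensional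

end FF

end Crest.Agent.R013.Kc_671
end
end

-- ▼ part R013/Kc5_671
section

/-!
# Row 13, C-SLOPES (helper671), Kc5: the circle at an end of an edge
-/

set_option autoImplicit false
set_option linter.unusedSectionVars false
set_option linter.style.haveILetI false

noncomputable section

namespace Crest.Agent.R013.Kc_671

open Module Filter Topology Polynomial IntermediateField WithZero
open Crest.Agent.R013.Cell_408 (DiscNorm)
open Crest.Agent.R013.RR7_948 Crest.Agent.R013.Red332 Crest.Agent.R013.SSK_332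
open Crest.Agent.R013.EE809 Crest.Agent.R013.DEm_719 Crest.Agent.R013.RR20_948
open Crest.Agent.R013.NB_102
open scoped NNReal

section pl

variable {F L : Type*} [Field F] [Field L] [Algebra F L]

/-- an element with a zero is transcendental -/
theorem transc_of_zero (P : Pl F L) {g : L} (h0 : g ≠ 0) (h1 : P.v g < 1) : Transcendental F g := by
  intro h
  have hint : IsIntegral F g := h.isIntegral
  have hm := minpoly.monic hint
  -- the constant term of the minimal polynomial is not zero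
  have hc : (minpoly F g).coeff 0 ≠ 0 := minpoly.coeff_zero_ne_zero hint h0
  have e : aeval g (minpoly F g) = 0 := minpoly.aeval F g
  have e2 : aeval g (minpoly F g) = aeval g (minpoly F g).divX * g +
      algebraMap F L ((minpoly F g).coeff 0) := by
    conv_lhs => rw [← divX_mul_X_add (minpoly F g)]
    simp
  have hle : ∀ c : F, P.v (algebraMap F L c) ≤ 1 := by
    intro c
    rcases eq_or_ne c 0 with rfl | hc
    · rw [map_zero, map_zero]; exact zero_le_one
    · exact (P.const c hc).le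
  have h2 : P.v (aeval g (minpoly F g).divX) ≤ 1 := by
    rw [aeval_eq_sum_range]
    refine Valuation.map_sum_le P.v fun i _ => ?_
    rw [Algebra.smul_def, map_mul, map_pow]
    exact mul_le_one' (hle _) (pow_le_one' h1.le i)
  have h3 : P.v (aeval g (minpoly F g).divX * g) < 1 := by
    rw [map_mul]
    exact mul_lt_one_of_nonneg_of_lt_one_right h2 zero_le h1
  have h4 : algebraMap F L ((minpoly F g).coeff 0) = -(aeval g (minpoly F g).divX * g) := by
    rw [e2] at e
    exact eq_neg_of_add_eq_zero_right e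
  have h5 := P.const _ hc
  rw [h4, Valuation.map_neg] at h5
  exact h3.ne h5

end pl

variable {k : Type*} [NontriviallyNormedField k] [CompleteSpace k] [IsUltrametricDist k]
variable {C : Type*} [NormedField C] [IsUltrametricDist C] [NormedAlgebra k C]
  [Algebra.IsAlgebraic k C] [IsAlgClosed C] [CharZero C]
variable {K : Type*} [Field K] [Algebra C K]

/-- `y` is a coordinate at the end `e0 e` -/
structure YY (S : SSK k C K) (e : S.Ed) (y : K) : Prop where
  one : (S.nm (S.e0 e).1).v y = 1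
  pos : 0 < Red332.od (S.nm (S.e0 e).1) (S.e0 e).2 y
  npos : ∀ d : S.Dir, d ≠ S.e0 e → ((∃ e', d = S.e0 e') ∨ ∃ e', d = S.e1 e') →
    d.1 = (S.e0 e).1 → Red332.od (S.nm d.1) d.2 y ≤ 0

theorem exists_y (S : SSK k C K) (e : S.Ed) : ∃ y : K, YY S e y := by
  classical
  letI := S.fEd
  set v := (S.e0 e).1 with hv
  obtain ⟨i, h1, h2, h3⟩ := S.ff v
  letI := i
  haveI := h1
  haveI := h2
  haveI := h3
  -- the ends at `v`
  have hD : {x : Pl (Ct C) (kap (S.nm v)) | (∃ e', (⟨v, x⟩ : S.Dir) = S.e0 e') ∨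
      ∃ e', (⟨v, x⟩ : S.Dir) = S.e1 e'}.Finite := by
    have hf : ((Set.range S.e0) ∪ (Set.range S.e1)).Finite :=
      (Set.finite_range _).union (Set.finite_range _)
    refine (hf.preimage (f := fun x : Pl (Ct C) (kap (S.nm v)) => (⟨v, x⟩ : S.Dir))
      (fun a _ b _ h => ?_)).subset ?_
    · exact eq_of_heq (Sigma.mk.inj h).2
    · rintro x (⟨e', h⟩ | ⟨e', h⟩)
      · exact Or.inl ⟨e', h.symm⟩
      · exact Or.inr ⟨e', h.symm⟩
  obtain ⟨g, hg0, hg⟩ := RR12_948.exists_prescribed (insert (S.e0 e).2 hD.toFinset)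
    (fun x => if x = (S.e0 e).2 then -1 else 0)
  obtain ⟨y, hy1, hy2⟩ := red_surj (w := S.nm v) g
  have hy : (S.nm v).v y = 1 := (red_ne_zero_iff _ hy1).1 (by rw [hy2]; exact hg0)
  refine ⟨y, hy, ?_, ?_⟩
  · have h4 := v_red_of_one (w := S.nm v) (S.e0 e).2 hy
    rw [hy2, hg _ (Finset.mem_insert_self _ _), if_pos rfl, exp_inj] at h4
    have h5 : (-1 : ℤ) = -Red332.od (S.nm (S.e0 e).1) (S.e0 e).2 y := h4
    omega
  · rintro ⟨v', x⟩ hne hor hvv
    obtain rfl : v' = v := hvv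
    have hx : x ≠ (S.e0 e).2 := by
      rintro rfl
      exact hne rfl
    have h4 := v_red_of_one (w := S.nm v) x hy
    rw [hy2, hg x (Finset.mem_insert_of_mem (hD.mem_toFinset.2 hor)), if_neg hx, exp_inj] at h4
    change Red332.od (S.nm v) x y ≤ 0
    omega

theorem YY.gauss {S : SSK k C K} {e : S.Ed} {y : K} (hy : YY S e y) (f : C[X]) (i : ℕ) :
    ‖f.coeff i‖ ≤ ((S.nm (S.e0 e).1).v (aeval y f) : ℝ) := by
  have htr : Transcendental (Ct C) (red (S.nm (S.e0 e).1) y) := by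
    refine transc_of_zero (S.e0 e).2 (red_ne_zero _ hy.one) ?_
    rw [v_red_of_one (w := S.nm (S.e0 e).1) (S.e0 e).2 hy.one, ← exp_zero, exp_lt_exp]
    have := hy.pos
    omega
  have h1 := (CLiftN_903.isG_of_transc (S.nm (S.e0 e).1) y hy.one.le htr).coeff_le f i
  exact_mod_cast h1

theorem YY.transc {S : SSK k C K} {e : S.Ed} {y : K} (hy : YY S e y) : Transcendental C y :=
  transcendental_iff_injective.2 (aeval_inj (w0 := (S.nm (S.e0 e).1).v) hy.gauss)

/-- a system of labels of the norms of `M` -/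
structure LabS (C : Type*) {K M : Type*} [NormedField C] [Field K] [Field M] [Algebra C M]
    [Algebra K M] (v : Valuation K ℝ≥0) (y : K) (n : ℕ) (ζ : C) (r : M)
    (Lab : Valuation M ℝ≥0 → C → Prop) : Prop where
  ex : ∀ w, NKM C w → ∃ ξ : C, ξ ^ n = 1 ∧ Lab w ξ
  uq : ∀ w, NKM C w → ∀ ξ ξ' : C, ξ ^ n = 1 → ξ' ^ n = 1 → Lab w ξ → Lab w ξ' → ξ = ξ'
  eq : ∀ w, NKM C w → ∀ (σ : M ≃ₐ[K] M) (ξσ : C), ξσ ^ n = 1 → σ r = algebraMap C M ξσ * r →
    ∀ ξ : C, ξ ^ n = 1 → Lab w ξ → Lab (w.comap (σ : M →+* M)) (ξ * ξσ)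
  ev0 : ∀ (w : ℝ → Valuation M ℝ≥0) (t0 : ℝ), (∀ x, ContinuousAt (fun t => w t x) t0) →
    (∀ t, NKM C (w t)) → (w t0).comap (algebraMap K M) ≠ v → ∀ ξ : C, ξ ^ n = 1 →
    Lab (w t0) ξ → ∀ᶠ t in 𝓝 t0, Lab (w t) ξ
  ev1 : ∀ (w : ℝ → Valuation M ℝ≥0) (t0 : ℝ), (∀ x, ContinuousAt (fun t => w t x) t0) →
    (∀ t, NKM C (w t)) → (w t0).comap (algebraMap K M) = v → ∀ ξ : C, ξ ^ n = 1 →
    Lab (w t0) ξ → ∀ᶠ t in 𝓝 t0, (1 ≤ w t (algebraMap K M y) → Lab (w t) ξ) ∧
      (w t (algebraMap K M y) < 1 → Lab (w t) (ξ * ζ))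

theorem aeval_ratX {k : Type*} [Field k] (p : k[X]) :
    aeval (RatFunc.X : RatFunc k) p = algebraMap k[X] (RatFunc k) p := by
  have : (RatFunc.X : RatFunc k) = algebraMap k[X] (RatFunc k) Polynomial.X :=
    RatFunc.algebraMap_X.symm
  rw [this, aeval_algebraMap_apply, aeval_X_left, AlgHom.id_apply]

section main

variable [hk : Fact (DiscNorm k)] [Algebra (RatFunc C) K] [IsScalarTower C (RatFunc C) K]
  [FiniteDimensional (RatFunc C) K] [Algebra.IsSeparable (RatFunc C) K]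

theorem transc_level (k' : IntermediateField k C) (T : Set K)
    (yU : IntermediateField.adjoin k' T) (hy : Transcendental C (yU : K)) :
    Transcendental k' yU := by
  intro h
  obtain ⟨p, hp, h0⟩ := h
  refine hy ⟨p.map (algebraMap k' C), (Polynomial.map_ne_zero_iff (algebraMap k' C).injective).2 hp,
    ?_⟩
  rw [aeval_map_algebraMap]
  have := congrArg (IntermediateField.val (IntermediateField.adjoin k' T)) h0
  rw [map_zero, ← aeval_algHom_apply] at this
  exact this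

theorem hgen_rat (k' : Type*) [Field k'] (x : RatFunc k') : ∃ f g : k'[X],
    aeval (RatFunc.X : RatFunc k') g ≠ 0 ∧
      x = aeval (RatFunc.X : RatFunc k') f / aeval (RatFunc.X : RatFunc k') g := by
  refine ⟨x.num, x.denom, ?_, ?_⟩
  · rw [aeval_ratX]
    exact RatFunc.algebraMap_ne_zero x.denom_ne_zero
  · rw [aeval_ratX, aeval_ratX, RatFunc.num_div_denom]

theorem plV_le_one (P : Pl C K) (f : K) : TopE4_957.plV P f ≤ 1 ↔ P.v f ≤ 1 := by
  rw [TopE4_957.plV_apply, ← map_one (WithZeroMulInt.toNNReal (e := 2) two_ne_zero)]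
  exact (WithZeroMulInt.toNNReal_strictMono one_lt_two).le_iff_le

theorem plV_lt_one (P : Pl C K) (f : K) : TopE4_957.plV P f < 1 ↔ P.v f < 1 := by
  rw [TopE4_957.plV_apply, ← map_one (WithZeroMulInt.toNNReal (e := 2) two_ne_zero)]
  exact (WithZeroMulInt.toNNReal_strictMono one_lt_two).lt_iff_lt

theorem poly_lt (P : Pl C K) {y : K} (hy : P.v y ≤ 1) (k' : IntermediateField k C) :
    ∃ p : k'[X], p ≠ 0 ∧ P.v (aeval y p) < 1 := by
  obtain ⟨c, hc⟩ := CE1_280.exists_residue P hy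
  have hint : IsIntegral k' c := Algebra.IsIntegral.isIntegral c
  refine ⟨minpoly k' c, minpoly.ne_zero hint, ?_⟩
  have h1 : ((minpoly k' c).map (algebraMap k' C)).IsRoot c := by
    rw [IsRoot.def, eval_map_algebraMap, minpoly.aeval]
  obtain ⟨q, hq⟩ := dvd_iff_isRoot.2 h1
  have h2 : aeval y (minpoly k' c) = (y - algebraMap C K c) * aeval y q := by
    rw [← aeval_map_algebraMap C y (minpoly k' c), hq, map_mul, map_sub, aeval_X, aeval_C]
  have hle : ∀ c : C, P.v (algebraMap C K c) ≤ 1 := by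
    intro c
    rcases eq_or_ne c 0 with rfl | hc
    · rw [map_zero, map_zero]; exact zero_le_one
    · exact (P.const c hc).le
  have h3 : P.v (aeval y q) ≤ 1 := by
    rw [aeval_eq_sum_range]
    refine Valuation.map_sum_le P.v fun i _ => ?_
    rw [Algebra.smul_def, map_mul, map_pow]
    exact mul_le_one' (hle _) (pow_le_one' hy i)
  rw [h2, map_mul]
  exact mul_lt_one_of_nonneg_of_lt_one_left zero_le hc h3

theorem kc_core (S : SSK k C K) (e : S.Ed) {y : K} (hy : YY S e y) {n : ℕ} (hn : 0 < n) {ζ : C}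
    (k' : IntermediateField k C) [FiniteDimensional k k'] [CompleteSpace k'] {π : k'}
    (hπ : Gl946.IsUnif π) {ζ' : k'} (hζ' : (ζ' : C) = ζ) (hζ'p : IsPrimitiveRoot ζ' n)
    (U : IntermediateField k' K) {yU : U} (hyU : (yU : K) = y) (hyt : Transcendental k' yU)
    (hfin : letI := ratAlg yU hyt; FiniteDimensional (RatFunc k') U) [Normal U K]
    (hinv : ∀ (σ : K ≃ₐ[U] K) (f : K), (S.nm (S.e0 e).1).v (σ f) = (S.nm (S.e0 e).1).v f) :
    ∃ h : K, TopE4_957.KSplit S n h ∧ ∀ (M : Type*) [Field M] [Algebra C M] [Algebra K M]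
      [IsScalarTower C K M] (r : M), r ^ n = algebraMap K M h →
      ∃ Lab : Valuation M ℝ≥0 → C → Prop, LabS C (S.nm (S.e0 e).1).v y n ζ r Lab := by
  classical
  letI a1 := ratAlg yU hyt
  haveI t1 : IsScalarTower k' (RatFunc k') U := ratAlg_tower yU hyt
  haveI f1 : FiniteDimensional (RatFunc k') U := hfin
  have hXy : algebraMap (RatFunc k') U RatFunc.X = yU := ratHom_X yU hyt
  set v := (S.nm (S.e0 e).1).v with hv
  set w0 : Valuation U ℝ≥0 := v.comap (algebraMap U K) with hw0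
  have hnk : NK k' w0 := by
    intro c
    have h1 : w0 (algebraMap k' U c) = v (algebraMap C K (c : C)) := rfl
    rw [h1, hv, (S.nm (S.e0 e).1).hC]
    rfl
  have hy1 : w0 yU = 1 := by
    have h1 : w0 yU = v (yU : K) := rfl
    rw [h1, hyU]; exact hy.one
  have hga : ∀ (f : k'[X]) (i : ℕ), ‖f.coeff i‖ ≤ w0 (aeval yU f) := by
    intro f i
    have h1 := hy.gauss (f.map (algebraMap k' C)) i
    rw [coeff_map, aeval_map_algebraMap, ← hyU] at h1
    have h2 : w0 (aeval yU f) = v (aeval (yU : K) f) := by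
      change v (algebraMap U K (aeval yU f)) = _
      rw [← aeval_algebraMap_apply]
      rfl
    rw [h2]
    exact h1
  obtain ⟨E, i1, i2, i3, i4, yE, hG, hd, V, i5, i6, i7, X, hF, e', a, a', d, d', h, D, hpl⟩ :=
    exists_cdN hπ (RatFunc k') (RatFunc.X : RatFunc k') (hgen_rat k') w0 hnk
      (by rw [hXy]; exact hy1.le) (by rw [hXy]; exact hga) hn hζ'p
  rw [hXy] at D hpl
  have hn' : ∀ (w : Valuation K ℝ≥0), (∀ c : C, w (algebraMap C K c) = ‖c‖₊) → NKM k' w := by
    intro w hw c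
    have h1 : w (algebraMap k' K c) = w (algebraMap C K (c : C)) := rfl
    rw [h1, hw]; rfl
  refine ⟨(h : K), ⟨?_, ?_, ?_⟩, ?_⟩
  · exact fun h0 => D.h0 (Subtype.ext h0)
  · intro v' ε hε
    have hε' : (0 : ℝ) < (ε : ℝ) := hε
    have hw := hn' (S.nm v').v (S.nm v').hC
    rcases lt_or_ge ((S.nm v').v (algebraMap U K yU)) 1 with h1 | h1
    · obtain ⟨g, hg0, hg⟩ := exists_pow_approx hn _ D.hd' D.h0 D.pd (D.bdP hw h1) hε'
      exact ⟨(g : K), fun h0 => hg0 (Subtype.ext h0), hg⟩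
    · obtain ⟨g, hg0, hg⟩ := exists_pow_approx hn _ D.ha D.h0 D.pa (D.bdU hw h1) hε'
      exact ⟨(g : K), fun h0 => hg0 (Subtype.ext h0), hg⟩
  · intro P
    obtain ⟨g, hg0, hg⟩ := hpl ((TopE4_957.plV P).comap (algebraMap U K)) (by
      intro c hc
      have h1 : ((TopE4_957.plV P).comap (algebraMap U K)) (algebraMap k' U c) =
        TopE4_957.plV P (algebraMap C K (c : C)) := rfl
      rw [h1]
      exact (TopE4_957.isPlace_plV P).1 _ (fun h0 => hc (Subtype.ext h0))) (by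
      intro hle
      have hle' : TopE4_957.plV P y ≤ 1 := by rw [← hyU]; exact hle
      obtain ⟨p, hp0, hp⟩ := poly_lt P ((plV_le_one P y).1 hle') k'
      refine ⟨p, hp0, ?_⟩
      change TopE4_957.plV P (algebraMap U K (aeval yU p)) < 1
      have h1 : algebraMap U K (aeval yU p) = aeval y p := by
        rw [← aeval_algebraMap_apply]
        change aeval (yU : K) p = _
        rw [hyU]
      rw [h1]
      exact (plV_lt_one P _).2 hp)
    have hg' : TopE4_957.plV P ((h : K) / (g : K) ^ n - 1) < 1 := hg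
    refine TopE4_957.pl_pow_of (a := (g : K)) (fun h0 => D.h0 (Subtype.ext h0)) ?_
    have hg0' : (g : K) ≠ 0 := fun h0 => hg0 (Subtype.ext h0)
    have h2 : TopE4_957.plV P ((h : K) / (g : K) ^ n) = 1 := by
      have : (h : K) / (g : K) ^ n = 1 + ((h : K) / (g : K) ^ n - 1) := by ring
      rw [this, Valuation.map_add_eq_of_lt_left _ (by rw [map_one]; exact hg'), map_one]
    rw [map_div₀, map_pow] at h2
    exact (div_eq_one_iff_eq (pow_ne_zero _ ((Valuation.ne_zero_iff _).2 hg0'))).1 h2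
  · intro M _ _ _ _ r hr
    haveI tM : IsScalarTower k' U M := IsScalarTower.of_algebraMap_eq fun c => by
      change algebraMap C M (c : C) = algebraMap K M (algebraMap C K (c : C))
      rw [← IsScalarTower.algebraMap_apply C K M]
    have hr' : r ^ n = algebraMap U M h := hr
    have hNK : ∀ w : Valuation M ℝ≥0, NKM C w → NKM k' w := fun w hw c => hw (c : C)
    have hcoe : ∀ c : k', algebraMap k' M c = algebraMap C M (c : C) := fun c => rfl
    have hmem : ∀ ξ : C, ξ ^ n = 1 → ∃ ξ' : k', (ξ' : C) = ξ ∧ ξ' ^ n = 1 := by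
      intro ξ hξ
      haveI : NeZero n := ⟨hn.ne'⟩
      have hζC : IsPrimitiveRoot (ζ' : C) n := hζ'p.map_of_injective (f := algebraMap k' C)
        (algebraMap k' C).injective
      obtain ⟨i, -, hi⟩ := hζC.eq_pow_of_pow_eq_one hξ
      exact ⟨ζ' ^ i, hi, by rw [← pow_mul, mul_comm, pow_mul, hζ'p.pow_eq_one, one_pow]⟩
    have hpow : ∀ ξ' : k', ((ξ' : C)) ^ n = 1 → ξ' ^ n = 1 := fun ξ' h1 => Subtype.ext h1
    have hyM : algebraMap U M yU = algebraMap K M y := by
      rw [← hyU]; rfl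
    have hnt : ∃ u : U, 1 < v (algebraMap U K u) := by
      refine ⟨algebraMap k' U π⁻¹, ?_⟩
      have h1 : (v (algebraMap U K (algebraMap k' U π⁻¹)) : ℝ) = ‖π⁻¹‖ := hnk π⁻¹
      have h2 : 1 < ‖π⁻¹‖ := by
        rw [norm_inv]
        exact (one_lt_inv₀ hπ.pos).2 hπ.lt_one
      rw [← h1] at h2
      exact_mod_cast h2
    have hrs : ∀ w : Valuation M ℝ≥0, rs U w = w0 ↔ w.comap (algebraMap K M) = v := by
      intro w
      constructor
      · intro h1
        exact eq_of_comap_eq v (w.comap (algebraMap K M)) hinv hnt h1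
      · intro h1
        rw [hw0, ← h1]
        rfl
    refine ⟨fun w ξ => ∃ ξ' : k', (ξ' : C) = ξ ∧ Lab hG hπ hd X hF yU a d' r w ξ', ?_, ?_, ?_, ?_,
      ?_⟩
    · intro w hw
      obtain ⟨ξ', h1, h2⟩ := D.exists_lab hr' (hNK w hw)
      exact ⟨ξ', congrArg Subtype.val h1, ξ', rfl, h2⟩
    · rintro w hw _ _ h1 h2 ⟨ξ, rfl, h3⟩ ⟨ξ', rfl, h4⟩
      rw [D.lab_unique hr' (hNK w hw) (hpow _ h1) (hpow _ h2) h3 h4]
    · rintro w hw σ ξσ h1 hσ _ h2 ⟨ξ, rfl, h3⟩
      obtain ⟨ξσ', rfl, h4⟩ := hmem ξσ h1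
      refine ⟨ξ * ξσ', rfl, ?_⟩
      have h5 : (AlgEquiv.restrictScalars U σ : M ≃ₐ[U] M) r = algebraMap k' M ξσ' * r := hσ
      exact D.lab_equivariant hr' (hNK w hw) (AlgEquiv.restrictScalars U σ) h4 h5 (hpow _ h2) h3
    · rintro w t0 hc hw hne _ h2 ⟨ξ, rfl, h3⟩
      have h4 := D.lab_eventually hr' w t0 hc (fun t => hNK _ (hw t)) (hpow _ h2) h3
      have h5 : ¬ (rs U (w t0) = w0) := fun h6 => hne ((hrs _).1 h6)
      rw [if_neg h5, mul_one] at h4
      filter_upwards [h4] with t h6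
      refine ⟨ξ, rfl, ?_⟩
      rcases lt_or_ge (w t (algebraMap U M yU)) 1 with h7 | h7
      · exact h6.2 h7
      · exact h6.1 h7
    · rintro w t0 hc hw heq _ h2 ⟨ξ, rfl, h3⟩
      have h4 := D.lab_eventually hr' w t0 hc (fun t => hNK _ (hw t)) (hpow _ h2) h3
      rw [if_pos ((hrs _).2 heq), hyM] at h4
      filter_upwards [h4] with t h6
      exact ⟨fun h7 => ⟨ξ, rfl, h6.1 h7⟩, fun h7 => ⟨ξ * ζ', by rw [← hζ']; rfl, h6.2 h7⟩⟩

/-- **THE KUMMER CLASS OF AN EDGE.** -/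
theorem exists_kc (S : SSK k C K) (e : S.Ed) {y : K} (hy : YY S e y) {n : ℕ} (hn : 0 < n) {ζ : C}
    (hζ : IsPrimitiveRoot ζ n) :
    ∃ h : K, TopE4_957.KSplit S n h ∧ ∀ (M : Type*) [Field M] [Algebra C M] [Algebra K M]
      [IsScalarTower C K M] (r : M), r ^ n = algebraMap K M h →
      ∃ Lab : Valuation M ℝ≥0 → C → Prop, LabS C (S.nm (S.e0 e).1).v y n ζ r Lab := by
  classical
  obtain ⟨T0, hT0⟩ := fg_of_ratFunc C K
  obtain ⟨T, hTdef⟩ : ∃ T : Finset K, T = insert y T0 := ⟨_, rfl⟩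
  have hT : IntermediateField.adjoin C (T : Set K) = ⊤ := by
    rw [eq_top_iff, ← hT0]
    exact IntermediateField.adjoin.mono _ _ _ (by rw [hTdef, Finset.coe_insert]; exact Set.subset_insert _ _)
  obtain ⟨L, hL, hinv⟩ := exists_inv S (S.e0 e) T
  have hζint : IsIntegral k ζ := Algebra.IsIntegral.isIntegral ζ
  obtain ⟨k', hLk', hζk, hfd⟩ : ∃ k' : IntermediateField k C, L ≤ k' ∧ ζ ∈ k' ∧
      FiniteDimensional k k' := by
    have hfd1 : FiniteDimensional k (IntermediateField.adjoin k {ζ}) :=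
      IntermediateField.adjoin.finiteDimensional hζint
    exact ⟨L ⊔ IntermediateField.adjoin k {ζ}, le_sup_left,
      (le_sup_right : IntermediateField.adjoin k {ζ} ≤ _)
        (IntermediateField.mem_adjoin_simple_self k ζ), inferInstance⟩
  have hcompl : CompleteSpace k' := FiniteDimensional.complete k k'
  obtain ⟨π, hπ⟩ := RZ_365.exists_isUnif hk.out k'
  obtain ⟨ζ', hζ'⟩ : ∃ ζ' : k', (ζ' : C) = ζ := ⟨⟨ζ, hζk⟩, rfl⟩
  have hζ'p : IsPrimitiveRoot ζ' n :=
    IsPrimitiveRoot.of_map_of_injective (f := algebraMap k' C) (by rw [← hζ'] at hζ; exact hζ)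
      (algebraMap k' C).injective
  have hyT : y ∈ IntermediateField.adjoin k' (T : Set K) :=
    IntermediateField.subset_adjoin _ _ (by rw [hTdef, Finset.coe_insert]; exact Set.mem_insert _ _)
  have hnorm := normal_level k' (T : Set K) hT
  have hinv' := hinv k' hLk' hT
  have hfin := finite_level k' T ⟨y, hyT⟩ hy.transc (transc_level k' _ _ hy.transc)
  exact kc_core S e hy hn k' hπ hζ' hζ'p _ (yU := ⟨y, hyT⟩) rfl _ hfin hinv'

end main

end Crest.Agent.R013.Kc_671
end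
end

-- ▼ part R013/KL1_770

/-!
# Row 13, C-SLOPES, labels (helper770), part 1: from labels on norms to `KcOut`

* `nrmR_inh` : the path of an annulus of `P.inh` restricts to the path of the annulus below;
* `Gam` : the path as a function on `ℝ`;
* `LabX` : a label (function) from a system of labels `LabS` (671);
* `kcOut`, `slopes_onto` : hypothesis `hSl` of 928's `exists_class`.
-/

set_option autoImplicit false
set_option linter.all false

namespace Crest.Agent.R013.KL_770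

open scoped NNReal
open WithZero Module Filter Topology
open Crest.Agent.R013.Cell_408 (DiscNorm)
open Crest.Agent.R013.RR7_948 Crest.Agent.R013.RR8_948 Crest.Agent.R013.RR9_948
open Crest.Agent.R013.Red332 Crest.Agent.R013.SSK_332 Crest.Agent.R013.TP_928
open Crest.Agent.R013.Inh_770 Crest.Agent.R013.TopE4_957 Crest.Agent.R013.Nrm_671
open Crest.Agent.R013.NB_102 Crest.Agent.R013.EE809 Crest.Agent.R013.Kc_671

universe u v w

variable {k : Type w} [NontriviallyNormedField k] [CompleteSpace k] [IsUltrametricDist k]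
variable {C : Type v} [NormedField C] [IsUltrametricDist C] [NormedAlgebra k C]
  [Algebra.IsAlgebraic k C] [IsAlgClosed C] [CharZero C] [hk : Fact (DiscNorm k)]
variable {K : Type u} [Field K] [Algebra C K] [Algebra (RatFunc C) K]
  [IsScalarTower C (RatFunc C) K] [FiniteDimensional (RatFunc C) K]
  [Algebra.IsSeparable (RatFunc C) K]

section inh

variable {M : Type*} [Field M] [Algebra C M] [Algebra K M] [IsScalarTower C K M]
  [FiniteDimensional K M] [IsGalois K M] {S : SSK k C K} (P : Spl S M)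

theorem em0_K (e' : P.inh.Ed) (f : K) :
    P.inh.em (P.inh.e0 e') (algebraMap K M f) = S.em (S.e0 (P.edE P.ffL e').1) f := by
  have h1 : P.inh.em (P.inh.e0 e') (algebraMap K M f) =
    P.ps (S.e0 (P.edE P.ffL e').1) ((P.edE P.ffL e').2 (algebraMap K M f)) := P.em_e0 P.ffL e' _
  rw [h1, AlgEquiv.commutes, P.ps_K]


/-- the path of an annulus restricts to the path of the annulus below -/
theorem nrmR_inh (e' : P.inh.Ed) {t : ℝ} (h1 : ‖S.cc (P.edE P.ffL e').1‖ ≤ t) (h2 : t ≤ 1) (f : K) :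
    nrmR P.inh e' t (algebraMap K M f) = nrmR S (P.edE P.ffL e').1 t f := by
  obtain ⟨g, h, h0, hg, hh, e⟩ := fr_e0 S (P.edE P.ffL e').1 f
  have hcc : ‖P.inh.cc e'‖ = ‖S.cc (P.edE P.ffL e').1‖ := rfl
  have e1 : nrmR S (P.edE P.ffL e').1 t f = gr t g / gr t h :=
    nrR_eq (cc_pos S _) (S.cc_lt _) (fr_e0 S _) h1 h2 hg hh h0 e
  have e2 : nrmR P.inh e' t (algebraMap K M f) = gr t g / gr t h :=
    nrR_eq (cc_pos P.inh _) (P.inh.cc_lt _) (fr_e0 P.inh _) h1 h2 hg hh h0
      (by rw [em0_K]; exact e)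
  rw [e1, e2]

/-- the path of an annulus, as a function on `ℝ` -/
noncomputable def Gam {K : Type*} [Field K] [Algebra C K] (S : SSK k C K) (e : S.Ed) (t : ℝ) :
    Valuation K ℝ≥0 :=
  (pt S e (Set.projIcc ‖S.cc e‖ 1 (S.cc_lt e).le t)).v

section Gam

variable {K : Type*} [Field K] [Algebra C K] (S : SSK k C K) (e : S.Ed)

theorem Gam_cont (f : K) : Continuous fun t => Gam S e t f :=
  (NS.continuous_eval (continuous_pt S e) f).comp continuous_projIcc

theorem Gam_NK (t : ℝ) : NK C (Gam S e t) := NK_pt S e _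

theorem Gam_coe {t : ℝ} (h1 : ‖S.cc e‖ ≤ t) (h2 : t ≤ 1) (f : K) :
    ((Gam S e t f : ℝ≥0) : ℝ) = nrmR S e t f := by
  unfold Gam
  rw [pt_coe, Set.projIcc_of_mem _ ⟨h1, h2⟩]

theorem Gam_one : Gam S e 1 = (S.nm (S.e0 e).1).v := by
  ext f
  rw [Gam_coe S e (S.cc_lt e).le le_rfl, nrmR_one S hk.out]

theorem Gam_cc : Gam S e ‖S.cc e‖ = (S.nm (S.e1 e).1).v := by
  ext f
  rw [Gam_coe S e le_rfl (S.cc_lt e).le, nrmR_cc S hk.out]

end Gam

theorem Gam_comap (e' : P.inh.Ed) {t : ℝ} (h1 : ‖S.cc (P.edE P.ffL e').1‖ ≤ t) (h2 : t ≤ 1) :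
    (Gam P.inh e' t).comap (algebraMap K M) = Gam S (P.edE P.ffL e').1 t := by
  ext f
  rw [Valuation.comap_apply, Gam_coe S _ h1 h2, Gam_coe P.inh e' h1 h2]
  exact nrmR_inh P e' h1 h2 f

end inh

section lab

variable {M : Type*} [Field M] [Algebra C M] [Algebra K M] {v : Valuation K ℝ≥0} {y : K} {n : ℕ}
  {ζ : C} {r : M} {Lab : Valuation M ℝ≥0 → C → Prop} (hL : LabS C v y n ζ r Lab)

open Classical in
/-- the label of a norm -/
noncomputable def lb (w : Valuation M ℝ≥0) : C := if h : NKM C w then (hL.ex w h).choose else 1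

theorem lb_pow {w : Valuation M ℝ≥0} (h : NKM C w) : lb hL w ^ n = 1 := by
  unfold lb
  rw [dif_pos h]
  exact (hL.ex w h).choose_spec.1

theorem lb_lab {w : Valuation M ℝ≥0} (h : NKM C w) : Lab w (lb hL w) := by
  unfold lb
  rw [dif_pos h]
  exact (hL.ex w h).choose_spec.2

theorem lb_eq {w : Valuation M ℝ≥0} (h : NKM C w) {ξ : C} (hξ : ξ ^ n = 1) (h1 : Lab w ξ) :
    lb hL w = ξ :=
  hL.uq w h _ _ (lb_pow hL h) hξ (lb_lab hL h) h1

/-- labels are constant off `v` -/
theorem lb_const {w : ℝ → Valuation M ℝ≥0} (hc : ∀ f, Continuous fun t => w t f)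
    (hNK : ∀ t, NKM C (w t)) (J : Set ℝ) (hJ : J.OrdConnected)
    (hne : ∀ t ∈ J, (w t).comap (algebraMap K M) ≠ v) {s t : ℝ} (hs : s ∈ J) (ht : t ∈ J) :
    lb hL (w s) = lb hL (w t) := by
  haveI : PreconnectedSpace J := Subtype.preconnectedSpace hJ.isPreconnected
  have key := const_of_eventually (T := J) (fun u => lb hL (w u) = lb hL (w t)) (fun t0 => ?_)
    ⟨s, hs⟩ ⟨t, ht⟩
  · exact key.2 rfl
  · have h1 := hL.ev0 w t0 (fun x => (hc x).continuousAt) hNK (hne t0 t0.2) _ (lb_pow hL (hNK t0))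
      (lb_lab hL (hNK t0))
    have h2 : ∀ᶠ u : J in 𝓝 t0, Lab (w u) (lb hL (w t0)) :=
      continuousAt_subtype_val.eventually h1
    filter_upwards [h2] with u hu
    rw [lb_eq hL (hNK u) (lb_pow hL (hNK t0)) hu]

end lab

section main

variable {M : Type*} [Field M] [Algebra C M] [Algebra K M] [IsScalarTower C K M]
  [FiniteDimensional K M] [IsGalois K M] {S : SSK k C K} (P : Spl S M)
  {v : S.V} {y : K} {n : ℕ} {ζ : C} {r : M} {Lab : Valuation M ℝ≥0 → C → Prop}
  (hL : LabS C (S.nm v).v y n ζ r Lab) (hζ : ζ ^ n = 1)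
  (hy : (S.nm v).v y = 1) (e' : P.inh.Ed)

/-- interior norms are no vertices -/
theorem interior_ne {t : ℝ} (h0 : ‖S.cc (P.edE P.ffL e').1‖ < t) (h1 : t < 1) :
    (Gam P.inh e' t).comap (algebraMap K M) ≠ (S.nm v).v := by
  rw [Gam_comap P e' h0.le h1.le]
  intro h
  apply nrm_ne_nm S (P.edE P.ffL e').1 h0 h1 v
  rw [← h]
  ext f
  rw [Gam_coe S _ h0.le h1.le]
  rfl

theorem interior {s t : ℝ} (hs0 : ‖S.cc (P.edE P.ffL e').1‖ < s) (hs1 : s < 1)
    (ht0 : ‖S.cc (P.edE P.ffL e').1‖ < t) (ht1 : t < 1) :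
    lb hL (Gam P.inh e' s) = lb hL (Gam P.inh e' t) :=
  lb_const hL (Gam_cont P.inh e') (Gam_NK P.inh e') (Set.Ioo _ 1) Set.ordConnected_Ioo
    (fun t ht => interior_ne P e' ht.1 ht.2) ⟨hs0, hs1⟩ ⟨ht0, ht1⟩

theorem val_y {t : ℝ} (h1 : ‖S.cc (P.edE P.ffL e').1‖ ≤ t) (h2 : t ≤ 1) (y : K) :
    ((Gam P.inh e' t (algebraMap K M y) : ℝ≥0) : ℝ) = nrmR S (P.edE P.ffL e').1 t y := by
  rw [Gam_coe P.inh e' h1 h2]
  exact nrmR_inh P e' h1 h2 y

include hy in
theorem y_ne : y ≠ 0 := by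
  rintro rfl
  rw [map_zero] at hy
  exact zero_ne_one hy



include hy in
/-- the outer end, `y` has order `≤ 0` or the end is not over `v` -/
theorem outer_zero (hod : (S.e0 (P.edE P.ffL e').1).1 = v →
      Red332.od (S.nm (S.e0 (P.edE P.ffL e').1).1) (S.e0 (P.edE P.ffL e').1).2 y ≤ 0)
    {t : ℝ} (ht0 : ‖S.cc (P.edE P.ffL e').1‖ < t) (ht1 : t < 1) :
    lb hL (Gam P.inh e' t) = lb hL (Gam P.inh e' 1) := by
  set e := (P.edE P.ffL e').1 with he
  by_cases hv : (S.e0 e).1 = v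
  · have hy' : (S.nm (S.e0 e).1).v y = 1 := by rw [hv]; exact hy
    have hy0 : y ≠ 0 := y_ne hy
    have h1 := hL.ev1 (Gam P.inh e') 1 (fun x => (Gam_cont P.inh e' x).continuousAt)
      (Gam_NK P.inh e') (by rw [Gam_comap P e' (S.cc_lt e).le le_rfl, Gam_one, hv]) _
      (lb_pow hL (Gam_NK P.inh e' 1)) (lb_lab hL (Gam_NK P.inh e' 1))
    obtain ⟨ρ', h2, h3, h4⟩ := nrmR_near_one S hk.out e hy0
    obtain ⟨s, hs1, hs2⟩ := ((h1.filter_mono nhdsWithin_le_nhds).and
      (Ioo_mem_nhdsLT h3 : Set.Ioo ρ' 1 ∈ 𝓝[<] (1 : ℝ))).exists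
    have hs0 : ‖S.cc e‖ < s := h2.trans hs2.1
    rw [interior P hL e' (s := t) (t := s) ht0 ht1 hs0 hs2.2]
    refine lb_eq hL (Gam_NK P.inh e' s) (lb_pow hL (Gam_NK P.inh e' 1)) (hs1.1 ?_)
    have h5 := val_y P e' hs0.le hs2.2.le y
    rw [h4 s hs2.1.le hs2.2.le, hy', S.em_od _ _ hy0, NNReal.coe_one, one_mul] at h5
    have h6 : (1 : ℝ) ≤ s ^ Red332.od (S.nm (S.e0 e).1) (S.e0 e).2 y :=
      one_le_zpow_of_nonpos₀ ((cc_pos S e).trans hs0) hs2.2.le (hod hv)
    rw [← h5] at h6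
    exact_mod_cast h6
  · refine lb_const hL (Gam_cont P.inh e') (Gam_NK P.inh e') (Set.Icc t 1) Set.ordConnected_Icc
      (fun s hs => ?_) ⟨le_rfl, ht1.le⟩ ⟨ht1.le, le_rfl⟩
    rcases hs.2.lt_or_eq with h | h
    · exact interior_ne P e' (ht0.trans_le hs.1) h
    · rw [h, Gam_comap P e' (S.cc_lt e).le le_rfl, Gam_one]
      intro h'
      exact hv (S.nm_inj (Nm.ext' fun f => congrArg (fun z : Valuation K ℝ≥0 => z f) h'))

include hy in
/-- the inner end -/
theorem inner_zero (hod : (S.e1 (P.edE P.ffL e').1).1 = v →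
      Red332.od (S.nm (S.e1 (P.edE P.ffL e').1).1) (S.e1 (P.edE P.ffL e').1).2 y ≤ 0)
    {t : ℝ} (ht0 : ‖S.cc (P.edE P.ffL e').1‖ < t) (ht1 : t < 1) :
    lb hL (Gam P.inh e' t) = lb hL (Gam P.inh e' ‖S.cc (P.edE P.ffL e').1‖) := by
  set e := (P.edE P.ffL e').1 with he
  have hcc := cc_pos S e
  by_cases hv : (S.e1 e).1 = v
  · have hy' : (S.nm (S.e1 e).1).v y = 1 := by rw [hv]; exact hy
    have hy0 : y ≠ 0 := y_ne hy
    have h1 := hL.ev1 (Gam P.inh e') ‖S.cc e‖ (fun x => (Gam_cont P.inh e' x).continuousAt)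
      (Gam_NK P.inh e') (by rw [Gam_comap P e' le_rfl (S.cc_lt e).le, Gam_cc, hv]) _
      (lb_pow hL (Gam_NK P.inh e' _)) (lb_lab hL (Gam_NK P.inh e' _))
    obtain ⟨ρ', h2, h3, h4⟩ := nrmR_near_cc S hk.out e hy0
    obtain ⟨s, hs1, hs2⟩ := ((h1.filter_mono nhdsWithin_le_nhds).and
      (Ioo_mem_nhdsGT h2 : Set.Ioo ‖S.cc e‖ ρ' ∈ 𝓝[>] ‖S.cc e‖)).exists
    have hs0 : s < 1 := hs2.2.trans h3
    rw [interior P hL e' (s := t) (t := s) ht0 ht1 hs2.1 hs0]
    refine lb_eq hL (Gam_NK P.inh e' s) (lb_pow hL (Gam_NK P.inh e' _)) (hs1.1 ?_)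
    have h5 := val_y P e' hs2.1.le hs0.le y
    rw [h4 s hs2.1.le hs2.2.le, hy', S.em_od _ _ hy0, NNReal.coe_one, one_mul] at h5
    have hsp : 0 < s := hcc.trans hs2.1
    have h6 : (1 : ℝ) ≤ (‖S.cc e‖ / s) ^ Red332.od (S.nm (S.e1 e).1) (S.e1 e).2 y :=
      one_le_zpow_of_nonpos₀ (div_pos hcc hsp) ((div_le_one hsp).2 hs2.1.le) (hod hv)
    rw [← h5] at h6
    exact_mod_cast h6
  · refine lb_const hL (Gam_cont P.inh e') (Gam_NK P.inh e') (Set.Icc ‖S.cc e‖ t)
      Set.ordConnected_Icc (fun s hs => ?_) ⟨ht0.le, le_rfl⟩ ⟨le_rfl, ht0.le⟩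
    rcases hs.1.lt_or_eq with h | h
    · exact interior_ne P e' h (hs.2.trans_lt ht1)
    · rw [← h, Gam_comap P e' le_rfl (S.cc_lt e).le, Gam_cc]
      intro h'
      exact hv (S.nm_inj (Nm.ext' fun f => congrArg (fun z : Valuation K ℝ≥0 => z f) h'))

include hy hζ in
/-- the outer end with a positive order -/
theorem outer_one (hv : (S.e0 (P.edE P.ffL e').1).1 = v)
    (hod : 0 < Red332.od (S.nm (S.e0 (P.edE P.ffL e').1).1) (S.e0 (P.edE P.ffL e').1).2 y)
    {t : ℝ} (ht0 : ‖S.cc (P.edE P.ffL e').1‖ < t) (ht1 : t < 1) :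
    lb hL (Gam P.inh e' t) = lb hL (Gam P.inh e' 1) * ζ := by
  set e := (P.edE P.ffL e').1 with he
  have hy' : (S.nm (S.e0 e).1).v y = 1 := by rw [hv]; exact hy
  have hy0 : y ≠ 0 := y_ne hy
  have h1 := hL.ev1 (Gam P.inh e') 1 (fun x => (Gam_cont P.inh e' x).continuousAt)
    (Gam_NK P.inh e') (by rw [Gam_comap P e' (S.cc_lt e).le le_rfl, Gam_one, hv]) _
    (lb_pow hL (Gam_NK P.inh e' 1)) (lb_lab hL (Gam_NK P.inh e' 1))
  obtain ⟨ρ', h2, h3, h4⟩ := nrmR_near_one S hk.out e hy0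
  obtain ⟨s, hs1, hs2⟩ := ((h1.filter_mono nhdsWithin_le_nhds).and
    (Ioo_mem_nhdsLT h3 : Set.Ioo ρ' 1 ∈ 𝓝[<] (1 : ℝ))).exists
  have hs0 : ‖S.cc e‖ < s := h2.trans hs2.1
  rw [interior P hL e' (s := t) (t := s) ht0 ht1 hs0 hs2.2]
  refine lb_eq hL (Gam_NK P.inh e' s) (by rw [mul_pow, lb_pow hL (Gam_NK P.inh e' 1), hζ, one_mul])
    (hs1.2 ?_)
  have h5 := val_y P e' hs0.le hs2.2.le y
  rw [h4 s hs2.1.le hs2.2.le, hy', S.em_od _ _ hy0, NNReal.coe_one, one_mul] at h5
  have hsp : 0 < s := (cc_pos S e).trans hs0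
  have h6 : s ^ Red332.od (S.nm (S.e0 e).1) (S.e0 e).2 y < 1 := by
    obtain ⟨m, hm⟩ := Int.eq_ofNat_of_zero_le hod.le
    rw [hm, zpow_natCast]
    refine pow_lt_one₀ hsp.le hs2.2 ?_
    rintro rfl
    rw [hm] at hod
    exact lt_irrefl _ hod
  rw [← h5] at h6
  exact_mod_cast h6

end main

/-- the exponent of a root of unity -/
theorem exists_exp {n : ℕ} (hn : 0 < n) {ζ : C} (hζ : IsPrimitiveRoot ζ n) :
    ∃ L : C → ZMod n, (∀ a b : C, a ^ n = 1 → b ^ n = 1 → L (a * b) = L a + L b) ∧ L ζ = 1 := by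
  classical
  haveI : NeZero n := ⟨hn.ne'⟩
  have hex : ∀ a : C, ∃ i : ℕ, a ^ n = 1 → ζ ^ i = a := by
    intro a
    by_cases ha : a ^ n = 1
    · obtain ⟨i, -, hi⟩ := hζ.eq_pow_of_pow_eq_one ha
      exact ⟨i, fun _ => hi⟩
    · exact ⟨0, fun h => absurd h ha⟩
  choose i hi using hex
  have key : ∀ (a : C) (j : ℕ), a ^ n = 1 → ζ ^ j = a → ((i a : ℕ) : ZMod n) = (j : ZMod n) := by
    intro a j ha hj
    have h1 : ζ ^ (i a) = ζ ^ j := by rw [hi a ha, hj]
    have h0 : ζ ≠ 0 := hζ.ne_zero hn.ne'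
    have h2 : ζ ^ ((i a : ℤ) - (j : ℤ)) = 1 := by
      rw [zpow_sub₀ h0, zpow_natCast, zpow_natCast, h1, div_self (pow_ne_zero _ h0)]
    have h3 := (hζ.zpow_eq_one_iff_dvd _).1 h2
    have h4 : (((i a : ℤ) : ZMod n)) = ((j : ℤ) : ZMod n) := by
      rw [← sub_eq_zero, ← Int.cast_sub]
      exact (ZMod.intCast_zmod_eq_zero_iff_dvd _ n).2 h3
    exact_mod_cast h4
  refine ⟨fun a => (i a : ZMod n), fun a b ha hb => ?_, ?_⟩
  · have h1 : (a * b) ^ n = 1 := by rw [mul_pow, ha, hb, one_mul]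
    have h2 := key (a * b) (i a + i b) h1 (by rw [pow_add, hi a ha, hi b hb])
    change ((i (a * b) : ℕ) : ZMod n) = _
    rw [h2, Nat.cast_add]
  · have h2 := key ζ 1 hζ.pow_eq_one (pow_one ζ)
    change ((i ζ : ℕ) : ZMod n) = 1
    rw [h2, Nat.cast_one]

open Classical in
/-- **`KcOut`** -/
theorem kcOut (S : SSK k C K) {n : ℕ} (hn : 0 < n) : KcAsm_770.KcOut S n := by
  intro e
  haveI : NeZero (n : C) := ⟨Nat.cast_ne_zero.2 hn.ne'⟩
  obtain ⟨ζ, hζ⟩ := HasEnoughRootsOfUnity.exists_primitiveRoot C n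
  obtain ⟨y, hy⟩ := exists_y S e
  obtain ⟨h, hh, hlab⟩ := exists_kc S e hy hn hζ
  obtain ⟨L, hLm, hL1⟩ := exists_exp hn hζ
  refine ⟨h, hh, fun M _ _ _ _ _ _ P r hr => ?_⟩
  obtain ⟨Lab, hL⟩ := hlab M r hr
  have hr0 : r ≠ 0 := by
    rintro rfl
    rw [zero_pow hn.ne'] at hr
    exact hh.ne ((map_eq_zero _).1 hr.symm)
  -- the Kummer character
  have hκ : ∀ a : M ≃ₐ[K] M, ∃ ξ : C, ξ ^ n = 1 ∧ a r = algebraMap C M ξ * r := by
    intro a
    have h1 : (a r / r) ^ n = 1 := by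
      rw [div_pow, ← map_pow, hr, AlgEquiv.commutes, ← hr, div_self (pow_ne_zero n hr0)]
    have hζM : IsPrimitiveRoot (algebraMap C M ζ) n := hζ.map_of_injective (algebraMap C M).injective
    haveI : NeZero n := ⟨hn.ne'⟩
    obtain ⟨i, -, hi⟩ := hζM.eq_pow_of_pow_eq_one h1
    refine ⟨ζ ^ i, by rw [← pow_mul, mul_comm, pow_mul, hζ.pow_eq_one, one_pow], ?_⟩
    rw [map_pow, hi, div_mul_cancel₀ _ hr0]
  choose κ hκ1 hκ2 using hκ
  have hNK : ∀ w : P.inh.V, NKM C (P.inh.nm w).v := fun w => NK_nm P.inh w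
  refine ⟨fun w => L (lb hL (P.inh.nm w).v), fun a => - L (κ a), fun a w w' hw => ?_, fun e' => ?_⟩
  · have h1 : (P.inh.nm w').v.comap (a : M →+* M) = (P.inh.nm w).v := by
      ext f
      exact congrArg _ (hw f)
    have h2 := hL.eq (P.inh.nm w').v (hNK w') a (κ a) (hκ1 a) (hκ2 a) _
      (lb_pow hL (hNK w')) (lb_lab hL (hNK w'))
    rw [h1] at h2
    have h3 := lb_eq hL (hNK w) (by rw [mul_pow, lb_pow hL (hNK w'), hκ1, one_mul]) h2
    have h4 := hLm _ _ (lb_pow hL (hNK w')) (hκ1 a)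
    change L (lb hL (P.inh.nm w').v) = L (lb hL (P.inh.nm w).v) + -L (κ a)
    rw [h3, h4]
    ring
  · obtain ⟨t, ht0, ht1⟩ := exists_between (S.cc_lt (P.edE P.ffL e').1)
    have h1 : Gam P.inh e' 1 = (P.inh.nm (P.inh.e0 e').1).v := Gam_one P.inh e'
    have h2 : Gam P.inh e' ‖S.cc (P.edE P.ffL e').1‖ = (P.inh.nm (P.inh.e1 e').1).v :=
      Gam_cc P.inh e'
    have h3 := inner_zero P hL hy.one e' (fun hv => hy.npos _ (fun h => by
      have h4 := @S.ends_inj (Sum.inr (P.edE P.ffL e').1) (Sum.inl e) h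
      simp at h4) (Or.inr ⟨_, rfl⟩) hv) ht0 ht1
    change L (lb hL (P.inh.nm (P.inh.e1 e').1).v) = L (lb hL (P.inh.nm (P.inh.e0 e').1).v) + _
    rw [← h1, ← h2, ← h3]
    by_cases he : (P.edE P.ffL e').1 = e
    · rw [if_pos he, outer_one P hL hζ.pow_eq_one hy.one e' (by rw [he]) (by rw [he]; exact hy.pos)
        ht0 ht1, hLm _ _ (lb_pow hL (Gam_NK P.inh e' 1)) hζ.pow_eq_one, hL1]
    · rw [if_neg he, add_zero, outer_zero P hL hy.one e' (fun hv => hy.npos _ (fun h => ?_)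
        (Or.inl ⟨_, rfl⟩) hv) ht0 ht1]
      have h4 := @S.ends_inj (Sum.inl (P.edE P.ffL e').1) (Sum.inl e) h
      exact he (Sum.inl.inj h4)

/-- **C-SLOPES**: the slopes of the `n`-divisible divisors are onto the cycles mod `n`
(hypothesis `hSl` of 928's `exists_class`) -/
theorem slopes_onto (S : SSK k C K) {n : ℕ} (hn : 0 < n) (lam : S.Ed → ZMod n)
    (hlam : Fin_928.bdry S (ZMod n) lam = 0) :
    ∃ f : K, f ≠ 0 ∧ (∃ x : Pl C K →₀ ℤ, RR11_948.divf (k := C) f = n • x) ∧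
      ∀ e, ((ord S (S.e0 e) f : ℤ) : ZMod n) = lam e :=
  KcAsm_770.slopes_onto hn (kcOut S hn) lam hlam

end Crest.Agent.R013.KL_770
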