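import Mathlib
import Crest.Agent.R013.Hens3_899
import Crest.Agent.R013.Places_97

-- ▼ part R013/LU3a_205
section

/-!
R013 / SS-LU3 (helper205), part 1.  Type 3 norms: basic lemmas on Laurent monomials, freshman's
dream estimates, value groups of finite extensions.
-/

set_option autoImplicit false

namespace Crest.Agent.R013.LU3_205

open scoped NNReal

section Basic

variable {Ω : Type*} [Field Ω] (W : Valuation Ω ℝ≥0)

/-- terms with pairwise distinct values: each term is bounded by the sum -/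
theorem le_sum {ι : Type*} (s : Finset ι) (f : ι → Ω)
    (h : ∀ i ∈ s, ∀ j ∈ s, i ≠ j → f i ≠ 0 → W (f i) ≠ W (f j)) :
    ∀ i ∈ s, W (f i) ≤ W (∑ j ∈ s, f j) := by
  classical
  intro i hi
  obtain ⟨j, hj, hmax⟩ := s.exists_max_image (fun k => W (f k)) ⟨i, hi⟩
  refine (hmax i hi).trans ?_
  by_cases h0 : f j = 0
  · rw [h0, map_zero]; exact zero_le
  refine (Valuation.map_sum_eq_of_lt W hj fun k hk => ?_).ge
  rw [Finset.mem_sdiff, Finset.mem_singleton] at hk
  exact lt_of_le_of_ne (hmax k hk.1) (h j hj k hk.1 (Ne.symm hk.2) h0).symm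

theorem exists_max_term {ι : Type*} (s : Finset ι) (f : ι → Ω)
    (h : ∀ i ∈ s, ∀ j ∈ s, i ≠ j → f i ≠ 0 → W (f i) ≠ W (f j))
    (h0 : (∑ j ∈ s, f j) ≠ 0) :
    ∃ i ∈ s, f i ≠ 0 ∧ W (∑ j ∈ s, f j) = W (f i) := by
  classical
  have hne : s.Nonempty := by
    rw [Finset.nonempty_iff_ne_empty]
    rintro rfl
    exact h0 (by simp)
  obtain ⟨j, hj, hmax⟩ := s.exists_max_image (fun k => W (f k)) hne
  have hle : W (∑ k ∈ s, f k) ≤ W (f j) := Valuation.map_sum_le W fun i hi => hmax i hi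
  have hj0 : f j ≠ 0 := by
    intro hj0
    rw [hj0, map_zero, le_zero_iff] at hle
    exact h0 ((map_eq_zero W).1 hle)
  exact ⟨j, hj, hj0, le_antisymm hle (le_sum W s f h j hj)⟩

theorem W_natCast_le (n : ℕ) : W (n : Ω) ≤ 1 := by
  induction n with
  | zero => rw [Nat.cast_zero, map_zero]; exact zero_le
  | succ n ih =>
    rw [Nat.cast_succ]
    exact Valuation.map_add_le W ih (by rw [map_one])

/-- freshman's dream with a sharp estimate -/
theorem fresh {p : ℕ} (hp : p.Prime) {x y : Ω} {M : ℝ≥0} (hx : W x ≤ M) (hy : W y ≤ M) :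
    W ((x + y) ^ p - x ^ p - y ^ p) ≤ W (p : Ω) * (W x * W y) * M ^ (p - 2) := by
  rw [add_pow_prime_eq hp]
  have e : x ^ p + y ^ p + (p : Ω) * x * y *
      ∑ k ∈ Finset.Ioo 0 p, x ^ (k - 1) * y ^ (p - k - 1) * ((p.choose k / p : ℕ) : Ω) -
      x ^ p - y ^ p = (p : Ω) * (x * y) *
      ∑ k ∈ Finset.Ioo 0 p, x ^ (k - 1) * y ^ (p - k - 1) * ((p.choose k / p : ℕ) : Ω) := by
    ring
  rw [e, map_mul, map_mul, map_mul]
  gcongr
  refine Valuation.map_sum_le W fun k hk => ?_
  rw [Finset.mem_Ioo] at hk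
  rw [map_mul, map_mul, map_pow, map_pow]
  calc W x ^ (k - 1) * W y ^ (p - k - 1) * W ((p.choose k / p : ℕ) : Ω)
      ≤ M ^ (k - 1) * M ^ (p - k - 1) * 1 := by
        gcongr
        exact W_natCast_le W _
    _ = M ^ (p - 2) := by
        rw [mul_one, ← pow_add]
        congr 1
        omega

theorem fresh' {p : ℕ} (hp : p.Prime) {x y : Ω} {M : ℝ≥0} (hx : W x ≤ M) (hy : W y ≤ M) :
    W ((x + y) ^ p - x ^ p - y ^ p) ≤ W (p : Ω) * M ^ p := by
  refine (fresh W hp hx hy).trans ?_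
  have h2 : 2 ≤ p := hp.two_le
  calc W (p : Ω) * (W x * W y) * M ^ (p - 2) ≤ W (p : Ω) * (M * M) * M ^ (p - 2) := by gcongr
    _ = W (p : Ω) * M ^ p := by
        rw [mul_assoc, ← pow_two, ← pow_add]
        congr 2
        omega

theorem fresh_sub {p : ℕ} (hp : p.Prime) {x y : Ω} {M : ℝ≥0} (hx : W x ≤ M) (hy : W y ≤ M) :
    W ((x - y) ^ p - x ^ p + y ^ p) ≤ W (p : Ω) * M ^ p := by
  have h1 := fresh' W hp (x := x - y) (y := y) (M := M) ((Valuation.map_sub W _ _).trans
    (max_le hx hy)) hy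
  have e : (x - y) ^ p - x ^ p + y ^ p = -((x - y + y) ^ p - (x - y) ^ p - y ^ p) := by
    rw [sub_add_cancel]; ring
  rw [e, Valuation.map_neg]
  exact h1

theorem fresh_sum {p : ℕ} (hp : p.Prime) {ι : Type*} (s : Finset ι) (f : ι → Ω) {M : ℝ≥0}
    (hf : ∀ i ∈ s, W (f i) ≤ M) :
    W ((∑ i ∈ s, f i) ^ p - ∑ i ∈ s, f i ^ p) ≤ W (p : Ω) * M ^ p := by
  classical
  induction s using Finset.induction_on with
  | empty => simp [hp.ne_zero]
  | insert a s ha ih =>
    rw [Finset.sum_insert ha, Finset.sum_insert ha]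
    have h1 := ih fun i hi => hf i (Finset.mem_insert_of_mem hi)
    have h2 := fresh' W hp (x := f a) (y := ∑ i ∈ s, f i) (M := M)
      (hf a (Finset.mem_insert_self _ _))
      (Valuation.map_sum_le W fun i hi => hf i (Finset.mem_insert_of_mem hi))
    have e : (f a + ∑ i ∈ s, f i) ^ p - (f a ^ p + ∑ i ∈ s, f i ^ p) =
        ((f a + ∑ i ∈ s, f i) ^ p - f a ^ p - (∑ i ∈ s, f i) ^ p) +
        ((∑ i ∈ s, f i) ^ p - ∑ i ∈ s, f i ^ p) := by ring
    rw [e]
    exact Valuation.map_add_le W h2 h1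

end Basic

section Laurent

variable {C Ω : Type*} [Field C] [Field Ω] [Algebra C Ω] (W : Valuation Ω ℝ≥0)

/-- evaluation of a Laurent polynomial at `t` -/
noncomputable def ev (t : Ω) : (ℤ →₀ C) →ₗ[C] Ω :=
  Finsupp.linearCombination C (fun n : ℤ => t ^ n)

theorem ev_apply (t : Ω) (f : ℤ →₀ C) :
    ev t f = ∑ n ∈ f.support, algebraMap C Ω (f n) * t ^ n := by
  rw [ev, Finsupp.linearCombination_apply, Finsupp.sum]
  exact Finset.sum_congr rfl fun n _ => Algebra.smul_def _ _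

theorem ev_single (t : Ω) (n : ℤ) (c : C) :
    ev t (Finsupp.single n c) = algebraMap C Ω c * t ^ n := by
  rw [ev, Finsupp.linearCombination_single, Algebra.smul_def]

/-- `t` is a type 3 element: no nontrivial power has its value in `|C^*|` -/
structure T3 (C : Type*) {Ω : Type*} [Field C] [Field Ω] [Algebra C Ω] (W : Valuation Ω ℝ≥0)
    (t : Ω) : Prop where
  ne : t ≠ 0
  tor : ∀ (n : ℤ) (c : C), W t ^ n = W (algebraMap C Ω c) → n = 0

variable {W}

theorem T3.W_ne {t : Ω} (ht : T3 C W t) : W t ≠ 0 := (Valuation.ne_zero_iff W).2 ht.ne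

theorem T3.eq_of {t : Ω} (ht : T3 C W t) {m n : ℤ} {c d : C}
    (hd : algebraMap C Ω d ≠ 0)
    (h : W (algebraMap C Ω c) * W t ^ m = W (algebraMap C Ω d) * W t ^ n) : m = n := by
  have hW := ht.W_ne
  have h1 : W t ^ (n - m) = W (algebraMap C Ω (c / d)) := by
    rw [map_div₀, map_div₀, zpow_sub₀ hW]
    have hd' : W (algebraMap C Ω d) ≠ 0 := (Valuation.ne_zero_iff W).2 hd
    have hm : W t ^ m ≠ 0 := zpow_ne_zero _ hW
    field_simp
    rw [mul_comm (W t ^ n), ← h, mul_comm]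
  have := ht.tor _ _ h1
  omega

theorem T3.distinct {t : Ω} (ht : T3 C W t) (f : ℤ →₀ C) :
    ∀ i ∈ f.support, ∀ j ∈ f.support, i ≠ j → algebraMap C Ω (f i) * t ^ i ≠ 0 →
      W (algebraMap C Ω (f i) * t ^ i) ≠ W (algebraMap C Ω (f j) * t ^ j) := by
  intro i _ j hj hij _ h
  rw [map_mul, map_mul, map_zpow₀, map_zpow₀] at h
  have hfj : algebraMap C Ω (f j) ≠ 0 :=
    (_root_.map_ne_zero _).2 (Finsupp.mem_support_iff.1 hj)
  exact hij (ht.eq_of hfj h)

theorem T3.term_le {t : Ω} (ht : T3 C W t) (f : ℤ →₀ C) (n : ℤ) :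
    W (algebraMap C Ω (f n) * t ^ n) ≤ W (ev t f) := by
  by_cases hn : n ∈ f.support
  · rw [ev_apply]
    exact le_sum W f.support _ (ht.distinct f) n hn
  · rw [Finsupp.notMem_support_iff] at hn
    rw [hn, map_zero, zero_mul, map_zero]
    exact zero_le

theorem T3.exists_term {t : Ω} (ht : T3 C W t) (f : ℤ →₀ C) (hf : ev t f ≠ 0) :
    ∃ n : ℤ, f n ≠ 0 ∧ W (ev t f) = W (algebraMap C Ω (f n)) * W t ^ n := by
  rw [ev_apply] at hf ⊢
  obtain ⟨n, hn, -, h⟩ := exists_max_term W f.support _ (ht.distinct f) hf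
  exact ⟨n, Finsupp.mem_support_iff.1 hn, by rw [h, map_mul, map_zpow₀]⟩

theorem ev_le {t : Ω} (f : ℤ →₀ C) {M : ℝ≥0}
    (h : ∀ n, W (algebraMap C Ω (f n) * t ^ n) ≤ M) : W (ev t f) ≤ M := by
  rw [ev_apply]
  exact Valuation.map_sum_le W fun n _ => h n

/-- Laurent polynomials in `t` are dense in `S` -/
structure Dn (C : Type*) {Ω : Type*} [Field C] [Field Ω] [Algebra C Ω] (W : Valuation Ω ℝ≥0)
    (S : Set Ω) (t : Ω) : Prop where
  t3 : T3 C W t
  mem : t ∈ S
  dense : ∀ f ∈ S, ∀ ε : ℝ≥0, 0 < ε → ∃ g : ℤ →₀ C, W (f - ev t g) < ε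

/-- every value on `S` is the value of a monomial -/
def VG (C : Type*) {Ω : Type*} [Field C] [Field Ω] [Algebra C Ω] (W : Valuation Ω ℝ≥0)
    (S : Set Ω) (t : Ω) : Prop :=
  ∀ f ∈ S, f ≠ 0 → ∃ (c : C) (n : ℤ), c ≠ 0 ∧ W f = W (algebraMap C Ω c) * W t ^ n

theorem Dn.vg {S : Set Ω} {t : Ω} (h : Dn C W S t) : VG C W S t := by
  intro f hf hf0
  have hW : 0 < W f := zero_lt_iff.2 ((Valuation.ne_zero_iff W).2 hf0)
  obtain ⟨g, hg⟩ := h.dense f hf (W f) hW
  have h1 : W (ev t g) = W f := by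
    have := Valuation.map_eq_of_sub_lt W (x := f) (y := ev t g) (by rwa [Valuation.map_sub_swap])
    exact this
  have h2 : ev t g ≠ 0 := by
    intro h0
    rw [h0, map_zero] at h1
    exact hW.ne h1
  obtain ⟨n, hn, h3⟩ := h.t3.exists_term g h2
  exact ⟨g n, n, hn, by rw [← h1, h3]⟩

/-- elements of value at most one are congruent to constants -/
def RES (C : Type*) {Ω : Type*} [Field C] [Field Ω] [Algebra C Ω] (W : Valuation Ω ℝ≥0)
    (S : Set Ω) : Prop :=
  ∀ f ∈ S, W f ≤ 1 → ∃ c : C, W (f - algebraMap C Ω c) < 1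

theorem Dn.res {S : Set Ω} {t : Ω} (h : Dn C W S t) : RES C W S := by
  intro f hf hf1
  obtain ⟨g, hg⟩ := h.dense f hf 1 zero_lt_one
  refine ⟨g 0, ?_⟩
  have h1 : W (ev t g) ≤ 1 := by
    have : ev t g = f - (f - ev t g) := by ring
    rw [this]
    exact (Valuation.map_sub W _ _).trans (max_le hf1 hg.le)
  have h2 : W (ev t (g - Finsupp.single 0 (g 0))) < 1 := by
    rw [ev_apply]
    refine Valuation.map_sum_lt W one_ne_zero fun n hn => ?_
    have hn0 : n ≠ 0 := by
      rintro rfl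
      rw [Finsupp.mem_support_iff] at hn
      apply hn
      rw [Finsupp.sub_apply, Finsupp.single_eq_same, sub_self]
    have hgn : (g - Finsupp.single 0 (g 0) : ℤ →₀ C) n = g n := by
      rw [Finsupp.sub_apply, Finsupp.single_apply, if_neg hn0.symm, sub_zero]
    rw [hgn]
    refine lt_of_le_of_ne ((h.t3.term_le g n).trans h1) fun h3 => ?_
    rw [map_mul, map_zpow₀] at h3
    by_cases hg0 : g n = 0
    · rw [hg0, map_zero, map_zero, zero_mul] at h3
      exact zero_ne_one h3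
    · have h4 : W (algebraMap C Ω (g n)) * W t ^ n = W (algebraMap C Ω 1) * W t ^ (0 : ℤ) := by
        rw [h3, map_one, map_one, zpow_zero, mul_one]
      exact hn0 (h.t3.eq_of (by rw [map_one]; exact one_ne_zero) h4)
  rw [map_sub, ev_single, zpow_zero, mul_one] at h2
  have : f - algebraMap C Ω (g 0) = (f - ev t g) + (ev t g - algebraMap C Ω (g 0)) := by ring
  rw [this]
  exact Valuation.map_add_lt W hg h2

end Laurent

end Crest.Agent.R013.LU3_205
end

-- ▼ part R013/LU3b_205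
section

/-!
R013 / SS-LU3 (helper205), part 2.  Finite extensions of a field `F` in which the Laurent polynomials
in a type 3 element are dense: residues, generators of the value group, `e = degree` implies
density, tame case.
-/

set_option autoImplicit false
set_option linter.unusedSectionVars false

namespace Crest.Agent.R013.LU3_205

open scoped NNReal
open Polynomial Crest.Agent.R013.Hens_899

variable {C F Ω : Type*} [Field C] [Field F] [Field Ω] [Algebra C F] [Algebra F Ω] [Algebra C Ω]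
  [IsScalarTower C F Ω] {W : Valuation Ω ℝ≥0}

/-- residues of algebraic elements are constants -/
theorem res_alg [IsAlgClosed C] {t : Ω} (hD : Dn C W (Set.range (algebraMap F Ω)) t) {u : Ω}
    (hu : IsIntegral F u) (hu1 : W u ≤ 1) : ∃ c : C, W (u - algebraMap C Ω c) < 1 := by
  classical
  by_contra hcon
  push Not at hcon
  set Q := minpoly F u with hQ
  have hQ0 : Q ≠ 0 := minpoly.ne_zero hu
  have hne : (Finset.range (Q.natDegree + 1)).Nonempty := ⟨0, by simp⟩
  obtain ⟨i₀, hi₀, hmax⟩ := (Finset.range (Q.natDegree + 1)).exists_max_image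
    (fun i => W (algebraMap F Ω (Q.coeff i))) hne
  have hpos : W (algebraMap F Ω (Q.coeff i₀)) ≠ 0 := by
    intro h0
    have h1 := hmax Q.natDegree (by simp)
    rw [h0, le_zero_iff, map_eq_zero W, _root_.map_eq_zero, coeff_natDegree,
      leadingCoeff_eq_zero] at h1
    exact hQ0 h1
  set m : Ω := algebraMap F Ω (Q.coeff i₀) with hm
  have hm0 : m ≠ 0 := (Valuation.ne_zero_iff W).1 hpos
  -- normalised coefficients
  have hN1 : ∀ i, W (algebraMap F Ω (Q.coeff i) / m) ≤ 1 := by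
    intro i
    rw [map_div₀, div_le_one₀ (zero_lt_iff.2 hpos)]
    by_cases hi : i ∈ Finset.range (Q.natDegree + 1)
    · exact hmax i hi
    · rw [Finset.mem_range, not_lt] at hi
      rw [coeff_eq_zero_of_natDegree_lt (by omega), map_zero, map_zero]
      exact zero_le
  have hd : ∀ i, ∃ d : C, W (algebraMap F Ω (Q.coeff i) / m - algebraMap C Ω d) < 1 ∧
      (W (algebraMap F Ω (Q.coeff i) / m) < 1 → d = 0) := by
    intro i
    by_cases h1 : W (algebraMap F Ω (Q.coeff i) / m) < 1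
    · exact ⟨0, by rwa [map_zero, sub_zero], fun _ => rfl⟩
    · obtain ⟨d, hd⟩ := hD.res (algebraMap F Ω (Q.coeff i) / m)
        ⟨Q.coeff i / Q.coeff i₀, by rw [map_div₀]⟩ (hN1 i)
      exact ⟨d, hd, fun h => absurd h h1⟩
  choose d hd1 hd2 using hd
  set D : C[X] := ∑ i ∈ Finset.range (Q.natDegree + 1), Polynomial.C (d i) * X ^ i with hDdef
  have hDcoeff : ∀ i ∈ Finset.range (Q.natDegree + 1), D.coeff i = d i := by
    intro i hi
    rw [hDdef, finsetSum_coeff]
    simp only [coeff_C_mul, coeff_X_pow]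
    rw [Finset.sum_eq_single_of_mem i hi]
    · simp
    · intro j _ hj
      simp [Ne.symm hj]
  have hDne : ∀ i, d i ≠ 0 → W (algebraMap C Ω (d i)) = 1 := by
    intro i hi
    have h1 : ¬ W (algebraMap F Ω (Q.coeff i) / m) < 1 := fun h => hi (hd2 i h)
    have h2 : W (algebraMap F Ω (Q.coeff i) / m) = 1 := le_antisymm (hN1 i) (not_lt.1 h1)
    have h3 := Valuation.map_eq_of_sub_lt W (x := algebraMap F Ω (Q.coeff i) / m)
      (y := algebraMap C Ω (d i)) (by rw [h2, Valuation.map_sub_swap]; exact hd1 i)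
    rw [h3, h2]
  have hdi₀ : d i₀ ≠ 0 := by
    intro h
    have h1 := hd1 i₀
    rw [h, map_zero, sub_zero, div_self hm0, map_one] at h1
    exact lt_irrefl _ h1
  have hD0 : D ≠ 0 := by
    intro h
    have := hDcoeff i₀ hi₀
    rw [h, coeff_zero] at this
    exact hdi₀ this.symm
  have hDdeg : D.natDegree ∈ Finset.range (Q.natDegree + 1) := by
    by_contra hcon'
    have h1 : D.coeff D.natDegree = 0 := by
      rw [hDdef, finsetSum_coeff]
      refine Finset.sum_eq_zero fun j hj => ?_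
      rw [coeff_C_mul, coeff_X_pow, if_neg, mul_zero]
      rintro h
      rw [← hDdef] at h
      exact hcon' (h ▸ hj)
    rw [coeff_natDegree, leadingCoeff_eq_zero] at h1
    exact hD0 h1
  have hlead : W (algebraMap C Ω D.leadingCoeff) = 1 := by
    have h1 : D.leadingCoeff = d D.natDegree := by
      rw [leadingCoeff, hDcoeff _ hDdeg]
    rw [h1]
    refine hDne _ ?_
    rw [← h1]
    exact leadingCoeff_ne_zero.2 hD0
  -- the value of `D` at `u` is small
  have hsmall : W (aeval u D) < 1 := by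
    have e0 : ∑ i ∈ Finset.range (Q.natDegree + 1), algebraMap F Ω (Q.coeff i) * u ^ i = 0 := by
      rw [← minpoly.aeval F u, ← hQ, aeval_eq_sum_range]
      simp [Algebra.smul_def]
    have e1 : aeval u D = ∑ i ∈ Finset.range (Q.natDegree + 1),
        (-(algebraMap F Ω (Q.coeff i) / m - algebraMap C Ω (d i)) * u ^ i) := by
      have e2 : ∑ i ∈ Finset.range (Q.natDegree + 1),
          (-(algebraMap F Ω (Q.coeff i) / m - algebraMap C Ω (d i)) * u ^ i) =
          -(∑ i ∈ Finset.range (Q.natDegree + 1), algebraMap F Ω (Q.coeff i) * u ^ i) / m +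
          ∑ i ∈ Finset.range (Q.natDegree + 1), algebraMap C Ω (d i) * u ^ i := by
        rw [neg_div, Finset.sum_div, ← Finset.sum_neg_distrib, ← Finset.sum_add_distrib]
        refine Finset.sum_congr rfl fun i _ => ?_
        ring
      rw [e2, e0, hDdef, map_sum]
      simp
    rw [e1]
    refine Valuation.map_sum_lt W one_ne_zero fun i _ => ?_
    rw [map_mul, Valuation.map_neg, map_pow]
    calc _ ≤ W (algebraMap F Ω (Q.coeff i) / m - algebraMap C Ω (d i)) * 1 :=
          mul_le_mul' le_rfl (pow_le_one' hu1 i)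
      _ < 1 := by rw [mul_one]; exact hd1 i
  have hprod : aeval u D = algebraMap C Ω D.leadingCoeff *
      (D.roots.map fun a => u - algebraMap C Ω a).prod := by
    conv_lhs => rw [(IsAlgClosed.splits D).eq_prod_roots]
    rw [map_mul, aeval_C, map_multiset_prod, Multiset.map_map]
    simp
  rw [hprod, map_mul, hlead, one_mul] at hsmall
  have hge : ∀ s : Multiset C, 1 ≤ W ((s.map fun a => u - algebraMap C Ω a).prod) := by
    intro s
    induction s using Multiset.induction with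
    | empty => simp
    | cons a s ih =>
      rw [Multiset.map_cons, Multiset.prod_cons, map_mul]
      exact one_le_mul (hcon a) ih
  exact absurd hsmall (not_lt.2 (hge _))

/-- an `n`-th root in `C` on the level of values -/
theorem exists_root_val [IsAlgClosed C] {N : ℕ} (hN : N ≠ 0) {c : C} (hc : c ≠ 0) {u v : Ω}
    (h : W u ^ N = W (algebraMap C Ω c) * W v ^ N) :
    ∃ c' : C, c' ≠ 0 ∧ W u = W (algebraMap C Ω c') * W v := by
  obtain ⟨c', hc'⟩ := IsAlgClosed.exists_pow_nat_eq c (Nat.pos_of_ne_zero hN)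
  refine ⟨c', ?_, ?_⟩
  · rintro rfl
    rw [zero_pow hN] at hc'
    exact hc hc'.symm
  · rw [← hc', map_pow, map_pow, ← mul_pow] at h
    exact (pow_left_inj₀ zero_le zero_le hN).1 h

/-- generators of the value group of a finite extension -/
theorem exists_vgen [IsAlgClosed C] {t : Ω} (h3 : T3 C W t)
    (hV : VG C W (Set.range (algebraMap F Ω)) t) (htF : t ∈ Set.range (algebraMap F Ω))
    (L : IntermediateField F Ω) [FiniteDimensional F L] :
    ∃ z ∈ L, T3 C W z ∧ VG C W (L : Set Ω) z ∧ ∃ e : ℕ, 1 ≤ e ∧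
      ∃ c : C, c ≠ 0 ∧ W t = W (algebraMap C Ω c) * W z ^ e := by
  classical
  have hWt := h3.W_ne
  have htL : t ∈ L := by
    obtain ⟨t', rfl⟩ := htF
    exact L.algebraMap_mem t'
  set N := (Module.finrank F L).factorial with hNdef
  have hN0 : N ≠ 0 := Nat.factorial_ne_zero _
  -- every value is an `N`-th root
  have key : ∀ y ∈ L, y ≠ 0 → ∃ (n : ℤ) (c : C), c ≠ 0 ∧
      W y ^ N = W (algebraMap C Ω c) * W t ^ n := by
    intro y hy hy0
    obtain ⟨m, hm0, hm, a, ha0, ha⟩ := Crest.Agent.R013.Places_97.exists_pow_mem (F := F)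
      (W.comap (algebraMap L Ω)) (⟨y, hy⟩ : L) (fun h => hy0 (congrArg Subtype.val h))
    have hmN : m ∣ N := Nat.dvd_factorial hm0 hm
    obtain ⟨k, hk⟩ := hmN
    rw [Valuation.comap_apply, Valuation.comap_apply] at ha
    have ha' : W y ^ m = W (algebraMap F Ω a) := ha
    obtain ⟨c, n, hc, hcn⟩ := hV (algebraMap F Ω a) ⟨a, rfl⟩ (by simpa using ha0)
    refine ⟨n * k, c ^ k, pow_ne_zero _ hc, ?_⟩
    rw [hk, pow_mul, ha', hcn, mul_pow, map_pow, map_pow, zpow_mul, zpow_natCast]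
  let I : AddSubgroup ℤ :=
    { carrier := {n | ∃ y ∈ L, y ≠ 0 ∧ ∃ c : C, c ≠ 0 ∧
        W y ^ N = W (algebraMap C Ω c) * W t ^ n}
      zero_mem' := ⟨1, L.one_mem, one_ne_zero, 1, one_ne_zero, by simp⟩
      add_mem' := by
        rintro a b ⟨y, hy, hy0, c, hc, h⟩ ⟨y', hy', hy0', c', hc', h'⟩
        refine ⟨y * y', L.mul_mem hy hy', mul_ne_zero hy0 hy0', c * c', mul_ne_zero hc hc', ?_⟩
        rw [map_mul, mul_pow, h, h', map_mul, map_mul, zpow_add₀ hWt]
        ring
      neg_mem' := by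
        rintro a ⟨y, hy, hy0, c, hc, h⟩
        refine ⟨y⁻¹, L.inv_mem hy, inv_ne_zero hy0, c⁻¹, inv_ne_zero hc, ?_⟩
        rw [map_inv₀, inv_pow, h, map_inv₀, map_inv₀, mul_inv, zpow_neg] }
  have hNI : (N : ℤ) ∈ I := ⟨t, htL, h3.ne, 1, one_ne_zero, by simp⟩
  obtain ⟨a, ha⟩ := Int.subgroup_cyclic I
  have hdvd : ∀ n : ℤ, n ∈ I ↔ (a.natAbs : ℤ) ∣ n := by
    intro n
    rw [ha, AddSubgroup.mem_closure_singleton, Int.natAbs_dvd]
    constructor
    · rintro ⟨k, rfl⟩
      exact ⟨k, by rw [smul_eq_mul, mul_comm]⟩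
    · rintro ⟨k, rfl⟩
      exact ⟨k, by rw [smul_eq_mul, mul_comm]⟩
  set d := a.natAbs with hd
  have hdN : d ∣ N := by
    have := (hdvd N).1 hNI
    exact_mod_cast this
  obtain ⟨e, he⟩ := hdN
  have hd0 : d ≠ 0 := by
    rintro h
    rw [h, zero_mul] at he
    exact hN0 he
  have he0 : e ≠ 0 := by
    rintro h
    rw [h, mul_zero] at he
    exact hN0 he
  obtain ⟨z, hz, hz0, c₀, hc₀, hzN⟩ := (hdvd d).2 dvd_rfl
  have hWz : W z ≠ 0 := (Valuation.ne_zero_iff W).2 hz0
  have hWc₀ : W (algebraMap C Ω c₀) ≠ 0 :=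
    (Valuation.ne_zero_iff W).2 ((_root_.map_ne_zero _).2 hc₀)
  have hzk : ∀ k : ℤ, (W z ^ k) ^ N = W (algebraMap C Ω c₀) ^ k * W t ^ ((d : ℤ) * k) := by
    intro k
    rw [← zpow_natCast, zpow_comm, zpow_natCast, hzN, mul_zpow, zpow_mul]
  refine ⟨z, hz, ⟨hz0, ?_⟩, ?_, e, Nat.pos_of_ne_zero he0, ?_⟩
  · intro n c hn
    have h1 := hzk n
    rw [hn] at h1
    have h2 : W t ^ ((d : ℤ) * n) = W (algebraMap C Ω (c ^ N / c₀ ^ n)) := by
      rw [map_div₀, map_div₀, map_pow, map_pow, map_zpow₀, map_zpow₀, h1,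
        mul_div_cancel_left₀ _ (zpow_ne_zero _ hWc₀)]
    have h3' := h3.tor _ _ h2
    rcases mul_eq_zero.1 h3' with h | h
    · exact absurd (by exact_mod_cast h) hd0
    · exact h
  · intro y hy hy0
    obtain ⟨n, c, hc, hn⟩ := key y hy hy0
    obtain ⟨k, hk⟩ := (hdvd n).1 ⟨y, hy, hy0, c, hc, hn⟩
    have h1 : W y ^ N = W (algebraMap C Ω (c / c₀ ^ k)) * W (z ^ k) ^ N := by
      rw [map_zpow₀, hzk, hn, hk, map_div₀, map_div₀, map_zpow₀, map_zpow₀]
      field_simp
    obtain ⟨c', hc', h2⟩ := exists_root_val hN0 (div_ne_zero hc (zpow_ne_zero _ hc₀)) h1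
    exact ⟨c', k, hc', by rw [h2, map_zpow₀]⟩
  · have h1 : W t ^ N = W (algebraMap C Ω (c₀ ^ e)⁻¹) * W (z ^ e) ^ N := by
      have h2 := hzk e
      rw [zpow_natCast, zpow_natCast] at h2
      rw [map_pow, h2, map_inv₀, map_inv₀, map_pow, map_pow, ← mul_assoc,
        inv_mul_cancel₀ (pow_ne_zero _ hWc₀), one_mul]
      have : ((d : ℤ) * (e : ℤ)) = ((N : ℕ) : ℤ) := by rw [he]; push_cast; ring
      rw [this, zpow_natCast]
    obtain ⟨c', hc', h2⟩ := exists_root_val hN0 (inv_ne_zero (pow_ne_zero _ hc₀)) h1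
    exact ⟨c', hc', by rw [h2, map_pow]⟩

theorem dense_of_contract {S : Set Ω} {z : Ω} (hS : ∀ f ∈ S, ∀ g : ℤ →₀ C, f - ev z g ∈ S)
    {γ : ℝ≥0} (hγ : γ < 1)
    (h : ∀ f ∈ S, ∀ η : ℝ≥0, 0 < η → ∃ g : ℤ →₀ C, W (f - ev z g) ≤ max (γ * W f) η) :
    ∀ f ∈ S, ∀ ε : ℝ≥0, 0 < ε → ∃ g : ℤ →₀ C, W (f - ev z g) < ε := by
  intro f hf ε hε
  have hη : 0 < ε / 2 := half_pos hε
  have key : ∀ k : ℕ, ∃ g : ℤ →₀ C, W (f - ev z g) ≤ max (γ ^ k * W f) (ε / 2) := by
    intro k
    induction k with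
    | zero => exact ⟨0, by rw [map_zero, sub_zero, pow_zero, one_mul]; exact le_max_left _ _⟩
    | succ k ih =>
      obtain ⟨g, hg⟩ := ih
      obtain ⟨g', hg'⟩ := h _ (hS f hf g) (ε / 2) hη
      refine ⟨g + g', ?_⟩
      rw [map_add, ← sub_sub]
      refine hg'.trans (max_le ?_ (le_max_right _ _))
      calc γ * W (f - ev z g) ≤ γ * max (γ ^ k * W f) (ε / 2) := mul_le_mul' le_rfl hg
        _ = max (γ ^ (k + 1) * W f) (γ * (ε / 2)) := by
            rw [mul_max, pow_succ']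
            congr 1
            ring
        _ ≤ max (γ ^ (k + 1) * W f) (ε / 2) :=
            max_le_max le_rfl (mul_le_of_le_one_left' hγ.le)
  have hlt : ∃ k : ℕ, γ ^ k * W f < ε := by
    by_cases h0 : W f = 0
    · exact ⟨0, by rw [h0, mul_zero]; exact hε⟩
    · obtain ⟨k, hk⟩ := NNReal.exists_pow_lt_of_lt_one (div_pos hε (zero_lt_iff.2 h0)) hγ
      exact ⟨k, (lt_div_iff₀ (zero_lt_iff.2 h0)).1 hk⟩
  obtain ⟨k, hk⟩ := hlt
  obtain ⟨g, hg⟩ := key k
  exact ⟨g, hg.trans_lt (max_lt hk (NNReal.half_lt_self hε.ne'))⟩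

theorem zpow_near {x y : Ω} {γ : ℝ≥0} (hγ : γ < 1) (hy : y ≠ 0) (h : W (x - y) ≤ γ * W y)
    (n : ℤ) : W (x ^ n - y ^ n) ≤ γ * W y ^ n := by
  have hWy : 0 < W y := zero_lt_iff.2 ((Valuation.ne_zero_iff W).2 hy)
  set ξ := x / y with hξ
  have h1 : W (ξ - 1) ≤ γ := by
    have e : ξ - 1 = (x - y) / y := by rw [hξ]; field_simp
    rw [e, map_div₀, div_le_iff₀ hWy]
    exact h
  have h2 : W ξ = 1 := by
    have := Valuation.map_one_add_of_lt (v := W) (x := ξ - 1) (h1.trans_lt hγ)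
    rwa [add_sub_cancel] at this
  have hξ0 : ξ ≠ 0 := by
    intro h0
    rw [h0, map_zero] at h2
    exact zero_ne_one h2
  have h3 : ∀ n : ℕ, W (ξ ^ n - 1) ≤ γ := by
    intro n
    induction n with
    | zero => simp
    | succ n ih =>
      have e : ξ ^ (n + 1) - 1 = ξ * (ξ ^ n - 1) + (ξ - 1) := by ring
      rw [e]
      refine Valuation.map_add_le W ?_ h1
      rw [map_mul, h2, one_mul]
      exact ih
  have h4 : W (ξ ^ n - 1) ≤ γ := by
    obtain ⟨m, rfl | rfl⟩ := n.eq_nat_or_neg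
    · rw [zpow_natCast]; exact h3 m
    · rw [zpow_neg, zpow_natCast]
      have e : (ξ ^ m)⁻¹ - 1 = -((ξ ^ m - 1) * (ξ ^ m)⁻¹) := by
        have := pow_ne_zero m hξ0
        field_simp
        ring
      rw [e, Valuation.map_neg, map_mul, map_inv₀, map_pow, h2, one_pow, inv_one, mul_one]
      exact h3 m
  have e : x ^ n - y ^ n = (ξ ^ n - 1) * y ^ n := by
    rw [hξ, div_zpow, sub_mul, div_mul_cancel₀ _ (zpow_ne_zero _ hy), one_mul]
  rw [e, map_mul, map_zpow₀]
  exact mul_le_mul' h4 le_rfl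

/-- substitution of `t ≈ c z ^ e` in a Laurent polynomial -/
theorem subst_near {t z : Ω} {c : C} {e : ℕ} {γ : ℝ≥0} (hγ : γ < 1) (ht : T3 C W t)
    (hcz : algebraMap C Ω c * z ^ e ≠ 0) (hWt : W t = W (algebraMap C Ω c * z ^ e))
    (h : W (t - algebraMap C Ω c * z ^ e) ≤ γ * W t) (g : ℤ →₀ C) (i : ℕ) :
    ∃ G : ℤ →₀ C, W (ev t g * z ^ i - ev z G) ≤ γ * (W (ev t g) * W z ^ i) := by
  classical
  have hc : algebraMap C Ω c ≠ 0 := left_ne_zero_of_mul hcz
  refine ⟨∑ n ∈ g.support, Finsupp.single ((e : ℤ) * n + i) (g n * c ^ n), ?_⟩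
  have e1 : ev t g * z ^ i - ev z (∑ n ∈ g.support,
      Finsupp.single ((e : ℤ) * n + i) (g n * c ^ n)) = ∑ n ∈ g.support,
      algebraMap C Ω (g n) * (t ^ n - (algebraMap C Ω c * z ^ e) ^ n) * z ^ i := by
    rw [map_sum, ev_apply, Finset.sum_mul, ← Finset.sum_sub_distrib]
    refine Finset.sum_congr rfl fun n _ => ?_
    rw [ev_single, map_mul, map_zpow₀, mul_zpow]
    by_cases hz : z = 0
    · subst hz
      have he : e = 0 := by
        by_contra he
        exact hcz (by rw [zero_pow he, mul_zero])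
      subst he
      by_cases hi : i = 0
      · subst hi; simp; ring
      · simp [hi]
    · rw [zpow_add₀ hz, zpow_mul, zpow_natCast, zpow_natCast]
      ring
  rw [e1]
  refine Valuation.map_sum_le W fun n _ => ?_
  rw [map_mul, map_mul, map_pow]
  have h2 := zpow_near hγ hcz (by rw [← hWt]; exact h) n
  rw [← hWt] at h2
  have h3 := ht.term_le g n
  rw [map_mul, map_zpow₀] at h3
  calc W (algebraMap C Ω (g n)) * W (t ^ n - (algebraMap C Ω c * z ^ e) ^ n) * W z ^ i
      ≤ W (algebraMap C Ω (g n)) * (γ * W t ^ n) * W z ^ i := by gcongr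
    _ = γ * ((W (algebraMap C Ω (g n)) * W t ^ n) * W z ^ i) := by ring
    _ ≤ γ * (W (ev t g) * W z ^ i) := by gcongr

theorem ev_mem {L : IntermediateField F Ω} {z : Ω} (hz : z ∈ L) (g : ℤ →₀ C) : ev z g ∈ L := by
  rw [ev_apply]
  refine L.sum_mem fun n _ => L.mul_mem ?_ (L.pow_mem hz n)
  rw [IsScalarTower.algebraMap_apply C F Ω]
  exact L.algebraMap_mem _

/-- **density**: a generator of the value group of an extension with `e = degree` is a coordinate -/
theorem gen_dense [IsAlgClosed C] {t : Ω} (hD : Dn C W (Set.range (algebraMap F Ω)) t)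
    (L : IntermediateField F Ω) [FiniteDimensional F L] {z : Ω} (hz : z ∈ L) (h3 : T3 C W z)
    {e : ℕ} {c : C} (hc : c ≠ 0) (hc' : W t = W (algebraMap C Ω c) * W z ^ e)
    (he : Module.finrank F L ≤ e) : Dn C W (L : Set Ω) z := by
  classical
  have hWz := h3.W_ne
  have hWzpos : 0 < W z := zero_lt_iff.2 hWz
  have hWt : 0 < W t := zero_lt_iff.2 hD.t3.W_ne
  have he1 : 1 ≤ e := le_trans Module.finrank_pos he
  have hcΩ : algebraMap C Ω c ≠ 0 := (_root_.map_ne_zero _).2 hc
  have htL : t ∈ L := by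
    obtain ⟨t', ht'⟩ := hD.mem
    rw [← ht']
    exact L.algebraMap_mem t'
  have hCL : ∀ c : C, algebraMap C Ω c ∈ L := fun c => by
    rw [IsScalarTower.algebraMap_apply C F Ω]
    exact L.algebraMap_mem _
  have hint : ∀ y ∈ L, IsIntegral F y := fun y hy =>
    (Algebra.IsIntegral.isIntegral (R := F) (⟨y, hy⟩ : L)).map L.val
  -- `t ≈ c₁ z ^ e`
  obtain ⟨c₁, hc₁0, hc₁⟩ : ∃ c₁ : C, c₁ ≠ 0 ∧ W (t - algebraMap C Ω c₁ * z ^ e) < W t := by
    have hu : t / (algebraMap C Ω c * z ^ e) ∈ L :=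
      L.div_mem htL (L.mul_mem (hCL c) (pow_mem hz e))
    have hWcz : W (algebraMap C Ω c * z ^ e) = W t := by rw [hc', map_mul, map_pow]
    have hu1 : W (t / (algebraMap C Ω c * z ^ e)) = 1 := by
      rw [map_div₀, hWcz, div_self hWt.ne']
    obtain ⟨c', hc''⟩ := res_alg hD (hint _ hu) hu1.le
    refine ⟨c' * c, mul_ne_zero ?_ hc, ?_⟩
    · rintro rfl
      rw [map_zero, sub_zero, hu1] at hc''
      exact lt_irrefl _ hc''
    · have hcz0 : algebraMap C Ω c * z ^ e ≠ 0 := mul_ne_zero hcΩ (pow_ne_zero _ h3.ne)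
      have e1 : t - algebraMap C Ω (c' * c) * z ^ e =
          (t / (algebraMap C Ω c * z ^ e) - algebraMap C Ω c') * (algebraMap C Ω c * z ^ e) := by
        rw [sub_mul, div_mul_cancel₀ _ hcz0, map_mul]
        ring
      rw [e1, map_mul, hWcz]
      calc _ < 1 * W t := mul_lt_mul_of_pos_right hc'' hWt
        _ = W t := one_mul _
  have hc₁Ω : algebraMap C Ω c₁ ≠ 0 := (_root_.map_ne_zero _).2 hc₁0
  have hcz : algebraMap C Ω c₁ * z ^ e ≠ 0 := mul_ne_zero hc₁Ω (pow_ne_zero _ h3.ne)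
  set γ := W (t - algebraMap C Ω c₁ * z ^ e) / W t with hγdef
  have hγ : γ < 1 := (div_lt_one₀ hWt).2 hc₁
  have hγt : W (t - algebraMap C Ω c₁ * z ^ e) ≤ γ * W t := by
    rw [hγdef, div_mul_cancel₀ _ hWt.ne']
  have hWtz : W t = W (algebraMap C Ω c₁ * z ^ e) :=
    (Valuation.map_eq_of_sub_lt W (x := t) (y := algebraMap C Ω c₁ * z ^ e)
      (by rwa [Valuation.map_sub_swap])).symm
  -- values of `a z ^ i`
  have hval : ∀ (a : F) (i : ℕ), a ≠ 0 → ∃ (d : C) (n : ℤ), d ≠ 0 ∧
      W (algebraMap F Ω a * z ^ i) = W (algebraMap C Ω d) * W z ^ ((e : ℤ) * n + i) := by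
    intro a i ha
    obtain ⟨d, n, hd, hn⟩ := hD.vg (algebraMap F Ω a) ⟨a, rfl⟩ (by simpa using ha)
    refine ⟨d * c ^ n, n, mul_ne_zero hd (zpow_ne_zero _ hc), ?_⟩
    rw [map_mul, map_pow, hn, hc', mul_zpow, map_mul, map_mul, map_zpow₀, map_zpow₀,
      zpow_add₀ hWz, zpow_mul, zpow_natCast, zpow_natCast]
    ring
  have hdist : ∀ a : Fin e → F, ∀ i ∈ (Finset.univ : Finset (Fin e)), ∀ j ∈ Finset.univ, i ≠ j →
      algebraMap F Ω (a i) * z ^ (i : ℕ) ≠ 0 →
      W (algebraMap F Ω (a i) * z ^ (i : ℕ)) ≠ W (algebraMap F Ω (a j) * z ^ (j : ℕ)) := by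
    intro a i _ j _ hij hi0 heq
    have hai : a i ≠ 0 := by
      intro h
      rw [h, map_zero, zero_mul] at hi0
      exact hi0 rfl
    have haj : a j ≠ 0 := by
      intro h
      rw [h, map_zero, zero_mul, map_zero, map_eq_zero W] at heq
      exact hi0 heq
    obtain ⟨d, n, hd, hn⟩ := hval (a i) i hai
    obtain ⟨d', n', hd', hn'⟩ := hval (a j) j haj
    rw [hn, hn'] at heq
    have h4 := h3.eq_of ((_root_.map_ne_zero _).2 hd') heq
    have h5 : ((i : ℕ) : ℤ) % e = ((j : ℕ) : ℤ) % e := by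
      have := congrArg (· % (e : ℤ)) h4
      simpa using this
    rw [Int.emod_eq_of_lt (by positivity) (by exact_mod_cast i.2),
      Int.emod_eq_of_lt (by positivity) (by exact_mod_cast j.2)] at h5
    exact hij (Fin.ext (by exact_mod_cast h5))
  -- the powers of `z` form a basis
  have hli : LinearIndependent F (fun i : Fin e => (⟨z, hz⟩ : L) ^ (i : ℕ)) := by
    rw [Fintype.linearIndependent_iff]
    intro a ha i
    have ha' : ∑ j : Fin e, algebraMap F Ω (a j) * z ^ (j : ℕ) = 0 := by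
      have := congrArg (algebraMap L Ω) ha
      rw [map_sum, map_zero] at this
      rw [← this]
      refine Finset.sum_congr rfl fun j _ => ?_
      rw [Algebra.smul_def, map_mul, map_pow]
      rfl
    have h4 := le_sum W Finset.univ _ (hdist a) i (Finset.mem_univ i)
    rw [ha', map_zero, le_zero_iff, map_eq_zero W] at h4
    rcases mul_eq_zero.1 h4 with h | h
    · simpa using h
    · exact absurd h (pow_ne_zero _ h3.ne)
  have hcard : Fintype.card (Fin e) = Module.finrank F L := by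
    refine le_antisymm hli.fintype_card_le_finrank ?_
    rwa [Fintype.card_fin]
  have hspan : ∀ y ∈ L, ∃ a : Fin e → F, y = ∑ j : Fin e, algebraMap F Ω (a j) * z ^ (j : ℕ) := by
    intro y hy
    have h4 : (⟨y, hy⟩ : L) ∈ Submodule.span F
        (Set.range (fun i : Fin e => (⟨z, hz⟩ : L) ^ (i : ℕ))) := by
      have : Nonempty (Fin e) := ⟨⟨0, he1⟩⟩
      rw [hli.span_eq_top_of_card_eq_finrank hcard]
      trivial
    rw [Submodule.mem_span_range_iff_exists_fun] at h4
    obtain ⟨a, ha⟩ := h4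
    refine ⟨a, ?_⟩
    have := congrArg (algebraMap L Ω) ha
    rw [map_sum] at this
    have h5 : algebraMap L Ω ⟨y, hy⟩ = y := rfl
    rw [h5] at this
    rw [← this]
    refine Finset.sum_congr rfl fun j _ => ?_
    rw [Algebra.smul_def, map_mul, map_pow]
    rfl
  refine ⟨h3, hz, ?_⟩
  refine dense_of_contract (γ := γ) (fun f hf g => L.sub_mem hf (ev_mem hz g)) hγ ?_
  intro f hf η hη
  obtain ⟨a, rfl⟩ := hspan f hf
  have hterm : ∀ i : Fin e, W (algebraMap F Ω (a i) * z ^ (i : ℕ)) ≤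
      W (∑ j : Fin e, algebraMap F Ω (a j) * z ^ (j : ℕ)) := fun i =>
    le_sum W Finset.univ _ (hdist a) i (Finset.mem_univ i)
  set M := W (∑ j : Fin e, algebraMap F Ω (a j) * z ^ (j : ℕ)) with hM
  have happ : ∀ i : Fin e, ∃ G : ℤ →₀ C,
      W (algebraMap F Ω (a i) * z ^ (i : ℕ) - ev z G) ≤ max (γ * M) η := by
    intro i
    have hzi : 0 < W z ^ (i : ℕ) := pow_pos hWzpos _
    obtain ⟨g, hg⟩ := hD.dense (algebraMap F Ω (a i)) ⟨a i, rfl⟩ (η / W z ^ (i : ℕ))
      (div_pos hη hzi)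
    obtain ⟨G, hG⟩ := subst_near hγ hD.t3 hcz hWtz hγt g (i : ℕ)
    refine ⟨G, ?_⟩
    have h5 : W ((algebraMap F Ω (a i) - ev t g) * z ^ (i : ℕ)) ≤ η := by
      rw [map_mul, map_pow]
      exact ((lt_div_iff₀ hzi).1 hg).le
    have h6 : W (ev t g * z ^ (i : ℕ)) ≤ max M η := by
      have e1 : ev t g * z ^ (i : ℕ) = algebraMap F Ω (a i) * z ^ (i : ℕ) -
          (algebraMap F Ω (a i) - ev t g) * z ^ (i : ℕ) := by ring
      rw [e1]
      exact (Valuation.map_sub W _ _).trans (max_le_max (hterm i) h5)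
    have e2 : algebraMap F Ω (a i) * z ^ (i : ℕ) - ev z G =
        (algebraMap F Ω (a i) - ev t g) * z ^ (i : ℕ) + (ev t g * z ^ (i : ℕ) - ev z G) := by ring
    rw [e2]
    refine Valuation.map_add_le W (h5.trans (le_max_right _ _)) (hG.trans ?_)
    rw [← map_pow, ← map_mul]
    calc γ * W (ev t g * z ^ (i : ℕ)) ≤ γ * max M η := mul_le_mul' le_rfl h6
      _ = max (γ * M) (γ * η) := mul_max _ _ _
      _ ≤ max (γ * M) η := max_le_max le_rfl (mul_le_of_le_one_left' hγ.le)
  choose G hG using happ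
  refine ⟨∑ i, G i, ?_⟩
  rw [map_sum, ← Finset.sum_sub_distrib]
  exact Valuation.map_sum_le W fun i _ => hG i

end Crest.Agent.R013.LU3_205
end

-- ▼ part R013/LU3c_205
section

/-!
R013 / SS-LU3 (helper205), part 3.  A cyclic extension of degree `p` (= residue characteristic) of a
henselian field with dense Laurent polynomials in a type 3 element is not immediate.
-/

set_option autoImplicit false
set_option linter.unusedSectionVars false

namespace Crest.Agent.R013.LU3_205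

open scoped NNReal
open Polynomial

section Fresh

variable {Ω : Type*} [Field Ω] (W : Valuation Ω ℝ≥0)

/-- refined freshman's dream -/
theorem fresh2 {p : ℕ} (hp : p.Prime) {x y : Ω} (hx : W x ≤ 1) (hy : W y ≤ 1) :
    W ((x + y) ^ p - x ^ p - y ^ p - (p : Ω) * x * y ^ (p - 1)) ≤ W (p : Ω) * W x ^ 2 := by
  have h2 : 2 ≤ p := hp.two_le
  rw [add_pow_prime_eq hp]
  have hI : Finset.Ioo 0 p = insert 1 (Finset.Ioo 1 p) := by
    ext k
    simp only [Finset.mem_Ioo, Finset.mem_insert]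
    omega
  have hterm : ((p.choose 1 / p : ℕ) : Ω) = 1 := by
    rw [Nat.choose_one_right, Nat.div_self hp.pos, Nat.cast_one]
  have e : x ^ p + y ^ p + (p : Ω) * x * y *
      ∑ k ∈ Finset.Ioo 0 p, x ^ (k - 1) * y ^ (p - k - 1) * ((p.choose k / p : ℕ) : Ω) -
      x ^ p - y ^ p - (p : Ω) * x * y ^ (p - 1) = (p : Ω) * (x * y) *
      ∑ k ∈ Finset.Ioo 1 p, x ^ (k - 1) * y ^ (p - k - 1) * ((p.choose k / p : ℕ) : Ω) := by
    rw [hI, Finset.sum_insert (by simp), hterm]
    have e1 : y ^ (p - 1) = y * y ^ (p - 1 - 1) := by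
      rw [← pow_succ']
      congr 1
      omega
    rw [e1]
    simp only [Nat.sub_self, pow_zero]
    ring
  rw [e, map_mul, map_mul, map_mul]
  have hsum : W (∑ k ∈ Finset.Ioo 1 p, x ^ (k - 1) * y ^ (p - k - 1) *
      ((p.choose k / p : ℕ) : Ω)) ≤ W x := by
    refine Valuation.map_sum_le W fun k hk => ?_
    rw [Finset.mem_Ioo] at hk
    rw [map_mul, map_mul, map_pow, map_pow]
    have e2 : k - 1 = (k - 2) + 1 := by omega
    calc W x ^ (k - 1) * W y ^ (p - k - 1) * W ((p.choose k / p : ℕ) : Ω)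
        ≤ W x ^ (k - 1) * 1 * 1 := by
          gcongr
          · exact pow_le_one' hy _
          · exact W_natCast_le W _
      _ = W x ^ (k - 2) * W x := by rw [mul_one, mul_one, e2, pow_succ]
      _ ≤ 1 * W x := by
          gcongr
          exact pow_le_one' hx _
      _ = W x := one_mul _
  calc W (p : Ω) * (W x * W y) * _ ≤ W (p : Ω) * (W x * 1) * W x := by gcongr
    _ = W (p : Ω) * W x ^ 2 := by ring

end Fresh

section Fold

variable {C Ω : Type*} [Field C] [Field Ω] [Algebra C Ω] {W : Valuation Ω ℝ≥0} [IsAlgClosed C]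
  {p : ℕ}

/-- a choice of `p`-th roots -/
noncomputable def rt (hp : 0 < p) (c : C) : C := (IsAlgClosed.exists_pow_nat_eq c hp).choose

theorem rt_pow (hp : 0 < p) (c : C) : rt hp c ^ p = c :=
  (IsAlgClosed.exists_pow_nat_eq c hp).choose_spec

theorem rt_eq_zero (hp : 0 < p) {c : C} : rt hp c = 0 ↔ c = 0 := by
  constructor
  · intro h
    rw [← rt_pow hp c, h, zero_pow hp.ne']
  · rintro rfl
    exact pow_eq_zero_iff (hp.ne') |>.1 (rt_pow hp 0)

/-- `sum c_n t^n ↦ sum c_{pn}^(1/p) t^n` -/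
noncomputable def fold (hp : 0 < p) (u : ℤ →₀ C) : ℤ →₀ C :=
  (u.comapDomain (fun n : ℤ => (p : ℤ) * n) (fun a _ b _ h =>
    mul_left_cancel₀ (by exact_mod_cast hp.ne') h)).mapRange (rt hp) ((rt_eq_zero hp).2 rfl)

theorem fold_apply (hp : 0 < p) (u : ℤ →₀ C) (n : ℤ) : fold hp u n = rt hp (u (p * n)) := rfl

theorem fold_ne (hp : 0 < p) (u : ℤ →₀ C) (n : ℤ) : fold hp u n ≠ 0 ↔ u (p * n) ≠ 0 := by
  rw [fold_apply, Ne, rt_eq_zero]

theorem fold_term_pow (hp : 0 < p) (u : ℤ →₀ C) (t : Ω) (n : ℤ) :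
    (algebraMap C Ω (fold hp u n) * t ^ n) ^ p = algebraMap C Ω (u (p * n)) * t ^ ((p : ℤ) * n) := by
  rw [mul_pow, ← map_pow, fold_apply, rt_pow, ← zpow_natCast, ← zpow_mul, mul_comm n]

theorem fold_le (hp : 0 < p) (u : ℤ →₀ C) (t : Ω) {M : ℝ≥0}
    (h : ∀ n, W (algebraMap C Ω (u n) * t ^ n) ≤ M ^ p) (n : ℤ) :
    W (algebraMap C Ω (fold hp u n) * t ^ n) ≤ M := by
  rw [← pow_le_pow_iff_left₀ zero_le zero_le hp.ne', ← map_pow, fold_term_pow]
  exact h _

theorem fold_near (hp : p.Prime) (u : ℤ →₀ C) (t : Ω) {M : ℝ≥0}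
    (h : ∀ n, W (algebraMap C Ω (u n) * t ^ n) ≤ M ^ p) :
    W (ev t (fold hp.pos u) ^ p - ev t (u.filter fun n => (p : ℤ) ∣ n)) ≤ W (p : Ω) * M ^ p := by
  classical
  have e : ev t (u.filter fun n => (p : ℤ) ∣ n) =
      ∑ n ∈ (fold hp.pos u).support, (algebraMap C Ω (fold hp.pos u n) * t ^ n) ^ p := by
    rw [ev_apply]
    symm
    refine Finset.sum_nbij (fun n => (p : ℤ) * n) ?_ ?_ ?_ ?_
    · intro n hn
      rw [Finsupp.mem_support_iff, fold_ne] at hn
      rw [Finsupp.mem_support_iff, Finsupp.filter_apply_pos _ _ (Dvd.intro _ rfl)]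
      exact hn
    · intro a _ b _ hab
      exact mul_left_cancel₀ (by exact_mod_cast hp.ne_zero) hab
    · intro m hm
      rw [Finset.mem_coe, Finsupp.support_filter, Finset.mem_filter] at hm
      obtain ⟨n, rfl⟩ := hm.2
      refine ⟨n, ?_, rfl⟩
      rw [Finset.mem_coe, Finsupp.mem_support_iff, fold_ne]
      exact Finsupp.mem_support_iff.1 hm.1
    · intro n _
      rw [fold_term_pow, Finsupp.filter_apply_pos _ _ (Dvd.intro _ rfl)]
  rw [e, ev_apply]
  exact fresh_sum W hp _ _ fun n _ => fold_le hp.pos u t h n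

theorem exists_as_root (hp : p.Prime) (c : C) : ∃ d : C, d ^ p - d = c := by
  have h2 := hp.two_le
  obtain ⟨d, hd⟩ := IsAlgClosed.exists_root (X ^ p - (X + Polynomial.C c) : C[X]) (by
    have h1 : (X ^ p - (X + Polynomial.C c) : C[X]).degree = p := by
      have h3 : (X + Polynomial.C c : C[X]).degree = 1 := degree_X_add_C c
      rw [degree_sub_eq_left_of_degree_lt]
      · exact degree_X_pow p
      · rw [h3, degree_X_pow]
        exact_mod_cast h2
    rw [h1]
    exact_mod_cast hp.ne_zero)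
  refine ⟨d, ?_⟩
  rw [IsRoot, eval_sub, eval_pow, eval_X, eval_add, eval_X, eval_C] at hd
  linear_combination hd

theorem as_fold (hp : p.Prime) {t : Ω} {M : ℝ≥0} (hM : 1 ≤ M) (hpM : W (p : Ω) * M ^ p < 1) :
    ∀ (N : ℕ) (u : ℤ →₀ C), (∀ n, W (algebraMap C Ω (u n) * t ^ n) ≤ M ^ p) →
      (∀ n, u n ≠ 0 → (p : ℤ) ∣ n → n.natAbs ≤ N) →
      ∃ q u' : ℤ →₀ C, (∀ n, W (algebraMap C Ω (q n) * t ^ n) ≤ M) ∧
        (∀ n, u' n ≠ 0 → ¬ (p : ℤ) ∣ n) ∧
        W (ev t u - ev t q ^ p + ev t q - ev t u') < 1 := by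
  classical
  have hp2 := hp.two_le
  intro N
  induction N with
  | zero =>
    intro u hu hN
    obtain ⟨c, hc⟩ := exists_as_root hp (u 0)
    refine ⟨Finsupp.single 0 c, u.erase 0, ?_, ?_, ?_⟩
    · intro n
      by_cases hn : n = 0
      · subst hn
        rw [Finsupp.single_eq_same, zpow_zero, mul_one]
        have h0 := hu 0
        rw [zpow_zero, mul_one] at h0
        by_cases h1 : W (algebraMap C Ω c) ≤ 1
        · exact h1.trans hM
        · rw [not_le] at h1
          have h2 : W (algebraMap C Ω c) < W (algebraMap C Ω (c ^ p)) := by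
            rw [map_pow, map_pow]
            calc W (algebraMap C Ω c) = W (algebraMap C Ω c) ^ 1 := (pow_one _).symm
              _ < W (algebraMap C Ω c) ^ p := pow_lt_pow_right₀ h1 hp2
          rw [← hc, map_sub, Valuation.map_sub_eq_of_lt_left W h2, map_pow, map_pow] at h0
          exact (pow_le_pow_iff_left₀ zero_le zero_le hp.ne_zero).1 h0
      · rw [Finsupp.single_apply, if_neg (Ne.symm hn), map_zero, zero_mul, map_zero]
        exact zero_le
    · intro n hn hpn
      have hn0 : n ≠ 0 := by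
        rintro rfl
        exact hn Finsupp.erase_same
      rw [Finsupp.erase_ne hn0] at hn
      have := hN n hn hpn
      omega
    · have e : ev t u = ev t (Finsupp.single 0 (u 0)) + ev t (u.erase 0) := by
        rw [← map_add, Finsupp.single_add_erase]
      have e2 : algebraMap C Ω (u 0) = algebraMap C Ω c ^ p - algebraMap C Ω c := by
        rw [← hc, map_sub, map_pow]
      rw [e, ev_single, ev_single, zpow_zero, mul_one, mul_one, e2]
      have e3 : algebraMap C Ω c ^ p - algebraMap C Ω c + ev t (u.erase 0) -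
          algebraMap C Ω c ^ p + algebraMap C Ω c - ev t (u.erase 0) = 0 := by ring
      rw [e3, map_zero]
      exact zero_lt_one
  | succ N ih =>
    intro u hu hN
    set u₀ := u.erase 0 with hu₀
    have hu₀n : ∀ n, n ≠ 0 → u₀ n = u n := fun n hn => Finsupp.erase_ne hn
    have hu₀0 : u₀ 0 = 0 := Finsupp.erase_same
    have hu₀le : ∀ n, W (algebraMap C Ω (u₀ n) * t ^ n) ≤ M ^ p := by
      intro n
      by_cases hn : n = 0
      · rw [hn, hu₀0, map_zero, zero_mul, map_zero]; exact zero_le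
      · rw [hu₀n n hn]; exact hu n
    set q₁ := fold hp.pos u₀ with hq₁
    have hq₁le := fold_le hp.pos u₀ t hu₀le
    have hq₁near := fold_near hp u₀ t hu₀le
    set f := u₀.filter fun n => (p : ℤ) ∣ n with hf
    have hMp : M ≤ M ^ p := by
      calc M = M ^ 1 := (pow_one M).symm
        _ ≤ M ^ p := pow_le_pow_right₀ hM hp.one_lt.le
    obtain ⟨q₂, u', hq₂, hu', hfin⟩ := ih (u - f + q₁) (by
      intro n
      rw [Finsupp.add_apply, Finsupp.sub_apply, map_add, add_mul]
      refine Valuation.map_add_le W ?_ ((hq₁le n).trans hMp)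
      by_cases hn : (p : ℤ) ∣ n ∧ n ≠ 0
      · rw [hf, Finsupp.filter_apply_pos _ _ hn.1, hu₀n n hn.2, sub_self, map_zero, zero_mul,
          map_zero]
        exact zero_le
      · have : f n = 0 := by
          by_cases h1 : (p : ℤ) ∣ n
          · have h2 : n = 0 := by
              by_contra h2
              exact hn ⟨h1, h2⟩
            rw [hf, Finsupp.filter_apply_pos _ _ h1, h2, hu₀0]
          · rw [hf, Finsupp.filter_apply_neg _ _ h1]
        rw [this, sub_zero]
        exact hu n) (by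
      intro n hn hpn
      by_cases hn0 : n = 0
      · rw [hn0]; simp
      · rw [Finsupp.add_apply, Finsupp.sub_apply, hf, Finsupp.filter_apply_pos _ _ hpn,
          hu₀n n hn0, sub_self, zero_add, hq₁, fold_ne] at hn
        have hpn0 : (p : ℤ) * n ≠ 0 := mul_ne_zero (by exact_mod_cast hp.ne_zero) hn0
        rw [hu₀n _ hpn0] at hn
        have h1 := hN _ hn (Dvd.intro _ rfl)
        rw [Int.natAbs_mul, Int.natAbs_natCast] at h1
        have h2 : 1 ≤ n.natAbs := Int.natAbs_pos.2 hn0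
        have h3 : 2 * n.natAbs ≤ p * n.natAbs := Nat.mul_le_mul_right _ hp2
        omega)
    refine ⟨q₁ + q₂, u', ?_, hu', ?_⟩
    · intro n
      rw [Finsupp.add_apply, map_add, add_mul]
      exact Valuation.map_add_le W (hq₁le n) (hq₂ n)
    · have h1 := fresh' W hp (x := ev t q₁) (y := ev t q₂) (M := M) (ev_le q₁ hq₁le)
        (ev_le q₂ hq₂)
      have e : ev t u - ev t (q₁ + q₂) ^ p + ev t (q₁ + q₂) - ev t u' =
          (ev t (u - f + q₁) - ev t q₂ ^ p + ev t q₂ - ev t u') -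
          (ev t q₁ ^ p - ev t f) -
          ((ev t q₁ + ev t q₂) ^ p - ev t q₁ ^ p - ev t q₂ ^ p) := by
        rw [map_add, map_add, map_sub]
        ring
      rw [e]
      refine Valuation.map_sub_lt W (Valuation.map_sub_lt W hfin ?_) ?_
      · exact hq₁near.trans_lt hpM
      · exact h1.trans_lt hpM

end Fold

section NI

variable {C F Ω : Type*} [Field C] [Field F] [Field Ω] [Algebra C F] [Algebra F Ω] [Algebra C Ω]
  [IsScalarTower C F Ω] {W : Valuation Ω ℝ≥0}

theorem ev_mem_range {t : Ω} (ht : t ∈ Set.range (algebraMap F Ω)) (g : ℤ →₀ C) :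
    ∃ q : F, algebraMap F Ω q = ev t g := by
  have := ev_mem (F := F) (L := ⊥) (IntermediateField.mem_bot.2 ht) g
  exact IntermediateField.mem_bot.1 this

/-- the values of `p`-th powers of elements of `L` are not those of Laurent polynomials with exponents
prime to `p` -/
theorem no_prime_exponent {p : ℕ} {t : Ω} (ht : T3 C W t) {S : Set Ω} (hV : VG C W S t) {b : Ω}
    (hb : b ∈ S) (u : ℤ →₀ C) (hu : ∀ n, u n ≠ 0 → ¬ (p : ℤ) ∣ n) (hne : ev t u ≠ 0)
    (h : W b ^ p = W (ev t u)) : False := by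
  obtain ⟨n, hn, hn'⟩ := ht.exists_term u hne
  have hb0 : b ≠ 0 := by
    rintro rfl
    rw [map_zero] at h
    by_cases hp : p = 0
    · subst hp
      rw [pow_zero, hn'] at h
      have h1 : W (algebraMap C Ω (u n)) * W t ^ n = W (algebraMap C Ω 1) * W t ^ (0 : ℤ) := by
        rw [← h]; simp
      have h2 := ht.eq_of (by simp) h1
      exact hu n hn (by rw [h2]; exact dvd_zero _)
    · rw [zero_pow hp] at h
      exact hne ((map_eq_zero W).1 h.symm)
  obtain ⟨c, m, hc, hm⟩ := hV b hb hb0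
  rw [hn', hm, mul_pow, ← map_pow, ← map_pow, ← zpow_natCast (W t ^ m), ← zpow_mul] at h
  have := ht.eq_of ((_root_.map_ne_zero _).2 hn) h
  exact hu n hn ⟨m, by rw [← this]; ring⟩

variable [IsAlgClosed C] {p : ℕ}

theorem ni_step (hp : p.Prime) {t : Ω} (hD : Dn C W (Set.range (algebraMap F Ω)) t)
    {L : IntermediateField F Ω} (hV : VG C W (L : Set Ω) t) {α : Ω} (hα : α ∈ L)
    {a : F} (ha : α ^ p = algebraMap F Ω a) (hα1 : W α = 1)
    {r : ℝ≥0} (hr0 : 0 < r) (hr : r ^ (p - 1) = W (p : Ω))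
    (hkr : ∀ g : F, r ≤ W (α - algebraMap F Ω g)) (g : F) (hg : W (α - algebraMap F Ω g) < 1) :
    ∃ g' : F, W (α - algebraMap F Ω g') ^ p ≤ W (p : Ω) * W (α - algebraMap F Ω g) := by
  set G := algebraMap F Ω g with hG
  set β := α - G with hβ
  set R := W β with hR
  have hrR : r ≤ R := hkr g
  have hRpos : 0 < R := hr0.trans_le hrR
  have hWp : 0 < W (p : Ω) := by rw [← hr]; exact pow_pos hr0 _
  have hWG : W G ≤ 1 := by
    have e : G = α - β := by rw [hβ]; ring
    rw [e]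
    exact (Valuation.map_sub W _ _).trans (max_le hα1.le hg.le)
  have hWpR : W (p : Ω) * R ≤ R ^ p := by
    have e : R ^ p = R ^ (p - 1) * R := by rw [← pow_succ, Nat.sub_add_cancel hp.one_lt.le]
    rw [← hr, e]
    gcongr
  have hWRp : W (p : Ω) * R ^ p ≤ W (p : Ω) * R := by
    gcongr
    calc R ^ p ≤ R ^ 1 := pow_le_pow_of_le_one zero_le hg.le hp.one_lt.le
      _ = R := pow_one R
  set h := algebraMap F Ω (a - g ^ p) with hh
  have hh' : h = (β + G) ^ p - G ^ p := by
    rw [hh, map_sub, map_pow, ← ha, hβ]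
    ring
  have h1 : W (h - β ^ p) ≤ W (p : Ω) * R := by
    have := fresh W hp (x := β) (y := G) (M := 1) hg.le hWG
    rw [one_pow, mul_one] at this
    rw [hh']
    have e : (β + G) ^ p - G ^ p - β ^ p = (β + G) ^ p - β ^ p - G ^ p := by ring
    rw [e]
    refine this.trans ?_
    gcongr
    calc R * W G ≤ R * 1 := by gcongr
      _ = R := mul_one _
  have h2 : W h ≤ R ^ p := by
    have e : h = (h - β ^ p) + β ^ p := by ring
    rw [e]
    refine Valuation.map_add_le W (h1.trans hWpR) ?_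
    rw [map_pow]
  obtain ⟨u, hu⟩ := hD.dense h ⟨_, rfl⟩ (W (p : Ω) * R) (mul_pos hWp hRpos)
  have hu1 : W (ev t u) ≤ R ^ p := by
    have e : ev t u = h - (h - ev t u) := by ring
    rw [e]
    exact (Valuation.map_sub W _ _).trans (max_le h2 (hu.le.trans hWpR))
  have hu2 : ∀ n, W (algebraMap C Ω (u n) * t ^ n) ≤ R ^ p := fun n =>
    (hD.t3.term_le u n).trans hu1
  have hq1 : W (ev t (fold hp.pos u)) ≤ R := ev_le _ (fold_le hp.pos u t hu2)
  have hq2 := fold_near hp u t hu2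
  set q := ev t (fold hp.pos u) with hq
  obtain ⟨q', hq'⟩ := ev_mem_range hD.mem (fold hp.pos u)
  refine ⟨g + q', ?_⟩
  rw [map_add, hq', ← hG, ← hq]
  have eβ : α - (G + q) = β - q := by rw [hβ]; ring
  rw [eβ]
  have h3 := fresh_sub W hp (x := β) (y := q) (M := R) le_rfl hq1
  set v := u.filter fun n => ¬ (p : ℤ) ∣ n with hv
  have huv : ev t u = ev t (u.filter fun n => (p : ℤ) ∣ n) + ev t v := by
    rw [← map_add, hv, Finsupp.filter_add_filter_not]
  have h4 : W ((β - q) ^ p - ev t v) ≤ W (p : Ω) * R := by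
    have e : (β - q) ^ p - ev t v = -(h - β ^ p) + (h - ev t u) -
        (q ^ p - ev t (u.filter fun n => (p : ℤ) ∣ n)) + ((β - q) ^ p - β ^ p + q ^ p) := by
      rw [huv]; ring
    rw [e]
    refine Valuation.map_add_le W ((Valuation.map_sub W _ _).trans (max_le
      (Valuation.map_add_le W (by rw [Valuation.map_neg]; exact h1) hu.le)
      (hq2.trans hWRp))) (h3.trans hWRp)
  by_contra hcon
  rw [not_le, ← map_pow] at hcon
  have h5 : W (ev t v) = W ((β - q) ^ p) :=
    Valuation.map_eq_of_sub_lt W (by rw [Valuation.map_sub_swap]; exact h4.trans_lt hcon)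
  have hGL : G ∈ L := L.algebraMap_mem g
  have hqL : q ∈ L := by
    rw [hq, ← hq']
    exact L.algebraMap_mem q'
  refine no_prime_exponent (p := p) hD.t3 hV (b := β - q) (L.sub_mem (L.sub_mem hα hGL) hqL) v ?_ ?_ ?_
  · intro n hn hpn
    rw [hv, Finsupp.filter_apply_neg (fun n => ¬ (p : ℤ) ∣ n) u (not_not.2 hpn)] at hn
    exact hn rfl
  · intro h0
    rw [h0, map_zero] at h5
    rw [← h5] at hcon
    exact not_lt_zero hcon
  · rw [h5, map_pow]

/-- the distance to `F` is at most `r` -/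
theorem ni_dist (hp : p.Prime) {t : Ω} (hD : Dn C W (Set.range (algebraMap F Ω)) t)
    {L : IntermediateField F Ω} (hV : VG C W (L : Set Ω) t) {α : Ω} (hα : α ∈ L)
    {a : F} (ha : α ^ p = algebraMap F Ω a) (hα1 : W (α - 1) < 1)
    {r : ℝ≥0} (hr0 : 0 < r) (hr1 : r < 1) (hr : r ^ (p - 1) = W (p : Ω))
    (hkr : ∀ g : F, r ≤ W (α - algebraMap F Ω g)) {η : ℝ≥0} (hη : 1 < η) :
    ∃ g : F, W (α - algebraMap F Ω g) ≤ r * η := by
  have hWα : W α = 1 := by
    have := Valuation.map_one_add_of_lt (v := W) (x := α - 1) hα1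
    rwa [add_sub_cancel] at this
  have key : ∀ k : ℕ, ∃ g : F, W (α - algebraMap F Ω g) < 1 ∧
      W (α - algebraMap F Ω g) ^ (p ^ k) ≤ r ^ (p ^ k - 1) := by
    intro k
    induction k with
    | zero => exact ⟨1, by rwa [map_one], by rw [map_one]; simpa using hα1.le⟩
    | succ k ih =>
      obtain ⟨g, hg1, hg2⟩ := ih
      obtain ⟨g', hg'⟩ := ni_step hp hD hV hα ha hWα hr0 hr hkr g hg1
      refine ⟨g', ?_, ?_⟩
      · by_contra hcon
        rw [not_lt] at hcon
        have h1 : W (p : Ω) * W (α - algebraMap F Ω g) < 1 := by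
          rw [← hr]
          calc r ^ (p - 1) * W (α - algebraMap F Ω g) ≤ 1 * W (α - algebraMap F Ω g) := by
                gcongr
                exact pow_le_one' hr1.le _
            _ < 1 := by rw [one_mul]; exact hg1
        exact absurd (hg'.trans_lt h1) (not_lt.2 (one_le_pow_of_one_le' hcon p))
      · have hpk : 1 ≤ p ^ k := Nat.one_le_pow _ _ hp.pos
        have e1 : p ^ (k + 1) = p * p ^ k := by rw [pow_succ']
        have e2 : p ^ (k + 1) - 1 = (p - 1) * p ^ k + (p ^ k - 1) := by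
          rw [e1, Nat.sub_mul, one_mul]
          have : p ^ k ≤ p * p ^ k := Nat.le_mul_of_pos_left _ hp.pos
          omega
        calc W (α - algebraMap F Ω g') ^ p ^ (k + 1)
            = (W (α - algebraMap F Ω g') ^ p) ^ p ^ k := by rw [← pow_mul, e1]
          _ ≤ (W (p : Ω) * W (α - algebraMap F Ω g)) ^ p ^ k := by gcongr
          _ = r ^ ((p - 1) * p ^ k) * W (α - algebraMap F Ω g) ^ p ^ k := by
              rw [mul_pow, ← hr, pow_mul]
          _ ≤ r ^ ((p - 1) * p ^ k) * r ^ (p ^ k - 1) := by gcongr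
          _ = r ^ (p ^ (k + 1) - 1) := by rw [← pow_add, e2]
  -- choose `k` large
  obtain ⟨k, hk⟩ : ∃ k : ℕ, η⁻¹ ^ (p ^ k) < r := by
    obtain ⟨m, hm⟩ := NNReal.exists_pow_lt_of_lt_one hr0 (inv_lt_one_of_one_lt₀ hη)
    refine ⟨m, lt_of_le_of_lt ?_ hm⟩
    refine pow_le_pow_of_le_one zero_le (inv_lt_one_of_one_lt₀ hη).le ?_
    exact (Nat.lt_pow_self hp.one_lt).le
  obtain ⟨g, -, hg⟩ := key k
  refine ⟨g, ?_⟩
  by_contra hcon
  rw [not_le] at hcon
  have hpk : 1 ≤ p ^ k := Nat.one_le_pow _ _ hp.pos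
  have h1 : (r * η) ^ (p ^ k) ≤ r ^ (p ^ k - 1) := (pow_le_pow_left₀ zero_le hcon.le _).trans hg
  have h2 : r * η ^ (p ^ k) ≤ 1 := by
    have e : (r * η) ^ (p ^ k) = r ^ (p ^ k - 1) * (r * η ^ (p ^ k)) := by
      rw [mul_pow, ← mul_assoc, ← pow_succ, Nat.sub_add_cancel hpk]
    rw [e] at h1
    exact le_of_mul_le_mul_left (by rwa [mul_one]) (pow_pos hr0 _)
  rw [inv_pow] at hk
  have hη0 : 0 < η ^ p ^ k := pow_pos (zero_lt_one.trans hη) _
  have h3 : 1 < r * η ^ (p ^ k) := by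
    calc 1 = (η ^ p ^ k)⁻¹ * η ^ p ^ k := (inv_mul_cancel₀ hη0.ne').symm
      _ < r * η ^ p ^ k := mul_lt_mul_of_pos_right hk hη0
  exact absurd h2 (not_le.2 h3)

/-- **no immediate Kummer extension of degree `p`** -/
theorem ni_core (hp : p.Prime) {t : Ω} (hD : Dn C W (Set.range (algebraMap F Ω)) t)
    {L : IntermediateField F Ω} (hV : VG C W (L : Set Ω) t) (hRes : RES C W (L : Set Ω))
    {α : Ω} (hα : α ∈ L)
    {a : F} (ha : α ^ p = algebraMap F Ω a) (hα1 : W (α - 1) < 1)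
    {r : ℝ≥0} (hr0 : 0 < r) (hr1 : r < 1) (hr : r ^ (p - 1) = W (p : Ω))
    (hkr : ∀ g : F, r ≤ W (α - algebraMap F Ω g)) : False := by
  classical
  have hp2 := hp.two_le
  have hWα : W α = 1 := by
    have := Valuation.map_one_add_of_lt (v := W) (x := α - 1) hα1
    rwa [add_sub_cancel] at this
  set s := max r (W (α - 1)) with hs
  have hs1 : s < 1 := max_lt hr1 hα1
  have hs0 : 0 < s := hr0.trans_le (le_max_left _ _)
  obtain ⟨η, hη, hηs⟩ : ∃ η : ℝ≥0, 1 < η ∧ s * η ^ p < 1 := by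
    have hc : Continuous fun η : ℝ≥0 => s * η ^ p := by fun_prop
    have h1 : ∀ᶠ η in nhds (1 : ℝ≥0), s * η ^ p < 1 :=
      (hc.tendsto' 1 s (by simp)).eventually (gt_mem_nhds hs1)
    obtain ⟨η, h2, h3⟩ := ((h1.filter_mono (nhdsWithin_le_nhds (s := Set.Ioi 1))).and
      self_mem_nhdsWithin).exists
    exact ⟨η, h3, h2⟩
  have hη1 : 1 ≤ η := hη.le
  have hηp : η ≤ η ^ p := by
    calc η = η ^ 1 := (pow_one η).symm
      _ ≤ η ^ p := pow_le_pow_right₀ hη1 hp.one_lt.le
  have hη2p : η ^ 2 ≤ η ^ p := pow_le_pow_right₀ hη1 hp2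
  have hrs : r ≤ s := le_max_left _ _
  have hωs : W (α - 1) ≤ s := le_max_right _ _
  have hrη2 : r * η ^ 2 < 1 := lt_of_le_of_lt (mul_le_mul' hrs hη2p) hηs
  have hrη : r * η < 1 := lt_of_le_of_lt (mul_le_mul' hrs hηp) hηs
  have hpη : W (p : Ω) * η ^ p < 1 := by
    refine lt_of_le_of_lt (mul_le_mul' ?_ le_rfl) hηs
    rw [← hr]
    refine le_trans ?_ hrs
    calc r ^ (p - 1) ≤ r ^ 1 := pow_le_pow_of_le_one zero_le hr1.le (by omega)
      _ = r := pow_one r
  obtain ⟨g, hg⟩ := ni_dist hp hD hV hα ha hα1 hr0 hr1 hr hkr hη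
  obtain ⟨lam, hlam⟩ := IsAlgClosed.exists_pow_nat_eq (-(p : C)) (n := p - 1) (by omega)
  set lm := algebraMap C Ω lam with hlm
  have hlmp : lm ^ (p - 1) = -(p : Ω) := by
    rw [hlm, ← map_pow, hlam, map_neg, map_natCast]
  have hWlm : W lm = r := by
    have h1 : W lm ^ (p - 1) = r ^ (p - 1) := by
      rw [← map_pow, hlmp, Valuation.map_neg, hr]
    exact (pow_left_inj₀ zero_le zero_le (by omega)).1 h1
  have hlm0 : lm ≠ 0 := by
    intro h
    rw [h, map_zero] at hWlm
    exact hr0.ne hWlm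
  set G := algebraMap F Ω g with hG
  set β := α - G with hβ
  have hWβ : W β ≤ r * η := hg
  have hWβ1 : W β ≤ 1 := hWβ.trans hrη.le
  have hWG1 : W (G - 1) ≤ s ∨ W (G - 1) ≤ r * η := by
    have e : G - 1 = (α - 1) - β := by rw [hβ]; ring
    have := Valuation.map_sub W (α - 1) β
    rw [← e] at this
    rcases le_max_iff.1 this with h | h
    · exact Or.inl (h.trans hωs)
    · exact Or.inr (h.trans hWβ)
  have hWGη : W (G - 1) * η < 1 := by
    rcases hWG1 with h | h
    · exact lt_of_le_of_lt (mul_le_mul' h hηp) hηs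
    · refine lt_of_le_of_lt (mul_le_mul' h le_rfl) ?_
      rw [mul_assoc, ← pow_two]
      exact hrη2
  have hWG : W G ≤ 1 := by
    have e : G = α - β := by rw [hβ]; ring
    rw [e]
    exact (Valuation.map_sub W _ _).trans (max_le hWα.le hWβ1)
  set b := β / lm with hb
  have hWb : W b ≤ η := by
    rw [hb, map_div₀, hWlm, div_le_iff₀ hr0, mul_comm]
    exact hWβ
  have hβb : β = b * lm := by rw [hb, div_mul_cancel₀ _ hlm0]
  set U := algebraMap F Ω ((a - g ^ p) / algebraMap C F lam ^ p) with hU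
  have hU' : U = ((β + G) ^ p - G ^ p) / lm ^ p := by
    rw [hU, map_div₀, map_sub, map_pow, map_pow, ← ha, ← IsScalarTower.algebraMap_apply C F Ω,
      hβ, ← hG, ← hlm]
    ring
  have hb1 : W (b ^ p - b - U) < 1 := by
    have h1 := fresh2 W hp (x := β) (y := G) hWβ1 hWG
    set E := (β + G) ^ p - β ^ p - G ^ p - (p : Ω) * β * G ^ (p - 1) with hE
    have e1 : b ^ p - b - U = b * (G ^ (p - 1) - 1) - E / lm ^ p := by
      have e2 : (β + G) ^ p - G ^ p = E + β ^ p + (p : Ω) * β * G ^ (p - 1) := by rw [hE]; ring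
      have e3 : (p : Ω) = -lm ^ (p - 1) := by rw [hlmp, neg_neg]
      have e4 : lm ^ p = lm ^ (p - 1) * lm := by
        rw [← pow_succ, Nat.sub_add_cancel hp.one_lt.le]
      have e5 : (p : Ω) * β * G ^ (p - 1) / lm ^ p = -(b * G ^ (p - 1)) := by
        rw [e3, hβb, e4]
        have := pow_ne_zero (p - 1) hlm0
        field_simp
      have e6 : β ^ p / lm ^ p = b ^ p := by rw [hb, div_pow]
      rw [hU', e2, add_div, add_div, e5, e6]
      ring
    rw [e1]
    refine Valuation.map_sub_lt W ?_ ?_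
    · rw [map_mul]
      have h2 : W (G ^ (p - 1) - 1) ≤ W (G - 1) := by
        have h3 : ∀ n : ℕ, W (G ^ n - 1) ≤ W (G - 1) := by
          intro n
          induction n with
          | zero => rw [pow_zero, sub_self, map_zero]; exact zero_le
          | succ n ih =>
            have e : G ^ (n + 1) - 1 = G * (G ^ n - 1) + (G - 1) := by ring
            rw [e]
            refine Valuation.map_add_le W ?_ le_rfl
            rw [map_mul]
            exact (mul_le_mul' hWG ih).trans (one_mul _).le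
        exact h3 _
      calc W b * W (G ^ (p - 1) - 1) ≤ η * W (G - 1) := mul_le_mul' hWb h2
        _ < 1 := by rw [mul_comm]; exact hWGη
    · rw [map_div₀, map_pow, hWlm, div_lt_one₀ (pow_pos hr0 _)]
      calc W E ≤ W (p : Ω) * W β ^ 2 := h1
        _ ≤ r ^ (p - 1) * (r * η) ^ 2 := by rw [hr]; gcongr
        _ = r ^ p * (r * η ^ 2) := by
            have : r ^ p = r ^ (p - 1) * r := by
              rw [← pow_succ, Nat.sub_add_cancel hp.one_lt.le]
            rw [this]; ring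
        _ < r ^ p * 1 := mul_lt_mul_of_pos_left hrη2 (pow_pos hr0 _)
        _ = r ^ p := mul_one _
  have hηp1 : 1 ≤ η ^ p := one_le_pow_of_one_le' hη1 p
  have hWU : W U ≤ η ^ p := by
    have e : U = b ^ p - b - (b ^ p - b - U) := by ring
    rw [e]
    refine (Valuation.map_sub W _ _).trans (max_le ((Valuation.map_sub W _ _).trans (max_le ?_ ?_))
      (hb1.le.trans hηp1))
    · rw [map_pow]; gcongr
    · exact hWb.trans hηp
  obtain ⟨u, hu⟩ := hD.dense U ⟨_, rfl⟩ 1 zero_lt_one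
  have hWu : W (ev t u) ≤ η ^ p := by
    have e : ev t u = U - (U - ev t u) := by ring
    rw [e]
    exact (Valuation.map_sub W _ _).trans (max_le hWU (hu.le.trans hηp1))
  obtain ⟨q, u', hq, hu', hqu⟩ := as_fold hp hη1 hpη (u.support.sup Int.natAbs) u
    (fun n => (hD.t3.term_le u n).trans hWu)
    (fun n hn _ => Finset.le_sup (f := Int.natAbs) (Finsupp.mem_support_iff.2 hn))
  have hWq : W (ev t q) ≤ η := ev_le q hq
  set b' := b - ev t q with hb'
  have h3 := fresh_sub W hp (x := b) (y := ev t q) (M := η) hWb hWq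
  have hb'1 : W (b' ^ p - b' - ev t u') < 1 := by
    have e : b' ^ p - b' - ev t u' = (b ^ p - b - U) + (U - ev t u) +
        (ev t u - ev t q ^ p + ev t q - ev t u') +
        ((b - ev t q) ^ p - b ^ p + ev t q ^ p) := by
      rw [hb']; ring
    rw [e]
    exact Valuation.map_add_lt W (Valuation.map_add_lt W (Valuation.map_add_lt W hb1 hu) hqu)
      (h3.trans_lt hpη)
  have hCL : ∀ c : C, algebraMap C Ω c ∈ L := fun c => by
    rw [IsScalarTower.algebraMap_apply C F Ω]
    exact L.algebraMap_mem _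
  obtain ⟨q', hq'⟩ := ev_mem_range hD.mem q
  have hb'L : b' ∈ L := by
    rw [hb', ← hq']
    exact L.sub_mem (L.div_mem (L.sub_mem hα (L.algebraMap_mem g)) (hCL lam))
      (L.algebraMap_mem q')
  have hb'2 : W b' ≤ 1 := by
    by_contra hcon
    rw [not_le] at hcon
    have h4 : W b' < W (b' ^ p) := by
      rw [map_pow]
      calc W b' = W b' ^ 1 := (pow_one _).symm
        _ < W b' ^ p := pow_lt_pow_right₀ hcon hp.one_lt
    have h5 : W (b' ^ p - b') = W b' ^ p := by
      rw [Valuation.map_sub_eq_of_lt_left W h4, map_pow]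
    have h6 : W (ev t u') = W b' ^ p := by
      rw [← h5]
      refine Valuation.map_eq_of_sub_lt W ?_
      rw [Valuation.map_sub_swap, h5]
      exact hb'1.trans (one_lt_pow₀ hcon hp.ne_zero)
    refine no_prime_exponent (p := p) hD.t3 hV hb'L u' hu' ?_ h6.symm
    intro h0
    rw [h0, map_zero] at h6
    exact (pow_ne_zero p (zero_lt_one.trans hcon).ne') h6.symm
  obtain ⟨c, hc⟩ := hRes b' hb'L hb'2
  have h7 := hkr (g + algebraMap C F lam * (q' + algebraMap C F c))
  rw [map_add, map_mul, map_add, hq', ← IsScalarTower.algebraMap_apply C F Ω,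
    ← IsScalarTower.algebraMap_apply C F Ω, ← hG, ← hlm] at h7
  have e : α - (G + lm * (ev t q + algebraMap C Ω c)) = lm * (b' - algebraMap C Ω c) := by
    have : α = b * lm + G := by rw [← hβb, hβ]; ring
    rw [this, hb']
    ring
  rw [e, map_mul, hWlm] at h7
  have h8 : r * W (b' - algebraMap C Ω c) < r * 1 := mul_lt_mul_of_pos_left hc hr0
  rw [mul_one] at h8
  exact absurd h7 (not_le.2 h8)

end NI

end Crest.Agent.R013.LU3_205
end

-- ▼ part R013/LU3d_205

/-!
R013 / SS-LU3 (helper205), part 4.  Over a henselian field (`Inv F W`) with dense Laurent polynomials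
in a type 3 element: tame extensions and cyclic extensions of degree `p` have ramification index equal
to the degree.
-/

set_option autoImplicit false
set_option linter.unusedSectionVars false

namespace Crest.Agent.R013.LU3_205

open scoped NNReal
open Polynomial Crest.Agent.R013.Hens_899

variable {C F Ω : Type*} [Field C] [Field F] [Field Ω] [Algebra C F] [Algebra F Ω] [Algebra C Ω]
  [IsScalarTower C F Ω] {W : Valuation Ω ℝ≥0} [IsAlgClosed C] [IsAlgClosed Ω] [IsGalois F Ω]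

theorem inv_emb (hW : Inv F W) (L : IntermediateField F Ω) (σ : L →ₐ[F] Ω) (x : L) :
    W (σ x) = W (x : Ω) := by
  set τ : Ω →ₐ[F] Ω := σ.liftNormal Ω with hτ
  have h1 : τ (x : Ω) = σ x := AlgHom.liftNormal_commutes σ Ω x
  have hbij : Function.Bijective τ := Algebra.IsAlgebraic.algHom_bijective τ
  have h2 := hW (AlgEquiv.ofBijective τ hbij) (x : Ω)
  rw [← h1]
  exact h2

theorem inv_aut (hW : Inv F W) (L : IntermediateField F Ω) (σ : L ≃ₐ[F] L) (x : L) :
    W ((σ x : L) : Ω) = W (x : Ω) :=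
  inv_emb hW L (L.val.comp σ.toAlgHom) x

theorem e_ne_zero {t z : Ω} (ht : T3 C W t) {e : ℕ} {c : C}
    (hc' : W t = W (algebraMap C Ω c) * W z ^ e) : e ≠ 0 := by
  rintro rfl
  have := ht.tor 1 c (by rw [zpow_one, hc', pow_zero, mul_one])
  exact one_ne_zero this

/-- **tame case** -/
theorem tame_le (hW : Inv F W) {t : Ω} (hD : Dn C W (Set.range (algebraMap F Ω)) t)
    (L : IntermediateField F Ω) [FiniteDimensional F L] (hm : W (Module.finrank F L : Ω) = 1)
    {z : Ω} (hz : z ∈ L) (h3 : T3 C W z) (hV : VG C W (L : Set Ω) z) {e : ℕ} {c : C} (hc : c ≠ 0)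
    (hc' : W t = W (algebraMap C Ω c) * W z ^ e) : Module.finrank F L ≤ e := by
  classical
  have he : e ≠ 0 := e_ne_zero hD.t3 hc'
  have hWz := h3.W_ne
  have hWc : W (algebraMap C Ω c) ≠ 0 :=
    (Valuation.ne_zero_iff W).2 ((_root_.map_ne_zero _).2 hc)
  have : Algebra.IsSeparable F L := Algebra.isSeparable_tower_bot_of_isSeparable F L Ω
  obtain ⟨tF, htF⟩ := hD.mem
  set z' : L := ⟨z, hz⟩ with hz'
  have hz'0 : z' ≠ 0 := fun h => h3.ne (congrArg Subtype.val h)
  let T : L →ₗ[F] (Fin e → F) := LinearMap.pi fun j =>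
    (Algebra.trace F L) ∘ₗ (LinearMap.mulLeft F ((z' ^ (j : ℕ))⁻¹))
  have hT : Function.Injective T := by
    rw [injective_iff_map_eq_zero]
    intro y hy
    by_contra hy0
    have hyΩ : (y : Ω) ≠ 0 := fun h => hy0 (Subtype.ext h)
    obtain ⟨d, n, hd, hn⟩ := hV (y : Ω) y.2 hyΩ
    have hWd : W (algebraMap C Ω d) ≠ 0 :=
      (Valuation.ne_zero_iff W).2 ((_root_.map_ne_zero _).2 hd)
    have hj0 : 0 ≤ n % e := Int.emod_nonneg _ (by exact_mod_cast he)
    obtain ⟨j, hj⟩ := Int.eq_ofNat_of_zero_le hj0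
    have hje : j < e := by
      have := Int.emod_lt_of_pos n (b := (e : ℤ)) (by positivity)
      rw [hj] at this
      exact_mod_cast this
    set q := n / (e : ℤ) with hq
    have hn2 : n = (e : ℤ) * q + j := by rw [← hj, hq, Int.mul_ediv_add_emod]
    set κ : F := algebraMap C F (d * (c ^ q)⁻¹) * tF ^ q with hκ
    have hκΩ : algebraMap F Ω κ = algebraMap C Ω d * (algebraMap C Ω c ^ q)⁻¹ * t ^ q := by
      rw [hκ, map_mul, ← IsScalarTower.algebraMap_apply C F Ω, map_zpow₀, htF, map_mul, map_inv₀,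
        map_zpow₀]
    have hWκ : W (algebraMap F Ω κ * z ^ j) = W (y : Ω) := by
      rw [hκΩ, map_mul, map_mul, map_mul, map_inv₀, map_zpow₀, map_zpow₀, map_pow, hn, hn2, hc',
        mul_zpow, zpow_add₀ hWz, zpow_mul, zpow_natCast, zpow_natCast]
      have := zpow_ne_zero q hWc
      field_simp
    have hκ0 : κ ≠ 0 := by
      rintro h
      rw [h, map_zero, zero_mul, map_zero] at hWκ
      exact hyΩ ((map_eq_zero W).1 hWκ.symm)
    set b : L := y * (algebraMap F L κ * z' ^ j)⁻¹ with hb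
    have hbΩ : (b : Ω) = y * (algebraMap F Ω κ * z ^ j)⁻¹ := rfl
    have hWy : W (y : Ω) ≠ 0 := (Valuation.ne_zero_iff W).2 hyΩ
    have hWb : W (b : Ω) = 1 := by
      rw [hbΩ, map_mul, map_inv₀, hWκ, mul_inv_cancel₀ hWy]
    have hint : IsIntegral F (b : Ω) := (Algebra.IsIntegral.isIntegral (R := F) b).map L.val
    obtain ⟨c₃, hc₃⟩ := res_alg hD hint hWb.le
    have hWc₃ : W (algebraMap C Ω c₃) = 1 := by
      have := Valuation.map_eq_of_sub_lt W (x := (b : Ω)) (y := algebraMap C Ω c₃)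
        (by rw [hWb, Valuation.map_sub_swap]; exact hc₃)
      rw [this, hWb]
    have htr : Algebra.trace F L b = 0 := by
      have h1 : T y ⟨j, hje⟩ = 0 := by rw [hy]; rfl
      have h2 : T y ⟨j, hje⟩ = Algebra.trace F L ((z' ^ j)⁻¹ * y) := rfl
      have h4 : (z' ^ j)⁻¹ * y = κ • b := by
        rw [Algebra.smul_def, hb, mul_inv]
        have hκL : algebraMap F L κ ≠ 0 := (_root_.map_ne_zero _).2 hκ0
        have := pow_ne_zero j hz'0
        field_simp
      rw [h2, h4, map_smul, smul_eq_mul] at h1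
      rcases mul_eq_zero.1 h1 with h | h
      · exact absurd h hκ0
      · exact h
    have hsum : (0 : Ω) = (Module.finrank F L : Ω) * algebraMap C Ω c₃ +
        ∑ σ : L →ₐ[F] Ω, (σ b - algebraMap C Ω c₃) := by
      rw [Finset.sum_sub_distrib, ← trace_eq_sum_embeddings (K := F) Ω, htr, map_zero,
        Finset.sum_const, Finset.card_univ, AlgHom.card F L Ω, nsmul_eq_mul]
      ring
    have hlt : W (∑ σ : L →ₐ[F] Ω, (σ b - algebraMap C Ω c₃)) < 1 := by
      refine Valuation.map_sum_lt W one_ne_zero fun σ _ => ?_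
      have h1 : σ b - algebraMap C Ω c₃ = σ (b - algebraMap F L (algebraMap C F c₃)) := by
        rw [map_sub, AlgHom.commutes, ← IsScalarTower.algebraMap_apply C F Ω]
      rw [h1, inv_emb hW L σ]
      have h2 : ((b - algebraMap F L (algebraMap C F c₃) : L) : Ω) =
          (b : Ω) - algebraMap C Ω c₃ := by
        rw [IsScalarTower.algebraMap_apply C F Ω]
        rfl
      rw [h2]
      exact hc₃
    have heq : (Module.finrank F L : Ω) * algebraMap C Ω c₃ =
        -∑ σ : L →ₐ[F] Ω, (σ b - algebraMap C Ω c₃) := eq_neg_of_add_eq_zero_left hsum.symm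
    have h6 := congrArg W heq
    rw [map_mul, hm, hWc₃, Valuation.map_neg, one_mul] at h6
    rw [← h6] at hlt
    exact lt_irrefl _ hlt
  have := LinearMap.finrank_le_finrank_of_injective hT
  rwa [Module.finrank_fin_fun] at this

/-- the ramification index divides the degree -/
theorem e_dvd (hW : Inv F W) {t : Ω} (hVF : VG C W (Set.range (algebraMap F Ω)) t)
    (L : IntermediateField F Ω) [FiniteDimensional F L]
    {z : Ω} (hz : z ∈ L) (h3 : T3 C W z) {e : ℕ} {c : C} (hc : c ≠ 0)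
    (hc' : W t = W (algebraMap C Ω c) * W z ^ e) : e ∣ Module.finrank F L := by
  classical
  have : Algebra.IsSeparable F L := Algebra.isSeparable_tower_bot_of_isSeparable F L Ω
  set z' : L := ⟨z, hz⟩ with hz'
  have h1 := Algebra.norm_eq_prod_embeddings (K := F) (E := Ω) z'
  have h2 : W (algebraMap F Ω (Algebra.norm F z')) = W z ^ Module.finrank F L := by
    rw [h1, map_prod]
    rw [Finset.prod_congr rfl fun σ _ => inv_emb hW L σ z', Finset.prod_const, Finset.card_univ,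
      AlgHom.card F L Ω]
  have hz'0 : z' ≠ 0 := fun h => h3.ne (congrArg Subtype.val h)
  obtain ⟨d, n, hd, hn⟩ := hVF (algebraMap F Ω (Algebra.norm F z')) ⟨_, rfl⟩ (by
    rw [Ne, _root_.map_eq_zero]
    exact Algebra.norm_ne_zero_iff.2 hz'0)
  have h4 : W (algebraMap C Ω 1) * W z ^ ((Module.finrank F L : ℕ) : ℤ) =
      W (algebraMap C Ω (d * c ^ n)) * W z ^ ((e : ℤ) * n) := by
    rw [map_one, map_one, one_mul, zpow_natCast, ← h2, hn, hc', mul_zpow, zpow_mul, zpow_natCast,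
      map_mul, map_mul, map_zpow₀, map_zpow₀, mul_assoc]
  have h5 := h3.eq_of ((_root_.map_ne_zero _).2 (mul_ne_zero hd (zpow_ne_zero _ hc))) h4
  exact Int.natCast_dvd_natCast.1 ⟨n, h5⟩

/-- `|p| ≤ |1 - ζ| ^ (p - 1)` -/
theorem W_le_root {p : ℕ} (hp : p.Prime) {ζ : Ω} (hζ : ζ ^ p = 1) (hζ1 : ζ ≠ 1) :
    W (p : Ω) ≤ W (1 - ζ) ^ (p - 1) := by
  have : Fact p.Prime := ⟨hp⟩
  have hprim : IsPrimitiveRoot ζ p := by
    have := IsPrimitiveRoot.orderOf ζ
    rwa [orderOf_eq_prime hζ hζ1] at this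
  have hWζ : W ζ = 1 := by
    have h1 : W ζ ^ p = 1 ^ p := by rw [← map_pow, hζ, map_one, one_pow]
    exact (pow_left_inj₀ zero_le zero_le hp.ne_zero).1 h1
  obtain ⟨q, rfl⟩ : ∃ q, p = q + 1 := ⟨p - 1, (Nat.sub_add_cancel hp.one_lt.le).symm⟩
  have h1 := IsPrimitiveRoot.prod_one_sub_pow_eq_order hprim
  have h2 : ((q + 1 : ℕ) : Ω) = ∏ k ∈ Finset.range q, (1 - ζ ^ (k + 1)) := by
    rw [h1]; push_cast; ring
  rw [h2, map_prod, Nat.add_sub_cancel]
  calc ∏ k ∈ Finset.range q, W (1 - ζ ^ (k + 1)) ≤ ∏ _k ∈ Finset.range q, W (1 - ζ) := by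
        refine Finset.prod_le_prod' fun k _ => ?_
        have h3 : ∀ n : ℕ, W (1 - ζ ^ n) ≤ W (1 - ζ) := by
          intro n
          induction n with
          | zero => rw [pow_zero, sub_self, map_zero]; exact zero_le
          | succ n ih =>
            have e : 1 - ζ ^ (n + 1) = (1 - ζ) + ζ * (1 - ζ ^ n) := by ring
            rw [e]
            refine Valuation.map_add_le W le_rfl ?_
            rw [map_mul, hWζ, one_mul]
            exact ih
        exact h3 _
    _ = W (1 - ζ) ^ q := by rw [Finset.prod_const, Finset.card_range]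

/-- **a Galois extension of degree `p` is not immediate** -/
theorem not_vg [CharZero Ω] (hW : Inv F W) {p : ℕ} (hp : p.Prime) (hWp : W (p : Ω) < 1) {t : Ω}
    (hD : Dn C W (Set.range (algebraMap F Ω)) t) (L : IntermediateField F Ω)
    [FiniteDimensional F L] [IsGalois F L] (hL : Module.finrank F L = p)
    (hV : VG C W (L : Set Ω) t) : False := by
  classical
  have : Fact p.Prime := ⟨hp⟩
  have : CharZero C := (algebraMap C Ω).charZero
  have : CharZero F := (algebraMap F Ω).charZero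
  have hint : ∀ y ∈ L, IsIntegral F y := fun y hy =>
    (Algebra.IsIntegral.isIntegral (R := F) (⟨y, hy⟩ : L)).map L.val
  have hRes : RES C W (L : Set Ω) := fun y hy hy1 => res_alg hD (hint y hy) hy1
  -- primitive root
  have hprim : (primitiveRoots (Module.finrank F L) F).Nonempty := by
    rw [hL]
    obtain ⟨ζ, hζ⟩ := IsAlgClosed.exists_root (cyclotomic p C)
      (degree_cyclotomic_pos p C hp.pos).ne'
    rw [isRoot_cyclotomic_iff] at hζ
    exact ⟨algebraMap C F ζ, (mem_primitiveRoots hp.pos).2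
      (hζ.map_of_injective (algebraMap C F).injective)⟩
  have hcard : Nat.card (L ≃ₐ[F] L) = p := by rw [IsGalois.card_aut_eq_finrank, hL]
  have : IsCyclic (L ≃ₐ[F] L) := isCyclic_of_prime_card hcard
  obtain ⟨α, ⟨a, ha⟩, hα⟩ := exists_root_adjoin_eq_top_of_isCyclic F L hprim
  rw [hL] at ha
  have hαF : α ∉ Set.range (algebraMap F L) := by
    intro h
    have h1 : (IntermediateField.adjoin F {α}) = ⊥ := by
      rw [IntermediateField.adjoin_simple_eq_bot_iff, IntermediateField.mem_bot]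
      exact h
    rw [hα] at h1
    have h2 : Module.finrank F L = 1 := by
      rw [← IntermediateField.finrank_top' (F := F) (E := L), h1, IntermediateField.finrank_bot]
    rw [hL] at h2
    exact hp.ne_one h2
  have hα0 : α ≠ 0 := by
    rintro rfl
    exact hαF ⟨0, map_zero _⟩
  have hαΩ : (α : Ω) ≠ 0 := fun h => hα0 (Subtype.ext h)
  obtain ⟨σ, hσ⟩ : ∃ σ : L ≃ₐ[F] L, σ α ≠ α := by
    by_contra hcon
    push Not at hcon
    exact hαF ((IsGalois.mem_range_algebraMap_iff_fixed α).2 hcon)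
  obtain ⟨tF, htF⟩ := hD.mem
  obtain ⟨d, n, hd, hn⟩ := hV (α : Ω) α.2 hαΩ
  -- normalisation
  obtain ⟨f, hf0, hf⟩ : ∃ f : F, f ≠ 0 ∧ W ((α : Ω) / algebraMap F Ω f - 1) < 1 := by
    set f₀ : F := algebraMap C F d * tF ^ n with hf₀
    have hf₀Ω : algebraMap F Ω f₀ = algebraMap C Ω d * t ^ n := by
      rw [hf₀, map_mul, map_zpow₀, htF, ← IsScalarTower.algebraMap_apply C F Ω]
    have hWf₀ : W (algebraMap F Ω f₀) = W (α : Ω) := by
      rw [hf₀Ω, map_mul, map_zpow₀, hn]
    have hWα : W (α : Ω) ≠ 0 := (Valuation.ne_zero_iff W).2 hαΩ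
    have hf₀0 : f₀ ≠ 0 := by
      intro h
      rw [h, map_zero, map_zero] at hWf₀
      exact hWα hWf₀.symm
    have h1 : W ((α : Ω) / algebraMap F Ω f₀) = 1 := by
      rw [map_div₀, hWf₀, div_self hWα]
    obtain ⟨c, hc⟩ := hRes ((α : Ω) / algebraMap F Ω f₀)
      (L.div_mem α.2 (L.algebraMap_mem f₀)) h1.le
    have hWc : W (algebraMap C Ω c) = 1 := by
      have := Valuation.map_eq_of_sub_lt W (x := (α : Ω) / algebraMap F Ω f₀)
        (y := algebraMap C Ω c) (by rw [h1, Valuation.map_sub_swap]; exact hc)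
      rw [this, h1]
    have hcΩ : algebraMap C Ω c ≠ 0 := by
      intro h
      rw [h, map_zero] at hWc
      exact zero_ne_one hWc
    have hc0 : c ≠ 0 := by
      rintro rfl
      exact hcΩ (map_zero _)
    refine ⟨f₀ * algebraMap C F c, mul_ne_zero hf₀0 ((_root_.map_ne_zero _).2 hc0), ?_⟩
    have e : (α : Ω) / algebraMap F Ω (f₀ * algebraMap C F c) - 1 =
        ((α : Ω) / algebraMap F Ω f₀ - algebraMap C Ω c) / algebraMap C Ω c := by
      rw [map_mul, ← IsScalarTower.algebraMap_apply C F Ω, sub_div, div_self hcΩ, div_div]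
    rw [e, map_div₀, hWc, div_one]
    exact hc
  have hfΩ : algebraMap F Ω f ≠ 0 := (_root_.map_ne_zero _).2 hf0
  set α₂ : L := α / algebraMap F L f with hα₂
  have hα₂Ω : (α₂ : Ω) = (α : Ω) / algebraMap F Ω f := rfl
  have hWα₂1 : W ((α₂ : Ω) - 1) < 1 := by rw [hα₂Ω]; exact hf
  have hWα₂ : W (α₂ : Ω) = 1 := by
    have := Valuation.map_one_add_of_lt (v := W) (x := (α₂ : Ω) - 1) hWα₂1
    rwa [add_sub_cancel] at this
  have hα₂0 : (α₂ : Ω) ≠ 0 := by
    intro h
    rw [h, map_zero] at hWα₂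
    exact zero_ne_one hWα₂
  have hfL : algebraMap F L f ≠ 0 := (_root_.map_ne_zero _).2 hf0
  have hσα₂ : σ α₂ ≠ α₂ := by
    intro h
    rw [hα₂, map_div₀, AlgEquiv.commutes, div_left_inj' hfL] at h
    exact hσ h
  have ha₂ : (α₂ : Ω) ^ p = algebraMap F Ω (a / f ^ p) := by
    have h1 : (α : Ω) ^ p = algebraMap F Ω a := by
      have := congrArg (algebraMap L Ω) ha
      rw [map_pow] at this
      exact this.symm
    rw [hα₂Ω, div_pow, h1, map_div₀, map_pow]
  -- the root of unity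
  set ζ : Ω := ((σ α₂ : L) : Ω) / (α₂ : Ω) with hζ
  have hζp : ζ ^ p = 1 := by
    have h1 : σ α₂ ^ p = α₂ ^ p := by
      rw [← map_pow]
      have h2 : α₂ ^ p = algebraMap F L (a / f ^ p) := Subtype.ext ha₂
      rw [h2, AlgEquiv.commutes]
    have h3 : ((σ α₂ : L) : Ω) ^ p = (α₂ : Ω) ^ p := congrArg (algebraMap L Ω) h1
    rw [hζ, div_pow, h3, div_self (pow_ne_zero _ hα₂0)]
  have hζ1 : ζ ≠ 1 := by
    intro h
    rw [hζ, div_eq_one_iff_eq hα₂0] at h
    exact hσα₂ (Subtype.ext h)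
  have hWpos : 0 < W (p : Ω) := zero_lt_iff.2 ((Valuation.ne_zero_iff W).2
    (Nat.cast_ne_zero.2 hp.ne_zero))
  have hp1 : p - 1 ≠ 0 := by have := hp.two_le; omega
  obtain ⟨lam, hlam⟩ := IsAlgClosed.exists_pow_nat_eq (p : C) (Nat.pos_of_ne_zero hp1)
  set r := W (algebraMap C Ω lam) with hr
  have hrp : r ^ (p - 1) = W (p : Ω) := by
    rw [hr, ← map_pow, ← map_pow, hlam, map_natCast]
  have hr0 : 0 < r := by
    rw [zero_lt_iff]
    intro h
    rw [h, zero_pow hp1] at hrp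
    exact hWpos.ne hrp
  have hr1 : r < 1 := by
    by_contra hcon
    rw [not_lt] at hcon
    exact absurd hWp (not_lt.2 (hrp ▸ one_le_pow_of_one_le' hcon _))
  refine ni_core hp hD hV hRes (α := (α₂ : Ω)) α₂.2 ha₂ hWα₂1 hr0 hr1 hrp ?_
  intro g
  have h1 : r ≤ W (1 - ζ) := by
    rw [← pow_le_pow_iff_left₀ zero_le zero_le hp1, hrp]
    exact W_le_root hp hζp hζ1
  have h2 : W (1 - ζ) = W (((σ α₂ : L) : Ω) - (α₂ : Ω)) := by
    have e : ((σ α₂ : L) : Ω) - (α₂ : Ω) = -((1 - ζ) * α₂) := by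
      rw [hζ, sub_mul, div_mul_cancel₀ _ hα₂0]
      ring
    rw [e, Valuation.map_neg, map_mul, hWα₂, mul_one]
  have h4 : ((σ α₂ : L) : Ω) - (α₂ : Ω) =
      ((σ (α₂ - algebraMap F L g) : L) : Ω) - ((α₂ - algebraMap F L g : L) : Ω) := by
    rw [map_sub, AlgEquiv.commutes]
    push_cast
    ring
  have h5 : ((α₂ - algebraMap F L g : L) : Ω) = (α₂ : Ω) - algebraMap F Ω g := rfl
  calc r ≤ W (1 - ζ) := h1
    _ = W (((σ (α₂ - algebraMap F L g) : L) : Ω) - ((α₂ - algebraMap F L g : L) : Ω)) := by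
        rw [h2, h4]
    _ ≤ max (W ((σ (α₂ - algebraMap F L g) : L) : Ω)) (W ((α₂ - algebraMap F L g : L) : Ω)) :=
        Valuation.map_sub W _ _
    _ = W ((α₂ : Ω) - algebraMap F Ω g) := by rw [inv_aut hW, max_self, h5]

/-- **wild case**: a Galois extension of degree `p` -/
theorem wild_le [CharZero Ω] (hW : Inv F W) {p : ℕ} (hp : p.Prime) (hWp : W (p : Ω) < 1) {t : Ω}
    (hD : Dn C W (Set.range (algebraMap F Ω)) t) (L : IntermediateField F Ω)
    [FiniteDimensional F L] [IsGalois F L] (hL : Module.finrank F L = p)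
    {z : Ω} (hz : z ∈ L) (h3 : T3 C W z) (hV : VG C W (L : Set Ω) z) {e : ℕ} {c : C} (hc : c ≠ 0)
    (hc' : W t = W (algebraMap C Ω c) * W z ^ e) : Module.finrank F L ≤ e := by
  have hdvd := e_dvd hW hD.vg L hz h3 hc hc'
  rw [hL] at hdvd ⊢
  rcases (Nat.dvd_prime hp).1 hdvd with h | h
  · exfalso
    subst h
    rw [pow_one] at hc'
    have hWc : W (algebraMap C Ω c) ≠ 0 :=
      (Valuation.ne_zero_iff W).2 ((_root_.map_ne_zero _).2 hc)
    refine not_vg hW hp hWp hD L hL ?_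
    intro y hy hy0
    obtain ⟨d, n, hd, hn⟩ := hV y hy hy0
    refine ⟨d * (c ^ n)⁻¹, n, mul_ne_zero hd (inv_ne_zero (zpow_ne_zero _ hc)), ?_⟩
    rw [hn, hc', mul_zpow, map_mul, map_mul, map_inv₀, map_inv₀, map_zpow₀, map_zpow₀]
    have := zpow_ne_zero n hWc
    field_simp
  · exact h.ge

end Crest.Agent.R013.LU3_205
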