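import Mathlib
import Crest.Agent.R013.LU1_935
import Crest.Agent.R013.Hens4_899
import Crest.Agent.R013.LU5_935

-- ▼ part R013/LU2_935
section

/-!
# Row 13, SS-LU34, part 2: a Kummer step of degree `p` inside every extension, if there are no
extensions of degree prime to `p` (pure Galois theory; helper935)
-/

open Polynomial IntermediateField

namespace Crest.Agent.R013.LU2_935

section Fin

variable {F N : Type*} [Field F] [Field N] [Algebra F N] [FiniteDimensional F N] [IsGalois F N]

lemma isPGroup_of_deg {p : ℕ} [hp : Fact p.Prime]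
    (hdeg : ∀ a : N, (minpoly F a).natDegree.Coprime p → a ∈ (⊥ : IntermediateField F N)) :
    IsPGroup p (N ≃ₐ[F] N) := by
  classical
  obtain ⟨P⟩ : Nonempty (Sylow p (N ≃ₐ[F] N)) := inferInstance
  have hidx : ¬ p ∣ (P : Subgroup (N ≃ₐ[F] N)).index := P.not_dvd_index
  have hfix : fixedField (P : Subgroup (N ≃ₐ[F] N)) = ⊥ := by
    rw [eq_bot_iff]
    intro a ha
    apply hdeg
    have h1 : Module.finrank F (fixedField (P : Subgroup (N ≃ₐ[F] N))) =
        (P : Subgroup (N ≃ₐ[F] N)).index := by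
      rw [finrank_eq_fixingSubgroup_index, fixingSubgroup_fixedField]
    have h2 : (minpoly F a).natDegree ∣ Module.finrank F (fixedField (P : Subgroup (N ≃ₐ[F] N))) := by
      have h3 : (minpoly F a).natDegree =
        (minpoly F (⟨a, ha⟩ : fixedField (P : Subgroup (N ≃ₐ[F] N)))).natDegree := by
        rw [← minpoly.algebraMap_eq (algebraMap (fixedField (P : Subgroup (N ≃ₐ[F] N))) N).injective]
        rfl
      rw [h3]
      exact minpoly.degree_dvd (Algebra.IsIntegral.isIntegral _)
    rw [h1] at h2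
    rw [Nat.coprime_comm, hp.1.coprime_iff_not_dvd]
    exact fun h => hidx (h.trans h2)
  have htop : (P : Subgroup (N ≃ₐ[F] N)) = ⊤ := by
    rw [← fixingSubgroup_fixedField (P : Subgroup (N ≃ₐ[F] N)), hfix, fixingSubgroup_bot]
  have := P.isPGroup'
  rw [htop] at this
  exact this.of_equiv Subgroup.topEquiv

theorem kummer_step_fin {p : ℕ} [hp : Fact p.Prime] (hζ : (primitiveRoots p F).Nonempty)
    (hdeg : ∀ a : N, (minpoly F a).natDegree.Coprime p → a ∈ (⊥ : IntermediateField F N))
    (L : IntermediateField F N) (hL : L ≠ ⊥) :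
    ∃ α ∈ L, α ∉ (⊥ : IntermediateField F N) ∧ α ^ p ∈ (⊥ : IntermediateField F N) := by
  classical
  have hG := isPGroup_of_deg (F := F) (N := N) (p := p) hdeg
  obtain ⟨m, hm⟩ := IsPGroup.iff_card.1 hG
  obtain ⟨n, hn⟩ := IsPGroup.iff_card.1 (hG.to_subgroup L.fixingSubgroup)
  have hU : L.fixingSubgroup ≠ ⊤ := by
    intro h
    apply hL
    rw [← IsGalois.fixedField_fixingSubgroup L, h, IsGalois.fixedField_top]
  have hlt : n < m := by
    by_contra hcon
    push Not at hcon
    apply hU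
    apply Subgroup.eq_top_of_le_card
    rw [hn, hm]
    exact Nat.pow_le_pow_right hp.1.pos hcon
  obtain ⟨m', rfl⟩ : ∃ m', m = m' + 1 := ⟨m - 1, by omega⟩
  obtain ⟨K, hK, hUK⟩ := Sylow.exists_subgroup_card_pow_prime_le (G := N ≃ₐ[F] N) p (n := n) (m := m')
    (by rw [hm]; exact pow_dvd_pow p (Nat.le_succ _)) L.fixingSubgroup hn (by omega)
  have hidx : K.index = p := by
    have h1 := K.card_mul_index
    rw [hK, hm, pow_succ] at h1
    exact Nat.eq_of_mul_eq_mul_left (pow_pos hp.1.pos m') h1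
  have hnorm : K.Normal := by
    apply Subgroup.normal_of_index_eq_minFac_card
    rw [hidx, hm, Nat.pow_minFac (by omega), hp.1.minFac_eq]
  have hrank : Module.finrank F (fixedField K) = p := by
    rw [finrank_eq_fixingSubgroup_index, fixingSubgroup_fixedField, hidx]
  have hcyc : IsCyclic Gal(fixedField K/F) := by
    have : Nat.card Gal(fixedField K/F) = p := by
      rw [IsGalois.card_aut_eq_finrank, hrank]
    exact isCyclic_of_prime_card this
  obtain ⟨α, hα1, hα2⟩ := exists_root_adjoin_eq_top_of_isCyclic F (fixedField K)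
    (by rw [hrank]; exact hζ)
  rw [hrank] at hα1
  refine ⟨α, ?_, ?_, ?_⟩
  · have : fixedField K ≤ L := by
      rw [← IsGalois.fixedField_fixingSubgroup L]
      exact fixedField_antitone hUK
    exact this α.2
  · intro h
    obtain ⟨a, ha⟩ := mem_bot.1 h
    have h1 : α = algebraMap F (fixedField K) a := Subtype.ext ha.symm
    rw [h1, adjoin_simple_eq_bot_iff.2 (IntermediateField.algebraMap_mem _ a)] at hα2
    have h2 : Module.finrank F (⊥ : IntermediateField F (fixedField K)) =
      Module.finrank F (⊤ : IntermediateField F (fixedField K)) := by rw [hα2]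
    rw [IntermediateField.finrank_bot, IntermediateField.finrank_top', hrank] at h2
    exact hp.1.one_lt.ne h2
  · obtain ⟨a, ha⟩ := hα1
    rw [mem_bot]
    refine ⟨a, ?_⟩
    have := congrArg (Subtype.val) ha
    simpa using this

end Fin

section Inf

variable {F Ω : Type*} [Field F] [Field Ω] [Algebra F Ω] [IsGalois F Ω]

theorem kummer_step {p : ℕ} [hp : Fact p.Prime] (hζ : (primitiveRoots p F).Nonempty)
    (hdeg : ∀ a : Ω, (minpoly F a).natDegree.Coprime p → a ∈ (⊥ : IntermediateField F Ω))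
    (L : IntermediateField F Ω) [FiniteDimensional F L] (hL : L ≠ ⊥) :
    ∃ α ∈ L, α ∉ (⊥ : IntermediateField F Ω) ∧ α ^ p ∈ (⊥ : IntermediateField F Ω) := by
  let N := normalClosure F L Ω
  have hle : L ≤ N := by
    simpa only [fieldRange_val] using L.val.fieldRange_le_normalClosure
  have hgal : IsGalois F N := by
    have : Algebra.IsSeparable F N := Algebra.isSeparable_tower_bot_of_isSeparable F N Ω
    exact ⟨⟩
  let L' : IntermediateField F N := restrict hle
  have hL'1 : lift L' = L := lift_restrict hle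
  have hL' : L' ≠ ⊥ := by
    intro h
    rw [h, lift_bot] at hL'1
    exact hL hL'1.symm
  obtain ⟨α, h1, h2, h3⟩ := kummer_step_fin (F := F) (N := N) (p := p) hζ (by
    intro a ha
    have h4 : (minpoly F (a : Ω)).natDegree = (minpoly F a).natDegree := by
      rw [← minpoly.algebraMap_eq (algebraMap N Ω).injective]
      rfl
    have h5 := hdeg (a : Ω) (by rw [h4]; exact ha)
    obtain ⟨b, hb⟩ := mem_bot.1 h5
    exact mem_bot.2 ⟨b, Subtype.ext hb⟩) L' hL'
  refine ⟨α, ?_, ?_, ?_⟩
  · rw [← hL'1]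
    exact (mem_lift α).2 h1
  · intro h
    obtain ⟨b, hb⟩ := mem_bot.1 h
    exact h2 (mem_bot.2 ⟨b, Subtype.ext hb⟩)
  · obtain ⟨b, hb⟩ := mem_bot.1 h3
    refine mem_bot.2 ⟨b, ?_⟩
    have := congrArg Subtype.val hb
    simpa using this

end Inf

end Crest.Agent.R013.LU2_935
end

-- ▼ part R013/LU3_935
section

/-!
# Row 13, SS-LU34, part 3: immediate extensions of an algebraically closed field (helper935)
-/

open Polynomial
open scoped NNReal

namespace Crest.Agent.R013.LU3_935

open Crest.Agent.R013.LU1_935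

section Basic

variable {M : Type*} [Field M] (w : Valuation M ℝ≥0)

lemma w_natCast_le_one (n : ℕ) : w (n : M) ≤ 1 := by
  induction n with
  | zero => simp
  | succ n ih => rw [Nat.cast_succ]; exact w.map_add_le ih (by simp)

lemma w_intCast_le_one (n : ℤ) : w (n : M) ≤ 1 := by
  obtain ⟨m, rfl | rfl⟩ := n.eq_nat_or_neg
  · simpa using w_natCast_le_one w m
  · rw [Int.cast_neg, Valuation.map_neg]; simpa using w_natCast_le_one w m

/-- a natural number prime to `p` has value `1` if `w p < 1`. -/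
lemma w_natCast_eq_one {p n : ℕ} (hp : w (p : M) < 1) (h : n.Coprime p) : w (n : M) = 1 := by
  refine le_antisymm (w_natCast_le_one w n) ?_
  by_contra hcon
  push Not at hcon
  have h1 : (n : ℤ) * n.gcdA p + p * n.gcdB p = 1 := by
    rw [← Nat.gcd_eq_gcd_ab, h]; rfl
  have h2 : (n : M) * (n.gcdA p : ℤ) + p * (n.gcdB p : ℤ) = 1 := by exact_mod_cast congrArg (Int.cast : ℤ → M) h1
  have h3 : w (1 : M) < 1 := by
    rw [← h2]
    refine w.map_add_lt ?_ ?_
    · rw [map_mul]
      calc w (n : M) * w ((n.gcdA p : ℤ) : M) ≤ w (n : M) * 1 := by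
            gcongr; exact w_intCast_le_one w _
        _ < 1 := by rwa [mul_one]
    · rw [map_mul]
      calc w (p : M) * w ((n.gcdB p : ℤ) : M) ≤ w (p : M) * 1 := by
            gcongr; exact w_intCast_le_one w _
        _ < 1 := by rwa [mul_one]
  simp at h3

/-- In a vanishing finite sum with a non-zero term two terms have the same maximal value. -/
lemma exists_two_max {ι : Type*} (s : Finset ι) (f : ι → M) (h0 : ∑ i ∈ s, f i = 0)
    {j : ι} (hj : j ∈ s) (hfj : f j ≠ 0) :
    ∃ a ∈ s, ∃ b ∈ s, a ≠ b ∧ w (f a) = w (f b) ∧ f a ≠ 0 ∧ ∀ i ∈ s, w (f i) ≤ w (f a) := by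
  classical
  obtain ⟨a, ha, hmax⟩ := s.exists_max_image (fun i => w (f i)) ⟨j, hj⟩
  have hfa : f a ≠ 0 := by
    intro h
    have := hmax j hj
    rw [h, map_zero] at this
    exact hfj ((Valuation.zero_iff w).1 (le_antisymm this zero_le))
  by_contra hcon
  push Not at hcon
  have h1 : ∀ i ∈ s.erase a, w (f i) < w (f a) := by
    intro i hi
    have hi' := Finset.mem_erase.1 hi
    refine lt_of_le_of_ne (hmax i hi'.2) ?_
    intro h
    obtain ⟨b, hb, hb2⟩ := hcon a ha i hi'.2 (Ne.symm hi'.1) h.symm hfa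
    exact absurd (hmax b hb) (not_le.2 hb2)
  have h2 : w (∑ i ∈ s.erase a, f i) < w (f a) := by
    apply Valuation.map_sum_lt
    · simpa using hfa
    · exact h1
  have h3 : f a = - ∑ i ∈ s.erase a, f i := by
    rw [← Finset.add_sum_erase s f ha] at h0
    exact eq_neg_of_add_eq_zero_left h0
  rw [← Valuation.map_neg, ← h3] at h2
  exact lt_irrefl _ h2

end Basic

section Imm

variable {k M : Type*} [Field k] [Field M] [Algebra k M] (w : Valuation M ℝ≥0)

/-- `z` is approximated by a constant: `w (z - c) < w z` for some `c ∈ k`. -/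
def Im (z : M) : Prop := ∃ c : k, w (z - algebraMap k M c) < w z

variable {w}

lemma Im.mul {z z' : M} (h : Im (k := k) w z) (h' : Im (k := k) w z') : Im (k := k) w (z * z') := by
  obtain ⟨c, hc⟩ := h
  obtain ⟨c', hc'⟩ := h'
  have hz : 0 < w z := lt_of_le_of_lt zero_le hc
  have hz' : 0 < w z' := lt_of_le_of_lt zero_le hc'
  refine ⟨c * c', ?_⟩
  have e : z * z' - algebraMap k M (c * c') = z * (z' - algebraMap k M c') +
      (z - algebraMap k M c) * algebraMap k M c' := by rw [map_mul]; ring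
  rw [e, map_mul]
  refine w.map_add_lt ?_ ?_
  · rw [map_mul]; exact mul_lt_mul_of_pos_left hc' hz
  · rw [map_mul, w_eq_of_sub_lt w hc']; exact mul_lt_mul_of_pos_right hc hz'

lemma Im.inv {z : M} (h : Im (k := k) w z) : Im (k := k) w z⁻¹ := by
  obtain ⟨c, hc⟩ := h
  have hz : 0 < w z := lt_of_le_of_lt zero_le hc
  have hcz := w_eq_of_sub_lt w hc
  have hz0 : z ≠ 0 := by rintro rfl; simp at hz
  have hc0 : algebraMap k M c ≠ 0 := by intro h; rw [h, map_zero] at hcz; exact hz.ne hcz
  refine ⟨c⁻¹, ?_⟩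
  have e : z⁻¹ - algebraMap k M c⁻¹ = (algebraMap k M c - z) * (z⁻¹ * (algebraMap k M c)⁻¹) := by
    rw [map_inv₀]; field_simp
  rw [e, map_mul, map_mul, map_inv₀, map_inv₀, hcz, w_sub_comm]
  calc w (z - algebraMap k M c) * ((w z)⁻¹ * (w z)⁻¹) < w z * ((w z)⁻¹ * (w z)⁻¹) :=
        mul_lt_mul_of_pos_right hc (by positivity)
    _ = (w z)⁻¹ := by field_simp

lemma Im.congr {z s : M} (h : Im (k := k) w s) (hs : w (z - s) < w z) : Im (k := k) w z := by
  obtain ⟨c, hc⟩ := h
  refine ⟨c, ?_⟩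
  rw [w_eq_of_sub_lt w hs] at hc
  exact w_sub_lt w hs hc

/-- polynomials at a type 4 point are immediate -/
lemma im_aeval [IsAlgClosed k] {x : M}
    (hx : ∀ c : k, ∃ c' : k, w (x - algebraMap k M c') < w (x - algebraMap k M c))
    (f : k[X]) (hf : f ≠ 0) : Im (k := k) w (aeval x f) := by
  have hs := IsAlgClosed.splits f
  have hfac : f = C f.leadingCoeff * (f.roots.map fun a => X - C a).prod := hs.eq_prod_roots
  have key : ∀ s : Multiset k, Im (k := k) w (aeval x (s.map fun a => X - C a).prod) := by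
    intro s
    induction s using Multiset.induction_on with
    | empty => exact ⟨1, by simp⟩
    | cons a s ih =>
      rw [Multiset.map_cons, Multiset.prod_cons, map_mul]
      refine Im.mul ?_ ih
      obtain ⟨c, hc⟩ := hx a
      refine ⟨c - a, ?_⟩
      have e : aeval x (X - C a : k[X]) - algebraMap k M (c - a) = x - algebraMap k M c := by
        simp
      rw [e]
      simpa using hc
  rw [hfac, map_mul, aeval_C]
  refine Im.mul ⟨f.leadingCoeff, ?_⟩ (key _)
  rw [sub_self, map_zero]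
  have : algebraMap k M f.leadingCoeff ≠ 0 := by simpa using hf
  simpa [pos_iff_ne_zero] using this

lemma aeval_ne_zero [IsAlgClosed k] {x : M}
    (hx : ∀ c : k, ∃ c' : k, w (x - algebraMap k M c') < w (x - algebraMap k M c))
    {f : k[X]} (hf : f ≠ 0) : aeval x f ≠ 0 := by
  obtain ⟨c, hc⟩ := im_aeval hx f hf
  intro h
  rw [h] at hc
  simp at hc

lemma im_clo [IsAlgClosed k] {x : M}
    (hx : ∀ c : k, ∃ c' : k, w (x - algebraMap k M c') < w (x - algebraMap k M c))
    {z : M} (hz : z ∈ clo w (IntermediateField.adjoin k {x})) (hz0 : z ≠ 0) :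
    Im (k := k) w z := by
  have hwz : 0 < w z := by simpa [pos_iff_ne_zero] using hz0
  obtain ⟨s, hs, hzs⟩ := hz (w z) hwz
  refine Im.congr ?_ hzs
  have hs0 : s ≠ 0 := by
    rintro rfl
    rw [sub_zero] at hzs
    exact lt_irrefl _ hzs
  rw [IntermediateField.mem_adjoin_simple_iff] at hs
  obtain ⟨f, g, rfl⟩ := hs
  have hf : f ≠ 0 := by rintro rfl; simp at hs0
  have hg : g ≠ 0 := by rintro rfl; simp at hs0
  rw [div_eq_mul_inv]
  exact (im_aeval hx f hf).mul (im_aeval hx g hg).inv

/-- **algebraic extensions of an immediate extension of an algebraically closed field are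
immediate** -/
theorem im_of_algebraic [IsAlgClosed k] (H : IntermediateField k M) [Algebra.IsAlgebraic H M]
    (hH : ∀ h ∈ H, h ≠ 0 → Im (k := k) w h) (z : M) (hz : z ≠ 0) : Im (k := k) w z := by
  classical
  -- value
  have hval : ∀ z : M, z ≠ 0 → ∃ d : k, w z = w (algebraMap k M d) := by
    intro z hz
    set P := minpoly H z with hP
    have hint : IsIntegral H z := Algebra.IsIntegral.isIntegral z
    have h0 : ∑ i ∈ Finset.range (P.natDegree + 1), (algebraMap H M (P.coeff i)) * z ^ i = 0 := by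
      have := minpoly.aeval H z
      rw [aeval_eq_sum_range] at this
      simpa [Algebra.smul_def] using this
    obtain ⟨a, ha, b, hb, hab, hwab, hne, -⟩ := exists_two_max w _ _ h0
      (j := P.natDegree) (by simp) (by
        have : P.coeff P.natDegree = 1 := (minpoly.monic hint)
        rw [this]; simpa using pow_ne_zero _ hz)
    have aux : ∀ a b : ℕ, a < b → w ((algebraMap H M (P.coeff a)) * z ^ a) =
        w ((algebraMap H M (P.coeff b)) * z ^ b) → (algebraMap H M (P.coeff a)) * z ^ a ≠ 0 →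
        ∃ d : k, w z = w (algebraMap k M d) := by
      intro a b hab hw hne
      have hca : (P.coeff a : M) ≠ 0 := fun h => hne (by
        have : algebraMap H M (P.coeff a) = 0 := h
        rw [this, zero_mul])
      have hne' : (algebraMap H M (P.coeff b)) * z ^ b ≠ 0 := by
        intro h
        rw [h, map_zero] at hw
        exact hne ((Valuation.zero_iff w).1 hw)
      have hcb : (P.coeff b : M) ≠ 0 := fun h => hne' (by
        have : algebraMap H M (P.coeff b) = 0 := h
        rw [this, zero_mul])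
      obtain ⟨c, hc⟩ := (hH _ (P.coeff a).2 hca)
      obtain ⟨c', hc'⟩ := (hH _ (P.coeff b).2 hcb)
      have hc1 := w_eq_of_sub_lt w hc
      have hc1' := w_eq_of_sub_lt w hc'
      obtain ⟨e, he⟩ := IsAlgClosed.exists_pow_nat_eq (c / c') (n := b - a) (by omega)
      refine ⟨e, ?_⟩
      have hwz : 0 < w z := by simpa [pos_iff_ne_zero] using hz
      have hwb : w (P.coeff b : M) ≠ 0 := by simpa using hcb
      have h1 : w z ^ (b - a) = w (algebraMap k M e) ^ (b - a) := by
        rw [← map_pow w (algebraMap k M e), ← map_pow (algebraMap k M), he, map_div₀ (algebraMap k M),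
          map_div₀ w, hc1, hc1', eq_div_iff hwb]
        rw [map_mul, map_mul, map_pow, map_pow] at hw
        have h2 : w z ^ b = w z ^ (b - a) * w z ^ a := by rw [← pow_add]; congr 1; omega
        rw [h2] at hw
        have h3 : w z ^ a ≠ 0 := (pow_pos hwz a).ne'
        apply mul_right_cancel₀ h3
        change w (algebraMap H M (P.coeff a)) * w z ^ a = w (algebraMap H M (P.coeff b)) * _ at hw
        calc w z ^ (b - a) * w (P.coeff b : M) * w z ^ a
            = w (P.coeff b : M) * (w z ^ (b - a) * w z ^ a) := by ring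
          _ = w (P.coeff a : M) * w z ^ a := hw.symm
      exact (pow_left_inj₀ zero_le zero_le (by omega : b - a ≠ 0)).1 h1
    rcases lt_or_gt_of_ne hab with h | h
    · exact aux a b h hwab hne
    · refine aux b a h hwab.symm ?_
      intro h'
      rw [h', map_zero] at hwab
      exact hne ((Valuation.zero_iff w).1 hwab)
  -- reduction to value 1
  obtain ⟨d, hd⟩ := hval z hz
  have hd0 : algebraMap k M d ≠ 0 := by
    intro h
    rw [h, map_zero] at hd
    exact hz ((Valuation.zero_iff w).1 hd)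
  suffices h : Im (k := k) w (z / algebraMap k M d) by
    have h2 : z = (z / algebraMap k M d) * algebraMap k M d := by field_simp
    rw [h2]
    refine h.mul ⟨d, ?_⟩
    rw [sub_self, map_zero]
    simpa [pos_iff_ne_zero] using hd0
  set y := z / algebraMap k M d with hy
  have hwy : w y = 1 := by
    rw [hy, map_div₀, hd, div_self]
    simpa using hd0
  have hy0 : y ≠ 0 := by rintro h; rw [h, map_zero] at hwy; exact zero_ne_one hwy
  set P := minpoly H y with hP
  have hint : IsIntegral H y := Algebra.IsIntegral.isIntegral y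
  have hsum0 : ∑ i ∈ Finset.range (P.natDegree + 1), (algebraMap H M (P.coeff i)) * y ^ i = 0 := by
    have := minpoly.aeval H y
    rw [aeval_eq_sum_range] at this
    simpa [Algebra.smul_def] using this
  obtain ⟨a, ha, hmax⟩ := (Finset.range (P.natDegree + 1)).exists_max_image
    (fun i => w (algebraMap H M (P.coeff i))) ⟨0, by simp⟩
  have hca0 : algebraMap H M (P.coeff a) ≠ 0 := by
    intro h
    have := hmax P.natDegree (by simp)
    have h1 : P.coeff P.natDegree = 1 := (minpoly.monic hint)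
    rw [h1, h, map_zero, map_one, map_one] at this
    exact absurd this (not_le.2 zero_lt_one)
  have hwa0 : 0 < w (algebraMap H M (P.coeff a)) := by simpa [pos_iff_ne_zero] using hca0
  -- normalised coefficients
  let g : ℕ → H := fun i => P.coeff i / P.coeff a
  have hg1 : ∀ i ∈ Finset.range (P.natDegree + 1), w (algebraMap H M (g i)) ≤ 1 := by
    intro i hi
    simp only [g]
    rw [map_div₀, map_div₀]
    exact div_le_one_of_le₀ (hmax i hi) zero_le
  have hga : g a = 1 := by
    simp only [g]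
    rw [div_self]
    intro h
    rw [h, map_zero] at hca0
    exact hca0 rfl
  have hgsum : ∑ i ∈ Finset.range (P.natDegree + 1), (algebraMap H M (g i)) * y ^ i = 0 := by
    have : ∀ i, algebraMap H M (g i) * y ^ i =
        (algebraMap H M (P.coeff i) * y ^ i) * (algebraMap H M (P.coeff a))⁻¹ := by
      intro i
      simp only [g]
      rw [map_div₀]; field_simp
    simp_rw [this]
    rw [← Finset.sum_mul, hsum0, zero_mul]
  have hch : ∀ i, ∃ c : k, w (algebraMap H M (g i)) = 1 → w (algebraMap H M (g i) - algebraMap k M c) < 1 := by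
    intro i
    by_cases h : w (algebraMap H M (g i)) = 1
    · have hne : (g i : M) ≠ 0 := by
        intro h'
        have : algebraMap H M (g i) = 0 := h'
        rw [this, map_zero] at h
        exact zero_ne_one h
      obtain ⟨c, hc⟩ := hH _ (g i).2 hne
      exact ⟨c, fun _ => by
        have h2 : w (algebraMap H M (g i) - algebraMap k M c) < w (algebraMap H M (g i)) := hc
        rwa [h] at h2⟩
    · exact ⟨0, fun h' => absurd h' h⟩
  choose c hc using hch
  let S := (Finset.range (P.natDegree + 1)).filter (fun i => w (algebraMap H M (g i)) = 1)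
  let Q : k[X] := ∑ i ∈ S, monomial i (c i)
  have hcoeff : ∀ i, Q.coeff i = if i ∈ S then c i else 0 := by
    intro i
    simp only [Q, finsetSum_coeff, coeff_monomial]
    rw [Finset.sum_ite_eq' S i (fun j => c j)]
  have hci : ∀ i ∈ S, w (algebraMap k M (c i)) = 1 := by
    intro i hi
    have h1 := (Finset.mem_filter.1 hi).2
    have h2 := hc i h1
    rw [← h1] at h2
    rw [w_eq_of_sub_lt w h2, h1]
  have haS : a ∈ S := by
    refine Finset.mem_filter.2 ⟨ha, ?_⟩
    rw [hga, map_one, map_one]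
  have hQ0 : Q ≠ 0 := by
    intro h
    have h1 := hcoeff a
    rw [h, coeff_zero, if_pos haS] at h1
    have h2 := hci a haS
    rw [← h1, map_zero, map_zero] at h2
    exact zero_ne_one h2
  have hlead : w (algebraMap k M Q.leadingCoeff) = 1 := by
    have h1 : Q.natDegree ∈ S := by
      by_contra hcon
      have h2 := hcoeff Q.natDegree
      rw [if_neg hcon] at h2
      exact hQ0 (leadingCoeff_eq_zero.1 h2)
    rw [leadingCoeff, hcoeff, if_pos h1]
    exact hci _ h1
  have hwpow : ∀ i : ℕ, w (y ^ i) = 1 := by intro i; rw [map_pow, hwy, one_pow]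
  have hQy : w (aeval y Q) < 1 := by
    have h1 : aeval y Q = ∑ i ∈ S, algebraMap k M (c i) * y ^ i := by
      simp only [Q, map_sum, aeval_monomial]
    have h2 : aeval y Q = ∑ i ∈ Finset.range (P.natDegree + 1),
        (if i ∈ S then algebraMap k M (c i) - algebraMap H M (g i) else - algebraMap H M (g i)) * y ^ i := by
      have h3 : ∀ i ∈ Finset.range (P.natDegree + 1),
        (if i ∈ S then algebraMap k M (c i) - algebraMap H M (g i) else - algebraMap H M (g i)) * y ^ i =
        (if i ∈ S then algebraMap k M (c i) * y ^ i else 0) - algebraMap H M (g i) * y ^ i := by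
        intro i _
        split_ifs <;> ring
      rw [Finset.sum_congr rfl h3, Finset.sum_sub_distrib, hgsum, sub_zero, h1]
      rw [← Finset.sum_filter]
      congr 1
      ext i
      simp only [Finset.mem_filter, S]
      tauto
    rw [h2]
    apply Valuation.map_sum_lt w one_ne_zero
    intro i hi
    rw [map_mul, hwpow, mul_one]
    split_ifs with h
    · rw [w_sub_comm]
      exact hc i (Finset.mem_filter.1 h).2
    · rw [Valuation.map_neg]
      refine lt_of_le_of_ne (hg1 i hi) ?_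
      intro h'
      exact h (Finset.mem_filter.2 ⟨hi, h'⟩)
  have hs := IsAlgClosed.splits Q
  have hfac : Q = C Q.leadingCoeff * (Q.roots.map fun a => X - C a).prod := hs.eq_prod_roots
  have hprod : w (aeval y (Q.roots.map fun a => X - C a).prod) < 1 := by
    rw [hfac, map_mul, aeval_C, map_mul, hlead, one_mul] at hQy
    convert hQy using 3
    
  have hex : ∃ γ : k, w (y - algebraMap k M γ) < 1 := by
    by_contra hcon
    push Not at hcon
    have : ∀ s : Multiset k, 1 ≤ w (aeval y (s.map fun a => X - C a).prod) := by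
      intro s
      induction s using Multiset.induction_on with
      | empty => simp
      | cons a s ih =>
        rw [Multiset.map_cons, Multiset.prod_cons, map_mul, map_mul]
        have h1 : w (aeval y (X - C a : k[X])) = w (y - algebraMap k M a) := by simp
        rw [h1]
        exact one_le_mul_of_one_le_of_one_le (hcon a) ih
    exact absurd (this Q.roots) (not_le.2 hprod)
  obtain ⟨γ, hγ⟩ := hex
  exact ⟨γ, by rw [hwy]; exact hγ⟩

end Imm

end Crest.Agent.R013.LU3_935
end

-- ▼ part R013/LU4_935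
section

/-!
# Row 13, SS-LU34, part 4: type 4 points: the degree `p` step and the tower (helper935)
-/

open Polynomial IntermediateField
open scoped NNReal

namespace Crest.Agent.R013.LU4_935

open Crest.Agent.R013.LU1_935 Crest.Agent.R013.LU2_935 Crest.Agent.R013.LU3_935
open Crest.Agent.R013.Hens_899

/-- the linear term of `t` dominates on the disc of radius `|d|` around `c`
(helper953's formulation) -/
def LinDom {k : Type*} [Field k] (v : Valuation k ℝ≥0) (t : k[X]) (c d : k) : Prop :=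
  ∀ j ≥ 2, v ((taylor c t).coeff j) * v d ^ j < v ((taylor c t).coeff 1) * v d

/-- THEOREM LIN of helper953 (task SS-LIN), as a proposition. -/
def LinStmt (k : Type*) [Field k] (p : ℕ) : Prop :=
  ∀ (v : Valuation k ℝ≥0) (_ : v p < 1) (_ : v p ≠ 0) (w : Valuation k[X] ℝ≥0)
    (_ : ∀ c, w (C c) = v c) (_ : ∀ f ≠ 0, ∃ c : k, w (f - C c) < w f) (a : k[X]) (_ : a ≠ 0),
    (∃ b : k[X], w (a * b ^ p - 1) ^ (p - 1) < v p ^ p) ∨
    (∃ b ≠ 0, ∃ c d : k, d ≠ 0 ∧ w (X - C c) ≤ v d ∧ LinDom v (a * b ^ p) c d)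

section LinClo

variable {k M : Type*} [Field k] [Field M] [Algebra k M] {w : Valuation M ℝ≥0}

lemma aeval_taylor_sum (t : k[X]) (c : k) (z : M) :
    aeval z t = ∑ j ∈ Finset.range ((taylor c t).natDegree + 1),
      algebraMap k M ((taylor c t).coeff j) * (z - algebraMap k M c) ^ j := by
  conv_lhs => rw [← sum_taylor_eq t c]
  rw [sum_over_range _ (by simp)]
  simp [map_sum, map_mul, map_pow]

/-- if `t(x)` has a dominating linear term on a disc around the type 4 point `x` then `x` lies in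
the closure of every field containing `t(x)`. -/
theorem lin_clo [IsAlgClosed k] {x : M}
    {t : k[X]} {c d : k} (hd : d ≠ 0)
    (hcd : w (x - algebraMap k M c) ≤ w (algebraMap k M d))
    (hlin : LinDom (w.comap (algebraMap k M)) t c d) {G : IntermediateField k M}
    (ht : aeval x t ∈ G) : x ∈ clo w G := by
  classical
  set T : ℕ → k := fun j => (taylor c t).coeff j with hT
  set ρ := w (algebraMap k M d) with hρ
  have hρ0 : 0 < ρ := by
    rw [hρ, pos_iff_ne_zero]
    simpa using hd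
  have hlin' : ∀ j ≥ 2, w (algebraMap k M (T j)) * ρ ^ j < w (algebraMap k M (T 1)) * ρ := hlin
  have hT1 : 0 < w (algebraMap k M (T 1)) := by
    have := lt_of_le_of_lt zero_le (hlin' 2 le_rfl)
    exact pos_of_mul_pos_left this zero_le
  have hT10 : algebraMap k M (T 1) ≠ 0 := by
    intro h; rw [h, map_zero] at hT1; exact lt_irrefl _ hT1
  -- the contraction factor
  let n := (taylor c t).natDegree
  let θ : ℝ≥0 := (Finset.range (n + 1)).sup
    (fun j => if 2 ≤ j then w (algebraMap k M (T j)) * ρ ^ (j - 1) / w (algebraMap k M (T 1)) else 0)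
  have hθ1 : θ < 1 := by
    rw [Finset.sup_lt_iff (by simp)]
    intro j _
    split_ifs with h
    · rw [div_lt_one hT1]
      have h1 := hlin' j h
      obtain ⟨i, rfl⟩ : ∃ i, j = i + 1 := ⟨j - 1, by omega⟩
      rw [pow_succ, ← mul_assoc] at h1
      exact lt_of_mul_lt_mul_right h1 zero_le
    · exact zero_lt_one
  have hθj : ∀ j ≥ 2, j ∈ Finset.range (n + 1) →
      w (algebraMap k M (T j)) * ρ ^ (j - 1) ≤ θ * w (algebraMap k M (T 1)) := by
    intro j hj hjn
    rw [← div_le_iff₀ hT1]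
    have := Finset.le_sup (f := fun j => if 2 ≤ j then w (algebraMap k M (T j)) * ρ ^ (j - 1) /
      w (algebraMap k M (T 1)) else 0) hjn
    simpa [hj] using this
  -- the approximation
  have happ : ∀ c' : k, w (x - algebraMap k M c') ≤ ρ →
      ∃ g ∈ G, g ∈ IntermediateField.adjoin k {x} ∧ w (g - x) ≤ θ * w (x - algebraMap k M c') := by
    intro c' hc'
    set g := (aeval x t - algebraMap k M (eval c' t)) / algebraMap k M (T 1) + algebraMap k M c'
      with hg
    refine ⟨g, ?_, ?_, ?_⟩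
    · exact add_mem (div_mem (sub_mem ht (G.algebraMap_mem _)) (G.algebraMap_mem _))
        (G.algebraMap_mem _)
    · refine add_mem (div_mem (sub_mem ?_ (IntermediateField.algebraMap_mem _ _)) (IntermediateField.algebraMap_mem _ _))
        (IntermediateField.algebraMap_mem _ _)
      rw [mem_adjoin_simple_iff]
      exact ⟨t, 1, by simp⟩
    · have h1 : aeval x t - algebraMap k M (eval c' t) =
          ∑ j ∈ Finset.range (n + 1), algebraMap k M (T j) *
            ((x - algebraMap k M c) ^ j - (algebraMap k M c' - algebraMap k M c) ^ j) := by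
        have h2 : algebraMap k M (eval c' t) = aeval (algebraMap k M c') t := by
          rw [aeval_algebraMap_apply, coe_aeval_eq_eval]
        rw [h2, aeval_taylor_sum t c x, aeval_taylor_sum t c (algebraMap k M c'),
          ← Finset.sum_sub_distrib]
        exact Finset.sum_congr rfl fun j _ => by rw [mul_sub]
      have hcc : w (algebraMap k M c' - algebraMap k M c) ≤ ρ := by
        refine w_sub_le' w (b := x) ?_ hcd
        rw [w_sub_comm]; exact hc'
      have h3 : w (aeval x t - algebraMap k M (eval c' t) -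
          algebraMap k M (T 1) * (x - algebraMap k M c')) ≤
          θ * w (algebraMap k M (T 1)) * w (x - algebraMap k M c') := by
        have h4 : aeval x t - algebraMap k M (eval c' t) -
            algebraMap k M (T 1) * (x - algebraMap k M c') =
            ∑ j ∈ Finset.range (n + 1), (if 2 ≤ j then algebraMap k M (T j) *
            ((x - algebraMap k M c) ^ j - (algebraMap k M c' - algebraMap k M c) ^ j) else 0) := by
          by_cases hn : n = 0
          · exfalso
            have : T 1 = 0 := by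
              apply coeff_eq_zero_of_natDegree_lt
              change n < 1
              omega
            rw [this, map_zero] at hT10
            exact hT10 rfl
          have h5 : algebraMap k M (T 1) * (x - algebraMap k M c') = ∑ j ∈ Finset.range (n + 1),
            (if j = 1 then algebraMap k M (T j) *
            ((x - algebraMap k M c) ^ j - (algebraMap k M c' - algebraMap k M c) ^ j) else 0) := by
            rw [Finset.sum_ite_eq' (Finset.range (n + 1)) 1]
            rw [if_pos (Finset.mem_range.2 (by omega))]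
            ring
          rw [h5, h1, ← Finset.sum_sub_distrib]
          refine Finset.sum_congr rfl fun j _ => ?_
          rcases Nat.lt_or_ge j 2 with hj | hj
          · interval_cases j
            · simp
            · simp
          · rw [if_neg (by omega), if_pos hj, sub_zero]
        rw [h4]
        apply Valuation.map_sum_le
        intro j hj
        split_ifs with h
        · rw [map_mul]
          obtain ⟨i, rfl⟩ : ∃ i, j = i + 1 := ⟨j - 1, by omega⟩
          have h6 := pow_sub_le w hcd hcc i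
          have h7 := hθj (i + 1) h hj
          have h8 : x - algebraMap k M c - (algebraMap k M c' - algebraMap k M c) =
            x - algebraMap k M c' := by ring
          rw [h8] at h6
          calc w (algebraMap k M (T (i + 1))) * _ ≤
              w (algebraMap k M (T (i + 1))) * (w (x - algebraMap k M c') * ρ ^ i) := by
                gcongr
            _ = (w (algebraMap k M (T (i + 1))) * ρ ^ (i + 1 - 1)) * w (x - algebraMap k M c') := by
                rw [Nat.add_sub_cancel]; ring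
            _ ≤ _ := by gcongr
        · rw [map_zero]; exact zero_le
      have h9 : g - x = (aeval x t - algebraMap k M (eval c' t) -
          algebraMap k M (T 1) * (x - algebraMap k M c')) / algebraMap k M (T 1) := by
        rw [hg]; field_simp; ring
      rw [h9, map_div₀, div_le_iff₀ hT1]
      calc _ ≤ _ := h3
        _ = _ := by ring
  by_cases hr0 : ∀ e : ℝ≥0, 0 < e → ∃ c' : k, w (x - algebraMap k M c') < e
  · intro e he
    obtain ⟨c', hc'⟩ := hr0 e he
    exact ⟨algebraMap k M c', G.algebraMap_mem _, hc'⟩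
  push Not at hr0
  obtain ⟨e₀, he₀, hr1⟩ := hr0
  set r : ℝ≥0 := ⨅ c' : k, w (x - algebraMap k M c') with hr
  have hrle : ∀ c', r ≤ w (x - algebraMap k M c') := fun c' => ciInf_le (OrderBot.bddBelow _) c'
  have hrpos : 0 < r := lt_of_lt_of_le he₀ (le_ciInf hr1)
  obtain ⟨c₁, hc₁⟩ : ∃ c₁ : k, θ * w (x - algebraMap k M c₁) < r := by
    by_cases hθ0 : θ = 0
    · exact ⟨c, by rw [hθ0, zero_mul]; exact hrpos⟩
    · have hθpos : 0 < θ := pos_iff_ne_zero.2 hθ0
      have : r < r / θ := by
        rw [lt_div_iff₀ hθpos]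
        calc r * θ < r * 1 := mul_lt_mul_of_pos_left hθ1 hrpos
          _ = r := mul_one r
      obtain ⟨c₁, hc₁⟩ := exists_lt_of_ciInf_lt (this : (⨅ c' : k, w (x - algebraMap k M c')) < r / θ)
      refine ⟨c₁, ?_⟩
      rwa [lt_div_iff₀ hθpos, mul_comm] at hc₁
  obtain ⟨c₂, hc₂, hc₂'⟩ : ∃ c₂ : k, w (x - algebraMap k M c₂) ≤ ρ ∧
      θ * w (x - algebraMap k M c₂) < r := by
    rcases le_or_gt (w (x - algebraMap k M c₁)) ρ with h | h
    · exact ⟨c₁, h, hc₁⟩
    · refine ⟨c, hcd, lt_of_le_of_lt ?_ hc₁⟩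
      gcongr
      exact hcd.trans h.le
  obtain ⟨g, hgG, hgx, hg⟩ := happ c₂ hc₂
  have h1 := perturb w (y := x) (y' := g) (r := r) hrle (lt_of_le_of_lt hg hc₂')
    (le_clo w _ hgx)
  exact clo_mono w ((IntermediateField.adjoin_simple_le_iff).2 hgG) h1

end LinClo

section Step

variable {k Ω : Type*} [Field k] [Field Ω] [Algebra k Ω]

lemma charZero_of_algebraMap {F Ω : Type*} [Field F] [Field Ω] [Algebra F Ω] [CharZero Ω] :
    CharZero F :=
  ⟨fun a b h => Nat.cast_injective (R := Ω) (by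
    have := congrArg (algebraMap F Ω) h
    simpa using this)⟩

lemma isGalois_of_alg [IsAlgClosed Ω] [CharZero Ω] (F : IntermediateField k Ω)
    [Algebra.IsAlgebraic F Ω] : IsGalois F Ω := by
  have : IsAlgClosure F Ω := ⟨inferInstance, inferInstance⟩
  have : CharZero F := charZero_of_algebraMap (Ω := Ω)
  exact IsAlgClosure.isGalois F Ω

/-- `p`-th roots of unity lie in `k` -/
lemma mem_of_pow_eq_one [IsAlgClosed k] [CharZero Ω] {p : ℕ} (hp : p ≠ 0) {z : Ω} (hz : z ^ p = 1) :
    ∃ c : k, algebraMap k Ω c = z := by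
  have : CharZero k := charZero_of_algebraMap (Ω := Ω)
  have : NeZero (p : k) := ⟨by exact_mod_cast hp⟩
  have : NeZero p := ⟨hp⟩
  obtain ⟨ζ, hζ⟩ := HasEnoughRootsOfUnity.exists_primitiveRoot k p
  have h1 : IsPrimitiveRoot (algebraMap k Ω ζ) p := hζ.map_of_injective (algebraMap k Ω).injective
  obtain ⟨i, -, hi⟩ := h1.eq_pow_of_pow_eq_one hz
  exact ⟨ζ ^ i, by rw [map_pow, hi]⟩

variable [IsAlgClosed k] [IsAlgClosed Ω] [CharZero Ω] {w : Valuation Ω ℝ≥0} {p : ℕ}
  [hp : Fact p.Prime]

/-- **the degree `p` step at a type 4 point** -/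
theorem step (hlin : LinStmt k p) (hp1 : w (p : Ω) < 1) {F : IntermediateField k Ω}
    [Algebra.IsAlgebraic F Ω] (hF : Inv F w) {x : Ω} (hxF : x ∈ F)
    (hd : F ≤ clo w (IntermediateField.adjoin k {x}))
    (hx : ∀ c : k, ∃ c' : k, w (x - algebraMap k Ω c') < w (x - algebraMap k Ω c))
    {α : Ω} (hα : α ^ p ∈ F) (hαF : α ∉ F) :
    ∃ y ∈ F ⊔ IntermediateField.adjoin k {α}, F ≤ clo w (IntermediateField.adjoin k {y}) ∧
      α ∈ clo w (IntermediateField.adjoin k {y}) := by
  classical
  have hgal : IsGalois F Ω := isGalois_of_alg F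
  have hpp := hp.1
  have hp2 := hpp.two_le
  have hpΩ : (p : Ω) ≠ 0 := by exact_mod_cast hpp.ne_zero
  have hpF : (p : F) ≠ 0 := by
    intro h
    apply hpΩ
    rw [← map_natCast (algebraMap F Ω), h, map_zero]
  have hwp : 0 < w (p : Ω) := by simpa [pos_iff_ne_zero] using hpΩ
  have hα0 : α ≠ 0 := by rintro rfl; exact hαF F.zero_mem
  have hα0' : α ^ p ≠ 0 := pow_ne_zero _ hα0
  have hwα : 0 < w (α ^ p) := by
    rw [pos_iff_ne_zero]
    exact (Valuation.ne_zero_iff w).2 hα0'
  have hxle : IntermediateField.adjoin k {x} ≤ F := IntermediateField.adjoin_simple_le_iff.2 hxF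
  -- root of unity argument
  have hroot : ∀ z : Ω, ∀ u ∈ F, ∀ v ∈ F, v ≠ 0 → u ≠ 0 → (z * v) ^ p = u ^ p → z ∈ F := by
    intro z u hu v hv hv0 hu0 h
    have h1 : (z * v / u) ^ p = 1 := by
      rw [div_pow, h, div_self (pow_ne_zero _ hu0)]
    obtain ⟨c, hc⟩ := mem_of_pow_eq_one (k := k) hpp.ne_zero h1
    have h2 : z = algebraMap k Ω c * u / v := by
      rw [hc]; field_simp
    rw [h2]
    exact div_mem (mul_mem (F.algebraMap_mem c) hu) hv
  -- approximation by a rational function
  obtain ⟨s, hs, hsα⟩ := hd hα (w (α ^ p) * w (p : Ω) ^ 3) (by positivity)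
  have hs1 : w (s / α ^ p - 1) < w (p : Ω) ^ 3 := by
    have h1 : s / α ^ p - 1 = - ((α ^ p - s) / α ^ p) := by field_simp; ring
    rw [h1, Valuation.map_neg, map_div₀, div_lt_iff₀ hwα]
    calc _ < _ := hsα
      _ = _ := by ring
  have hs2 : w (s / α ^ p - 1) ^ (p - 1) < w (p : Ω) ^ p := by
    have hwp3 : w (p : Ω) ^ 3 < 1 := pow_lt_one₀ zero_le hp1 (by norm_num)
    calc w (s / α ^ p - 1) ^ (p - 1) < (w (p : Ω) ^ 3) ^ (p - 1) := by
          apply pow_lt_pow_left₀ hs1 zero_le (by omega)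
      _ = w (p : Ω) ^ (3 * (p - 1)) := by rw [← pow_mul]
      _ ≤ w (p : Ω) ^ p := pow_le_pow_right_of_le_one' hp1.le (by omega)
  have hs1F : s / α ^ p - 1 ∈ F := sub_mem (div_mem (hxle hs) hα) F.one_mem
  obtain ⟨u, hu1, hu2, hu3⟩ := exists_root_wild hF hpp hpF (x := ⟨s / α ^ p - 1, hs1F⟩) hs2
  have hu1' : (u : Ω) ^ p = s / α ^ p := by
    have := congrArg (algebraMap F Ω) hu1
    rw [map_pow, map_add, map_one] at this
    calc (u : Ω) ^ p = 1 + (s / α ^ p - 1) := this
      _ = _ := by ring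
  have hs0 : s ≠ 0 := by
    rintro rfl
    rw [zero_div, zero_sub, Valuation.map_neg, map_one] at hs1
    exact absurd hs1 (not_lt.2 (pow_le_one₀ zero_le hp1.le))
  have hu0 : (u : Ω) ≠ 0 := by
    intro h
    rw [h, zero_pow hpp.ne_zero] at hu1'
    exact (div_ne_zero hs0 hα0') hu1'.symm
  rw [mem_adjoin_simple_iff] at hs
  obtain ⟨f, g, hfg⟩ := hs
  have hf0 : f ≠ 0 := by rintro rfl; simp at hfg; exact hs0 hfg
  have hg0 : g ≠ 0 := by rintro rfl; simp at hfg; exact hs0 hfg
  have hfx := aeval_ne_zero hx hf0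
  have hgx := aeval_ne_zero hx hg0
  have hmemx : ∀ q : k[X], aeval x q ∈ F := fun q => hxle (by
    rw [mem_adjoin_simple_iff]; exact ⟨q, 1, by simp⟩)
  set a : k[X] := f * g ^ (p - 1) with ha
  have ha0 : a ≠ 0 := mul_ne_zero hf0 (pow_ne_zero _ hg0)
  set β : Ω := α * u * aeval x g with hβ
  have hβp : β ^ p = aeval x a := by
    have h1 : p = (p - 1) + 1 := by omega
    have h2 : (aeval x g : Ω) ^ p = (aeval x g) ^ (p - 1) * aeval x g := by
      conv_lhs => rw [h1, pow_succ]
    rw [hβ, mul_pow, mul_pow, hu1', h2, ha, map_mul, map_pow, hfg]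
    field_simp
  have hαβ : α = β / (u * aeval x g) := by
    rw [hβ]; field_simp
  have huF : (u : Ω) ∈ F := u.2
  -- the valuation on polynomials
  set W : Valuation k[X] ℝ≥0 := w.comap (aeval x : k[X] →ₐ[k] Ω).toRingHom with hW
  set v : Valuation k ℝ≥0 := w.comap (algebraMap k Ω) with hv
  have hWa : ∀ q : k[X], W q = w (aeval x q) := fun q => rfl
  have hva : ∀ c : k, v c = w (algebraMap k Ω c) := fun q => rfl
  rcases hlin v (by rw [hva, map_natCast]; exact hp1) (by rw [hva, map_natCast]; exact hwp.ne') W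
    (fun c => by rw [hWa, hva, aeval_C]) (fun q hq => by
      obtain ⟨c, hc⟩ := im_aeval hx q hq
      exact ⟨c, by rw [hWa, hWa, map_sub, aeval_C]; exact hc⟩) a ha0 with ⟨b, hb⟩ | h2
  · exfalso
    rw [hWa, map_sub, map_mul, map_pow, map_one, hva, map_natCast] at hb
    have hbF : aeval x a * aeval x b ^ p - 1 ∈ F :=
      sub_mem (mul_mem (hmemx a) (pow_mem (hmemx b) p)) F.one_mem
    obtain ⟨u', hu1, -, -⟩ := exists_root_wild hF hpp hpF (x := ⟨_, hbF⟩) hb
    have hu1'' : (u' : Ω) ^ p = aeval x a * aeval x b ^ p := by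
      have := congrArg (algebraMap F Ω) hu1
      rw [map_pow, map_add, map_one] at this
      calc (u' : Ω) ^ p = 1 + (aeval x a * aeval x b ^ p - 1) := this
        _ = _ := by ring
    have hb0 : b ≠ 0 := by
      rintro rfl
      simp only [map_zero, zero_pow hpp.ne_zero, mul_zero, zero_sub, Valuation.map_neg, map_one,
        one_pow] at hb
      exact absurd hb (not_lt.2 (pow_le_one₀ zero_le hp1.le))
    have hbx := aeval_ne_zero hx hb0
    have hu0' : (u' : Ω) ≠ 0 := by
      intro h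
      rw [h, zero_pow hpp.ne_zero] at hu1''
      exact (mul_ne_zero (aeval_ne_zero hx ha0) (pow_ne_zero _ hbx)) hu1''.symm
    apply hαF
    apply hroot α (u' : Ω) u'.2 (u * aeval x g * aeval x b)
      (mul_mem (mul_mem huF (hmemx g)) (hmemx b)) (mul_ne_zero (mul_ne_zero hu0 hgx) hbx) hu0'
    rw [hu1'', ← hβp, hβ]
    ring
  · obtain ⟨b, hb0, c, d, hd0, hcd, hdom⟩ := h2
    have hbx := aeval_ne_zero hx hb0
    refine ⟨β * aeval x b, ?_, ?_⟩
    · refine mul_mem (mul_mem (mul_mem ?_ ?_) ?_) ?_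
      · exact (le_sup_right : IntermediateField.adjoin k {α} ≤ F ⊔ IntermediateField.adjoin k {α})
          (IntermediateField.mem_adjoin_simple_self k α)
      · exact (le_sup_left : F ≤ F ⊔ IntermediateField.adjoin k {α}) huF
      · exact (le_sup_left : F ≤ F ⊔ IntermediateField.adjoin k {α}) (hmemx g)
      · exact (le_sup_left : F ≤ F ⊔ IntermediateField.adjoin k {α}) (hmemx b)
    · have hyp : (β * aeval x b) ^ p = aeval x (a * b ^ p) := by
        rw [mul_pow, hβp, map_mul (aeval x) a (b ^ p), map_pow]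
      rw [hWa, map_sub, aeval_X, aeval_C, hva] at hcd
      have hxy : x ∈ clo w (IntermediateField.adjoin k {β * aeval x b}) := by
        refine lin_clo hd0 hcd hdom ?_
        rw [← hyp]
        exact pow_mem (IntermediateField.mem_adjoin_simple_self k _) p
      have hFle : F ≤ clo w (IntermediateField.adjoin k {β * aeval x b}) :=
        hd.trans (clo_le w (IntermediateField.adjoin_simple_le_iff.2 hxy))
      refine ⟨hFle, ?_⟩
      have h1 : α = (β * aeval x b) / (u * aeval x g * aeval x b) := by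
        rw [hαβ]; field_simp
      rw [h1]
      exact div_mem (le_clo w _ (IntermediateField.mem_adjoin_simple_self k _))
        (hFle (mul_mem (mul_mem huF (hmemx g)) (hmemx b)))

lemma isAlgebraic_of_le {F F' : IntermediateField k Ω} (h : F ≤ F') [Algebra.IsAlgebraic F Ω] :
    Algebra.IsAlgebraic F' Ω := by
  let _ : Algebra F F' := (IntermediateField.inclusion h).toAlgebra
  have : IsScalarTower F F' Ω := IsScalarTower.of_algebraMap_eq fun a => rfl
  exact Algebra.IsAlgebraic.tower_top (K := F) F'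

/-- `Ω` is immediate over `k` -/
theorem im_all {F : IntermediateField k Ω} [Algebra.IsAlgebraic F Ω] {x : Ω}
    (hd : F ≤ clo w (IntermediateField.adjoin k {x}))
    (hx : ∀ c : k, ∃ c' : k, w (x - algebraMap k Ω c') < w (x - algebraMap k Ω c))
    (z : Ω) (hz : z ≠ 0) : Im (k := k) w z :=
  im_of_algebraic F (fun _ hh hh0 => im_clo hx (hd hh) hh0) z hz

/-- **TOWER**: every finite extension `L` of a henselian field `F` with a dense `k(x)`, `x` of
type 4 (or 1), has a dense `k(y)`, `y ∈ L`, `y` of type 4. -/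
theorem tower (hlin : LinStmt k p) (hp1 : w (p : Ω) < 1) (n : ℕ) :
    ∀ (F L : IntermediateField k Ω) (_ : F ≤ L) (_ : relfinrank F L = n) (_ : n ≠ 0)
    (_ : Algebra.IsAlgebraic F Ω) (_ : Inv F w) (x : Ω) (_ : x ∈ F)
    (_ : F ≤ clo w (IntermediateField.adjoin k {x}))
    (_ : ∀ c : k, ∃ c' : k, w (x - algebraMap k Ω c') < w (x - algebraMap k Ω c)),
    ∃ y ∈ L, L ≤ clo w (IntermediateField.adjoin k {y}) ∧
      ∀ c : k, ∃ c' : k, w (y - algebraMap k Ω c') < w (y - algebraMap k Ω c) := by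
  induction n using Nat.strong_induction_on with
  | _ n ih =>
  intro F L hFL hrel hn halg hF x hxF hd hx
  by_cases hLF : L ≤ F
  · exact ⟨x, hFL hxF, hLF.trans hd, hx⟩
  have hgal : IsGalois F Ω := isGalois_of_alg F
  have hk : CharZero k := charZero_of_algebraMap (Ω := Ω)
  have hpp := hp.1
  -- primitive root of unity
  have hζ : (primitiveRoots p F).Nonempty := by
    have : NeZero (p : k) := ⟨by exact_mod_cast hpp.ne_zero⟩
    have : NeZero p := ⟨hpp.ne_zero⟩
    obtain ⟨ζ, hζ⟩ := HasEnoughRootsOfUnity.exists_primitiveRoot k p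
    exact ⟨algebraMap k F ζ, (mem_primitiveRoots hpp.pos).2
      (hζ.map_of_injective (algebraMap k F).injective)⟩
  have himm := im_all (w := w) hd hx
  have hdeg : ∀ a : Ω, (minpoly F a).natDegree.Coprime p → a ∈ (⊥ : IntermediateField F Ω) := by
    intro a ha
    obtain ⟨b, hb⟩ := mem_of_immediate hF a (w_natCast_eq_one w hp1 ha) (by
      intro b hb
      obtain ⟨c, hc⟩ := himm _ hb
      refine ⟨b + algebraMap k F c, ?_⟩
      have : a - algebraMap F Ω (b + algebraMap k F c) =
        a - algebraMap F Ω b - algebraMap k Ω c := by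
        rw [map_add, ← IsScalarTower.algebraMap_apply]; ring
      rw [this]
      exact hc)
    exact mem_bot.2 ⟨b, hb⟩
  -- the Kummer step
  let L' : IntermediateField F Ω := extendScalars hFL
  have hfr : Module.finrank F L' = n := by
    rw [← hrel, relfinrank_eq_finrank_of_le hFL]
  have hfd : FiniteDimensional F L' := Module.finite_of_finrank_pos (by rw [hfr]; omega)
  have hL' : L' ≠ ⊥ := by
    intro h
    apply hLF
    intro z hz
    have h1 : z ∈ L' := hz
    rw [h] at h1
    obtain ⟨b, hb⟩ := mem_bot.1 h1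
    rw [← hb]
    exact b.2
  obtain ⟨α, hαL, hαF, hαp⟩ := kummer_step (F := F) (Ω := Ω) (p := p) hζ hdeg L' hL'
  have hαL1 : α ∈ L := hαL
  have hαF1 : α ∉ F := fun h => hαF (mem_bot.2 ⟨⟨α, h⟩, rfl⟩)
  have hαp1 : α ^ p ∈ F := by
    obtain ⟨b, hb⟩ := mem_bot.1 hαp
    rw [← hb]
    exact b.2
  obtain ⟨y, hyF', hFy, hαy⟩ := step hlin hp1 hF hxF hd hx hαp1 hαF1
  set F' := F ⊔ IntermediateField.adjoin k {α} with hF'
  have hFF' : F ≤ F' := le_sup_left
  have hαF' : α ∈ F' := (le_sup_right : IntermediateField.adjoin k {α} ≤ F')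
    (IntermediateField.mem_adjoin_simple_self k α)
  have hF'L : F' ≤ L := sup_le hFL (IntermediateField.adjoin_simple_le_iff.2 hαL1)
  have hF'y : F' ≤ clo w (IntermediateField.adjoin k {y}) :=
    sup_le hFy (IntermediateField.adjoin_simple_le_iff.2 hαy)
  -- replace `y` by `x` if `y` is a constant
  obtain ⟨y', hy'F', hF'y', hy'⟩ : ∃ y' ∈ F', F' ≤ clo w (IntermediateField.adjoin k {y'}) ∧
      ∀ c : k, ∃ c' : k, w (y' - algebraMap k Ω c') < w (y' - algebraMap k Ω c) := by
    by_cases hyk : ∃ c₀ : k, algebraMap k Ω c₀ = y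
    · obtain ⟨c₀, hc₀⟩ := hyk
      refine ⟨x, hFF' hxF, hF'y.trans (clo_mono w ?_), hx⟩
      rw [IntermediateField.adjoin_simple_le_iff, ← hc₀]
      exact IntermediateField.algebraMap_mem _ _
    · refine ⟨y, hyF', hF'y, fun c => ?_⟩
      have hyc : y - algebraMap k Ω c ≠ 0 := fun h => hyk ⟨c, (sub_eq_zero.1 h).symm⟩
      obtain ⟨c', hc'⟩ := himm _ hyc
      exact ⟨c + c', by rw [map_add, ← sub_sub]; exact hc'⟩
  -- the degree drops
  have hmul := relfinrank_mul_relfinrank hFF' hF'L
  have h1 : relfinrank F F' ≠ 1 := by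
    intro h
    rw [relfinrank_eq_one_iff] at h
    exact hαF1 (h hαF')
  have h0 : relfinrank F F' ≠ 0 := by
    intro h
    rw [h, zero_mul, hrel] at hmul
    exact hn hmul.symm
  have h0' : relfinrank F' L ≠ 0 := by
    intro h
    rw [h, mul_zero, hrel] at hmul
    exact hn hmul.symm
  have hlt : relfinrank F' L < n := by
    rw [← hrel, ← hmul]
    have : 2 ≤ relfinrank F F' := by omega
    nlinarith [Nat.pos_of_ne_zero h0']
  exact ih _ hlt F' L hF'L rfl h0' (isAlgebraic_of_le hFF') (hF.of_le hFF') y' hy'F' hF'y' hy'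

end Step

end Crest.Agent.R013.LU4_935
end

-- ▼ part R013/Lin2_953
section

/-!
# The norm polynomial: product over all choices of roots of a sum of radicals (helper953, row 13)
-/

open Polynomial

namespace Crest.Agent.R013.Lin_953

variable {C : Type*} [Field C]

/-- `Q(Z + η Y)` -/
noncomputable def tw (Q : C[X][X]) (η : C) : C[X][X][X] :=
  Q.eval₂ ((Polynomial.C : C[X][X] →+* C[X][X][X]).comp (Polynomial.C : C[X] →+* C[X][X]))
    (Polynomial.C X + Polynomial.C (Polynomial.C (Polynomial.C η)) * X)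

lemma tw_comp (Q : C[X][X]) (η ζ : C) :
    (tw Q η).comp (Polynomial.C (Polynomial.C (Polynomial.C ζ)) * X) = tw Q (η * ζ) := by
  unfold tw
  rw [← coe_compRingHom_apply, hom_eval₂]
  congr 1
  · ext a <;> simp
  · simp only [coe_compRingHom_apply, add_comp, mul_comp, C_comp, X_comp, C_mul]
    ring

lemma tw_eval₂ (Q : C[X][X]) (η c x : C) :
    (tw Q η).eval₂ (mapRingHom (evalRingHom c)) (Polynomial.C x) =
      (Q.map (evalRingHom c)).comp (X + Polynomial.C (η * x)) := by
  unfold tw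
  rw [← coe_eval₂RingHom, hom_eval₂, comp, eval₂_map]
  congr 1
  · ext a <;> simp
  · simp [C_mul]

theorem nrm [IsAlgClosed C] [CharZero C] {p : ℕ} (hp : p.Prime) (F : ℕ → C[X]) (K : ℕ) :
    ∃ (Q : C[X][X]) (ι : Type) (_ : Fintype ι) (_ : Nonempty ι), ∀ c : C, ∃ x : ι → ℕ → C,
      (∀ l k, k ≤ K → x l k ^ p ^ k = (F k).eval c) ∧
      Q.map (evalRingHom c) = ∏ l, (X + Polynomial.C (∑ k ∈ Finset.range (K + 1), x l k)) := by
  induction K with
  | zero =>
    refine ⟨X + Polynomial.C (F 0), Unit, inferInstance, inferInstance, fun c =>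
      ⟨fun _ _ => (F 0).eval c, ?_, ?_⟩⟩
    · intro l k hk
      obtain rfl : k = 0 := by omega
      simp
    · simp
  | succ K ih =>
    obtain ⟨Q, ι, hι, hne, hQ⟩ := ih
    set m := p ^ (K + 1) with hm
    have hmpos : 0 < m := pow_pos hp.pos _
    have : NeZero m := ⟨hmpos.ne'⟩
    have : NeZero (m : C) := ⟨by exact_mod_cast hmpos.ne'⟩
    obtain ⟨ζ, hζ⟩ := HasEnoughRootsOfUnity.exists_primitiveRoot C m
    set S : C[X][X][X] := ∏ i ∈ Finset.range m, tw Q (ζ ^ i) with hS
    set z : C[X][X] := Polynomial.C (Polynomial.C ζ) with hz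
    have hinv : S.comp (Polynomial.C z * X) = S := by
      rw [hS, prod_comp]
      have h1 : ∀ i ∈ Finset.range m, (tw Q (ζ ^ i)).comp (Polynomial.C z * X) = tw Q (ζ ^ (i + 1)) := by
        intro i _
        rw [hz, tw_comp, ← pow_succ]
      rw [Finset.prod_congr rfl h1]
      have h2 := Finset.prod_range_succ' (fun i => tw Q (ζ ^ i)) m
      have h3 := Finset.prod_range_succ (fun i => tw Q (ζ ^ i)) m
      rw [hζ.pow_eq_one] at h3
      rw [pow_zero] at h2
      have h4 : tw Q (1 : C) ≠ 0 ∨ tw Q (1 : C) = 0 := (em _).symm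
      rcases h4 with h4 | h4
      · exact mul_right_cancel₀ h4 (h2.symm.trans h3)
      · -- then all twists vanish
        have h5 : ∀ η : C, tw Q η = 0 := by
          intro η
          have := tw_comp Q 1 η
          rw [h4, one_mul, zero_comp] at this
          exact this.symm
        simp [h5]
    have hcoef : ∀ n, ¬ m ∣ n → S.coeff n = 0 := by
      intro n hn
      have h1 : (S.comp (Polynomial.C z * X)).coeff n = S.coeff n := by rw [hinv]
      rw [comp_C_mul_X_coeff] at h1
      have h2 : S.coeff n * (z ^ n - 1) = 0 := by rw [mul_sub, h1, mul_one, sub_self]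
      rcases mul_eq_zero.1 h2 with h3 | h3
      · exact h3
      · exfalso
        apply hn
        rw [hz, ← C_pow, ← C_pow, sub_eq_zero] at h3
        have h4 : ζ ^ n = 1 := by
          have h5 : Polynomial.C (ζ ^ n) = (1 : C[X]) := by
            have : Polynomial.C (Polynomial.C (ζ ^ n)) = Polynomial.C (1 : C[X]) := by rw [h3, C_1]
            exact C_injective this
          have : Polynomial.C (ζ ^ n) = Polynomial.C (1 : C) := by rw [h5, C_1]
          exact C_injective this
        exact (hζ.pow_eq_one_iff_dvd n).1 h4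
    set T : C[X][X][X] := contract m S with hT
    have hexp : S = expand C[X][X] m T := by
      ext1 n
      rw [coeff_expand hmpos]
      split_ifs with h
      · rw [hT, coeff_contract hmpos.ne', Nat.div_mul_cancel h]
      · exact hcoef n h
    refine ⟨T.eval (Polynomial.C (F (K + 1))), ι × Fin m, inferInstance, inferInstance, fun c => ?_⟩
    obtain ⟨x, hx, hprod⟩ := hQ c
    obtain ⟨y, hy⟩ := IsAlgClosed.exists_pow_nat_eq ((F (K + 1)).eval c) hmpos
    refine ⟨fun l k => if k = K + 1 then ζ ^ (l.2 : ℕ) * y else x l.1 k, ?_, ?_⟩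
    · intro l k hk
      by_cases h : k = K + 1
      · simp only [h, if_true]
        rw [mul_pow, ← hm, hy, ← pow_mul, mul_comm _ m, pow_mul, hζ.pow_eq_one, one_pow, one_mul]
      · simp only [h, if_false]
        exact hx _ _ (by omega)
    · have h1 : (T.eval (Polynomial.C (F (K + 1)))).map (evalRingHom c) =
          S.eval₂ (mapRingHom (evalRingHom c)) (Polynomial.C y) := by
        rw [hexp, expand_eq_comp_X_pow, eval₂_comp, eval₂_pow, eval₂_X, ← C_pow, hy,
          ← coe_mapRingHom, eval, hom_eval₂]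
        congr 1
        simp
      rw [h1, hS, ← coe_eval₂RingHom, map_prod]
      simp only [coe_eval₂RingHom, tw_eval₂, hprod]
      rw [Fintype.prod_prod_type_right, Finset.prod_range]
      refine Finset.prod_congr rfl fun i _ => ?_
      rw [prod_comp]
      refine Finset.prod_congr rfl fun l _ => ?_
      rw [Finset.sum_range_succ _ (K + 1)]
      simp only [if_true]
      have : ∑ k ∈ Finset.range (K + 1), (if k = K + 1 then ζ ^ (i : ℕ) * y else x l k) =
          ∑ k ∈ Finset.range (K + 1), x l k :=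
        Finset.sum_congr rfl fun k hk => by
          rw [if_neg]; have := Finset.mem_range.1 hk; omega
      rw [this, add_comp, X_comp, C_comp, C_add]
      ring

/-- the polynomial `∏ (Σ_k x_k)` over all choices `x_k ^ (p^k) = F_k` -/
theorem nrm' [IsAlgClosed C] [CharZero C] {p : ℕ} (hp : p.Prime) (F : ℕ → C[X]) (K : ℕ) :
    ∃ (N : C[X]) (ι : Type) (_ : Fintype ι) (_ : Nonempty ι), ∀ c : C, ∃ x : ι → ℕ → C,
      (∀ l k, k ≤ K → x l k ^ p ^ k = (F k).eval c) ∧
      N.eval c = ∏ l, ∑ k ∈ Finset.range (K + 1), x l k := by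
  obtain ⟨Q, ι, h1, h2, h⟩ := nrm hp F K
  refine ⟨Q.coeff 0, ι, h1, h2, fun c => ?_⟩
  obtain ⟨x, hx, hQ⟩ := h c
  refine ⟨x, hx, ?_⟩
  have := congrArg (fun q => Polynomial.eval 0 q) hQ
  simp only [eval_prod, eval_add, eval_X, eval_C, zero_add] at this
  rw [← this, ← coeff_zero_eq_eval_zero, coeff_map, coe_evalRingHom]

end Crest.Agent.R013.Lin_953
end

-- ▼ part R013/Lin1_953
section

/-!
# Type 4 points, degree p step: bounds, constancy, transport (helper953, row 13)
-/

open Polynomial NNReal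

namespace Crest.Agent.R013.Lin_953

variable {C : Type*} [Field C]

/-- all coefficients bounded by `r` -/
def Bd (v : Valuation C ℝ≥0) (f : C[X]) (r : ℝ≥0) : Prop := ∀ j, v (f.coeff j) ≤ r

/-- all coefficients strictly bounded by `r` -/
def BdL (v : Valuation C ℝ≥0) (f : C[X]) (r : ℝ≥0) : Prop := ∀ j, v (f.coeff j) < r

section bounds
variable {v : Valuation C ℝ≥0} {f g : C[X]} {r s : ℝ≥0}

lemma Bd.mono (h : Bd v f r) (hr : r ≤ s) : Bd v f s := fun j => (h j).trans hr
lemma BdL.mono (h : BdL v f r) (hr : r ≤ s) : BdL v f s := fun j => (h j).trans_le hr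
lemma BdL.bd (h : BdL v f r) : Bd v f r := fun j => (h j).le
lemma Bd.bdL (h : Bd v f r) (hr : r < s) : BdL v f s := fun j => (h j).trans_lt hr

lemma Bd.zero : Bd v 0 r := fun j => by simp
lemma Bd.add (hf : Bd v f r) (hg : Bd v g r) : Bd v (f + g) r := fun j => by
  rw [coeff_add]; exact (v.map_add _ _).trans (max_le (hf j) (hg j))
lemma Bd.neg (hf : Bd v f r) : Bd v (-f) r := fun j => by
  rw [coeff_neg, v.map_neg]; exact hf j
lemma Bd.sub (hf : Bd v f r) (hg : Bd v g r) : Bd v (f - g) r := by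
  rw [sub_eq_add_neg]; exact hf.add hg.neg
lemma BdL.add (hf : BdL v f r) (hg : BdL v g r) : BdL v (f + g) r := fun j => by
  rw [coeff_add]; exact (v.map_add _ _).trans_lt (max_lt (hf j) (hg j))
lemma BdL.neg (hf : BdL v f r) : BdL v (-f) r := fun j => by
  rw [coeff_neg, v.map_neg]; exact hf j
lemma BdL.sub (hf : BdL v f r) (hg : BdL v g r) : BdL v (f - g) r := by
  rw [sub_eq_add_neg]; exact hf.add hg.neg
lemma BdL.zero (hr : 0 < r) : BdL v 0 r := fun j => by simpa using hr

lemma Bd.mul (hf : Bd v f r) (hg : Bd v g s) : Bd v (f * g) (r * s) := fun j => by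
  rw [coeff_mul]
  refine v.map_sum_le fun i _ => ?_
  rw [v.map_mul]; exact mul_le_mul' (hf _) (hg _)

lemma BdL.mul_bd (hf : BdL v f r) (hg : Bd v g s) (hs : 0 < s) : BdL v (f * g) (r * s) := fun j => by
  have hr : 0 < r := zero_le.trans_lt (hf 0)
  rw [coeff_mul]
  refine v.map_sum_lt (mul_pos hr hs).ne' fun i _ => ?_
  rw [v.map_mul]
  rcases eq_or_ne (v (g.coeff i.2)) 0 with h0 | h0
  · rw [h0, mul_zero]; exact mul_pos hr hs
  · exact (mul_lt_mul_of_pos_right (hf _) (pos_iff_ne_zero.2 h0)).trans_le (mul_le_mul' le_rfl (hg _))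

lemma Bd.const (c : C) : Bd v (Polynomial.C c) (v c) := fun j => by
  rw [coeff_C]; split_ifs <;> simp

lemma Bd.monomial (c : C) (i : ℕ) : Bd v (Polynomial.C c * X ^ i) (v c) := fun j => by
  rw [coeff_C_mul_X_pow]; split_ifs <;> simp

lemma Bd.one : Bd v (1 : C[X]) 1 := by
  have := Bd.const (v := v) (1 : C); rwa [v.map_one] at this

lemma Bd.pow (hf : Bd v f r) : ∀ n : ℕ, Bd v (f ^ n) (r ^ n)
  | 0 => by simpa using Bd.one
  | n + 1 => by rw [pow_succ, pow_succ]; exact (hf.pow n).mul hf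

lemma Bd.sum {ι : Type*} {S : Finset ι} {F : ι → C[X]} (h : ∀ i ∈ S, Bd v (F i) r) :
    Bd v (∑ i ∈ S, F i) r := fun j => by
  rw [finsetSum_coeff]; exact v.map_sum_le fun i hi => h i hi j

lemma v_natCast_le (v : Valuation C ℝ≥0) (n : ℕ) : v (n : C) ≤ 1 := by
  induction n with
  | zero => simp
  | succ n ih =>
    rw [Nat.cast_succ]
    exact (v.map_add _ _).trans (max_le ih (by simp))

lemma Bd.natCast_mul (n : ℕ) (hf : Bd v f r) : Bd v ((n : C[X]) * f) (v n * r) := by
  have : ((n : ℕ) : C[X]) = Polynomial.C (n : C) := by simp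
  rw [this]; exact (Bd.const _).mul hf

lemma Bd.mul_natCast (n : ℕ) (hf : Bd v f r) : Bd v (f * (n : C[X])) r := by
  have : ((n : ℕ) : C[X]) = Polynomial.C (n : C) := by simp
  rw [this]
  refine (hf.mul (Bd.const _)).mono ?_
  exact mul_le_of_le_one_right' (v_natCast_le v n)

end bounds

section w
variable {v : Valuation C ℝ≥0} {w : Valuation C[X] ℝ≥0}

lemma w_le_of_bd (hw : ∀ c, w (Polynomial.C c) = v c) (hX : w X ≤ 1) {f : C[X]} {r : ℝ≥0}
    (hf : Bd v f r) : w f ≤ r := by
  rw [f.as_sum_range_C_mul_X_pow]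
  refine w.map_sum_le fun i _ => ?_
  rw [w.map_mul, hw, w.map_pow]
  exact (mul_le_of_le_one_right' (pow_le_one' hX i)).trans (hf i)

lemma w_lt_of_bdL (hw : ∀ c, w (Polynomial.C c) = v c) (hX : w X ≤ 1) {f : C[X]} {r : ℝ≥0}
    (hf : BdL v f r) : w f < r := by
  have hr : 0 < r := zero_le.trans_lt (hf 0)
  rw [f.as_sum_range_C_mul_X_pow]
  refine w.map_sum_lt hr.ne' fun i _ => ?_
  rw [w.map_mul, hw, w.map_pow]
  exact (mul_le_of_le_one_right' (pow_le_one' hX i)).trans_lt (hf i)

end w

/-! ### near the point -/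

/-- `P` holds for all centres close to `w` -/
def Near (w : Valuation C[X] ℝ≥0) (P : C → Prop) : Prop :=
  ∃ s : ℝ≥0, (∃ a, w (X - Polynomial.C a) < s) ∧ ∀ a, w (X - Polynomial.C a) < s → P a

section near
variable {v : Valuation C ℝ≥0} {w : Valuation C[X] ℝ≥0}

lemma Near.and {P Q : C → Prop} (hP : Near w P) (hQ : Near w Q) : Near w (fun a => P a ∧ Q a) := by
  obtain ⟨s, ⟨a, ha⟩, h⟩ := hP
  obtain ⟨t, ⟨b, hb⟩, k⟩ := hQ
  refine ⟨min s t, ?_, fun c hc => ⟨h c (hc.trans_le (min_le_left _ _)), k c (hc.trans_le (min_le_right _ _))⟩⟩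
  rcases le_total (w (X - Polynomial.C a)) (w (X - Polynomial.C b)) with hab | hab
  · exact ⟨a, lt_min ha (hab.trans_lt hb)⟩
  · exact ⟨b, lt_min (hab.trans_lt ha) hb⟩

lemma Near.mono {P Q : C → Prop} (hP : Near w P) (h : ∀ a, P a → Q a) : Near w Q := by
  obtain ⟨s, hs, k⟩ := hP
  exact ⟨s, hs, fun a ha => h a (k a ha)⟩

lemma near_true : Near w (fun _ => True) :=
  ⟨w (X - Polynomial.C 0) + 1, ⟨0, lt_add_one _⟩, fun _ _ => trivial⟩

lemma near_of_all {P : C → Prop} (h : ∀ a, P a) : Near w P := near_true.mono fun a _ => h a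

lemma Near.finset {ι : Type*} (S : Finset ι) {P : ι → C → Prop} (h : ∀ i ∈ S, Near w (P i)) :
    Near w (fun a => ∀ i ∈ S, P i a) := by
  classical
  induction S using Finset.induction_on with
  | empty => exact near_of_all (by simp)
  | insert i S hi ih =>
    refine ((h i (by simp)).and (ih fun j hj => h j (by simp [hj]))).mono fun a ha j hj => ?_
    rcases Finset.mem_insert.1 hj with rfl | hj
    · exact ha.1
    · exact ha.2 j hj

variable (hw : ∀ c, w (Polynomial.C c) = v c)
  (himm : ∀ f : C[X], f ≠ 0 → ∃ c : C, w (f - Polynomial.C c) < w f)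

include himm in
lemma w_ne_zero {f : C[X]} (hf : f ≠ 0) : w f ≠ 0 := by
  obtain ⟨c, hc⟩ := himm f hf
  exact ((zero_le.trans_lt hc)).ne'

include himm in
/-- near centres with `w (X - a)` outside a finite set -/
lemma Near.exists_notMem {P : C → Prop} (hP : Near w P) (B : Set ℝ≥0) (hB : B.Finite) :
    ∃ a, P a ∧ w (X - Polynomial.C a) ∉ B := by
  obtain ⟨s, ⟨a0, ha0⟩, h⟩ := hP
  by_contra hcon
  push Not at hcon
  set T : Set ℝ≥0 := {x | x ∈ B ∧ ∃ a, w (X - Polynomial.C a) = x ∧ x < s} with hT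
  have hTf : T.Finite := hB.subset fun x hx => hx.1
  have hTn : T.Nonempty := ⟨w (X - Polynomial.C a0), hcon a0 (h a0 ha0), a0, rfl, ha0⟩
  obtain ⟨x, hx, hmin⟩ := Set.exists_min_image T id hTf hTn
  obtain ⟨hxB, a, rfl, hxs⟩ := hx
  obtain ⟨c, hc⟩ := himm (X - Polynomial.C a) (X_sub_C_ne_zero a)
  have e : X - Polynomial.C a - Polynomial.C c = X - Polynomial.C (a + c) := by
    rw [C_add]; ring
  rw [e] at hc
  have h1 : w (X - Polynomial.C (a + c)) < s := hc.trans hxs
  have h2 := hmin (w (X - Polynomial.C (a + c))) ⟨hcon _ (h _ h1), _, rfl, h1⟩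
  exact absurd h2 (not_le.2 hc)

/-- `v (f c) = w f` and the constant term dominates strictly at radius `w (X - c)` -/
def F0 (v : Valuation C ℝ≥0) (w : Valuation C[X] ℝ≥0) (f : C[X]) (c : C) : Prop :=
  v ((taylor c f).coeff 0) = w f ∧
    ∀ j, 1 ≤ j → v ((taylor c f).coeff j) * w (X - Polynomial.C c) ^ j < w f

lemma F0.le {f : C[X]} {c : C} (h : F0 v w f c) (j : ℕ) :
    v ((taylor c f).coeff j) * w (X - Polynomial.C c) ^ j ≤ w f := by
  rcases Nat.eq_zero_or_pos j with rfl | hj
  · rw [pow_zero, mul_one, h.1]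
  · exact (h.2 j hj).le

lemma F0.mul {f g : C[X]} {c : C} (hf : F0 v w f c) (hg : F0 v w g c) (hf0 : w f ≠ 0) (hg0 : w g ≠ 0) :
    F0 v w (f * g) c := by
  constructor
  · rw [taylor_mul, mul_coeff_zero, v.map_mul, hf.1, hg.1, w.map_mul]
  · intro j hj
    set s := w (X - Polynomial.C c)
    rw [taylor_mul, coeff_mul, w.map_mul]
    rcases eq_or_ne s 0 with hs | hs
    · rw [hs, zero_pow (by omega), mul_zero]
      exact mul_pos (pos_iff_ne_zero.2 hf0) (pos_iff_ne_zero.2 hg0)
    have hsp : 0 < s ^ j := pow_pos (pos_iff_ne_zero.2 hs) j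
    rw [← lt_div_iff₀ hsp]
    refine v.map_sum_lt (div_pos (mul_pos (pos_iff_ne_zero.2 hf0) (pos_iff_ne_zero.2 hg0)) hsp).ne' ?_
    rintro ⟨i, k⟩ hik
    rw [Finset.HasAntidiagonal.mem_antidiagonal] at hik
    simp only at hik ⊢
    rw [lt_div_iff₀ hsp, v.map_mul, ← hik, pow_add]
    have e : v ((taylor c f).coeff i) * v ((taylor c g).coeff k) * (s ^ i * s ^ k) =
        (v ((taylor c f).coeff i) * s ^ i) * (v ((taylor c g).coeff k) * s ^ k) := by ring
    rw [e]
    rcases Nat.eq_zero_or_pos i with hi | hi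
    · have hk : 1 ≤ k := by omega
      exact (mul_le_mul' (hf.le i) le_rfl).trans_lt
        (mul_lt_mul_of_pos_left (hg.2 k hk) (pos_iff_ne_zero.2 hf0))
    · exact (mul_le_mul' le_rfl (hg.le k)).trans_lt
        (mul_lt_mul_of_pos_right (hf.2 i hi) (pos_iff_ne_zero.2 hg0))

include hw himm in
lemma near_F0 [IsAlgClosed C] {f : C[X]} (hf : f ≠ 0) : Near w (F0 v w f) := by
  have hprod : ∀ S : Multiset C, Near w (F0 v w (S.map fun a => X - Polynomial.C a).prod) := by
    intro S
    induction S using Multiset.induction_on with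
    | empty =>
      refine near_of_all fun c => ⟨?_, fun j hj => ?_⟩
      · simp
      · have : (taylor c (1 : C[X])).coeff j = 0 := by
          rw [taylor_one]
          exact coeff_eq_zero_of_natDegree_lt (by simpa using (by omega : 0 < j))
        rw [Multiset.map_zero, Multiset.prod_zero, this, v.map_zero, zero_mul, w.map_one]
        exact one_pos
    | cons α S ih =>
      rw [Multiset.map_cons, Multiset.prod_cons]
      have hne : (S.map fun a => X - Polynomial.C a).prod ≠ 0 := by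
        refine Multiset.prod_ne_zero ?_
        intro h0
        obtain ⟨a, _, ha⟩ := Multiset.mem_map.1 h0
        exact X_sub_C_ne_zero a ha
      have hα : Near w (F0 v w (X - Polynomial.C α)) := by
        obtain ⟨c, hc⟩ := himm (X - Polynomial.C α) (X_sub_C_ne_zero α)
        have e : X - Polynomial.C α - Polynomial.C c = X - Polynomial.C (α + c) := by
          rw [C_add]; ring
        rw [e] at hc
        refine ⟨w (X - Polynomial.C α), ⟨_, hc⟩, fun a ha => ⟨?_, fun j hj => ?_⟩⟩
        · have h1 : (taylor a (X - Polynomial.C α)).coeff 0 = a - α := by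
            rw [taylor_coeff_zero]; simp
          rw [h1, ← hw]
          have h2 : Polynomial.C (a - α) = (X - Polynomial.C α) - (X - Polynomial.C a) := by
            rw [C_sub]; ring
          rw [h2]
          exact Valuation.map_sub_eq_of_lt_left w ha
        · have h1 : taylor a (X - Polynomial.C α) = X + Polynomial.C (a - α) := by
            rw [map_sub, taylor_X, taylor_C, C_sub]; ring
          rw [h1, coeff_add, coeff_X, coeff_C]
          have hj0 : j ≠ 0 := by omega
          rw [if_neg hj0, add_zero]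
          split_ifs with h
          · subst h
            rw [v.map_one, one_mul, pow_one]; exact ha
          · rw [v.map_zero, zero_mul]
            exact pos_iff_ne_zero.2 (w_ne_zero himm (X_sub_C_ne_zero α))
      exact (hα.and ih).mono fun c hc => hc.1.mul hc.2 (w_ne_zero himm (X_sub_C_ne_zero α)) (w_ne_zero himm hne)
  have hs := (IsAlgClosed.splits f).eq_prod_roots
  have hne : (f.roots.map fun a => X - Polynomial.C a).prod ≠ 0 := by
    intro h; rw [h, mul_zero] at hs; exact hf hs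
  have hlc : Polynomial.C f.leadingCoeff ≠ 0 := by simpa using hf
  have hc : Near w (F0 v w (Polynomial.C f.leadingCoeff)) := by
    refine near_of_all fun c => ⟨?_, fun j hj => ?_⟩
    · rw [taylor_C, coeff_C_zero, hw]
    · rw [taylor_C, coeff_C, if_neg (by omega), v.map_zero, zero_mul]
      exact pos_iff_ne_zero.2 (w_ne_zero himm hlc)
  rw [hs]
  exact (hc.and (hprod _)).mono fun c h => h.1.mul h.2 (w_ne_zero himm hlc) (w_ne_zero himm hne)

end near


/-! ### p-th powers -/

section powers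
variable {v : Valuation C ℝ≥0} {p : ℕ}

/-- the correction series in `(1 + x)^p` -/
noncomputable def cor (p : ℕ) (x : C[X]) : C[X] :=
  ∑ k ∈ Finset.Ioo 1 p, x ^ (k - 1) * ((p.choose k / p : ℕ) : C[X])

lemma one_add_pow (hp : p.Prime) (x : C[X]) :
    (1 + x) ^ p = 1 + x ^ p + (p : C[X]) * (x * (1 + cor p x)) := by
  have h := add_pow_prime_eq hp x (1 : C[X])
  rw [add_comm 1 x, h]
  have hS : ∑ k ∈ Finset.Ioo 0 p, x ^ (k - 1) * 1 ^ (p - k - 1) * ((p.choose k / p : ℕ) : C[X]) =
      1 + cor p x := by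
    have hins : Finset.Ioo 0 p = insert 1 (Finset.Ioo 1 p) := by
      ext k
      have := hp.one_lt
      simp only [Finset.mem_Ioo, Finset.mem_insert]
      omega
    rw [hins, Finset.sum_insert (by simp)]
    congr 1
    · rw [Nat.choose_one_right, Nat.div_self hp.pos]; simp
    · unfold cor
      refine Finset.sum_congr rfl fun k _ => ?_
      rw [one_pow, mul_one]
  rw [hS]
  ring

lemma Bd.cor {x : C[X]} {r : ℝ≥0} (hx : Bd v x r) (hr : r ≤ 1) : Bd v (cor p x) r := by
  refine Bd.sum fun k hk => ?_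
  rw [Finset.mem_Ioo] at hk
  refine Bd.mul_natCast _ ((hx.pow _).mono ?_)
  calc r ^ (k - 1) ≤ r ^ 1 := pow_le_pow_of_le_one zero_le hr (by omega)
    _ = r := pow_one r

lemma Bd.one_add_cor {x : C[X]} {r : ℝ≥0} (hx : Bd v x r) (hr : r ≤ 1) : Bd v (1 + Lin_953.cor p x) 1 :=
  Bd.one.add ((Bd.cor hx hr).mono hr)

/-- Artin--Schreier expansion -/
lemma as_step (hp : p.Prime) {lam : C} (hl : lam ^ (p - 1) = -(p : C)) {h : C[X]} {μ : ℝ≥0}
    (hh : Bd v h μ) (hμ : v lam * μ ≤ 1) :
    ∃ e : C[X], (1 + Polynomial.C lam * h) ^ p = 1 + Polynomial.C (lam ^ p) * (h ^ p - h) + e ∧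
      Bd v e (v lam ^ p * (v lam * μ ^ 2)) := by
  have hpl : (p : C) * lam = - lam ^ p := by
    have : lam ^ p = lam ^ (p - 1) * lam := by
      rw [← pow_succ]; congr 1; have := hp.pos; omega
    rw [this, hl]; ring
  have hb : Bd v (Polynomial.C lam * h) (v lam * μ) := (Bd.const _).mul hh
  refine ⟨(p : C[X]) * ((Polynomial.C lam * h) * cor p (Polynomial.C lam * h)), ?_, ?_⟩
  · rw [one_add_pow hp]
    have e1 : (p : C[X]) * Polynomial.C lam = - Polynomial.C (lam ^ p) := by
      have : (p : C[X]) = Polynomial.C (p : C) := by simp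
      rw [this, ← C_mul, hpl, C_neg]
    have e2 : (Polynomial.C lam * h) ^ p = Polynomial.C (lam ^ p) * h ^ p := by
      rw [mul_pow, C_pow]
    rw [e2]
    linear_combination h * e1
  · refine ((hb.mul (Bd.cor hb hμ)).natCast_mul p).mono ?_
    have hvp : v (p : C) = v lam ^ (p - 1) := by
      rw [← v.map_neg, ← hl, v.map_pow]
    rw [hvp]
    have : v lam ^ p = v lam ^ (p - 1) * v lam := by
      rw [← pow_succ]; congr 1; have := hp.pos; omega
    rw [this]
    apply le_of_eq; ring

lemma frob_sum (hp : p.Prime) {μ : ℝ≥0} (hμ : μ ≤ 1) (γ : ℕ → C) (S : Finset ℕ)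
    (hγ : ∀ i ∈ S, v (γ i) ≤ μ) :
    ∃ e : C[X], (∑ i ∈ S, Polynomial.C (γ i) * X ^ i) ^ p =
      ∑ i ∈ S, Polynomial.C (γ i ^ p) * X ^ (p * i) + e ∧ Bd v e (v (p : C) * μ) := by
  classical
  induction S using Finset.induction_on with
  | empty => exact ⟨0, by simp [hp.ne_zero], Bd.zero⟩
  | insert i S hi ih =>
    obtain ⟨e, he, hbe⟩ := ih fun j hj => hγ j (by simp [hj])
    rw [Finset.sum_insert hi, Finset.sum_insert hi]
    set z := ∑ i ∈ S, Polynomial.C (γ i) * X ^ i with hz
    set m := Polynomial.C (γ i) * X ^ i with hm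
    have hzb : Bd v z μ := Bd.sum fun j hj => (Bd.monomial _ _).mono (hγ j (by simp [hj]))
    have hmb : Bd v m μ := (Bd.monomial _ _).mono (hγ i (by simp))
    set T := ∑ k ∈ Finset.Ioo 0 p, m ^ (k - 1) * z ^ (p - k - 1) * ((p.choose k / p : ℕ) : C[X]) with hT
    have hTb : Bd v T 1 := Bd.sum fun k _ => by
      refine Bd.mul_natCast _ (((hmb.pow _).mul (hzb.pow _)).mono ?_)
      exact mul_le_one' (pow_le_one' hμ _) (pow_le_one' hμ _)
    refine ⟨e + (p : C[X]) * (m * (z * T)), ?_, hbe.add ?_⟩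
    · rw [add_pow_prime_eq hp m z, he, hm, mul_pow, ← C_pow, ← pow_mul, mul_comm i p]
      ring
    · refine ((hmb.mul (hzb.mul hTb)).natCast_mul p).mono ?_
      refine mul_le_mul' le_rfl ?_
      calc μ * (μ * 1) ≤ μ * 1 := mul_le_mul' le_rfl (by simpa using hμ)
        _ = μ := mul_one μ

lemma one_add_sum_pow (hp : p.Prime) {μ : ℝ≥0} (hμ : μ ≤ 1) (γ : ℕ → C) (S : Finset ℕ)
    (hγ : ∀ i ∈ S, v (γ i) ≤ μ) :
    ∃ e : C[X], (1 + ∑ i ∈ S, Polynomial.C (γ i) * X ^ i) ^ p =
      1 + ∑ i ∈ S, Polynomial.C (γ i ^ p) * X ^ (p * i) + e ∧ Bd v e (v (p : C) * μ) := by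
  obtain ⟨e, he, hbe⟩ := frob_sum hp hμ γ S hγ
  have hzb : Bd v (∑ i ∈ S, Polynomial.C (γ i) * X ^ i) μ :=
    Bd.sum fun j hj => (Bd.monomial _ _).mono (hγ j hj)
  refine ⟨e + (p : C[X]) * ((∑ i ∈ S, Polynomial.C (γ i) * X ^ i) *
    (1 + cor p (∑ i ∈ S, Polynomial.C (γ i) * X ^ i))), ?_, hbe.add ?_⟩
  · rw [one_add_pow hp, he]; ring
  · refine ((hzb.mul (Bd.one_add_cor hzb hμ)).natCast_mul p).mono ?_
    rw [mul_one]

/-- two `p^k`-th roots of the same element of size `≤ M` differ by less than one -/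
lemma roots_close (hp : p.Prime) {M : ℝ≥0} (hM : 1 ≤ M) (hpM : v (p : C) * M < 1) (k : ℕ) :
    ∀ x y : C, v x ^ p ^ k ≤ M → x ^ p ^ k = y ^ p ^ k → v (x - y) < 1 := by
  induction k with
  | zero => intro x y _ h; simp only [pow_zero, pow_one] at h; simp [h]
  | succ k ih =>
    intro x y hx h
    have hxy : v x = v y := by
      have h2 : v x ^ p ^ (k + 1) = v y ^ p ^ (k + 1) := by rw [← v.map_pow, ← v.map_pow, h]
      exact (pow_left_inj₀ (zero_le) (zero_le) (pow_pos hp.pos _).ne').1 h2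
    have hxp : v x ^ p ≤ M := by
      rcases le_total (v x) 1 with h1 | h1
      · exact (pow_le_one' h1 p).trans hM
      · refine le_trans ?_ hx
        exact pow_le_pow_right' h1 (by rw [pow_succ]; exact Nat.le_mul_of_pos_left _ (pow_pos hp.pos _))
    have hy : v (x ^ p - y ^ p) < 1 := by
      refine ih (x ^ p) (y ^ p) ?_ ?_
      · rw [v.map_pow, ← pow_mul, ← pow_succ']; exact hx
      · rw [← pow_mul, ← pow_mul, ← pow_succ']; exact h
    -- (x - y)^p = x^p + (-y)^p + p x (-y) T
    have key := add_pow_prime_eq hp x (-y)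
    set T := ∑ k ∈ Finset.Ioo 0 p, x ^ (k - 1) * (-y) ^ (p - k - 1) * ((p.choose k / p : ℕ) : C) with hT
    have hTb : v (x * (-y) * T) ≤ M := by
      rw [hT, Finset.mul_sum]
      refine v.map_sum_le fun j hj => ?_
      rw [Finset.mem_Ioo] at hj
      rw [v.map_mul, v.map_mul, v.map_mul, v.map_mul, v.map_pow, v.map_pow, v.map_neg, ← hxy]
      calc v x * v x * (v x ^ (j - 1) * v x ^ (p - j - 1) * v ((p.choose j / p : ℕ) : C))
          ≤ v x * v x * (v x ^ (j - 1) * v x ^ (p - j - 1) * 1) := by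
            gcongr; exact v_natCast_le v _
        _ = v x ^ p := by
            have : p = 1 + 1 + (j - 1) + (p - j - 1) := by omega
            conv_rhs => rw [this, pow_add, pow_add, pow_add, pow_one]
            ring
        _ ≤ M := hxp
    have h3 : v (x ^ p + (-y) ^ p) < 1 := by
      rcases hp.eq_two_or_odd' with h2 | hodd
      · subst h2
        have e : x ^ 2 + (-y) ^ 2 = (x ^ 2 - y ^ 2) + ((2 : ℕ) : C) * y ^ 2 := by push_cast; ring
        rw [e]
        refine (v.map_add _ _).trans_lt (max_lt hy ?_)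
        rw [v.map_mul, v.map_pow, ← hxy]
        exact (mul_le_mul' le_rfl hxp).trans_lt hpM
      · rw [hodd.neg_pow, ← sub_eq_add_neg]; exact hy
    have h4 : v (x - y) ^ p < 1 := by
      rw [← v.map_pow, sub_eq_add_neg, key]
      refine (v.map_add _ _).trans_lt (max_lt h3 ?_)
      have : (p : C) * x * (-y) * T = (p : C) * (x * (-y) * T) := by ring
      rw [this, v.map_mul]
      exact (mul_le_mul' le_rfl hTb).trans_lt hpM
    by_contra h5
    exact absurd (one_le_pow₀ (not_lt.1 h5) : 1 ≤ v (x - y) ^ p) (not_le.2 h4)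

lemma kappa_close (hp : p.Prime) {κ : C} (hκ : κ ^ p = -1) : v (κ + 1) ^ p ≤ v (p : C) := by
  have hk : v κ = 1 := by
    have : v κ ^ p = 1 := by rw [← v.map_pow, hκ, v.map_neg, v.map_one]
    exact (pow_eq_one_iff_of_nonneg zero_le hp.ne_zero).1 this
  rw [← v.map_pow, add_pow_prime_eq hp κ 1, hκ, one_pow, neg_add_cancel, zero_add, mul_one,
    mul_assoc, v.map_mul, v.map_mul]
  have : v (∑ k ∈ Finset.Ioo 0 p, κ ^ (k - 1) * 1 ^ (p - k - 1) * ((p.choose k / p : ℕ) : C)) ≤ 1 :=
    v.map_sum_le fun j _ => by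
      rw [v.map_mul, v.map_mul, v.map_pow, one_pow, v.map_one, hk, one_pow, mul_one, one_mul]
      exact v_natCast_le v _
  rw [hk, one_mul]
  exact mul_le_of_le_one_right' this

end powers


/-! ### change of coordinate `X = c + d T` -/

section shift

/-- `f(c + d T)` -/
noncomputable def sh (c d : C) : C[X] →+* C[X] := compRingHom (Polynomial.C c + Polynomial.C d * X)

lemma sh_apply (c d : C) (f : C[X]) : sh c d f = f.comp (Polynomial.C c + Polynomial.C d * X) := rfl

lemma sh_C (c d a : C) : sh c d (Polynomial.C a) = Polynomial.C a := by simp [sh_apply]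

lemma sh_X (c d : C) : sh c d X = Polynomial.C c + Polynomial.C d * X := by simp [sh_apply]

lemma sh_coeff (c d : C) (f : C[X]) (j : ℕ) :
    (sh c d f).coeff j = (taylor c f).coeff j * d ^ j := by
  rw [← comp_C_mul_X_coeff, taylor_apply, comp_assoc, sh_apply]
  congr 2
  simp only [add_comp, X_comp, C_comp]
  ring

lemma sh_sh (c d e g : C) (f : C[X]) : sh e g (sh c d f) = sh (c + d * e) (d * g) f := by
  rw [sh_apply, sh_apply, sh_apply, comp_assoc]
  congr 1
  simp only [add_comp, mul_comp, C_comp, X_comp, C_add, C_mul]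
  ring

lemma sh_zero_one (f : C[X]) : sh 0 1 f = f := by simp [sh_apply]

lemma sh_inv (c : C) {d : C} (hd : d ≠ 0) (f : C[X]) : sh (-c / d) d⁻¹ (sh c d f) = f := by
  rw [sh_sh]
  have h1 : c + d * (-c / d) = 0 := by field_simp; ring
  rw [h1, mul_inv_cancel₀ hd, sh_zero_one]

lemma sh_inv' (c : C) {d : C} (hd : d ≠ 0) (f : C[X]) : sh c d (sh (-c / d) d⁻¹ f) = f := by
  rw [sh_sh]
  have h1 : -c / d + d⁻¹ * c = 0 := by field_simp; ring
  rw [h1, inv_mul_cancel₀ hd, sh_zero_one]

/-- the transported norm -/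
noncomputable def tr (w : Valuation C[X] ℝ≥0) (c d : C) : Valuation C[X] ℝ≥0 :=
  w.comap (sh (-c / d) d⁻¹)

lemma tr_sh (w : Valuation C[X] ℝ≥0) (c : C) {d : C} (hd : d ≠ 0) (f : C[X]) :
    tr w c d (sh c d f) = w f := by
  rw [tr, Valuation.comap_apply, sh_inv c hd]

lemma tr_apply (w : Valuation C[X] ℝ≥0) (c d : C) (f : C[X]) :
    tr w c d f = w (sh (-c / d) d⁻¹ f) := rfl

variable {v : Valuation C ℝ≥0} {w : Valuation C[X] ℝ≥0}

lemma tr_C (hw : ∀ c, w (Polynomial.C c) = v c) (c d a : C) : tr w c d (Polynomial.C a) = v a := by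
  rw [tr_apply, sh_C, hw]

lemma tr_X (hw : ∀ c, w (Polynomial.C c) = v c) (c d : C) :
    tr w c d X = w (X - Polynomial.C c) / v d := by
  rw [tr_apply, sh_X]
  have : Polynomial.C (-c / d) + Polynomial.C d⁻¹ * X = Polynomial.C d⁻¹ * (X - Polynomial.C c) := by
    rw [mul_sub, ← C_mul, neg_div, C_neg, div_eq_mul_inv, mul_comm c]; ring
  rw [this, w.map_mul, hw, map_inv₀, div_eq_mul_inv, mul_comm]

lemma sh_injective (c : C) {d : C} (hd : d ≠ 0) : Function.Injective (sh c d) := fun f g h => by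
  rw [← sh_inv c hd f, h, sh_inv c hd]

lemma tr_imm (himm : ∀ f : C[X], f ≠ 0 → ∃ c : C, w (f - Polynomial.C c) < w f)
    (c : C) {d : C} (hd : d ≠ 0) :
    ∀ f : C[X], f ≠ 0 → ∃ e : C, tr w c d (f - Polynomial.C e) < tr w c d f := by
  intro f hf
  have h1 : sh (-c / d) d⁻¹ f ≠ 0 := by
    intro h
    exact hf ((sh_injective (-c / d) (inv_ne_zero hd)) (by rw [h, map_zero]))
  obtain ⟨e, he⟩ := himm _ h1
  exact ⟨e, by rw [tr_apply, tr_apply, map_sub, sh_C]; exact he⟩

/-- the value of a nonzero polynomial is the value of a constant -/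
lemma exists_v_eq (hw : ∀ c, w (Polynomial.C c) = v c)
    (himm : ∀ f : C[X], f ≠ 0 → ∃ c : C, w (f - Polynomial.C c) < w f) {f : C[X]} (hf : f ≠ 0) :
    ∃ d : C, d ≠ 0 ∧ v d = w f ∧ w (f - Polynomial.C d) < w f := by
  obtain ⟨d, hd⟩ := himm f hf
  have h1 : v d = w f := by
    have h2 : Polynomial.C d = f - (f - Polynomial.C d) := by ring
    rw [← hw, h2]; exact Valuation.map_sub_eq_of_lt_left w hd
  refine ⟨d, ?_, h1, hd⟩
  rintro rfl
  rw [v.map_zero] at h1
  exact w_ne_zero himm hf h1.symm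

end shift

/-- the linear term dominates strictly on the disc with centre `c` and radius `v d` -/
def LinDom (v : Valuation C ℝ≥0) (t : C[X]) (c d : C) : Prop :=
  ∀ j, 2 ≤ j → v ((taylor c t).coeff j) * v d ^ j < v ((taylor c t).coeff 1) * v d

lemma linDom_iff {v : Valuation C ℝ≥0} {t : C[X]} {c d : C} :
    LinDom v t c d ↔ ∀ j, 2 ≤ j → v ((sh c d t).coeff j) < v ((sh c d t).coeff 1) := by
  unfold LinDom
  simp only [sh_coeff, v.map_mul, v.map_pow, pow_one]

section caseA
variable {v : Valuation C ℝ≥0} {w : Valuation C[X] ℝ≥0} {p : ℕ}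

lemma v_natCast_eq_one (hp : p.Prime) (hv1 : v (p : C) < 1) {n : ℕ} (hn : ¬ p ∣ n) : v (n : C) = 1 := by
  refine le_antisymm (v_natCast_le v n) ?_
  have hcop : Nat.Coprime p n := (Nat.Prime.coprime_iff_not_dvd hp).2 hn
  obtain ⟨a, b, hab⟩ : ∃ a b : ℤ, (p : ℤ) * a + (n : ℤ) * b = 1 :=
    ⟨_, _, by rw [← Nat.gcd_eq_gcd_ab]; exact_mod_cast hcop⟩
  have h1 : (p : C) * (a : C) + (n : C) * (b : C) = 1 := by exact_mod_cast congrArg (Int.cast : ℤ → C) hab
  have hint : ∀ z : ℤ, v (z : C) ≤ 1 := by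
    intro z
    rcases Int.eq_nat_or_neg z with ⟨m, rfl | rfl⟩
    · simpa using v_natCast_le v m
    · rw [Int.cast_neg, v.map_neg]; simpa using v_natCast_le v m
  by_contra h2
  push Not at h2
  have h3 : v ((p : C) * (a : C) + (n : C) * (b : C)) < 1 := by
    refine (v.map_add _ _).trans_lt (max_lt ?_ ?_)
    · rw [v.map_mul]; exact (mul_le_mul' le_rfl (hint a)).trans_lt (by simpa using hv1)
    · rw [v.map_mul]; exact (mul_le_mul' le_rfl (hint b)).trans_lt (by simpa using h2)
  rw [h1, v.map_one] at h3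
  exact lt_irrefl _ h3

/-- One elimination step at a type 4 point: either we find the coordinate or the error shrinks. -/
lemma caseA [IsAlgClosed C] [CharZero C] (hp : p.Prime) (hv1 : v (p : C) < 1)
    (hw : ∀ c, w (Polynomial.C c) = v c)
    (himm : ∀ f : C[X], f ≠ 0 → ∃ c : C, w (f - Polynomial.C c) < w f)
    (a b₀ : C[X]) {M μ : ℝ≥0} (hM : w (a * b₀ ^ p - 1) ≤ M) (hMμ : M ≤ μ ^ p) (hμ : μ ≤ 1) :
    (∃ b ≠ 0, ∃ c d : C, d ≠ 0 ∧ w (X - Polynomial.C c) ≤ v d ∧ LinDom v (a * b ^ p) c d) ∨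
    (∃ b : C[X], w (a * b ^ p - 1) ≤ max (v (p : C) * μ) (M * M)) := by
  set u : C[X] := a * b₀ ^ p - 1 with hu
  set P : C[X] := a * b₀ ^ p with hP
  have hM1 : M ≤ 1 := hMμ.trans (pow_le_one' hμ p)
  by_cases hu0 : u = 0
  · right
    refine ⟨b₀, ?_⟩
    rw [← hP, ← hu, hu0, w.map_zero]; exact zero_le
  by_cases hP' : derivative P = 0
  · -- constant
    right
    obtain ⟨e, he⟩ : ∃ e, P = Polynomial.C e := ⟨_, (natDegree_eq_zero.1 (derivative_eq_zero.1 hP')).choose_spec.symm⟩
    by_cases he0 : e = 0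
    · have h0 : P = 0 := by rw [he, he0, C_0]
      have h1 : w u = 1 := by rw [hu, h0, zero_sub, w.map_neg, w.map_one]
      have h2 : M = 1 := le_antisymm hM1 (h1 ▸ hM)
      exact ⟨b₀, by rw [← hP, ← hu, h1, h2, mul_one]; exact le_max_right _ _⟩
    · obtain ⟨κ, hκ⟩ := IsAlgClosed.exists_pow_nat_eq (e⁻¹) hp.pos
      refine ⟨b₀ * Polynomial.C κ, ?_⟩
      have : a * (b₀ * Polynomial.C κ) ^ p - 1 = 0 := by
        rw [mul_pow, ← mul_assoc, ← hP, he, ← C_pow, hκ, ← C_mul, mul_inv_cancel₀ he0, C_1, sub_self]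
      rw [this, w.map_zero]; exact zero_le
  obtain ⟨s, ⟨c, hc⟩, hnear⟩ := (near_F0 hw himm hu0).and (near_F0 hw himm hP')
  obtain ⟨h0u, h0P⟩ := hnear c hc
  obtain ⟨d, hd0, hd, -⟩ := exists_v_eq hw himm (X_sub_C_ne_zero c)
  set û := sh c d u with hû
  have hûb : Bd v û M := fun j => by
    rw [hû, sh_coeff, v.map_mul, v.map_pow, hd]; exact (h0u.le j).trans hM
  have hPu : sh c d P = 1 + û := by
    have : P = 1 + u := by rw [hu]; ring
    rw [this, map_add, map_one]
  -- the linear term dominates all exponents prime to `p`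
  have hlin : ∀ j, 2 ≤ j → ¬ p ∣ j → v (û.coeff j) < v (û.coeff 1) := by
    intro j hj hpj
    have hcoef : ∀ i, 1 ≤ i → û.coeff i = (taylor c P).coeff i * d ^ i := by
      intro i hi
      rw [← sh_coeff, hPu, coeff_add, coeff_one, if_neg (by omega), zero_add]
    have htd : ∀ i, (taylor c (derivative P)).coeff i = (taylor c P).coeff (i + 1) * ((i : C) + 1) := by
      intro i
      have : taylor c (derivative P) = derivative (taylor c P) := by
        rw [taylor_apply, taylor_apply, derivative_comp]; simp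
      rw [this, coeff_derivative]
    have h1 := h0P.2 (j - 1) (by omega)
    rw [← h0P.1, htd, htd, v.map_mul, v.map_mul] at h1
    have e1 : ((j - 1 : ℕ) : C) + 1 = (j : C) := by
      rw [← Nat.cast_succ]; congr 1; omega
    have e2 : j - 1 + 1 = j := by omega
    rw [e1, e2, v_natCast_eq_one hp hv1 hpj, mul_one, Nat.cast_zero, zero_add, zero_add, v.map_one,
      mul_one] at h1
    rw [hcoef j (by omega), hcoef 1 le_rfl, v.map_mul, v.map_mul, v.map_pow, v.map_pow, hd, pow_one]
    have hs0 : 0 < w (X - Polynomial.C c) := pos_iff_ne_zero.2 (w_ne_zero himm (X_sub_C_ne_zero c))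
    calc v ((taylor c P).coeff j) * w (X - Polynomial.C c) ^ j
        = (v ((taylor c P).coeff j) * w (X - Polynomial.C c) ^ (j - 1)) * w (X - Polynomial.C c) := by
          rw [mul_assoc, ← pow_succ, e2]
      _ < v ((taylor c P).coeff 1) * w (X - Polynomial.C c) := mul_lt_mul_of_pos_right h1 hs0
  -- elimination
  have hγ : ∀ i, ∃ γ : C, γ ^ p = - û.coeff (p * i) := fun i => IsAlgClosed.exists_pow_nat_eq _ hp.pos
  choose γ hγ using hγ
  set N := û.natDegree + 1 with hN
  have hγb : ∀ i ∈ Finset.range N, v (γ i) ≤ μ := by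
    intro i _
    have : v (γ i) ^ p ≤ μ ^ p := by
      rw [← v.map_pow, hγ, v.map_neg]; exact (hûb _).trans hMμ
    exact (pow_le_pow_iff_left₀ zero_le zero_le hp.ne_zero).1 this
  obtain ⟨E, hE, hEb⟩ := one_add_sum_pow hp hμ γ (Finset.range N) hγb
  set z := ∑ i ∈ Finset.range N, Polynomial.C (γ i) * X ^ i with hz
  set S := ∑ i ∈ Finset.range N, Polynomial.C (û.coeff (p * i)) * X ^ (p * i) with hS
  have hzS : (1 + z) ^ p = 1 - S + E := by
    rw [hE, hS, sub_eq_add_neg, ← Finset.sum_neg_distrib]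
    congr 2
    refine Finset.sum_congr rfl fun i _ => ?_
    rw [hγ, C_neg, neg_mul]
  have hSb : Bd v S M := Bd.sum fun i _ => (Bd.monomial _ _).mono (hûb _)
  set ε := max (v (p : C) * μ) (M * M) with hε
  set R := E - û * S + û * E with hR
  have hRb : Bd v R ε := by
    refine ((hEb.mono (le_max_left _ _)).sub ((hûb.mul hSb).mono (le_max_right _ _))).add
      ((hûb.mul hEb).mono (le_trans ?_ (le_max_left _ _)))
    exact mul_le_of_le_one_left' hM1
  have ht : (1 + û) * (1 + z) ^ p = 1 + ((û - S) + R) := by rw [hzS, hR]; ring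
  have hSc : ∀ j, (û - S).coeff j = if p ∣ j then 0 else û.coeff j := by
    intro j
    rw [coeff_sub, hS, finsetSum_coeff]
    simp only [coeff_C_mul, coeff_X_pow]
    split_ifs with hpj
    · obtain ⟨i, rfl⟩ := hpj
      rw [sub_eq_zero]
      by_cases hi : i ∈ Finset.range N
      · rw [Finset.sum_eq_single_of_mem i hi]
        · simp
        · intro k _ hk
          rw [if_neg, mul_zero]
          intro h; exact hk (Nat.eq_of_mul_eq_mul_left hp.pos h).symm
      · rw [Finset.sum_eq_zero]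
        · apply coeff_eq_zero_of_natDegree_lt
          rw [Finset.mem_range, not_lt] at hi
          calc û.natDegree < N := Nat.lt_succ_self _
            _ ≤ i := hi
            _ ≤ p * i := Nat.le_mul_of_pos_left _ hp.pos
        · intro k hk
          rw [if_neg, mul_zero]
          intro h
          have := Nat.eq_of_mul_eq_mul_left hp.pos h
          subst this; exact hi hk
    · rw [Finset.sum_eq_zero, sub_zero]
      intro k _
      rw [if_neg, mul_zero]
      rintro rfl; exact hpj (dvd_mul_right _ _)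
  set b : C[X] := b₀ * sh (-c / d) d⁻¹ (1 + z) with hb
  have hbt : sh c d (a * b ^ p) = 1 + ((û - S) + R) := by
    rw [← ht, hb, mul_pow, ← mul_assoc, ← hP, map_mul, map_pow, sh_inv' c hd0, hPu]
  have hcoeff : ∀ j, 1 ≤ j → (sh c d (a * b ^ p)).coeff j = (û - S).coeff j + R.coeff j := by
    intro j hj
    rw [hbt, coeff_add, coeff_one, if_neg (by omega), zero_add, coeff_add]
  have h1p : ¬ p ∣ 1 := hp.one_lt.ne' ∘ Nat.dvd_one.1
  rcases lt_or_ge ε (v (û.coeff 1)) with hlt | hge
  · left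
    have hc1 : v ((sh c d (a * b ^ p)).coeff 1) = v (û.coeff 1) := by
      rw [hcoeff 1 le_rfl, hSc, if_neg h1p]
      exact Valuation.map_add_eq_of_lt_left v ((hRb 1).trans_lt hlt)
    refine ⟨b, ?_, c, d, hd0, hd.ge, ?_⟩
    · rintro h
      rw [h, zero_pow hp.ne_zero, mul_zero, map_zero, coeff_zero, v.map_zero] at hc1
      rw [← hc1] at hlt
      exact not_lt_zero hlt
    · rw [linDom_iff]
      intro j hj
      rw [hc1, hcoeff j (by omega), hSc]
      refine (v.map_add _ _).trans_lt (max_lt ?_ ((hRb j).trans_lt hlt))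
      split_ifs with hpj
      · rw [v.map_zero]; exact zero_le.trans_lt hlt
      · exact hlin j hj hpj
  · right
    refine ⟨b, ?_⟩
    have h2 : a * b ^ p - 1 = sh (-c / d) d⁻¹ ((û - S) + R) := by
      apply sh_injective c hd0
      rw [sh_inv' c hd0, map_sub, hbt, map_one]; ring
    rw [h2, ← tr_apply]
    have hX : tr w c d X ≤ 1 := by
      rw [tr_X hw c d, hd]; exact div_self_le_one _
    refine w_le_of_bd (tr_C hw c d) hX (Bd.add (fun j => ?_) hRb)
    rw [hSc]
    split_ifs with hpj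
    · rw [v.map_zero]; exact zero_le
    · rcases Nat.lt_or_ge j 2 with hj | hj
      · have hj1 : j = 1 := by
          have : j ≠ 0 := by rintro rfl; exact hpj (dvd_zero _)
          omega
        rw [hj1]; exact hge
      · exact (hlin j hj hpj).le.trans hge

end caseA

end Crest.Agent.R013.Lin_953
end

-- ▼ part R013/Lin3_953
section

/-!
# Type 4 points, degree p step: the iteration and folding (helper953, row 13)
-/

open Polynomial NNReal

namespace Crest.Agent.R013.Lin_953

variable {C : Type*} [Field C]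


/-! ### the iteration -/

section iterate
variable {v : Valuation C ℝ≥0} {w : Valuation C[X] ℝ≥0} {p : ℕ}

lemma exists_root_nnreal (hp : p ≠ 0) (M : ℝ≥0) : ∃ μ : ℝ≥0, μ ^ p = M :=
  ⟨M ^ ((p : ℝ)⁻¹), NNReal.rpow_inv_natCast_pow M hp⟩

lemma exists_start [IsAlgClosed C] (hp : p.Prime) (hw : ∀ c, w (Polynomial.C c) = v c)
    (himm : ∀ f : C[X], f ≠ 0 → ∃ c : C, w (f - Polynomial.C c) < w f) {a : C[X]} (ha : a ≠ 0) :
    ∃ b : C[X], w (a * b ^ p - 1) < 1 := by
  obtain ⟨e, he0, he, hlt⟩ := exists_v_eq hw himm ha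
  obtain ⟨κ, hκ⟩ := IsAlgClosed.exists_pow_nat_eq (e⁻¹) hp.pos
  refine ⟨Polynomial.C κ, ?_⟩
  have h1 : a * Polynomial.C κ ^ p - 1 = Polynomial.C e⁻¹ * (a - Polynomial.C e) := by
    rw [← C_pow, hκ, mul_sub, ← C_mul, inv_mul_cancel₀ he0, C_1]; ring
  rw [h1, w.map_mul, hw, map_inv₀, he]
  calc (w a)⁻¹ * w (a - Polynomial.C e) < (w a)⁻¹ * w a :=
        mul_lt_mul_of_pos_left hlt (inv_pos.2 (pos_iff_ne_zero.2 (w_ne_zero himm ha)))
    _ = 1 := inv_mul_cancel₀ (w_ne_zero himm ha)

lemma descend [IsAlgClosed C] [CharZero C] (hp : p.Prime) (hv1 : v (p : C) < 1)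
    (hw : ∀ c, w (Polynomial.C c) = v c)
    (himm : ∀ f : C[X], f ≠ 0 → ∃ c : C, w (f - Polynomial.C c) < w f)
    {lam : C} (hl : lam ^ (p - 1) = -(p : C)) {M₀ : ℝ≥0} (hM₀ : 1 < M₀) {a : C[X]} (ha : a ≠ 0)
    (hN : ¬ ∃ b ≠ 0, ∃ c d : C, d ≠ 0 ∧ w (X - Polynomial.C c) ≤ v d ∧ LinDom v (a * b ^ p) c d) :
    ∃ b : C[X], w (a * b ^ p - 1) < v lam ^ p * M₀ := by
  by_contra hcon
  push Not at hcon
  set r := v lam ^ p * M₀ with hr
  have hvp : v (p : C) = v lam ^ (p - 1) := by rw [← v.map_neg, ← hl, v.map_pow]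
  have hp0 : (p : C) ≠ 0 := by exact_mod_cast hp.ne_zero
  have hvp0 : v (p : C) ≠ 0 := by rwa [Valuation.ne_zero_iff]
  have hp1 : p - 1 ≠ 0 := by have := hp.one_lt; omega
  have hlam0 : v lam ≠ 0 := by
    intro h; rw [h, zero_pow hp1] at hvp; exact hvp0 hvp
  have hr0 : 0 < r := mul_pos (pow_pos (pos_iff_ne_zero.2 hlam0) p) (zero_lt_one.trans hM₀)
  obtain ⟨μ₀, hμ₀⟩ := exists_root_nnreal hp.ne_zero r
  have hμ₀0 : μ₀ ≠ 0 := by
    rintro rfl; rw [zero_pow hp.ne_zero] at hμ₀; exact hr0.ne hμ₀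
  have hτ : v (p : C) < μ₀ ^ (p - 1) := by
    have h1 : v (p : C) ^ p < (μ₀ ^ (p - 1)) ^ p := by
      calc v (p : C) ^ p = v (p : C) ^ p * 1 := (mul_one _).symm
        _ < v (p : C) ^ p * M₀ ^ (p - 1) :=
            mul_lt_mul_of_pos_left (one_lt_pow₀ hM₀ hp1) (pow_pos (pos_iff_ne_zero.2 hvp0) p)
        _ = (μ₀ ^ (p - 1)) ^ p := by
            rw [← pow_mul, mul_comm (p - 1) p, pow_mul, hμ₀, hr, mul_pow, ← pow_mul, hvp, ← pow_mul,
              mul_comm p (p - 1)]
    exact lt_of_pow_lt_pow_left₀ p zero_le h1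
  obtain ⟨b₁, hb₁⟩ := exists_start hp hw himm ha
  set M₁ := w (a * b₁ ^ p - 1) with hM₁
  set τ := v (p : C) / μ₀ ^ (p - 1) with hτdef
  have hτ1 : τ < 1 := by rw [hτdef, div_lt_one (pow_pos (pos_iff_ne_zero.2 hμ₀0) _)]; exact hτ
  set θ := max M₁ τ with hθ
  have hθ1 : θ < 1 := max_lt hb₁ hτ1
  have hstep : ∀ b : C[X], w (a * b ^ p - 1) ≤ M₁ → ∃ b' : C[X], w (a * b' ^ p - 1) ≤ θ * w (a * b ^ p - 1) := by
    intro b hb
    obtain ⟨μ, hμ⟩ := exists_root_nnreal hp.ne_zero (w (a * b ^ p - 1))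
    have hμ1 : μ ≤ 1 := by
      by_contra h
      have := one_lt_pow₀ (not_le.1 h) hp.ne_zero
      rw [hμ] at this
      exact absurd (this.trans_le hb) (not_lt.2 hb₁.le)
    have hμμ : μ₀ ≤ μ := by
      have : μ₀ ^ p ≤ μ ^ p := by rw [hμ₀, hμ]; exact hcon b
      exact (pow_le_pow_iff_left₀ zero_le zero_le hp.ne_zero).1 this
    rcases caseA hp hv1 hw himm a b le_rfl hμ.ge hμ1 with h | ⟨b', hb'⟩
    · exact absurd h hN
    · refine ⟨b', hb'.trans (max_le ?_ ?_)⟩
      · calc v (p : C) * μ = (τ * μ₀ ^ (p - 1)) * μ := by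
              rw [hτdef, div_mul_cancel₀ _ (pow_ne_zero _ hμ₀0)]
          _ ≤ (τ * μ ^ (p - 1)) * μ := by gcongr
          _ = τ * μ ^ p := by
              rw [mul_assoc, ← pow_succ]; congr 2; have := hp.pos; omega
          _ ≤ θ * w (a * b ^ p - 1) := by rw [hμ]; gcongr; exact le_max_right _ _
      · exact mul_le_mul' (hb.trans (le_max_left _ _)) le_rfl
  have hiter : ∀ n : ℕ, ∃ b : C[X], w (a * b ^ p - 1) ≤ θ ^ n * M₁ := by
    intro n
    induction n with
    | zero => exact ⟨b₁, by simp [hM₁]⟩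
    | succ n ih =>
      obtain ⟨b, hb⟩ := ih
      obtain ⟨b', hb'⟩ := hstep b (hb.trans (mul_le_of_le_one_left' (pow_le_one' hθ1.le n)))
      refine ⟨b', hb'.trans ?_⟩
      calc θ * w (a * b ^ p - 1) ≤ θ * (θ ^ n * M₁) := mul_le_mul' le_rfl hb
        _ = θ ^ (n + 1) * M₁ := by rw [pow_succ]; ring
  obtain ⟨n, hn⟩ := _root_.exists_pow_lt_of_lt_one hr0 hθ1
  obtain ⟨b, hb⟩ := hiter n
  have h1 := hcon b
  have h2 : θ ^ n * M₁ ≤ θ ^ n := mul_le_of_le_one_right' hb₁.le
  exact absurd (h1.trans (hb.trans h2)) (not_le.2 hn)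

end iterate

/-! ### folding -/

section fold
variable {v : Valuation C ℝ≥0} {p : ℕ}

/-- `1 + λ^p F` and `1 + λ^p F'` differ by a `p`-th power up to something small -/
def Fold (v : Valuation C ℝ≥0) (p : ℕ) (lam : C) (F F' : C[X]) : Prop :=
  ∃ b : C[X], Bd v b 1 ∧
    BdL v ((1 + Polynomial.C (lam ^ p) * F) * b ^ p - (1 + Polynomial.C (lam ^ p) * F')) (v lam ^ p)

variable {lam : C}

lemma Fold.refl (hl0 : v lam ≠ 0) (F : C[X]) : Fold v p lam F F :=
  ⟨1, Bd.one, by
    rw [one_pow, mul_one, sub_self]; exact BdL.zero (pow_pos (pos_iff_ne_zero.2 hl0) p)⟩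

lemma Fold.trans {F F' F'' : C[X]} (h : Fold v p lam F F') (h' : Fold v p lam F' F'') :
    Fold v p lam F F'' := by
  obtain ⟨b, hb, hb'⟩ := h
  obtain ⟨c, hc, hc'⟩ := h'
  refine ⟨b * c, (hb.mul hc).mono (by simp), ?_⟩
  have e : (1 + Polynomial.C (lam ^ p) * F) * (b * c) ^ p - (1 + Polynomial.C (lam ^ p) * F'') =
      ((1 + Polynomial.C (lam ^ p) * F) * b ^ p - (1 + Polynomial.C (lam ^ p) * F')) * c ^ p +
        ((1 + Polynomial.C (lam ^ p) * F') * c ^ p - (1 + Polynomial.C (lam ^ p) * F'')) := by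
    rw [mul_pow]; ring
  rw [e]
  refine BdL.add ?_ hc'
  have := hb'.mul_bd ((hc.pow p).mono (one_pow p).le) one_pos
  rwa [mul_one] at this

lemma Fold.congr {F F' F'' : C[X]} (hl0 : v lam ≠ 0) (h : Fold v p lam F F') (h' : BdL v (F' - F'') 1) :
    Fold v p lam F F'' := by
  obtain ⟨b, hb, hb'⟩ := h
  refine ⟨b, hb, ?_⟩
  have e : (1 + Polynomial.C (lam ^ p) * F) * b ^ p - (1 + Polynomial.C (lam ^ p) * F'') =
      ((1 + Polynomial.C (lam ^ p) * F) * b ^ p - (1 + Polynomial.C (lam ^ p) * F')) +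
        (F' - F'') * Polynomial.C (lam ^ p) := by ring
  rw [e]
  refine hb'.add ?_
  have h3 : Bd v (Polynomial.C (lam ^ p)) (v lam ^ p) := by
    have := Bd.const (v := v) (lam ^ p); rwa [v.map_pow] at this
  have := h'.mul_bd h3 (pow_pos (pos_iff_ne_zero.2 hl0) p)
  rwa [one_mul] at this

variable {M : ℝ≥0}

lemma fold_step (hp : p.Prime) (hl : lam ^ (p - 1) = -(p : C)) (hl0 : v lam ≠ 0)
    (hM : 1 ≤ M) (hlM : v lam * M ^ 2 < 1) {F h : C[X]} (hF : Bd v F M) (hh : Bd v h M)
    (hhp : Bd v (h ^ p - h) M) : Fold v p lam F (F + (h ^ p - h)) := by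
  have hlp : 0 < v lam ^ p := pow_pos (pos_iff_ne_zero.2 hl0) p
  have hlM1 : v lam * M ≤ 1 := by
    refine le_trans ?_ hlM.le
    rw [pow_two]; gcongr
    exact le_mul_of_one_le_left' hM
  have hl1 : v lam ≤ 1 := le_trans (le_mul_of_one_le_right' hM) hlM1
  have hlpl : v lam ^ p ≤ v lam := by
    calc v lam ^ p ≤ v lam ^ 1 := pow_le_pow_of_le_one zero_le hl1 hp.pos
      _ = v lam := pow_one _
  have hlpM : v lam ^ p * M ^ 2 < 1 := (mul_le_mul' hlpl le_rfl).trans_lt hlM
  obtain ⟨e, he, heb⟩ := as_step hp hl hh hlM1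
  have hC : Bd v (Polynomial.C (lam ^ p)) (v lam ^ p) := by
    have := Bd.const (v := v) (lam ^ p); rwa [v.map_pow] at this
  have heL : BdL v e (v lam ^ p) := heb.bdL (by
    calc v lam ^ p * (v lam * M ^ 2) < v lam ^ p * 1 := mul_lt_mul_of_pos_left hlM hlp
      _ = v lam ^ p := mul_one _)
  refine ⟨1 + Polynomial.C lam * h, Bd.one.add (((Bd.const _).mul hh).mono hlM1), ?_⟩
  rw [he]
  have e1 : (1 + Polynomial.C (lam ^ p) * F) * (1 + Polynomial.C (lam ^ p) * (h ^ p - h) + e) -
      (1 + Polynomial.C (lam ^ p) * (F + (h ^ p - h))) =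
      Polynomial.C (lam ^ p) * F * (Polynomial.C (lam ^ p) * (h ^ p - h)) + e +
        e * (Polynomial.C (lam ^ p) * F) := by ring
  rw [e1]
  refine (BdL.add ?_ heL).add ?_
  · refine (((hC.mul hF).mul (hC.mul hhp))).bdL ?_
    calc v lam ^ p * M * (v lam ^ p * M) = v lam ^ p * (v lam ^ p * M ^ 2) := by ring
      _ < v lam ^ p * 1 := mul_lt_mul_of_pos_left hlpM hlp
      _ = v lam ^ p := mul_one _
  · have h2 : Bd v (Polynomial.C (lam ^ p) * F) 1 := (hC.mul hF).mono (by
      refine le_trans ?_ hlpM.le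
      rw [pow_two]; gcongr; exact le_mul_of_one_le_left' hM)
    have := heL.mul_bd h2 one_pos
    rwa [mul_one] at this

lemma le_of_pow_le (hM : 1 ≤ M) {x : ℝ≥0} {n : ℕ} (hn : n ≠ 0) (h : x ^ n ≤ M) : x ≤ M := by
  rcases le_total x 1 with hx | hx
  · exact hx.trans hM
  · exact (le_self_pow₀ hx hn).trans h

lemma fold_mono1 [IsAlgClosed C] (hp : p.Prime) (hl : lam ^ (p - 1) = -(p : C)) (hl0 : v lam ≠ 0)
    (hM : 1 ≤ M) (hlM : v lam * M ^ 2 < 1) {G : C[X]} (hG : Bd v G M) {x : C} (hx : v x ^ p ≤ M) (j : ℕ) :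
    Fold v p lam (G + Polynomial.C (x ^ p) * X ^ (j * p)) (G + Polynomial.C x * X ^ j) := by
  obtain ⟨κ, hκ⟩ := IsAlgClosed.exists_pow_nat_eq (-1 : C) hp.pos
  have hvκ : v κ = 1 := by
    have : v κ ^ p = 1 := by rw [← v.map_pow, hκ, v.map_neg, v.map_one]
    exact (pow_eq_one_iff_of_nonneg zero_le hp.ne_zero).1 this
  have hxM : v x ≤ M := le_of_pow_le hM hp.ne_zero hx
  set h := Polynomial.C (κ * x) * X ^ j with hh
  have hhp : h ^ p = - (Polynomial.C (x ^ p) * X ^ (j * p)) := by
    rw [hh, mul_pow, ← C_pow, mul_pow, hκ, ← pow_mul, neg_one_mul, C_neg, neg_mul]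
  have hxp : Bd v (Polynomial.C (x ^ p) * X ^ (j * p)) M :=
    (Bd.monomial _ _).mono (by rw [v.map_pow]; exact hx)
  have hhb : Bd v h M := (Bd.monomial _ _).mono (by rw [v.map_mul, hvκ, one_mul]; exact hxM)
  have key := fold_step hp hl hl0 hM hlM (hG.add hxp) hhb (by rw [hhp]; exact hxp.neg.sub hhb)
  refine key.congr hl0 ?_
  have e : G + Polynomial.C (x ^ p) * X ^ (j * p) + (h ^ p - h) - (G + Polynomial.C x * X ^ j) =
      Polynomial.C (- ((κ + 1) * x)) * X ^ j := by
    rw [hhp, hh]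
    simp only [C_neg, C_mul, C_add, C_1]
    ring
  rw [e]
  refine (Bd.monomial _ _).bdL ?_
  rw [v.map_neg, v.map_mul]
  have h1 : (v (κ + 1) * v x) ^ p < 1 := by
    rw [mul_pow]
    have hvp : v (p : C) = v lam ^ (p - 1) := by rw [← v.map_neg, ← hl, v.map_pow]
    have hlM1 : v lam * M < 1 := by
      refine lt_of_le_of_lt ?_ hlM
      rw [pow_two]; gcongr
      exact le_mul_of_one_le_left' hM
    have hl1 : v lam ≤ 1 := le_trans (le_mul_of_one_le_right' hM) hlM1.le
    calc v (κ + 1) ^ p * v x ^ p ≤ v (p : C) * M := mul_le_mul' (kappa_close hp hκ) hx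
      _ ≤ v lam * M := by
          rw [hvp]; gcongr
          calc v lam ^ (p - 1) ≤ v lam ^ 1 :=
                pow_le_pow_of_le_one zero_le hl1 (by have := hp.one_lt; omega)
            _ = v lam := pow_one _
      _ < 1 := hlM1
  by_contra h2
  exact absurd (one_le_pow₀ (not_lt.1 h2) : 1 ≤ (v (κ + 1) * v x) ^ p) (not_le.2 h1)

lemma fold_mono [IsAlgClosed C] (hp : p.Prime) (hl : lam ^ (p - 1) = -(p : C)) (hl0 : v lam ≠ 0)
    (hM : 1 ≤ M) (hlM : v lam * M ^ 2 < 1) {G : C[X]} (hG : Bd v G M) (q k : ℕ) :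
    ∀ {x : C}, v x ^ p ^ k ≤ M →
    Fold v p lam (G + Polynomial.C (x ^ p ^ k) * X ^ (q * p ^ k)) (G + Polynomial.C x * X ^ q) := by
  induction k with
  | zero => intro x _; simpa using Fold.refl hl0 _
  | succ k ih =>
    intro x hx
    have h1 : v (x ^ p ^ k) ^ p ≤ M := by rw [v.map_pow, ← pow_mul, ← pow_succ]; exact hx
    have h2 := fold_mono1 hp hl hl0 hM hlM hG h1 (q * p ^ k)
    rw [← pow_mul, ← pow_succ, mul_assoc, ← pow_succ] at h2
    refine h2.trans (ih ?_)
    exact le_of_pow_le hM hp.ne_zero (by rw [← v.map_pow]; exact h1)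

lemma fold_finset [IsAlgClosed C] (hp : p.Prime) (hl : lam ^ (p - 1) = -(p : C)) (hl0 : v lam ≠ 0)
    (hM : 1 ≤ M) (hlM : v lam * M ^ 2 < 1) {ι : Type*} (x : ι → C) (q k : ι → ℕ) (I : Finset ι)
    (hx : ∀ i ∈ I, v (x i) ^ p ^ k i ≤ M) :
    ∀ G : C[X], Bd v G M →
    Fold v p lam (G + ∑ i ∈ I, Polynomial.C (x i ^ p ^ k i) * X ^ (q i * p ^ k i))
      (G + ∑ i ∈ I, Polynomial.C (x i) * X ^ q i) := by
  classical
  induction I using Finset.induction_on with
  | empty => intro G _; simpa using Fold.refl hl0 _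
  | insert i I hi ih =>
    intro G hG
    rw [Finset.sum_insert hi, Finset.sum_insert hi]
    have hx' : ∀ j ∈ I, v (x j) ^ p ^ k j ≤ M := fun j hj => hx j (by simp [hj])
    have hxi := hx i (by simp)
    have h1 : Bd v (G + ∑ i ∈ I, Polynomial.C (x i ^ p ^ k i) * X ^ (q i * p ^ k i)) M :=
      hG.add (Bd.sum fun j hj => (Bd.monomial _ _).mono (by rw [v.map_pow]; exact hx' j hj))
    have h2 := fold_mono hp hl hl0 hM hlM h1 (q i) (k i) hxi
    have h3 : Bd v (G + Polynomial.C (x i) * X ^ q i) M :=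
      hG.add ((Bd.monomial _ _).mono (le_of_pow_le hM (pow_ne_zero _ hp.ne_zero) hxi))
    have h4 := ih hx' _ h3
    have e1 : G + (Polynomial.C (x i ^ p ^ k i) * X ^ (q i * p ^ k i) +
        ∑ i ∈ I, Polynomial.C (x i ^ p ^ k i) * X ^ (q i * p ^ k i)) =
        G + ∑ i ∈ I, Polynomial.C (x i ^ p ^ k i) * X ^ (q i * p ^ k i) +
          Polynomial.C (x i ^ p ^ k i) * X ^ (q i * p ^ k i) := by ring
    have e2 : G + ∑ i ∈ I, Polynomial.C (x i ^ p ^ k i) * X ^ (q i * p ^ k i) +
          Polynomial.C (x i) * X ^ q i = G + Polynomial.C (x i) * X ^ q i +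
          ∑ i ∈ I, Polynomial.C (x i ^ p ^ k i) * X ^ (q i * p ^ k i) := by ring
    have e3 : G + (Polynomial.C (x i) * X ^ q i + ∑ i ∈ I, Polynomial.C (x i) * X ^ q i) =
        G + Polynomial.C (x i) * X ^ q i + ∑ i ∈ I, Polynomial.C (x i) * X ^ q i := by ring
    rw [e1, e3]
    rw [e2] at h2
    exact h2.trans h4

/-- Artin--Schreier roots of constants -/
lemma exists_as [IsAlgClosed C] (hp : p.Prime) (hM : 1 ≤ M) {e : C} (he : v e ≤ M) :
    ∃ γ : C, γ ^ p - γ = -e ∧ v γ ≤ M := by
  have hdeg : (X ^ p - X + Polynomial.C e : C[X]).degree ≠ 0 := by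
    have h1 : (X ^ p - X + Polynomial.C e : C[X]) = X ^ p + (Polynomial.C (-1) * X + Polynomial.C e) := by
      rw [C_neg, C_1]; ring
    rw [h1]
    have h2 : (Polynomial.C (-1 : C) * X + Polynomial.C e).degree < (X ^ p : C[X]).degree := by
      rw [degree_X_pow]
      refine lt_of_le_of_lt degree_linear_le ?_
      exact_mod_cast hp.one_lt
    rw [degree_add_eq_left_of_degree_lt h2, degree_X_pow]
    exact_mod_cast hp.ne_zero
  obtain ⟨γ, hγ⟩ := IsAlgClosed.exists_root _ hdeg
  have h0 : γ ^ p - γ + e = 0 := by simpa [IsRoot] using hγ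
  have h1 : γ ^ p - γ = -e := by linear_combination h0
  refine ⟨γ, h1, ?_⟩
  by_contra h2
  push Not at h2
  have h3 : 1 < v γ := hM.trans_lt h2
  have h4 : v γ < v γ ^ p := by
    calc v γ = v γ ^ 1 := (pow_one _).symm
      _ < v γ ^ p := pow_lt_pow_right₀ h3 hp.one_lt
  have h5 : v (γ ^ p - γ) = v γ ^ p := by
    rw [← v.map_pow] at h4
    rw [Valuation.map_sub_eq_of_lt_left v h4, v.map_pow]
  rw [h1, v.map_neg] at h5
  exact absurd (h4.trans_le (h5.ge.trans he)) (not_lt.2 h2.le)

/-- exponents prime to `p` up to `J` -/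
def Qs (p J : ℕ) : Finset ℕ := (Finset.range (J + 1)).filter fun q => ¬ p ∣ q

/-- the folded polynomial -/
noncomputable def folded (p J : ℕ) (x : ℕ → ℕ → C) : C[X] :=
  ∑ i ∈ Qs p J ×ˢ Finset.range (J + 1), Polynomial.C (x i.1 i.2) * X ^ i.1

lemma folded_coeff (J : ℕ) (x : ℕ → ℕ → C) (n : ℕ) :
    (folded p J x).coeff n = if n ∈ Qs p J then ∑ k ∈ Finset.range (J + 1), x n k else 0 := by
  rw [folded, finsetSum_coeff, Finset.sum_product]
  simp only [coeff_C_mul, coeff_X_pow]
  split_ifs with h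
  · rw [Finset.sum_eq_single_of_mem n h]
    · simp
    · intro q _ hq
      exact Finset.sum_eq_zero fun k _ => by rw [if_neg (Ne.symm hq), mul_zero]
  · refine Finset.sum_eq_zero fun q hq => Finset.sum_eq_zero fun k _ => ?_
    rw [if_neg, mul_zero]
    rintro rfl; exact h hq

lemma decomp (hp : p.Prime) (F : C[X]) {J : ℕ} (hJ : F.natDegree ≤ J) :
    F = Polynomial.C (F.coeff 0) +
      ∑ i ∈ Qs p J ×ˢ Finset.range (J + 1), Polynomial.C (F.coeff (i.1 * p ^ i.2)) * X ^ (i.1 * p ^ i.2) := by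
  ext n
  rw [coeff_add, coeff_C, finsetSum_coeff]
  simp only [coeff_C_mul, coeff_X_pow]
  rcases Nat.eq_zero_or_pos n with rfl | hn
  · rw [if_pos rfl, Finset.sum_eq_zero, add_zero]
    rintro ⟨q, k⟩ hi
    rw [if_neg, mul_zero]
    simp only [Finset.mem_product, Qs, Finset.mem_filter] at hi
    intro h
    have h1 : q ≠ 0 := by rintro rfl; exact hi.1.2 (dvd_zero p)
    exact (Nat.mul_ne_zero h1 (pow_ne_zero _ hp.ne_zero)) h.symm
  · rw [if_neg (by omega), zero_add]
    rcases le_or_gt n J with hnJ | hnJ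
    · obtain ⟨k, q, hq, hnq⟩ := Nat.exists_eq_pow_mul_and_not_dvd hn.ne' p hp.ne_one
      have hqpos : 0 < q := by
        rcases Nat.eq_zero_or_pos q with rfl | h
        · exact absurd (dvd_zero p) hq
        · exact h
      have hqn : q ≤ n := by
        rw [hnq]; exact Nat.le_mul_of_pos_left _ (pow_pos hp.pos _)
      have hkn : k < n := by
        calc k < p ^ k := Nat.lt_pow_self hp.one_lt
          _ ≤ n := by rw [hnq]; exact Nat.le_mul_of_pos_right _ hqpos
      have hmem : (q, k) ∈ Qs p J ×ˢ Finset.range (J + 1) := by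
        simp only [Finset.mem_product, Qs, Finset.mem_filter, Finset.mem_range]
        exact ⟨⟨by omega, hq⟩, by omega⟩
      rw [Finset.sum_eq_single_of_mem (q, k) hmem]
      · simp only
        rw [mul_comm q (p ^ k), ← hnq, if_pos rfl, mul_one]
      · rintro ⟨q', k'⟩ hi hne
        rw [if_neg, mul_zero]
        intro h
        simp only [Finset.mem_product, Qs, Finset.mem_filter] at hi
        simp only at h
        apply hne
        rw [hnq, mul_comm] at h
        have hkk : k = k' := by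
          rcases lt_trichotomy k k' with hlt | heq | hgt
          · exfalso
            obtain ⟨t, rfl⟩ := Nat.exists_eq_add_of_lt hlt
            have : q = q' * p ^ (t + 1) := by
              have h3 : p ^ k * q = p ^ k * (q' * p ^ (t + 1)) := by
                rw [mul_comm, h, show k + t + 1 = k + (t + 1) by ring, pow_add]; ring
              exact Nat.eq_of_mul_eq_mul_left (pow_pos hp.pos _) h3
            apply hq
            rw [this, pow_succ]
            exact Dvd.dvd.mul_left (dvd_mul_left p _) _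
          · exact heq
          · exfalso
            obtain ⟨t, rfl⟩ := Nat.exists_eq_add_of_lt hgt
            have : q' = q * p ^ (t + 1) := by
              have h3 : p ^ k' * q' = p ^ k' * (q * p ^ (t + 1)) := by
                rw [mul_comm, ← h, show k' + t + 1 = k' + (t + 1) by ring, pow_add]; ring
              exact Nat.eq_of_mul_eq_mul_left (pow_pos hp.pos _) h3
            apply hi.1.2
            rw [this, pow_succ]
            exact Dvd.dvd.mul_left (dvd_mul_left p _) _
        subst hkk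
        have : q = q' := Nat.eq_of_mul_eq_mul_right (pow_pos hp.pos k) h
        rw [this]
    · rw [coeff_eq_zero_of_natDegree_lt (hJ.trans_lt hnJ), Finset.sum_eq_zero]
      rintro ⟨q, k⟩ _
      simp only
      split_ifs with h
      · rw [← h, coeff_eq_zero_of_natDegree_lt (hJ.trans_lt hnJ), mul_one]
      · rw [mul_zero]

lemma fold_main [IsAlgClosed C] (hp : p.Prime) (hl : lam ^ (p - 1) = -(p : C)) (hl0 : v lam ≠ 0)
    (hM : 1 ≤ M) (hlM : v lam * M ^ 2 < 1) {F : C[X]} {J : ℕ} (hJ : F.natDegree ≤ J) (hF : Bd v F M)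
    {x : ℕ → ℕ → C} (hx : ∀ q k, x q k ^ p ^ k = F.coeff (q * p ^ k)) :
    Fold v p lam F (folded p J x) := by
  -- remove the constant term
  obtain ⟨γ, hγ, hγM⟩ := exists_as (p := p) hp hM (hF 0)
  have hγe : Polynomial.C γ ^ p - Polynomial.C γ = Polynomial.C (-F.coeff 0) := by
    rw [← C_pow, ← C_sub, hγ]
  have h1 : Fold v p lam F (F + (Polynomial.C γ ^ p - Polynomial.C γ)) :=
    fold_step hp hl hl0 hM hlM hF ((Bd.const _).mono hγM)
      (by rw [hγe]; exact (Bd.const _).mono (by rw [v.map_neg]; exact hF 0))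
  have h2 : F + (Polynomial.C γ ^ p - Polynomial.C γ) = 0 +
      ∑ i ∈ Qs p J ×ˢ Finset.range (J + 1), Polynomial.C (x i.1 i.2 ^ p ^ i.2) * X ^ (i.1 * p ^ i.2) := by
    simp only [hx]
    have hd := decomp hp F hJ
    rw [hγe, C_neg, zero_add]
    linear_combination hd
  rw [h2] at h1
  have h3 := fold_finset hp hl hl0 hM hlM (fun i : ℕ × ℕ => x i.1 i.2) (fun i => i.1) (fun i => i.2)
    (Qs p J ×ˢ Finset.range (J + 1)) (fun i _ => by
      rw [← v.map_pow, hx]; exact hF _) 0 Bd.zero
  have h4 := h1.trans h3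
  rwa [zero_add] at h4

end fold

end Crest.Agent.R013.Lin_953
end

-- ▼ part R013/Lin4_953
section

/-!
# Type 4 points, degree p step: the unique dominating exponent (helper953, row 13)
-/

open Polynomial NNReal

namespace Crest.Agent.R013.Lin_953

variable {C : Type*} [Field C] {v : Valuation C ℝ≥0} {w : Valuation C[X] ℝ≥0} {p : ℕ}

lemma BdL.sum {ι : Type*} {S : Finset ι} {F : ι → C[X]} {r : ℝ≥0} (hr : 0 < r)
    (h : ∀ i ∈ S, BdL v (F i) r) : BdL v (∑ i ∈ S, F i) r := fun j => by
  rw [finsetSum_coeff]; exact v.map_sum_lt hr.ne' fun i hi => h i hi j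

lemma Bd.X_add_C {e : C} (he : v e ≤ 1) : Bd v (X + Polynomial.C e) 1 := by
  have h1 : Bd v (X : C[X]) 1 := fun j => by
    rw [coeff_X]; split_ifs <;> simp
  exact h1.add ((Bd.const e).mono he)

lemma BdL.taylor {f : C[X]} {r : ℝ≥0} (hf : BdL v f r) {e : C} (he : v e ≤ 1) :
    BdL v (Polynomial.taylor e f) r := by
  have hr : 0 < r := zero_le.trans_lt (hf 0)
  have h1 : Polynomial.taylor e f = ∑ i ∈ Finset.range (f.natDegree + 1),
      Polynomial.C (f.coeff i) * (X + Polynomial.C e) ^ i := by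
    rw [taylor_apply, comp, eval₂_eq_sum_range]
  rw [h1]
  refine BdL.sum hr fun i _ => ?_
  refine ((Bd.const _).mul ((Bd.X_add_C he).pow i)).bdL ?_
  rw [one_pow, mul_one]; exact hf i

/-- the tie set is finite -/
lemma tie_finite (Q : Finset ℕ) (n : ℕ → ℕ) (W : ℕ → ℝ≥0) (hn : ∀ q, 0 < n q) :
    {s : ℝ≥0 | ∃ q ∈ Q, ∃ q' ∈ Q, q < q' ∧ W q ≠ 0 ∧ W q' ≠ 0 ∧ s ≠ 0 ∧
      s ^ (q * n q * n q') * W q ^ n q' = s ^ (q' * n q' * n q) * W q' ^ n q}.Finite := by
  have hsub : {s : ℝ≥0 | ∃ q ∈ Q, ∃ q' ∈ Q, q < q' ∧ W q ≠ 0 ∧ W q' ≠ 0 ∧ s ≠ 0 ∧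
      s ^ (q * n q * n q') * W q ^ n q' = s ^ (q' * n q' * n q) * W q' ^ n q} ⊆
      ⋃ q ∈ (Q : Set ℕ), ⋃ q' ∈ (Q : Set ℕ), {s : ℝ≥0 | q < q' ∧ W q ≠ 0 ∧ W q' ≠ 0 ∧ s ≠ 0 ∧
      s ^ (q * n q * n q') * W q ^ n q' = s ^ (q' * n q' * n q) * W q' ^ n q} := by
    rintro s ⟨q, hq, q', hq', h⟩
    simp only [Set.mem_iUnion]
    exact ⟨q, hq, q', hq', h⟩
  refine Set.Finite.subset (Set.Finite.biUnion Q.finite_toSet fun q _ =>
    Set.Finite.biUnion Q.finite_toSet fun q' _ => Set.Subsingleton.finite ?_) hsub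
  rintro s ⟨hlt, h1, h2, hs, hs'⟩ t ⟨_, _, _, ht, ht'⟩
  have hexp : q * n q * n q' < q' * n q' * n q := by
    have : q * n q * n q' = q * (n q * n q') := by ring
    rw [this]
    have : q' * n q' * n q = q' * (n q * n q') := by ring
    rw [this]
    exact Nat.mul_lt_mul_of_pos_right hlt (Nat.mul_pos (hn _) (hn _))
  obtain ⟨m, hm⟩ := Nat.exists_eq_add_of_lt hexp
  have key : ∀ u : ℝ≥0, u ≠ 0 → u ^ (q * n q * n q') * W q ^ n q' =
      u ^ (q' * n q' * n q) * W q' ^ n q → u ^ (m + 1) = W q ^ n q' / W q' ^ n q := by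
    intro u hu h
    rw [eq_div_iff (pow_ne_zero _ h2)]
    rw [hm, add_assoc _ m 1, pow_add, mul_assoc (u ^ (q * n q * n q'))] at h
    exact (mul_left_cancel₀ (pow_ne_zero _ hu) h).symm
  have h3 : s ^ (m + 1) = t ^ (m + 1) := (key s hs hs').trans (key t ht ht').symm
  exact (pow_left_inj₀ zero_le zero_le (Nat.succ_ne_zero m)).1 h3

/-- LinDom from a unique dominating monomial of exponent prime to `p`, after recentring -/
lemma linDom_recentre (hp : p.Prime) (hv1 : v (p : C) < 1) {t W' : C[X]} {L N : C} {q : ℕ} (hL : v L ≠ 0)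
    (hq : ¬ p ∣ q) (hN : v N ≠ 0) (ht : t = 1 + Polynomial.C L * (Polynomial.C N * X ^ q + W'))
    (hW : BdL v W' (v N)) {e d : C} (he : v e = 1) (hd0 : v d ≠ 0) (hd1 : v d < 1) :
    ∀ j, 2 ≤ j → v ((sh e d t).coeff j) < v ((sh e d t).coeff 1) := by
  have hWt := hW.taylor he.le
  set Z := Polynomial.C N * (X + Polynomial.C e) ^ q + taylor e W' with hZ
  have hcoef : ∀ j, 1 ≤ j → (sh e d t).coeff j = L * (Z.coeff j * d ^ j) := by
    intro j hj
    rw [sh_coeff, ht]
    have h1 : taylor e (1 + Polynomial.C L * (Polynomial.C N * X ^ q + W')) =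
        1 + Polynomial.C L * Z := by
      rw [hZ, taylor_apply, taylor_apply]
      simp
    rw [h1, coeff_add, coeff_one, if_neg (by omega), zero_add, coeff_C_mul]
    ring
  have hZj : ∀ j, v (Z.coeff j) ≤ v N := by
    intro j
    rw [hZ, coeff_add]
    refine (v.map_add _ _).trans (max_le ?_ (hWt j).le)
    have := ((Bd.const (v := v) N).mul ((Bd.X_add_C he.le).pow q)) j
    rwa [one_pow, mul_one] at this
  have hZ1 : v (Z.coeff 1) = v N := by
    have h1 : v ((Polynomial.C N * (X + Polynomial.C e) ^ q).coeff 1) = v N := by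
      rw [coeff_C_mul, coeff_X_add_C_pow, v.map_mul, v.map_mul, v.map_pow, he, one_pow, one_mul,
        Nat.choose_one_right, v_natCast_eq_one hp hv1 hq, mul_one]
    rw [hZ, coeff_add, Valuation.map_add_eq_of_lt_left v (by rw [h1]; exact hWt 1), h1]
  intro j hj
  rw [hcoef j (by omega), hcoef 1 le_rfl, v.map_mul, v.map_mul, v.map_mul, v.map_mul, hZ1, v.map_pow,
    v.map_pow, pow_one]
  have h2 : v d ^ j < v d := by
    calc v d ^ j ≤ v d ^ 2 := pow_le_pow_of_le_one zero_le hd1.le hj
      _ = v d * v d := pow_two _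
      _ < v d * 1 := mul_lt_mul_of_pos_left hd1 (pos_iff_ne_zero.2 hd0)
      _ = v d := mul_one _
  refine mul_lt_mul_of_pos_left ?_ (pos_iff_ne_zero.2 hL)
  calc v (Z.coeff j) * v d ^ j ≤ v N * v d ^ j := mul_le_mul' (hZj j) le_rfl
    _ < v N * v d := mul_lt_mul_of_pos_left h2 (pos_iff_ne_zero.2 hN)

theorem caseB [IsAlgClosed C] [CharZero C] (hp : p.Prime) (hv1 : v (p : C) < 1)
    (hw : ∀ c, w (Polynomial.C c) = v c)
    (himm : ∀ f : C[X], f ≠ 0 → ∃ c : C, w (f - Polynomial.C c) < w f)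
    {lam : C} (hl : lam ^ (p - 1) = -(p : C)) (hl0 : v lam ≠ 0) {M : ℝ≥0} (hM : 1 < M)
    (hlM : v lam * M ^ 2 < 1) (a b₀ : C[X]) (hb₀ : w (a * b₀ ^ p - 1) < v lam ^ p * M)
    (hN : ¬ ∃ b ≠ 0, ∃ c d : C, d ≠ 0 ∧ w (X - Polynomial.C c) ≤ v d ∧ LinDom v (a * b ^ p) c d) :
    ∃ b : C[X], w (a * b ^ p - 1) < v lam ^ p := by
  classical
  by_contra hS
  push Not at hS
  set L := lam ^ p with hL
  have hvL : v L = v lam ^ p := by rw [hL, v.map_pow]
  have hvL0 : 0 < v lam ^ p := pow_pos (pos_iff_ne_zero.2 hl0) p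
  have hL0 : L ≠ 0 := by
    intro h; rw [h, v.map_zero] at hvL; exact hvL0.ne hvL
  have hvp : v (p : C) = v lam ^ (p - 1) := by rw [← v.map_neg, ← hl, v.map_pow]
  have hlM1 : v lam * M < 1 := by
    refine lt_of_le_of_lt ?_ hlM
    rw [pow_two]; gcongr
    exact le_mul_of_one_le_left' hM.le
  have hl1 : v lam < 1 := by
    refine lt_of_le_of_lt ?_ hlM1
    exact le_mul_of_one_le_right' hM.le
  have hpM : v (p : C) * M < 1 := by
    refine lt_of_le_of_lt ?_ hlM1
    rw [hvp]; gcongr
    calc v lam ^ (p - 1) ≤ v lam ^ 1 :=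
          pow_le_pow_of_le_one zero_le hl1.le (by have := hp.one_lt; omega)
      _ = v lam := pow_one _
  set U : C[X] := Polynomial.C L⁻¹ * (a * b₀ ^ p - 1) with hU
  have hUw : w U ≤ M := by
    rw [hU, w.map_mul, hw, map_inv₀, hvL]
    calc (v lam ^ p)⁻¹ * w (a * b₀ ^ p - 1) ≤ (v lam ^ p)⁻¹ * (v lam ^ p * M) :=
          mul_le_mul' le_rfl hb₀.le
      _ = M := by rw [← mul_assoc, inv_mul_cancel₀ hvL0.ne', one_mul]
  have hU1 : a * b₀ ^ p = 1 + Polynomial.C L * U := by
    rw [hU, ← mul_assoc, ← C_mul, mul_inv_cancel₀ hL0, C_1]; ring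
  have hU0 : U ≠ 0 := by
    intro h
    have := hS b₀
    rw [hU1, h, mul_zero, add_zero, sub_self, w.map_zero] at this
    exact absurd hvL0 (not_lt.2 this)
  set J := U.natDegree with hJ
  have hnrm := fun q : ℕ => nrm' (C := C) hp (fun k => hasseDeriv (q * p ^ k) U) J
  choose Nq ι hι hne hx using hnrm
  have hcard : ∀ q, 0 < Fintype.card (ι q) := fun q => Fintype.card_pos
  have hnear : Near w (fun c => ∀ q ∈ Qs p J, Nq q ≠ 0 → F0 v w (Nq q) c) := by
    refine Near.finset (Qs p J) (P := fun q c => Nq q ≠ 0 → F0 v w (Nq q) c) fun q _ => ?_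
    by_cases h : Nq q = 0
    · exact near_of_all fun c h' => absurd h h'
    · exact (near_F0 hw himm h).mono fun c hc _ => hc
  obtain ⟨c, ⟨hcU, hcN⟩, htie⟩ := ((near_F0 hw himm hU0).and hnear).exists_notMem himm _
    (tie_finite (Qs p J) (fun q => Fintype.card (ι q)) (fun q => w (Nq q)) hcard)
  obtain ⟨d, hd0, hd, -⟩ := exists_v_eq hw himm (X_sub_C_ne_zero c)
  set s := w (X - Polynomial.C c) with hs
  have hs0 : s ≠ 0 := w_ne_zero himm (X_sub_C_ne_zero c)
  set Û := sh c d U with hÛ
  have hÛb : Bd v Û M := fun j => by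
    rw [hÛ, sh_coeff, v.map_mul, v.map_pow, hd]; exact (hcU.le j).trans hUw
  have hÛJ : Û.natDegree ≤ J := by
    rw [hÛ, sh_apply, natDegree_comp]
    calc U.natDegree * (Polynomial.C c + Polynomial.C d * X).natDegree ≤ U.natDegree * 1 := by
          refine Nat.mul_le_mul_left _ ?_
          rw [add_comm]; exact natDegree_linear_le
      _ = J := mul_one _
  have hroot : ∀ q k : ℕ, ∃ x : C, x ^ p ^ k = Û.coeff (q * p ^ k) := fun q k =>
    IsAlgClosed.exists_pow_nat_eq _ (pow_pos hp.pos k)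
  choose x hx' using hroot
  have hfold := fold_main hp hl hl0 hM.le hlM hÛJ hÛb hx'
  set G := folded p J x with hG
  set w' := tr w c d with hw'
  have hw'C : ∀ e, w' (Polynomial.C e) = v e := tr_C hw c d
  have hw'imm := tr_imm himm c hd0
  have hw'X : w' X = 1 := by rw [hw', tr_X hw c d, hd]; exact div_self hs0
  -- finishing criterion
  have hfin : ∀ G' : C[X], Fold v p lam Û G' → w' G' < 1 → False := by
    rintro G' ⟨b₁, hb₁, hE⟩ hG'
    have h1 := hS (b₀ * sh (-c / d) d⁻¹ b₁)
    have h2 : w (a * (b₀ * sh (-c / d) d⁻¹ b₁) ^ p - 1) < v lam ^ p := by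
      rw [← tr_sh w c hd0]
      have h3 : sh c d (a * (b₀ * sh (-c / d) d⁻¹ b₁) ^ p - 1) =
          Polynomial.C L * G' + ((1 + Polynomial.C (lam ^ p) * Û) * b₁ ^ p -
            (1 + Polynomial.C (lam ^ p) * G')) := by
        rw [mul_pow, ← mul_assoc, map_sub, map_mul, map_pow, sh_inv' c hd0, hU1, map_add, map_mul,
          map_one, sh_C, ← hÛ, ← hL]
        ring
      rw [h3]
      refine (Valuation.map_add _ _ _).trans_lt (max_lt ?_ (w_lt_of_bdL hw'C hw'X.le hE))
      rw [Valuation.map_mul]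
      have h4 : tr w c d (Polynomial.C L) = v lam ^ p := by rw [tr_C hw, hvL]
      rw [h4]
      calc v lam ^ p * tr w c d G' < v lam ^ p * 1 := mul_lt_mul_of_pos_left hG' hvL0
        _ = v lam ^ p := mul_one _
    exact absurd h2 (not_lt.2 h1)
  by_cases hall : ∀ q ∈ Qs p J, v (∑ k ∈ Finset.range (J + 1), x q k) ≤ 1
  · -- all coefficients bounded by one
    have hGb : Bd v G 1 := fun j => by
      rw [hG, folded_coeff]
      split_ifs with h
      · exact hall j h
      · rw [v.map_zero]; exact zero_le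
    obtain ⟨e, he1, he⟩ : ∃ e : C, v e ≤ 1 ∧ w' (G - Polynomial.C e) < 1 := by
      have hG1 : w' G ≤ 1 := w_le_of_bd hw'C hw'X.le hGb
      rcases lt_or_eq_of_le hG1 with h | h
      · exact ⟨0, by simp, by simpa using h⟩
      · have hG0 : G ≠ 0 := by
          rintro h'; rw [h', map_zero] at h; exact zero_ne_one h
        obtain ⟨e, _, he, he'⟩ := exists_v_eq hw'C hw'imm hG0
        exact ⟨e, (he.trans h).le, he'.trans_eq h⟩
    obtain ⟨γ, hγ, hγ1⟩ := exists_as (p := p) hp (le_refl (1 : ℝ≥0)) he1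
    have hγe : Polynomial.C γ ^ p - Polynomial.C γ = Polynomial.C (-e) := by
      rw [← C_pow, ← C_sub, hγ]
    have h1 : Fold v p lam G (G + (Polynomial.C γ ^ p - Polynomial.C γ)) :=
      fold_step hp hl hl0 le_rfl (by rw [one_pow, mul_one]; exact hl1) hGb ((Bd.const _).mono hγ1)
        (by rw [hγe]; exact (Bd.const _).mono (by rw [v.map_neg]; exact he1))
    refine hfin _ (hfold.trans h1) ?_
    rw [hγe, C_neg, ← sub_eq_add_neg]
    exact he
  push Not at hall
  obtain ⟨q₀, hq₀, hq₀1⟩ := hall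
  obtain ⟨q, hq, hqmax⟩ := Finset.exists_max_image (Qs p J)
    (fun q => v (∑ k ∈ Finset.range (J + 1), x q k)) ⟨q₀, hq₀⟩
  set N := ∑ k ∈ Finset.range (J + 1), x q k with hNdef
  have hN1 : 1 < v N := hq₀1.trans_le (hqmax q₀ hq₀)
  -- the value of a large coefficient
  have hval : ∀ q ∈ Qs p J, 1 < v (∑ k ∈ Finset.range (J + 1), x q k) →
      Nq q ≠ 0 ∧ v (∑ k ∈ Finset.range (J + 1), x q k) ^ Fintype.card (ι q) =
        s ^ (q * Fintype.card (ι q)) * w (Nq q) := by
    intro q hq h1
    obtain ⟨y, hy, hyN⟩ := hx q c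
    have hclose : ∀ l, ∀ k ∈ Finset.range (J + 1), v (x q k - d ^ q * y l k) < 1 := by
      intro l k hk
      refine roots_close hp hM.le hpM k _ _ ?_ ?_
      · rw [← v.map_pow, hx']; exact hÛb _
      · rw [hx', mul_pow, hy l k (by have := Finset.mem_range.1 hk; omega), hÛ, sh_coeff, taylor_coeff,
          ← pow_mul, mul_comm]
    have hsum : ∀ l, v (d ^ q * ∑ k ∈ Finset.range (J + 1), y l k) =
        v (∑ k ∈ Finset.range (J + 1), x q k) := by
      intro l
      have h2 : v (∑ k ∈ Finset.range (J + 1), x q k - d ^ q * ∑ k ∈ Finset.range (J + 1), y l k) < 1 := by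
        rw [Finset.mul_sum, ← Finset.sum_sub_distrib]
        exact v.map_sum_lt one_ne_zero (hclose l)
      have h3 : d ^ q * ∑ k ∈ Finset.range (J + 1), y l k = ∑ k ∈ Finset.range (J + 1), x q k -
          (∑ k ∈ Finset.range (J + 1), x q k - d ^ q * ∑ k ∈ Finset.range (J + 1), y l k) := by ring
      rw [h3]
      exact Valuation.map_sub_eq_of_lt_left v (h2.trans h1)
    have hprod : v (∑ k ∈ Finset.range (J + 1), x q k) ^ Fintype.card (ι q) =
        s ^ (q * Fintype.card (ι q)) * v ((Nq q).eval c) := by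
      rw [hyN, map_prod]
      have h4 : ∏ l : ι q, v (d ^ q * ∑ k ∈ Finset.range (J + 1), y l k) =
          v (∑ k ∈ Finset.range (J + 1), x q k) ^ Fintype.card (ι q) := by
        rw [Finset.prod_congr rfl fun l _ => hsum l, Finset.prod_const, Finset.card_univ]
      rw [← h4]
      simp only [v.map_mul, v.map_pow, hd]
      rw [Finset.prod_mul_distrib, Finset.prod_const, Finset.card_univ, ← pow_mul]
    have hne0 : Nq q ≠ 0 := by
      intro h
      rw [h, eval_zero, v.map_zero, mul_zero] at hprod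
      exact (pow_pos (zero_lt_one.trans h1) _).ne' hprod
    refine ⟨hne0, ?_⟩
    rw [hprod, ← (hcN q hq hne0).1, taylor_coeff_zero]
  -- uniqueness
  have huniq : ∀ q' ∈ Qs p J, q' ≠ q → v (∑ k ∈ Finset.range (J + 1), x q' k) < v N := by
    intro q' hq' hne'
    refine lt_of_le_of_ne (hqmax q' hq') fun heq => ?_
    obtain ⟨hz, hz'⟩ := hval q hq hN1
    obtain ⟨hy, hy'⟩ := hval q' hq' (by rw [heq]; exact hN1)
    rw [heq] at hy'
    rw [← hNdef] at hz'
    have key : s ^ (q * Fintype.card (ι q) * Fintype.card (ι q')) * w (Nq q) ^ Fintype.card (ι q') =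
        s ^ (q' * Fintype.card (ι q') * Fintype.card (ι q)) * w (Nq q') ^ Fintype.card (ι q) := by
      rw [pow_mul s, ← mul_pow, ← hz', pow_mul s, ← mul_pow, ← hy', ← pow_mul, ← pow_mul, mul_comm]
    apply htie
    rcases lt_or_gt_of_ne hne' with hlt | hlt
    · exact ⟨q', hq', q, hq, hlt, w_ne_zero himm hy, w_ne_zero himm hz, hs0, key.symm⟩
    · exact ⟨q, hq, q', hq', hlt, w_ne_zero himm hz, w_ne_zero himm hy, hs0, key⟩
  -- recentre
  obtain ⟨b₁, hb₁, hE⟩ := hfold
  set E := (1 + Polynomial.C (lam ^ p) * Û) * b₁ ^ p - (1 + Polynomial.C (lam ^ p) * G) with hEdef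
  set b := b₀ * sh (-c / d) d⁻¹ b₁ with hb
  set W' := (G - Polynomial.C N * X ^ q) + Polynomial.C L⁻¹ * E with hW'
  have ht : sh c d (a * b ^ p) = 1 + Polynomial.C L * (Polynomial.C N * X ^ q + W') := by
    have h1 : sh c d (a * b ^ p) = 1 + Polynomial.C L * G + E := by
      rw [hb, hEdef, mul_pow, ← mul_assoc, map_mul, map_pow, sh_inv' c hd0, hU1, map_add, map_mul,
          map_one, sh_C, ← hÛ, ← hL]
      ring
    have h2 : Polynomial.C L * Polynomial.C L⁻¹ = 1 := by rw [← C_mul, mul_inv_cancel₀ hL0, C_1]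
    rw [h1, hW']
    linear_combination (-E) * h2
  have hW'b : BdL v W' (v N) := by
    refine BdL.add (fun j => ?_) ?_
    · rw [coeff_sub, hG, folded_coeff, coeff_C_mul, coeff_X_pow]
      by_cases hj : j = q
      · subst hj
        rw [if_pos hq, if_pos rfl, mul_one, ← hNdef, sub_self, v.map_zero]
        exact zero_lt_one.trans hN1
      · rw [if_neg hj, mul_zero, sub_zero]
        split_ifs with h
        · exact huniq j h hj
        · rw [v.map_zero]; exact zero_lt_one.trans hN1
    · have h1 : Bd v (Polynomial.C L⁻¹) (v lam ^ p)⁻¹ := by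
        have h0 : v L⁻¹ = (v lam ^ p)⁻¹ := by rw [map_inv₀, hvL]
        rw [← h0]; exact Bd.const _
      have h2 := hE.mul_bd h1 (inv_pos.2 hvL0)
      rw [mul_inv_cancel₀ hvL0.ne', mul_comm E] at h2
      exact h2.mono hN1.le
  have hpq : ¬ p ∣ q := (Finset.mem_filter.1 hq).2
  obtain ⟨e, he0, hve, he⟩ := exists_v_eq hw'C hw'imm (f := X) X_ne_zero
  rw [hw'X] at hve he
  obtain ⟨d₁, hd₁0, hvd₁, -⟩ := exists_v_eq hw'C hw'imm (X_sub_C_ne_zero e)
  have hd₁1 : v d₁ < 1 := by rw [hvd₁]; exact he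
  have hdom := linDom_recentre hp hv1 (by rw [hvL]; exact hvL0.ne') hpq
    (zero_lt_one.trans hN1).ne' ht hW'b hve ((Valuation.ne_zero_iff v).2 hd₁0) hd₁1
  rw [sh_sh] at hdom
  have hdom' : LinDom v (a * b ^ p) (c + d * e) (d * d₁) := linDom_iff.2 hdom
  refine hN ⟨b, ?_, c + d * e, d * d₁, mul_ne_zero hd0 hd₁0, ?_, hdom'⟩
  · intro h
    have := hdom' 2 le_rfl
    rw [h, zero_pow hp.ne_zero, mul_zero, map_zero, coeff_zero, coeff_zero, v.map_zero, zero_mul,
      zero_mul] at this
    exact lt_irrefl _ this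
  · rw [v.map_mul, hvd₁, ← hw'C d, ← Valuation.map_mul]
    apply le_of_eq
    rw [← tr_sh w c hd0 (X - Polynomial.C (c + d * e)), hw']
    congr 1
    rw [map_sub, sh_X, sh_C, C_add, C_mul]
    ring

end Crest.Agent.R013.Lin_953
end

-- ▼ part R013/Lin_953
section

/-!
# Type 4 points: the degree p step (task SS-LIN, row 13; helper953)

`C` algebraically closed of mixed characteristic `(0, p)`, `w` a norm on `C[X]` extending `v` which
is immediate (a type 4 point of the affine line). Every nonzero polynomial `a` is, up to a `p`-th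
power of a polynomial `b`, either so close to `1` that it is a `p`-th power locally, or it has on a
disc around the point a strictly dominating linear term.
-/

open Polynomial NNReal

namespace Crest.Agent.R013.Lin_953

variable {C : Type*} [Field C] {w : Valuation C[X] ℝ≥0} {p : ℕ}

theorem lin [IsAlgClosed C] [CharZero C] (hp : p.Prime) (v : Valuation C ℝ≥0) (hv1 : v (p : C) < 1)
    (w : Valuation C[X] ℝ≥0) (hw : ∀ c, w (Polynomial.C c) = v c)
    (himm : ∀ f : C[X], f ≠ 0 → ∃ c : C, w (f - Polynomial.C c) < w f) (a : C[X]) (ha : a ≠ 0) :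
    (∃ b : C[X], w (a * b ^ p - 1) ^ (p - 1) < v (p : C) ^ p) ∨
    (∃ b : C[X], b ≠ 0 ∧ ∃ c d : C, d ≠ 0 ∧ w (X - Polynomial.C c) ≤ v d ∧
      LinDom v (a * b ^ p) c d) := by
  by_cases hN : ∃ b : C[X], b ≠ 0 ∧ ∃ c d : C, d ≠ 0 ∧ w (X - Polynomial.C c) ≤ v d ∧
      LinDom v (a * b ^ p) c d
  · exact Or.inr hN
  left
  have hp1 : 0 < p - 1 := by have := hp.one_lt; omega
  obtain ⟨lam, hl⟩ := IsAlgClosed.exists_pow_nat_eq (-(p : C)) hp1
  have hvp : v (p : C) = v lam ^ (p - 1) := by rw [← v.map_neg, ← hl, v.map_pow]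
  have hl0 : v lam ≠ 0 := by
    intro h
    rw [h, zero_pow hp1.ne'] at hvp
    exact (v.ne_zero_iff.2 (by exact_mod_cast hp.ne_zero : (p : C) ≠ 0)) hvp
  have hl1 : v lam < 1 := by
    by_contra h
    exact absurd (one_le_pow₀ (not_lt.1 h) : 1 ≤ v lam ^ (p - 1)) (not_le.2 (hvp ▸ hv1))
  obtain ⟨z, hz1, hz2⟩ := exists_between ((one_lt_inv₀ (pos_iff_ne_zero.2 hl0)).2 hl1)
  set M := NNReal.sqrt z with hMdef
  have hMz : M ^ 2 = z := NNReal.sq_sqrt z
  have hM : 1 < M := by
    by_contra h
    have : M ^ 2 ≤ 1 := pow_le_one' (not_lt.1 h) 2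
    rw [hMz] at this
    exact absurd hz1 (not_lt.2 this)
  have hlM : v lam * M ^ 2 < 1 := by
    rw [hMz]
    calc v lam * z < v lam * (v lam)⁻¹ := mul_lt_mul_of_pos_left hz2 (pos_iff_ne_zero.2 hl0)
      _ = 1 := mul_inv_cancel₀ hl0
  obtain ⟨b₀, hb₀⟩ := descend hp hv1 hw himm hl hM ha hN
  obtain ⟨b, hb⟩ := caseB hp hv1 hw himm hl hl0 hM hlM a b₀ hb₀ hN
  refine ⟨b, ?_⟩
  calc w (a * b ^ p - 1) ^ (p - 1) < (v lam ^ p) ^ (p - 1) :=
        pow_lt_pow_left₀ hb zero_le hp1.ne'
    _ = v (p : C) ^ p := by rw [hvp, ← pow_mul, ← pow_mul, mul_comm]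

end Crest.Agent.R013.Lin_953
end

-- ▼ part R013/LU6_935

/-!
# Row 13, SS-LU34, part 6: local uniformisation at type 4 points, for a function field `K`
(helper935). `LIN` is helper953's theorem.
-/

open Polynomial IntermediateField
open scoped NNReal

universe u

namespace Crest.Agent.R013.LU6_935

open Crest.Agent.R013.LU1_935 Crest.Agent.R013.LU3_935 Crest.Agent.R013.LU4_935
open Crest.Agent.R013.LU5_935 Crest.Agent.R013.Hens_899

theorem linStmt (k : Type*) [Field k] [IsAlgClosed k] [CharZero k] (p : ℕ) (hp : p.Prime) :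
    LinStmt k p := by
  intro v hv1 _ w hw himm a ha
  rcases Crest.Agent.R013.Lin_953.lin hp v hv1 w hw himm a ha with h | h
  · exact Or.inl h
  · obtain ⟨b, hb, c, d, hd, h1, h2⟩ := h
    exact Or.inr ⟨b, hb, c, d, hd, h1, h2⟩

section Fin

open scoped IntermediateField.algebraAdjoinAdjoin

/-- change of variable: `K/k(t)` is finite for every transcendental `t`. -/
theorem finite_adjoin {k K : Type*} [Field k] [Field K] [Algebra k K] (x : K)
    [FiniteDimensional (IntermediateField.adjoin k {x}) K] (t : K)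
    (ht : Transcendental k t) : FiniteDimensional (IntermediateField.adjoin k {t}) K := by
  have h1 : Algebra.IsAlgebraic (Algebra.adjoin k {x}) K :=
    (IsFractionRing.comap_isAlgebraic_iff (A := Algebra.adjoin k {x})
      (K := IntermediateField.adjoin k {x})).2 inferInstance
  have h2 : Algebra.trdeg k K ≤ 1 := by
    have := Algebra.IsAlgebraic.trdeg_le_cardinalMk k ({x} : Set K)
    simpa using this
  have h3 : AlgebraicIndependent k (fun _ : Unit => t) := algebraicIndependent_unique_type_iff.2 ht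
  have h4 : IsTranscendenceBasis k (fun _ : Unit => t) :=
    h3.isTranscendenceBasis_of_lift_trdeg_le_of_finite (by simpa using h2)
  have h5 := h4.isAlgebraic_field
  have h6 : Set.range (fun _ : Unit => t) = {t} := by simp
  rw [h6] at h5
  have h7 : Algebra.EssFiniteType k (IntermediateField.adjoin k {x}) := by
    rw [IntermediateField.essFiniteType_iff]
    exact IntermediateField.fg_adjoin_of_finite (Set.finite_singleton x)
  have h8 : Algebra.EssFiniteType k K := .comp k (IntermediateField.adjoin k {x}) K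
  have h9 : Algebra.EssFiniteType (IntermediateField.adjoin k {t}) K := .of_comp k _ K
  obtain ⟨s, hs⟩ := IntermediateField.fg_top (IntermediateField.adjoin k {t}) K
  have h3 : FiniteDimensional (IntermediateField.adjoin k {t})
      (IntermediateField.adjoin (IntermediateField.adjoin k {t}) (s : Set K)) :=
    IntermediateField.finiteDimensional_adjoin fun x _ => (h5.isAlgebraic x).isIntegral
  rw [hs] at h3
  exact Module.Finite.of_surjective
    (IntermediateField.topEquiv (F := IntermediateField.adjoin k {t}) (E := K)).toLinearMap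
    (IntermediateField.topEquiv (F := IntermediateField.adjoin k {t}) (E := K)).surjective

theorem mem_of_alg {k K : Type*} [Field k] [IsAlgClosed k] [Field K] [Algebra k K] (z : K)
    (hz : IsAlgebraic k z) : ∃ c : k, algebraMap k K c = z := by
  have h1 := IsAlgClosed.degree_eq_one_of_irreducible k (minpoly.irreducible hz.isIntegral)
  exact minpoly.mem_range_of_degree_eq_one k z h1

end Fin

/-- **LU4.** `K/k(x)` finite, `k` algebraically closed of mixed characteristic `(0, p)`, `w` a rank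
one valuation of `K` such that no element of `k` is a best approximation of `x` (type 4, or a type 1
point of the completion outside `k`). Then there is `t ∈ K`, again of this type, with `k(t)` dense
in `(K, w)`. -/
theorem LU4 {k : Type*} {K : Type u} [Field k] [IsAlgClosed k] [CharZero k] [Field K] [Algebra k K]
    {p : ℕ} (hp : p.Prime) (w : Valuation K ℝ≥0) (hp1 : w (p : K) < 1) (x : K)
    [FiniteDimensional (IntermediateField.adjoin k {x}) K]
    (hx : ∀ c : k, ∃ c' : k, w (x - algebraMap k K c') < w (x - algebraMap k K c)) :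
    ∃ t : K, (∀ c : k, ∃ c' : k, w (t - algebraMap k K c') < w (t - algebraMap k K c)) ∧
      FiniteDimensional (IntermediateField.adjoin k {t}) K ∧
      ∀ z : K, ∀ e : ℝ≥0, 0 < e → ∃ s ∈ IntermediateField.adjoin k {t}, w (z - s) < e := by
  classical
  have : Fact p.Prime := ⟨hp⟩
  have hpK0 : w (p : K) ≠ 0 := by
    have : CharZero K := charZero_of_injective_algebraMap (algebraMap k K).injective
    simpa using hp.ne_zero
  obtain ⟨Ω, i1, i2, i3, i4, i5, W, L, hW, hKL, hdense, hF⟩ := package (k := k) w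
    ⟨(p : k)⁻¹, by
      rw [map_inv₀, map_natCast, map_inv₀]
      exact (one_lt_inv₀ (pos_iff_ne_zero.2 hpK0)).2 hp1⟩
  have hchar : CharZero Ω := charZero_of_injective_algebraMap (algebraMap k Ω).injective
  have hcK : ∀ c : k, algebraMap k Ω c = algebraMap K Ω (algebraMap k K c) := fun c =>
    IsScalarTower.algebraMap_apply k K Ω c
  obtain ⟨F, hFL, hxF, hFx, -, halg, hinv, hrel⟩ := hF x inferInstance
  set j := algebraMap K Ω with hj
  -- transfer of the type 4 property
  have htr : ∀ z : K, (∀ c : k, ∃ c' : k, W (j z - algebraMap k Ω c') < W (j z - algebraMap k Ω c)) ↔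
      ∀ c : k, ∃ c' : k, w (z - algebraMap k K c') < w (z - algebraMap k K c) := by
    intro z
    have h1 : ∀ c : k, W (j z - algebraMap k Ω c) = w (z - algebraMap k K c) := by
      intro c
      rw [hcK, ← map_sub, hW]
    simp_rw [h1]
  have hx' := (htr x).2 hx
  have hp1' : W (p : Ω) < 1 := by
    have : (p : Ω) = j (p : K) := by rw [hj, map_natCast]
    rw [this, hW]; exact hp1
  obtain ⟨y, hyL, hLy, hy⟩ := tower (w := W) (linStmt k p hp) hp1' _ F L hFL rfl hrel halg hinv
    (j x) hxF hFx hx'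
  have himm := im_all (w := W) (F := F) hFx hx'
  have hadj : ∀ z : K, (IntermediateField.adjoin k {z}).map (IsScalarTower.toAlgHom k K Ω) =
      IntermediateField.adjoin k {j z} := by
    intro z
    rw [IntermediateField.adjoin_map, Set.image_singleton]
    rfl
  -- it suffices to find `t : K` with `L ≤ clo k(t)`
  have hfin : ∀ t : K, (∀ c : k, ∃ c' : k, w (t - algebraMap k K c') < w (t - algebraMap k K c)) →
      L ≤ clo W (IntermediateField.adjoin k {j t}) →
      ∃ t : K, (∀ c : k, ∃ c' : k, w (t - algebraMap k K c') < w (t - algebraMap k K c)) ∧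
      FiniteDimensional (IntermediateField.adjoin k {t}) K ∧
      ∀ z : K, ∀ e : ℝ≥0, 0 < e → ∃ s ∈ IntermediateField.adjoin k {t}, w (z - s) < e := by
    intro t ht hLt
    have htrans : ∀ z : K, (∀ c : k, ∃ c' : k, w (z - algebraMap k K c') <
        w (z - algebraMap k K c)) → Transcendental k z := by
      intro z hz halg
      obtain ⟨c, hc⟩ := mem_of_alg z halg
      obtain ⟨c', hc'⟩ := hz c
      rw [hc, sub_self, map_zero] at hc'
      exact absurd hc' (not_lt.2 zero_le)
    refine ⟨t, ht, finite_adjoin x t (htrans t ht), ?_⟩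
    intro z e he
    have h1 : j z ∈ clo W ((IntermediateField.adjoin k {t}).map (IsScalarTower.toAlgHom k K Ω)) := by
      rw [hadj]; exact hLt (hKL z)
    exact ((clo_map (k := k) (V := w) (W := W) hW _ z).1 h1) e he
  by_cases hr0 : ∀ e : ℝ≥0, 0 < e → ∃ c : k, W (y - algebraMap k Ω c) < e
  · -- `k` is dense
    refine hfin x hx (hLy.trans ?_)
    apply clo_le
    rw [IntermediateField.adjoin_simple_le_iff]
    intro e he
    obtain ⟨c, hc⟩ := hr0 e he
    exact ⟨algebraMap k Ω c, IntermediateField.algebraMap_mem _ _, hc⟩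
  push Not at hr0
  obtain ⟨r, hr, hr1⟩ := hr0
  obtain ⟨t, ht⟩ := hdense y hyL r hr
  have h2 : y ∈ clo W (IntermediateField.adjoin k {j t}) := by
    refine perturb W (y := y) (y' := j t) (r := r) hr1 ?_ (hLy (hKL t))
    rw [w_sub_comm]; exact ht
  have h3 : L ≤ clo W (IntermediateField.adjoin k {j t}) :=
    hLy.trans (clo_le W (IntermediateField.adjoin_simple_le_iff.2 h2))
  by_cases htk : ∃ c₀ : k, algebraMap k K c₀ = t
  · obtain ⟨c₀, hc₀⟩ := htk
    refine hfin x hx (h3.trans (clo_mono W ?_))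
    rw [IntermediateField.adjoin_simple_le_iff, ← hc₀, hj, ← hcK]
    exact IntermediateField.algebraMap_mem _ _
  · refine hfin t ((htr t).1 fun c => ?_) h3
    have htc : j t - algebraMap k Ω c ≠ 0 := by
      rw [hcK, ← map_sub]
      intro h
      have := (map_eq_zero_iff j j.injective).1 h
      exact htk ⟨c, (sub_eq_zero.1 this).symm⟩
    obtain ⟨c', hc'⟩ := himm _ htc
    exact ⟨c + c', by rw [map_add, ← sub_sub]; exact hc'⟩

end Crest.Agent.R013.LU6_935
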