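import Mathlib
import Crest.Agent.R013.CutCov2_92
import Crest.Agent.R013.Lift7_903
import Crest.Agent.R013.Gl14_946
import Crest.Agent.R013.BTor4_914

-- ▼ part R013/NonCut_92
section

/-!
# The non-bridge criterion, in the language of idempotents (row 13, part B)

`B` = `K^ ⊗ E` (`E` = the field of a circle), `B1`, `B2` the two patch subrings (outside, inside),
`eP` = the idempotent of the disc at the place `P`, `Am`, `Ap` = elements whose `eP`-part extends to
the inner resp. outer half of a long annulus, `e0` = the idempotent of an `A`-component.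
`G` = `Gal(K^/K)`.  If `K^` is not connected over the disc (`hout`) and not connected over the
outside (`hin`), then `e0` is not a bridge: idempotents `ε ∈ B1`, `δ ∈ B2`, fixed by the stabiliser
of `e0`, which agree away from `e0` are equal.
-/

set_option autoImplicit false
set_option linter.unusedSectionVars false

namespace Crest.Agent.R013.NonCut_92

variable {E B G : Type*} [Field E] [CharZero E] [CommRing B] [Algebra E B] [FiniteDimensional E B]

/-- rank of an idempotent -/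
noncomputable def rk (E : Type*) {B : Type*} [Field E] [CommRing B] [Algebra E B] (e : B) : ℕ :=
  Module.finrank E (LinearMap.range (Algebra.lmul E B e : B →ₗ[E] B))

omit [CharZero E] in
theorem trace_idem {e : B} (he : e * e = e) : Algebra.trace E B e = (rk E e : E) := by
  have hp : LinearMap.IsProj (LinearMap.range (Algebra.lmul E B e : B →ₗ[E] B))
      (Algebra.lmul E B e : B →ₗ[E] B) := by
    refine ⟨fun x => ⟨x, rfl⟩, ?_⟩
    rintro _ ⟨x, rfl⟩
    simp [← mul_assoc, he]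
  rw [Algebra.trace_apply]
  exact hp.trace

omit [CharZero E] in
theorem rk_eq_zero {e : B} (h : rk E e = 0) : e = 0 := by
  unfold rk at h
  have h1 := Submodule.finrank_eq_zero.1 h
  have h2 : (Algebra.lmul E B e : B →ₗ[E] B) 1 ∈
      LinearMap.range (Algebra.lmul E B e : B →ₗ[E] B) := ⟨1, rfl⟩
  rw [h1] at h2
  simpa using h2

theorem rk_add {e f : B} (he : e * e = e) (hf : f * f = f) (hef : e * f = 0) :
    rk E (e + f) = rk E e + rk E f := by
  have h : (e + f) * (e + f) = e + f := by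
    linear_combination he + hf + 2 * hef
  have := trace_idem (E := E) h
  rw [map_add, trace_idem he, trace_idem hf] at this
  exact_mod_cast this.symm

theorem rk_map (g : B ≃ₐ[E] B) {e : B} (he : e * e = e) : rk E (g e) = rk E e := by
  have h : g e * g e = g e := by rw [← map_mul, he]
  have h1 := trace_idem (E := E) h
  rw [Algebra.trace_eq_of_algEquiv g, trace_idem he] at h1
  exact_mod_cast h1.symm

/-- minimal idempotents with a property stable under products -/
theorem exists_min (P : B → Prop) (hP : ∃ x, x * x = x ∧ P x)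
    (hmul : ∀ x y, P x → P y → P (x * y)) (E : Type*) [Field E] [CharZero E] [Algebra E B]
    [FiniteDimensional E B] :
    ∃ x, x * x = x ∧ P x ∧ ∀ y, y * y = y → P y → x * y = x := by
  classical
  have hex : ∃ n, ∃ x : B, x * x = x ∧ P x ∧ rk E x = n := by
    obtain ⟨x, h1, h2⟩ := hP
    exact ⟨_, x, h1, h2, rfl⟩
  obtain ⟨x, h1, h2, h3⟩ := Nat.find_spec hex
  refine ⟨x, h1, h2, fun y hy hPy => ?_⟩
  have h4 : (x * y) * (x * y) = x * y := by linear_combination (y * y) * h1 + x * hy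
  have h5 : Nat.find hex ≤ rk E (x * y) :=
    Nat.find_le ⟨x * y, h4, hmul x y h2 hPy, rfl⟩
  have h6 : (x * (1 - y)) * (x * (1 - y)) = x * (1 - y) := by
    linear_combination (1 - y) ^ 2 * h1 + x * hy
  have h7 : rk E (x * y + x * (1 - y)) = rk E (x * y) + rk E (x * (1 - y)) :=
    rk_add h4 h6 (by linear_combination (-x * x) * hy)
  have h8 : x * y + x * (1 - y) = x := by ring
  rw [h8, h3] at h7
  have h9 : x * (1 - y) = 0 := rk_eq_zero (E := E) (by omega)
  linear_combination -h9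

section

variable [Group G] [Finite G] (ρ : G →* (B ≃ₐ[E] B))
  (B1 B2 Am Ap : Subring B) (eP e0 : B)

/-- The hypotheses. -/
structure Data : Prop where
  inter : ∀ x ∈ B1, x ∈ B2 → x * x = x → x = 0 ∨ x = 1
  fixed : ∀ x : B, x * x = x → eP * x = x → (∀ g, ρ g x = x) → x = 0 ∨ x = eP
  g1 : ∀ g, ∀ x ∈ B1, ρ g x ∈ B1
  g2 : ∀ g, ∀ x ∈ B2, ρ g x ∈ B2
  gm : ∀ g, ∀ x ∈ Am, ρ g x ∈ Am
  gp : ∀ g, ∀ x ∈ Ap, ρ g x ∈ Ap
  geP : ∀ g, ρ g eP = eP
  B1p : B1 ≤ Ap
  B2m : B2 ≤ Am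
  eP_idem : eP * eP = eP
  eP2 : eP ∈ B2
  ePp : eP ∈ Ap
  e0_idem : e0 * e0 = e0
  e0P : eP * e0 = e0
  e0m : e0 ∈ Am
  e0p : e0 ∈ Ap
  e0_ne : e0 ≠ 0
  atom : ∀ x ∈ Am, x ∈ Ap → x * x = x → x * e0 = 0 ∨ x * e0 = e0

variable {ρ B1 B2 Am Ap eP e0} (D : Data ρ B1 B2 Am Ap eP e0)

include D

namespace Data

omit [CharZero E] [FiniteDimensional E B] [Finite G] in
theorem idem (g : G) : ρ g e0 * ρ g e0 = ρ g e0 := by rw [← map_mul, D.e0_idem]

omit [CharZero E] [FiniteDimensional E B] [Finite G] in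
theorem atom' (g : G) (x : B) (h1 : x ∈ Am) (h2 : x ∈ Ap) (hx : x * x = x) :
    x * ρ g e0 = 0 ∨ x * ρ g e0 = ρ g e0 := by
  have key : ∀ y : B, ρ g (ρ g⁻¹ y) = y := by
    intro y
    rw [← AlgEquiv.mul_apply, ← map_mul, mul_inv_cancel, map_one]; rfl
  have hy : ρ g⁻¹ x * ρ g⁻¹ x = ρ g⁻¹ x := by rw [← map_mul, hx]
  rcases D.atom _ (D.gm g⁻¹ x h1) (D.gp g⁻¹ x h2) hy with h | h
  · left
    have := congrArg (ρ g) h
    rwa [map_mul, key, map_zero] at this
  · right
    have := congrArg (ρ g) h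
    rwa [map_mul, key] at this

omit [CharZero E] [FiniteDimensional E B] [Finite G] in
/-- `eP ∏ (1 - g e0) = 0` -/
theorem prod_zero [Fintype G] : eP * ∏ g : G, (1 - ρ g e0) = 0 := by
  classical
  have hid : (∏ g : G, (1 - ρ g e0)) * (∏ g : G, (1 - ρ g e0)) = ∏ g : G, (1 - ρ g e0) := by
    rw [← Finset.prod_mul_distrib]
    refine Finset.prod_congr rfl fun g _ => ?_
    linear_combination D.idem g
  have hinv : ∀ h, ρ h (∏ g : G, (1 - ρ g e0)) = ∏ g : G, (1 - ρ g e0) := by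
    intro h
    rw [map_prod]
    refine Fintype.prod_equiv (Equiv.mulLeft h) _ _ fun g => ?_
    rw [map_sub, map_one, Equiv.coe_mulLeft, map_mul, AlgEquiv.mul_apply]
  have h0 : (∏ g : G, (1 - ρ g e0)) * e0 = 0 := by
    rw [← Finset.mul_prod_erase Finset.univ _ (Finset.mem_univ (1 : G)), map_one,
      AlgEquiv.one_apply]
    linear_combination -(∏ g ∈ Finset.univ.erase (1 : G), (1 - ρ g e0)) * D.e0_idem
  rcases D.fixed (eP * ∏ g : G, (1 - ρ g e0))
    (by linear_combination (∏ g : G, (1 - ρ g e0)) ^ 2 * D.eP_idem + eP * hid)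
    (by linear_combination (∏ g : G, (1 - ρ g e0)) * D.eP_idem)
    (fun g => by rw [map_mul, D.geP, hinv]) with h | h
  · exact h
  · exfalso
    apply D.e0_ne
    have : eP * (∏ g : G, (1 - ρ g e0)) * e0 = eP * e0 := by rw [h]
    rw [D.e0P, mul_assoc, h0, mul_zero] at this
    exact this.symm

omit [CharZero E] [FiniteDimensional E B] in
/-- an element below `eP` killed by all `g e0` is zero -/
theorem eq_zero (s : B) (hs : eP * s = s) (h : ∀ g, ρ g e0 * s = 0) : s = 0 := by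
  classical
  have := Fintype.ofFinite G
  have h1 : (∏ g : G, (1 - ρ g e0)) * s = s := by
    have : ∀ t : Finset G, (∏ g ∈ t, (1 - ρ g e0)) * s = s := by
      intro t
      induction t using Finset.induction_on with
      | empty => simp
      | insert a t ha ih =>
        rw [Finset.prod_insert ha, mul_assoc, ih]
        linear_combination -(h a)
    exact this _
  have h2 := D.prod_zero
  calc s = eP * ((∏ g : G, (1 - ρ g e0)) * s) := by rw [h1, hs]
    _ = (eP * ∏ g : G, (1 - ρ g e0)) * s := by ring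
    _ = 0 := by rw [h2, zero_mul]

omit [CharZero E] [FiniteDimensional E B] in
/-- Idempotents which are constant on the components are determined by them. -/
theorem eq_of_T (z : B) (hz : z * z = z) (hzm : z ∈ Am) (hzp : z ∈ Ap) [Fintype G]
    [DecidablePred fun g : G => z * ρ g e0 = ρ g e0] :
    eP * z = eP * (1 - ∏ g ∈ Finset.univ.filter (fun g : G => z * ρ g e0 = ρ g e0),
      (1 - ρ g e0)) := by
  classical
  set T := Finset.univ.filter (fun g : G => z * ρ g e0 = ρ g e0) with hT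
  have h1 : (1 - z) * ∏ g ∈ T, (1 - ρ g e0) = 1 - z := by
    have : ∀ t ⊆ T, (1 - z) * ∏ g ∈ t, (1 - ρ g e0) = 1 - z := by
      intro t
      induction t using Finset.induction_on with
      | empty => simp
      | insert a t ha ih =>
        intro hsub
        rw [Finset.prod_insert ha]
        have haT : z * ρ a e0 = ρ a e0 := (Finset.mem_filter.1 (hsub (Finset.mem_insert_self a t))).2
        have ih' := ih (fun x hx => hsub (Finset.mem_insert_of_mem hx))
        linear_combination (1 - ρ a e0) * ih' + haT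
    exact this T subset_rfl
  have h2 : eP * z * ∏ g ∈ T, (1 - ρ g e0) = 0 := by
    refine D.eq_zero _ (by linear_combination (z * ∏ g ∈ T, (1 - ρ g e0)) * D.eP_idem) ?_
    intro g
    by_cases hg : z * ρ g e0 = ρ g e0
    · have hgT : g ∈ T := Finset.mem_filter.2 ⟨Finset.mem_univ _, hg⟩
      rw [← Finset.mul_prod_erase T _ hgT]
      linear_combination (-eP * z * ∏ x ∈ T.erase g, (1 - ρ x e0)) * D.idem g
    · have : z * ρ g e0 = 0 := (D.atom' g z hzm hzp hz).resolve_right hg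
      linear_combination (eP * ∏ g ∈ T, (1 - ρ g e0)) * this
  linear_combination eP * h1 + h2

omit [CharZero E] [FiniteDimensional E B] in
/-- An idempotent fixed by the stabiliser of `e0` is constant on `e0`. -/
theorem const (x : B) (hx : x * x = x) (hfix : ∀ g, ρ g e0 = e0 → ρ g x = x) :
    e0 * x = 0 ∨ e0 * x = e0 := by
  classical
  have := Fintype.ofFinite G
  have hex : (e0 * x) * (e0 * x) = e0 * x := by
    linear_combination (x * x) * D.e0_idem + e0 * hx
  have hidg : ∀ g, ρ g (e0 * x) * ρ g (e0 * x) = ρ g (e0 * x) := fun g => by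
    rw [← map_mul, hex]
  set y := ∏ g : G, (1 - ρ g (e0 * x)) with hy
  have hyy : y * y = y := by
    rw [hy, ← Finset.prod_mul_distrib]
    refine Finset.prod_congr rfl fun g _ => ?_
    linear_combination hidg g
  have hyinv : ∀ h, ρ h y = y := by
    intro h
    rw [hy, map_prod]
    refine Fintype.prod_equiv (Equiv.mulLeft h) _ _ fun g => ?_
    rw [map_sub, map_one, Equiv.coe_mulLeft, map_mul ρ, AlgEquiv.mul_apply]
  have hPg : ∀ g, eP * ρ g (e0 * x) = ρ g (e0 * x) := by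
    intro g
    conv_lhs => rw [← D.geP g, ← map_mul]
    congr 1
    linear_combination x * D.e0P
  have hsub : eP * (1 - y) = 1 - y := by
    have : ∀ t : Finset G, eP * (1 - ∏ g ∈ t, (1 - ρ g (e0 * x))) =
        1 - ∏ g ∈ t, (1 - ρ g (e0 * x)) := by
      intro t
      induction t using Finset.induction_on with
      | empty => simp
      | insert a t ha ih =>
        rw [Finset.prod_insert ha]
        linear_combination ih + (∏ g ∈ t, (1 - ρ g (e0 * x))) * hPg a
    exact this _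
  have hcase : ∀ t : Finset G, e0 * ∏ g ∈ t, (1 - ρ g (e0 * x)) = e0 ∨
      e0 * ∏ g ∈ t, (1 - ρ g (e0 * x)) = e0 - e0 * x := by
    intro t
    induction t using Finset.induction_on with
    | empty => left; simp
    | insert a t ha ih =>
      rw [Finset.prod_insert ha]
      by_cases hga : ρ a e0 = e0
      · have h1 : ρ a (e0 * x) = e0 * x := by rw [map_mul, hga, hfix a hga]
        right
        rw [h1]
        rcases ih with ih | ih
        · linear_combination (1 - e0 * x) * ih - x * D.e0_idem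
        · linear_combination (1 - e0 * x) * ih + (-x + x * x) * D.e0_idem + e0 * hx
      · have h0 : e0 * ρ a e0 = 0 := by
          rcases D.atom' a e0 D.e0m D.e0p D.e0_idem with h | h
          · exact h
          · exfalso
            apply hga
            -- `e0 * a e0 = a e0`; by the atom property applied to `a e0`, also `a e0 * e0 = e0`
            rcases D.atom (ρ a e0) (D.gm a _ D.e0m) (D.gp a _ D.e0p) (D.idem a) with h' | h'
            · have : ρ a e0 = 0 := by rw [← h, mul_comm]; exact h'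
              exfalso
              apply D.e0_ne
              have h3 := congrArg (ρ a).symm this
              rwa [AlgEquiv.symm_apply_apply, map_zero] at h3
            · rw [mul_comm] at h'
              rw [← h, h']
        have h1 : e0 * ρ a (e0 * x) = 0 := by
          rw [map_mul]; linear_combination ρ a x * h0
        rcases ih with ih | ih
        · left; linear_combination ih - (∏ g ∈ t, (1 - ρ g (e0 * x))) * h1
        · right; linear_combination ih - (∏ g ∈ t, (1 - ρ g (e0 * x))) * h1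
  rcases D.fixed (1 - y) (by linear_combination hyy) hsub
    (fun g => by rw [map_sub, map_one, hyinv]) with h | h
  · left
    have h1 : (e0 * x) * y = 0 := by
      rw [hy, ← Finset.mul_prod_erase Finset.univ _ (Finset.mem_univ (1 : G)), map_one,
        AlgEquiv.one_apply]
      linear_combination (-∏ g ∈ Finset.univ.erase (1 : G), (1 - ρ g (e0 * x))) * hex
    linear_combination h1 + (e0 * x) * h
  · rcases hcase Finset.univ with h1 | h1
    · exfalso
      apply D.e0_ne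
      have h2 : e0 * y = e0 := h1
      have h3 := D.e0P
      linear_combination -e0 * h - h3 - h2
    · right
      have h2 : e0 * y = e0 - e0 * x := h1
      have h3 := D.e0P
      linear_combination e0 * h + h3 + h2

/-- minimal idempotent of the cover over the disc, above `e0` -/
theorem exists_beta : ∃ b, b * b = b ∧ (b ∈ B2 ∧ b ∈ Ap ∧ b * e0 = e0) ∧
    ∀ y, y * y = y → (y ∈ B2 ∧ y ∈ Ap ∧ y * e0 = e0) → b * y = b :=
  exists_min (E := E) (fun x => x ∈ B2 ∧ x ∈ Ap ∧ x * e0 = e0)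
    ⟨eP, D.eP_idem, D.eP2, D.ePp, D.e0P⟩
    (fun x y hx hy => ⟨mul_mem hx.1 hy.1, mul_mem hx.2.1 hy.2.1, by
      rw [mul_assoc, hy.2.2, hx.2.2]⟩)

/-- minimal idempotent of the cover over the outside, above `e0` -/
theorem exists_gamma : ∃ c, c * c = c ∧ (c ∈ B1 ∧ c ∈ Am ∧ (1 - eP) * c ∈ B2 ∧ c * e0 = e0) ∧
    ∀ y, y * y = y → (y ∈ B1 ∧ y ∈ Am ∧ (1 - eP) * y ∈ B2 ∧ y * e0 = e0) → c * y = c :=
  exists_min (E := E) (fun x => x ∈ B1 ∧ x ∈ Am ∧ (1 - eP) * x ∈ B2 ∧ x * e0 = e0)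
    ⟨1, one_mul 1, one_mem _, one_mem _, by
      rw [mul_one]; exact sub_mem (one_mem _) D.eP2, one_mul _⟩
    (fun x y hx hy => ⟨mul_mem hx.1 hy.1, mul_mem hx.2.1 hy.2.1, by
      have : (1 - eP) * (x * y) = ((1 - eP) * x) * ((1 - eP) * y) := by
        linear_combination (-x * y) * D.eP_idem
      rw [this]; exact mul_mem hx.2.2.1 hy.2.2.1, by rw [mul_assoc, hy.2.2.2, hx.2.2.2]⟩)


/-- Key counting step on the disc side. -/
theorem exists_in (hin : e0 ∉ B2)
    (δ : B) (hδ : δ * δ = δ) (hδ2 : δ ∈ B2) (hδp : δ ∈ Ap) (hδ0 : δ * e0 = e0) :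
    ∃ g : G, ρ g e0 * e0 = 0 ∧ ρ g e0 * δ = ρ g e0 ∧ e0 * ρ g δ = e0 := by
  classical
  have := Fintype.ofFinite G
  obtain ⟨b, hb, ⟨hb2, hbp, hb0⟩, hbmin⟩ := D.exists_beta
  have hbP : b * eP = b := hbmin eP D.eP_idem ⟨D.eP2, D.ePp, D.e0P⟩
  have hbδ : b * δ = b := hbmin δ hδ ⟨hδ2, hδp, hδ0⟩
  by_cases hcase : ∃ g : G, ρ g e0 ≠ e0 ∧ b * ρ g e0 = ρ g e0
  · obtain ⟨g, hg, hbg⟩ := hcase
    have h0 : ρ g e0 * e0 = 0 := by
      rcases D.atom (ρ g e0) (D.gm g _ D.e0m) (D.gp g _ D.e0p) (D.idem g) with h | h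
      · exact h
      · exfalso
        rcases D.atom' g e0 D.e0m D.e0p D.e0_idem with h' | h'
        · apply D.e0_ne; rw [← h, mul_comm, h']
        · exact hg (by rw [← h', mul_comm, h])
    refine ⟨g, h0, by rw [← hbg]; linear_combination (ρ g e0) * hbδ, ?_⟩
    -- `g b` is above `e0`
    have hgb : ρ g b * ρ g b = ρ g b := by rw [← map_mul, hb]
    have hgb0 : ρ g b * ρ g e0 = ρ g e0 := by rw [← map_mul, hb0]
    have h1 : ρ g b * e0 = e0 := by
      rcases D.atom (ρ g b) (D.B2m (D.g2 g _ hb2)) (D.gp g _ hbp) hgb with h | h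
      · exfalso
        have h2 := hbmin (1 - ρ g b) (by linear_combination hgb)
          ⟨sub_mem (one_mem _) (D.g2 g _ hb2), sub_mem (one_mem _) (D.gp g _ hbp), by
            linear_combination -h⟩
        have h3 : ρ g e0 = 0 := by
          linear_combination -hgb0 - (ρ g b) * hbg - (ρ g e0) * h2
        exact D.e0_ne ((map_eq_zero_iff (ρ g) (ρ g).injective).1 h3)
      · exact h
    have h2 : ρ g b * ρ g δ = ρ g b := by rw [← map_mul, hbδ]
    rw [← h1]
    linear_combination e0 * h2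
  · exfalso
    push Not at hcase
    -- then `b = e0`
    have hbe : b = e0 := by
      have h1 : b * (1 - e0) = 0 := by
        refine D.eq_zero _ (by linear_combination (1 - e0) * hbP) fun g => ?_
        by_cases hg : ρ g e0 = e0
        · rw [hg]; linear_combination (-b) * D.e0_idem
        · rcases D.atom' g b (D.B2m hb2) hbp hb with h | h
          · linear_combination (1 - e0) * h
          · exact absurd h (hcase g hg)
      linear_combination h1 + hb0
    exact hin (hbe ▸ hb2)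

/-- Key counting step on the outer side. -/
theorem exists_out (hout : ∃ z, z * z = z ∧ z ∈ B2 ∧ z ∈ Ap ∧ eP * z = z ∧ z ≠ 0 ∧ z ≠ eP)
    (ε : B) (hε : ε * ε = ε) (hε1 : ε ∈ B1) (hεm : ε ∈ Am) (hεP : (1 - eP) * ε ∈ B2)
    (hε0 : ε * e0 = 0) :
    ∃ g : G, ρ g e0 * e0 = 0 ∧ ρ g e0 * ε = 0 ∧ e0 * ρ g ε = 0 := by
  classical
  have := Fintype.ofFinite G
  obtain ⟨b, hb, ⟨hb1, hbm, hb2, hb0⟩, hbmin⟩ := D.exists_gamma
  have key : ∀ x, x * x = x → x ∈ B1 → x ∈ Am → (1 - eP) * x ∈ B2 → x * e0 = 0 → b * x = 0 := by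
    intro x hx h1 h2 h3 h4
    have := hbmin (1 - x) (by linear_combination hx) ⟨sub_mem (one_mem _) h1,
      sub_mem (one_mem _) h2, by
        have : (1 - eP) * (1 - x) = (1 - eP) - (1 - eP) * x := by ring
        rw [this]; exact sub_mem (sub_mem (one_mem _) D.eP2) h3, by linear_combination -h4⟩
    linear_combination -this
  have hbε : b * ε = 0 := key ε hε hε1 hεm hεP hε0
  by_cases hcase : ∃ g : G, ρ g e0 ≠ e0 ∧ b * ρ g e0 = ρ g e0
  · obtain ⟨g, hg, hbg⟩ := hcase
    have h0 : ρ g e0 * e0 = 0 := by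
      rcases D.atom (ρ g e0) (D.gm g _ D.e0m) (D.gp g _ D.e0p) (D.idem g) with h | h
      · exact h
      · exfalso
        rcases D.atom' g e0 D.e0m D.e0p D.e0_idem with h' | h'
        · apply D.e0_ne; rw [← h, mul_comm, h']
        · exact hg (by rw [← h', mul_comm, h])
    refine ⟨g, h0, by rw [← hbg]; linear_combination (ρ g e0) * hbε, ?_⟩
    have hgb : ρ g b * ρ g b = ρ g b := by rw [← map_mul, hb]
    have hgb0 : ρ g b * ρ g e0 = ρ g e0 := by rw [← map_mul, hb0]
    have h1 : ρ g b * e0 = e0 := by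
      rcases D.atom (ρ g b) (D.gm g _ hbm) (D.gp g _ (D.B1p hb1)) hgb with h | h
      · exfalso
        have h2 := key (ρ g b) hgb (D.g1 g _ hb1) (D.gm g _ hbm) (by
          have : (1 - eP) * ρ g b = ρ g ((1 - eP) * b) := by
            rw [map_mul, map_sub, map_one, D.geP]
          rw [this]; exact D.g2 g _ hb2) h
        have h3 : ρ g e0 = 0 := by
          linear_combination -hgb0 - (ρ g b) * hbg + (ρ g e0) * h2
        exact D.e0_ne ((map_eq_zero_iff (ρ g) (ρ g).injective).1 h3)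
      · exact h
    have h2 : ρ g b * ρ g ε = 0 := by rw [← map_mul, hbε, map_zero]
    rw [← h1]
    linear_combination e0 * h2
  · exfalso
    push Not at hcase
    have hbe : eP * b = e0 := by
      have h1 : eP * b * (1 - e0) = 0 := by
        refine D.eq_zero _ (by linear_combination (b * (1 - e0)) * D.eP_idem) fun g => ?_
        by_cases hg : ρ g e0 = e0
        · rw [hg]; linear_combination (-eP * b) * D.e0_idem
        · rcases D.atom' g b hbm (D.B1p hb1) hb with h | h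
          · linear_combination (eP * (1 - e0)) * h
          · exact absurd h (hcase g hg)
      linear_combination h1 + eP * hb0 + D.e0P
    obtain ⟨z, hz, hz2, hzp, hzP, hz0, hz1⟩ := hout
    have h1 := D.eq_of_T z hz (D.B2m hz2) hzp
    set T := Finset.univ.filter (fun g : G => z * ρ g e0 = ρ g e0) with hT
    -- `y = 1 - ∏_{T} (1 - g b)`
    set y := 1 - ∏ g ∈ T, (1 - ρ g b) with hy
    have hP1 : eP * ∏ g ∈ T, (1 - ρ g b) = eP * ∏ g ∈ T, (1 - ρ g e0) := by
      have : ∀ t : Finset G, eP * ∏ g ∈ t, (1 - ρ g b) = eP * ∏ g ∈ t, (1 - ρ g e0) := by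
        intro t
        induction t using Finset.induction_on with
        | empty => simp
        | insert a t ha ih =>
          rw [Finset.prod_insert ha, Finset.prod_insert ha]
          have h2 : eP * ρ a b = ρ a e0 := by
            conv_lhs => rw [← D.geP a, ← map_mul, hbe]
          have h3 : eP * ρ a e0 = ρ a e0 := by
            conv_lhs => rw [← D.geP a, ← map_mul, D.e0P]
          linear_combination (1 - ρ a b) * ih -
            (∏ g ∈ t, (1 - ρ g e0)) * h2 + (∏ g ∈ t, (1 - ρ g e0)) * h3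
      exact this T
    have hyP : eP * y = z := by
      rw [hy]; linear_combination -h1 + hzP - hP1
    have hyy : y * y = y := by
      have : (∏ g ∈ T, (1 - ρ g b)) * (∏ g ∈ T, (1 - ρ g b)) = ∏ g ∈ T, (1 - ρ g b) := by
        rw [← Finset.prod_mul_distrib]
        refine Finset.prod_congr rfl fun g _ => ?_
        have : ρ g b * ρ g b = ρ g b := by rw [← map_mul, hb]
        linear_combination this
      rw [hy]; linear_combination this
    have hy1 : y ∈ B1 := sub_mem (one_mem _) (prod_mem fun g _ =>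
      sub_mem (one_mem _) (D.g1 g _ hb1))
    have hy2 : (1 - eP) * y ∈ B2 := by
      have : ∀ t : Finset G, (1 - eP) * (1 - ∏ g ∈ t, (1 - ρ g b)) ∈ B2 := by
        intro t
        induction t using Finset.induction_on with
        | empty => simp
        | insert a t ha ih =>
          rw [Finset.prod_insert ha]
          have h2 : (1 - eP) * ρ a b ∈ B2 := by
            have : (1 - eP) * ρ a b = ρ a ((1 - eP) * b) := by
              rw [map_mul, map_sub, map_one, D.geP]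
            rw [this]; exact D.g2 a _ hb2
          have h3 : (1 - eP) * (1 - (1 - ρ a b) * ∏ g ∈ t, (1 - ρ g b)) =
              (1 - eP) * (1 - ∏ g ∈ t, (1 - ρ g b)) + ((1 - eP) * ρ a b) *
              (1 - (1 - eP) * (1 - ∏ g ∈ t, (1 - ρ g b))) := by
            linear_combination ((ρ a b) * (1 - ∏ g ∈ t, (1 - ρ g b))) * D.eP_idem
          rw [h3]
          exact add_mem ih (mul_mem h2 (sub_mem (one_mem _) ih))
      exact this T
    have hyB2 : y ∈ B2 := by
      have : y = eP * y + (1 - eP) * y := by ring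
      rw [this, hyP]; exact add_mem hz2 hy2
    rcases D.inter y hy1 hyB2 hyy with h | h
    · apply hz0; rw [← hyP, h, mul_zero]
    · apply hz1; rw [← hyP, h, mul_one]

/-- **NON-CUT**, with the direct form of the condition on the disc side. -/
theorem noncut'
    (hin : e0 ∉ B2)
    (hout : ∃ z, z * z = z ∧ z ∈ B2 ∧ z ∈ Ap ∧ eP * z = z ∧ z ≠ 0 ∧ z ≠ eP)
    (ε δ : B) (hε : ε * ε = ε) (hδ : δ * δ = δ) (hε1 : ε ∈ B1) (hδ2 : δ ∈ B2)
    (hεf : ∀ g, ρ g e0 = e0 → ρ g ε = ε) (hδf : ∀ g, ρ g e0 = e0 → ρ g δ = δ)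
    (hεδ : (1 - e0) * ε = (1 - e0) * δ) : ε = δ := by
  -- the case `e0 ε = 0`, `e0 δ = e0` is impossible
  have main : ∀ ε δ : B, ε * ε = ε → δ * δ = δ → ε ∈ B1 → δ ∈ B2 →
      (1 - e0) * ε = (1 - e0) * δ → e0 * ε = 0 → e0 * δ = e0 → False := by
    intro ε δ hε hδ hε1 hδ2 h hε0 hδ0
    have hδε : δ = ε + e0 := by linear_combination -h - hε0 + hδ0
    have hδp : δ ∈ Ap := by rw [hδε]; exact add_mem (D.B1p hε1) D.e0p
    have hεδ : ε = δ - e0 := by rw [hδε]; ring
    have hεm : ε ∈ Am := by rw [hεδ]; exact sub_mem (D.B2m hδ2) D.e0m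
    have hεP : (1 - eP) * ε ∈ B2 := by
      have : (1 - eP) * ε = (1 - eP) * δ := by rw [hεδ]; linear_combination D.e0P
      rw [this]; exact mul_mem (sub_mem (one_mem _) D.eP2) hδ2
    obtain ⟨g, g1, g2, g3⟩ := D.exists_in hin δ hδ hδ2 hδp (by linear_combination hδ0)
    obtain ⟨g', g1', g2', g3'⟩ := D.exists_out hout ε hε hε1 hεm hεP (by linear_combination hε0)
    have hgδ : ρ g δ = ρ g ε + ρ g e0 := by rw [← map_add, ← hδε]
    have hgδ' : ρ g' δ = ρ g' ε + ρ g' e0 := by rw [← map_add, ← hδε]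
    have igδ : ρ g δ * ρ g δ = ρ g δ := by rw [← map_mul, hδ]
    have igδ' : ρ g' δ * ρ g' δ = ρ g' δ := by rw [← map_mul, hδ]
    -- (in): `(1 - δ)(1 - gδ) = 0`
    have hx : (1 - δ) * (1 - ρ g δ) = (1 - ε) * (1 - ρ g ε) := by
      have e1 : ρ g ε = ρ g δ - ρ g e0 := by rw [hgδ]; ring
      rw [e1, hεδ]
      linear_combination g2 + g3 - g1
    have hx0 : (1 - δ) * (1 - ρ g δ) = 0 := by
      rcases D.inter ((1 - δ) * (1 - ρ g δ))
        (by rw [hx]; exact mul_mem (sub_mem (one_mem _) hε1) (sub_mem (one_mem _) (D.g1 g _ hε1)))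
        (mul_mem (sub_mem (one_mem _) hδ2) (sub_mem (one_mem _) (D.g2 g _ hδ2)))
        (by linear_combination ((1 - ρ g δ) ^ 2) * hδ + (1 - δ) * igδ) with h' | h'
      · exact h'
      · exfalso
        apply D.e0_ne
        linear_combination (-e0) * h' - (1 - ρ g δ) * hδ0
    -- (out): `δ g'δ = 0`
    have hy : δ * ρ g' δ = ε * ρ g' ε := by
      rw [hδε, map_add]
      linear_combination g3' + g2' + g1'
    have hy0 : δ * ρ g' δ = 0 := by
      rcases D.inter (δ * ρ g' δ)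
        (by rw [hy]; exact mul_mem hε1 (D.g1 g' _ hε1))
        (mul_mem hδ2 (D.g2 g' _ hδ2))
        (by linear_combination (ρ g' δ) ^ 2 * hδ + δ * igδ') with h' | h'
      · exact h'
      · exfalso
        apply D.e0_ne
        rw [hy] at h'
        linear_combination (-e0) * h' + (ρ g' ε) * hε0
    -- count
    have r1 : rk E (ρ g δ) = rk E δ := rk_map _ hδ
    have r1' : rk E (ρ g' δ) = rk E δ := rk_map _ hδ
    have r2 : rk E (δ + (1 - δ)) = rk E δ + rk E (1 - δ) :=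
      rk_add hδ (by linear_combination hδ) (by linear_combination -hδ)
    -- (in): `gδ = (1 - δ) + (gδ δ)`
    have i1 : (ρ g δ * δ) * (ρ g δ * δ) = ρ g δ * δ := by
      linear_combination (δ ^ 2) * igδ + ρ g δ * hδ
    have r3 : rk E ((1 - δ) + ρ g δ * δ) = rk E (1 - δ) + rk E (ρ g δ * δ) :=
      rk_add (by linear_combination hδ) i1 (by linear_combination (-ρ g δ) * hδ)
    have e3 : (1 - δ) + ρ g δ * δ = ρ g δ := by linear_combination hx0
    rw [e3, r1] at r3
    -- `gδ δ ≥ e0`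
    have i2 : (ρ g δ * δ - e0) * (ρ g δ * δ - e0) = ρ g δ * δ - e0 := by
      linear_combination i1 + D.e0_idem - 2 * δ * g3 - 2 * hδ0
    have r4 : rk E (e0 + (ρ g δ * δ - e0)) = rk E e0 + rk E (ρ g δ * δ - e0) :=
      rk_add D.e0_idem i2 (by linear_combination δ * g3 + hδ0 - D.e0_idem)
    have e4 : e0 + (ρ g δ * δ - e0) = ρ g δ * δ := by ring
    rw [e4] at r4
    -- (out)
    have i5 : (1 - δ - ρ g' δ) * (1 - δ - ρ g' δ) = 1 - δ - ρ g' δ := by
      linear_combination hδ + igδ' + 2 * hy0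
    have r5 : rk E (ρ g' δ + (1 - δ - ρ g' δ)) = rk E (ρ g' δ) + rk E (1 - δ - ρ g' δ) :=
      rk_add igδ' i5 (by linear_combination -igδ' - hy0)
    have e5 : ρ g' δ + (1 - δ - ρ g' δ) = 1 - δ := by ring
    rw [e5, r1'] at r5
    have r6 : 0 < rk E e0 := by
      rcases Nat.eq_zero_or_pos (rk E e0) with h0 | h0
      · exact absurd (rk_eq_zero h0) D.e0_ne
      · exact h0
    omega
  rcases D.const ε hε hεf with h1 | h1 <;> rcases D.const δ hδ hδf with h2 | h2
  · linear_combination hεδ + h1 - h2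
  · exact (main ε δ hε hδ hε1 hδ2 hεδ h1 h2).elim
  · exact (main (1 - ε) (1 - δ) (by linear_combination hε) (by linear_combination hδ)
      (sub_mem (one_mem _) hε1) (sub_mem (one_mem _) hδ2)
      (by linear_combination -hεδ) (by linear_combination -h1)
      (by linear_combination -h2)).elim
  · linear_combination hεδ + h1 - h2


end Data

end

end Crest.Agent.R013.NonCut_92
end

-- ▼ part R013/NB1_92
section

/-!
# The non-bridge data from the two classes (row 13, part B, leaf B-NB), pure algebra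

`F ⊆ E` fields, `K/F` finite, `B = E ⊗ K`.  For a subring `S` of `E`, `BS S = S ⊗ K` (the span).
-/

set_option autoImplicit false
set_option linter.unusedSectionVars false

namespace Crest.Agent.R013.NB_92

open Module TensorProduct Crest.Agent.R013.Gl946 Crest.Agent.R013.CutCov_92

section BS

variable {E : Type*} [Field E] {F : Subfield E} {K : Type*} [Field K] [Algebra F K]

theorem smul_eq_tmul (s : E) (v : E ⊗[F] K) : s • v = (s ⊗ₜ[F] (1 : K)) * v := by
  induction v using TensorProduct.induction_on with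
  | zero => rw [smul_zero, mul_zero]
  | tmul a k => rw [smul_tmul', smul_eq_mul, Algebra.TensorProduct.tmul_mul_tmul, one_mul]
  | add x y hx hy => rw [smul_add, mul_add, hx, hy]

theorem algebraMap_eq_tmul (s : E) : algebraMap E (E ⊗[F] K) s = s ⊗ₜ[F] (1 : K) := rfl

/-- The `S`-span of `K` in `E ⊗ K`. -/
def BS (S : Subring E) : Subring (E ⊗[F] K) where
  carrier := AddSubmonoid.closure {v | ∃ s ∈ S, ∃ k : K, v = s ⊗ₜ[F] k}
  zero_mem' := zero_mem _
  add_mem' := fun hx hy => add_mem hx hy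
  neg_mem' := by
    intro x hx
    change x ∈ AddSubmonoid.closure _ at hx
    change -x ∈ AddSubmonoid.closure _
    refine AddSubmonoid.closure_induction
      (motive := fun x _ => -x ∈ AddSubmonoid.closure {v | ∃ s ∈ S, ∃ k : K, v = s ⊗ₜ[F] k})
      ?_ ?_ ?_ hx
    · rintro _ ⟨s, hs, k, rfl⟩
      exact AddSubmonoid.subset_closure ⟨-s, neg_mem hs, k, (neg_tmul s k).symm⟩
    · rw [neg_zero]; exact zero_mem _
    · intro x y _ _ h1 h2
      rw [neg_add]; exact add_mem h1 h2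
  one_mem' := AddSubmonoid.subset_closure ⟨1, one_mem _, 1, rfl⟩
  mul_mem' := by
    intro x y hx hy
    change x ∈ AddSubmonoid.closure _ at hx
    change y ∈ AddSubmonoid.closure _ at hy
    change x * y ∈ AddSubmonoid.closure _
    refine AddSubmonoid.closure_induction₂
      (motive := fun x y _ _ => x * y ∈ AddSubmonoid.closure {v | ∃ s ∈ S, ∃ k : K, v = s ⊗ₜ[F] k})
      ?_ ?_ ?_ ?_ ?_ hx hy
    · rintro _ _ ⟨s, hs, k, rfl⟩ ⟨s', hs', k', rfl⟩
      refine AddSubmonoid.subset_closure ⟨s * s', mul_mem hs hs', k * k', ?_⟩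
      rw [Algebra.TensorProduct.tmul_mul_tmul]
    · intro x _; rw [zero_mul]; exact zero_mem _
    · intro x _; rw [mul_zero]; exact zero_mem _
    · intro x y z _ _ _ h1 h2; rw [add_mul]; exact add_mem h1 h2
    · intro x y z _ _ _ h1 h2; rw [mul_add]; exact add_mem h1 h2

theorem tmul_mem_BS {S : Subring E} {s : E} (hs : s ∈ S) (k : K) :
    s ⊗ₜ[F] k ∈ BS (F := F) (K := K) S := AddSubmonoid.subset_closure ⟨s, hs, k, rfl⟩

theorem BS_induction {S : Subring E} {p : E ⊗[F] K → Prop}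
    (h1 : ∀ s ∈ S, ∀ k : K, p (s ⊗ₜ[F] k)) (h0 : p 0) (ha : ∀ x y, p x → p y → p (x + y))
    {v : E ⊗[F] K} (hv : v ∈ BS (F := F) (K := K) S) : p v := by
  change v ∈ AddSubmonoid.closure _ at hv
  refine AddSubmonoid.closure_induction (motive := fun x _ => p x) ?_ h0 (fun x y _ _ => ha x y) hv
  rintro _ ⟨s, hs, k, rfl⟩
  exact h1 s hs k

theorem BS_mono {S T : Subring E} (h : S ≤ T) : BS (F := F) (K := K) S ≤ BS T := fun v hv =>
  BS_induction (p := fun v => v ∈ BS (F := F) (K := K) T) (fun s hs k => tmul_mem_BS (h hs) k)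
    (zero_mem _) (fun _ _ => add_mem) hv

theorem smul_mem_BS {S : Subring E} {s : E} (hs : s ∈ S) {v : E ⊗[F] K}
    (hv : v ∈ BS (F := F) (K := K) S) : s • v ∈ BS (F := F) (K := K) S := by
  refine BS_induction (p := fun v => s • v ∈ BS (F := F) (K := K) S) ?_ ?_ ?_ hv
  · intro s' hs' k
    rw [smul_tmul', smul_eq_mul]
    exact tmul_mem_BS (mul_mem hs hs') k
  · rw [smul_zero]; exact zero_mem _
  · intro x y hx hy; rw [smul_add]; exact add_mem hx hy

theorem mem_BS_top (v : E ⊗[F] K) : v ∈ BS (F := F) (K := K) ⊤ := by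
  induction v using TensorProduct.induction_on with
  | zero => exact zero_mem _
  | tmul s k => exact tmul_mem_BS (Subring.mem_top s) k
  | add x y hx hy => exact add_mem hx hy

theorem mem_BS_iff {ι : Type*} [Fintype ι] (b : Basis ι F K) {S : Subring E}
    (hS : F.toSubring ≤ S) (v : E ⊗[F] K) :
    v ∈ BS (F := F) (K := K) S ↔ v ∈ cs (Algebra.TensorProduct.basis E b) S := by
  constructor
  · intro hv
    refine BS_induction (p := fun v => v ∈ cs (Algebra.TensorProduct.basis E b) S)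
      ?_ (zero_mem _) (fun _ _ => add_mem) hv
    intro s hs k i
    rw [Algebra.TensorProduct.basis_repr_tmul, Finsupp.smul_apply, Finsupp.mapRange_apply,
      smul_eq_mul]
    exact mul_mem hs (hS (b.repr k i).2)
  · intro hv
    rw [← (Algebra.TensorProduct.basis E b).sum_repr v]
    refine sum_mem fun i _ => ?_
    rw [Algebra.TensorProduct.basis_apply]
    exact smul_mem_BS (hv i) (tmul_mem_BS (one_mem _) _)

/-- the elements of `1 ⊗ K`. -/
theorem mem_cs_F {ι : Type*} [Fintype ι] (b : Basis ι F K) (v : E ⊗[F] K) :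
    v ∈ cs (Algebra.TensorProduct.basis E b) F.toSubring ↔ ∃ k : K, (1 : E) ⊗ₜ[F] k = v := by
  rw [← mem_BS_iff b le_rfl]
  constructor
  · intro hv
    refine BS_induction (p := fun v => ∃ k : K, (1 : E) ⊗ₜ[F] k = v) ?_ ⟨0, tmul_zero _ _⟩ ?_ hv
    · intro s hs k
      refine ⟨(⟨s, hs⟩ : F) • k, ?_⟩
      rw [← TensorProduct.smul_tmul]
      congr 1
      rw [Algebra.smul_def, mul_one]; rfl
    · rintro _ _ ⟨k, rfl⟩ ⟨k', rfl⟩
      exact ⟨k + k', tmul_add _ _ _⟩
  · rintro ⟨k, rfl⟩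
    exact tmul_mem_BS (one_mem _) k

theorem inter_BS [FiniteDimensional F K] (D : PatchDatum E) (hD : D.F0 = F) (v : E ⊗[F] K)
    (h1 : v ∈ BS (F := F) (K := K) D.RU) (h2 : v ∈ BS (F := F) (K := K) D.FP.toSubring) :
    ∃ k : K, (1 : E) ⊗ₜ[F] k = v := by
  subst hD
  rw [← mem_cs_F (Module.finBasis D.F0 K)]
  rw [mem_BS_iff (Module.finBasis D.F0 K) (fun z hz => D.F0_le_RU z hz)] at h1
  rw [mem_BS_iff (Module.finBasis D.F0 K) (S := D.FP.toSubring) D.F0_le_FP] at h2
  exact fun i => D.inter _ (h2 i) (h1 i)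

end BS

section Act

variable {E : Type*} [Field E] {F : Subfield E} {L K : Type*} [Field L] [Field K] [Algebra F L]
  [Algebra F K] [Algebra L K] [IsScalarTower F L K]

variable (E F L K) in
/-- `Gal(K/L)` acting on `E ⊗ K`. -/
noncomputable def rho : (K ≃ₐ[L] K) →* ((E ⊗[F] K) ≃ₐ[E] (E ⊗[F] K)) where
  toFun g := Algebra.TensorProduct.congr AlgEquiv.refl (g.restrictScalars F)
  map_one' := by
    ext v
    change (Algebra.TensorProduct.map (AlgHom.id E E) _) v = v
    induction v using TensorProduct.induction_on with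
    | zero => rw [map_zero]
    | tmul s k => rfl
    | add x y hx hy => rw [map_add, hx, hy]
  map_mul' g h := by
    ext v
    change (Algebra.TensorProduct.map (AlgHom.id E E) _) v =
      (Algebra.TensorProduct.map (AlgHom.id E E) _) ((Algebra.TensorProduct.map (AlgHom.id E E) _) v)
    induction v using TensorProduct.induction_on with
    | zero => simp only [map_zero]
    | tmul s k => rfl
    | add x y hx hy => simp only [map_add, hx, hy]

@[simp]
theorem rho_tmul (g : K ≃ₐ[L] K) (s : E) (k : K) :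
    rho E F L K g (s ⊗ₜ[F] k) = s ⊗ₜ[F] g k := rfl

theorem rho_mem_BS {S : Subring E} (g : K ≃ₐ[L] K) {v : E ⊗[F] K}
    (hv : v ∈ BS (F := F) (K := K) S) : rho E F L K g v ∈ BS (F := F) (K := K) S := by
  refine BS_induction (p := fun v => rho E F L K g v ∈ BS (F := F) (K := K) S) ?_ ?_ ?_ hv
  · intro s hs k; rw [rho_tmul]; exact tmul_mem_BS hs _
  · rw [map_zero]; exact zero_mem _
  · intro x y hx hy; rw [map_add]; exact add_mem hx hy

/-- The idempotent of an embedding `iota : L → E`. -/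
theorem exists_eP [CharZero E] [FiniteDimensional F L] (iota : L →ₐ[F] E) (P : Subfield E)
    (hFP : F ≤ P) (hι : ∀ l, iota l ∈ P) :
    ∃ (n : ℕ) (f : Fin n → E) (l : Fin n → L), (∀ i, f i ∈ P) ∧ (∑ i, f i * iota (l i) = 1) ∧
      ∀ x : L, ((1 : E) ⊗ₜ[F] algebraMap L K x) * (∑ i, f i ⊗ₜ[F] algebraMap L K (l i)) =
        iota x • (∑ i, f i ⊗ₜ[F] algebraMap L K (l i)) := by
  classical
  have : CharZero F := inferInstance
  set pb := Field.powerBasisOfFiniteOfSeparable F L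
  set α := pb.gen with hα
  set a : E := iota α with ha
  set f0 := minpoly F α with hf0
  have hroot : (f0.map (algebraMap F E)).IsRoot a := by
    rw [Polynomial.IsRoot, Polynomial.eval_map_algebraMap, ha, Polynomial.aeval_algHom_apply,
      minpoly.aeval, map_zero]
  set g := (f0.map (algebraMap F E)) /ₘ (Polynomial.X - Polynomial.C a) with hg
  have hgf : (Polynomial.X - Polynomial.C a) * g = f0.map (algebraMap F E) :=
    Polynomial.mul_divByMonic_eq_iff_isRoot.2 hroot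
  have hgP : ∀ i, g.coeff i ∈ P := by
    intro i
    set inc : F →+* P := Subfield.inclusion hFP
    have e1 : f0.map (algebraMap F E) = (f0.map inc).map P.subtype := by
      rw [Polynomial.map_map]; rfl
    have e2 : (Polynomial.X - Polynomial.C a : Polynomial E) =
        (Polynomial.X - Polynomial.C (⟨a, hι α⟩ : P)).map P.subtype := by
      rw [Polynomial.map_sub, Polynomial.map_X, Polynomial.map_C]; rfl
    rw [hg, e1, e2, ← Polynomial.map_divByMonic _ (Polynomial.monic_X_sub_C _), Polynomial.coeff_map]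
    exact Subtype.prop _
  have hsep : f0.Separable := Algebra.IsSeparable.isSeparable F α
  have hc : g.eval a ≠ 0 := by
    have h1 : (Polynomial.derivative (f0.map (algebraMap F E))).eval a ≠ 0 := by
      have := hsep.map (f := algebraMap F E)
      have h2 := this.eval₂_derivative_ne_zero (RingHom.id E) (x := a) (by
        rw [Polynomial.eval₂_id]; exact hroot)
      rwa [Polynomial.eval₂_id] at h2
    rw [← hgf, Polynomial.derivative_mul, Polynomial.eval_add, Polynomial.eval_mul,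
      Polynomial.eval_mul, Polynomial.eval_sub, Polynomial.eval_X, Polynomial.eval_C, sub_self,
      zero_mul, add_zero, Polynomial.derivative_sub, Polynomial.derivative_X,
      Polynomial.derivative_C, sub_zero, Polynomial.eval_one, one_mul] at h1
    exact h1
  set c := g.eval a
  refine ⟨g.natDegree + 1, fun i => g.coeff i / c, fun i => α ^ (i : ℕ), ?_, ?_, ?_⟩
  · intro i
    refine P.div_mem (hgP i) ?_
    change g.eval a ∈ P
    rw [Polynomial.eval_eq_sum_range]
    exact sum_mem fun i _ => mul_mem (hgP i) (pow_mem (hι α) _)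
  · have : g.eval a = ∑ i : Fin (g.natDegree + 1), g.coeff i * a ^ (i : ℕ) := by
      rw [Polynomial.eval_eq_sum_range, Finset.sum_range]
    have h2 : ∑ i : Fin (g.natDegree + 1), g.coeff i / c * iota (α ^ (i : ℕ)) = c / c := by
      change _ = g.eval a / c
      rw [this, Finset.sum_div]
      refine Finset.sum_congr rfl fun i _ => ?_
      rw [map_pow, ← ha]; ring
    rw [h2, div_self hc]
  · set v : E ⊗[F] K := (1 : E) ⊗ₜ[F] algebraMap L K α with hv
    have heP : (∑ i : Fin (g.natDegree + 1), (g.coeff i / c) ⊗ₜ[F] algebraMap L K (α ^ (i : ℕ)) :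
        E ⊗[F] K) = c⁻¹ • Polynomial.aeval v g := by
      rw [Polynomial.aeval_eq_sum_range, Finset.sum_range, Finset.smul_sum]
      refine Finset.sum_congr rfl fun i _ => ?_
      rw [hv, Algebra.TensorProduct.tmul_pow, one_pow, map_pow, smul_smul, smul_tmul', smul_eq_mul,
        mul_one, div_eq_inv_mul]
    rw [heP]
    have h1 : v * (c⁻¹ • Polynomial.aeval v g) = a • (c⁻¹ • Polynomial.aeval v g) := by
      have h2 : Polynomial.aeval v (f0.map (algebraMap F E)) = 0 := by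
        rw [Polynomial.aeval_map_algebraMap]
        have h3 : v = (Algebra.TensorProduct.includeRight : K →ₐ[F] E ⊗[F] K) (algebraMap L K α) := rfl
        rw [h3, Polynomial.aeval_algHom_apply, Polynomial.aeval_algebraMap_apply, minpoly.aeval,
          map_zero, map_zero]
      rw [← hgf, map_mul, map_sub, Polynomial.aeval_X, Polynomial.aeval_C] at h2
      rw [smul_eq_tmul, smul_eq_tmul]
      rw [algebraMap_eq_tmul] at h2
      linear_combination (c⁻¹ ⊗ₜ[F] (1 : K)) * h2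
    intro x
    have hx : x ∈ Algebra.adjoin F {α} := by rw [hα, pb.adjoin_gen_eq_top]; trivial
    refine Algebra.adjoin_induction (p := fun x _ => ((1 : E) ⊗ₜ[F] algebraMap L K x) *
      (c⁻¹ • Polynomial.aeval v g) = iota x • (c⁻¹ • Polynomial.aeval v g)) ?_ ?_ ?_ ?_ hx
    · intro y hy
      rw [Set.mem_singleton_iff.1 hy]
      exact h1
    · intro r
      rw [AlgHom.commutes, ← IsScalarTower.algebraMap_apply, smul_eq_tmul (algebraMap F E r)]
      congr 1
      exact (Algebra.TensorProduct.tmul_one_eq_one_tmul r).symm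
    · intro y z _ _ hy hz
      rw [map_add, tmul_add, add_mul, hy, hz, map_add, add_smul]
    · intro y z _ _ hy hz
      have : ((1 : E) ⊗ₜ[F] algebraMap L K (y * z)) =
          ((1 : E) ⊗ₜ[F] algebraMap L K y) * ((1 : E) ⊗ₜ[F] algebraMap L K z) := by
        rw [Algebra.TensorProduct.tmul_mul_tmul, map_mul, one_mul]
      rw [this, mul_assoc, hz, mul_smul_comm, hy, map_mul, smul_smul, mul_comm (iota z)]

end Act

section Root

variable {E V : Type*} [Field E] [CharZero E] [CommRing V] [Algebra E V]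

/-- idempotents attached to a root of unity `u ^ n = e`, `e u = u`. -/
theorem root_idem {n : ℕ} (hn : 0 < n) {ζ : E} (hζ : IsPrimitiveRoot ζ n) {e u : V}
    (he : e * e = e) (heu : e * u = u) (hu : u ^ n = e) (T : Subring V)
    (hT : ∀ j : ℕ, ∀ v ∈ T, ((ζ ^ j)⁻¹ : E) • v ∈ T) (hTn : ∀ v ∈ T, ((n : E)⁻¹) • v ∈ T)
    (heT : e ∈ T) (huT : u ∈ T) :
    ∃ z : Fin n → V, (∀ j, z j ∈ T) ∧ (∀ j, z j * z j = z j) ∧ (∀ j, e * z j = z j) ∧
      (∑ j, z j = e) ∧ ∀ j, u * z j = ζ ^ (j : ℕ) • z j := by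
  classical
  have hζ0 : ζ ≠ 0 := hζ.ne_zero (by omega)
  have hn0 : (n : E) ≠ 0 := by exact_mod_cast hn.ne'
  set w : ℕ → V := fun j => ((ζ ^ j)⁻¹ : E) • u with hw
  have hwe : ∀ j, e * w j = w j := fun j => by rw [hw]; simp only [mul_smul_comm, heu]
  have hwn : ∀ j, w j ^ n = e := by
    intro j
    rw [hw]
    simp only [smul_pow, hu, inv_pow]
    rw [← pow_mul, mul_comm j n, pow_mul, hζ.pow_eq_one, one_pow, inv_one, one_smul]
  set S : ℕ → V := fun j => ∑ i ∈ Finset.range n, w j ^ i * e with hS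
  have hwS : ∀ j, w j * S j = S j := by
    intro j
    obtain ⟨m, rfl⟩ : ∃ m, n = m + 1 := ⟨n - 1, by omega⟩
    simp only [hS]
    rw [Finset.mul_sum]
    conv_rhs => rw [Finset.sum_range_succ']
    rw [Finset.sum_range_succ]
    have h1 : w j * (w j ^ m * e) = w j ^ 0 * e := by
      rw [← mul_assoc, ← pow_succ', hwn, he, pow_zero, one_mul]
    rw [h1]
    congr 1
    exact Finset.sum_congr rfl fun i _ => by ring
  have hwiS : ∀ j i, w j ^ i * S j = S j := by
    intro j i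
    induction i with
    | zero => rw [pow_zero, one_mul]
    | succ i ih => rw [pow_succ', mul_assoc, ih, hwS]
  have heS : ∀ j, e * S j = S j := by
    intro j
    simp only [hS]
    rw [Finset.mul_sum]
    exact Finset.sum_congr rfl fun i _ => by linear_combination (w j ^ i) * he
  have hSS : ∀ j, S j * S j = (n : E) • S j := by
    intro j
    have : S j * S j = ∑ i ∈ Finset.range n, (w j ^ i * (e * S j)) := by
      conv_lhs => enter [1]; rw [hS]
      rw [Finset.sum_mul]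
      exact Finset.sum_congr rfl fun i _ => by ring
    rw [this]
    simp only [heS, hwiS, Finset.sum_const, Finset.card_range]
    rw [Nat.cast_smul_eq_nsmul]
  refine ⟨fun j => ((n : E)⁻¹) • S j, fun j => ?_, fun j => ?_, fun j => ?_, ?_, fun j => ?_⟩
  · refine hTn _ (sum_mem fun i _ => mul_mem (pow_mem (hT j _ huT) _) heT)
  · rw [smul_mul_smul_comm, hSS, smul_smul]
    congr 1
    field_simp
  · rw [mul_smul_comm, heS]
  · rw [← Finset.smul_sum]
    have h1 : ∑ j : Fin n, S j = (n : E) • e := by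
      have h2 : ∀ j, S j = ∑ i ∈ Finset.range n, ((ζ ^ i)⁻¹ ^ j : E) • (u ^ i * e) := by
        intro j
        simp only [hS, hw]
        refine Finset.sum_congr rfl fun i _ => ?_
        rw [smul_pow, smul_mul_assoc]
        congr 1
        rw [inv_pow, inv_pow, ← pow_mul, ← pow_mul, mul_comm]
      simp only [h2]
      rw [Fin.sum_univ_eq_sum_range (fun j => ∑ i ∈ Finset.range n, ((ζ ^ i)⁻¹ ^ j : E) • (u ^ i * e)) n,
        Finset.sum_comm]
      simp only [← Finset.sum_smul]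
      rw [Finset.sum_eq_single 0]
      · simp
      · intro i hi hi0
        rw [Finset.mem_range] at hi
        have h3 : (∑ j ∈ Finset.range n, ((ζ ^ i)⁻¹ ^ j : E)) = 0 := by
          have h4 : ((ζ ^ i)⁻¹ : E) ≠ 1 := by
            rw [Ne, inv_eq_one]
            exact hζ.pow_ne_one_of_pos_of_lt hi0 hi
          have h5 := mul_geom_sum ((ζ ^ i)⁻¹ : E) n
          have h6 : ((ζ ^ i)⁻¹ : E) ^ n = 1 := by
            rw [inv_pow, ← pow_mul, mul_comm, pow_mul, hζ.pow_eq_one, one_pow, inv_one]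
          rw [h6, sub_self] at h5
          exact (mul_eq_zero.1 h5).resolve_left (sub_ne_zero.2 h4)
        rw [h3, zero_smul]
      · intro h; exact absurd (Finset.mem_range.2 hn) h
    rw [h1, smul_smul, inv_mul_cancel₀ hn0, one_smul]
  · rw [mul_smul_comm, smul_comm]
    congr 1
    have h1 := hwS j
    simp only [hw] at h1
    rw [smul_mul_assoc] at h1
    conv_rhs => rw [← h1]
    rw [smul_smul, mul_inv_cancel₀ (pow_ne_zero _ hζ0), one_smul]

end Root

end Crest.Agent.R013.NB_92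
end

-- ▼ part R013/NB2_92
section

/-!
# The non-bridge data from the two classes (row 13, part B, leaf B-NB), pure algebra, part 2
-/

set_option autoImplicit false
set_option linter.unusedSectionVars false

namespace Crest.Agent.R013.NB_92

open Module TensorProduct Crest.Agent.R013.Gl946 Crest.Agent.R013.CutCov_92

section Fix

variable {E : Type*} [Field E] {F : Subfield E} {L K : Type*} [Field L] [Field K] [Algebra F L]
  [Algebra F K] [Algebra L K] [IsScalarTower F L K]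

/-- the elements whose `eP`-part lies in `S ⊗ K`. -/
def ext (eP : E ⊗[F] K) (S : Subring E) : Subring (E ⊗[F] K) where
  carrier := {v | ∃ v' ∈ BS (F := F) (K := K) S, eP * v = eP * v'}
  zero_mem' := ⟨0, zero_mem _, rfl⟩
  one_mem' := ⟨1, one_mem _, rfl⟩
  add_mem' := by
    rintro x y ⟨x', hx, h⟩ ⟨y', hy, h'⟩
    exact ⟨x' + y', add_mem hx hy, by rw [mul_add, mul_add, h, h']⟩
  neg_mem' := by
    rintro x ⟨x', hx, h⟩
    exact ⟨-x', neg_mem hx, by linear_combination -h⟩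
  mul_mem' := by
    rintro x y ⟨x', hx, h⟩ ⟨y', hy, h'⟩
    exact ⟨x' * y', mul_mem hx hy, by linear_combination y * h + x' * h'⟩

theorem BS_le_ext (eP : E ⊗[F] K) (S : Subring E) : BS (F := F) (K := K) S ≤ ext eP S :=
  fun v hv => ⟨v, hv, rfl⟩

theorem rho_ext {eP : E ⊗[F] K} {S : Subring E} (g : K ≃ₐ[L] K) (hg : rho E F L K g eP = eP)
    {v : E ⊗[F] K} (hv : v ∈ ext eP S) : rho E F L K g v ∈ ext eP S := by
  obtain ⟨v', hv', h⟩ := hv
  refine ⟨rho E F L K g v', rho_mem_BS g hv', ?_⟩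
  have := congrArg (rho E F L K g) h
  rwa [map_mul, map_mul, hg] at this

variable [FiniteDimensional L K] [IsGalois L K]

/-- averages over `Gal(K/L)`. -/
theorem sum_rho {eP : E ⊗[F] K} {iota : L →ₐ[F] E}
    (h1 : ∀ x : L, ((1 : E) ⊗ₜ[F] algebraMap L K x) * eP = iota x • eP)
    {S : Subring E} (hS : ∀ l, iota l ∈ S) {v : E ⊗[F] K} (hv : v ∈ BS (F := F) (K := K) S) :
    ∃ c ∈ S, (∑ g : K ≃ₐ[L] K, rho E F L K g v) * eP = c • eP := by
  refine BS_induction (p := fun v => ∃ c ∈ S, (∑ g : K ≃ₐ[L] K, rho E F L K g v) * eP = c • eP)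
    ?_ ?_ ?_ hv
  · intro s hs k
    refine ⟨s * iota (Algebra.trace L K k), mul_mem hs (hS _), ?_⟩
    simp only [rho_tmul]
    rw [← tmul_sum, ← trace_eq_sum_automorphisms, mul_smul, ← h1, smul_eq_tmul s, ← mul_assoc,
      Algebra.TensorProduct.tmul_mul_tmul, mul_one, one_mul]
  · exact ⟨0, zero_mem _, by simp⟩
  · rintro x y ⟨c, hc, h⟩ ⟨c', hc', h'⟩
    refine ⟨c + c', add_mem hc hc', ?_⟩
    simp only [map_add]
    rw [Finset.sum_add_distrib, add_mul, h, h', add_smul]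

theorem sum_rho_ext {eP : E ⊗[F] K} {iota : L →ₐ[F] E}
    (h1 : ∀ x : L, ((1 : E) ⊗ₜ[F] algebraMap L K x) * eP = iota x • eP)
    (hg : ∀ g : K ≃ₐ[L] K, rho E F L K g eP = eP)
    {S : Subring E} (hS : ∀ l, iota l ∈ S) {v : E ⊗[F] K} (hv : v ∈ ext eP S) (hev : eP * v = v) :
    ∃ c ∈ S, ∑ g : K ≃ₐ[L] K, rho E F L K g v = c • eP := by
  obtain ⟨v', hv', h⟩ := hv
  obtain ⟨c, hc, h2⟩ := sum_rho h1 hS hv'
  refine ⟨c, hc, ?_⟩
  rw [← h2, Finset.sum_mul]
  refine Finset.sum_congr rfl fun g _ => ?_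
  have h3 : v = eP * v' := by rw [← h, hev]
  rw [h3, map_mul, hg, mul_comm]

theorem fixed_eq [CharZero E] {eP : E ⊗[F] K} {iota : L →ₐ[F] E}
    (h1 : ∀ x : L, ((1 : E) ⊗ₜ[F] algebraMap L K x) * eP = iota x • eP)
    (hg : ∀ g : K ≃ₐ[L] K, rho E F L K g eP = eP) {v : E ⊗[F] K} (hev : eP * v = v)
    (hfix : ∀ g : K ≃ₐ[L] K, rho E F L K g v = v) : ∃ c : E, v = c • eP := by
  obtain ⟨c, -, h⟩ := sum_rho_ext h1 hg (S := ⊤) (fun l => Subring.mem_top _)
    (BS_le_ext eP ⊤ (mem_BS_top v)) hev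
  simp only [hfix, Finset.sum_const, Finset.card_univ] at h
  have hn : ((Fintype.card (K ≃ₐ[L] K) : ℕ) : E) ≠ 0 := by exact_mod_cast Fintype.card_ne_zero
  refine ⟨((Fintype.card (K ≃ₐ[L] K) : ℕ) : E)⁻¹ * c, ?_⟩
  rw [mul_smul, ← h, ← Nat.cast_smul_eq_nsmul E, smul_smul, inv_mul_cancel₀ hn, one_smul]

end Fix

section Atom

open Crest.Agent.R013.NonCut_92

variable {E B : Type*} [Field E] [CharZero E] [CommRing B] [Algebra E B] [FiniteDimensional E B]

/-- Existence of an atom. -/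
theorem exists_atom (E : Type*) [Field E] [CharZero E] [Algebra E B] [FiniteDimensional E B]
    (T : Subring B) {eP : B} (heP : eP * eP = eP) (hT : eP ∈ T) (h0 : eP ≠ 0) :
    ∃ e0 ∈ T, e0 * e0 = e0 ∧ eP * e0 = e0 ∧ e0 ≠ 0 ∧
      ∀ x ∈ T, x * x = x → x * e0 = 0 ∨ x * e0 = e0 := by
  classical
  have hex : ∃ n, ∃ x : B, x ∈ T ∧ x * x = x ∧ eP * x = x ∧ x ≠ 0 ∧ rk E x = n :=
    ⟨_, eP, hT, heP, heP, h0, rfl⟩
  obtain ⟨x, h1, h2, h3, h4, h5⟩ := Nat.find_spec hex
  refine ⟨x, h1, h2, h3, h4, fun y hy hyy => ?_⟩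
  by_cases hz : y * x = 0
  · exact Or.inl hz
  right
  have e1 : (y * x) * (y * x) = y * x := by linear_combination (x * x) * hyy + y * h2
  have h6 : Nat.find hex ≤ rk E (y * x) :=
    Nat.find_le ⟨y * x, mul_mem hy h1, e1, by linear_combination y * h3, hz, rfl⟩
  have e2 : ((1 - y) * x) * ((1 - y) * x) = (1 - y) * x := by
    linear_combination (1 - y) ^ 2 * h2 + x * hyy
  have h7 : rk E (y * x + (1 - y) * x) = rk E (y * x) + rk E ((1 - y) * x) :=
    rk_add e1 e2 (by linear_combination (-x * x) * hyy)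
  have e3 : y * x + (1 - y) * x = x := by ring
  rw [e3, h5] at h7
  have h8 : (1 - y) * x = 0 := rk_eq_zero (E := E) (by omega)
  linear_combination -h8

end Atom

section Main

variable {E : Type*} [Field E] [CharZero E] {D : PatchDatum E} {L K : Type*} [Field L] [Field K]
  [Algebra D.F0 L] [Algebra D.F0 K] [Algebra L K] [IsScalarTower D.F0 L K]
  [FiniteDimensional D.F0 L] [FiniteDimensional L K] [IsGalois L K]

/-- An idempotent of the embedding `iota`. -/
structure IsEP (iota : L →ₐ[D.F0] E) (eP : E ⊗[D.F0] K) : Prop where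
  rep : ∃ (n : ℕ) (f : Fin n → E) (l : Fin n → L), (∀ i, f i ∈ D.FP) ∧ (∑ i, f i * iota (l i) = 1) ∧
    eP = ∑ i, f i ⊗ₜ[D.F0] algebraMap L K (l i)
  smul : ∀ x : L, ((1 : E) ⊗ₜ[D.F0] algebraMap L K x) * eP = iota x • eP

omit [FiniteDimensional L K] [IsGalois L K] in
theorem exists_isEP (iota : L →ₐ[D.F0] E) (hι : ∀ l, iota l ∈ D.FP) :
    ∃ eP : E ⊗[D.F0] K, IsEP iota eP := by
  obtain ⟨n, f, l, h1, h2, h3⟩ := exists_eP (K := K) iota D.FP D.F0_le_FP hι
  exact ⟨_, ⟨n, f, l, h1, h2, rfl⟩, h3⟩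

namespace IsEP

variable {iota : L →ₐ[D.F0] E} {eP : E ⊗[D.F0] K} (h : IsEP iota eP)

include h

theorem fixed (g : K ≃ₐ[L] K) : rho E D.F0 L K g eP = eP := by
  obtain ⟨n, f, l, -, -, rfl⟩ := h.rep
  rw [map_sum]
  refine Finset.sum_congr rfl fun i _ => ?_
  rw [rho_tmul, AlgEquiv.commutes]

theorem mem_BS : eP ∈ BS (F := D.F0) (K := K) D.FP.toSubring := by
  obtain ⟨n, f, l, h1, -, rfl⟩ := h.rep
  exact sum_mem fun i _ => tmul_mem_BS (h1 i) _

theorem idem : eP * eP = eP := by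
  obtain ⟨n, f, l, -, h2, h3⟩ := h.rep
  have h4 : ∀ i, (f i ⊗ₜ[D.F0] algebraMap L K (l i)) * eP = (f i * iota (l i)) • eP := by
    intro i
    rw [mul_smul, ← h.smul, smul_eq_tmul (f i), ← mul_assoc, Algebra.TensorProduct.tmul_mul_tmul,
      mul_one, one_mul]
  conv_lhs => enter [1]; rw [h3]
  rw [Finset.sum_mul]
  simp only [h4]
  rw [← Finset.sum_smul, h2, one_smul]

/-- the value of a homomorphism at `eP`. -/
theorem map_eq_one {Ω : Type*} [CommRing Ω] (Ψ : BS (F := D.F0) (K := K) D.FP.toSubring →+* Ω)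
    (φ : D.FP →+* Ω) (hι : ∀ l, iota l ∈ D.FP)
    (hΨ : ∀ (f : E) (hf : f ∈ D.FP) (l : L), Ψ ⟨f ⊗ₜ[D.F0] algebraMap L K l, tmul_mem_BS hf _⟩ =
      φ ⟨f, hf⟩ * φ ⟨iota l, hι l⟩) : Ψ ⟨eP, h.mem_BS⟩ = 1 := by
  obtain ⟨n, f, l, h1, h2, h3⟩ := h.rep
  have e1 : (⟨eP, h.mem_BS⟩ : BS (F := D.F0) (K := K) D.FP.toSubring) =
      ∑ i, ⟨f i ⊗ₜ[D.F0] algebraMap L K (l i), tmul_mem_BS (h1 i) _⟩ := by
    apply Subtype.ext
    rw [AddSubmonoidClass.coe_finsetSum]
    exact h3
  rw [e1, map_sum]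
  simp only [fun i => hΨ (f i) (h1 i) (l i)]
  rw [← map_one φ]
  simp only [← map_mul]
  rw [← map_sum]
  congr 1
  apply Subtype.ext
  rw [AddSubmonoidClass.coe_finsetSum]
  exact h2

theorem ne_zero : eP ≠ 0 := by
  intro h0
  -- a hom to the algebraic closure of `E`
  let : Algebra L (AlgebraicClosure E) := ((algebraMap E (AlgebraicClosure E)).comp iota.toRingHom).toAlgebra
  have : Algebra.IsAlgebraic L K := Algebra.IsAlgebraic.of_finite L K
  let j : K →ₐ[L] AlgebraicClosure E := IsAlgClosed.lift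
  have hj : ∀ l, j (algebraMap L K l) = algebraMap E (AlgebraicClosure E) (iota l) := fun l =>
    j.commutes l
  let jF : K →ₐ[D.F0] AlgebraicClosure E :=
    { j.toRingHom with
      commutes' := fun z => by
        change j (algebraMap D.F0 K z) = _
        rw [IsScalarTower.algebraMap_apply D.F0 L K, hj, AlgHom.commutes]
        rfl }
  let Φ : E ⊗[D.F0] K →ₐ[E] AlgebraicClosure E :=
    Algebra.TensorProduct.lift (Algebra.ofId E _) jF (fun _ _ => Commute.all _ _)
  have hΦ : ∀ (s : E) (k : K), Φ (s ⊗ₜ[D.F0] k) = algebraMap E _ s * j k := fun s k =>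
    Algebra.TensorProduct.lift_tmul _ _ _ _ _
  obtain ⟨n, f, l, h1, h2, h3⟩ := h.rep
  have e1 : Φ eP = 1 := by
    rw [h3, map_sum]
    simp only [hΦ, hj, ← map_mul]
    rw [← map_sum, h2, map_one]
  rw [h0, map_zero] at e1
  exact zero_ne_one e1

end IsEP

/-- The rings of functions extending to the inner and outer half annulus. -/
structure Half (iota : L →ₐ[D.F0] E) (Am Ap : Subring E) : Prop where
  FP_le : D.FP.toSubring ≤ Am
  RU_le : D.RU ≤ Ap
  iota_FP : ∀ l, iota l ∈ D.FP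
  iota_Ap : ∀ l, iota l ∈ Ap

variable {iota : L →ₐ[D.F0] E} {Am Ap : Subring E} (H : Half iota Am Ap)

include H

omit [FiniteDimensional D.F0 L] in
theorem Half.F_le_Am : D.F0.toSubring ≤ Am := fun z hz => H.FP_le (D.F0_le_FP hz)

omit [FiniteDimensional D.F0 L] in
theorem Half.F_le_Ap : D.F0.toSubring ≤ Ap := fun z hz => H.RU_le (D.F0_le_RU z hz)

omit [FiniteDimensional D.F0 L] in
theorem Half.iota_Am (l : L) : iota l ∈ Am := H.FP_le (H.iota_FP l)

/-- The data of NonCut. -/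
theorem Half.data [FiniteDimensional D.F0 K] {eP : E ⊗[D.F0] K} (hP : IsEP iota eP) {e0 : E ⊗[D.F0] K}
    (h1 : e0 ∈ ext eP Am) (h2 : e0 ∈ ext eP Ap) (h3 : e0 * e0 = e0) (h4 : eP * e0 = e0)
    (h5 : e0 ≠ 0)
    (h6 : ∀ x ∈ ext eP Am, x ∈ ext eP Ap → x * x = x → x * e0 = 0 ∨ x * e0 = e0) :
    NonCut_92.Data (rho E D.F0 L K) (BS (F := D.F0) (K := K) D.RU)
      (BS (F := D.F0) (K := K) D.FP.toSubring) (ext eP Am) (ext eP Ap) eP e0 where
  inter := by
    intro x hx1 hx2 hxx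
    obtain ⟨k, rfl⟩ := inter_BS D rfl x hx1 hx2
    have : Nontrivial (E ⊗[D.F0] K) := ⟨⟨e0, 0, h5⟩⟩
    have h : k * k = k :=
      (Algebra.TensorProduct.includeRight : K →ₐ[D.F0] E ⊗[D.F0] K).toRingHom.injective
        (by rw [map_mul]; exact hxx)
    have h' : k * (k - 1) = 0 := by linear_combination h
    rcases mul_eq_zero.1 h' with h0 | h0
    · left; rw [h0, tmul_zero]
    · right; rw [sub_eq_zero.1 h0]; rfl
  fixed := by
    intro x hxx hex hfix
    obtain ⟨c, rfl⟩ := fixed_eq hP.smul hP.fixed hex hfix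
    rcases eq_or_ne c 0 with h0 | h0
    · left; rw [h0, zero_smul]
    · right
      have e1 : (c • eP) * (c • eP) = (c * c) • eP := by rw [smul_mul_smul_comm, hP.idem]
      rw [e1] at hxx
      have e2 := congrArg (fun v => c⁻¹ • v) hxx
      simp only [smul_smul] at e2
      rwa [inv_mul_cancel₀ h0, one_smul, ← mul_assoc, inv_mul_cancel₀ h0, one_mul] at e2
  g1 := fun g x hx => rho_mem_BS g hx
  g2 := fun g x hx => rho_mem_BS g hx
  gm := fun g x hx => rho_ext g (hP.fixed g) hx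
  gp := fun g x hx => rho_ext g (hP.fixed g) hx
  geP := hP.fixed
  B1p := (BS_mono H.RU_le).trans (BS_le_ext _ _)
  B2m := (BS_mono H.FP_le).trans (BS_le_ext _ _)
  eP_idem := hP.idem
  eP2 := hP.mem_BS
  ePp := ⟨1, one_mem _, by rw [hP.idem, mul_one]⟩
  e0_idem := h3
  e0P := h4
  e0m := h1
  e0p := h2
  e0_ne := h5
  atom := h6

omit H in
omit [CharZero E] [FiniteDimensional D.F0 L] [FiniteDimensional L K] [IsGalois L K]
  [IsScalarTower D.F0 L K] [Algebra D.F0 L] [Algebra L K] [Field L] in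
theorem smul_mem_ext {eP : E ⊗[D.F0] K} {S : Subring E} {s : E} (hs : s ∈ S) {v : E ⊗[D.F0] K}
    (hv : v ∈ ext eP S) : s • v ∈ ext eP S := by
  obtain ⟨v', hv', h⟩ := hv
  exact ⟨s • v', smul_mem_BS hs hv', by rw [mul_smul_comm, mul_smul_comm, h]⟩

omit H in
omit [CharZero E] [FiniteDimensional D.F0 L] [FiniteDimensional L K] [IsGalois L K]
  [IsScalarTower D.F0 L K] [Algebra D.F0 L] [Algebra L K] [Field L] in
theorem inj_tmul {e : E ⊗[D.F0] K} (he : e ≠ 0) {k : K} (h : ((1 : E) ⊗ₜ[D.F0] k) * e = 0) : k = 0 := by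
  by_contra hk
  apply he
  have : ((1 : E) ⊗ₜ[D.F0] k⁻¹) * (((1 : E) ⊗ₜ[D.F0] k) * e) = e := by
    rw [← mul_assoc, Algebra.TensorProduct.tmul_mul_tmul, inv_mul_cancel₀ hk, mul_one]
    exact one_mul e
  rw [← this, h, mul_zero]

/-- **(OUT)** a class split over the disc, not over `L`. -/
theorem Half.hout {eP : E ⊗[D.F0] K} (hP : IsEP iota eP) {n : ℕ} (hn : 0 < n) {ζ : E}
    (hζ : IsPrimitiveRoot ζ n) (hζF : ζ ∈ D.F0) (h2 : L) (y2 : K)
    (hy : y2 ^ n = algebraMap L K h2) (hy' : y2 ∉ Set.range (algebraMap L K)) (g2 : E)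
    (hg2P : g2 ∈ D.FP) (hg2A : g2 ∈ Ap) (hg : g2 ^ n = iota h2) :
    ∃ z, z * z = z ∧ z ∈ BS (F := D.F0) (K := K) D.FP.toSubring ∧ z ∈ ext eP Ap ∧ eP * z = z ∧
      z ≠ 0 ∧ z ≠ eP := by
  classical
  have hne : ∀ j : ℕ, (ζ ^ j)⁻¹ ∈ D.F0 := fun j => inv_mem (pow_mem hζF j)
  have hnn : (n : E)⁻¹ ∈ D.F0 := inv_mem (natCast_mem _ _)
  have hFP : ∀ z ∈ D.F0, z ∈ D.FP.toSubring := fun z hz => D.F0_le_FP hz
  have h20 : h2 ≠ 0 := by
    rintro rfl
    apply hy'
    rw [map_zero] at hy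
    exact ⟨0, by rw [map_zero, pow_eq_zero_iff hn.ne' |>.1 hy]⟩
  have hi0 : iota h2 ≠ 0 := (map_ne_zero iota).2 h20
  have hg20 : g2 ≠ 0 := by
    rintro rfl; rw [zero_pow hn.ne'] at hg; exact hi0 hg.symm
  have hginv : g2⁻¹ ∈ Ap := by
    have : g2⁻¹ = g2 ^ (n - 1) * iota h2⁻¹ := by
      rw [map_inv₀, ← hg]
      obtain ⟨m, rfl⟩ : ∃ m, n = m + 1 := ⟨n - 1, by omega⟩
      rw [Nat.add_sub_cancel, pow_succ]
      field_simp
    rw [this]; exact mul_mem (pow_mem hg2A _) (H.iota_Ap _)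
  set u : E ⊗[D.F0] K := g2⁻¹ • (((1 : E) ⊗ₜ[D.F0] y2) * eP) with hu
  have heu : eP * u = u := by
    rw [hu, mul_smul_comm]; congr 1
    linear_combination ((1 : E) ⊗ₜ[D.F0] y2) * hP.idem
  have hun : u ^ n = eP := by
    rw [hu, smul_pow, mul_pow, Algebra.TensorProduct.tmul_pow, one_pow, hy]
    have e1 : eP ^ n = eP := by
      obtain ⟨m, rfl⟩ : ∃ m, n = m + 1 := ⟨n - 1, by omega⟩
      clear hg hy hζ hn hnn hginv
      induction m with
      | zero => rw [zero_add, pow_one]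
      | succ m ih => rw [pow_succ, ih, hP.idem]
    rw [e1, hP.smul, smul_smul, inv_pow, hg, inv_mul_cancel₀ hi0, one_smul]
  obtain ⟨z, hz1, hz2, hz3, hz4, hz5⟩ := root_idem hn hζ hP.idem heu hun
    (BS (F := D.F0) (K := K) D.FP.toSubring ⊓ ext eP Ap)
    (fun j v hv => ⟨smul_mem_BS (hFP _ (hne j)) hv.1, smul_mem_ext (H.F_le_Ap (hne j)) hv.2⟩)
    (fun v hv => ⟨smul_mem_BS (hFP _ hnn) hv.1, smul_mem_ext (H.F_le_Ap hnn) hv.2⟩)
    ⟨hP.mem_BS, ⟨1, one_mem _, by rw [hP.idem, mul_one]⟩⟩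
    ⟨smul_mem_BS (D.FP.inv_mem hg2P) (mul_mem (tmul_mem_BS (one_mem _) _) hP.mem_BS),
      smul_mem_ext hginv ⟨(1 : E) ⊗ₜ[D.F0] y2, tmul_mem_BS (one_mem _) _, by
        linear_combination ((1 : E) ⊗ₜ[D.F0] y2) * hP.idem⟩⟩
  by_contra hcon
  push Not at hcon
  have hz0 : ∀ j, z j = 0 ∨ z j = eP := by
    intro j
    by_cases h0 : z j = 0
    · exact Or.inl h0
    · exact Or.inr (hcon (z j) (hz2 j) (hz1 j).1 (hz1 j).2 (hz3 j) h0)
  obtain ⟨j, hj⟩ : ∃ j, z j = eP := by
    by_contra h0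
    push Not at h0
    have h1 : ∀ j, z j = 0 := fun j => (hz0 j).resolve_right (h0 j)
    simp only [h1, Finset.sum_const_zero] at hz4
    exact hP.ne_zero hz4.symm
  have h6 := hz5 j
  rw [hj] at h6
  have h7 : ((1 : E) ⊗ₜ[D.F0] y2) * eP = (g2 * ζ ^ (j : ℕ)) • eP := by
    have : u * eP = u := by rw [mul_comm]; exact heu
    rw [this, hu] at h6
    rw [mul_smul, ← h6, smul_smul, mul_inv_cancel₀ hg20, one_smul]
  have h8 : ∀ σ : K ≃ₐ[L] K, σ y2 = y2 := by
    intro σ
    have h9 := congrArg (rho E D.F0 L K σ) h7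
    rw [map_mul, rho_tmul, map_smul, hP.fixed, ← h7] at h9
    have h10 : ((1 : E) ⊗ₜ[D.F0] (σ y2 - y2)) * eP = 0 := by
      rw [tmul_sub, sub_mul, h9, sub_self]
    exact sub_eq_zero.1 (inj_tmul hP.ne_zero h10)
  exact hy' ((IsGalois.mem_bot_iff_fixed y2).2 h8)

omit H in
omit [CharZero E] [FiniteDimensional D.F0 L] [FiniteDimensional L K] [IsGalois L K] in
/-- extension of homs to `FP ⊗ K`. -/
theorem exists_Psi [FiniteDimensional D.F0 K] {Ω : Type*} [Field Ω] (φ : D.FP →+* Ω) (κ : K →+* Ω)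
    (hι : ∀ l, iota l ∈ D.FP) (hφκ : ∀ l : L, φ ⟨iota l, hι l⟩ = κ (algebraMap L K l)) :
    ∃ Ψ : BS (F := D.F0) (K := K) D.FP.toSubring →+* Ω, ∀ (f : E) (hf : f ∈ D.FP) (k : K),
      Ψ ⟨f ⊗ₜ[D.F0] k, tmul_mem_BS hf k⟩ = φ ⟨f, hf⟩ * κ k := by
  classical
  have hnt : Nontrivial (E ⊗[D.F0] K) := inferInstance
  set inc := (Algebra.TensorProduct.includeRight : K →ₐ[D.F0] E ⊗[D.F0] K).toRingHom with hinc
  let ev : K ≃+* inc.range := RingEquiv.ofLeftInverse (f := inc)
    (Function.leftInverse_invFun inc.injective)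
  have hev : ∀ k, ((ev k : inc.range) : E ⊗[D.F0] K) = (1 : E) ⊗ₜ[D.F0] k := fun w => rfl
  have hA : ∀ v, v ∈ inc.range ↔ v ∈ cs (Algebra.TensorProduct.basis E (finBasis D.F0 K))
      D.F0.toSubring := by
    intro v
    rw [mem_cs_F]
    exact Iff.rfl
  have hFA : ∀ z ∈ D.F0.toSubring, algebraMap E (E ⊗[D.F0] K) z ∈ inc.range := by
    intro z hz
    refine ⟨algebraMap D.F0 K ⟨z, hz⟩, ?_⟩
    exact (Algebra.TensorProduct.tmul_one_eq_one_tmul (A := E) (B := K) (⟨z, hz⟩ : D.F0)).symm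
  obtain ⟨Φ, h1, h2, -⟩ := ext_hom (Algebra.TensorProduct.basis E (finBasis D.F0 K))
    D.F0.toSubring D.FP.toSubring CutData.F0_le_FP' inc.range
    (BS (F := D.F0) (K := K) D.FP.toSubring) hA
    (fun v => mem_BS_iff (finBasis D.F0 K) (S := D.FP.toSubring) D.F0_le_FP v) φ
    (κ.comp (ev.symm : inc.range →+* K)) hFA (by
      intro z hz
      have e1 : (⟨algebraMap E (E ⊗[D.F0] K) z, hFA z hz⟩ : inc.range) =
          ev (algebraMap D.F0 K ⟨z, hz⟩) := by
        apply Subtype.ext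
        rw [hev]
        exact Algebra.TensorProduct.tmul_one_eq_one_tmul (A := E) (B := K) (⟨z, hz⟩ : D.F0)
      rw [e1]
      change κ (ev.symm (ev _)) = _
      rw [RingEquiv.symm_apply_apply, IsScalarTower.algebraMap_apply D.F0 L K, ← hφκ]
      congr 1
      apply Subtype.ext
      exact AlgHom.commutes iota (⟨z, hz⟩ : D.F0))
  refine ⟨Φ, fun f hf k => ?_⟩
  have hf' : algebraMap E (E ⊗[D.F0] K) f ∈ BS (F := D.F0) (K := K) D.FP.toSubring :=
    tmul_mem_BS hf 1
  have e1 : (⟨f ⊗ₜ[D.F0] k, tmul_mem_BS hf k⟩ : BS (F := D.F0) (K := K) D.FP.toSubring) =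
      ⟨algebraMap E (E ⊗[D.F0] K) f, hf'⟩ * ⟨(1 : E) ⊗ₜ[D.F0] k, tmul_mem_BS (one_mem _) k⟩ := by
    apply Subtype.ext
    change f ⊗ₜ[D.F0] k = (f ⊗ₜ[D.F0] (1 : K)) * ((1 : E) ⊗ₜ[D.F0] k)
    rw [Algebra.TensorProduct.tmul_mul_tmul, mul_one, one_mul]
  rw [e1, map_mul, h2 f hf hf', h1 ((1 : E) ⊗ₜ[D.F0] k) ⟨k, rfl⟩]
  congr 1
  change κ (ev.symm _) = κ k
  congr 1
  rw [RingEquiv.symm_apply_eq]
  rfl

/-- **(IN)** a class split over the annulus, not over the disc. -/
theorem Half.hin [FiniteDimensional D.F0 K] {eP : E ⊗[D.F0] K} (hP : IsEP iota eP) {n : ℕ}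
    (hn : 0 < n) {ζ : E} (hζ : IsPrimitiveRoot ζ n) (hζF : ζ ∈ D.F0) (M : IntermediateField L K)
    (y : K) (hyM : y ^ n ∈ M) (b : E ⊗[D.F0] K) (hb : b ^ n = (1 : E) ⊗ₜ[D.F0] (y ^ n))
    (hbm : b ∈ BS (F := D.F0) (K := K) Am) (hbp : b ∈ BS (F := D.F0) (K := K) Ap)
    (hbM : ∀ σ : K ≃ₐ[L] K, (∀ m ∈ M, σ m = m) → rho E D.F0 L K σ b = b)
    {Ω : Type*} [Field Ω] [CharZero Ω] (φ : D.FP →+* Ω) (κ : M →+* Ω)
    (hφκ : ∀ l : L, φ ⟨iota l, H.iota_FP l⟩ = κ (algebraMap L M l))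
    (hno : ∀ w ∈ Subring.closure (Set.range φ ∪ Set.range κ), w ^ n ≠ κ ⟨y ^ n, hyM⟩)
    {e0 : E ⊗[D.F0] K}
    (Dt : NonCut_92.Data (rho E D.F0 L K) (BS (F := D.F0) (K := K) D.RU)
      (BS (F := D.F0) (K := K) D.FP.toSubring) (ext eP Am) (ext eP Ap) eP e0) :
    e0 ∉ BS (F := D.F0) (K := K) D.FP.toSubring := by
  classical
  intro he0
  have hne : ∀ j : ℕ, (ζ ^ j)⁻¹ ∈ D.F0 := fun j => inv_mem (pow_mem hζF j)
  have hnn : (n : E)⁻¹ ∈ D.F0 := inv_mem (natCast_mem _ _)
  have hy0 : y ≠ 0 := by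
    rintro rfl
    refine hno 0 (zero_mem _) ?_
    have : (⟨(0 : K) ^ n, hyM⟩ : M) = 0 := Subtype.ext (zero_pow hn.ne')
    rw [this, map_zero, zero_pow hn.ne']
  -- `u = b / y` is constant on the atoms
  set u : E ⊗[D.F0] K := ((1 : E) ⊗ₜ[D.F0] y⁻¹) * b with hu
  have hun : u ^ n = 1 := by
    rw [hu, mul_pow, hb, Algebra.TensorProduct.tmul_pow, one_pow,
      Algebra.TensorProduct.tmul_mul_tmul, ← mul_pow, inv_mul_cancel₀ hy0, one_pow, mul_one]
    rfl
  obtain ⟨z, hz1, hz2, -, hz4, hz5⟩ := root_idem hn hζ (e := (1 : E ⊗[D.F0] K)) (one_mul 1)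
    (one_mul u) hun (ext eP Am ⊓ ext eP Ap)
    (fun j v hv => ⟨smul_mem_ext (H.F_le_Am (hne j)) hv.1, smul_mem_ext (H.F_le_Ap (hne j)) hv.2⟩)
    (fun v hv => ⟨smul_mem_ext (H.F_le_Am hnn) hv.1, smul_mem_ext (H.F_le_Ap hnn) hv.2⟩)
    (one_mem _) ⟨mul_mem (BS_le_ext _ _ (tmul_mem_BS (one_mem _) _)) (BS_le_ext _ _ hbm),
      mul_mem (BS_le_ext _ _ (tmul_mem_BS (one_mem _) _)) (BS_le_ext _ _ hbp)⟩
  have key : ∀ g : K ≃ₐ[L] K, ∀ σ : K ≃ₐ[L] K, (∀ m ∈ M, σ m = m) →
      rho E D.F0 L K σ (rho E D.F0 L K g e0) = rho E D.F0 L K g e0 → σ y = y := by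
    intro g σ hσM hσ
    set e1 := rho E D.F0 L K g e0 with he1
    have he1n : e1 ≠ 0 := fun h0 => Dt.e0_ne
      ((map_eq_zero_iff (rho E D.F0 L K g) (rho E D.F0 L K g).injective).1 h0)
    obtain ⟨j, hj⟩ : ∃ j, z j * e1 = e1 := by
      by_contra hcon
      push Not at hcon
      have h1 : ∀ j, z j * e1 = 0 := fun j =>
        (Dt.atom' g (z j) (hz1 j).1 (hz1 j).2 (hz2 j)).resolve_right (hcon j)
      apply he1n
      have h2 : (∑ j, z j) * e1 = 0 := by
        rw [Finset.sum_mul]; exact Finset.sum_eq_zero fun j _ => h1 j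
      rwa [hz4, one_mul] at h2
    have h2 : u * e1 = ζ ^ (j : ℕ) • e1 := by
      have := congrArg (fun v => v * e1) (hz5 j)
      simp only [mul_assoc, smul_mul_assoc, hj] at this
      exact this
    have h3 : b * e1 = ζ ^ (j : ℕ) • (((1 : E) ⊗ₜ[D.F0] y) * e1) := by
      have h4 : ((1 : E) ⊗ₜ[D.F0] y) * (u * e1) = b * e1 := by
        rw [hu, ← mul_assoc, ← mul_assoc, Algebra.TensorProduct.tmul_mul_tmul,
          mul_inv_cancel₀ hy0, mul_one]
        congr 1
        exact one_mul b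
      rw [← h4, h2, mul_smul_comm]
    have h5 := congrArg (rho E D.F0 L K σ) h3
    rw [map_mul, map_smul, map_mul, rho_tmul, hbM σ hσM, hσ, h3] at h5
    have hζj : (ζ ^ (j : ℕ) : E) ≠ 0 := pow_ne_zero _ (hζ.ne_zero hn.ne')
    have h6 : ((1 : E) ⊗ₜ[D.F0] y) * e1 = ((1 : E) ⊗ₜ[D.F0] σ y) * e1 := by
      have := congrArg (fun v => (ζ ^ (j : ℕ))⁻¹ • v) h5
      simp only [smul_smul] at this
      rwa [inv_mul_cancel₀ hζj, one_smul, one_smul] at this
    have h7 : ((1 : E) ⊗ₜ[D.F0] (σ y - y)) * e1 = 0 := by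
      rw [tmul_sub, sub_mul, h6, sub_self]
    exact sub_eq_zero.1 (inj_tmul he1n h7)
  -- the extended hom
  let : Algebra M (AlgebraicClosure Ω) := ((algebraMap Ω (AlgebraicClosure Ω)).comp κ).toAlgebra
  have : Algebra.IsAlgebraic M K := Algebra.IsAlgebraic.of_finite M K
  let κ' : K →ₐ[M] AlgebraicClosure Ω := IsAlgClosed.lift
  have hκ' : ∀ m : M, κ' (m : K) = algebraMap Ω (AlgebraicClosure Ω) (κ m) := fun m =>
    κ'.commutes m
  set φ' : D.FP →+* AlgebraicClosure Ω := (algebraMap Ω (AlgebraicClosure Ω)).comp φ with hφ'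
  have hc : ∀ l : L, φ' ⟨iota l, H.iota_FP l⟩ = (κ' : K →+* AlgebraicClosure Ω) (algebraMap L K l) := by
    intro l
    have e1 : algebraMap L K l = ((algebraMap L M l : M) : K) := rfl
    rw [e1]
    change algebraMap Ω (AlgebraicClosure Ω) (φ ⟨iota l, H.iota_FP l⟩) = κ' _
    rw [hκ', hφκ]
  obtain ⟨Ψ, hΨ⟩ := exists_Psi (D := D) (L := L) (K := K) (iota := iota) φ'
    (κ' : K →+* AlgebraicClosure Ω) H.iota_FP hc
  have hΨP : Ψ ⟨eP, hP.mem_BS⟩ = 1 := by
    refine hP.map_eq_one Ψ φ' H.iota_FP fun f hf l => ?_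
    rw [hΨ f hf, hc]
  have hgm : ∀ g, rho E D.F0 L K g e0 ∈ BS (F := D.F0) (K := K) D.FP.toSubring := fun g =>
    rho_mem_BS g he0
  -- some conjugate of `e0` has value one
  obtain ⟨g, hg⟩ : ∃ g, Ψ ⟨rho E D.F0 L K g e0, hgm g⟩ = 1 := by
    have h1 := Dt.prod_zero
    have h2 : (⟨eP, hP.mem_BS⟩ : BS (F := D.F0) (K := K) D.FP.toSubring) *
        ∏ g : K ≃ₐ[L] K, (1 - ⟨rho E D.F0 L K g e0, hgm g⟩) = 0 := by
      apply Subtype.ext
      push_cast
      exact h1
    have h3 := congrArg Ψ h2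
    rw [map_mul, hΨP, one_mul, map_prod, map_zero, Finset.prod_eq_zero_iff] at h3
    obtain ⟨g, -, h4⟩ := h3
    rw [map_sub, map_one] at h4
    exact ⟨g, (sub_eq_zero.1 h4).symm⟩
  set e1 := rho E D.F0 L K g e0 with he1
  -- other conjugates have value zero
  have horth : ∀ σ : K ≃ₐ[L] K, rho E D.F0 L K σ e1 ≠ e1 →
      Ψ ⟨rho E D.F0 L K σ e1, rho_mem_BS σ (hgm g)⟩ = 0 := by
    intro σ hσ
    have h0 : rho E D.F0 L K σ e1 * e1 = 0 := by
      have e2 : rho E D.F0 L K σ e1 = rho E D.F0 L K (σ * g) e0 := by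
        rw [he1, map_mul, AlgEquiv.mul_apply]
      have h5 := Dt.atom' (σ * g) e1 (Dt.gm g _ Dt.e0m) (Dt.gp g _ Dt.e0p) (Dt.idem g)
      have h6 := Dt.atom' g (rho E D.F0 L K (σ * g) e0) (Dt.gm _ _ Dt.e0m) (Dt.gp _ _ Dt.e0p)
        (Dt.idem _)
      rw [e2]
      rcases h5 with h5 | h5
      · rw [mul_comm]; exact h5
      · rcases h6 with h6 | h6
        · exact h6
        · exfalso
          apply hσ
          rw [e2, ← h5, mul_comm]
          exact h6
    have h1 : (⟨rho E D.F0 L K σ e1, rho_mem_BS σ (hgm g)⟩ :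
        BS (F := D.F0) (K := K) D.FP.toSubring) * ⟨e1, hgm g⟩ = 0 := Subtype.ext h0
    have h2 := congrArg Ψ h1
    rwa [map_mul, hg, mul_one, map_zero] at h2
  -- the sum over `Gal(K/M)`
  let N : Finset (K ≃ₐ[L] K) := Finset.univ.filter fun σ => ∀ m ∈ M, σ m = m
  have hN : ∀ σ, σ ∈ N ↔ ∀ m ∈ M, σ m = m := fun σ => by simp [N]
  have hN1 : (1 : K ≃ₐ[L] K) ∈ N := (hN 1).2 fun m _ => rfl
  have hNmul : ∀ σ ∈ N, ∀ τ ∈ N, σ * τ ∈ N := fun σ hσ τ hτ => (hN _).2 fun m hm => by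
    rw [AlgEquiv.mul_apply, (hN τ).1 hτ m hm, (hN σ).1 hσ m hm]
  have hNinv : ∀ σ ∈ N, σ⁻¹ ∈ N := fun σ hσ => (hN _).2 fun m hm => by
    have := (hN σ).1 hσ m hm
    conv_lhs => rw [← this]
    rw [← AlgEquiv.mul_apply, inv_mul_cancel]; rfl
  -- `T v = Σ_{σ ∈ N} σ v` has coefficients in `M`
  have hT : ∀ v ∈ BS (F := D.F0) (K := K) D.FP.toSubring,
      ∃ (hv : ∑ σ ∈ N, rho E D.F0 L K σ v ∈ BS (F := D.F0) (K := K) D.FP.toSubring),
      ∃ w ∈ Subring.closure (Set.range φ ∪ Set.range κ),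
        Ψ ⟨∑ σ ∈ N, rho E D.F0 L K σ v, hv⟩ = algebraMap Ω (AlgebraicClosure Ω) w := by
    intro v hv
    refine BS_induction (p := fun v =>
      ∃ (hv : ∑ σ ∈ N, rho E D.F0 L K σ v ∈ BS (F := D.F0) (K := K) D.FP.toSubring),
      ∃ w ∈ Subring.closure (Set.range φ ∪ Set.range κ),
        Ψ ⟨∑ σ ∈ N, rho E D.F0 L K σ v, hv⟩ = algebraMap Ω (AlgebraicClosure Ω) w) ?_ ?_ ?_ hv
    · intro s hs k
      have hk : ∑ σ ∈ N, σ k ∈ M := by
        have hfix : ∀ τ : K ≃ₐ[L] K, τ ∈ M.fixingSubgroup → τ (∑ σ ∈ N, σ k) = ∑ σ ∈ N, σ k := by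
          intro τ hτ
          have hτN : τ ∈ N := (hN τ).2 fun m hm => hτ ⟨m, hm⟩
          rw [map_sum]
          refine Finset.sum_bij' (fun σ _ => τ * σ) (fun σ _ => τ⁻¹ * σ)
            (fun σ hσ => hNmul _ hτN _ hσ) (fun σ hσ => hNmul _ (hNinv _ hτN) _ hσ)
            (fun σ _ => by group) (fun σ _ => by group) (fun σ _ => rfl)
        rw [← IsGalois.fixedField_fixingSubgroup M]
        rw [IntermediateField.mem_fixedField_iff]
        exact hfix
      have e2 : ∑ σ ∈ N, rho E D.F0 L K σ (s ⊗ₜ[D.F0] k) = s ⊗ₜ[D.F0] (∑ σ ∈ N, σ k) := by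
        simp only [rho_tmul]
        rw [tmul_sum]
      refine ⟨by rw [e2]; exact tmul_mem_BS hs _, φ ⟨s, hs⟩ * κ ⟨_, hk⟩,
        mul_mem (Subring.subset_closure (Or.inl ⟨_, rfl⟩))
        (Subring.subset_closure (Or.inr ⟨_, rfl⟩)), ?_⟩
      have e3 : (⟨∑ σ ∈ N, rho E D.F0 L K σ (s ⊗ₜ[D.F0] k), by rw [e2]; exact tmul_mem_BS hs _⟩ :
          BS (F := D.F0) (K := K) D.FP.toSubring) =
          ⟨s ⊗ₜ[D.F0] (∑ σ ∈ N, σ k), tmul_mem_BS hs _⟩ := Subtype.ext e2
      rw [e3, hΨ s hs, map_mul]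
      congr 1
      exact hκ' ⟨_, hk⟩
    · have e2 : ∑ σ ∈ N, rho E D.F0 L K σ (0 : E ⊗[D.F0] K) = 0 := by simp
      refine ⟨by rw [e2]; exact zero_mem _, 0, zero_mem _, ?_⟩
      have : (⟨∑ σ ∈ N, rho E D.F0 L K σ (0 : E ⊗[D.F0] K), by rw [e2]; exact zero_mem _⟩ :
          BS (F := D.F0) (K := K) D.FP.toSubring) = 0 := Subtype.ext e2
      rw [this, map_zero, map_zero]
    · rintro x y' ⟨hx, w, hw, hxw⟩ ⟨hy', w', hw', hyw⟩
      have e2 : ∑ σ ∈ N, rho E D.F0 L K σ (x + y') =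
          ∑ σ ∈ N, rho E D.F0 L K σ x + ∑ σ ∈ N, rho E D.F0 L K σ y' := by
        simp only [map_add]
        rw [Finset.sum_add_distrib]
      refine ⟨by rw [e2]; exact add_mem hx hy', w + w', add_mem hw hw', ?_⟩
      have e3 : (⟨∑ σ ∈ N, rho E D.F0 L K σ (x + y'), by rw [e2]; exact add_mem hx hy'⟩ :
          BS (F := D.F0) (K := K) D.FP.toSubring) = ⟨_, hx⟩ + ⟨_, hy'⟩ := Subtype.ext e2
      rw [e3, map_add, hxw, hyw, map_add]
  have hv0 : ((1 : E) ⊗ₜ[D.F0] y) * e1 ∈ BS (F := D.F0) (K := K) D.FP.toSubring :=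
    mul_mem (tmul_mem_BS (one_mem _) _) (hgm g)
  obtain ⟨hW, w, hw, hΨW⟩ := hT _ hv0
  -- compute the value
  let H' : Finset (K ≃ₐ[L] K) := N.filter fun σ => rho E D.F0 L K σ e1 = e1
  have hcard : H'.card ≠ 0 := by
    rw [Finset.card_ne_zero]
    refine ⟨1, Finset.mem_filter.2 ⟨hN1, ?_⟩⟩
    rw [map_one]; rfl
  have hval : Ψ ⟨∑ σ ∈ N, rho E D.F0 L K σ (((1 : E) ⊗ₜ[D.F0] y) * e1), hW⟩ =
      (H'.card : AlgebraicClosure Ω) * κ' y := by
    have e2 : (⟨∑ σ ∈ N, rho E D.F0 L K σ (((1 : E) ⊗ₜ[D.F0] y) * e1), hW⟩ :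
        BS (F := D.F0) (K := K) D.FP.toSubring) =
        ∑ σ ∈ N, ⟨(1 : E) ⊗ₜ[D.F0] σ y, tmul_mem_BS (one_mem _) _⟩ *
          ⟨rho E D.F0 L K σ e1, rho_mem_BS σ (hgm g)⟩ := by
      apply Subtype.ext
      rw [AddSubmonoidClass.coe_finsetSum]
      refine Finset.sum_congr rfl fun σ _ => ?_
      rw [map_mul, rho_tmul]
      rfl
    rw [e2, map_sum, ← Finset.sum_filter_add_sum_filter_not N fun σ => rho E D.F0 L K σ e1 = e1]
    have e3 : ∑ σ ∈ N.filter (fun σ => ¬ rho E D.F0 L K σ e1 = e1),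
        Ψ (⟨(1 : E) ⊗ₜ[D.F0] σ y, tmul_mem_BS (one_mem _) _⟩ *
          ⟨rho E D.F0 L K σ e1, rho_mem_BS σ (hgm g)⟩) = 0 := by
      refine Finset.sum_eq_zero fun σ hσ => ?_
      rw [map_mul, horth σ (Finset.mem_filter.1 hσ).2, mul_zero]
    rw [e3, add_zero]
    have e4 : ∀ σ ∈ N.filter (fun σ => rho E D.F0 L K σ e1 = e1),
        Ψ (⟨(1 : E) ⊗ₜ[D.F0] σ y, tmul_mem_BS (one_mem _) _⟩ *
          ⟨rho E D.F0 L K σ e1, rho_mem_BS σ (hgm g)⟩) = κ' y := by
      intro σ hσ
      obtain ⟨hσN, hσe⟩ := Finset.mem_filter.1 hσ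
      have e5 : (⟨rho E D.F0 L K σ e1, rho_mem_BS σ (hgm g)⟩ :
          BS (F := D.F0) (K := K) D.FP.toSubring) = ⟨e1, hgm g⟩ := Subtype.ext hσe
      rw [map_mul, e5, hg, mul_one, key g σ ((hN σ).1 hσN) hσe, hΨ 1 (one_mem _)]
      have : (⟨1, one_mem _⟩ : D.FP) = 1 := rfl
      rw [this, map_one, one_mul]
      rfl
    rw [Finset.sum_congr rfl e4, Finset.sum_const, nsmul_eq_mul]
  rw [hval] at hΨW
  have hc0 : (H'.card : Ω) ≠ 0 := by exact_mod_cast hcard
  refine hno (φ ((H'.card : D.FP)⁻¹) * w)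
    (mul_mem (Subring.subset_closure (Or.inl ⟨_, rfl⟩)) hw) ?_
  apply (algebraMap Ω (AlgebraicClosure Ω)).injective
  rw [map_pow, map_mul, ← hΨW, map_inv₀, map_natCast, map_inv₀, map_natCast, ← hκ' ⟨y ^ n, hyM⟩]
  change _ = κ' (y ^ n)
  rw [map_pow]
  congr 1
  have hc1 : (H'.card : AlgebraicClosure Ω) ≠ 0 := by
    rw [← map_natCast (algebraMap Ω (AlgebraicClosure Ω))]
    exact (map_ne_zero _).2 hc0
  rw [← mul_assoc, inv_mul_cancel₀ hc1, one_mul]

end Main

end Crest.Agent.R013.NB_92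
end

-- ▼ part R013/NB3_92
section

/-!
# The non-bridge data from the two classes (row 13, part B, leaf B-NB), pure algebra, part 3

Output: an intermediate field `U` of `K/L`, `e : E ⊗ U`, `j : E ⊗ U → E`, with `NonBridge`.
-/

set_option autoImplicit false
set_option linter.unusedSectionVars false

namespace Crest.Agent.R013.NB_92

open Module TensorProduct Crest.Agent.R013.Gl946 Crest.Agent.R013.CutCov_92

section Edge

variable {E : Type*} [Field E] {D : PatchDatum E} {U : Type*} [Field U] [Algebra D.F0 U]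
  [FiniteDimensional D.F0 U]

/-- The edge of an idempotent of `E ⊗ U`. -/
noncomputable def edgeOf (e : E ⊗[D.F0] U) (he : e * e = e) :
    Edge D (E ⊗[D.F0] U) (finrank D.F0 U) where
  b := Algebra.TensorProduct.basis E (finBasis D.F0 U)
  L := (Algebra.TensorProduct.includeRight : U →ₐ[D.F0] E ⊗[D.F0] U).toRingHom.range
  hL := fun v => by
    rw [mem_cs_F]
    exact Iff.rfl
  e := e
  he := he

theorem mem_edgeOf_VU (e : E ⊗[D.F0] U) (he : e * e = e) (v : E ⊗[D.F0] U) :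
    v ∈ (edgeOf e he).VU ↔ v ∈ BS (F := D.F0) (K := U) D.RU := by
  rw [mem_BS_iff (finBasis D.F0 U) (fun z hz => D.F0_le_RU z hz)]
  exact Iff.rfl

theorem mem_edgeOf_VP (e : E ⊗[D.F0] U) (he : e * e = e) (v : E ⊗[D.F0] U) :
    v ∈ (edgeOf e he).VP ↔ v ∈ BS (F := D.F0) (K := U) D.FP.toSubring := by
  rw [mem_BS_iff (finBasis D.F0 U) (S := D.FP.toSubring) D.F0_le_FP]
  exact Iff.rfl

theorem isReduced_tensor [CharZero E] : IsReduced (E ⊗[D.F0] U) := by
  have : CharZero D.F0 := inferInstance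
  have : Algebra.FormallyUnramified D.F0 U := Algebra.FormallyUnramified.of_isSeparable D.F0 U
  have : Algebra.FormallyUnramified E (E ⊗[D.F0] U) := inferInstance
  have : Algebra.EssFiniteType E (E ⊗[D.F0] U) := inferInstance
  exact Algebra.FormallyUnramified.isReduced_of_field E _

end Edge

section Incl

variable {E : Type*} [Field E] {F : Subfield E} {L K : Type*} [Field L] [Field K] [Algebra F L]
  [Algebra F K] [Algebra L K] [IsScalarTower F L K] (U : IntermediateField L K)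

/-- `E ⊗ U → E ⊗ K`. -/
noncomputable def incl : (E ⊗[F] U) →ₐ[E] (E ⊗[F] K) :=
  Algebra.TensorProduct.map (AlgHom.id E E) (U.val.restrictScalars F)

@[simp]
theorem incl_tmul (s : E) (u : U) : incl (F := F) U (s ⊗ₜ[F] u) = s ⊗ₜ[F] (u : K) := rfl

theorem incl_injective : Function.Injective (incl (E := E) (F := F) U) := by
  have h1 : Function.Injective (LinearMap.lTensor E ((U.val.restrictScalars F).toLinearMap)) :=
    Module.Flat.lTensor_preserves_injective_linearMap (M := E)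
      ((U.val.restrictScalars F).toLinearMap) (U.val.toRingHom.injective)
  have h2 : ∀ v, incl (E := E) (F := F) U v =
      LinearMap.lTensor E ((U.val.restrictScalars F).toLinearMap) v := by
    intro v
    induction v using TensorProduct.induction_on with
    | zero => rw [map_zero, map_zero]
    | tmul s k => rfl
    | add x y hx hy => rw [map_add, map_add, hx, hy]
  intro x y hxy
  rw [h2, h2] at hxy
  exact h1 hxy

theorem incl_mem_BS {S : Subring E} {v : E ⊗[F] U} (hv : v ∈ BS (F := F) (K := U) S) :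
    incl (F := F) U v ∈ BS (F := F) (K := K) S := by
  refine BS_induction (p := fun v => incl (F := F) U v ∈ BS (F := F) (K := K) S) ?_ ?_ ?_ hv
  · intro s hs k; rw [incl_tmul]; exact tmul_mem_BS hs _
  · rw [map_zero]; exact zero_mem _
  · intro x y hx hy; rw [map_add]; exact add_mem hx hy

theorem rho_incl (g : K ≃ₐ[L] K) (hg : ∀ u ∈ U, g u = u) (v : E ⊗[F] U) :
    rho E F L K g (incl (F := F) U v) = incl (F := F) U v := by
  induction v using TensorProduct.induction_on with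
  | zero => rw [map_zero, map_zero]
  | tmul s k => rw [incl_tmul, rho_tmul, hg _ k.2]
  | add x y hx hy => rw [map_add, map_add, hx, hy]

/-- elements fixed by a subgroup come from the fixed field. -/
theorem exists_incl [CharZero E] [FiniteDimensional L K] (S : Subgroup (K ≃ₐ[L] K)) (v : E ⊗[F] K)
    (hv : ∀ g ∈ S, rho E F L K g v = v) :
    ∃ v', incl (F := F) (IntermediateField.fixedField S) v' = v := by
  classical
  have hT : ∀ v : E ⊗[F] K, ∃ v', incl (F := F) (IntermediateField.fixedField S) v' =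
      ∑ g ∈ Finset.univ.filter (· ∈ S), rho E F L K g v := by
    intro v
    induction v using TensorProduct.induction_on with
    | zero => exact ⟨0, by simp⟩
    | tmul s k =>
      have hk : ∑ g ∈ Finset.univ.filter (· ∈ S), g k ∈ IntermediateField.fixedField S := by
        rw [IntermediateField.mem_fixedField_iff]
        intro τ hτ
        rw [map_sum]
        refine Finset.sum_bij' (fun σ _ => τ * σ) (fun σ _ => τ⁻¹ * σ) ?_ ?_
          (fun σ _ => by group) (fun σ _ => by group) (fun σ _ => rfl)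
        · intro σ hσ
          exact Finset.mem_filter.2 ⟨Finset.mem_univ _, S.mul_mem hτ (Finset.mem_filter.1 hσ).2⟩
        · intro σ hσ
          exact Finset.mem_filter.2 ⟨Finset.mem_univ _,
            S.mul_mem (S.inv_mem hτ) (Finset.mem_filter.1 hσ).2⟩
      refine ⟨s ⊗ₜ[F] ⟨_, hk⟩, ?_⟩
      rw [incl_tmul]
      simp only [rho_tmul]
      rw [tmul_sum]
    | add x y hx hy =>
      obtain ⟨x', hx⟩ := hx
      obtain ⟨y', hy⟩ := hy
      refine ⟨x' + y', ?_⟩
      simp only [map_add]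
      rw [Finset.sum_add_distrib, hx, hy]
  obtain ⟨v', h1⟩ := hT v
  have h2 : ∑ g ∈ Finset.univ.filter (· ∈ S), rho E F L K g v =
      ((Finset.univ.filter (· ∈ S)).card : E) • v := by
    rw [Finset.sum_congr rfl fun g hg => hv g (Finset.mem_filter.1 hg).2, Finset.sum_const,
      Nat.cast_smul_eq_nsmul]
  have h3 : ((Finset.univ.filter (· ∈ S)).card : E) ≠ 0 := by
    have : (Finset.univ.filter (· ∈ S)).card ≠ 0 := by
      rw [Finset.card_ne_zero]
      exact ⟨1, Finset.mem_filter.2 ⟨Finset.mem_univ _, S.one_mem⟩⟩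
    exact_mod_cast this
  refine ⟨((Finset.univ.filter (· ∈ S)).card : E)⁻¹ • v', ?_⟩
  rw [map_smul, h1, h2, smul_smul, inv_mul_cancel₀ h3, one_smul]

end Incl

section Main

variable {E : Type*} [Field E] [CharZero E] {D : PatchDatum E} {L K : Type*} [Field L] [Field K]
  [Algebra D.F0 L] [Algebra D.F0 K] [Algebra L K] [IsScalarTower D.F0 L K]
  [FiniteDimensional D.F0 L] [FiniteDimensional D.F0 K] [FiniteDimensional L K] [IsGalois L K]

/-- The output of B-NB. -/
structure Out (iota : L →ₐ[D.F0] E) (Am Ap : Subring E) (U : IntermediateField L K)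
    [FiniteDimensional D.F0 U] (e : E ⊗[D.F0] U) (j : (E ⊗[D.F0] U) →ₐ[E] E) : Prop where
  idem : e * e = e
  smul : ∀ v, v * e = j v • e
  j_e : j e = 1
  iota : ∀ l : L, j ((1 : E) ⊗ₜ[D.F0] algebraMap L U l) = iota l
  mem_Am : ∀ u : U, j ((1 : E) ⊗ₜ[D.F0] u) ∈ Am
  mem_Ap : ∀ u : U, j ((1 : E) ⊗ₜ[D.F0] u) ∈ Ap
  nonbridge : (edgeOf e idem).NonBridge

theorem finiteDimensional_sub (U : IntermediateField L K) : FiniteDimensional D.F0 U := by
  have h1 : Function.Injective (U.val.restrictScalars D.F0).toLinearMap := U.val.toRingHom.injective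
  exact FiniteDimensional.of_injective (U.val.restrictScalars D.F0).toLinearMap h1

/-- **B-NB**, algebraic form. -/
theorem exists_out {iota : L →ₐ[D.F0] E} {Am Ap : Subring E} (H : Half iota Am Ap)
    -- the class which is split over the annulus
    {n : ℕ} (hn : 0 < n) {ζ : E} (hζ : IsPrimitiveRoot ζ n) (hζF : ζ ∈ D.F0)
    (M : IntermediateField L K) (y : K) (hyM : y ^ n ∈ M) (b : E ⊗[D.F0] K)
    (hb : b ^ n = (1 : E) ⊗ₜ[D.F0] (y ^ n))
    (hbm : b ∈ BS (F := D.F0) (K := K) Am) (hbp : b ∈ BS (F := D.F0) (K := K) Ap)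
    (hbM : ∀ σ : K ≃ₐ[L] K, (∀ m ∈ M, σ m = m) → rho E D.F0 L K σ b = b)
    {Ω : Type*} [Field Ω] [CharZero Ω] (φ : D.FP →+* Ω) (κ : M →+* Ω)
    (hφκ : ∀ l : L, φ ⟨iota l, H.iota_FP l⟩ = κ (algebraMap L M l))
    (hno : ∀ w ∈ Subring.closure (Set.range φ ∪ Set.range κ), w ^ n ≠ κ ⟨y ^ n, hyM⟩)
    -- the class which is split over the disc
    {n' : ℕ} (hn' : 0 < n') {ζ' : E} (hζ' : IsPrimitiveRoot ζ' n') (hζF' : ζ' ∈ D.F0)
    (h2 : L) (y2 : K) (hy : y2 ^ n' = algebraMap L K h2) (hy' : y2 ∉ Set.range (algebraMap L K))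
    (g2 : E) (hg2P : g2 ∈ D.FP) (hg2A : g2 ∈ Ap) (hg : g2 ^ n' = iota h2) :
    ∃ (U : IntermediateField L K) (e : E ⊗[D.F0] U) (j : (E ⊗[D.F0] U) →ₐ[E] E),
      let _ := finiteDimensional_sub (D := D) U
      Out iota Am Ap U e j := by
  classical
  obtain ⟨eP, hP⟩ := exists_isEP (K := K) iota H.iota_FP
  have hePm : eP ∈ ext eP Am ⊓ ext eP Ap :=
    ⟨⟨1, one_mem _, by rw [hP.idem, mul_one]⟩, ⟨1, one_mem _, by rw [hP.idem, mul_one]⟩⟩
  obtain ⟨e0, h1, h3, h4, h5, h6⟩ := exists_atom E (ext eP Am ⊓ ext eP Ap) hP.idem hePm hP.ne_zero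
  have Dt := H.data hP h1.1 h1.2 h3 h4 h5 (fun x hx hx' => h6 x ⟨hx, hx'⟩)
  have hin := H.hin hP hn hζ hζF M y hyM b hb hbm hbp hbM φ κ hφκ hno Dt
  have hout := H.hout hP hn' hζ' hζF' h2 y2 hy hy' g2 hg2P hg2A hg
  let S : Subgroup (K ≃ₐ[L] K) :=
    { carrier := {g | rho E D.F0 L K g e0 = e0}
      one_mem' := by
        change rho E D.F0 L K 1 e0 = e0
        rw [map_one]; rfl
      mul_mem' := fun {g h} hg hh => by
        change rho E D.F0 L K (g * h) e0 = e0
        rw [map_mul, AlgEquiv.mul_apply, hh, hg]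
      inv_mem' := fun {g} hg => by
        change rho E D.F0 L K g⁻¹ e0 = e0
        conv_lhs => rw [← show rho E D.F0 L K g e0 = e0 from hg]
        rw [← AlgEquiv.mul_apply, ← map_mul, inv_mul_cancel, map_one]; rfl }
  have hS : ∀ g, g ∈ S ↔ rho E D.F0 L K g e0 = e0 := fun g => Iff.rfl
  set U := IntermediateField.fixedField S with hU
  have hUfix : ∀ g ∈ S, ∀ u ∈ U, g u = u := fun g hg u hu =>
    (IntermediateField.mem_fixedField_iff S u).1 hu g hg
  obtain ⟨e, he⟩ := exists_incl (E := E) (F := D.F0) S e0 (fun g hg => hg)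
  have hinj := incl_injective (E := E) (F := D.F0) U
  have hee : e * e = e := hinj (by rw [map_mul, he, h3])
  have he0 : e ≠ 0 := fun h0 => h5 (by rw [← he, h0, map_zero])
  -- orthogonality
  have horth : ∀ σ : K ≃ₐ[L] K, σ ∉ S → rho E D.F0 L K σ e0 * e0 = 0 := by
    intro σ hσ
    rcases Dt.atom (rho E D.F0 L K σ e0) (Dt.gm σ _ Dt.e0m) (Dt.gp σ _ Dt.e0p) (Dt.idem σ) with h | h
    · exact h
    · exfalso
      rcases Dt.atom' σ e0 Dt.e0m Dt.e0p Dt.e0_idem with h' | h'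
      · apply Dt.e0_ne; rw [← h, mul_comm, h']
      · exact hσ ((hS σ).2 (by rw [← h', mul_comm, h]))
  set m : E := ((Finset.univ.filter (· ∈ S)).card : E) with hm
  have hm0 : m ≠ 0 := by
    have : (Finset.univ.filter (· ∈ S)).card ≠ 0 := by
      rw [Finset.card_ne_zero]
      exact ⟨1, Finset.mem_filter.2 ⟨Finset.mem_univ _, S.one_mem⟩⟩
    rw [hm]; exact_mod_cast this
  -- the key computation
  have hkey : ∀ (T : Subring E), (∀ l, iota l ∈ T) → e0 ∈ ext eP T →
      ∀ v : E ⊗[D.F0] U, v ∈ BS (F := D.F0) (K := U) T →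
      ∃ c ∈ T, m • (incl (F := D.F0) U v * e0) = c • e0 := by
    intro T hT heT v hv
    obtain ⟨c, hc, h7⟩ := sum_rho_ext hP.smul hP.fixed hT (v := incl (F := D.F0) U v * e0)
      (mul_mem (BS_le_ext _ _ (incl_mem_BS U hv)) heT)
      (by linear_combination (incl (F := D.F0) U v) * h4)
    refine ⟨c, hc, ?_⟩
    have h8 := congrArg (fun w => w * e0) h7
    simp only [smul_mul_assoc, h4] at h8
    rw [← h8, Finset.sum_mul, ← Finset.sum_filter_add_sum_filter_not Finset.univ (· ∈ S)]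
    have h9 : ∑ g ∈ Finset.univ.filter (fun g => ¬ g ∈ S),
        rho E D.F0 L K g (incl (F := D.F0) U v * e0) * e0 = 0 := by
      refine Finset.sum_eq_zero fun g hg => ?_
      rw [map_mul, mul_assoc, horth g (Finset.mem_filter.1 hg).2, mul_zero]
    rw [h9, add_zero]
    have h10 : ∀ g ∈ Finset.univ.filter (· ∈ S),
        rho E D.F0 L K g (incl (F := D.F0) U v * e0) * e0 = incl (F := D.F0) U v * e0 := by
      intro g hg
      have hgS := (Finset.mem_filter.1 hg).2
      rw [map_mul, rho_incl U g (hUfix g hgS), (hS g).1 hgS, mul_assoc, h3]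
    rw [Finset.sum_congr rfl h10, Finset.sum_const, hm, Nat.cast_smul_eq_nsmul]
  have hsinj : ∀ c c' : E, c • e0 = c' • e0 → c = c' := by
    intro c c' h
    by_contra hne
    apply h5
    have h7 : (c - c') ≠ 0 := sub_ne_zero.2 hne
    have h8 : (c - c') • e0 = 0 := by
      rw [smul_eq_tmul, sub_tmul, sub_mul, ← smul_eq_tmul, ← smul_eq_tmul, h, sub_self]
    have := congrArg (fun w => (c - c')⁻¹ • w) h8
    simp only [smul_smul] at this
    rwa [inv_mul_cancel₀ h7, one_smul, smul_zero] at this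
  have hex : ∀ v : E ⊗[D.F0] U, ∃ c : E, incl (F := D.F0) U v * e0 = c • e0 := by
    intro v
    obtain ⟨c, -, h7⟩ := hkey ⊤ (fun l => Subring.mem_top _) (BS_le_ext _ _ (mem_BS_top _)) v
      (mem_BS_top v)
    refine ⟨m⁻¹ * c, ?_⟩
    rw [mul_smul, ← h7, smul_smul, inv_mul_cancel₀ hm0, one_smul]
  choose j0 hj0 using hex
  let j : (E ⊗[D.F0] U) →ₐ[E] E :=
    { toFun := j0
      map_one' := hsinj _ _ (by rw [← hj0, map_one, one_mul, one_smul])
      map_mul' := fun x y => hsinj _ _ (by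
        rw [← hj0, mul_smul, ← hj0 y, map_mul, mul_assoc, hj0 y, mul_smul_comm, hj0 x,
          smul_smul, smul_smul, mul_comm])
      map_zero' := hsinj _ _ (by rw [← hj0, map_zero, zero_mul, zero_smul])
      map_add' := fun x y => hsinj _ _ (by
        rw [← hj0, add_smul, ← hj0, ← hj0, map_add, add_mul])
      commutes' := fun c => hsinj _ _ (by
        rw [← hj0, AlgHom.commutes, algebraMap_eq_tmul, ← smul_eq_tmul]; rfl) }
  have hj : ∀ v, incl (F := D.F0) U v * e0 = j v • e0 := hj0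
  have hmF : m⁻¹ ∈ D.F0 := inv_mem (natCast_mem _ _)
  have hFm : ∀ {T : Subring E}, D.F0.toSubring ≤ T → m⁻¹ ∈ T := fun hT => hT hmF
  have hmem : ∀ (T : Subring E), D.F0.toSubring ≤ T → (∀ l, iota l ∈ T) → e0 ∈ ext eP T →
      ∀ u : U, j ((1 : E) ⊗ₜ[D.F0] u) ∈ T := by
    intro T hFT hT heT u
    obtain ⟨c, hc, h7⟩ := hkey T hT heT _ (tmul_mem_BS (one_mem _) u)
    have h8 : j ((1 : E) ⊗ₜ[D.F0] u) = m⁻¹ * c := hsinj _ _ (by
      rw [← hj, mul_smul, ← h7, smul_smul, inv_mul_cancel₀ hm0, one_smul])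
    rw [h8]; exact mul_mem (hFm hFT) hc
  have hfd := finiteDimensional_sub (D := D) U
  refine ⟨U, e, j, ?_⟩
  refine
    { idem := hee
      smul := fun v => hinj (by rw [map_mul, map_smul, he, hj])
      j_e := hsinj _ _ (by rw [← hj, he, h3, one_smul])
      iota := fun l => hsinj _ _ (by
        rw [← hj, incl_tmul]
        have h7 : ((1 : E) ⊗ₜ[D.F0] ((algebraMap L U l : U) : K)) * eP = iota l • eP := hP.smul l
        have h8 := congrArg (fun w => w * e0) h7
        simp only [mul_assoc, smul_mul_assoc, h4] at h8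
        exact h8)
      mem_Am := hmem Am H.F_le_Am H.iota_Am h1.1
      mem_Ap := hmem Ap H.F_le_Ap H.iota_Ap h1.2
      nonbridge := ?_ }
  intro ε hε δ hδ hεε hδδ hεδ
  rw [mem_edgeOf_VU] at hε
  rw [mem_edgeOf_VP] at hδ
  apply hinj
  refine Dt.noncut' hin hout _ _ (by rw [← map_mul, hεε]) (by rw [← map_mul, hδδ])
    (incl_mem_BS U hε) (incl_mem_BS U hδ) (fun g hg => rho_incl U g (hUfix g hg) ε)
    (fun g hg => rho_incl U g (hUfix g hg) δ) ?_
  have h7 : (1 - e) * ε = (1 - e) * δ := hεδ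
  have h8 := congrArg (incl (F := D.F0) U) h7
  rwa [map_mul, map_mul, map_sub, map_one, he] at h8

end Main

section Cover

variable {E : Type*} [Field E] {D : PatchDatum E} {U : Type*} [Field U] [Algebra D.F0 U]
  [FiniteDimensional D.F0 U]

variable (D U) in
/-- the embedding `U → E ⊗ U`. -/
noncomputable def jU : U →+* E ⊗[D.F0] U :=
  (Algebra.TensorProduct.includeRight : U →ₐ[D.F0] E ⊗[D.F0] U).toRingHom


theorem mem_edgeOf_L (e : E ⊗[D.F0] U) (he : e * e = e) (v : E ⊗[D.F0] U) :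
    v ∈ (edgeOf e he).L ↔ ∃ u, jU D U u = v := Iff.rfl

theorem F0_mem_edgeOf_L (e : E ⊗[D.F0] U) (he : e * e = e) :
    ∀ z ∈ D.F0, algebraMap E (E ⊗[D.F0] U) z ∈ (edgeOf e he).L := fun z hz =>
  ⟨algebraMap D.F0 U ⟨z, hz⟩,
    (Algebra.TensorProduct.tmul_one_eq_one_tmul (A := E) (B := U) (⟨z, hz⟩ : D.F0)).symm⟩


universe u v


end Cover

end Crest.Agent.R013.NB_92
end

-- ▼ part R013/NB4_92
section

/-!
# B-NB, part 4: re-patching a class at a circle

`K` a finite extension of `F = k(y) ⊆ E` (`E`, `y` the circle field of 946).  A class `h ∈ K^×` which is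
an `N`-th power times a `1`-unit at every norm over the Gauss norm of `F` is replaced by
`h' = a^N = h d^N` with `a` a unit of `RU ⊗ K`, `d` a unit of `FP ⊗ K`.
-/

set_option autoImplicit false
set_option linter.unusedSectionVars false
set_option linter.style.haveILetI false

namespace Crest.Agent.R013.NB_92

open Module TensorProduct Polynomial Crest.Agent.R013.Gl946 Crest.Agent.R013.Lift903
open scoped NNReal
open Crest.Agent.R013.A2a_275 (Cpl toCpl norm_toCpl denseRange_toCpl)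
open Crest.NumberTheoryR.Sect (IsPlace)

attribute [local instance] Algebra.TensorProduct.rightAlgebra

section Algk

variable {k E : Type*} [NormedField k] [NormedField E] [NormedAlgebra k E] {y : E}

/-- the constants in `k(y)` -/
@[reducible] noncomputable def algKY (hG : IsGauss k y) : Algebra k (KY hG) :=
  ((algebraMap k E).codRestrict (KY hG) (const_mem_KY hG)).toAlgebra

theorem algKY_tower (hG : IsGauss k y) : letI := algKY hG; IsScalarTower k (KY hG) E :=
  letI := algKY hG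
  IsScalarTower.of_algebraMap_eq fun _ => rfl

theorem hgen_KY (hG : IsGauss k y) : letI := algKY hG;
    ∀ x : KY hG, ∃ f g : k[X], aeval (⟨y, y_mem_KY hG⟩ : KY hG) g ≠ 0 ∧
      x = aeval (⟨y, y_mem_KY hG⟩ : KY hG) f / aeval (⟨y, y_mem_KY hG⟩ : KY hG) g := by
  letI := algKY hG
  haveI := algKY_tower hG
  have key : ∀ f : k[X], ((aeval (⟨y, y_mem_KY hG⟩ : KY hG) f : KY hG) : E) = aeval y f := by
    intro f
    have := aeval_algebraMap_apply (R := k) (A := KY hG) E (⟨y, y_mem_KY hG⟩ : KY hG) f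
    exact this.symm
  rintro ⟨_, f, g, hg, rfl⟩
  refine ⟨f, g, ?_, ?_⟩
  · intro h0
    have h1 := key g
    rw [h0] at h1
    exact hG.aeval_ne_zero hg h1.symm
  · apply Subtype.ext
    change aeval y f / aeval y g = ((aeval (⟨y, y_mem_KY hG⟩ : KY hG) f /
      aeval (⟨y, y_mem_KY hG⟩ : KY hG) g : KY hG) : E)
    push_cast
    rw [key, key]

end Algk

/-- `K` is dense in its completion, multiplicative form -/
theorem denseIn_toCpl {K : Type*} [Field K] (w : Valuation K ℝ≥0) :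
    DenseIn (NormedField.valuation (K := Cpl w)) (toCpl w) := by
  intro α hα
  have hpos : 0 < ‖α‖ := norm_pos_iff.2 hα
  obtain ⟨g, hg⟩ := Metric.denseRange_iff.1 (denseRange_toCpl w) α ‖α‖ hpos
  refine ⟨g, ?_⟩
  rw [dist_comm, dist_eq_norm] at hg
  exact hg

section Repatch

variable {k E : Type*} [NontriviallyNormedField k] [CompleteSpace k] [IsUltrametricDist k]
  [NontriviallyNormedField E] [NormedAlgebra k E] [IsUltrametricDist E] [CompleteSpace E] {y : E}
  (hG : IsGauss k y) {π : k} (hπ : IsUnif π) (hd : DenseRat k y)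

universe u t

include hπ hd in
/-- **Re-patching.** -/
theorem repatch {K : Type u} [Field K] [Algebra (KY hG) K] [Algebra k K]
    [FiniteDimensional (KY hG) K] [Algebra.IsSeparable (KY hG) K]
    (hk : ∀ c : k, algebraMap (KY hG) K ⟨algebraMap k E c, const_mem_KY hG c⟩ = algebraMap k K c)
    (N : ℕ) (hN : ‖(N : E)‖ = 1) (h : K) (h0 : h ≠ 0)
    (hf : ∀ w : Valuation K ℝ≥0, (∀ a : KY hG, w (algebraMap (KY hG) K a) = ‖(a : E)‖₊) →
      ∃ g : K, w (h - g ^ N) < w h) :
    ∃ h' : K, h' ≠ 0 ∧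
      (∃ (d : ℕ) (c : Fin d → RU k y) (m : Fin d → K),
        ∀ (T : Type t) (_ : CommRing T) (ρ : RU k y →+* T) (κ : K →+* T),
          (∀ x : KY hG, ρ ⟨x, KY_le_RU hG x.2⟩ = κ (algebraMap (KY hG) K x)) →
          (∑ i, ρ (c i) * κ (m i)) ^ N = κ h') ∧
      (∀ w : Valuation K ℝ≥0, ((∀ c : k, w (algebraMap k K c) = ‖c‖₊) ∨ IsPlace k w) →
        ∃ g : K, g ≠ 0 ∧ (w (h' / g ^ N - 1) < 1 ∨ w (h' / (h * g ^ N) - 1) < 1)) ∧
      (∀ w : Valuation K ℝ≥0, (∀ c : k, w (algebraMap k K c) = ‖c‖₊) →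
        w (algebraMap (KY hG) K ⟨y, y_mem_KY hG⟩) < 1 →
        ∃ g : K, g ≠ 0 ∧ w (h' / (h * g ^ N) - 1) < 1) := by
  classical
  letI := algKY hG
  haveI := algKY_tower hG
  haveI : IsScalarTower k (KY hG) K := IsScalarTower.of_algebraMap_eq fun c => (hk c).symm
  have hN0 : N ≠ 0 := by
    rintro rfl
    rw [Nat.cast_zero, norm_zero] at hN
    exact zero_ne_one hN
  let b := Module.finBasis (KY hG) K
  have hF : ∀ x : KY hG, algebraMap (KY hG) E x ∈ KY hG := fun x => x.2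
  have hF' : ∀ z : E, z ∈ KY hG → z ∈ Set.range (algebraMap (KY hG) E) := fun z hz => ⟨⟨z, hz⟩, rfl⟩
  obtain ⟨h', hh0, a, ha, a', ha', d, hd1, d', hd1', e1, e2, e3, e4⟩ :=
    patch_E hG hπ hd b hF hF' N hN 1 h one_ne_zero h0 (by
      intro w hw
      obtain ⟨g, hg⟩ := hf w (fun a => hw a)
      have hg0 : g ≠ 0 := by
        rintro rfl
        rw [zero_pow hN0, sub_zero] at hg
        exact lt_irrefl _ hg
      have hgN : w (g ^ N) = w h := by
        have : g ^ N = h - (h - g ^ N) := by ring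
        rw [this]
        exact Valuation.map_sub_eq_of_lt_left _ hg
      have hwh : 0 < w h := zero_lt_iff.2 (w.ne_zero_iff.2 h0)
      refine ⟨g⁻¹, inv_ne_zero hg0, ?_⟩
      have hgN0 : g ^ N ≠ 0 := pow_ne_zero _ hg0
      have e : 1 / h - g⁻¹ ^ N = -(h - g ^ N) / (h * g ^ N) := by
        rw [inv_pow]
        field_simp
        ring
      rw [e, map_div₀, Valuation.map_neg, map_mul, hgN, map_div₀, map_one, div_lt_div_iff₀
        (mul_pos hwh hwh) hwh, one_mul]
      exact mul_lt_mul_of_pos_right hg hwh)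
  rw [map_one, one_mul] at e3
  refine ⟨h', hh0, ⟨_, fun i => ⟨_, ha i⟩, b, ?_⟩, ?_, ?_⟩
  · intro T _ ρ κ hρκ
    have hc : ∀ x : KY hG, ρ ⟨algebraMap (KY hG) E x, algebraMap_mem_RU hG hF x⟩ =
        κ (algebraMap (KY hG) K x) := fun x => hρκ x
    have h1 : ev (isBC_tensor (E := E) b) (algebraMap_mem_RU hG hF) ρ κ hc ⟨a, ha⟩ ^ N = κ h' := by
      rw [← ev_algebraMap (isBC_tensor (E := E) b) (algebraMap_mem_RU hG hF) ρ κ hc h', ← map_pow]
      congr 1
      exact Subtype.ext e3.symm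
    exact h1
  · intro w hw
    have hF0 : ∀ z, z ∈ KY hG ↔ ∃ f : KY hG, algebraMap (KY hG) E f = z :=
      fun z => ⟨fun hz => ⟨⟨z, hz⟩, rfl⟩, by rintro ⟨f, rfl⟩; exact f.2⟩
    haveI : Algebra.IsAlgebraic (KY hG) K := Algebra.IsAlgebraic.of_finite _ _
    rcases exists_map_val hG hF0 hπ hd w hw with ⟨Φ, h1, -⟩ | ⟨Φ, h1, -⟩
    · obtain ⟨g, hg, h2⟩ := lift_val (isBC_tensor (E := E) b) (algebraMap_mem_RU hG hF) w
        (NormedField.valuation (K := Cpl w)) (toCpl w)
        (fun x => by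
          have := norm_toCpl w x
          exact NNReal.eq this) (denseIn_toCpl w) Φ (fun x => h1 x _) N h' 1
        one_ne_zero a a' ha ha' e1 (by rw [map_one, one_mul]; exact e3)
      exact ⟨g, hg, Or.inl (by rwa [one_mul] at h2)⟩
    · obtain ⟨g, hg, h2⟩ := lift_val (isBC_tensor (E := E) b) (algebraMap_mem_FP hG hπ hd hF) w
        (NormedField.valuation (K := Cpl w)) (toCpl w)
        (fun x => by
          have := norm_toCpl w x
          exact NNReal.eq this) (denseIn_toCpl w) Φ (fun x => h1 x _) N h' h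
        h0 d d' hd1 hd1' e2 e4
      exact ⟨g, hg, Or.inr h2⟩
  · intro w hw hy1
    exact pointwise_P hG hπ hd (yF := (⟨y, y_mem_KY hG⟩ : KY hG)) rfl (hgen_KY hG) b hF N h' h h0 d d'
      hd1 hd1' e2 e4 w (Or.inl ⟨fun c => (hw c).le, hy1⟩)

end Repatch

end Crest.Agent.R013.NB_92
end

-- ▼ part R013/NB5_92

/-!
# B-NB, part 5: `exists_out` in 946's setting, output without tensor products
-/

set_option autoImplicit false
set_option linter.unusedSectionVars false
set_option linter.style.haveILetI false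

namespace Crest.Agent.R013.NB_92

open Module TensorProduct Polynomial Crest.Agent.R013.Gl946 Crest.Agent.R013.CutCov_92
open scoped NNReal

/-- **The output of B-NB**: a non-bridge `X` over the field `U`, with the point `σ` of `V` at `X.e`. -/
structure NBOut {E : Type*} [Field E] (D : PatchDatum E) (Am Ap : Subring E) (U : Type*) [Field U]
    (V : Type*) [CommRing V] [Algebra E V] (d : ℕ) (X : Edge D V d) (j : U →+* V)
    (σ : V →ₐ[E] E) : Prop where
  smul : ∀ v, v * X.e = σ v • X.e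
  σ_e : σ X.e = 1
  mem_L : ∀ v, v ∈ X.L ↔ ∃ u, j u = v
  F0_L : ∀ z ∈ D.F0, algebraMap E V z ∈ X.L
  nonbridge : X.NonBridge
  mem_Am : ∀ u, σ (j u) ∈ Am
  mem_Ap : ∀ u, σ (j u) ∈ Ap
  finite : Module.Finite E V
  red : IsReduced V

namespace NBOut

variable {E : Type*} [Field E] {D : PatchDatum E} {Am Ap : Subring E} {U : Type*} [Field U]
    {V : Type*} [CommRing V] [Algebra E V] {d : ℕ} {X : Edge D V d} {j : U →+* V}
    {σ : V →ₐ[E] E} (h : NBOut D Am Ap U V d X j σ)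

include h

theorem e_ne : X.e ≠ 0 := by
  intro h0
  have := h.σ_e
  rw [h0, map_zero] at this
  exact zero_ne_one this

/-- transport to an isomorphic field -/
theorem congr {U' : Type*} [Field U'] (f : U' ≃+* U) :
    NBOut D Am Ap U' V d X (j.comp f.toRingHom) σ where
  smul := h.smul
  σ_e := h.σ_e
  mem_L := fun v => by
    rw [h.mem_L]
    constructor
    · rintro ⟨u, rfl⟩
      exact ⟨f.symm u, by
        change j (f (f.symm u)) = j u
        rw [RingEquiv.apply_symm_apply]⟩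
    · rintro ⟨u, rfl⟩
      exact ⟨f u, rfl⟩
  F0_L := h.F0_L
  nonbridge := h.nonbridge
  mem_Am := fun u => h.mem_Am _
  mem_Ap := fun u => h.mem_Ap _
  finite := h.finite
  red := h.red

end NBOut

section Abs

universe u t

variable {k E : Type u} [NormedField k] [CompleteSpace k]
  [NontriviallyNormedField E] [NormedAlgebra k E] [IsUltrametricDist E] [CompleteSpace E] [CharZero E]
  {y : E} (hG : IsGauss k y) {π : k} (hπ : IsUnif π) (hd : DenseRat k y)

/-- **B-NB**, in 946's setting: `θ` : the circle `|x| = |π|`, `θ1` : the circle of the re-patching. -/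
theorem exists_nbout {L Kh : Type u} [Field L] [Field Kh] [Algebra L Kh] [FiniteDimensional L Kh]
    [IsGalois L Kh] (ι : L →+* E) (θ : KY hG →+* L) (hθ : ∀ z, ι (θ z) = z)
    (hfin : letI := θ.toAlgebra; FiniteDimensional (KY hG) L)
    (Am Ap : Subring E) (hAm : (FP hG hπ hd).toSubring ≤ Am) (hAp : RU k y ≤ Ap)
    (hιP : ∀ l, ι l ∈ FP hG hπ hd) (hιA : ∀ l, ι l ∈ Ap)
    -- the class which is split over the annulus
    {n : ℕ} (hn : 0 < n) {ζ : E} (hζ : IsPrimitiveRoot ζ n) (hζF : ζ ∈ KY hG)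
    (M : IntermediateField L Kh) (y1 : Kh) (hyM : y1 ^ n ∈ M)
    (θ1 : KY hG →+* L) (hθ1 : ∀ x, ∃ z, θ z = θ1 x)
    (res : RU k y →+* E) (hres : ∀ x : KY hG, res ⟨x, KY_le_RU hG x.2⟩ = ι (θ1 x))
    (hresm : ∀ z, res z ∈ Am) (hresp : ∀ z, res z ∈ Ap)
    {d : ℕ} (c : Fin d → RU k y) (m : Fin d → M)
    (hcm : ∀ (T : Type u) (_ : CommRing T) (ρ : RU k y →+* T) (κ : M →+* T),
      (∀ x : KY hG, ρ ⟨x, KY_le_RU hG x.2⟩ = κ (algebraMap L M (θ1 x))) →
      (∑ i, ρ (c i) * κ (m i)) ^ n = κ ⟨y1 ^ n, hyM⟩)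
    {Ω : Type*} [Field Ω] [CharZero Ω] (φ : FP hG hπ hd →+* Ω) (κ : M →+* Ω)
    (hφκ : ∀ l : L, φ ⟨ι l, hιP l⟩ = κ (algebraMap L M l))
    (hno : ∀ w ∈ Subring.closure (Set.range φ ∪ Set.range κ), w ^ n ≠ κ ⟨y1 ^ n, hyM⟩)
    -- the class which is split over the disc
    {n' : ℕ} (hn' : 0 < n') {ζ' : E} (hζ' : IsPrimitiveRoot ζ' n') (hζF' : ζ' ∈ KY hG)
    (h2 : L) (y2 : Kh) (hy : y2 ^ n' = algebraMap L Kh h2) (hy' : y2 ∉ Set.range (algebraMap L Kh))
    (g2 : E) (hg2P : g2 ∈ FP hG hπ hd) (hg2A : g2 ∈ Ap) (hg : g2 ^ n' = ι h2) :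
    ∃ (U : IntermediateField L Kh) (V : Type u) (_ : CommRing V) (_ : Algebra E V) (d : ℕ)
      (X : Edge (gaussDatum hG hπ hd) V d) (j : U →+* V) (σ : V →ₐ[E] E),
      NBOut (gaussDatum hG hπ hd) Am Ap U V d X j σ ∧ ∀ l : L, σ (j (algebraMap L U l)) = ι l := by
  classical
  let D := gaussDatum hG hπ hd
  letI a1 : Algebra D.F0 L := θ.toAlgebra
  letI a2 : Algebra D.F0 Kh := ((algebraMap L Kh).comp θ).toAlgebra
  haveI : IsScalarTower D.F0 L Kh := IsScalarTower.of_algebraMap_eq fun _ => rfl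
  haveI f1 : FiniteDimensional D.F0 L := hfin
  haveI f2 : FiniteDimensional D.F0 Kh := FiniteDimensional.trans D.F0 L Kh
  let iota : L →ₐ[D.F0] E := { ι with commutes' := fun z => hθ z }
  have H : Half iota Am Ap := ⟨hAm, hAp, hιP, hιA⟩
  let ρ : RU k y →+* E ⊗[D.F0] Kh :=
    (Algebra.TensorProduct.includeLeft : E →ₐ[E] E ⊗[D.F0] Kh).toRingHom.comp res
  let κ' : M →+* E ⊗[D.F0] Kh :=
    (Algebra.TensorProduct.includeRight : Kh →ₐ[D.F0] E ⊗[D.F0] Kh).toRingHom.comp
      (algebraMap M Kh)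
  have hρ : ∀ z, ρ z = res z ⊗ₜ[D.F0] (1 : Kh) := fun _ => rfl
  have hκ' : ∀ z, κ' z = (1 : E) ⊗ₜ[D.F0] (z : Kh) := fun _ => rfl
  have hcompat : ∀ x : KY hG, ρ ⟨x, KY_le_RU hG x.2⟩ = κ' (algebraMap L M (θ1 x)) := by
    intro x
    rw [hρ, hκ', hres]
    obtain ⟨z, hz⟩ := hθ1 x
    rw [← hz, hθ]
    let z' : D.F0 := z
    exact Algebra.TensorProduct.tmul_one_eq_one_tmul (R := D.F0) (A := E) (B := Kh) z'
  set b : E ⊗[D.F0] Kh := ∑ i, ρ (c i) * κ' (m i) with hb
  have hbi : ∀ i, ρ (c i) * κ' (m i) = res (c i) ⊗ₜ[D.F0] (m i : Kh) := fun i => by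
    rw [hρ, hκ', Algebra.TensorProduct.tmul_mul_tmul, mul_one, one_mul]
  have hbn : b ^ n = (1 : E) ⊗ₜ[D.F0] (y1 ^ n) := hcm _ _ ρ κ' hcompat
  have hbS : ∀ {S : Subring E}, (∀ z, res z ∈ S) → b ∈ BS (F := D.F0) (K := Kh) S := by
    intro S hS
    rw [hb]
    refine sum_mem fun i _ => ?_
    rw [hbi]
    exact tmul_mem_BS (hS _) _
  have hbM : ∀ σ : Kh ≃ₐ[L] Kh, (∀ m ∈ M, σ m = m) → rho E D.F0 L Kh σ b = b := by
    intro σ hσ
    rw [hb, map_sum]
    refine Finset.sum_congr rfl fun i _ => ?_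
    rw [hbi, rho_tmul, hσ _ (m i).2]
  obtain ⟨U, e, j, hO⟩ := exists_out H hn hζ hζF M y1 hyM b hbn (hbS hresm) (hbS hresp) hbM φ κ hφκ
    hno hn' hζ' hζF' h2 y2 hy hy' g2 hg2P hg2A hg
  haveI := finiteDimensional_sub (D := D) U
  refine ⟨U, E ⊗[D.F0] U, inferInstance, inferInstance, finrank D.F0 U, edgeOf e hO.idem, jU D U, j,
    ?_, ?_⟩
  · exact
      { smul := hO.smul
        σ_e := hO.j_e
        mem_L := fun v => mem_edgeOf_L e hO.idem v
        F0_L := F0_mem_edgeOf_L e hO.idem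
        nonbridge := hO.nonbridge
        mem_Am := hO.mem_Am
        mem_Ap := hO.mem_Ap
        finite := inferInstance
        red := isReduced_tensor }
  · exact hO.iota

end Abs

section NoRoot

open Crest.Agent.R013.A2a_275 (Cpl toCpl norm_toCpl denseRange_toCpl)

variable {k E : Type*} [NormedField k] [CompleteSpace k]
  [NormedField E] [NormedAlgebra k E] [IsUltrametricDist E] [CompleteSpace E]
  {y : E} (hG : IsGauss k y) {π : k} (hπ : IsUnif π) (hd : DenseRat k y)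
  {Ω : Type*} [Field Ω]

/-- a homomorphism `FP → Cpl v`, bounded on `AP`, has its values in the closure of the image of
`k(y)`. -/
theorem Phi_mem_clS (v : Valuation Ω ℝ≥0) (S : Subfield Ω) (Φ : FP hG hπ hd →+* Cpl v)
    (h1 : ∀ z (hz : z ∈ KY hG), Φ ⟨z, KY_le_FP hG hπ hd hz⟩ ∈ clS v S)
    (h2 : ∀ x (_ : x ∈ AP hG) (hx' : x ∈ FP hG hπ hd), ‖Φ ⟨x, hx'⟩‖ ≤ ‖x‖) (z : FP hG hπ hd) :
    Φ z ∈ clS v S := by
  have hAP : ∀ (x : E) (hx : x ∈ AP hG) (hx' : x ∈ FP hG hπ hd), Φ ⟨x, hx'⟩ ∈ clS v S := by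
    intro x hx hx'
    have hc : IsClosed (clS v S : Set (Cpl v)) := isClosed_clS v S
    rw [← SetLike.mem_coe, ← hc.closure_eq, Metric.mem_closure_iff]
    intro ε hε
    have hx2 : x ∈ closure ((AP0alg hG : Subalgebra k E) : Set E) := hx
    obtain ⟨s, hs, hxs⟩ := Metric.mem_closure_iff.1 hx2 ε hε
    have hsK : s ∈ KY hG := by
      obtain ⟨f, g, hg1, hg0, rfl⟩ := hs
      exact ⟨f, g, by rintro rfl; simp at hg0, rfl⟩
    have hsP : s ∈ FP hG hπ hd := KY_le_FP hG hπ hd hsK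
    have hsA : s ∈ AP hG := subset_closure hs
    refine ⟨Φ ⟨s, hsP⟩, h1 s hsK, ?_⟩
    rw [dist_eq_norm, ← map_sub]
    have e : (⟨x, hx'⟩ : FP hG hπ hd) - ⟨s, hsP⟩ = ⟨x - s, sub_mem hx' hsP⟩ := rfl
    rw [e]
    refine (h2 _ (sub_mem hx hsA) _).trans_lt ?_
    rwa [← dist_eq_norm]
  obtain ⟨z, hz⟩ := z
  obtain ⟨a, ha, b, hb, hb0, rfl⟩ := id hz
  have hAF : ∀ {a : E}, a ∈ AP hG → a ∈ FP hG hπ hd := fun {a} ha =>
    ⟨a, ha, 1, one_mem _, one_ne_zero, (div_one a).symm⟩
  have hbA : b ∈ AP hG := by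
    obtain ⟨f, rfl⟩ := hb
    exact aeval_mem_AP hG f
  have e : (⟨a / b, hz⟩ : FP hG hπ hd) = ⟨a, hAF ha⟩ / ⟨b, hAF hbA⟩ := rfl
  rw [e, map_div₀]
  exact div_mem (hAP _ ha _) (hAP _ hbA _)

/-- elements of the closure are approximated, multiplicative form. -/
theorem exists_pow_lt (v : Valuation Ω ℝ≥0) (S : Subfield Ω) {N : ℕ} {w : Cpl v}
    (hw : w ∈ clS v S) {h : Ω} (h0 : h ≠ 0) (hN : N ≠ 0) (hh : w ^ N = toCpl v h) :
    ∃ g ∈ S, v (h - g ^ N) < v h := by
  have hw0 : w ≠ 0 := by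
    rintro rfl
    rw [zero_pow hN] at hh
    exact h0 ((_root_.map_eq_zero _).1 hh.symm)
  have hw' : w ∈ closure ((S.map (toCpl v) : Subfield (Cpl v)) : Set (Cpl v)) := hw
  obtain ⟨_, ⟨g, hg, rfl⟩, h1⟩ := Metric.mem_closure_iff.1 hw' ‖w‖ (norm_pos_iff.2 hw0)
  refine ⟨g, hg, ?_⟩
  rw [dist_eq_norm] at h1
  have h2 : ‖toCpl v g / w - 1‖ < 1 := by
    have : toCpl v g / w - 1 = -(w - toCpl v g) / w := by field_simp; ring
    rw [this, norm_div, norm_neg, div_lt_one (norm_pos_iff.2 hw0)]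
    exact h1
  have h3 : ‖(toCpl v g / w) ^ N - 1‖ < 1 := by
    have := Lift903.val_pow_sub_one (NormedField.valuation (K := Cpl v)) (toCpl v g / w)
      (by exact_mod_cast h2) N
    exact_mod_cast this
  have h4 : ‖toCpl v h - toCpl v (g ^ N)‖ < ‖toCpl v h‖ := by
    have e : toCpl v h - toCpl v (g ^ N) = -(((toCpl v g / w) ^ N - 1) * toCpl v h) := by
      rw [← hh, map_pow, div_pow, sub_mul, one_mul, div_mul_cancel₀ _ (pow_ne_zero _ hw0)]
      ring
    rw [e, norm_neg, norm_mul]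
    have hp : 0 < ‖toCpl v h‖ := norm_pos_iff.2 ((_root_.map_ne_zero _).2 h0)
    calc _ < 1 * ‖toCpl v h‖ := mul_lt_mul_of_pos_right h3 hp
      _ = _ := one_mul _
  rw [← map_sub, norm_toCpl, norm_toCpl] at h4
  exact_mod_cast h4

/-- transfer of `N`-th powers from `h'` to `h`. -/
theorem pow_transfer {M Γ : Type*} [Field M] [LinearOrderedCommGroupWithZero Γ]
    (w : Valuation M Γ) {h h' g g1 : M} {N : ℕ} (h0 : h ≠ 0)
    (h1 : g1 ≠ 0) (e1 : w (h' - g ^ N) < w h') (e2 : w (h' / (h * g1 ^ N) - 1) < 1) :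
    w (h - (g / g1) ^ N) < w h := by
  have hA : h * g1 ^ N ≠ 0 := mul_ne_zero h0 (pow_ne_zero _ h1)
  have hwA : 0 < w (h * g1 ^ N) := zero_lt_iff.2 (w.ne_zero_iff.2 hA)
  have e3 : w (h' - h * g1 ^ N) < w (h * g1 ^ N) := by
    have : h' - h * g1 ^ N = (h' / (h * g1 ^ N) - 1) * (h * g1 ^ N) := by
      rw [sub_mul, one_mul, div_mul_cancel₀ _ hA]
    rw [this, map_mul]
    calc _ < 1 * w (h * g1 ^ N) := mul_lt_mul_of_pos_right e2 hwA
      _ = _ := one_mul _
  have e4 : w h' = w (h * g1 ^ N) := by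
    have : h' = h * g1 ^ N + (h' - h * g1 ^ N) := by ring
    rw [this]
    exact Valuation.map_add_eq_of_lt_left w e3
  have e5 : w (h * g1 ^ N - g ^ N) < w (h * g1 ^ N) := by
    have : h * g1 ^ N - g ^ N = -(h' - h * g1 ^ N) + (h' - g ^ N) := by ring
    rw [this]
    refine (w.map_add _ _).trans_lt (max_lt ?_ ?_)
    · rw [Valuation.map_neg]; exact e3
    · rw [← e4]; exact e1
  have hg : g1 ^ N ≠ 0 := pow_ne_zero _ h1
  have hwg : 0 < w (g1 ^ N) := zero_lt_iff.2 (w.ne_zero_iff.2 hg)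
  have e6 : h - (g / g1) ^ N = (h * g1 ^ N - g ^ N) / g1 ^ N := by
    rw [div_pow]; field_simp
  rw [e6, map_div₀, div_lt_iff₀ hwg, ← map_mul]
  exact e5

end NoRoot

end Crest.Agent.R013.NB_92
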