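import Crest.Agent.R013.EndP_669_Mg
import Crest.Agent.R013.LemW2_623
import Crest.Agent.R013.Gl3_946
import Crest.Agent.R013.LemC2_623
import Crest.Agent.R013.Annu6_930
import Mathlib
import Crest.Agent.R013.Desc3_372
import Crest.Agent.R013.RR13_948
import Crest.Agent.R013.RR22_948
import Crest.Agent.R013.CE5_280
import Crest.Agent.R013.NB5_92
import Crest.Agent.R013.BTor4_914
import Crest.Agent.R013.BTor5_914
import Crest.Agent.R013.Half2_930
import Crest.Agent.R013.Div6_280

-- ▼ part R013/TopZ_803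
section

/-!
# Row 13: B-MAIN from 623's `AnnP`; `S0015`, `S0016` from `AnnP` and `GOODPall`
-/

set_option autoImplicit false

namespace Crest.Agent.R013.TopZ_803

open scoped NNReal Topology
open Filter Crest.NumberTheoryR Crest.NumberTheoryR.Sect SE_669 CGood_588 GoodP_797 VData_803 TopB_803
  TopS_803

/-- **B-MAIN from LEMW (623).** -/
theorem bMain_of_ann (h : AnnP_669.AnnP) (p : ℕ) [Fact p.Prime] : BMain p :=
  TopM_803.bMain_of_end (BRLast_669.endP p h)

end Crest.Agent.R013.TopZ_803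
end

-- ▼ part R013/LemW3_623
section

/-!
# The Birkhoff triple of a circle (row 13, leaf LEMW, part 3)

In 946's setting (`E` complete, `k(y)` dense in `E`, Gauss norm) the pair `AP`, `AU` is a Birkhoff
triple.
-/

set_option autoImplicit false
set_option linter.unusedSectionVars false

namespace Crest.Agent.R013.LemW623

open Polynomial Crest.Agent.R013.Gl946

variable {k E : Type*} [NormedField k] [NormedField E] [NormedAlgebra k E]
  [IsUltrametricDist E] {y : E}

theorem gauss_transc (hG : IsGauss k y) : Transcendental k y :=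
  transcendental_iff_injective.2 hG.injective

theorem deg_le_of_div_mem (hG : IsGauss k y) (p : k[X]) (m : ℕ)
    (hp : aeval y p / y ^ m ∈ AU k y) : p.natDegree ≤ m := by
  rw [natDegree_le_iff_coeff_eq_zero]
  intro j hj
  by_contra hne
  have hpos : 0 < ‖p.coeff j‖ := norm_pos_iff.2 hne
  obtain ⟨z', hz', hzw'⟩ := Metric.mem_closure_iff.1
    (show aeval y p / y ^ m ∈ closure (((aeval (y⁻¹) : k[X] →ₐ[k] E).range : Subalgebra k E) :
      Set E) from hp) _ hpos
  obtain ⟨q, rfl⟩ := hz'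
  rw [dist_eq_norm] at hzw'
  have hy := hG.ne_zero
  obtain ⟨q', hq', e'⟩ := poly_inv_mul_pow hy q q.natDegree le_rfl
  have e : aeval y (p * X ^ q.natDegree - q' * X ^ m) =
      (aeval y p / y ^ m - aeval (y⁻¹) q) * y ^ (m + q.natDegree) := by
    rw [map_sub, map_mul, map_mul, map_pow, map_pow, aeval_X, ← e', pow_add]
    field_simp
  have h1 := hG.coeff_le (p * X ^ q.natDegree - q' * X ^ m) (j + q.natDegree)
  have hq0 : q'.coeff (j + q.natDegree - m) = 0 := coeff_eq_zero_of_natDegree_lt (by omega)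
  rw [e, norm_mul, norm_pow, hG.norm_eq, one_pow, mul_one, coeff_sub, coeff_mul_X_pow,
    coeff_mul_X_pow', if_pos (by omega), hq0, sub_zero] at h1
  exact absurd hzw' (not_lt.2 h1)

theorem unitIn_of_coeff (hG : IsGauss k y) {g : k[X]} (h1 : ‖aeval y g‖ ≤ 1)
    (h0 : g.coeff 0 = 1) : UnitIn (AP hG) (aeval y g) := by
  have hg : g ≠ 0 := by rintro rfl; simp at h0
  refine ⟨hG.aeval_ne_zero hg, aeval_mem_AP hG g, AP0_le_AP hG ⟨1, g, h1, h0, ?_⟩⟩
  rw [map_one, one_div]

theorem poly_fac (hG : IsGauss k y) {π : k} (hπ : IsUnif π) {f : k[X]} (hf : f ≠ 0) :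
    ∃ (m : ℕ) (c : k) (v h : E), c ≠ 0 ∧ UnitIn (AP hG) v ∧ ‖h - 1‖ < 1 ∧
      aeval y f = algebraMap k E c * y ^ m * v * h := by
  obtain ⟨m, hm, hmin⟩ := hG.exists_index hf
  have hfn : 0 < ‖aeval y f‖ := norm_pos_iff.2 (hG.aeval_ne_zero hf)
  set c := f.coeff m with hc
  have hc0 : c ≠ 0 := by
    intro h; rw [h, norm_zero] at hm; exact hfn.ne hm
  obtain ⟨l, g', h1, h2, h3, h4⟩ := split_low (C c⁻¹ * f) m
  have hco : ∀ i, ‖(C c⁻¹ * f).coeff i‖ ≤ 1 := fun i => by
    rw [coeff_C_mul, norm_mul, norm_inv, hm, inv_mul_le_iff₀ hfn, mul_one]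
    exact hG.coeff_le _ _
  have hl : ‖aeval y l‖ ≤ ‖π‖ := by
    refine hG.aeval_le l hπ.pos.le fun i => ?_
    rcases lt_or_ge i m with h | h
    · rw [h2 i h]
      refine hπ.le _ ?_
      rw [coeff_C_mul, norm_mul, norm_inv, hm, inv_mul_lt_iff₀ hfn, mul_one]
      exact hmin i h
    · rw [h3 i h, norm_zero]; exact hπ.pos.le
  have hg'1 : ‖aeval y g'‖ ≤ 1 := hG.aeval_le g' zero_le_one fun i => by rw [h4]; exact hco _
  have hg'0 : g'.coeff 0 = 1 := by
    rw [h4, coeff_C_mul, Nat.zero_add]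
    exact inv_mul_cancel₀ hc0
  have hg'n : ‖aeval y g'‖ = 1 := hG.norm_of_coeff_zero g' hg'1 hg'0
  have hv := unitIn_of_coeff hG hg'1 hg'0
  have hy := hG.ne_zero
  have hcE : algebraMap k E c ≠ 0 := by simpa using hc0
  refine ⟨m, c, aeval y g', 1 + aeval y l / (y ^ m * aeval y g'), hc0, hv, ?_, ?_⟩
  · rw [add_sub_cancel_left, norm_div, norm_mul, norm_pow, hG.norm_eq, one_pow, one_mul, hg'n,
      div_one]
    exact hl.trans_lt hπ.lt_one
  · have e4 : aeval y (C c⁻¹ * f) = aeval y l + y ^ m * aeval y g' := by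
      rw [h1, map_add, map_mul, map_pow, aeval_X]
    have e5 : aeval y f = algebraMap k E c * (aeval y l + y ^ m * aeval y g') := by
      rw [← e4, map_mul, aeval_C, map_inv₀, mul_inv_cancel_left₀ hcE]
    rw [e5]
    have := hv.ne
    field_simp
    ring

variable [CompleteSpace E]

/-- **The circle gives a Birkhoff triple.** -/
theorem bk_circle [CompleteSpace k] (hG : IsGauss k y) {π : k} (hπ : IsUnif π)
    (hd : DenseRat k y) : Bk k (AP hG) (AU k y) y where
  y_mem := by simpa using aeval_mem_AP hG (X : k[X])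
  z_mem := by simpa using aeval_inv_mem_AU y (X : k[X])
  transc := gauss_transc hG
  inter := by
    intro m w hw hw'
    obtain ⟨p, rfl⟩ := inter_poly hG hπ m w hw hw'
    exact ⟨p, deg_le_of_div_mem hG p m hw', rfl⟩
  fac := by
    intro x hx
    have hxn : 0 < ‖x‖ := norm_pos_iff.2 hx
    obtain ⟨f, g, hg, hfg⟩ := hd x ‖x‖ hxn
    have hgy := hG.aeval_ne_zero hg
    have hf : f ≠ 0 := by
      rintro rfl
      rw [map_zero, zero_div, sub_zero] at hfg
      exact lt_irrefl _ hfg
    have hfy := hG.aeval_ne_zero hf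
    have hy := hG.ne_zero
    obtain ⟨m, c, v, h, hc, hv, hh, ef⟩ := poly_fac hG hπ hf
    obtain ⟨m', c', v', h', hc', hv', hh', eg⟩ := poly_fac hG hπ hg
    have hne1 : ∀ {z : E}, ‖z - 1‖ < 1 → z ≠ 0 ∧ ‖z‖ = 1 := by
      intro z hz
      have h1 : ‖z‖ = 1 := by
        have h2 := IsUltrametricDist.norm_add_eq_max_of_norm_ne_norm (x := z - 1) (y := 1)
          (by rw [norm_one]; exact hz.ne)
        rw [sub_add_cancel, norm_one, max_eq_right hz.le] at h2
        exact h2
      refine ⟨?_, h1⟩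
      rintro rfl
      rw [norm_zero] at h1
      exact zero_ne_one h1
    have hfgn : ‖aeval y f / aeval y g‖ = ‖x‖ := by
      have h2 := IsUltrametricDist.norm_add_eq_max_of_norm_ne_norm
        (x := -(x - aeval y f / aeval y g)) (y := x) (by rw [norm_neg]; exact hfg.ne)
      rw [norm_neg, max_eq_right hfg.le] at h2
      rw [← h2]; congr 1; ring
    set e : E := x / (aeval y f / aeval y g) with he
    have hq0 : aeval y f / aeval y g ≠ 0 := div_ne_zero hfy hgy
    have he1 : ‖e - 1‖ < 1 := by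
      have : e - 1 = (x - aeval y f / aeval y g) / (aeval y f / aeval y g) := by
        rw [he, sub_div, div_self hq0]
      rw [this, norm_div, hfgn, div_lt_one hxn]
      exact hfg
    have hmul1 : ∀ {z w : E}, ‖z - 1‖ < 1 → ‖w - 1‖ < 1 → ‖z * w - 1‖ < 1 := by
      intro z w hz hw
      have : z * w - 1 = (z - 1) * w + (w - 1) := by ring
      rw [this]
      refine (nadd _ _).trans_lt (max_lt ?_ hw)
      rw [norm_mul, (hne1 hw).2, mul_one]
      exact hz
    have hinv1 : ∀ {z : E}, ‖z - 1‖ < 1 → ‖z⁻¹ - 1‖ < 1 := by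
      intro z hz
      have h0 := (hne1 hz).1
      have : z⁻¹ - 1 = -(z - 1) * z⁻¹ := by field_simp; ring
      rw [this, norm_mul, norm_neg, norm_inv, (hne1 hz).2, inv_one, mul_one]
      exact hz
    obtain ⟨a, ha, a', ha', b, hb, b', hb', e1, e2, e3, e4, e5⟩ :=
      cartan_ultra (AU k y).toSubring (AP hG).toSubring (isClosed_AU y) (isClosed_AP hG)
        (dec hG hπ hd) (h * h'⁻¹ * e) (hmul1 (hmul1 hh (hinv1 hh')) he1)
    have hcE : algebraMap k E c ≠ 0 := by simpa using hc
    have hcE' : algebraMap k E c' ≠ 0 := by simpa using hc'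
    refine ⟨(m : ℤ) - m', algebraMap k E c * (algebraMap k E c')⁻¹ * a, v / v' * b,
      ((UnitIn.algMap hc).mul (UnitIn.algMap hc').inv).mul (UnitIn.of_mul_eq_one ha ha' e1),
      (hv.div hv').mul (UnitIn.of_mul_eq_one hb hb' e3), ?_⟩
    have hx' : x = aeval y f / aeval y g * e := by
      rw [he, mul_div_cancel₀ _ hq0]
    have h'0 := (hne1 hh').1
    have hv'0 := hv'.ne
    have hym := pow_ne_zero m' hy
    rw [hx', ef, eg, zpow_sub₀ hy, zpow_natCast, zpow_natCast]
    have e6 : a * b = h * h'⁻¹ * e := e5.symm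
    calc algebraMap k E c * y ^ m * v * h / (algebraMap k E c' * y ^ m' * v' * h') * e
        = algebraMap k E c * (algebraMap k E c')⁻¹ * (y ^ m / y ^ m') * (v / v') *
          (h * h'⁻¹ * e) := by field_simp
      _ = algebraMap k E c * (algebraMap k E c')⁻¹ * (y ^ m / y ^ m') * (v / v') *
          (a * b) := by rw [e6]
      _ = _ := by ring

theorem mem_FP_iff_Fr [CompleteSpace k] (hG : IsGauss k y) {π : k} (hπ : IsUnif π)
    (hd : DenseRat k y) (x : E) : x ∈ FP hG hπ hd ↔ x ∈ Fr (AP hG) y := mem_FP hG hπ hd x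

theorem mem_RU_iff_Fr (hG : IsGauss k y) (x : E) : x ∈ RU k y ↔ x ∈ Fr (AU k y) y⁻¹ := by
  constructor
  · rintro ⟨a, ha, _, ⟨g, rfl⟩, h1, rfl⟩
    exact ⟨a, ha, g, by rintro rfl; exact h1 (map_zero _), rfl⟩
  · rintro ⟨a, ha, g, h1, rfl⟩
    refine ⟨a, ha, _, ⟨g, rfl⟩, ?_, rfl⟩
    have ht : Transcendental k y⁻¹ := by
      intro hh
      have := hh.inv
      rw [inv_inv] at this
      exact gauss_transc hG this
    exact aeval_ne_zero' ht h1

end Crest.Agent.R013.LemW623
end

-- ▼ part R013/LemC3_623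
section

/-!
# Constant extensions of circle fields (row 13, leaf LEMW / B-ANN, part 3)

Isometric maps of circle fields preserve `AP`, `AU`, `AN`, `MN`; the Birkhoff triple over the
algebraic closure of `k` in `Ω`.
-/

set_option autoImplicit false
set_option linter.unusedSectionVars false
set_option linter.style.haveILetI false

namespace Crest.Agent.R013.LemC623

open Polynomial Crest.Agent.R013.Gl946 Crest.Agent.R013.Desc_372 Crest.Agent.R013.Desc_372.CE
open Crest.Agent.R013.LemW623 Crest.Agent.R013.Annu_930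
open scoped NNReal

section maps

variable {k₁ E₁ k₂ E₂ : Type*} [NormedField k₁] [NormedField E₁] [NormedField k₂] [NormedField E₂]
  [NormedAlgebra k₁ E₁] [NormedAlgebra k₂ E₂] (i : E₁ →+* E₂) (hi : ∀ x, ‖i x‖ = ‖x‖)
  (j : k₁ →+* k₂) (hj : ∀ c, i (algebraMap k₁ E₁ c) = algebraMap k₂ E₂ (j c))
  {y₁ : E₁} {y₂ : E₂} (hy : i y₁ = y₂)

include hi hj in
theorem norm_j (c : k₁) : ‖j c‖ = ‖c‖ := by
  rw [← norm_algebraMap' E₂ (j c), ← hj, hi, norm_algebraMap']

include hj hy in
theorem map_aeval_ij (f : k₁[X]) : i (aeval y₁ f) = aeval y₂ (f.map j) := by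
  rw [aeval_def, hom_eval₂, hy, aeval_def, eval₂_map]
  congr 1
  exact RingHom.ext hj

include hi in
theorem continuous_i : Continuous i :=
  (AddMonoidHomClass.isometry_of_norm i hi).continuous

include hi hj hy in
theorem map_AP (hG₁ : IsGauss k₁ y₁) (hG₂ : IsGauss k₂ y₂) {a : E₁} (ha : a ∈ AP hG₁) :
    i a ∈ AP hG₂ := by
  have h1 : i a ∈ i '' closure (AP0alg hG₁ : Set E₁) := ⟨a, ha, rfl⟩
  have h2 := image_closure_subset_closure_image (continuous_i i hi) h1
  refine closure_mono ?_ h2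
  rintro _ ⟨_, ⟨f, g, hg1, hg0, rfl⟩, rfl⟩
  refine ⟨f.map j, g.map j, ?_, ?_, ?_⟩
  · rw [← map_aeval_ij i j hj hy, hi]; exact hg1
  · rw [coeff_map, hg0, map_one]
  · rw [map_div₀, map_aeval_ij i j hj hy, map_aeval_ij i j hj hy]

include hi hj hy in
theorem map_AU {a : E₁} (ha : a ∈ AU k₁ y₁) : i a ∈ AU k₂ y₂ := by
  have h1 : i a ∈ i '' closure (((aeval (y₁⁻¹) : k₁[X] →ₐ[k₁] E₁).range : Subalgebra k₁ E₁) :
    Set E₁) := ⟨a, ha, rfl⟩
  have h2 := image_closure_subset_closure_image (continuous_i i hi) h1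
  refine closure_mono ?_ h2
  rintro _ ⟨_, ⟨f, rfl⟩, rfl⟩
  refine ⟨f.map j, ?_⟩
  exact (map_aeval_ij i j hj (y₁ := y₁⁻¹) (y₂ := y₂⁻¹) (by rw [map_inv₀, hy]) f).symm

include hj hy in
theorem map_Fr {A₁ : Subalgebra k₁ E₁} {A₂ : Subalgebra k₂ E₂} (hA : ∀ a ∈ A₁, i a ∈ A₂) {x : E₁}
    (hx : x ∈ Fr A₁ y₁) : i x ∈ Fr A₂ y₂ := by
  obtain ⟨a, ha, g, hg, rfl⟩ := hx
  refine ⟨i a, hA a ha, g.map j, ?_, ?_⟩
  · rwa [Ne, Polynomial.map_eq_zero]
  · rw [map_div₀, map_aeval_ij i j hj hy]

theorem map_unitIn {k₁ E₁ k₂ E₂ : Type*} [Field k₁] [Field E₁] [Field k₂] [Field E₂]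
    [Algebra k₁ E₁] [Algebra k₂ E₂] (i : E₁ →+* E₂) {A₁ : Subalgebra k₁ E₁} {A₂ : Subalgebra k₂ E₂}
    (hA : ∀ a ∈ A₁, i a ∈ A₂) {a : E₁} (ha : UnitIn A₁ a) : UnitIn A₂ (i a) :=
  ⟨(map_ne_zero i).2 ha.ne, hA _ ha.mem, by rw [← map_inv₀]; exact hA _ ha.inv_mem⟩

include hj hy in
theorem map_ev (p : ℤ →₀ k₁) : ∃ q : ℤ →₀ k₂, i (ev k₁ y₁ p) = ev k₂ y₂ q := by
  refine ⟨p.mapRange j (map_zero j), ?_⟩
  rw [ev_apply, ev_apply, Finsupp.sum_mapRange_index (by intro a; simp), map_finsuppSum]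
  refine Finsupp.sum_congr fun n _ => ?_
  rw [Algebra.smul_def, map_mul, hj, map_zpow₀, hy, Algebra.smul_def]

include hi hj hy in
theorem map_Box {b : ℤ → ℝ≥0} {x : E₁} (hx : x ∈ Box k₁ y₁ b) : i x ∈ Box k₂ y₂ b := by
  have h1 : i x ∈ i '' closure (Box0 k₁ y₁ b : Set E₁) := ⟨x, hx, rfl⟩
  have h2 := image_closure_subset_closure_image (continuous_i i hi) h1
  refine closure_mono ?_ h2
  rintro _ ⟨z, hz, rfl⟩
  have hz' : z ∈ Box0 k₁ y₁ b := hz
  have : Box0 k₁ y₁ b ≤ (Box0 k₂ y₂ b).comap i.toAddMonoidHom := by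
    refine (AddSubgroup.closure_le _).2 ?_
    rintro _ ⟨n, c, hc, rfl⟩
    change i (c • y₁ ^ n) ∈ Box0 k₂ y₂ b
    rw [Algebra.smul_def, map_mul, hj, map_zpow₀, hy, ← Algebra.smul_def]
    refine smul_mem_Box0 ?_
    have : ‖j c‖₊ = ‖c‖₊ := NNReal.eq (norm_j i hi j hj c)
    rw [this]; exact hc
  exact this hz'

include hi hj hy in
theorem map_AN [IsUltrametricDist E₁] [IsUltrametricDist E₂] (hG₁ : IsGauss k₁ y₁)
    (hG₂ : IsGauss k₂ y₂) {s : ℝ≥0} (hs : 1 < s) {a : E₁}
    (ha : a ∈ AN hG₁ hs) : i a ∈ AN hG₂ hs := by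
  intro ε hε
  obtain ⟨p, hp⟩ := ha ε hε
  obtain ⟨q, hq⟩ := map_ev i j hj hy p
  refine ⟨q, ?_⟩
  rw [← hq, ← map_sub]
  exact map_Box i hi j hj hy hp

include hi hj hy in
theorem map_MN [IsUltrametricDist E₁] [IsUltrametricDist E₂] (hG₁ : IsGauss k₁ y₁)
    (hG₂ : IsGauss k₂ y₂) {s : ℝ≥0} (hs : 1 < s) {a : E₁}
    (ha : a ∈ MN hG₁ hs) : i a ∈ MN hG₂ hs := by
  obtain ⟨a, ha, b, hb, hb0, rfl⟩ := ha
  exact ⟨i a, map_AN i hi j hj hy hG₁ hG₂ hs ha, i b, map_AN i hi j hj hy hG₁ hG₂ hs hb,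
    (map_ne_zero i).2 hb0, by rw [map_div₀]⟩

end maps

end Crest.Agent.R013.LemC623
end

-- ▼ part R013/LemC4_623
section

/-!
# Constant extensions of circle fields (row 13, leaf LEMW / B-ANN, part 4)

The Birkhoff triple over the algebraic closure of `k` in `Ω`.
-/

set_option autoImplicit false
set_option linter.unusedSectionVars false
set_option linter.style.haveILetI false

namespace Crest.Agent.R013.LemC623

open Polynomial Crest.Agent.R013.Gl946 Crest.Agent.R013.Desc_372 Crest.Agent.R013.Desc_372.CE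
open Crest.Agent.R013.LemW623 Crest.Agent.R013.Annu_930
open scoped NNReal

section union

variable {k E Ω : Type*} [Field k] [Field E] [Field Ω] [Algebra k E] [Algebra k Ω] [Algebra E Ω]
  [IsScalarTower k E Ω]

/-- inclusion of levels -/
noncomputable def il (E : Type*) [Field E] [Algebra k E] [Algebra E Ω] [IsScalarTower k E Ω]
    {k' k'' : IntermediateField k Ω} (h : k' ≤ k'') : lev E Ω k' →+* lev E Ω k'' :=
  (IntermediateField.inclusion (lev_mono E Ω h)).toRingHom

theorem coe_il {k' k'' : IntermediateField k Ω} (h : k' ≤ k'') (x : lev E Ω k') :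
    ((il E h x : lev E Ω k'') : Ω) = x :=
  IntermediateField.coe_inclusion (lev_mono E Ω h) x

theorem il_il {k₁ k₂ k₃ : IntermediateField k Ω} (h : k₁ ≤ k₂) (h' : k₂ ≤ k₃) (h'' : k₁ ≤ k₃)
    (x : lev E Ω k₁) : il E h' (il E h x) = il E h'' x :=
  Subtype.ext (by rw [coe_il, coe_il, coe_il])

theorem il_algebraMap {k' k'' : IntermediateField k Ω} (h : k' ≤ k'') (c : k') :
    il E h (algebraMap k' (lev E Ω k') c) =
      algebraMap k'' (lev E Ω k'') (IntermediateField.inclusion h c) :=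
  Subtype.ext (by
    rw [coe_il, coe_algebraMap_lev, coe_algebraMap_lev, IntermediateField.coe_inclusion])

theorem il_algebraMapE {k' k'' : IntermediateField k Ω} (h : k' ≤ k'') (c : E) :
    il E h (algebraMap E (lev E Ω k') c) = algebraMap E (lev E Ω k'') c :=
  (IntermediateField.inclusion (lev_mono E Ω h)).commutes c

theorem il_aeval {k' k'' : IntermediateField k Ω} (h : k' ≤ k'') (y : E) (p : k'[X]) :
    il E h (aeval (algebraMap E (lev E Ω k') y) p) =
      aeval (algebraMap E (lev E Ω k'') y)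
        (p.map (IntermediateField.inclusion h).toRingHom) := by
  have e : (il E h).comp (algebraMap k' (lev E Ω k')) =
      (algebraMap k'' (lev E Ω k'')).comp (IntermediateField.inclusion h).toRingHom :=
    RingHom.ext fun c => il_algebraMap h c
  rw [aeval_def, hom_eval₂, il_algebraMapE, aeval_def, eval₂_map, e]

/-- union of subalgebras over the finite levels -/
def unionAlg (κ : IntermediateField k Ω) [Algebra.IsAlgebraic k κ]
    (S : ∀ k' : IntermediateField k Ω, FiniteDimensional k k' → Subalgebra k' (lev E Ω k'))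
    (hS : ∀ (k' k'' : IntermediateField k Ω) (h' : FiniteDimensional k k')
      (h'' : FiniteDimensional k k'') (h : k' ≤ k'') (a : lev E Ω k'), a ∈ S k' h' →
        il E h a ∈ S k'' h'') : Subalgebra κ (lev E Ω κ) where
  carrier := {x | ∃ (k' : IntermediateField k Ω) (h' : FiniteDimensional k k') (h : k' ≤ κ)
    (a : lev E Ω k'), a ∈ S k' h' ∧ il E h a = x}
  mul_mem' := by
    rintro _ _ ⟨k₁, h₁, l₁, a, ha, rfl⟩ ⟨k₂, h₂, l₂, b, hb, rfl⟩
    refine ⟨k₁ ⊔ k₂, inferInstance, sup_le l₁ l₂, il E le_sup_left a * il E le_sup_right b,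
      mul_mem (hS _ _ h₁ _ le_sup_left a ha) (hS _ _ h₂ _ le_sup_right b hb), ?_⟩
    rw [map_mul, il_il, il_il]
  add_mem' := by
    rintro _ _ ⟨k₁, h₁, l₁, a, ha, rfl⟩ ⟨k₂, h₂, l₂, b, hb, rfl⟩
    refine ⟨k₁ ⊔ k₂, inferInstance, sup_le l₁ l₂, il E le_sup_left a + il E le_sup_right b,
      add_mem (hS _ _ h₁ _ le_sup_left a ha) (hS _ _ h₂ _ le_sup_right b hb), ?_⟩
    rw [map_add, il_il, il_il]
  algebraMap_mem' := by
    intro c
    have hc : IsIntegral k (c : Ω) :=
      ((Algebra.IsAlgebraic.isAlgebraic (R := k) c).algebraMap (A := Ω)).isIntegral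
    have hle : IntermediateField.adjoin k {(c : Ω)} ≤ κ := by
      rw [IntermediateField.adjoin_simple_le_iff]; exact c.2
    refine ⟨IntermediateField.adjoin k {(c : Ω)}, IntermediateField.adjoin.finiteDimensional hc,
      hle, algebraMap (IntermediateField.adjoin k {(c : Ω)}) _
        ⟨c, IntermediateField.mem_adjoin_simple_self k (c : Ω)⟩, Subalgebra.algebraMap_mem _ _, ?_⟩
    rw [il_algebraMap]
    congr 1


theorem il_mem_unionAlg {κ : IntermediateField k Ω} [Algebra.IsAlgebraic k κ]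
    {S : ∀ k' : IntermediateField k Ω, FiniteDimensional k k' → Subalgebra k' (lev E Ω k')}
    {hS : ∀ (k' k'' : IntermediateField k Ω) (h' : FiniteDimensional k k')
      (h'' : FiniteDimensional k k'') (h : k' ≤ k'') (a : lev E Ω k'), a ∈ S k' h' →
        il E h a ∈ S k'' h''} {k' : IntermediateField k Ω} (h' : FiniteDimensional k k')
      (h : k' ≤ κ) {a : lev E Ω k'} (ha : a ∈ S k' h') : il E h a ∈ unionAlg κ S hS :=
  ⟨k', h', h, a, ha, rfl⟩

/-- every element of the compositum is at a finite level -/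
theorem exists_level {κ : IntermediateField k Ω} [Algebra.IsAlgebraic k κ] (x : lev E Ω κ) :
    ∃ (k' : IntermediateField k Ω) (_ : FiniteDimensional k k') (h : k' ≤ κ) (a : lev E Ω k'),
      il E h a = x := by
  classical
  obtain ⟨x, hx⟩ := x
  have hx' : x ∈ IntermediateField.adjoin E (κ : Set Ω) := by
    rw [← lev_eq_adjoin k E κ]; exact hx
  obtain ⟨T, hT, hxT⟩ := IntermediateField.exists_finset_of_mem_adjoin hx'
  have hTi : ∀ c ∈ (T : Set Ω), IsIntegral k c := by
    intro c hc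
    exact ((Algebra.IsAlgebraic.isAlgebraic (R := k) (⟨c, hT hc⟩ : κ)).algebraMap
      (A := Ω)).isIntegral
  have hle : IntermediateField.adjoin k (T : Set Ω) ≤ κ := IntermediateField.adjoin_le_iff.2 hT
  refine ⟨IntermediateField.adjoin k (T : Set Ω),
    IntermediateField.finiteDimensional_adjoin hTi, hle, ⟨x, ?_⟩, Subtype.ext (coe_il _ _)⟩
  rw [lev_eq_adjoin k E]
  exact IntermediateField.adjoin.mono E _ _ (IntermediateField.subset_adjoin k _) hxT


/-- **Birkhoff triples over the union.** -/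
theorem bk_union {κ : IntermediateField k Ω} [Algebra.IsAlgebraic k κ] {y : E}
    (S S' : ∀ k' : IntermediateField k Ω, FiniteDimensional k k' → Subalgebra k' (lev E Ω k'))
    (hS : ∀ (k' k'' : IntermediateField k Ω) (h' : FiniteDimensional k k')
      (h'' : FiniteDimensional k k'') (h : k' ≤ k'') (a : lev E Ω k'), a ∈ S k' h' →
        il E h a ∈ S k'' h'')
    (hS' : ∀ (k' k'' : IntermediateField k Ω) (h' : FiniteDimensional k k')
      (h'' : FiniteDimensional k k'') (h : k' ≤ k'') (a : lev E Ω k'), a ∈ S' k' h' →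
        il E h a ∈ S' k'' h'')
    (hB : ∀ (k' : IntermediateField k Ω) (h' : FiniteDimensional k k'),
      Bk k' (S k' h') (S' k' h') (algebraMap E (lev E Ω k') y))
    (htr : Transcendental κ (algebraMap E (lev E Ω κ) y)) :
    Bk κ (unionAlg κ S hS) (unionAlg κ S' hS') (algebraMap E (lev E Ω κ) y) where
  y_mem := by
    have h := il_mem_unionAlg (E := E) (κ := κ) (hS := hS) (k' := ⊥) inferInstance bot_le
      (hB ⊥ inferInstance).y_mem
    rw [il_algebraMapE] at h
    exact h
  z_mem := by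
    have h := il_mem_unionAlg (E := E) (κ := κ) (hS := hS') (k' := ⊥) inferInstance bot_le
      (hB ⊥ inferInstance).z_mem
    rw [map_inv₀, il_algebraMapE] at h
    exact h
  transc := htr
  inter := by
    intro m w hw hw'
    obtain ⟨k₁, h₁, l₁, a, ha, e1⟩ := hw
    obtain ⟨k₂, h₂, l₂, b, hb, e2⟩ := hw'
    have ha' := hS _ (k₁ ⊔ k₂) h₁ inferInstance le_sup_left a ha
    have hb' := hS' _ (k₁ ⊔ k₂) h₂ inferInstance le_sup_right b hb
    have e3 : il E (le_sup_right : k₂ ≤ k₁ ⊔ k₂) b =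
        il E (le_sup_left : k₁ ≤ k₁ ⊔ k₂) a / (algebraMap E (lev E Ω ↑(k₁ ⊔ k₂)) y) ^ m := by
      apply (il E (sup_le l₁ l₂)).injective
      rw [map_div₀, map_pow, il_il _ _ l₂, il_il _ _ l₁, il_algebraMapE, e1, e2]
    rw [e3] at hb'
    obtain ⟨p, hp, e4⟩ := (hB (k₁ ⊔ k₂) inferInstance).inter m _ ha' hb'
    refine ⟨p.map (IntermediateField.inclusion (sup_le l₁ l₂)).toRingHom,
      (natDegree_map_le).trans hp, ?_⟩
    rw [← e1, ← il_il le_sup_left (sup_le l₁ l₂) l₁ a, e4, il_aeval]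
  fac := by
    intro x hx
    obtain ⟨k', h', hle, a, rfl⟩ := exists_level x
    have ha0 : a ≠ 0 := by rintro rfl; exact hx (map_zero _)
    obtain ⟨m, u, v, hu, hv, e⟩ := (hB k' h').fac a ha0
    refine ⟨m, il E hle u, il E hle v, ?_, ?_, ?_⟩
    · exact map_unitIn (il E hle) (fun a ha => il_mem_unionAlg h' hle ha) hu
    · exact map_unitIn (il E hle) (fun a ha => il_mem_unionAlg h' hle ha) hv
    · rw [e, map_mul, map_mul, map_zpow₀, il_algebraMapE]

/-- the order at a finite level and at infinity -/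
theorem ord_union {κ : IntermediateField k Ω} [Algebra.IsAlgebraic k κ] {y : E}
    {S S' : ∀ k' : IntermediateField k Ω, FiniteDimensional k k' → Subalgebra k' (lev E Ω k')}
    {hS : ∀ (k' k'' : IntermediateField k Ω) (h' : FiniteDimensional k k')
      (h'' : FiniteDimensional k k'') (h : k' ≤ k'') (a : lev E Ω k'), a ∈ S k' h' →
        il E h a ∈ S k'' h''}
    {hS' : ∀ (k' k'' : IntermediateField k Ω) (h' : FiniteDimensional k k')
      (h'' : FiniteDimensional k k'') (h : k' ≤ k'') (a : lev E Ω k'), a ∈ S' k' h' →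
        il E h a ∈ S' k'' h''}
    (hB : ∀ (k' : IntermediateField k Ω) (h' : FiniteDimensional k k'),
      Bk k' (S k' h') (S' k' h') (algebraMap E (lev E Ω k') y))
    (hBu : Bk κ (unionAlg κ S hS) (unionAlg κ S' hS') (algebraMap E (lev E Ω κ) y))
    {k' : IntermediateField k Ω} (h' : FiniteDimensional k k') (hle : k' ≤ κ) {x : lev E Ω k'}
    (hx : x ≠ 0) : hBu.ord (il E hle x) = (hB k' h').ord x := by
  obtain ⟨u, v, hu, hv, e⟩ := (hB k' h').ord_spec hx
  refine hBu.ord_eq (a := il E hle u) (b := il E hle v)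
    (map_unitIn (il E hle) (fun a ha => il_mem_unionAlg h' hle ha) hu)
    (map_unitIn (il E hle) (fun a ha => il_mem_unionAlg h' hle ha) hv) ?_
  conv_lhs => rw [e]
  rw [map_mul, map_mul, map_zpow₀, il_algebraMapE]

end union

section circle

variable {k : Type*} [NontriviallyNormedField k] [ProperSpace k] [IsUltrametricDist k]
  [CharZero k] {E : Type*} [NormedField E] [NormedAlgebra k E] [IsUltrametricDist E]
  [CompleteSpace E]
  {Ω : Type*} [NormedField Ω] [NormedAlgebra k Ω] [NormedAlgebra E Ω] [IsScalarTower k E Ω]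
  [IsUltrametricDist Ω] [IsAlgClosed Ω] {y : E}

/-- `AP` at level `k'` -/
noncomputable def APl (Ω : Type*) [NormedField Ω] [NormedAlgebra k Ω] [NormedAlgebra E Ω]
    [IsScalarTower k E Ω] [IsUltrametricDist Ω] [IsAlgClosed Ω]
    (hG : IsGauss k y) (k' : IntermediateField k Ω) (h' : FiniteDimensional k k') :
    Subalgebra k' (lev E Ω k') := AP (isGauss_lev hG k')

/-- `AU` at level `k'` -/
noncomputable def AUl (Ω : Type*) [NormedField Ω] [NormedAlgebra k Ω] [NormedAlgebra E Ω]
    [IsScalarTower k E Ω] (y : E) (k' : IntermediateField k Ω) (_ : FiniteDimensional k k') :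
    Subalgebra k' (lev E Ω k') := AU k' (yl y k')

omit [ProperSpace k] [IsUltrametricDist k] [CharZero k] [IsUltrametricDist E] [CompleteSpace E]
  [IsUltrametricDist Ω] [IsAlgClosed Ω] in
theorem norm_coe_lev {k' : IntermediateField k Ω} (x : lev E Ω k') : ‖x‖ = ‖(x : Ω)‖ := rfl

theorem norm_il {k' k'' : IntermediateField k Ω} (h : k' ≤ k'') (x : lev E Ω k') :
    ‖il E h x‖ = ‖x‖ := by rw [norm_coe_lev, coe_il, norm_coe_lev]

theorem APl_mono (hG : IsGauss k y) (k' k'' : IntermediateField k Ω)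
    (h' : FiniteDimensional k k') (h'' : FiniteDimensional k k'') (h : k' ≤ k'')
    (a : lev E Ω k') (ha : a ∈ APl Ω hG k' h') : il E h a ∈ APl Ω hG k'' h'' :=
  map_AP (il E h) (norm_il h) (IntermediateField.inclusion h).toRingHom (il_algebraMap h)
    (y₁ := yl y k') (y₂ := yl y k'') (il_algebraMapE h y) (isGauss_lev hG k') (isGauss_lev hG k'')
    ha

theorem AUl_mono (y : E) (k' k'' : IntermediateField k Ω)
    (h' : FiniteDimensional k k') (h'' : FiniteDimensional k k'') (h : k' ≤ k'')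
    (a : lev E Ω k') (ha : a ∈ AUl Ω y k' h') : il E h a ∈ AUl Ω y k'' h'' :=
  map_AU (il E h) (norm_il h) (IntermediateField.inclusion h).toRingHom (il_algebraMap h)
    (y₁ := yl y k') (y₂ := yl y k'') (il_algebraMapE h y) ha

theorem bk_lev (hG : IsGauss k y) (hd : DenseRat k y) (k' : IntermediateField k Ω)
    (h' : FiniteDimensional k k') :
    Bk k' (APl Ω hG k' h') (AUl Ω y k' h') (algebraMap E (lev E Ω k') y) := by
  haveI := complete_E hG hd k'
  haveI := complete_k k'
  obtain ⟨π', hπ'⟩ := exists_unif_k k'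
  exact bk_circle (isGauss_lev hG k') hπ' (dense_lev hG hd k')

variable (κ : IntermediateField k Ω) [Algebra.IsAlgebraic k κ]

/-- **The Birkhoff triple over `κ`.** -/
theorem bk_kappa (hG : IsGauss k y) (hd : DenseRat k y) :
    Bk κ (unionAlg κ (APl Ω hG) (APl_mono hG)) (unionAlg κ (AUl Ω y) (AUl_mono y))
      (algebraMap E (lev E Ω κ) y) :=
  bk_union _ _ _ _ (bk_lev hG hd) (gauss_transc (isGauss_lev hG κ))

/-- `AP` of the base in the union -/
theorem AP_le (hG : IsGauss k y) {a : E} (ha : a ∈ AP hG) :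
    algebraMap E (lev E Ω κ) a ∈ unionAlg κ (APl Ω hG) (APl_mono hG) := by
  have h : algebraMap E (lev E Ω (⊥ : IntermediateField k Ω)) a ∈ APl Ω hG ⊥ inferInstance :=
    map_AP (algebraMap E (lev E Ω (⊥ : IntermediateField k Ω))) (norm_algMap_lev ⊥)
      (algebraMap k (⊥ : IntermediateField k Ω)) (fun c => by
        rw [← IsScalarTower.algebraMap_apply, ← IsScalarTower.algebraMap_apply])
      (y₁ := y) (y₂ := yl y ⊥) rfl hG (isGauss_lev hG ⊥) ha
  rw [← il_algebraMapE (bot_le : ⊥ ≤ κ)]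
  exact il_mem_unionAlg (k' := ⊥) inferInstance bot_le h

theorem AU_le (y : E) {a : E} (ha : a ∈ AU k y) :
    algebraMap E (lev E Ω κ) a ∈ unionAlg κ (AUl Ω y) (AUl_mono y) := by
  have h : algebraMap E (lev E Ω (⊥ : IntermediateField k Ω)) a ∈ AUl Ω y ⊥ inferInstance :=
    map_AU (algebraMap E (lev E Ω (⊥ : IntermediateField k Ω))) (norm_algMap_lev ⊥)
      (algebraMap k (⊥ : IntermediateField k Ω)) (fun c => by
        rw [← IsScalarTower.algebraMap_apply, ← IsScalarTower.algebraMap_apply])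
      (y₁ := y) (y₂ := yl y ⊥) rfl ha
  rw [← il_algebraMapE (bot_le : ⊥ ≤ κ)]
  exact il_mem_unionAlg (k' := ⊥) inferInstance bot_le h

end circle

end Crest.Agent.R013.LemC623
end

-- ▼ part R013/LemC5_623
section

/-!
# Constant extensions of the cut cover (row 13, leaf LEMW / B-ANN, part 5): algebra lemmas
-/

set_option autoImplicit false
set_option linter.unusedSectionVars false
set_option linter.style.haveILetI false

namespace Crest.Agent.R013.LemC623

open Module Crest.Agent.R013.Desc_372 Crest.Agent.R013.Desc_372.CE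
open scoped TensorProduct

section lift

/-- ring homomorphisms from a constant extension -/
theorem CE_exists_lift (k κ W W' : Type*) [Field k] [Field κ] [Field W] [Field W'] [Algebra k κ]
    [Algebra k W] [Algebra κ W'] [Algebra W W'] [Algebra k W'] [IsScalarTower k κ W']
    [IsScalarTower k W W'] [CE k κ W W'] {A : Type*} [CommRing A] (f : W →+* A) (g : κ →+* A)
    (h : ∀ c : k, f (algebraMap k W c) = g (algebraMap k κ c)) :
    ∃ φ : W' →+* A, (∀ w, φ (algebraMap W W' w) = f w) ∧ ∀ c, φ (algebraMap κ W' c) = g c := by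
  letI : Algebra k A := (f.comp (algebraMap k W)).toAlgebra
  have hA : ∀ c : k, algebraMap k A c = f (algebraMap k W c) := fun c => rfl
  let fA : W →ₐ[k] A := { f with commutes' := fun c => rfl }
  let gA : κ →ₐ[k] A := { g with commutes' := fun c => (h c).symm }
  let e : κ ⊗[k] W ≃ₐ[κ] W' := AlgEquiv.ofBijective (mu k κ W W') (mu_bijective k κ W W')
  let ψ : κ ⊗[k] W →ₐ[k] A := Algebra.TensorProduct.lift gA fA (fun _ _ => Commute.all _ _)
  have hψ : ∀ c w, ψ (c ⊗ₜ w) = g c * f w := fun c w => by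
    change Algebra.TensorProduct.lift gA fA (fun _ _ => Commute.all _ _) (c ⊗ₜ w) = _
    rw [Algebra.TensorProduct.lift_tmul]
    rfl
  refine ⟨(ψ : κ ⊗[k] W →+* A).comp (e.symm : W' →+* κ ⊗[k] W), fun w => ?_, fun c => ?_⟩
  · have h1 : e.symm (algebraMap W W' w) = 1 ⊗ₜ w := by
      rw [AlgEquiv.symm_apply_eq]
      change _ = mu k κ W W' (1 ⊗ₜ w)
      rw [mu_tmul, map_one, one_mul]
    change ψ (e.symm (algebraMap W W' w)) = f w
    rw [h1, hψ, map_one, one_mul]
  · have h1 : e.symm (algebraMap κ W' c) = c ⊗ₜ 1 := by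
      rw [AlgEquiv.symm_apply_eq]
      change _ = mu k κ W W' (c ⊗ₜ 1)
      rw [mu_tmul, map_one, mul_one]
    change ψ (e.symm (algebraMap κ W' c)) = g c
    rw [h1, hψ, map_one, mul_one]

end lift

section norms

/-- the norm and a rank one idempotent -/
theorem norm_idem {E V : Type*} [Field E] [CommRing V] [Algebra E V] [Module.Finite E V]
    (e : V) (he : e * e = e) (ι : V →+* E) (hι : ∀ v, e * v = ι v • e)
    (hE : ∀ c : E, ι (algebraMap E V c) = c) (he0 : e ≠ 0) (v : V) :
    Algebra.norm E v = ι v * Algebra.norm E (e + (1 - e) * v) := by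
  have hιe : ι e = 1 := by
    have h1 : (ι e - 1) • e = 0 := by rw [sub_smul, one_smul, ← hι, he, sub_self]
    rcases smul_eq_zero.1 h1 with h2 | h2
    · exact sub_eq_zero.1 h2
    · exact absurd h2 he0
  have key : ∀ c : E, Algebra.norm E (c • e + (1 - e)) = c := by
    intro c
    let f : Module.Dual E V :=
      { toFun := fun v => (c - 1) * ι v
        map_add' := fun a b => by rw [map_add, mul_add]
        map_smul' := fun a b => by
          rw [Algebra.smul_def, map_mul, hE, RingHom.id_apply, smul_eq_mul]; ring }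
    have h1 : Algebra.lmul E V (c • e + (1 - e)) = LinearMap.transvection f e := by
      ext w
      rw [Algebra.coe_lmul_eq_mul, LinearMap.mul_apply', LinearMap.transvection.apply]
      change _ = w + ((c - 1) * ι w) • e
      rw [mul_smul, ← hι, sub_smul, one_smul, add_mul, smul_mul_assoc, sub_mul, one_mul]
      ring
    rw [Algebra.norm_apply, h1, LinearMap.transvection.det]
    change 1 + (c - 1) * ι e = c
    rw [hιe]; ring
  have h2 : v = (ι v • e + (1 - e)) * (e + (1 - e) * v) := by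
    have hs : algebraMap E V (ι v) * e = e * v := by rw [hι, Algebra.smul_def]
    rw [Algebra.smul_def]
    linear_combination (-(algebraMap E V (ι v) - algebraMap E V (ι v) * v - 1 + v)) * he - hs
  conv_lhs => rw [h2]
  rw [map_mul, key]

/-- norms and subrings -/
theorem norm_mem_of_repr {E V ι : Type*} [Field E] [CommRing V] [Algebra E V] [Fintype ι]
    (b : Basis ι E V) (T : Subring E) (v : V) (h : ∀ i j, b.repr (v * b j) i ∈ T) :
    Algebra.norm E v ∈ T := by
  classical
  rw [Algebra.norm_eq_matrix_det b, Matrix.det_apply]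
  refine sum_mem fun σ _ => ?_
  rw [Units.smul_def]
  refine zsmul_mem (prod_mem fun i _ => ?_) _
  rw [Algebra.leftMulMatrix_eq_repr_mul]
  exact h _ _

/-- the norm of a cyclic extension -/
theorem norm_cyclic {U W : Type*} [Field U] [Field W] [Algebra U W] [FiniteDimensional U W]
    (σ : W ≃ₐ[U] W) {n : ℕ} (hn : orderOf σ = n) (hrank : finrank U W ≤ n) (w : W) :
    algebraMap U W (Algebra.norm U w) = ∏ i ∈ Finset.range n, (σ ^ i) w := by
  classical
  have h1 : orderOf σ ≤ Fintype.card (W ≃ₐ[U] W) := orderOf_le_card_univ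
  have h2 : Fintype.card (W ≃ₐ[U] W) ≤ finrank U W := AlgEquiv.card_le
  have h3 : Fintype.card (W ≃ₐ[U] W) = n := by omega
  have h4 : finrank U W = n := by omega
  have hG : IsGalois U W := IsGalois.of_card_aut_eq_finrank U W (by
    rw [Nat.card_eq_fintype_card, h3, h4])
  rw [Algebra.norm_eq_prod_automorphisms]
  have himg : (Finset.range n).image (fun i => σ ^ i) = Finset.univ := by
    refine Finset.eq_univ_of_card _ ?_
    rw [Finset.card_image_of_injOn, Finset.card_range, h3]
    intro i hi j hj hij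
    refine pow_injOn_Iio_orderOf ?_ ?_ hij
    · rw [Set.mem_Iio, hn]; simpa using hi
    · rw [Set.mem_Iio, hn]; simpa using hj
  rw [← himg, Finset.prod_image]
  intro i hi j hj hij
  refine pow_injOn_Iio_orderOf ?_ ?_ hij
  · rw [Set.mem_Iio, hn]; simpa using hi
  · rw [Set.mem_Iio, hn]; simpa using hj

end norms

end Crest.Agent.R013.LemC623
end

-- ▼ part R013/LemW4_623
section

/-!
# The slope congruence (row 13, leaf LEMW, part 4)

`(A, A', y)` a Birkhoff triple in `E`.  Sequences `b i`, `α i`, `β i`, `t i` in `Eˣ` with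
`α i * b i = β i * b (i+1)`, `β i` locally an `n`-th power at all primes of `A`, `α i` locally an
`n`-th power at all primes of `A'` except `y = ∞`, where it is locally `t i / t (i+1)` times an `n`-th
power.  Then `ord (∏_{i<n} b i) ≡ v_∞ (∏_{i<n} t i)` modulo `n`.
-/

set_option autoImplicit false
set_option linter.unusedSectionVars false

namespace Crest.Agent.R013.LemW623

open Polynomial

variable {k E : Type*} [Field k] [Field E] [Algebra k E]

/-- `x` is locally at `P` an `n`-th power times a unit. -/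
def LocPowAt (A : Subalgebra k E) (t : E) (P : k[X]) (n : ℕ) (x : E) : Prop :=
  ∃ c w : E, c ∈ Fr A t ∧ w ∈ OP A t P ∧ w⁻¹ ∈ OP A t P ∧ x = c ^ n * w

namespace Bk

variable {A A' : Subalgebra k E} {y : E} (h : Bk k A A' y)

include h

theorem dvd_ord_of_locPow {n : ℕ} (hn : 0 < n) {x : E} (hx : x ∈ Fr A y) (hx0 : x ≠ 0)
    (hl : ∀ P, InP A y P → LocPowAt A y P n x) : (n : ℤ) ∣ h.ord x := by
  obtain ⟨u, f, g, hu, hf, hg, rfl⟩ := h.wr.pow_of_locPow hn hx hx0 hl
  have hfg : aeval y f / aeval y g ≠ 0 := div_ne_zero (h.ae_ne hf) (h.ae_ne hg)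
  rw [h.ord_mul hu.ne (pow_ne_zero _ hfg), h.ord_pow hfg, h.ord_unit hu, zero_add]
  exact dvd_mul_right _ _

/-- The version for `A'` with a correction at infinity. -/
theorem dvd_ord_of_locPow' {n : ℕ} (hn : 0 < n) {x : E} (hx : x ∈ Fr A' y⁻¹) (hx0 : x ≠ 0)
    {s s' : E} {e e' : ℤ} (hs : IsV A' y⁻¹ X s e) (hs' : IsV A' y⁻¹ X s' e')
    (hl : ∀ P, InP A' y⁻¹ P → ¬ (X : k[X]) ∣ P → LocPowAt A' y⁻¹ P n x)
    (hX : LocPowAt A' y⁻¹ X n (x * s / s')) : (n : ℤ) ∣ h.ord x - (e - e') := by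
  have hy := h.ne
  have hyi := inv_ne_zero hy
  have hw := h.wr'
  have hXirr : Irreducible (X : k[X]) := irreducible_X
  have hs0 := hw.isV_ne X_ne_zero hs
  have hs0' := hw.isV_ne X_ne_zero hs'
  set x1 : E := x * y⁻¹ ^ (e - e') with hx1
  have hx10 : x1 ≠ 0 := mul_ne_zero hx0 (zpow_ne_zero _ hyi)
  have hzFr : y⁻¹ ∈ hw.frac := hw.subset_Fr h.z_mem
  have hx1Fr : x1 ∈ Fr A' y⁻¹ := hw.Fr_mul hx (show y⁻¹ ^ (e - e') ∈ hw.frac from zpow_mem hzFr _)
  have key : (n : ℤ) ∣ h.symm.ord x1 := by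
    refine h.symm.dvd_ord_of_locPow hn hx1Fr hx10 fun P hP => ?_
    by_cases hXP : (X : k[X]) ∣ P
    · -- `P` is associated to `X`
      have hass : Associated X P := hXirr.associated_of_dvd hP.irr hXP
      have hXLoc : LocPowAt A' y⁻¹ X n x1 := by
        obtain ⟨c, w, hc, hw1, hw2, e1⟩ := hX
        have hx' : x1 = c ^ n * (w * (s' * s⁻¹ * y⁻¹ ^ (e - e'))) := by
          have : x = c ^ n * w * s' / s := by
            rw [← e1]; field_simp
          rw [hx1, this]; ring
        have hVz : IsV A' y⁻¹ X (s' * s⁻¹ * y⁻¹ ^ (e - e')) 0 := by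
          have h1 : IsV A' y⁻¹ X (y⁻¹ ^ (e - e')) (e - e') := by
            refine ⟨1, 1, 1, UnitIn.one, hXirr.prime.not_dvd_one, hXirr.prime.not_dvd_one, ?_⟩
            rw [aeval_X]; simp
          have h2 := hw.isV_mul hXirr (hw.isV_mul hXirr hs' (hw.isV_inv hs)) h1
          have h3 : e' + -e + (e - e') = 0 := by ring
          rwa [h3] at h2
        refine ⟨c, _, hc, hw.OP_mul hXirr hw1 (hw.mem_OP_of_isV le_rfl hVz), ?_, hx'⟩
        rw [mul_inv]
        refine hw.OP_mul hXirr hw2 (hw.mem_OP_of_isV ?_ (hw.isV_inv hVz))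
        simp
      obtain ⟨c, w, hc, ⟨a, ha, g, hg, e1⟩, ⟨a', ha', g', hg', e1'⟩, e2⟩ := hXLoc
      exact ⟨c, w, hc, ⟨a, ha, g, fun hh => hg (hass.dvd.trans hh), e1⟩,
        ⟨a', ha', g', fun hh => hg' (hass.dvd.trans hh), e1'⟩, e2⟩
    · obtain ⟨c, w, hc, hw1, hw2, e1⟩ := hl P hP hXP
      -- `y⁻¹` is a unit at `P`
      have hPX : ¬ P ∣ X := fun hh => hXP ((hP.irr.associated_of_dvd hXirr hh).symm.dvd)
      have hz1 : y⁻¹ ∈ hw.locRing hP.irr := hw.subset_OP hP.irr h.z_mem
      have hz2 : (y⁻¹)⁻¹ ∈ hw.locRing hP.irr :=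
        ⟨1, one_mem _, X, hPX, by rw [aeval_X, one_div]⟩
      have hzz : ∀ j : ℤ, y⁻¹ ^ j ∈ hw.locRing hP.irr := by
        intro j
        cases j with
        | ofNat j => rw [Int.ofNat_eq_natCast, zpow_natCast]; exact pow_mem hz1 _
        | negSucc j => rw [zpow_negSucc, ← inv_pow]; exact pow_mem hz2 _
      refine ⟨c, w * y⁻¹ ^ (e - e'), hc, hw.OP_mul hP.irr hw1 (hzz _), ?_, ?_⟩
      · rw [mul_inv, ← zpow_neg]
        exact hw.OP_mul hP.irr hw2 (hzz _)
      · rw [hx1, e1]; ring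
  rw [h.ord_symm hx10, hx1, h.ord_mul hx0 (zpow_ne_zero _ hyi), h.ord_zpow hyi,
    h.ord_inv hy, h.ord_y] at key
  have h5 : h.ord x - (e - e') = -(-(h.ord x + (e - e') * -1)) := by ring
  rw [h5]
  exact key.neg_right

/-- **The slope congruence.** -/
theorem slope_congr {n : ℕ} (hn : 0 < n) (b al be t : ℕ → E) (eps : ℕ → ℤ)
    (hb0 : ∀ i, b i ≠ 0) (hal0 : ∀ i, al i ≠ 0) (hbe0 : ∀ i, be i ≠ 0)
    (hrel : ∀ i, al i * b i = be i * b (i + 1))
    (hbeFr : ∀ i, be i ∈ Fr A y) (halFr : ∀ i, al i ∈ Fr A' y⁻¹)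
    (hbe : ∀ i P, InP A y P → LocPowAt A y P n (be i))
    (hal : ∀ i P, InP A' y⁻¹ P → ¬ (X : k[X]) ∣ P → LocPowAt A' y⁻¹ P n (al i))
    (ht : ∀ i, IsV A' y⁻¹ X (t i) (eps i))
    (halX : ∀ i, LocPowAt A' y⁻¹ X n (al i * t (i + 1) / t i)) :
    (n : ℤ) ∣ h.ord (∏ i ∈ Finset.range n, b i) - ∑ i ∈ Finset.range n, eps i := by
  have h1 : ∀ i, (n : ℤ) ∣ (h.ord (b (i + 1)) - eps (i + 1)) - (h.ord (b i) - eps i) := by
    intro i
    have e1 := congrArg h.ord (hrel i)
    rw [h.ord_mul (hal0 i) (hb0 i), h.ord_mul (hbe0 i) (hb0 (i + 1))] at e1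
    have e2 := h.dvd_ord_of_locPow hn (hbeFr i) (hbe0 i) (hbe i)
    have e3 := h.dvd_ord_of_locPow' hn (halFr i) (hal0 i) (ht (i + 1)) (ht i) (hal i) (halX i)
    have e4 : (h.ord (b (i + 1)) - eps (i + 1)) - (h.ord (b i) - eps i) =
        (h.ord (al i) - (eps (i + 1) - eps i)) - h.ord (be i) := by linarith
    rw [e4]
    exact dvd_sub e3 e2
  have h2 : ∀ i, (n : ℤ) ∣ (h.ord (b i) - eps i) - (h.ord (b 0) - eps 0) := by
    intro i
    induction i with
    | zero => simp
    | succ i ih =>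
      have := dvd_add (h1 i) ih
      have e : h.ord (b (i + 1)) - eps (i + 1) - (h.ord (b i) - eps i) +
          (h.ord (b i) - eps i - (h.ord (b 0) - eps 0)) =
          h.ord (b (i + 1)) - eps (i + 1) - (h.ord (b 0) - eps 0) := by ring
      rwa [e] at this
  rw [h.ord_prod _ _ fun i _ => hb0 i, ← Finset.sum_sub_distrib]
  have h3 : ∑ i ∈ Finset.range n, (h.ord (b i) - eps i) =
      ∑ i ∈ Finset.range n, ((h.ord (b i) - eps i) - (h.ord (b 0) - eps 0)) +
        n * (h.ord (b 0) - eps 0) := by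
    rw [Finset.sum_sub_distrib (f := fun i => h.ord (b i) - eps i), Finset.sum_const,
      Finset.card_range, nsmul_eq_mul]
    ring
  rw [h3]
  exact dvd_add (Finset.dvd_sum fun i _ => h2 i) (dvd_mul_right _ _)

end Bk

end Crest.Agent.R013.LemW623
end

-- ▼ part R013/LemW5_623
section

/-!
# Norm lemmas (row 13, leaf LEMW, part 5)
-/

set_option autoImplicit false

open Polynomial TensorProduct

namespace Crest.Agent.R013.LemW623



theorem norm_isIntegral {R E B : Type*} [CommRing R] [Field E] [Algebra R E] [CommRing B]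
    [Algebra E B] [Algebra R B] [IsScalarTower R E B] [Module.Finite E B] (x : B)
    (hx : IsIntegral R x) : IsIntegral R (Algebra.norm E x) := by
  classical
  obtain ⟨q, hq, hqx⟩ := hx
  let b := Module.Free.chooseBasis E B
  let Ω := AlgebraicClosure E
  set M := Algebra.leftMulMatrix b x with hM
  have e1 : Algebra.norm E x = M.det := by rw [Algebra.norm_eq_matrix_det b]
  have hqM : aeval M (q.map (algebraMap R E)) = 0 := by
    rw [hM, aeval_algHom_apply, aeval_map_algebraMap]
    have : aeval x q = 0 := hqx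
    rw [this, map_zero]
  set N : Matrix _ _ Ω := M.map (algebraMap E Ω) with hN
  have hqN : aeval N (q.map (algebraMap R Ω)) = 0 := by
    have h2 : N = (Algebra.ofId E Ω).mapMatrix M := rfl
    rw [h2]
    have h3 : q.map (algebraMap R Ω) = (q.map (algebraMap R E)).map (algebraMap E Ω) := by
      rw [Polynomial.map_map, ← IsScalarTower.algebraMap_eq]
    rw [h3, aeval_map_algebraMap, aeval_algHom_apply, hqM, map_zero]
  have hdet : algebraMap E Ω M.det = (N.charpoly.roots).prod := by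
    rw [← Matrix.det_eq_prod_roots_charpoly, hN, RingHom.map_det]; rfl
  have hint : IsIntegral R (algebraMap E Ω M.det) := by
    rw [hdet]
    refine IsIntegral.multiset_prod ?_
    intro lam hlam
    rw [mem_roots'] at hlam
    have h3 : lam ∈ spectrum Ω N := Matrix.mem_spectrum_iff_isRoot_charpoly.2 hlam.2
    have h4 : eval lam (q.map (algebraMap R Ω)) ∈ spectrum Ω (aeval N (q.map (algebraMap R Ω))) :=
      spectrum.subset_polynomial_aeval N _ ⟨lam, h3, rfl⟩
    have h5 : eval lam (q.map (algebraMap R Ω)) = 0 := by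
      by_contra hne
      rw [hqN, spectrum.mem_iff, sub_zero] at h4
      exact h4 ((isUnit_iff_ne_zero.2 hne).map _)
    rw [eval_map_algebraMap] at h5
    exact ⟨q, hq, h5⟩
  rw [e1]
  exact (isIntegral_algebraMap_iff (algebraMap E Ω).injective).1 hint

end Crest.Agent.R013.LemW623
end

-- ▼ part R013/LemW6_623
section

/-!
# The slope congruence for norms from a cyclic cover (row 13, leaf LEMW, part 6)

`slope_norm`: E-level form.  `slope_tensor`: form with `R ⊗ U`, `P ⊗ U`, `E ⊗ U ≃ E × E'`.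
-/

set_option autoImplicit false
set_option linter.unusedSectionVars false

namespace Crest.Agent.R013.LemW623

open Polynomial TensorProduct

variable {k E : Type*} [Field k] [Field E] [Algebra k E]

/-- `w` is a root of a monic polynomial over `F` with coefficients in `S`. -/
def IntE {F E B : Type*} [Field F] [Field E] [CommRing B] [Algebra F E] [Algebra F B]
    (S : Set E) (w : B) : Prop :=
  ∃ q : F[X], q.Monic ∧ (∀ i, algebraMap F E (q.coeff i) ∈ S) ∧ aeval w q = 0

section

variable {F : Type*} [Field F] [Algebra F E]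

theorem IntE.map {B B' : Type*} [CommRing B] [Algebra F B] [CommRing B'] [Algebra F B']
    {S : Set E} {w : B} (hw : IntE (F := F) S w) (f : B →ₐ[F] B') : IntE (F := F) S (f w) := by
  obtain ⟨q, hq, hc, e⟩ := hw
  exact ⟨q, hq, hc, by rw [aeval_algHom_apply, e, map_zero]⟩

namespace Wr

variable {A : Subalgebra k E} {t : E} (h : Wr k A t)

include h

theorem norm_mem_OP {B : Type*} [CommRing B] [Algebra E B] [Module.Finite E B] [Algebra F B]
    [IsScalarTower F E B] {P : k[X]} (hP : Irreducible P) {w : B}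
    (hw : IntE (F := F) (OP A t P) w) (hn : Algebra.norm E w ∈ Fr A t) :
    Algebra.norm E w ∈ OP A t P := by
  obtain ⟨q, hq, hc, e⟩ := hw
  set O := h.locRing hP with hO
  -- lift the polynomial to `O`
  have hlift : ∃ q' : O[X], q'.map O.subtype = q.map (algebraMap F E) ∧ q'.Monic := by
    have h1 : q.map (algebraMap F E) ∈ lifts O.subtype := by
      rw [lifts_iff_coeff_lifts]
      intro i
      rw [coeff_map]
      exact ⟨⟨_, hc i⟩, rfl⟩
    obtain ⟨q', e1, -, e2⟩ := lifts_and_natDegree_eq_and_monic h1 (hq.map _)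
    exact ⟨q', e1, e2⟩
  obtain ⟨q', e1, hq'⟩ := hlift
  let _ : Algebra O B := ((algebraMap E B).comp O.subtype).toAlgebra
  have _ : IsScalarTower O E B := IsScalarTower.of_algebraMap_eq' rfl
  have hint : IsIntegral O w := by
    refine ⟨q', hq', ?_⟩
    have e3 : (algebraMap O B) = (algebraMap E B).comp O.subtype := rfl
    rw [e3, ← eval₂_map, e1, eval₂_map, ← IsScalarTower.algebraMap_eq F E B]
    exact e
  obtain ⟨r, hr, hr0⟩ := norm_isIntegral (R := O) (E := E) w hint
  refine h.OP_integral hP hn (r.map O.subtype) (hr.map _) ?_ ?_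
  · intro i
    rw [coeff_map]
    exact (r.coeff i).2
  · rw [eval_map]; exact hr0

end Wr

namespace Bk

variable {A A' : Subalgebra k E} {y : E} (h : Bk k A A' y)

include h



end Bk

end

end Crest.Agent.R013.LemW623
end

-- ▼ part R013/LemW7_623
section

/-!
# The slope congruence, `V`-form (row 13, leaf LEMW, part 7)

`V` a finite `E`-algebra, `ι : V → E`, `α, β : W → V` with
`N(α w) * ι (β w) = N(β w) * ι (β (σ w))`.
-/

set_option autoImplicit false
set_option linter.unusedSectionVars false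

namespace Crest.Agent.R013.LemW623

open Polynomial TensorProduct

variable {k E : Type*} [Field k] [Field E] [Algebra k E]
variable {F : Type*} [Field F] [Algebra F E]

namespace Bk

variable {A A' : Subalgebra k E} {y : E} (h : Bk k A A' y)

include h

/-- **The slope congruence, `V`-form.** -/
theorem slope_normV {n : ℕ} (hn : 0 < n) {W V : Type*} [Field W] [CommRing V]
    [Algebra F W] [Algebra E V] [Module.Finite E V] [Algebra F V] [IsScalarTower F E V]
    (σ : W →ₐ[F] W) (α β : W →ₐ[F] V) (ι : V →+* E)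
    (hrel : ∀ w, Algebra.norm E (α w) * ι (β w) = Algebra.norm E (β w) * ι (β (σ w)))
    (hα : ∀ w, Algebra.norm E (α w) ∈ Fr A' y⁻¹) (hβ : ∀ w, Algebra.norm E (β w) ∈ Fr A y)
    (φ θ : W) (hφ : φ ≠ 0) (hθ : θ ≠ 0)
    (hP : ∀ P, InP A y P → ∃ ψ u : W, φ = ψ ^ n * u ∧ IntE (F := F) (OP A y P) u ∧
      IntE (F := F) (OP A y P) u⁻¹)
    (hP' : ∀ P, InP A' y⁻¹ P → ¬ (X : k[X]) ∣ P → ∃ ψ u : W, φ = ψ ^ n * u ∧
      IntE (F := F) (OP A' y⁻¹ P) u ∧ IntE (F := F) (OP A' y⁻¹ P) u⁻¹)
    (hX : ∃ ψ u : W, φ * σ θ = ψ ^ n * u * θ ∧ IntE (F := F) (OP A' y⁻¹ X) u ∧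
      IntE (F := F) (OP A' y⁻¹ X) u⁻¹)
    (d : ℤ) (hd : IsV A' y⁻¹ X (∏ i ∈ Finset.range n, Algebra.norm E (α ((σ ^ i) θ))) d) :
    (n : ℤ) ∣ h.ord (∏ i ∈ Finset.range n, ι (β ((σ ^ i) φ))) - d := by
  have hσ : ∀ (i : ℕ) (w : W), w ≠ 0 → (σ ^ i) w ≠ 0 := by
    intro i w hw
    exact (map_ne_zero (σ ^ i)).2 hw
  have hσS : ∀ (i : ℕ) (w : W), (σ ^ (i + 1)) w = σ ((σ ^ i) w) := by
    intro i w; rw [pow_succ']; rfl
  have hunit : ∀ (w : W), w ≠ 0 → IsUnit w := fun w hw => isUnit_iff_ne_zero.2 hw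
  have hα0 : ∀ w : W, w ≠ 0 → Algebra.norm E (α w) ≠ 0 := fun w hw =>
    ((hunit w hw).map ((Algebra.norm E).comp (α : W →* V))).ne_zero
  have hβ0 : ∀ w : W, w ≠ 0 → Algebra.norm E (β w) ≠ 0 := fun w hw =>
    ((hunit w hw).map ((Algebra.norm E).comp (β : W →* V))).ne_zero
  have hb0 : ∀ w : W, w ≠ 0 → ι (β w) ≠ 0 := fun w hw =>
    (((hunit w hw).map β).map ι).ne_zero
  have hXirr : Irreducible (X : k[X]) := irreducible_X
  have hinp := h.symm.inP_X
  -- a general local statement
  have hloc : ∀ (γ : W →ₐ[F] V) (A₁ : Subalgebra k E) (t : E) (hw : Wr k A₁ t)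
      (_ : ∀ w, Algebra.norm E (γ w) ∈ Fr A₁ t) (P : k[X]) (_ : Irreducible P) (u : W)
      (_ : u ≠ 0) (_ : IntE (F := F) (OP A₁ t P) u) (_ : IntE (F := F) (OP A₁ t P) u⁻¹),
      Algebra.norm E (γ u) ∈ OP A₁ t P ∧ (Algebra.norm E (γ u))⁻¹ ∈ OP A₁ t P := by
    intro γ A₁ t hw hγ P hPi u hu0 hu hu'
    refine ⟨hw.norm_mem_OP hPi (hu.map γ) (hγ _), ?_⟩
    have h3 : (Algebra.norm E (γ u))⁻¹ = Algebra.norm E (γ u⁻¹) := by
      rw [inv_eq_iff_eq_inv, eq_comm]
      refine inv_eq_of_mul_eq_one_left ?_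
      rw [← map_mul, ← map_mul, mul_inv_cancel₀ hu0]
      simp
    rw [h3]
    exact hw.norm_mem_OP hPi (hu'.map γ) (hγ _)
  have hu0 : ∀ {ψ u : W}, φ = ψ ^ n * u → u ≠ 0 := by
    rintro ψ u e rfl
    rw [mul_zero] at e
    exact hφ e
  have key := h.slope_congr hn (fun i => ι (β ((σ ^ i) φ)))
    (fun i => Algebra.norm E (α ((σ ^ i) φ))) (fun i => Algebra.norm E (β ((σ ^ i) φ)))
    (fun i => Algebra.norm E (α ((σ ^ i) θ)))
    (fun i => (h.wr'.isV_exists hXirr (hα ((σ ^ i) θ)) (hα0 _ (hσ i θ hθ))).choose)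
    (fun i => hb0 _ (hσ i φ hφ)) (fun i => hα0 _ (hσ i φ hφ)) (fun i => hβ0 _ (hσ i φ hφ))
    (fun i => by rw [hrel, hσS])
    (fun i => hβ _) (fun i => hα _)
    (by
      intro i P hPP
      obtain ⟨ψ, u, e, hu, hu'⟩ := hP P hPP
      obtain ⟨h4, h5⟩ := hloc (β.comp (σ ^ i)) A y h.wr (fun w => hβ _) P hPP.irr u (hu0 e) hu hu'
      exact ⟨Algebra.norm E (β ((σ ^ i) ψ)), Algebra.norm E (β ((σ ^ i) u)), hβ _, h4, h5,
        by simp only [e, map_mul, map_pow]⟩)
    (by
      intro i P hPP hXP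
      obtain ⟨ψ, u, e, hu, hu'⟩ := hP' P hPP hXP
      obtain ⟨h4, h5⟩ := hloc (α.comp (σ ^ i)) A' y⁻¹ h.wr' (fun w => hα _) P hPP.irr u (hu0 e)
        hu hu'
      exact ⟨Algebra.norm E (α ((σ ^ i) ψ)), Algebra.norm E (α ((σ ^ i) u)), hα _, h4, h5,
        by simp only [e, map_mul, map_pow]⟩)
    (fun i => (h.wr'.isV_exists hXirr (hα ((σ ^ i) θ)) (hα0 _ (hσ i θ hθ))).choose_spec)
    (by
      intro i
      obtain ⟨ψ, u, e, hu, hu'⟩ := hX
      have hu0 : u ≠ 0 := by
        rintro rfl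
        rw [mul_zero, zero_mul] at e
        exact mul_ne_zero hφ ((map_ne_zero σ).2 hθ) e
      obtain ⟨h4, h5⟩ := hloc (α.comp (σ ^ i)) A' y⁻¹ h.wr' (fun w => hα _) X hXirr u hu0 hu hu'
      refine ⟨Algebra.norm E (α ((σ ^ i) ψ)), Algebra.norm E (α ((σ ^ i) u)), hα _, h4, h5, ?_⟩
      have e1 : (σ ^ i) φ * (σ ^ (i + 1)) θ = (σ ^ i) ψ ^ n * (σ ^ i) u * (σ ^ i) θ := by
        have h5 : (σ ^ (i + 1)) θ = (σ ^ i) (σ θ) := by rw [pow_succ]; rfl
        rw [h5, ← map_mul, e, map_mul, map_mul, map_pow]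
      have e2 := congrArg (fun w => Algebra.norm E (α w)) e1
      simp only [map_mul, map_pow] at e2
      rw [div_eq_iff (hα0 _ (hσ i θ hθ))]
      exact e2)
  have hd2 : ∀ m : ℕ, IsV A' y⁻¹ X (∏ i ∈ Finset.range m, Algebra.norm E (α ((σ ^ i) θ)))
      (∑ i ∈ Finset.range m,
        (h.wr'.isV_exists hXirr (hα ((σ ^ i) θ)) (hα0 _ (hσ i θ hθ))).choose) := by
    intro m
    induction m with
    | zero => simpa using h.wr'.isV_unit hXirr UnitIn.one
    | succ m ih =>
      rw [Finset.prod_range_succ, Finset.sum_range_succ]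
      exact h.wr'.isV_mul hXirr ih
        (h.wr'.isV_exists hXirr (hα ((σ ^ m) θ)) (hα0 _ (hσ m θ hθ))).choose_spec
  rw [h.wr'.isV_unique hinp hd (hd2 n)]
  exact key

end Bk

end Crest.Agent.R013.LemW623
end

-- ▼ part R013/LemW8_623
section

/-!
# Places and local `n`-th powers (row 13, leaf LEMW, part 8)

`W` a function field over `k` (948's context).  An element whose order at all places over the prime
`P(t)` of `k(t)` (`t = X` or `X⁻¹`) is divisible by `n` is `ψ ^ n * u` with `u`, `u⁻¹` integral over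
the local ring.
-/

set_option autoImplicit false
set_option linter.unusedSectionVars false

namespace Crest.Agent.R013.LemW623

open Polynomial WithZero
open Crest.Agent.R013.RR7_948 Crest.Agent.R013.RR8_948 Crest.Agent.R013.RR9_948
open Crest.Agent.R013.RR11_948 Crest.Agent.R013.RR12_948 Crest.Agent.R013.RR13_948

/-- The polynomial ring `k[t]` in a field is a Weierstrass ring. -/
theorem wr_poly {k E : Type*} [Field k] [Field E] [Algebra k E] {t : E}
    (ht : Transcendental k t) : Wr k (aeval t : k[X] →ₐ[k] E).range t where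
  t_mem := ⟨X, by simp⟩
  transc := ht
  weier := by
    rintro _ ⟨p, rfl⟩ _
    exact ⟨1, p, UnitIn.one, by simp⟩
  prime := by
    intro P hP
    right
    rintro f ⟨g, hg⟩
    refine ⟨g, aeval_injective' ht ?_⟩
    have hP0 := aeval_ne_zero' ht hP.ne_zero
    have hg' : aeval t g = aeval t f / aeval t P := hg
    rw [map_mul, hg', mul_div_cancel₀ _ hP0]

variable {k : Type*} [Field k]

section places

variable {W : Type*} [Field W] [Algebra k W] [Algebra (RatFunc k) W]
  [IsScalarTower k (RatFunc k) W] [FiniteDimensional (RatFunc k) W]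
  [Algebra.IsSeparable (RatFunc k) W]

/-- `t` generates `k(X)`. -/
def IsGen (t : RatFunc k) : Prop :=
  Transcendental k t ∧ ∀ f : RatFunc k, ∃ a b : k[X], b ≠ 0 ∧ f = aeval t a / aeval t b

theorem isGen_X : IsGen (RatFunc.X : RatFunc k) := by
  have h : ∀ p : k[X], aeval (RatFunc.X : RatFunc k) p = algebraMap k[X] (RatFunc k) p := by
    intro p
    rw [← RatFunc.algebraMap_X, aeval_algebraMap_apply, aeval_X_left_apply]
  refine ⟨?_, fun f => ⟨f.num, f.denom, f.denom_ne_zero, ?_⟩⟩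
  · rw [transcendental_iff]
    intro p hp
    rw [h] at hp
    exact (map_eq_zero_iff _ (RatFunc.algebraMap_injective k)).1 hp
  · rw [h, h, RatFunc.num_div_denom]

theorem isGen_X_inv : IsGen ((RatFunc.X : RatFunc k)⁻¹) := by
  obtain ⟨h1, h2⟩ := isGen_X (k := k)
  have hX : (RatFunc.X : RatFunc k) ≠ 0 := transc_ne h1
  refine ⟨?_, ?_⟩
  · intro hh
    have := hh.inv
    rw [inv_inv] at this
    exact h1 this
  · intro f
    obtain ⟨a, b, hb, rfl⟩ := h2 f
    obtain ⟨a', -, ea⟩ := poly_div_pow hX a (max a.natDegree b.natDegree) (le_max_left _ _)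
    obtain ⟨b', -, eb⟩ := poly_div_pow hX b (max a.natDegree b.natDegree) (le_max_right _ _)
    refine ⟨a', b', ?_, ?_⟩
    · rintro rfl
      rw [map_zero, div_eq_zero_iff] at eb
      rcases eb with h | h
      · exact aeval_ne_zero' h1 hb h
      · exact pow_ne_zero _ hX h
    · rw [← ea, ← eb, div_div_div_cancel_right₀ (pow_ne_zero _ hX)]

/-- The place `Q` lies over the prime `P(t)`. -/
def Over (t : RatFunc k) (P : k[X]) (Q : Pl k W) : Prop :=
  Q.v (algebraMap (RatFunc k) W (aeval t P)) < 1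

theorem over_finite {t : RatFunc k} (ht : IsGen t) {P : k[X]} (hP : P ≠ 0) :
    {Q : Pl k W | Over t P Q}.Finite := by
  have h1 : algebraMap (RatFunc k) W (aeval t P) ≠ 0 := by
    rw [Ne, map_eq_zero_iff _ (algebraMap (RatFunc k) W).injective]
    exact aeval_ne_zero' ht.1 hP
  refine (finite_ne_one (k := k) h1).subset ?_
  intro Q hQ
  exact ne_of_lt hQ

/-- The local ring of `k(X)` at `P(t)`. -/
def locS (t : RatFunc k) (P : k[X]) : Set (RatFunc k) :=
  OP (aeval t : k[X] →ₐ[k] RatFunc k).range t P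

theorem mem_locS {t : RatFunc k} {P : k[X]} {f : RatFunc k} :
    f ∈ locS t P ↔ ∃ a g : k[X], ¬ P ∣ g ∧ f = aeval t a / aeval t g := by
  constructor
  · rintro ⟨_, ⟨a, rfl⟩, g, hg, e⟩
    exact ⟨a, g, hg, e⟩
  · rintro ⟨a, g, hg, e⟩
    exact ⟨_, ⟨a, rfl⟩, g, hg, e⟩

theorem intE_of_places {t : RatFunc k} (ht : IsGen t) {P : k[X]} (hP : Irreducible P) (w : W)
    (hw : ∀ Q : Pl k W, Over t P Q → Q.v w ≤ 1) :
    IntE (F := RatFunc k) (E := RatFunc k) (locS t P) w := by
  set S : Subring (RatFunc k) := (wr_poly ht.1).locRing hP with hS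
  have hSmem : ∀ {f : RatFunc k}, f ∈ S ↔ f ∈ locS t P := Iff.rfl
  have hint : IsIntegral S w := by
    by_contra hcon
    set R : Subring W := (integralClosure S W).toSubring with hR
    have hwR : w ∉ R := hcon
    have hcl : IsIntegrallyClosedIn R W :=
      inferInstanceAs (IsIntegrallyClosedIn (integralClosure S W).toSubring W)
    obtain ⟨V, hRV, hwV⟩ := R.exists_le_valuationSubring_of_isIntegrallyClosedIn hwR
    have hSV : ∀ f ∈ locS t P, V.valuation (algebraMap (RatFunc k) W f) ≤ 1 := by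
      intro f hf
      rw [V.valuation_le_one_iff]
      refine hRV ?_
      exact (integralClosure S W).algebraMap_mem (⟨f, hf⟩ : S)
    have hconst : ∀ c : k, c ≠ 0 → V.valuation (algebraMap k W c) = 1 := by
      have h1 : ∀ c : k, V.valuation (algebraMap k W c) ≤ 1 := by
        intro c
        have h2 := hSV (algebraMap k (RatFunc k) c)
          (mem_locS.2 ⟨C c, 1, hP.prime.not_dvd_one, by simp⟩)
        rwa [← IsScalarTower.algebraMap_apply] at h2
      intro c hc
      refine le_antisymm (h1 c) ?_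
      have h3 := h1 c⁻¹
      rw [map_inv₀, map_inv₀] at h3
      have h4 : V.valuation (algebraMap k W c) ≠ 0 := by
        rw [Valuation.ne_zero_iff]; simpa using hc
      exact (inv_le_one₀ (zero_lt_iff.2 h4)).1 h3
    have hw1 : 1 < V.valuation w := by
      by_contra hle
      push Not at hle
      exact hwV ((V.valuation_le_one_iff w).1 hle)
    obtain ⟨Q, hQ⟩ := exists_place (k := k) V.valuation hconst ⟨w, by
      rw [Valuation.ne_zero_iff]
      rintro rfl
      rw [map_zero] at hw1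
      exact not_lt_zero hw1, hw1.ne'⟩
    have hQw : 1 < Q.v w := by
      have := hQ.lt_iff_lt (x := 1) (y := w)
      rw [map_one, map_one] at this
      exact this.2 hw1
    have hQS : ∀ f ∈ locS t P, Q.v (algebraMap (RatFunc k) W f) ≤ 1 := by
      intro f hf
      have := hQ.le_iff_le (x := algebraMap (RatFunc k) W f) (y := 1)
      rw [map_one, map_one] at this
      exact this.2 (hSV f hf)
    have hPS : aeval t P ∈ locS t P := mem_locS.2 ⟨P, 1, hP.prime.not_dvd_one, by simp⟩
    by_cases hQP : Q.v (algebraMap (RatFunc k) W (aeval t P)) < 1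
    · exact absurd (hw Q hQP) (not_le.2 hQw)
    · have hQP1 : Q.v (algebraMap (RatFunc k) W (aeval t P)) = 1 :=
        le_antisymm (hQS _ hPS) (not_lt.1 hQP)
      -- `Q` is trivial on `k(X)`
      have hpoly : ∀ g : k[X], g ≠ 0 → Q.v (algebraMap (RatFunc k) W (aeval t g)) = 1 := by
        intro g hg
        obtain ⟨g', e, hg'⟩ := (FiniteMultiplicity.of_not_isUnit hP.not_isUnit
          hg).exists_eq_pow_mul_and_not_dvd
        have h1 := hQS (aeval t g') (mem_locS.2 ⟨g', 1, hP.prime.not_dvd_one, by simp⟩)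
        have h2 := hQS (aeval t g')⁻¹ (mem_locS.2 ⟨1, g', hg', by simp⟩)
        rw [map_inv₀, map_inv₀] at h2
        have hne : Q.v (algebraMap (RatFunc k) W (aeval t g')) ≠ 0 := by
          rw [Valuation.ne_zero_iff, Ne, map_eq_zero_iff _ (algebraMap (RatFunc k) W).injective]
          exact aeval_ne_zero' ht.1 (ne_zero_of_not_dvd hg')
        have h3 := (inv_le_one₀ (zero_lt_iff.2 hne)).1 h2
        rw [e, map_mul, map_mul, map_mul, map_pow, map_pow, map_pow, hQP1, one_pow, one_mul]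
        exact le_antisymm h1 h3
      have htriv : ∀ f : RatFunc k, Q.v (algebraMap (RatFunc k) W f) ≤ 1 := by
        intro f
        obtain ⟨a, b, hb, rfl⟩ := ht.2 f
        by_cases ha : a = 0
        · simp [ha]
        · rw [map_div₀, map_div₀, hpoly a ha, hpoly b hb, div_one]
      have : Q.v w ≤ 1 := le_one_of_integral Q.v htriv (Algebra.IsIntegral.isIntegral w)
      exact absurd this (not_le.2 hQw)
  obtain ⟨q, hq, hq0⟩ := hint
  refine ⟨q.map S.subtype, hq.map _, ?_, ?_⟩
  · intro i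
    rw [coeff_map]
    exact (q.coeff i).2
  · have h1 : algebraMap S W = (algebraMap (RatFunc k) W).comp S.subtype := rfl
    rw [h1, ← eval₂_map] at hq0
    exact hq0

/-- Local `n`-th powers from divisibility of the orders. -/
theorem locPow_of_places {t : RatFunc k} (ht : IsGen t) {P : k[X]} (hP : Irreducible P) {n : ℕ}
    {φ : W} (hφ : φ ≠ 0) (hd : ∀ Q : Pl k W, Over t P Q → (n : ℤ) ∣ divf (k := k) φ Q) :
    ∃ ψ u : W, ψ ≠ 0 ∧ u ≠ 0 ∧ φ = ψ ^ n * u ∧
      IntE (F := RatFunc k) (E := RatFunc k) (locS t P) u ∧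
      IntE (F := RatFunc k) (E := RatFunc k) (locS t P) u⁻¹ := by
  classical
  have hfin := over_finite (W := W) ht hP.ne_zero
  obtain ⟨ψ, hψ0, hψ⟩ := exists_prescribed (k := k) hfin.toFinset
    (fun Q => -(divf (k := k) φ Q / n))
  have hu : ∀ Q : Pl k W, Over t P Q → Q.v (φ / ψ ^ n) = 1 := by
    intro Q hQ
    rw [map_div₀, map_pow, hψ Q (hfin.mem_toFinset.2 hQ), v_eq (k := k) hφ, ← exp_nsmul,
      ← exp_sub]
    rw [← exp_zero, exp_inj]
    have h1 := Int.ediv_mul_cancel (hd Q hQ)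
    simp only [nsmul_eq_mul]
    linarith
  have hu0 : φ / ψ ^ n ≠ 0 := div_ne_zero hφ (pow_ne_zero _ hψ0)
  refine ⟨ψ, φ / ψ ^ n, hψ0, hu0, ?_, ?_, ?_⟩
  · rw [mul_div_cancel₀ _ (pow_ne_zero _ hψ0)]
  · exact intE_of_places ht hP _ fun Q hQ => (hu Q hQ).le
  · refine intE_of_places ht hP _ fun Q hQ => ?_
    rw [map_inv₀, hu Q hQ, inv_one]

end places

end Crest.Agent.R013.LemW623
end

-- ▼ part R013/LemW9_623
section

/-!
# The slope congruence in terms of divisors (row 13, leaf LEMW, part 9)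
-/

set_option autoImplicit false
set_option linter.unusedSectionVars false

namespace Crest.Agent.R013.LemW623

open Polynomial WithZero
open Crest.Agent.R013.RR7_948 Crest.Agent.R013.RR8_948 Crest.Agent.R013.RR9_948
open Crest.Agent.R013.RR11_948 Crest.Agent.R013.RR12_948 Crest.Agent.R013.RR13_948
open Crest.Agent.R013.RR18_948 Crest.Agent.R013.RR22_948

variable {k : Type*} [Field k] {E : Type*} [Field E] [Algebra k E] [Algebra (RatFunc k) E]
  [IsScalarTower k (RatFunc k) E]

theorem IntE.of_subset {B : Type*} [CommRing B] [Algebra (RatFunc k) B] {S : Set (RatFunc k)}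
    {T : Set E} (h : ∀ f ∈ S, algebraMap (RatFunc k) E f ∈ T) {w : B}
    (hw : IntE (F := RatFunc k) (E := RatFunc k) S w) : IntE (F := RatFunc k) (E := E) T w := by
  obtain ⟨q, hq, hc, e⟩ := hw
  exact ⟨q, hq, fun i => h _ (hc i), e⟩

theorem algMap_aeval (t : RatFunc k) (p : k[X]) :
    algebraMap (RatFunc k) E (aeval t p) = aeval (algebraMap (RatFunc k) E t) p := by
  rw [aeval_algebraMap_apply]

theorem locS_to_OP {A : Subalgebra k E} {t : RatFunc k} {y : E}
    (hty : algebraMap (RatFunc k) E t = y) (hA : ∀ p : k[X], aeval y p ∈ A) {P : k[X]} :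
    ∀ f ∈ locS t P, algebraMap (RatFunc k) E f ∈ OP A y P := by
  intro f hf
  obtain ⟨a, g, hg, rfl⟩ := mem_locS.1 hf
  refine ⟨aeval y a, hA a, g, hg, ?_⟩
  rw [map_div₀, algMap_aeval, algMap_aeval, hty]

/-! ### the place at infinity of `k(X)` -/

section inf

/-- the order at infinity computed by `IsV`. -/
theorem isV_of_pl {A' : Subalgebra k E} {z : E} (hw : Wr k A' z)
    {t : RatFunc k} (ht : IsGen t) (htz : algebraMap (RatFunc k) E t = z)
    (Q : Pl k (RatFunc k)) (hQ : Q.v t < 1) {f : RatFunc k} (hf : f ≠ 0) :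
    IsV A' z X (algebraMap (RatFunc k) E f) (divf (k := k) f Q) := by
  have hX : Irreducible (X : k[X]) := irreducible_X
  have ht0 : t ≠ 0 := transc_ne ht.1
  have hQt0 : Q.v t ≠ 0 := by rw [Valuation.ne_zero_iff]; exact ht0
  -- value of a polynomial with nonzero constant term
  have hconst : ∀ c : k, Q.v (algebraMap k (RatFunc k) c) ≤ 1 := by
    intro c
    by_cases hc : c = 0
    · simp [hc]
    · rw [Q.const c hc]
  have hle : ∀ p : k[X], Q.v (aeval t p) ≤ 1 := by
    intro p
    rw [aeval_eq_sum_range]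
    refine Valuation.map_sum_le _ fun i _ => ?_
    rw [Algebra.smul_def, map_mul, map_pow]
    exact mul_le_one' (hconst _) (pow_le_one' hQ.le i)
  have hunit : ∀ p : k[X], ¬ (X : k[X]) ∣ p → Q.v (aeval t p) = 1 := by
    intro p hp
    have hp0 : p.coeff 0 ≠ 0 := fun h0 => hp (X_dvd_iff.2 h0)
    have e : aeval t p = t * aeval t (divX p) + algebraMap k (RatFunc k) (p.coeff 0) := by
      conv_lhs => rw [← divX_mul_X_add p]
      rw [map_add, map_mul, aeval_X, aeval_C, mul_comm]
    have h1 : Q.v (t * aeval t (divX p)) < Q.v (algebraMap k (RatFunc k) (p.coeff 0)) := by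
      rw [Q.const _ hp0, map_mul]
      calc Q.v t * Q.v (aeval t (divX p)) ≤ Q.v t * 1 := mul_le_mul_right (hle _) _
        _ = Q.v t := mul_one _
        _ < 1 := hQ
    rw [e, Valuation.map_add_eq_of_lt_right _ h1, Q.const _ hp0]
  -- normal form
  have hnf : ∀ f : RatFunc k, f ≠ 0 → ∃ (m : ℤ) (a b : k[X]), ¬ (X : k[X]) ∣ a ∧
      ¬ (X : k[X]) ∣ b ∧ f = t ^ m * (aeval t a / aeval t b) := by
    intro f hf
    obtain ⟨a, b, hb, rfl⟩ := ht.2 f
    have ha : a ≠ 0 := by rintro rfl; simp at hf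
    obtain ⟨a', e1, ha'⟩ := (FiniteMultiplicity.of_not_isUnit hX.not_isUnit
      ha).exists_eq_pow_mul_and_not_dvd
    obtain ⟨b', e2, hb'⟩ := (FiniteMultiplicity.of_not_isUnit hX.not_isUnit
      hb).exists_eq_pow_mul_and_not_dvd
    refine ⟨(multiplicity X a : ℤ) - multiplicity X b, a', b', ha', hb', ?_⟩
    conv_lhs => rw [e1, e2]
    rw [map_mul, map_mul, map_pow, map_pow, aeval_X, zpow_sub₀ ht0, zpow_natCast, zpow_natCast]
    have := aeval_ne_zero' ht.1 (ne_zero_of_not_dvd hb')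
    field_simp
  have hval : ∀ (m : ℤ) (a b : k[X]), ¬ (X : k[X]) ∣ a → ¬ (X : k[X]) ∣ b →
      Q.v (t ^ m * (aeval t a / aeval t b)) = Q.v t ^ m := by
    intro m a b ha hb
    rw [map_mul, map_zpow₀, map_div₀, hunit a ha, hunit b hb, div_one, mul_one]
  -- `Q.v t = exp (-1)`
  have hQt : Q.v t = exp (-1) := by
    obtain ⟨g, hg⟩ := Q.surj (exp (-1))
    have hg0 : g ≠ 0 := by rintro rfl; rw [map_zero] at hg; exact exp_ne_zero hg.symm
    obtain ⟨m, a, b, ha, hb, rfl⟩ := hnf g hg0
    rw [hval m a b ha hb] at hg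
    obtain ⟨j, hj⟩ : ∃ j : ℤ, Q.v t = exp j := ⟨log (Q.v t), (exp_log hQt0).symm⟩
    rw [hj, ← exp_zsmul, exp_inj] at hg
    rw [hj, ← exp_zero, exp_lt_exp] at hQ
    rw [hj, exp_inj]
    rw [smul_eq_mul] at hg
    have h2 : j ∣ -1 := ⟨m, by rw [mul_comm]; exact hg.symm⟩
    rcases Int.isUnit_iff.1 (isUnit_of_dvd_unit h2 (by decide)) with h3 | h3 <;> omega
  obtain ⟨m, a, b, ha, hb, rfl⟩ := hnf f hf
  have h3 := hval m a b ha hb
  rw [v_eq (k := k) hf, hQt, ← exp_zsmul, exp_inj] at h3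
  have h4 : divf (k := k) (t ^ m * (aeval t a / aeval t b)) Q = m := by
    rw [smul_eq_mul] at h3; linarith
  rw [h4]
  refine ⟨1, a, b, UnitIn.one, ha, hb, ?_⟩
  rw [map_mul, map_zpow₀, map_div₀, algMap_aeval, algMap_aeval, htz, aeval_X, one_mul]

end inf

namespace Bk

variable {A A' : Subalgebra k E} {y : E} (h : Bk k A A' y)
variable {W : Type*} [Field W] [Algebra k W] [Algebra (RatFunc k) W]
  [IsScalarTower k (RatFunc k) W] [FiniteDimensional (RatFunc k) W]
  [Algebra.IsSeparable (RatFunc k) W]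

include h

/-- **The slope congruence in terms of divisors.** -/
theorem slope_div {n : ℕ} (hn : 0 < n) (hyX : algebraMap (RatFunc k) E RatFunc.X = y)
    {V : Type*} [CommRing V] [Algebra E V] [Module.Finite E V] [Algebra (RatFunc k) V]
    [IsScalarTower (RatFunc k) E V]
    (σ : W →ₐ[RatFunc k] W) (α β : W →ₐ[RatFunc k] V) (ι : V →+* E)
    (hrel : ∀ w, Algebra.norm E (α w) * ι (β w) = Algebra.norm E (β w) * ι (β (σ w)))
    (hα : ∀ w, Algebra.norm E (α w) ∈ Fr A' y⁻¹) (hβ : ∀ w, Algebra.norm E (β w) ∈ Fr A y)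
    (φ θ : W) (hφ : φ ≠ 0) (hθ : θ ≠ 0)
    (hd : ∀ Q : Pl k W, ¬ Over (RatFunc.X)⁻¹ X Q → (n : ℤ) ∣ divf (k := k) φ Q)
    (hd' : ∀ Q : Pl k W, Over (RatFunc.X)⁻¹ X Q →
      (n : ℤ) ∣ divf (k := k) φ Q + divf (k := k) (σ θ) Q - divf (k := k) θ Q)
    (hN : ∏ i ∈ Finset.range n, Algebra.norm E (α ((σ ^ i) θ)) =
      algebraMap (RatFunc k) E (Algebra.norm (RatFunc k) θ))
    (Q0 : Pl k (RatFunc k)) (hQ0 : Q0.v (RatFunc.X)⁻¹ < 1) :
    (n : ℤ) ∣ h.ord (∏ i ∈ Finset.range n, ι (β ((σ ^ i) φ))) -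
      divf (k := k) (Algebra.norm (RatFunc k) θ) Q0 := by
  have hyi : algebraMap (RatFunc k) E (RatFunc.X)⁻¹ = y⁻¹ := by rw [map_inv₀, hyX]
  have hNθ : Algebra.norm (RatFunc k) θ ≠ 0 := Algebra.norm_ne_zero_iff.mpr hθ
  -- a prime different from `X` in the variable `1/X` and a place over it
  have hsep : ∀ (t : RatFunc k) (P P' : k[X]) (Q : Pl k W), IsGen t → Q.v (algebraMap _ W t) ≤ 1 →
      IsCoprime P P' → Over t P Q → ¬ Over t P' Q := by
    intro t P P' Q ht hQt hco h1 h2
    obtain ⟨a, b, hab⟩ := hco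
    have hle : ∀ p : k[X], Q.v (algebraMap (RatFunc k) W (aeval t p)) ≤ 1 := by
      intro p
      rw [algMap_aeval (E := W), aeval_eq_sum_range]
      refine Valuation.map_sum_le _ fun i _ => ?_
      rw [Algebra.smul_def, map_mul, map_pow]
      refine mul_le_one' ?_ (pow_le_one' hQt i)
      by_cases hc : p.coeff i = 0
      · simp [hc]
      · rw [Q.const _ hc]
    have h3 : Q.v (algebraMap (RatFunc k) W (aeval t (a * P + b * P'))) < 1 := by
      rw [map_add, map_add, map_mul, map_mul, map_mul, map_mul]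
      refine (Valuation.map_add _ _ _).trans_lt (max_lt ?_ ?_)
      · rw [map_mul]
        exact (mul_le_mul_left (hle a) _).trans_lt (by rw [one_mul]; exact h1)
      · rw [map_mul]
        exact (mul_le_mul_left (hle b) _).trans_lt (by rw [one_mul]; exact h2)
    rw [hab, map_one, map_one, map_one] at h3
    exact lt_irrefl _ h3
  -- `Over t P Q` implies `Q.v t ≤ 1`
  have hbd : ∀ (t : RatFunc k) (P : k[X]) (Q : Pl k W), IsGen t → Irreducible P → Over t P Q →
      Q.v (algebraMap _ W t) ≤ 1 := by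
    intro t P Q ht hP hO
    by_contra hgt
    push Not at hgt
    -- leading term dominates
    have h1 : Q.v (algebraMap (RatFunc k) W (aeval t P)) =
        Q.v (algebraMap (RatFunc k) W t) ^ P.natDegree := by
      rw [algMap_aeval (E := W), aeval_eq_sum_range, Finset.sum_range_succ]
      have hlc : Q.v (P.coeff P.natDegree • algebraMap (RatFunc k) W t ^ P.natDegree) =
          Q.v (algebraMap (RatFunc k) W t) ^ P.natDegree := by
        rw [Algebra.smul_def, map_mul, map_pow, Q.const _ (by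
          rw [coeff_natDegree, Ne, leadingCoeff_eq_zero]; exact hP.ne_zero), one_mul]
      rw [Valuation.map_add_eq_of_lt_right, hlc]
      rw [hlc]
      refine Valuation.map_sum_lt _ (pow_ne_zero _ (ne_of_gt (lt_trans zero_lt_one hgt))) fun i hi => ?_
      rw [Finset.mem_range] at hi
      rw [Algebra.smul_def, map_mul, map_pow]
      refine lt_of_le_of_lt (b := Q.v (algebraMap (RatFunc k) W t) ^ i) ?_
        (pow_lt_pow_right₀ hgt hi)
      by_cases hc : P.coeff i = 0
      · simp [hc]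
      · rw [Q.const _ hc, one_mul]
    have h2 : (1 : ℤᵐ⁰) ≤ Q.v (algebraMap (RatFunc k) W (aeval t P)) := by
      rw [h1]; exact one_le_pow₀ hgt.le
    exact absurd hO (not_lt.2 h2)
  refine h.slope_normV (F := RatFunc k) hn σ α β ι hrel hα hβ φ θ hφ hθ ?_ ?_ ?_ _ ?_
  · intro P hP
    obtain ⟨ψ, u, -, -, e, h1, h2⟩ := locPow_of_places (W := W) isGen_X hP.irr (n := n) hφ (by
      intro Q hQ
      refine hd Q fun hO => ?_
      have hQ1 := hbd _ P Q isGen_X hP.irr hQ
      have hO' : Q.v (algebraMap (RatFunc k) W (RatFunc.X)⁻¹) < 1 := by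
        have := hO
        rw [Over, aeval_X] at this
        exact this
      rw [map_inv₀, map_inv₀] at hO'
      have hX0 : Q.v (algebraMap (RatFunc k) W RatFunc.X) ≠ 0 := by
        rw [Valuation.ne_zero_iff, Ne, map_eq_zero_iff _ (algebraMap (RatFunc k) W).injective]
        exact transc_ne isGen_X.1
      have := (inv_lt_one₀ (zero_lt_iff.2 hX0)).1 hO'
      exact absurd hQ1 (not_le.2 this))
    exact ⟨ψ, u, e, h1.of_subset (locS_to_OP hyX h.aeval_mem),
      h2.of_subset (locS_to_OP hyX h.aeval_mem)⟩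
  · intro P hP hXP
    obtain ⟨ψ, u, -, -, e, h1, h2⟩ := locPow_of_places (W := W) isGen_X_inv hP.irr (n := n) hφ (by
      intro Q hQ
      refine hd Q fun hO => ?_
      have hQ1 := hbd _ P Q isGen_X_inv hP.irr hQ
      have hco : IsCoprime (X : k[X]) P := (irreducible_X.coprime_iff_not_dvd).2 hXP
      exact hsep _ X P Q isGen_X_inv hQ1 hco hO hQ)
    exact ⟨ψ, u, e, h1.of_subset (locS_to_OP hyi h.symm.aeval_mem),
      h2.of_subset (locS_to_OP hyi h.symm.aeval_mem)⟩
  · have hσθ : σ θ ≠ 0 := (map_ne_zero σ).2 hθ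
    obtain ⟨ψ, u, -, -, e, h1, h2⟩ := locPow_of_places (W := W) isGen_X_inv
      (irreducible_X : Irreducible (X : k[X])) (n := n) (φ := φ * σ θ * θ⁻¹)
      (mul_ne_zero (mul_ne_zero hφ hσθ) (inv_ne_zero hθ)) (by
        intro Q hQ
        have e1 : divf (k := k) (φ * σ θ * θ⁻¹) Q =
            divf (k := k) φ Q + divf (k := k) (σ θ) Q - divf (k := k) θ Q := by
          rw [divf_mul (mul_ne_zero hφ hσθ) (inv_ne_zero hθ), divf_mul hφ hσθ, divf_inv hθ]
          simp only [Finsupp.add_apply, Finsupp.neg_apply]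
          ring
        rw [e1]
        exact hd' Q hQ)
    refine ⟨ψ, u, ?_, h1.of_subset (locS_to_OP hyi h.symm.aeval_mem),
      h2.of_subset (locS_to_OP hyi h.symm.aeval_mem)⟩
    rw [← e, mul_assoc, inv_mul_cancel₀ hθ, mul_one]
  · rw [hN]
    exact isV_of_pl h.wr' isGen_X_inv hyi Q0 hQ0 hNθ

end Bk

end Crest.Agent.R013.LemW623
end

-- ▼ part R013/LemW10_623
section

/-!
# A function of slope one (row 13, leaf LEMW, part 10)

Over an algebraically closed field of constants, with divisible `Pic⁰ W`: there is `h : U` with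
`div h ∈ n Div U` and `ord (ι h) ≡ 1` modulo `n`.
-/

set_option autoImplicit false
set_option linter.unusedSectionVars false

namespace Crest.Agent.R013.LemW623

open Polynomial WithZero
open Crest.Agent.R013.RR7_948 Crest.Agent.R013.RR8_948 Crest.Agent.R013.RR9_948
open Crest.Agent.R013.RR11_948 Crest.Agent.R013.RR12_948 Crest.Agent.R013.RR13_948
open Crest.Agent.R013.RR18_948 Crest.Agent.R013.RR20_948 Crest.Agent.R013.RR21_948
open Crest.Agent.R013.RR22_948

/-- `Pic⁰` is divisible. -/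
def DivPic (k W : Type*) [Field k] [Field W] [Algebra k W] [Algebra (RatFunc k) W]
    [IsScalarTower k (RatFunc k) W] [FiniteDimensional (RatFunc k) W]
    [Algebra.IsSeparable (RatFunc k) W] : Prop :=
  ∀ (D : Pl k W →₀ ℤ), degD D = 0 → ∀ n : ℕ, 0 < n →
    ∃ (E : Pl k W →₀ ℤ) (f : W), f ≠ 0 ∧ D = (n : ℤ) • E + divf (k := k) f

variable {k : Type*} [Field k] [IsAlgClosed k] {E : Type*} [Field E] [Algebra k E]
  [Algebra (RatFunc k) E] [IsScalarTower k (RatFunc k) E]

section

variable {W : Type*} [Field W] [Algebra k W] [Algebra (RatFunc k) W]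
  [IsScalarTower k (RatFunc k) W] [FiniteDimensional (RatFunc k) W]
  [Algebra.IsSeparable (RatFunc k) W]

omit [IsAlgClosed k] in
theorem over_iff_under (Q : Pl k W) :
    Over (RatFunc.X)⁻¹ X Q ↔ under (RatFunc k) Q = pinf k := by
  have h0 : Over (RatFunc.X)⁻¹ X Q ↔ (under (RatFunc k) Q).v (RatFunc.X)⁻¹ < 1 := by
    rw [under_lt_one_iff, Over, aeval_X]
  rw [h0]
  constructor
  · intro h
    have hX : (RatFunc.X : RatFunc k) ≠ 0 := RatFunc.X_ne_zero
    have h1 : 1 < (under (RatFunc k) Q).v RatFunc.X := by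
      rw [map_inv₀] at h
      have hne : (under (RatFunc k) Q).v RatFunc.X ≠ 0 := by
        rw [Valuation.ne_zero_iff]; exact hX
      exact (inv_lt_one₀ (zero_lt_iff.2 hne)).1 h
    have h2 := isEquiv_vinf (under (RatFunc k) Q).v (under (RatFunc k) Q).const h1
    exact Pl.ext (eq_of_isEquiv_surj h2 (under (RatFunc k) Q).surj (pinf k).surj)
  · intro h
    rw [h, map_inv₀, pinf_v, RR2_948.vinf_X, ← exp_neg, ← exp_zero, exp_lt_exp]
    norm_num

end

namespace Bk

variable {A A' : Subalgebra k E} {y : E} (h : Bk k A A' y)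
variable {W U : Type*} [Field W] [Algebra k W] [Algebra (RatFunc k) W]
  [IsScalarTower k (RatFunc k) W] [FiniteDimensional (RatFunc k) W]
  [Algebra.IsSeparable (RatFunc k) W]
  [Field U] [Algebra k U] [Algebra (RatFunc k) U] [IsScalarTower k (RatFunc k) U]
  [FiniteDimensional (RatFunc k) U] [Algebra.IsSeparable (RatFunc k) U]
  [Algebra U W] [IsScalarTower k U W] [IsScalarTower (RatFunc k) U W] [FiniteDimensional U W]
  [Algebra.IsSeparable U W]

include h

/-- **A function of slope one.** -/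
theorem exists_slope_one {n : ℕ} (hn : 0 < n) (hyX : algebraMap (RatFunc k) E RatFunc.X = y)
    {V : Type*} [CommRing V] [Algebra E V] [Module.Finite E V] [Algebra (RatFunc k) V]
    [IsScalarTower (RatFunc k) E V]
    (σ : W ≃ₐ[U] W) (α β : W →ₐ[RatFunc k] V) (ι : V →+* E)
    (hrel : ∀ w, Algebra.norm E (α w) * ι (β w) = Algebra.norm E (β w) * ι (β (σ w)))
    (hα : ∀ w, Algebra.norm E (α w) ∈ Fr A' y⁻¹) (hβ : ∀ w, Algebra.norm E (β w) ∈ Fr A y)
    (hσ : ∀ w : W, algebraMap U W (Algebra.norm U w) = ∏ i ∈ Finset.range n, (σ ^ i) w)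
    (hU : ∀ u : U, Algebra.norm E (α (algebraMap U W u)) =
      algebraMap (RatFunc k) E (Algebra.norm (RatFunc k) u))
    (hDIV : DivPic k W) :
    ∃ f : U, f ≠ 0 ∧ (∀ P : Pl k U, (n : ℤ) ∣ divf (k := k) f P) ∧
      (n : ℤ) ∣ h.ord (ι (β (algebraMap U W f))) - 1 := by
  classical
  -- a place over infinity
  obtain ⟨Q₀, hQ₀⟩ := above_nonempty (L := W) (pinf k)
  rw [mem_above] at hQ₀
  set s : W ≃ₐ[k] W := σ.restrictScalars k with hs
  set Q₁ : Pl k W := mapPl s Q₀ with hQ₁
  have hsapp : ∀ w, s w = σ w := fun w => rfl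
  -- θ
  obtain ⟨θ, hθ, hθv⟩ := exists_prescribed (k := k) (above W (pinf k))
    (fun Q => if Q = Q₀ then -1 else 0)
  have hθd : ∀ Q, under (RatFunc k) Q = pinf k →
      divf (k := k) θ Q = if Q = Q₀ then 1 else 0 := by
    intro Q hQ
    have h1 := hθv Q (mem_above.2 hQ)
    rw [v_eq (k := k) hθ, exp_inj] at h1
    split_ifs at h1 ⊢ <;> omega
  -- places over infinity are stable
  have hst : ∀ Q : Pl k W, under (RatFunc k) Q = pinf k →
      under (RatFunc k) (mapPl s.symm Q) = pinf k := by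
    intro Q hQ
    have h1 : Q = mapPl s (mapPl s.symm Q) := by simp
    have h2 := under_mapPl (k := k) (K := RatFunc k) (L := W) (L' := W)
      (σ.symm.restrictScalars (RatFunc k)) Q
    rw [← hQ]
    exact h2
  have hσθd : ∀ Q : Pl k W, under (RatFunc k) Q = pinf k →
      divf (k := k) (σ θ) Q = if Q = Q₁ then 1 else 0 := by
    intro Q hQ
    have h1 : divf (k := k) (s θ) Q = divf (k := k) θ (mapPl s.symm Q) := by
      rw [divf_map]; rfl
    rw [← hsapp, h1, hθd _ (hst Q hQ)]
    congr 1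
    rw [eq_iff_iff]
    constructor
    · intro h2
      rw [hQ₁, ← h2]; simp
    · intro h2
      rw [h2, hQ₁]; simp
  -- the divisor
  set D : Pl k W →₀ ℤ := Finsupp.single Q₀ 1 - Finsupp.single Q₁ 1 with hD
  have hdeg : degD D = 0 := by
    rw [hD, degD_sub, degD_single, degD_single, hQ₁, degP_mapPl]; ring
  obtain ⟨Ed, φ, hφ, hDE⟩ := hDIV D hdeg n hn
  have hφd : ∀ Q, divf (k := k) φ Q = D Q - n * Ed Q := by
    intro Q
    rw [hDE, Finsupp.add_apply, Finsupp.smul_apply, smul_eq_mul]; ring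
  have hQ₁u : under (RatFunc k) Q₁ = pinf k := by
    have h2 := under_mapPl (k := k) (K := RatFunc k) (L := W) (L' := W)
      (σ.restrictScalars (RatFunc k)) Q₀
    rw [← hQ₀]
    exact h2
  have hDap : ∀ Q, D Q = (if Q = Q₀ then 1 else 0) - (if Q = Q₁ then 1 else 0) := by
    intro Q
    rw [hD, Finsupp.sub_apply, Finsupp.single_apply, Finsupp.single_apply]
    simp only [eq_comm]
  have hd : ∀ Q : Pl k W, ¬ Over (RatFunc.X)⁻¹ X Q → (n : ℤ) ∣ divf (k := k) φ Q := by
    intro Q hQ
    rw [over_iff_under] at hQ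
    have h1 : Q ≠ Q₀ := by rintro rfl; exact hQ hQ₀
    have h2 : Q ≠ Q₁ := by rintro rfl; exact hQ hQ₁u
    rw [hφd, hDap, if_neg h1, if_neg h2]
    simp
  have hd' : ∀ Q : Pl k W, Over (RatFunc.X)⁻¹ X Q →
      (n : ℤ) ∣ divf (k := k) φ Q + divf (k := k) (σ θ) Q - divf (k := k) θ Q := by
    intro Q hQ
    rw [over_iff_under] at hQ
    rw [hφd, hDap, hσθd Q hQ, hθd Q hQ]
    refine ⟨-Ed Q, ?_⟩
    ring
  have hσpow : ∀ (i : ℕ) (w : W),
      ((((σ : W →ₐ[U] W).restrictScalars (RatFunc k)) ^ i) w) = (σ ^ i) w := by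
    intro i
    induction i with
    | zero => intro w; rfl
    | succ i ih =>
      intro w
      rw [pow_succ, pow_succ]
      exact ih (σ w)
  have hσθ : ∏ i ∈ Finset.range n, Algebra.norm E
      (α ((((σ : W →ₐ[U] W).restrictScalars (RatFunc k)) ^ i) θ)) =
      algebraMap (RatFunc k) E (Algebra.norm (RatFunc k) θ) := by
    rw [← map_prod, ← map_prod]
    simp only [hσpow]
    rw [← hσ, hU, Algebra.norm_norm]
  have key := h.slope_div hn hyX ((σ : W →ₐ[U] W).restrictScalars (RatFunc k)) α β ι hrel hα hβ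
    φ θ hφ hθ hd hd' hσθ (pinf k) (by
      rw [map_inv₀, pinf_v, RR2_948.vinf_X, ← exp_neg, ← exp_zero, exp_lt_exp]; norm_num)
  -- the order of the norm of θ
  have hNθ : divf (k := k) (Algebra.norm (RatFunc k) θ) (pinf k) = 1 := by
    rw [divf_norm_of_degP (k := k) hθ (pinf k) (by
      intro Q _
      rw [degP_pinf, CE5_280.degP_eq_one])]
    rw [Finset.sum_congr rfl fun Q hQ => hθd Q (mem_above.1 hQ)]
    rw [Finset.sum_ite_eq', if_pos (mem_above.2 hQ₀)]
  rw [hNθ] at key
  refine ⟨Algebra.norm U φ, Algebra.norm_ne_zero_iff.mpr hφ, ?_, ?_⟩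
  · intro P
    rw [divf_norm_of_degP (k := k) hφ P (by
      intro Q _
      rw [CE5_280.degP_eq_one, CE5_280.degP_eq_one])]
    rw [Finset.sum_congr rfl fun Q _ => hφd Q, Finset.sum_sub_distrib]
    refine dvd_sub ?_ ?_
    · -- the two points lie over the same place
      have hu : under U Q₁ = under U Q₀ := by
        have h2 := under_mapPl (k := k) (K := U) (L := W) (L' := W) σ Q₀
        exact h2
      rw [Finset.sum_congr rfl fun Q _ => hDap Q, Finset.sum_sub_distrib, Finset.sum_ite_eq',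
        Finset.sum_ite_eq']
      have h3 : (Q₀ ∈ above W P) ↔ (Q₁ ∈ above W P) := by rw [mem_above, mem_above, hu]
      by_cases h4 : Q₀ ∈ above W P
      · rw [if_pos h4, if_pos (h3.1 h4), sub_self]; exact dvd_zero _
      · rw [if_neg h4, if_neg (fun h5 => h4 (h3.2 h5)), sub_self]; exact dvd_zero _
    · exact Finset.dvd_sum fun Q _ => dvd_mul_right _ _
  · have e : ∏ i ∈ Finset.range n,
        ι (β ((((σ : W →ₐ[U] W).restrictScalars (RatFunc k)) ^ i) φ)) =
        ι (β (algebraMap U W (Algebra.norm U φ))) := by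
      rw [hσ, map_prod, map_prod]
      simp only [hσpow]
    rw [e] at key
    exact key

end Bk

end Crest.Agent.R013.LemW623
end

-- ▼ part R013/LemC6_623
section

/-!
# Constant extensions of the cut cover (row 13, leaf LEMW / B-ANN, part 6): `V' = E' ⊗ V`
-/

set_option autoImplicit false
set_option linter.unusedSectionVars false
set_option linter.style.haveILetI false

namespace Crest.Agent.R013.LemC623

open Module Polynomial Crest.Agent.R013.Desc_372 Crest.Agent.R013.Desc_372.CE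
open Crest.Agent.R013.LemW623 Crest.Agent.R013.RR8_948
open scoped TensorProduct

section V

variable {k κ E E' V : Type*} [Field k] [Field κ] [Algebra k κ] [Field E] [Field E'] [Algebra k E]
  [Algebra κ E'] [Algebra E E'] [Algebra k E'] [IsScalarTower k κ E'] [IsScalarTower k E E']
  [CommRing V] [Algebra E V]

/-- `V → V'` -/
noncomputable def inV (E' : Type*) [Field E'] [Algebra E E'] : V →+* E' ⊗[E] V :=
  (Algebra.TensorProduct.includeRight : V →ₐ[E] E' ⊗[E] V).toRingHom

theorem inV_apply (v : V) : inV (E := E) E' v = 1 ⊗ₜ v := rfl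

theorem inV_algebraMap (z : E) : inV (E := E) (V := V) E' (algebraMap E V z) =
    algebraMap E' (E' ⊗[E] V) (algebraMap E E' z) := by
  rw [inV_apply, Algebra.algebraMap_eq_smul_one, TensorProduct.tmul_smul,
    TensorProduct.smul_tmul', Algebra.TensorProduct.algebraMap_apply, Algebra.smul_def, mul_one]
  rfl

section W

variable {W W' : Type*} [Field W] [Field W'] [Algebra k W] [Algebra κ W'] [Algebra W W']
  [Algebra k W'] [IsScalarTower k κ W'] [IsScalarTower k W W'] [CE k κ W W']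

variable (κ E' W') in
/-- the extension of `α : W → V` to `W' → V'` -/
theorem exists_ext (α : W →+* V)
    (hα : ∀ c : k, α (algebraMap k W c) = algebraMap E V (algebraMap k E c)) :
    ∃ α' : W' →+* E' ⊗[E] V, (∀ w, α' (algebraMap W W' w) = inV E' (α w)) ∧
      ∀ c, α' (algebraMap κ W' c) = algebraMap E' (E' ⊗[E] V) (algebraMap κ E' c) := by
  refine CE_exists_lift k κ W W' ((inV (E := E) E').comp α)
    ((algebraMap E' (E' ⊗[E] V)).comp (algebraMap κ E')) fun c => ?_
  rw [RingHom.comp_apply, RingHom.comp_apply, hα, inV_algebraMap,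
    ← IsScalarTower.algebraMap_apply k E E', ← IsScalarTower.algebraMap_apply k κ E']

variable (k) in
include k in
/-- linear combinations -/
theorem ext_induction {M : Type*} [AddCommGroup M] (φ ψ : W' →+ M)
    (h : ∀ (c : κ) (w : W), φ (algebraMap κ W' c * algebraMap W W' w) =
      ψ (algebraMap κ W' c * algebraMap W W' w)) (w' : W') : φ w' = ψ w' := by
  obtain ⟨n, c, g, rfl⟩ := exists_sum k κ W W' w'
  rw [map_sum, map_sum]
  exact Finset.sum_congr rfl fun i _ => h _ _

variable {α' : W' →+* E' ⊗[E] V} {α : W →+* V}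
  (h1 : ∀ w, α' (algebraMap W W' w) = inV E' (α w))
  (h2 : ∀ c : κ, α' (algebraMap κ W' c) = algebraMap E' (E' ⊗[E] V) (algebraMap κ E' c))

include h1 h2

variable (k) in
include k in
/-- entries of the matrix of `α' w'` -/
theorem repr_mem {ι : Type*} [Fintype ι] (b : Basis ι E V) (T : Subring E')
    (hκ : ∀ c : κ, algebraMap κ E' c ∈ T)
    (hb : ∀ (w : W) (i j : ι), algebraMap E E' (b.repr (α w * b j) i) ∈ T) (w' : W') (i j : ι) :
    (b.baseChange E').repr (α' w' * b.baseChange E' j) i ∈ T := by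
  obtain ⟨n, c, g, rfl⟩ := exists_sum k κ W W' w'
  rw [map_sum, Finset.sum_mul, map_sum, Finsupp.finsetSum_apply]
  refine sum_mem fun l _ => ?_
  have e : α' (algebraMap κ W' (c l) * algebraMap W W' (g l)) * b.baseChange E' j =
      (algebraMap κ E' (c l)) • ((1 : E') ⊗ₜ[E] (α (g l) * b j)) := by
    rw [map_mul, h1, h2, Basis.baseChange_apply, inV_apply, Algebra.smul_def, mul_assoc,
      Algebra.TensorProduct.tmul_mul_tmul, one_mul]
  rw [e, map_smul, Finsupp.smul_apply, smul_eq_mul, Basis.baseChange_repr_tmul,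
    Algebra.smul_def, mul_one]
  exact mul_mem (hκ _) (hb _ _ _)

variable (k) in
include k in
theorem norm_mem {ι : Type*} [Fintype ι] (b : Basis ι E V) (T : Subring E')
    (hκ : ∀ c : κ, algebraMap κ E' c ∈ T)
    (hb : ∀ (w : W) (i j : ι), algebraMap E E' (b.repr (α w * b j) i) ∈ T) (w' : W') :
    Algebra.norm E' (α' w') ∈ T :=
  norm_mem_of_repr (b.baseChange E') T _ (repr_mem k h1 h2 b T hκ hb w')

end W

section idem

variable (e : V) (ι : V →ₐ[E] E) (he : e * e = e) (hι : ∀ v, e * v = ι v • e) (he0 : e ≠ 0)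

/-- the coordinate at the edge over `E'` -/
noncomputable def iota' (E' : Type*) [Field E'] [Algebra E E'] (ι : V →ₐ[E] E) :
    E' ⊗[E] V →ₐ[E'] E' :=
  Algebra.TensorProduct.lift (AlgHom.id E' E') ((Algebra.ofId E E').comp ι)
    (fun _ _ => Commute.all _ _)

theorem iota'_tmul (x : E') (v : V) : iota' E' ι (x ⊗ₜ v) = x * algebraMap E E' (ι v) := by
  rw [iota', Algebra.TensorProduct.lift_tmul]; rfl

theorem iota'_inV (v : V) : iota' E' ι (inV E' v) = algebraMap E E' (ι v) := by
  rw [inV_apply, iota'_tmul, one_mul]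

include hι in
theorem idem_mul (v' : E' ⊗[E] V) : inV E' e * v' = iota' E' ι v' • inV (E := E) E' e := by
  induction v' with
  | zero => rw [mul_zero, map_zero, zero_smul]
  | add a b ha hb => rw [mul_add, ha, hb, map_add, add_smul]
  | tmul x v =>
    rw [iota'_tmul, inV_apply, Algebra.TensorProduct.tmul_mul_tmul, one_mul, hι,
      TensorProduct.tmul_smul, TensorProduct.smul_tmul', TensorProduct.smul_tmul']
    congr 1
    rw [Algebra.smul_def, smul_eq_mul, mul_one, mul_comm]

include he hι he0 in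
theorem iota_e : ι e = 1 := by
  have h1 : (ι e - 1) • e = 0 := by rw [sub_smul, one_smul, ← hι, he, sub_self]
  rcases smul_eq_zero.1 h1 with h2 | h2
  · exact sub_eq_zero.1 h2
  · exact absurd h2 he0

include he hι he0 in
/-- **The norm relation.** -/
theorem norm_rel [Module.Finite E V] {a b c : E' ⊗[E] V}
    (h1 : inV E' e * a = inV E' e * c) (h2 : (1 - inV E' e) * a = (1 - inV E' e) * b) :
    Algebra.norm E' a * iota' E' ι b = Algebra.norm E' b * iota' E' ι c := by
  have hιe : iota' E' ι (inV E' e) = 1 := by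
    rw [iota'_inV, iota_e e ι he hι he0, map_one]
  have he' : inV (E := E) E' e * inV E' e = inV E' e := by rw [← map_mul, he]
  have he0' : inV (E := E) E' e ≠ 0 := by
    intro h0
    rw [h0, map_zero] at hιe
    exact zero_ne_one hιe
  have key := fun v => norm_idem (inV (E := E) E' e) he' (iota' E' ι : E' ⊗[E] V →+* E')
    (idem_mul e ι hι) (fun c => by
      change iota' E' ι (algebraMap E' _ c) = c
      rw [AlgHom.commutes]; rfl) he0' v
  have h3 : iota' E' ι a = iota' E' ι c := by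
    have := congrArg (iota' E' ι) h1
    rwa [map_mul, map_mul, hιe, one_mul, one_mul] at this
  rw [key a, key b, h2]
  change iota' E' ι a * _ * _ = iota' E' ι b * _ * _
  rw [h3]
  ring

end idem

end V

end Crest.Agent.R013.LemC623
end

-- ▼ part R013/LemC7_623
section

/-!
# Constant extensions of the cut cover (row 13, leaf LEMW / B-ANN, part 7): the function of slope one
-/

set_option autoImplicit false
set_option linter.unusedSectionVars false
set_option linter.style.haveILetI false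

namespace Crest.Agent.R013.LemC623

open Module Polynomial Crest.Agent.R013.Desc_372 Crest.Agent.R013.Desc_372.CE
open Crest.Agent.R013.LemW623 Crest.Agent.R013.RR7_948 Crest.Agent.R013.RR8_948
open Crest.Agent.R013.RR9_948 Crest.Agent.R013.RR11_948 Crest.Agent.R013.RR12_948
open Crest.Agent.R013.RR13_948 Crest.Agent.R013.RR18_948
open scoped TensorProduct

/-- ring homomorphisms from `κ(X)` -/
theorem ratFunc_ext {κ A : Type*} [Field κ] [Semiring A] {φ ψ : RatFunc κ →+* A}
    (h1 : ∀ c : κ, φ (algebraMap κ (RatFunc κ) c) = ψ (algebraMap κ (RatFunc κ) c))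
    (h2 : φ RatFunc.X = ψ RatFunc.X) : φ = ψ := by
  apply IsLocalization.ringHom_ext (nonZeroDivisors κ[X])
  apply Polynomial.ringHom_ext
  · intro c
    rw [RingHom.comp_apply, RingHom.comp_apply, RatFunc.algebraMap_C, ← RatFunc.algebraMap_eq_C]
    exact h1 c
  · rw [RingHom.comp_apply, RingHom.comp_apply, RatFunc.algebraMap_X]
    exact h2

section rank

variable {k κ U U' W W' : Type*} [Field k] [Field κ] [Algebra k κ]
  [Field U] [Field U'] [Algebra k U] [Algebra κ U'] [Algebra U U'] [Algebra k U']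
  [IsScalarTower k κ U'] [IsScalarTower k U U']
  [Field W] [Field W'] [Algebra k W] [Algebra κ W'] [Algebra W W'] [Algebra k W']
  [IsScalarTower k κ W'] [IsScalarTower k W W'] [CE k κ W W']
  [Algebra U W] [Algebra U' W']
  (hUW : ∀ u : U, algebraMap U' W' (algebraMap U U' u) = algebraMap W W' (algebraMap U W u))
  (hκ : ∀ c : κ, algebraMap U' W' (algebraMap κ U' c) = algebraMap κ W' c)

variable (k κ) in
include k κ hUW hκ in
theorem finrank_le_ce [FiniteDimensional U W] : finrank U' W' ≤ finrank U W := by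
  classical
  let b := finBasis U W
  have hspan : Submodule.span U' (Set.range fun i => algebraMap W W' (b i)) = ⊤ := by
    rw [eq_top_iff]
    intro w' _
    obtain ⟨n, c, g, rfl⟩ := exists_sum k κ W W' w'
    refine sum_mem fun l _ => ?_
    rw [← hκ, ← Algebra.smul_def]
    refine Submodule.smul_mem _ _ ?_
    rw [← b.sum_repr (g l), map_sum]
    refine sum_mem fun i _ => ?_
    rw [Algebra.smul_def, map_mul, ← hUW, ← Algebra.smul_def]
    exact Submodule.smul_mem _ _ (Submodule.subset_span ⟨i, rfl⟩)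
  have h1 := finrank_range_le_card (R := U') (fun i => algebraMap W W' (b i))
  rw [Set.finrank, hspan, finrank_top, Fintype.card_fin] at h1
  exact h1

end rank

section main

variable {k κ E E' U U' W W' V : Type*} [Field k] [CharZero k] [Field κ] [IsAlgClosed κ]
  [Algebra k κ]
  [Field E] [Field E'] [Algebra k E] [Algebra κ E'] [Algebra E E'] [Algebra k E']
  [IsScalarTower k κ E'] [IsScalarTower k E E']
  [Field U] [Field U'] [Algebra k U] [Algebra κ U'] [Algebra U U'] [Algebra k U']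
  [IsScalarTower k κ U'] [IsScalarTower k U U'] [CE k κ U U']
  [Field W] [Field W'] [Algebra k W] [Algebra κ W'] [Algebra W W'] [Algebra k W']
  [IsScalarTower k κ W'] [IsScalarTower k W W'] [CE k κ W W']
  [Algebra U W] [IsScalarTower k U W]
  [CommRing V] [Algebra E V]

/-- **A function of slope one over the algebraic closure of the constants.** -/
theorem exists_slope_ce {y : E} {A A' : Subalgebra κ E'} (h : Bk κ A A' (algebraMap E E' y))
    [Algebra (RatFunc k) U] [IsScalarTower k (RatFunc k) U]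
    [Algebra (RatFunc κ) U'] [IsScalarTower κ (RatFunc κ) U'] [FiniteDimensional (RatFunc κ) U']
    [Algebra.IsSeparable (RatFunc κ) U']
    (hxU : xK κ U' = algebraMap U U' (xK k U))
    [Algebra (RatFunc κ) W'] [IsScalarTower κ (RatFunc κ) W'] [FiniteDimensional (RatFunc κ) W']
    [Algebra.IsSeparable (RatFunc κ) W']
    (hxW : xK κ W' = algebraMap W W' (algebraMap U W (xK k U)))
    {ι : Type*} [Fintype ι] (b : Basis ι E V) (bU : Basis ι (RatFunc k) U)
    (j : U →+* V) (hjk : ∀ c : k, j (algebraMap k U c) = algebraMap E V (algebraMap k E c))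
    (hjx : j (xK k U) = algebraMap E V y) (hjb : ∀ i, j (bU i) = b i)
    (α β : W →+* V) (hαj : ∀ u, α (algebraMap U W u) = j u)
    (hβj : ∀ u, β (algebraMap U W u) = j u)
    (hα : ∀ w i, algebraMap E E' (b.repr (α w) i) ∈ Fr A' (algebraMap E E' y)⁻¹)
    (hβ : ∀ w i, algebraMap E E' (b.repr (β w) i) ∈ Fr A (algebraMap E E' y))
    (e : V) (he : e * e = e) (he0 : e ≠ 0) (io : V →ₐ[E] E) (hio : ∀ v, e * v = io v • e)
    (σ : W ≃ₐ[U] W) (hσ1 : ∀ w, e * α w = e * β (σ w))
    (hσ2 : ∀ w, (1 - e) * α w = (1 - e) * β w)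
    {n : ℕ} (hn : orderOf σ = n) (hn0 : 0 < n) (hrank : finrank U W = n)
    (hDIV : DivPic κ W')
    (θ : U' →+* E') (hθU : ∀ u, θ (algebraMap U U' u) = algebraMap E E' (io (j u)))
    (hθκ : ∀ c, θ (algebraMap κ U' c) = algebraMap κ E' c) :
    ∃ f : U', f ≠ 0 ∧ (∀ P : Pl κ U', (n : ℤ) ∣ divf (k := κ) f P) ∧
      (n : ℤ) ∣ h.ord (θ f) - 1 := by
  classical
  have hκ0 : CharZero κ := charZero_of_injective_algebraMap (algebraMap k κ).injective
  have hVf : Module.Finite E V := Module.Finite.of_basis b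
  have hUWf : FiniteDimensional U W := FiniteDimensional.of_finrank_pos (by rw [hrank]; exact hn0)
  -- `U' → W'`
  obtain ⟨jW, hjW1, hjW2⟩ := CE_exists_lift k κ U U' ((algebraMap W W').comp (algebraMap U W))
    (algebraMap κ W') (fun c => by
      rw [RingHom.comp_apply, ← IsScalarTower.algebraMap_apply k U W,
        ← IsScalarTower.algebraMap_apply k W W', ← IsScalarTower.algebraMap_apply k κ W'])
  letI aUW : Algebra U' W' := jW.toAlgebra
  have hjWa : ∀ u, algebraMap U' W' u = jW u := fun u => rfl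
  haveI tκ : IsScalarTower κ U' W' := IsScalarTower.of_algebraMap_eq fun c => (hjW2 c).symm
  haveI tR : IsScalarTower (RatFunc κ) U' W' := by
    refine IsScalarTower.of_algebraMap_eq' ?_
    refine ratFunc_ext (fun c => ?_) ?_
    · rw [RingHom.comp_apply, ← IsScalarTower.algebraMap_apply κ (RatFunc κ) W',
        ← IsScalarTower.algebraMap_apply κ (RatFunc κ) U', hjWa, hjW2]
    · rw [RingHom.comp_apply]
      change xK κ W' = jW (xK κ U')
      rw [hxU, hjW1, hxW]; rfl
  haveI fUW : FiniteDimensional U' W' :=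
    Module.Finite.of_restrictScalars_finite (RatFunc κ) U' W'
  haveI : CharZero U' := charZero_of_injective_algebraMap (algebraMap κ U').injective
  haveI : CharZero (RatFunc κ) := charZero_of_injective_algebraMap
    (algebraMap κ (RatFunc κ)).injective
  -- `κ(X) → E'`
  letI aR : Algebra (RatFunc κ) E' := RR20_948.ratAlg (algebraMap E E' y) h.transc
  haveI tRE : IsScalarTower κ (RatFunc κ) E' := RR20_948.ratAlg_tower (algebraMap E E' y) h.transc
  have hX : algebraMap (RatFunc κ) E' RatFunc.X = algebraMap E E' y :=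
    RR20_948.ratAlg_xK (algebraMap E E' y) h.transc
  haveI tRV : IsScalarTower (RatFunc κ) E' (E' ⊗[E] V) := inferInstance
  -- `α'`, `β'`
  have hαk : ∀ c : k, α (algebraMap k W c) = algebraMap E V (algebraMap k E c) := fun c => by
    rw [IsScalarTower.algebraMap_apply k U W, hαj, hjk]
  have hβk : ∀ c : k, β (algebraMap k W c) = algebraMap E V (algebraMap k E c) := fun c => by
    rw [IsScalarTower.algebraMap_apply k U W, hβj, hjk]
  obtain ⟨α', hα1, hα2⟩ := exists_ext κ E' W' α hαk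
  obtain ⟨β', hβ1, hβ2⟩ := exists_ext κ E' W' β hβk
  have hrat : ∀ (γ' : W' →+* E' ⊗[E] V) (γ : W →+* V)
      (_ : ∀ w, γ' (algebraMap W W' w) = inV E' (γ w))
      (_ : ∀ c, γ' (algebraMap κ W' c) = algebraMap E' (E' ⊗[E] V) (algebraMap κ E' c))
      (_ : ∀ u, γ (algebraMap U W u) = j u) (r : RatFunc κ),
      γ' (algebraMap (RatFunc κ) W' r) = algebraMap (RatFunc κ) (E' ⊗[E] V) r := by
    intro γ' γ h1 h2 h3 r
    have : γ'.comp (algebraMap (RatFunc κ) W') = algebraMap (RatFunc κ) (E' ⊗[E] V) := by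
      refine ratFunc_ext (fun c => ?_) ?_
      · rw [RingHom.comp_apply, ← IsScalarTower.algebraMap_apply κ (RatFunc κ) W', h2,
          IsScalarTower.algebraMap_apply (RatFunc κ) E' (E' ⊗[E] V),
          ← IsScalarTower.algebraMap_apply κ (RatFunc κ) E']
      · rw [RingHom.comp_apply]
        change γ' (xK κ W') = _
        rw [hxW, h1, h3, hjx, inV_algebraMap,
          IsScalarTower.algebraMap_apply (RatFunc κ) E' (E' ⊗[E] V), hX]
    exact RingHom.congr_fun this r
  let αA : W' →ₐ[RatFunc κ] E' ⊗[E] V := { α' with commutes' := hrat α' α hα1 hα2 hαj }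
  let βA : W' →ₐ[RatFunc κ] E' ⊗[E] V := { β' with commutes' := hrat β' β hβ1 hβ2 hβj }
  have hαA : ∀ w, αA w = α' w := fun w => rfl
  have hβA : ∀ w, βA w = β' w := fun w => rfl
  -- `σ'`
  have hs : ∀ τ : W ≃ₐ[U] W, ∃ s : W' →+* W',
      (∀ w, s (algebraMap W W' w) = algebraMap W W' (τ w)) ∧
      ∀ c, s (algebraMap κ W' c) = algebraMap κ W' c := fun τ =>
    CE_exists_lift k κ W W' ((algebraMap W W').comp (τ : W →+* W)) (algebraMap κ W')
      (fun c => by
        rw [RingHom.comp_apply, IsScalarTower.algebraMap_apply k U W]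
        change algebraMap W W' (τ (algebraMap U W (algebraMap k U c))) = _
        rw [AlgEquiv.commutes, ← IsScalarTower.algebraMap_apply k U W,
          ← IsScalarTower.algebraMap_apply k W W', ← IsScalarTower.algebraMap_apply k κ W'])
  obtain ⟨s, hs1, hs2⟩ := hs σ
  obtain ⟨s', hs1', hs2'⟩ := hs σ.symm
  have hss' : s.comp s' = RingHom.id W' := by
    refine ringHom_ext k κ W W' (fun c => ?_) (fun w => ?_)
    · rw [RingHom.comp_apply, hs2', hs2]; rfl
    · rw [RingHom.comp_apply, hs1', hs1, AlgEquiv.apply_symm_apply]; rfl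
  have hs's : s'.comp s = RingHom.id W' := by
    refine ringHom_ext k κ W W' (fun c => ?_) (fun w => ?_)
    · rw [RingHom.comp_apply, hs2, hs2']; rfl
    · rw [RingHom.comp_apply, hs1, hs1', AlgEquiv.symm_apply_apply]; rfl
  have hsU : ∀ u, s (algebraMap U' W' u) = algebraMap U' W' u := by
    intro u
    have : s.comp (algebraMap U' W') = algebraMap U' W' := by
      refine ringHom_ext k κ U U' (fun c => ?_) (fun w => ?_)
      · rw [RingHom.comp_apply, hjWa, hjW2, hs2]
      · rw [RingHom.comp_apply, hjWa, hjW1, RingHom.comp_apply, hs1, AlgEquiv.commutes]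
    exact RingHom.congr_fun this u
  let σ' : W' ≃ₐ[U'] W' :=
    { toFun := s
      invFun := s'
      left_inv := fun w => RingHom.congr_fun hs's w
      right_inv := fun w => RingHom.congr_fun hss' w
      map_mul' := map_mul s
      map_add' := map_add s
      commutes' := hsU }
  have hσ'1 : ∀ w, σ' (algebraMap W W' w) = algebraMap W W' (σ w) := hs1
  have hσ'2 : ∀ c, σ' (algebraMap κ W' c) = algebraMap κ W' c := hs2
  have hσ'pow : ∀ (m : ℕ) (w : W), (σ' ^ m) (algebraMap W W' w) = algebraMap W W' ((σ ^ m) w) := by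
    intro m
    induction m with
    | zero => intro w; rfl
    | succ m ih =>
      intro w
      rw [pow_succ, pow_succ, AlgEquiv.mul_apply, AlgEquiv.mul_apply, hσ'1, ih]
  have hσ'powκ : ∀ (m : ℕ) (c : κ), (σ' ^ m) (algebraMap κ W' c) = algebraMap κ W' c := by
    intro m
    induction m with
    | zero => intro w; rfl
    | succ m ih => intro w; rw [pow_succ, AlgEquiv.mul_apply, hσ'2, ih]
  have hord : orderOf σ' = n := by
    rw [← hn, orderOf_eq_orderOf_iff]
    intro m
    constructor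
    · intro hm
      ext w
      apply (algebraMap W W').injective
      rw [← hσ'pow, hm]; rfl
    · intro hm
      have : ((σ' ^ m : W' ≃ₐ[U'] W') : W' →+* W') = RingHom.id W' := by
        refine ringHom_ext k κ W W' (fun c => ?_) (fun w => ?_)
        · exact hσ'powκ m c
        · change (σ' ^ m) (algebraMap W W' w) = _
          rw [hσ'pow, hm]; rfl
      ext w
      exact RingHom.congr_fun this w
  have hrank' : finrank U' W' ≤ n := by
    rw [← hrank]
    exact finrank_le_ce (W := W) k κ (fun u => by rw [hjWa, hjW1]; rfl) (fun c => by rw [hjWa, hjW2])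
  -- the relation
  have hrel : ∀ w, Algebra.norm E' (αA w) * iota' E' io (βA w) =
      Algebra.norm E' (βA w) * iota' E' io (βA (σ' w)) := by
    intro w
    refine norm_rel e io he hio he0 ?_ ?_
    · let φ : W' →+ E' ⊗[E] V :=
        { toFun := fun w => inV E' e * α' w
          map_zero' := by rw [map_zero, mul_zero]
          map_add' := fun a b => by rw [map_add, mul_add] }
      let ψ : W' →+ E' ⊗[E] V :=
        { toFun := fun w => inV E' e * β' (s w)
          map_zero' := by rw [map_zero, map_zero, mul_zero]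
          map_add' := fun a b => by rw [map_add, map_add, mul_add] }
      refine ext_induction (κ := κ) (W := W) k φ ψ (fun c w => ?_) w
      change inV E' e * α' (algebraMap κ W' c * algebraMap W W' w) =
        inV E' e * β' (s (algebraMap κ W' c * algebraMap W W' w))
      rw [map_mul s, hs1, hs2, map_mul, map_mul, hα1, hα2, hβ1, hβ2, mul_left_comm,
        mul_left_comm (inV E' e), ← map_mul, ← map_mul, hσ1]
    · let φ : W' →+ E' ⊗[E] V :=
        { toFun := fun w => (1 - inV E' e) * α' w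
          map_zero' := by rw [map_zero, mul_zero]
          map_add' := fun a b => by rw [map_add, mul_add] }
      let ψ : W' →+ E' ⊗[E] V :=
        { toFun := fun w => (1 - inV E' e) * β' w
          map_zero' := by rw [map_zero, mul_zero]
          map_add' := fun a b => by rw [map_add, mul_add] }
      refine ext_induction (κ := κ) (W := W) k φ ψ (fun c w => ?_) w
      change (1 - inV E' e) * α' (algebraMap κ W' c * algebraMap W W' w) =
        (1 - inV E' e) * β' (algebraMap κ W' c * algebraMap W W' w)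
      have e1 : (1 - inV (E := E) E' e) = inV E' (1 - e) := by rw [map_sub, map_one]
      rw [e1, map_mul, map_mul, hα1, hα2, hβ1, hβ2, mul_left_comm,
        mul_left_comm (inV E' (1 - e)), ← map_mul, ← map_mul, hσ2]
  -- the norms
  have hNα : ∀ w, Algebra.norm E' (αA w) ∈ Fr A' (algebraMap E E' y)⁻¹ := by
    intro w
    refine norm_mem (κ := κ) (W := W) k hα1 hα2 b (h.wr'.frac.toSubring) (fun c => ?_)
      (fun w i l => ?_) w
    · exact h.wr'.subset_Fr (A'.algebraMap_mem c)
    · rw [← hjb l, ← hαj, ← map_mul]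
      exact hα _ _
  have hNβ : ∀ w, Algebra.norm E' (βA w) ∈ Fr A (algebraMap E E' y) := by
    intro w
    refine norm_mem (κ := κ) (W := W) k hβ1 hβ2 b (h.wr.frac.toSubring) (fun c => ?_)
      (fun w i l => ?_) w
    · exact h.wr.subset_Fr (A.algebraMap_mem c)
    · rw [← hjb l, ← hβj, ← map_mul]
      exact hβ _ _
  have hcyc : ∀ w : W', algebraMap U' W' (Algebra.norm U' w) =
      ∏ i ∈ Finset.range n, (σ' ^ i) w := fun w => norm_cyclic σ' hord hrank' w
  -- the norm on `U'`
  have hNU : ∀ u : U', Algebra.norm E' (αA (algebraMap U' W' u)) =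
      algebraMap (RatFunc κ) E' (Algebra.norm (RatFunc κ) u) := by
    intro u
    set bU' := basisRat k κ U U' hxU bU with hbU'
    have hbi : ∀ i, α' (jW (bU' i)) = b.baseChange E' i := by
      intro i
      rw [hbU', basisRat_apply, hjW1, RingHom.comp_apply, hα1, hαj, hjb, Basis.baseChange_apply,
        inV_apply]
    rw [Algebra.norm_eq_matrix_det (b.baseChange E'), Algebra.norm_eq_matrix_det bU',
      RingHom.map_det]
    congr 1
    ext i l
    rw [Algebra.leftMulMatrix_eq_repr_mul, RingHom.mapMatrix_apply, Matrix.map_apply,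
      Algebra.leftMulMatrix_eq_repr_mul]
    have e1 : αA (algebraMap U' W' u) * b.baseChange E' l = α' (jW (u * bU' l)) := by
      rw [map_mul, map_mul, hbi]; rfl
    rw [e1]
    have e2 : α' (jW (u * bU' l)) = ∑ i, (algebraMap (RatFunc κ) E' (bU'.repr (u * bU' l) i)) •
        b.baseChange E' i := by
      conv_lhs => rw [← bU'.sum_repr (u * bU' l)]
      rw [map_sum, map_sum]
      refine Finset.sum_congr rfl fun i _ => ?_
      rw [Algebra.smul_def, map_mul, map_mul, hbi, Algebra.smul_def]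
      congr 1
      have e3 : jW (algebraMap (RatFunc κ) U' (bU'.repr (u * bU' l) i)) =
          algebraMap (RatFunc κ) W' (bU'.repr (u * bU' l) i) := by
        rw [← hjWa, ← IsScalarTower.algebraMap_apply]
      rw [e3, hrat α' α hα1 hα2 hαj]
      rfl
    rw [e2, Basis.repr_sum_self]
  obtain ⟨f, hf0, hfd, hfo⟩ := h.exists_slope_one hn0 hX σ' αA βA
    (iota' E' io : E' ⊗[E] V →+* E') hrel hNα hNβ hcyc hNU hDIV
  refine ⟨f, hf0, hfd, ?_⟩
  have hθ : θ = ((iota' E' io : E' ⊗[E] V →+* E').comp β').comp jW := by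
    refine ringHom_ext k κ U U' (fun c => ?_) (fun u => ?_)
    · rw [hθκ, RingHom.comp_apply, RingHom.comp_apply, hjW2, hβ2]
      change _ = iota' E' io (algebraMap E' _ _)
      rw [AlgHom.commutes]; rfl
    · rw [hθU, RingHom.comp_apply, RingHom.comp_apply, hjW1, RingHom.comp_apply, hβ1, hβj]
      change _ = iota' E' io (inV E' (j u))
      rw [iota'_inV]
  rw [hθ]
  exact hfo

end main

end Crest.Agent.R013.LemC623
end

-- ▼ part R013/LemC8_623
section

/-!
# LEMW (row 13, part B): preparations for the assembly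
-/

set_option autoImplicit false
set_option linter.unusedSectionVars false
set_option linter.style.haveILetI false

namespace Crest.Agent.R013.LemC623

open Module Polynomial Crest.Agent.R013.Gl946 Crest.Agent.R013.Desc_372
  Crest.Agent.R013.Desc_372.CE
open Crest.Agent.R013.LemW623 Crest.Agent.R013.RR7_948 Crest.Agent.R013.RR8_948
open Crest.Agent.R013.CutCov_92
open scoped NNReal

section basis

variable {k E : Type*} [NormedField k] [NormedField E] [NormedAlgebra k E] {y : E}

theorem mem_KY_iff (hG : IsGauss k y) (φ : RatFunc k →ₐ[k] E) (hφ : φ RatFunc.X = y) (z : E) :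
    z ∈ KY hG ↔ ∃ r, φ r = z := by
  have hp : ∀ p : k[X], φ (aeval RatFunc.X p) = aeval y p := fun p => by
    rw [← aeval_algHom_apply, hφ]
  constructor
  · rintro ⟨f, g, hg, rfl⟩
    exact ⟨aeval RatFunc.X f / aeval RatFunc.X g, by rw [map_div₀, hp, hp]⟩
  · rintro ⟨r, rfl⟩
    obtain ⟨a, b, hb, rfl⟩ := isGen_X.2 r
    exact ⟨a, b, hb, by rw [map_div₀, hp, hp]⟩

end basis

section basisU

variable {E V : Type*} [Field E] [CommRing V] [Algebra E V] {D : PatchDatum E} {d : ℕ}

theorem exists_basisU [Nontrivial V] (X : Edge D V d) {U k : Type*} [Field U] [Field k]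
    (j : U →+* V) (hL : ∀ v, v ∈ X.L ↔ ∃ u, j u = v) [Algebra (RatFunc k) U]
    (φ : RatFunc k →+* E) (hφ : ∀ z, z ∈ D.F0 ↔ ∃ r, φ r = z)
    (hj : ∀ r, j (algebraMap (RatFunc k) U r) = algebraMap E V (φ r)) :
    ∃ bU : Basis (Fin d) (RatFunc k) U, ∀ i, j (bU i) = X.b i := by
  have h1 : ∀ i, ∃ u, j u = X.b i := fun i => (hL _).1 ((X.hL _).2 (basis_mem_cs X.b _ i))
  choose u hu using h1
  have hsum : ∀ r : Fin d → RatFunc k, j (∑ i, r i • u i) = ∑ i, φ (r i) • X.b i := by
    intro r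
    rw [map_sum]
    refine Finset.sum_congr rfl fun i _ => ?_
    rw [Algebra.smul_def, map_mul, hj, hu, Algebra.smul_def]
  have hli : LinearIndependent (RatFunc k) u := by
    rw [Fintype.linearIndependent_iff]
    intro r hr i
    have h2 := hsum r
    rw [hr, map_zero] at h2
    have h3 := Fintype.linearIndependent_iff.1 X.b.linearIndependent (fun i => φ (r i)) h2.symm i
    exact φ.injective (by rw [h3, map_zero])
  have hsp : ⊤ ≤ Submodule.span (RatFunc k) (Set.range u) := by
    intro w _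
    have h2 : ∀ i, ∃ r, φ r = X.b.repr (j w) i := fun i =>
      (hφ _).1 ((X.hL _).1 ((hL _).2 ⟨w, rfl⟩) i)
    choose r hr using h2
    have h3 : w = ∑ i, r i • u i := by
      apply j.injective
      rw [hsum]
      simp only [hr]
      exact (X.b.sum_repr _).symm
    rw [h3]
    exact sum_mem fun i _ => Submodule.smul_mem _ _ (Submodule.subset_span ⟨i, rfl⟩)
  exact ⟨Basis.mk hli hsp, fun i => by rw [Basis.mk_apply, hu]⟩

end basisU

section order

variable {k E : Type*} [NormedField k] [NormedField E] [NormedAlgebra k E]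
  [IsUltrametricDist E] [CompleteSpace k] [CompleteSpace E] {y : E}

/-- the order of a principal unit is zero -/
theorem ord_principal (hG : IsGauss k y) {π : k} (hπ : IsUnif π) (hd : DenseRat k y)
    (h : Bk k (AP hG) (AU k y) y) {x : E} (hx : ‖x - 1‖ < 1) : h.ord x = 0 := by
  obtain ⟨a, ha, a', ha', b, hb, b', hb', e1, e2, e3, e4, e5⟩ :=
    cartan_ultra (AU k y).toSubring (AP hG).toSubring (isClosed_AU y) (isClosed_AP hG)
      (dec hG hπ hd) x hx
  refine h.ord_eq (UnitIn.of_mul_eq_one ha ha' e1) (UnitIn.of_mul_eq_one hb hb' e3) ?_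
  rw [zpow_zero, mul_one]
  exact e5

end order

section closed

theorem algClosed_of_hom {k U E : Type*} [Field k] [Field U] [Field E] [Algebra k U]
    [Algebra k E] (φ : U →+* E) (hφ : ∀ c, φ (algebraMap k U c) = algebraMap k E c)
    (hc : algebraicClosure k E = ⊥) : algebraicClosure k U = ⊥ := by
  rw [eq_bot_iff]
  intro u hu
  rw [mem_algebraicClosure_iff] at hu
  let φA : U →ₐ[k] E := { φ with commutes' := hφ }
  have h1 : φ u ∈ algebraicClosure k E := by
    rw [mem_algebraicClosure_iff]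
    exact hu.algHom φA
  rw [hc, IntermediateField.mem_bot] at h1
  obtain ⟨c, hc⟩ := h1
  rw [IntermediateField.mem_bot]
  exact ⟨c, φ.injective (by rw [hφ, hc])⟩

end closed

section intoE

variable {k E Ω U : Type*} [Field k] [Field E] [Field Ω] [Algebra k E] [Algebra k Ω] [Algebra E Ω]
  [IsScalarTower k E Ω] [Field U] [Algebra k U] [Algebra U Ω] [IsScalarTower k U Ω]
  (φ : U →+* E) (hφ : ∀ u, algebraMap U Ω u = algebraMap E Ω (φ u))

include hφ in
theorem hφk (c : k) : φ (algebraMap k U c) = algebraMap k E c := by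
  apply (algebraMap E Ω).injective
  rw [← hφ, ← IsScalarTower.algebraMap_apply, ← IsScalarTower.algebraMap_apply]

include hφ in
/-- the inclusion `U k' → E k'` -/
theorem exists_intoE (hc : algebraicClosure k U = ⊥) (k' : IntermediateField k Ω)
    [Algebra.IsSeparable k k'] :
    ∃ θ : lev U Ω k' →+* lev E Ω k', (∀ x, ((θ x : lev E Ω k') : Ω) = x) ∧
      (∀ u, θ (algebraMap U (lev U Ω k') u) = algebraMap E (lev E Ω k') (φ u)) ∧
      ∀ c, θ (algebraMap k' (lev U Ω k') c) = algebraMap k' (lev E Ω k') c := by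
  haveI := ce_inside k U hc k'
  obtain ⟨θ, h1, h2⟩ := CE_exists_lift k k' U (lev U Ω k')
    ((algebraMap E (lev E Ω k')).comp φ) (algebraMap k' (lev E Ω k')) (fun c => by
      rw [RingHom.comp_apply, hφk φ hφ, ← IsScalarTower.algebraMap_apply,
        ← IsScalarTower.algebraMap_apply])
  refine ⟨θ, fun x => ?_, h1, h2⟩
  have e : (algebraMap (lev E Ω k') Ω).comp θ = algebraMap (lev U Ω k') Ω := by
    refine ringHom_ext k k' U (lev U Ω k') (fun c => ?_) (fun u => ?_)
    · rw [RingHom.comp_apply, h2]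
      rw [← IsScalarTower.algebraMap_apply k' (lev E Ω k') Ω,
        ← IsScalarTower.algebraMap_apply k' (lev U Ω k') Ω]
    · rw [RingHom.comp_apply, h1, RingHom.comp_apply,
        ← IsScalarTower.algebraMap_apply E (lev E Ω k') Ω,
        ← IsScalarTower.algebraMap_apply U (lev U Ω k') Ω, hφ]
  exact RingHom.congr_fun e x

end intoE

end Crest.Agent.R013.LemC623
end

-- ▼ part R013/LemC9_623
section

/-!
# LEMW (row 13, part B): the function of slope one over the algebraic closure of the constants, from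
the output of B-NB
-/

set_option autoImplicit false
set_option linter.unusedSectionVars false
set_option linter.style.haveILetI false

namespace Crest.Agent.R013.LemC623

open Module Polynomial Crest.Agent.R013.Gl946 Crest.Agent.R013.Desc_372
  Crest.Agent.R013.Desc_372.CE
open Crest.Agent.R013.LemW623 Crest.Agent.R013.RR7_948 Crest.Agent.R013.RR8_948
  Crest.Agent.R013.RR9_948 Crest.Agent.R013.RR11_948
open Crest.Agent.R013.CutCov_92 Crest.Agent.R013.NB_92
open scoped NNReal

/-- **DIV** in the form used by LEMW (universe 0): `Pic⁰` is divisible over an algebraically closed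
field of characteristic zero. -/
def DIVStmt : Prop :=
  ∀ (κ W : Type) [Field κ] [IsAlgClosed κ] [CharZero κ] [Field W] [Algebra κ W]
    [Algebra (RatFunc κ) W] [IsScalarTower κ (RatFunc κ) W] [FiniteDimensional (RatFunc κ) W]
    [Algebra.IsSeparable (RatFunc κ) W], DivPic κ W

section

variable {k E Ω : Type} [NontriviallyNormedField k] [ProperSpace k] [IsUltrametricDist k]
  [CharZero k] [NormedField E] [NormedAlgebra k E] [IsUltrametricDist E] [CompleteSpace E]
  [NormedField Ω] [NormedAlgebra k Ω] [NormedAlgebra E Ω] [IsScalarTower k E Ω]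
  [IsUltrametricDist Ω] [IsAlgClosed Ω] {y : E}

/-- **The function of slope one over `κ`.** -/
theorem exists_f_kappa (hDIV : DIVStmt) (hG : IsGauss k y) {ϖ : k} (hϖ : IsUnif ϖ)
    (hd : DenseRat k y) {n : ℕ} (hn : 0 < n) {U V : Type} [Field U] [Algebra k U] [CommRing V]
    [Algebra E V] {d : ℕ} (X : Edge (gaussDatum hG hϖ hd) V d) (j : U →+* V) (σ : V →ₐ[E] E)
    (Am Ap : Subring E) (hNB : NBOut (gaussDatum hG hϖ hd) Am Ap U V d X j σ)
    (xU : U) (hjx : σ (j xU) = y) [Algebra U Ω] [IsScalarTower k U Ω]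
    (hUΩ : ∀ u, algebraMap U Ω u = algebraMap E Ω (σ (j u)))
    (κ : IntermediateField k Ω) [Algebra.IsAlgebraic k κ] [IsAlgClosed κ] :
    ∃ (_ : Algebra (RatFunc k) U) (_ : IsScalarTower k (RatFunc k) U)
      (_ : FiniteDimensional (RatFunc k) U)
      (_ : Algebra (RatFunc κ) (lev U Ω κ)) (_ : IsScalarTower κ (RatFunc κ) (lev U Ω κ))
      (_ : FiniteDimensional (RatFunc κ) (lev U Ω κ))
      (_ : Algebra.IsSeparable (RatFunc κ) (lev U Ω κ)) (f : lev U Ω κ), f ≠ 0 ∧
      (∀ P : Pl κ (lev U Ω κ), (n : ℤ) ∣ divf (k := κ) f P) ∧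
      ∀ θ : lev U Ω κ →+* lev E Ω κ, (∀ x, ((θ x : lev E Ω κ) : Ω) = x) →
        (n : ℤ) ∣ (bk_kappa κ hG hd).ord (θ f) - 1 := by
  classical
  have hVnt : Nontrivial V := ⟨⟨X.e, 0, hNB.e_ne⟩⟩
  have hfin : Module.Finite E V := hNB.finite
  have hred : IsReduced V := hNB.red
  have hnz : NeZero n := ⟨hn.ne'⟩
  have hcE := algClosed_in Ω hG hd
  -- `φ : U → E`
  let φ : U →+* E := (σ : V →+* E).comp j
  have hφU : ∀ u, algebraMap U Ω u = algebraMap E Ω (φ u) := hUΩ
  have hφk' := hφk (k := k) φ hφU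
  have hjF : ∀ z ∈ (gaussDatum hG hϖ hd).F0, ∀ u : U, φ u = z → j u = algebraMap E V z := by
    intro z hz u hu
    obtain ⟨u', hu'⟩ := (hNB.mem_L _).1 (hNB.F0_L z hz)
    have h1 : φ u' = z := by
      change σ (j u') = z
      rw [hu', AlgHom.commutes]; rfl
    have h2 : u = u' := φ.injective (by rw [hu, h1])
    rw [h2, hu']
  have hKc : ∀ c : k, algebraMap k E c ∈ (gaussDatum hG hϖ hd).F0 := fun c =>
    ⟨C c, 1, one_ne_zero, by simp⟩
  have hjk : ∀ c : k, j (algebraMap k U c) = algebraMap E V (algebraMap k E c) := fun c =>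
    hjF _ (hKc c) _ (hφk' c)
  have hKy : y ∈ (gaussDatum hG hϖ hd).F0 := ⟨Polynomial.X, 1, one_ne_zero, by simp⟩
  have hjx' : j xU = algebraMap E V y := hjF _ hKy _ hjx
  -- context of `U`
  have hxU : Transcendental k xU := by
    intro h
    have h1 : IsAlgebraic k (φ xU) := by
      obtain ⟨p, hp, e⟩ := h
      refine ⟨p, hp, ?_⟩
      have h2 := congrArg φ e
      rw [map_zero, aeval_def, hom_eval₂] at h2
      rw [aeval_def]
      have h3 : φ.comp (algebraMap k U) = algebraMap k E := RingHom.ext hφk'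
      rw [h3] at h2
      exact h2
    have h2 : φ xU = y := hjx
    rw [h2] at h1
    exact gauss_transc hG h1
  letI aU : Algebra (RatFunc k) U := RR20_948.ratAlg xU hxU
  haveI tU : IsScalarTower k (RatFunc k) U := RR20_948.ratAlg_tower xU hxU
  have hxK : xK k U = xU := RR20_948.ratAlg_xK xU hxU
  let ρ : RatFunc k →ₐ[k] E := RR20_948.ratHom y (gauss_transc hG)
  have hρX : ρ RatFunc.X = y := RR20_948.ratHom_X y (gauss_transc hG)
  have hjρ : ∀ r, j (algebraMap (RatFunc k) U r) = algebraMap E V (ρ r) := by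
    intro r
    have : j.comp (algebraMap (RatFunc k) U) =
        (algebraMap E V).comp (ρ : RatFunc k →+* E) := by
      refine ratFunc_ext (fun c => ?_) ?_
      · rw [RingHom.comp_apply, ← IsScalarTower.algebraMap_apply k (RatFunc k) U, hjk,
          RingHom.comp_apply]
        congr 1
        exact (ρ.commutes c).symm
      · rw [RingHom.comp_apply, RingHom.comp_apply]
        change j (xK k U) = algebraMap E V (ρ RatFunc.X)
        rw [hxK, hjx', hρX]
    exact RingHom.congr_fun this r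
  obtain ⟨bU, hbU⟩ := exists_basisU (k := k) X j hNB.mem_L (ρ : RatFunc k →+* E)
    (fun z => mem_KY_iff hG ρ hρX z) hjρ
  haveI fU : FiniteDimensional (RatFunc k) U := Module.Finite.of_basis bU
  have hcU : algebraicClosure k U = ⊥ := algClosed_of_hom φ hφk' hcE
  haveI ceU : CE k κ U (lev U Ω κ) := ce_inside k U hcU κ
  haveI ceE : CE k κ E (lev E Ω κ) := ce_inside k E hcE κ
  letI aU' : Algebra (RatFunc κ) (lev U Ω κ) := ratCE k κ U (lev U Ω κ)
  haveI tU' : IsScalarTower κ (RatFunc κ) (lev U Ω κ) := ratCE_tower k κ U (lev U Ω κ)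
  have hxU' : xK κ (lev U Ω κ) = algebraMap U (lev U Ω κ) (xK k U) := ratCE_xK k κ U (lev U Ω κ)
  haveI fU' : FiniteDimensional (RatFunc κ) (lev U Ω κ) := finite_rat k κ U (lev U Ω κ) hxU'
  haveI hκ0 : CharZero κ := charZero_of_injective_algebraMap (algebraMap k κ).injective
  haveI : CharZero (RatFunc κ) := charZero_of_injective_algebraMap
    (algebraMap κ (RatFunc κ)).injective
  haveI sU' : Algebra.IsSeparable (RatFunc κ) (lev U Ω κ) := inferInstance
  -- the cut cover
  obtain ⟨W, fW, aW, ⟨C⟩⟩ := exists_cutCover X j hNB.mem_L hNB.F0_L n hNB.nonbridge hNB.e_ne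
  have hjL : ∀ v, v ∈ X.L → ∃ u, j u = v := fun v hv => (hNB.mem_L v).1 hv
  haveI fUW : FiniteDimensional U W := C.finiteDimensional hjL
  let ψ : W →+* E := (σ : V →+* E).comp (C.bb 0)
  have hψU : ∀ u, ψ (algebraMap U W u) = φ u := fun u => by
    change σ (C.bb 0 (algebraMap U W u)) = σ (j u)
    rw [C.b_alg]
  letI aWΩ : Algebra W Ω := ((algebraMap E Ω).comp ψ).toAlgebra
  have hψW : ∀ w, algebraMap W Ω w = algebraMap E Ω (ψ w) := fun w => rfl
  letI akW : Algebra k W := ((algebraMap U W).comp (algebraMap k U)).toAlgebra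
  haveI tkUW : IsScalarTower k U W := IsScalarTower.of_algebraMap_eq fun c => rfl
  haveI tUWΩ : IsScalarTower U W Ω := IsScalarTower.of_algebraMap_eq fun u => by
    rw [hψW, hψU, hφU]
  haveI tkWΩ : IsScalarTower k W Ω := IsScalarTower.of_algebraMap_eq fun c => by
    rw [IsScalarTower.algebraMap_apply k U W, ← IsScalarTower.algebraMap_apply U W Ω,
      ← IsScalarTower.algebraMap_apply k U Ω]
  have hcW : algebraicClosure k W = ⊥ := algClosed_of_hom ψ (hφk ψ hψW) hcE
  haveI ceW : CE k κ W (lev W Ω κ) := ce_inside k W hcW κ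
  letI aRW : Algebra (RatFunc k) W :=
    ((algebraMap U W).comp (algebraMap (RatFunc k) U)).toAlgebra
  haveI tRUW : IsScalarTower (RatFunc k) U W := IsScalarTower.of_algebraMap_eq fun c => rfl
  haveI tkRW : IsScalarTower k (RatFunc k) W := IsScalarTower.of_algebraMap_eq fun c => by
    rw [IsScalarTower.algebraMap_apply (RatFunc k) U W,
      ← IsScalarTower.algebraMap_apply k (RatFunc k) U, ← IsScalarTower.algebraMap_apply k U W]
  haveI fRW : FiniteDimensional (RatFunc k) W := FiniteDimensional.trans (RatFunc k) U W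
  have hxW : xK k W = algebraMap U W (xK k U) := rfl
  letI aW' : Algebra (RatFunc κ) (lev W Ω κ) := ratCE k κ W (lev W Ω κ)
  haveI tW' : IsScalarTower κ (RatFunc κ) (lev W Ω κ) := ratCE_tower k κ W (lev W Ω κ)
  have hxW' : xK κ (lev W Ω κ) = algebraMap W (lev W Ω κ) (xK k W) := ratCE_xK k κ W (lev W Ω κ)
  haveI fW' : FiniteDimensional (RatFunc κ) (lev W Ω κ) := finite_rat k κ W (lev W Ω κ) hxW'
  haveI sW' : Algebra.IsSeparable (RatFunc κ) (lev W Ω κ) := inferInstance
  -- `θ`
  obtain ⟨θ₀, hθ1, hθ2, hθ3⟩ := exists_intoE (k := k) φ hφU hcU κ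
  -- the matrix entries
  have hmapU : ∀ z ∈ AU k y, algebraMap E (lev E Ω κ) z ∈ unionAlg κ (AUl Ω y) (AUl_mono y) :=
    fun z hz => AU_le κ y hz
  have hmapP : ∀ z ∈ AP hG, algebraMap E (lev E Ω κ) z ∈ unionAlg κ (APl Ω hG) (APl_mono hG) :=
    fun z hz => AP_le κ hG hz
  have hkE : ∀ c : k, algebraMap E (lev E Ω κ) (algebraMap k E c) =
      algebraMap κ (lev E Ω κ) (algebraMap k κ c) := fun c => by
    rw [← IsScalarTower.algebraMap_apply, ← IsScalarTower.algebraMap_apply]
  have hα : ∀ w i, algebraMap E (lev E Ω κ) (X.b.repr (C.a 0 w) i) ∈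
      Fr (unionAlg κ (AUl Ω y) (AUl_mono y)) (algebraMap E (lev E Ω κ) y)⁻¹ := by
    intro w i
    have h1 : X.b.repr (C.a 0 w) i ∈ RU k y := (X.mem_VU _).1 (C.a_mem 0 w) i
    rw [mem_RU_iff_Fr hG] at h1
    exact map_Fr (algebraMap E (lev E Ω κ)) (algebraMap k κ) hkE (by rw [map_inv₀]) hmapU h1
  have hβ : ∀ w i, algebraMap E (lev E Ω κ) (X.b.repr (C.bb 0 w) i) ∈
      Fr (unionAlg κ (APl Ω hG) (APl_mono hG)) (algebraMap E (lev E Ω κ) y) := by
    intro w i
    have h1 : X.b.repr (C.bb 0 w) i ∈ FP hG hϖ hd := (X.mem_VP _).1 (C.b_mem 0 w) i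
    rw [mem_FP_iff_Fr hG hϖ hd] at h1
    exact map_Fr (algebraMap E (lev E Ω κ)) (algebraMap k κ) hkE rfl hmapP h1
  obtain ⟨f, hf0, hfd, hfo⟩ := exists_slope_ce (k := k) (κ := κ) (U := U) (U' := lev U Ω κ)
    (W := W) (W' := lev W Ω κ) (bk_kappa κ hG hd) hxU' (by rw [hxW', hxW]) X.b bU j hjk
    (by rw [hxK, hjx']) hbU (C.a 0) (C.bb 0) (C.a_alg 0) (C.b_alg 0) hα hβ X.e X.he hNB.e_ne σ
    (fun v => by rw [mul_comm]; exact hNB.smul v) C.σ
    (fun w => by rw [C.b_σ, C.glue_e])
    (fun w => C.glue_e' 0 w) C.orderOf_σ hn (C.finrank_eq hjL) (hDIV κ (lev W Ω κ)) θ₀ hθ2 hθ3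
  refine ⟨aU, tU, fU, aU', tU', fU', sU', f, hf0, hfd, ?_⟩
  intro θ hθ
  have : θ = θ₀ := RingHom.ext fun x => Subtype.ext (by rw [hθ, hθ1])
  rw [this]
  exact hfo

end

end Crest.Agent.R013.LemC623
end

-- ▼ part R013/LemD1_623
section

/-!
# LEMW (row 13, part B): divisibility of orders at a finite level
-/

set_option autoImplicit false
set_option linter.unusedSectionVars false
set_option linter.style.haveILetI false

namespace Crest.Agent.R013.LemC623

open Module Polynomial WithZero Crest.Agent.R013.Desc_372 Crest.Agent.R013.Desc_372.CE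
open Crest.Agent.R013.LemW623 Crest.Agent.R013.RR7_948 Crest.Agent.R013.RR8_948
  Crest.Agent.R013.RR9_948 Crest.Agent.R013.RR11_948 Crest.Agent.R013.BTor4_914
open Crest.NumberTheoryR.Sect
open scoped NNReal

/-- from real valued to integral valuations -/
theorem exp_of_ldiv {k L : Type*} [Field k] [Field L] [Algebra k L] {n : ℕ} (hn : 0 < n) {f : L}
    (hf : f ≠ 0) (h : LDiv k n f) (v : Valuation L ℤᵐ⁰)
    (hv : ∀ c : k, c ≠ 0 → v (algebraMap k L c) = 1) (hs : Function.Surjective v) :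
    ∃ j : ℤ, v f = exp ((n : ℤ) * j) := by
  have h2 : (2 : ℝ≥0) ≠ 0 := two_ne_zero
  have hmono : StrictMono (WithZeroMulInt.toNNReal h2) :=
    WithZeroMulInt.toNNReal_strictMono one_lt_two
  set u : Valuation L ℝ≥0 := v.map (WithZeroMulInt.toNNReal h2) hmono.monotone with hu
  have huv : ∀ a, u a = WithZeroMulInt.toNNReal h2 (v a) := fun a => rfl
  obtain ⟨a, ha⟩ := h u ⟨fun c hc => by rw [huv, hv c hc, map_one], by
    obtain ⟨b, hb⟩ := hs (exp 1)
    refine ⟨b, ?_, ?_⟩
    · rw [huv, hb]; exact (_root_.map_ne_zero _).2 exp_ne_zero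
    · rw [huv, hb, ← map_one (WithZeroMulInt.toNNReal h2)]
      intro h0
      have h1 := hmono.injective h0
      rw [← exp_zero, exp_inj] at h1
      exact one_ne_zero h1⟩
  rw [huv, huv, ← map_pow] at ha
  have h3 := hmono.injective ha
  have hva : v a ≠ 0 := by
    intro h0
    rw [h0, zero_pow hn.ne'] at h3
    exact hf ((Valuation.zero_iff v).1 h3)
  refine ⟨log (v a), ?_⟩
  rw [h3, ← exp_log hva, ← exp_nsmul, log_exp, nsmul_eq_mul]

section level

variable {k Ω U : Type*} [Field k] [CharZero k] [Field Ω] [IsAlgClosed Ω] [Algebra k Ω] [Field U]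
  [Algebra k U] [Algebra U Ω] [IsScalarTower k U Ω]

/-- `LDiv` at a finite level from the divisor over `κ`. -/
theorem ldiv_level (hc : algebraicClosure k U = ⊥)
    [Algebra (RatFunc k) U] [IsScalarTower k (RatFunc k) U] [FiniteDimensional (RatFunc k) U]
    (κ : IntermediateField k Ω) [Algebra.IsAlgebraic k κ] [Algebra (RatFunc κ) (lev U Ω κ)]
    [IsScalarTower κ (RatFunc κ) (lev U Ω κ)] [FiniteDimensional (RatFunc κ) (lev U Ω κ)]
    [Algebra.IsSeparable (RatFunc κ) (lev U Ω κ)] (f : lev U Ω κ) {n : ℕ}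
    (hdiv : ∀ P : Pl κ (lev U Ω κ), (n : ℤ) ∣ divf (k := κ) f P)
    (k' : IntermediateField k Ω) [FiniteDimensional k k'] (h : k' ≤ κ) (f' : lev U Ω k')
    (hf' : f' ≠ 0) (e : il U h f' = f) : LDiv k' n f' := by
  classical
  haveI : CE k k' U (lev U Ω k') := ce_inside k U hc k'
  haveI : CE k κ U (lev U Ω κ) := ce_inside k U hc κ
  letI a1 : Algebra k' κ := (IntermediateField.inclusion h).toRingHom.toAlgebra
  letI a2 : Algebra (lev U Ω k') (lev U Ω κ) := (il U h).toAlgebra
  have ha2 : ∀ x, algebraMap (lev U Ω k') (lev U Ω κ) x = il U h x := fun x => rfl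
  letI a3 : Algebra k' (lev U Ω κ) := ((algebraMap κ (lev U Ω κ)).comp (algebraMap k' κ)).toAlgebra
  haveI t1 : IsScalarTower k' κ (lev U Ω κ) := IsScalarTower.of_algebraMap_eq fun c => rfl
  haveI t2 : IsScalarTower k' (lev U Ω k') (lev U Ω κ) :=
    IsScalarTower.of_algebraMap_eq fun c => by
      rw [ha2, il_algebraMap]; rfl
  haveI t3 : IsScalarTower k k' κ := IsScalarTower.of_algebraMap_eq fun c => rfl
  haveI : Algebra.IsAlgebraic k' κ := Algebra.IsAlgebraic.tower_top (K := k) k'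
  haveI : CharZero k' := charZero_of_injective_algebraMap (algebraMap k k').injective
  haveI : Algebra.IsSeparable k' κ := inferInstance
  have hce : CntB1_491.IsCE k k' U (lev U Ω k') := by
    refine ⟨?_, hc⟩
    rw [eq_top_iff]
    intro x _
    obtain ⟨m, c, g, rfl⟩ := exists_sum k k' U (lev U Ω k') x
    exact sum_mem fun i _ => mul_mem (Algebra.subset_adjoin ⟨c i, rfl⟩)
      (Subalgebra.algebraMap_mem _ _)
  have hc' : algebraicClosure k' (lev U Ω k') = ⊥ := hce.hc'
  haveI : CE k' κ (lev U Ω k') (lev U Ω κ) := by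
    refine of_hc k' κ (lev U Ω k') (lev U Ω κ) hc' ?_
    rw [eq_top_iff]
    intro x _
    obtain ⟨m, c, g, rfl⟩ := exists_sum k κ U (lev U Ω κ) x
    refine sum_mem fun i _ => mul_mem (IntermediateField.subset_adjoin _ _ ⟨c i, rfl⟩) ?_
    rw [← il_algebraMapE h (g i), ← ha2]
    exact IntermediateField.algebraMap_mem _ _
  letI : Algebra (RatFunc k') (lev U Ω k') := ratCE k k' U (lev U Ω k')
  haveI : IsScalarTower k' (RatFunc k') (lev U Ω k') := ratCE_tower k k' U (lev U Ω k')
  haveI : FiniteDimensional (RatFunc k') (lev U Ω k') :=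
    finite_rat k k' U (lev U Ω k') (ratCE_xK k k' U (lev U Ω k'))
  refine BTor5_914.ldiv_base k' κ (lev U Ω k') (lev U Ω κ) hf'
    (D := (divf (k := κ) f).mapRange (fun m : ℤ => m / n) (by simp)) ?_
  rw [ha2, e]
  ext P
  rw [Finsupp.smul_apply, Finsupp.mapRange_apply, smul_eq_mul]
  exact (Int.mul_ediv_cancel' (hdiv P)).symm

end level

end Crest.Agent.R013.LemC623
end

-- ▼ part R013/LemD2_623
section

/-!
# LEMW (row 13, part B): the final statement

From the output of B-NB (a non-bridge over `U` at the circle field `E`, with values in the annulus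
field of width `s`) we get, after a finite extension `k'` of the constants, `f ∈ U k'` with all orders
divisible by `n` and `f = y z ^ n` with `z ∈ E k'`.
-/

set_option autoImplicit false
set_option linter.unusedSectionVars false
set_option linter.style.haveILetI false

namespace Crest.Agent.R013.LemC623

open Module Polynomial Crest.Agent.R013.Gl946 Crest.Agent.R013.Desc_372
  Crest.Agent.R013.Desc_372.CE
open Crest.Agent.R013.LemW623 Crest.Agent.R013.RR7_948 Crest.Agent.R013.RR8_948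
  Crest.Agent.R013.RR9_948 Crest.Agent.R013.RR11_948 Crest.Agent.R013.BTor4_914
open Crest.Agent.R013.CutCov_92 Crest.Agent.R013.NB_92 Crest.Agent.R013.Half_930
  Crest.Agent.R013.Annu_930
open Crest.NumberTheoryR.Sect
open scoped NNReal

section

variable {k E Ω : Type} [NontriviallyNormedField k] [ProperSpace k] [IsUltrametricDist k]
  [CharZero k] [NormedField E] [NormedAlgebra k E] [IsUltrametricDist E] [CompleteSpace E]
  [NormedField Ω] [NormedAlgebra k Ω] [NormedAlgebra E Ω] [IsScalarTower k E Ω]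
  [IsUltrametricDist Ω] [IsAlgClosed Ω] {y : E}

/-- **LEMW + ANNU.** -/
theorem lemw (hDIV : DIVStmt) (hG : IsGauss k y) {ϖ : k} (hϖ : IsUnif ϖ)
    (hd : DenseRat k y) {s : ℝ≥0} (hs : 1 < s) {n : ℕ} (hn : 0 < n)
    (hsn : (s : ℝ)⁻¹ ≤ ‖(n : k)‖ ^ 2) {U V : Type} [Field U] [Algebra k U] [CommRing V]
    [Algebra E V] {d : ℕ} (X : Edge (gaussDatum hG hϖ hd) V d) (j : U →+* V) (σ : V →ₐ[E] E)
    (hNB : NBOut (gaussDatum hG hϖ hd) (Am hG hϖ hd hs) (Ap hG hϖ hd hs) U V d X j σ)
    (xU : U) (hjx : σ (j xU) = y) [Algebra U Ω] [IsScalarTower k U Ω]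
    (hUΩ : ∀ u, algebraMap U Ω u = algebraMap E Ω (σ (j u))) :
    ∃ (k' : IntermediateField k Ω) (_ : FiniteDimensional k k') (f : lev U Ω k')
      (z : lev E Ω k'), f ≠ 0 ∧ LDiv k' n f ∧ z ≠ 0 ∧
      (f : Ω) = algebraMap E Ω y * (z : Ω) ^ n := by
  classical
  let κ : IntermediateField k Ω := algebraicClosure k Ω
  haveI : IsAlgClosed κ := (algebraicClosure.isAlgClosure k Ω).isAlgClosed
  obtain ⟨aU, tU, fU, aU', tU', fU', sU', f, hf0, hfd, hfo⟩ :=
    exists_f_kappa hDIV hG hϖ hd hn X j σ _ _ hNB xU hjx hUΩ κ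
  -- `φ : U → E`
  have hcE := algClosed_in Ω hG hd
  let φ : U →+* E := (σ : V →+* E).comp j
  have hφU : ∀ u, algebraMap U Ω u = algebraMap E Ω (φ u) := hUΩ
  have hcU : algebraicClosure k U = ⊥ := algClosed_of_hom φ (hφk (k := k) φ hφU) hcE
  -- the level
  obtain ⟨k₁, hk₁, hle, f₁, hf₁⟩ := exists_level (E := U) (κ := κ) f
  have hf₁0 : f₁ ≠ 0 := by
    rintro rfl
    rw [map_zero] at hf₁
    exact hf0 hf₁.symm
  have hL : LDiv k₁ n f₁ := ldiv_level hcU κ f hfd k₁ hle f₁ hf₁0 hf₁
  obtain ⟨θκ, hθκ, -, -⟩ := exists_intoE (k := k) φ hφU hcU κ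
  obtain ⟨θ₁, h1, h2, h3⟩ := exists_intoE (k := k) φ hφU hcU k₁
  have hθ : il E hle (θ₁ f₁) = θκ f :=
    Subtype.ext (by rw [coe_il, h1, hθκ, ← hf₁, coe_il])
  haveI cE := complete_E hG hd k₁
  haveI ck := complete_k (k := k) k₁
  obtain ⟨π₁, hπ₁⟩ := exists_unif_k (k := k) k₁
  have G₁ := isGauss_lev (Ω := Ω) hG k₁
  let ι₁ : lev U Ω k₁ →ₐ[k₁] lev E Ω k₁ := { θ₁ with commutes' := h3 }
  have hι₁ : ∀ x, ι₁ x = θ₁ x := fun x => rfl
  haveI ceU : CE k k₁ U (lev U Ω k₁) := ce_inside k U hcU k₁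
  have hkE : ∀ c : k, algebraMap E (lev E Ω k₁) (algebraMap k E c) =
      algebraMap k₁ (lev E Ω k₁) (algebraMap k k₁ c) := fun c => by
    rw [← IsScalarTower.algebraMap_apply, ← IsScalarTower.algebraMap_apply]
  have hMN : ∀ u : U, φ u ∈ MN hG hs := fun u =>
    mem_MN_of_both hG hϖ hd hs (hNB.mem_Ap u) (hNB.mem_Am u)
  have hι : ∀ x, ι₁ x ∈ MN G₁ hs := by
    intro x
    obtain ⟨m, c, g, rfl⟩ := exists_sum k k₁ U (lev U Ω k₁) x
    rw [map_sum]
    refine sum_mem fun i _ => ?_
    rw [map_mul, hι₁, hι₁, h2, h3]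
    refine mul_mem ((MN G₁ hs).algebraMap_mem _) ?_
    exact map_MN (algebraMap E (lev E Ω k₁)) (norm_algMap_lev k₁) (algebraMap k k₁) hkE
      (y₁ := y) (y₂ := yl y k₁) rfl hG G₁ hs (hMN _)
  have hy : ι₁ (algebraMap U (lev U Ω k₁) xU) = yl y k₁ := by
    rw [hι₁, h2]
    have : φ xU = y := hjx
    rw [this]; rfl
  obtain ⟨c, m, A, D, ε, hc, hA, hD, hε, e⟩ := annu_algHom G₁ hs hπ₁ ι₁ hι hy hn hf₁0
    (exp_of_ldiv hn hf₁0 hL)
  -- the root of `1 + ε`
  have hnn : ‖((n : lev E Ω k₁))‖ = ‖(n : k)‖ := by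
    have e1 : (n : Ω) = algebraMap k Ω (n : k) := by rw [map_natCast]
    rw [norm_coe_lev]
    push_cast
    rw [e1, norm_algebraMap']
  have hn0 : ((n : lev E Ω k₁)) ≠ 0 := by
    rw [← norm_ne_zero_iff, hnn, norm_ne_zero_iff]
    exact_mod_cast hn.ne'
  obtain ⟨w, hw, -⟩ := exists_pow_eq_of_lt (E := lev E Ω k₁) hn0 (a := 1 + ε) (by
    rw [add_sub_cancel_left, hnn]
    exact hε.trans_le hsn)
  have hε1 : ‖(1 + ε) - 1‖ < 1 := by
    rw [add_sub_cancel_left]
    refine hε.trans ?_
    exact inv_lt_one_of_one_lt₀ (by exact_mod_cast hs)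
  -- the order
  have hB := bk_lev (Ω := Ω) hG hd k₁ hk₁
  have hy₁ : yl y k₁ = algebraMap E (lev E Ω k₁) y := rfl
  have hyne : algebraMap E (lev E Ω k₁) y ≠ 0 := hB.ne
  have hcE1 : algebraMap k₁ (lev E Ω k₁) c ≠ 0 := by simpa using hc
  have hAy := G₁.aeval_ne_zero hA
  have hDy := G₁.aeval_ne_zero hD
  set g := aeval (yl y k₁) A / aeval (yl y k₁) D with hg
  have hg0 : g ≠ 0 := div_ne_zero hAy hDy
  have hεne : (1 + ε : lev E Ω k₁) ≠ 0 := by
    intro h0
    rw [h0] at hε1
    simp at hε1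
  have e' : θ₁ f₁ = algebraMap k₁ (lev E Ω k₁) c *
      (algebraMap E (lev E Ω k₁) y) ^ m * (1 + ε) * g ^ n := by
    rw [← hι₁, e, Algebra.smul_def]; rfl
  have hop : hB.ord (1 + ε) = 0 := ord_principal G₁ hπ₁ (dense_lev hG hd k₁) hB hε1
  have ho : hB.ord (θ₁ f₁) = m + n * hB.ord g := by
    rw [e', hB.ord_mul (mul_ne_zero (mul_ne_zero hcE1 (zpow_ne_zero _ hyne)) hεne)
      (pow_ne_zero _ hg0), hB.ord_mul (mul_ne_zero hcE1 (zpow_ne_zero _ hyne)) hεne,
      hB.ord_mul hcE1 (zpow_ne_zero _ hyne), hB.ord_unit (UnitIn.algMap hc), hB.ord_zpow hyne,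
      hB.ord_y, hB.ord_pow hg0, hop]
    ring
  have hθ₁0 : θ₁ f₁ ≠ 0 := (_root_.map_ne_zero θ₁).2 hf₁0
  have ho' := ord_union (bk_lev (Ω := Ω) hG hd) (bk_kappa κ hG hd) hk₁ hle hθ₁0
  have hdv := hfo θκ hθκ
  rw [← hθ, ho', ho] at hdv
  obtain ⟨l, hl⟩ : ∃ l : ℤ, m = 1 + n * l := by
    obtain ⟨t, ht⟩ := hdv
    exact ⟨t - hB.ord g, by linear_combination ht⟩
  -- the final elements
  have hcU1 : algebraMap k₁ (lev U Ω k₁) c ≠ 0 := by simpa using hc
  have hw0 : w ≠ 0 := by
    rintro rfl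
    rw [zero_pow hn.ne'] at hw
    exact hεne hw.symm
  refine ⟨k₁, hk₁, f₁ / algebraMap k₁ (lev U Ω k₁) c,
    (algebraMap E (lev E Ω k₁) y) ^ l * w * g, div_ne_zero hf₁0 hcU1, ?_,
    mul_ne_zero (mul_ne_zero (zpow_ne_zero _ hyne) hw0) hg0, ?_⟩
  · intro u hu
    obtain ⟨a, ha⟩ := hL u hu
    refine ⟨a, ?_⟩
    rw [map_div₀, hu.1 c hc, div_one, ha]
  · have e2 : θ₁ (f₁ / algebraMap k₁ (lev U Ω k₁) c) = algebraMap E (lev E Ω k₁) y *
        ((algebraMap E (lev E Ω k₁) y) ^ l * w * g) ^ n := by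
      have e3 : (algebraMap E (lev E Ω k₁) y) ^ m = algebraMap E (lev E Ω k₁) y *
          ((algebraMap E (lev E Ω k₁) y) ^ l) ^ n := by
        rw [hl, zpow_add₀ hyne, zpow_one, mul_comm (n : ℤ) l, zpow_mul, zpow_natCast]
      rw [map_div₀, h3, e', e3, ← hw]
      generalize algebraMap E (lev E Ω k₁) y ^ l = t
      rw [div_eq_iff hcE1]
      ring
    have e4 : ((θ₁ (f₁ / algebraMap k₁ (lev U Ω k₁) c) : lev E Ω k₁) : Ω) =
        ((algebraMap E (lev E Ω k₁) y *
        ((algebraMap E (lev E Ω k₁) y) ^ l * w * g) ^ n : lev E Ω k₁) : Ω) := by rw [e2]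
    rw [h1] at e4
    rw [e4]
    push_cast
    rfl

end

end Crest.Agent.R013.LemC623
end

-- ▼ part R013/DivPic_168
section

/-!
# R013 / DivPic (helper168): 623's `DivPic` from 280's `exists_div`
-/

set_option autoImplicit false

namespace Crest.Agent.R013.DivPic_168

open Crest.Agent.R013.RR18_948 Crest.Agent.R013.RR20_948 Crest.Agent.R013.RR21_948
open Crest.Agent.R013.RR22_948

theorem divPic (k W : Type*) [Field k] [IsAlgClosed k] [CharZero k] [Field W] [Algebra k W]
    [Algebra (RatFunc k) W] [IsScalarTower k (RatFunc k) W] [FiniteDimensional (RatFunc k) W]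
    [Algebra.IsSeparable (RatFunc k) W] : LemW623.DivPic k W := by
  intro D hD n hn
  obtain ⟨E, f, hf, -, hE⟩ := Div6_280.exists_div hn hD
  refine ⟨E, f, hf, ?_⟩
  rw [hE]
  simp

end Crest.Agent.R013.DivPic_168
end

-- ▼ part R013/LemD3_623

/-!
# LEMW without the hypothesis on divisors (row 13, part B)
-/

set_option autoImplicit false
set_option linter.unusedSectionVars false

namespace Crest.Agent.R013.LemC623

open Module Polynomial Crest.Agent.R013.Gl946 Crest.Agent.R013.Desc_372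
  Crest.Agent.R013.Desc_372.CE
open Crest.Agent.R013.LemW623 Crest.Agent.R013.RR7_948 Crest.Agent.R013.RR8_948
  Crest.Agent.R013.RR9_948 Crest.Agent.R013.RR11_948 Crest.Agent.R013.BTor4_914
open Crest.Agent.R013.CutCov_92 Crest.Agent.R013.NB_92 Crest.Agent.R013.Half_930
  Crest.Agent.R013.Annu_930
open Crest.NumberTheoryR.Sect
open scoped NNReal

/-- divisibility of the Picard group of degree zero (168/280 over 948's Riemann-Roch) -/
theorem divStmt : DIVStmt :=
  fun κ W _ _ _ _ _ _ _ _ _ => DivPic_168.divPic κ W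

section

variable {k E Ω : Type} [NontriviallyNormedField k] [ProperSpace k] [IsUltrametricDist k]
  [CharZero k] [NormedField E] [NormedAlgebra k E] [IsUltrametricDist E] [CompleteSpace E]
  [NormedField Ω] [NormedAlgebra k Ω] [NormedAlgebra E Ω] [IsScalarTower k E Ω]
  [IsUltrametricDist Ω] [IsAlgClosed Ω] {y : E}

/-- **LEMW.** From the output of B-NB at the circle field `E = k(y)^`: a finite extension `k'` of
`k` in `Ω`, an `f ∈ U k'` with all orders divisible by `n` and `f = y z ^ n` with `z ∈ E k'`. -/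
theorem lemw' (hG : IsGauss k y) {ϖ : k} (hϖ : IsUnif ϖ)
    (hd : DenseRat k y) {s : ℝ≥0} (hs : 1 < s) {n : ℕ} (hn : 0 < n)
    (hsn : (s : ℝ)⁻¹ ≤ ‖(n : k)‖ ^ 2) {U V : Type} [Field U] [Algebra k U] [CommRing V]
    [Algebra E V] {d : ℕ} (X : Edge (gaussDatum hG hϖ hd) V d) (j : U →+* V) (σ : V →ₐ[E] E)
    (hNB : NBOut (gaussDatum hG hϖ hd) (Am hG hϖ hd hs) (Ap hG hϖ hd hs) U V d X j σ)
    (xU : U) (hjx : σ (j xU) = y) [Algebra U Ω] [IsScalarTower k U Ω]
    (hUΩ : ∀ u, algebraMap U Ω u = algebraMap E Ω (σ (j u))) :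
    ∃ (k' : IntermediateField k Ω) (_ : FiniteDimensional k k') (f : lev U Ω k')
      (z : lev E Ω k'), f ≠ 0 ∧ LDiv k' n f ∧ z ≠ 0 ∧
      (f : Ω) = algebraMap E Ω y * (z : Ω) ^ n :=
  lemw divStmt hG hϖ hd hs hn hsn X j σ hNB xU hjx hUΩ

end

end Crest.Agent.R013.LemC623
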