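import Mathlib
import Crest.Agent.R013.RR24_948
import Crest.Agent.R013.Car6_700
import Crest.Agent.R013.GR2_921

-- ▼ part R013/RR25_948
section

/-!
# R013 / RR25: derivations, traces and norms; the functional `cinf ∘ Tr` (helper948)
-/

set_option autoImplicit false
set_option linter.all false

namespace Crest.Agent.R013.RR25_948

open Polynomial WithZero Module IsDedekindDomain nonZeroDivisors
open Crest.Agent.R013.RR1_948 Crest.Agent.R013.RR2_948 Crest.Agent.R013.RR3_948
open Crest.Agent.R013.RR4_948 Crest.Agent.R013.RR5_948 Crest.Agent.R013.RR6_948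
open Crest.Agent.R013.RR7_948 Crest.Agent.R013.RR8_948 Crest.Agent.R013.RR9_948
open Crest.Agent.R013.RR11_948 Crest.Agent.R013.RR12_948 Crest.Agent.R013.RR13_948
open Crest.Agent.R013.RR14_948 Crest.Agent.R013.RR15_948
open Crest.Agent.R013.RR18_948 Crest.Agent.R013.RR19_948 Crest.Agent.R013.RR20_948
open Crest.Agent.R013.RR21_948 Crest.Agent.R013.RR23_948

section rat

variable {k : Type*} [Field k]

theorem xK_ratFunc : xK k (RatFunc k) = RatFunc.X := rfl

theorem aeval_X_ratFunc (p : k[X]) :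
    Polynomial.aeval (RatFunc.X : RatFunc k) p = algebraMap k[X] (RatFunc k) p := by
  have h := algebraMap_poly (k := k) (K := RatFunc k) p
  rw [xK_ratFunc] at h
  rw [← h]; rfl

theorem dR_poly (p : k[X]) : del k (RatFunc k) (algebraMap k[X] (RatFunc k) p) =
    algebraMap k[X] (RatFunc k) (Polynomial.derivative p) := by
  have h := del_poly (k := k) (K := RatFunc k) p
  rw [xK_ratFunc, aeval_X_ratFunc, aeval_X_ratFunc] at h
  exact h

theorem dR_X : del k (RatFunc k) RatFunc.X = 1 := del_xK k (RatFunc k)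

theorem vinf_dR_poly (p : k[X]) : vinf k (del k (RatFunc k) (algebraMap k[X] (RatFunc k) p)) ≤
    exp (-1) * vinf k (algebraMap k[X] (RatFunc k) p) := by
  rw [dR_poly]
  by_cases h0 : Polynomial.derivative p = 0
  · rw [h0, map_zero, map_zero]; exact zero_le
  · have hp : p ≠ 0 := by rintro rfl; exact h0 (by simp)
    rw [vinf_poly k h0, vinf_poly k hp, ← exp_add, exp_le_exp]
    have h1 : p.natDegree ≠ 0 := by
      intro h
      apply h0
      rw [Polynomial.eq_C_of_natDegree_eq_zero h, Polynomial.derivative_C]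
    have h2 := Polynomial.natDegree_derivative_lt h1
    omega

theorem vinf_dR (r : RatFunc k) : vinf k (del k (RatFunc k) r) ≤ exp (-1) * vinf k r := by
  set p := algebraMap k[X] (RatFunc k) r.num with hp
  set q := algebraMap k[X] (RatFunc k) r.denom with hq
  have hq0 : q ≠ 0 := by simpa [hq] using r.denom_ne_zero
  have hr : r * q = p := by
    have h3 : p / q = r := RatFunc.num_div_denom r
    rw [div_eq_iff hq0] at h3
    exact h3.symm
  have h1 := congrArg (del k (RatFunc k)) hr
  rw [Derivation.leibniz, smul_eq_mul, smul_eq_mul] at h1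
  have h2 : del k (RatFunc k) r = (del k (RatFunc k) p - r * del k (RatFunc k) q) * q⁻¹ := by
    rw [← h1]; field_simp; ring
  have hvq : vinf k q ≠ 0 := (Valuation.ne_zero_iff _).mpr hq0
  rw [h2, map_mul, map_inv₀]
  calc _ ≤ (exp (-1) * (vinf k r * vinf k q)) * (vinf k q)⁻¹ := by
        apply mul_le_mul_left
        refine (Valuation.map_sub _ _ _).trans (max_le ?_ ?_)
        · rw [← map_mul, hr]
          exact vinf_dR_poly _
        · rw [map_mul]
          calc _ ≤ vinf k r * (exp (-1) * vinf k q) := mul_le_mul_right (vinf_dR_poly _) _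
            _ = _ := by rw [mul_left_comm]
    _ = _ := by rw [mul_assoc, mul_assoc, mul_inv_cancel₀ hvq, mul_one]


theorem cinf_dlog {r : RatFunc k} {m : ℤ} (hm : vinf k r = exp m) :
    cinf k (del k (RatFunc k) r / r) = m := by
  have hr : r ≠ 0 := by rintro rfl; rw [map_zero] at hm; exact exp_ne_zero hm.symm
  set u := r * RatFunc.X ^ (-m) with hu
  have hX : (RatFunc.X : RatFunc k) ≠ 0 := RatFunc.X_ne_zero
  have hu0 : u ≠ 0 := mul_ne_zero hr (zpow_ne_zero _ hX)
  have hvu : vinf k u = 1 := by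
    rw [hu, map_mul, hm, vinf_X_zpow, ← exp_add]; simp
  have hru : r = RatFunc.X ^ m * u := by
    rw [hu, mul_comm, mul_assoc, ← zpow_add₀ hX]; simp
  obtain ⟨c, hc⟩ := exists_C_sub k hvu.le
  rw [lt_one_iff] at hc
  have h1 : del k (RatFunc k) r / r = (m : RatFunc k) * RatFunc.X⁻¹ + del k (RatFunc k) u / u := by
    rw [hru, Derivation.leibniz, Derivation.leibniz_zpow, dR_X, smul_eq_mul, smul_eq_mul, smul_eq_mul,
      zsmul_eq_mul, mul_one]
    have h2 : (RatFunc.X : RatFunc k) ^ m = RatFunc.X ^ (m - 1) * RatFunc.X := by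
      rw [← zpow_add_one₀ hX]; simp
    have h3 : (RatFunc.X : RatFunc k) ^ (m - 1) ≠ 0 := zpow_ne_zero _ hX
    rw [h2]
    field_simp
    ring
  apply cinf_eq
  apply Submodule.mem_sup_right
  have h4 : del k (RatFunc k) r / r - RatFunc.C (m : k) * RatFunc.X⁻¹ = del k (RatFunc k) u / u := by
    rw [h1, map_intCast]; ring
  rw [h4, mem_infS, map_div₀, hvu, div_one]
  have h5 : del k (RatFunc k) u = del k (RatFunc k) (u - RatFunc.C c) := by
    rw [map_sub, ← algebraMap_eq_C, Derivation.map_algebraMap, sub_zero]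
  rw [h5]
  refine (vinf_dR _).trans ?_
  calc _ ≤ exp (-1) * exp (-1) := mul_le_mul_right hc _
    _ = exp (-2) := by rw [← exp_add]; norm_num

end rat

section hom

variable {k : Type*} [Field k] {K : Type*} [Field K] [Algebra k K] [Algebra (RatFunc k) K]
  [IsScalarTower k (RatFunc k) K] [Algebra.IsSeparable (RatFunc k) K]
  {L : Type*} [Field L] [Algebra k L] [Algebra (RatFunc k) L] [IsScalarTower k (RatFunc k) L]
  [Algebra.IsSeparable (RatFunc k) L]

theorem del_algebraMap' [Algebra K L] [IsScalarTower k K L] [IsScalarTower (RatFunc k) K L] (f : K) :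
    del k L (algebraMap K L f) = algebraMap K L (del k K f) := by
  have h1 := congrArg (KaehlerDifferential.map k k K L) (D_eq k K f)
  have hx : algebraMap K L (xK k K) = xK k L := by
    unfold xK
    rw [← IsScalarTower.algebraMap_apply]
  rw [KaehlerDifferential.map_D] at h1
  rw [map_smul, KaehlerDifferential.map_D, hx] at h1
  rw [D_eq k L (algebraMap K L f)] at h1
  have h2 : (del k L (algebraMap K L f) - algebraMap K L (del k K f)) •
      KaehlerDifferential.D k L (xK k L) = 0 := by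
    rw [sub_smul, h1, algebraMap_smul, sub_self]
  rcases smul_eq_zero.mp h2 with h3 | h3
  · exact sub_eq_zero.mp h3
  · exact absurd h3 (D_xK_ne_zero k L)

/-- `d/dX` commutes with homomorphisms over `k(X)` -/
theorem del_hom (τ : K →ₐ[RatFunc k] L) (f : K) : del k L (τ f) = τ (del k K f) := by
  letI : Algebra K L := τ.toRingHom.toAlgebra
  haveI : IsScalarTower (RatFunc k) K L := IsScalarTower.of_algebraMap_eq fun c => (τ.commutes c).symm
  haveI : IsScalarTower k K L := IsScalarTower.of_algebraMap_eq fun c => by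
    show _ = τ (algebraMap k K c)
    rw [IsScalarTower.algebraMap_apply k (RatFunc k) K, τ.commutes,
      ← IsScalarTower.algebraMap_apply]
  exact del_algebraMap' f

theorem del_algebraMap_rat (r : RatFunc k) :
    del k L (algebraMap (RatFunc k) L r) = algebraMap (RatFunc k) L (del k (RatFunc k) r) :=
  del_hom (Algebra.ofId (RatFunc k) L) r

theorem dlog_prod {ι : Type*} (D : Derivation k L L) (s : Finset ι) (f : ι → L)
    (hf : ∀ i ∈ s, f i ≠ 0) : D (∏ i ∈ s, f i) / ∏ i ∈ s, f i = ∑ i ∈ s, D (f i) / f i := by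
  classical
  induction s using Finset.induction_on with
  | empty => simp
  | insert a s ha ih =>
    have h1 : f a ≠ 0 := hf a (Finset.mem_insert_self _ _)
    have h2 : ∏ i ∈ s, f i ≠ 0 :=
      Finset.prod_ne_zero_iff.mpr fun i hi => hf i (Finset.mem_insert_of_mem hi)
    rw [Finset.prod_insert ha, Finset.sum_insert ha,
      ← ih (fun i hi => hf i (Finset.mem_insert_of_mem hi)), Derivation.leibniz, smul_eq_mul,
      smul_eq_mul]
    field_simp
    ring

end hom

section trace

variable {k : Type*} [Field k] {K : Type*} [Field K] [Algebra k K] [Algebra (RatFunc k) K]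
  [IsScalarTower k (RatFunc k) K] [FiniteDimensional (RatFunc k) K]
  [Algebra.IsSeparable (RatFunc k) K]

theorem exists_restrict (σ : K →ₐ[RatFunc k] AlgebraicClosure K) :
    ∃ τ : K →ₐ[RatFunc k] separableClosure (RatFunc k) (AlgebraicClosure K),
      ∀ f, (τ f : AlgebraicClosure K) = σ f := by
  refine ⟨σ.codRestrict (separableClosure (RatFunc k) (AlgebraicClosure K)).toSubalgebra ?_,
    fun f => rfl⟩
  intro f
  show σ f ∈ separableClosure (RatFunc k) (AlgebraicClosure K)
  rw [mem_separableClosure_iff]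
  have h : IsSeparable (RatFunc k) f := Algebra.IsSeparable.isSeparable _ f
  unfold IsSeparable at h ⊢
  rw [minpoly.algHom_eq σ σ.toRingHom.injective]
  exact h


/-- `Tr (dlog f) = dlog (N f)` -/
theorem trace_dlog {f : K} (hf : f ≠ 0) : Algebra.trace (RatFunc k) K (del k K f / f) =
    del k (RatFunc k) (Algebra.norm (RatFunc k) f) / Algebra.norm (RatFunc k) f := by
  set E := AlgebraicClosure K
  set S := separableClosure (RatFunc k) E with hS
  haveI : IsScalarTower k (RatFunc k) S := inferInstance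
  choose τ hτ using exists_restrict (k := k) (K := K)
  apply (algebraMap (RatFunc k) E).injective
  have h1 : algebraMap (RatFunc k) S (Algebra.norm (RatFunc k) f) = ∏ σ, τ σ f := by
    apply Subtype.ext
    have h2 : ((algebraMap (RatFunc k) S (Algebra.norm (RatFunc k) f) : S) : E)
        = algebraMap (RatFunc k) E (Algebra.norm (RatFunc k) f) := rfl
    rw [h2, Algebra.norm_eq_prod_embeddings (RatFunc k) E]
    rw [SubmonoidClass.coe_finsetProd]
    exact Finset.prod_congr rfl fun σ _ => (hτ σ f).symm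
  have h3 : algebraMap (RatFunc k) E (del k (RatFunc k) (Algebra.norm (RatFunc k) f) /
      Algebra.norm (RatFunc k) f)
      = ((del k S (algebraMap (RatFunc k) S (Algebra.norm (RatFunc k) f)) /
        algebraMap (RatFunc k) S (Algebra.norm (RatFunc k) f) : S) : E) := by
    rw [del_algebraMap_rat, ← map_div₀]; rfl
  rw [h3, h1, dlog_prod (del k S), AddSubmonoidClass.coe_finsetSum, trace_eq_sum_embeddings E]
  · refine Finset.sum_congr rfl fun σ _ => ?_
    rw [del_hom, map_div₀, ← hτ, ← hτ]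
    rfl
  · intro σ _
    rw [_root_.map_ne_zero]
    exact hf

end trace

section lt

variable {k : Type*} [Field k] {K : Type*} [Field K] [Algebra k K] [Algebra (RatFunc k) K]
  [IsScalarTower k (RatFunc k) K] [FiniteDimensional (RatFunc k) K]
  [Algebra.IsSeparable (RatFunc k) K]

variable (k K) in
/-- the total functional `f ↦ cinf (Tr f)` -/
noncomputable def lt : K →ₗ[k] k := (cinf k).comp ((Algebra.trace (RatFunc k) K).restrictScalars k)

theorem lt_apply (f : K) : lt k K f = cinf k (Algebra.trace (RatFunc k) K f) := rfl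

theorem pair_eq_lt (f g : K) : pair k K f g = lt k K (f * g) := rfl

theorem lt_of_N0 {f : K} (h : f ∈ N0 (canD k K)) : lt k K f = 0 := by
  have h1 : (1 : K) ∈ N0 (canD k K - canD k K) := by
    rw [sub_self, mem_N0]
    intro P _
    rw [map_one, Finsupp.zero_apply, exp_zero]
  have := mem_N0_iff.mp h1 f h
  rwa [pair_eq_lt, mul_one] at this

theorem lt_of_N1 {f : K} (h : f ∈ N1 (canD k K)) : lt k K f = 0 := by
  have h1 : (1 : K) ∈ N1 (canD k K - canD k K) := by
    rw [sub_self, mem_N1]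
    intro P _
    rw [map_one, Finsupp.zero_apply, exp_zero]
  have := mem_N1_iff.mp h1 f h
  rwa [pair_eq_lt, mul_one] at this



end lt

end Crest.Agent.R013.RR25_948
end

-- ▼ part R013/RR26_948
section

/-!
# R013 / RR26: residues and the residue theorem (helper948)

`res P f` is the residue at `P` of the differential `f dX`.
-/

set_option autoImplicit false
set_option linter.all false

namespace Crest.Agent.R013.RR26_948

open Polynomial WithZero Module IsDedekindDomain nonZeroDivisors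
open Crest.Agent.R013.RR1_948 Crest.Agent.R013.RR2_948 Crest.Agent.R013.RR3_948
open Crest.Agent.R013.RR4_948 Crest.Agent.R013.RR5_948 Crest.Agent.R013.RR6_948
open Crest.Agent.R013.RR7_948 Crest.Agent.R013.RR8_948 Crest.Agent.R013.RR9_948
open Crest.Agent.R013.RR11_948 Crest.Agent.R013.RR12_948 Crest.Agent.R013.RR13_948
open Crest.Agent.R013.RR14_948 Crest.Agent.R013.RR15_948
open Crest.Agent.R013.RR18_948 Crest.Agent.R013.RR19_948 Crest.Agent.R013.RR20_948
open Crest.Agent.R013.RR21_948 Crest.Agent.R013.RR22_948 Crest.Agent.R013.RR23_948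
open Crest.Agent.R013.RR24_948 Crest.Agent.R013.RR25_948

section res

variable {k : Type*} [Field k] {K : Type*} [Field K] [Algebra k K] [Algebra (RatFunc k) K]

/-- same chart: `x` finite or `x` infinite -/
def Same (P Q : Pl k K) : Prop := P.v (xK k K) ≤ 1 ↔ Q.v (xK k K) ≤ 1

theorem Same.refl (P : Pl k K) : Same P P := Iff.rfl

theorem Same.symm {P Q : Pl k K} (h : Same P Q) : Same Q P := Iff.symm h

theorem Same.trans {P Q R : Pl k K} (h : Same P Q) (h' : Same Q R) : Same P R := Iff.trans h h'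

variable [IsScalarTower k (RatFunc k) K] [FiniteDimensional (RatFunc k) K]
  [Algebra.IsSeparable (RatFunc k) K]

variable (k K) in
theorem exists_infinite : ∃ P : Pl k K, 1 < P.v (xK k K) := by
  obtain ⟨Q, hQ⟩ := above_nonempty (L := K) (pinf k)
  rw [mem_above] at hQ
  refine ⟨Q, ?_⟩
  by_contra h
  rw [not_lt] at h
  have h1 := (under_le_one_iff (K := RatFunc k) Q RatFunc.X).mpr h
  rw [hQ] at h1
  have h2 : (pinf k).v RatFunc.X = exp 1 := vinf_X k
  rw [h2, ← exp_zero, exp_le_exp] at h1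
  norm_num at h1

variable (k K) in
theorem exists_finite : ∃ P : Pl k K, P.v (xK k K) ≤ 1 := by
  have hfin : {P : Pl k K | P.v (xK k K) ≠ 1}.Finite := RR11_948.finite_ne_one xK_ne_zero
  obtain ⟨P, hP⟩ := exists_notMem hfin.toFinset
  refine ⟨P, ?_⟩
  rw [Set.Finite.mem_toFinset] at hP
  simp only [Set.mem_ofPred_eq, not_not] at hP
  exact hP.le

theorem exists_not_same (P : Pl k K) : ∃ Q : Pl k K, ¬ Same P Q := by
  by_cases hP : P.v (xK k K) ≤ 1
  · obtain ⟨Q, hQ⟩ := exists_infinite k K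
    exact ⟨Q, fun h => absurd (h.mp hP) (not_le.mpr hQ)⟩
  · obtain ⟨Q, hQ⟩ := exists_finite k K
    exact ⟨Q, fun h => hP (h.mpr hQ)⟩

/-- approximation in one chart -/
theorem exists_app (P : Pl k K) (f : K) (D : Pl k K →₀ ℤ) :
    ∃ f' : K, P.v (f' - f) ≤ exp (D P) ∧ ∀ Q, Q ≠ P → Same P Q → Q.v f' ≤ exp (D Q) := by
  classical
  obtain ⟨R, hR⟩ := exists_not_same P
  have hRP : R ≠ P := fun h => hR (h ▸ Same.refl P)
  obtain ⟨m, hm⟩ : ∃ m : ℕ, degD (canD k K) < degD (D + Finsupp.single R (m : ℤ)) := by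
    refine ⟨(degD (canD k K) - degD D + 1).toNat, ?_⟩
    rw [degD_add, degD_single]
    have h1 := Int.self_le_toNat (degD (canD k K) - degD D + 1)
    have h2 : (1 : ℤ) ≤ degP R := by exact_mod_cast degP_pos R
    nlinarith [Int.natCast_nonneg (degD (canD k K) - degD D + 1).toNat]
  obtain ⟨f', h1, h2⟩ := approx_one hm P f
  refine ⟨f', ?_, ?_⟩
  · rw [Finsupp.add_apply, Finsupp.single_apply, if_neg hRP, add_zero] at h1
    exact h1
  · intro Q hQP hS
    have h3 := h2 Q hQP
    have hRQ : R ≠ Q := fun h => hR (h ▸ hS)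
    rwa [Finsupp.add_apply, Finsupp.single_apply, if_neg hRQ, add_zero] at h3

theorem lt_eq_zero (P : Pl k K) {g : K} (h : ∀ Q, Same P Q → Q.v g ≤ exp (canD k K Q)) :
    lt k K g = 0 := by
  by_cases hP : P.v (xK k K) ≤ 1
  · apply lt_of_N0
    rw [mem_N0]
    exact fun Q hQ => h Q ⟨fun _ => hQ, fun _ => hP⟩
  · apply lt_of_N1
    rw [mem_N1]
    exact fun Q hQ => h Q ⟨fun h' => absurd h' hP, fun h' => absurd hQ (not_lt.mpr h')⟩

/-- the sign of the chart -/
noncomputable def sg (P : Pl k K) : k := by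
  classical exact if P.v (xK k K) ≤ 1 then 1 else -1


theorem sg_eq {P Q : Pl k K} (h : Same P Q) : sg P = sg Q := by
  unfold sg
  unfold Same at h
  simp only [h]

theorem res_aux (P : Pl k K) {f f' f'' : K} (h1 : P.v (f' - f) ≤ exp (canD k K P))
    (h2 : ∀ Q, Q ≠ P → Same P Q → Q.v f' ≤ exp (canD k K Q))
    (h1' : P.v (f'' - f) ≤ exp (canD k K P))
    (h2' : ∀ Q, Q ≠ P → Same P Q → Q.v f'' ≤ exp (canD k K Q)) : lt k K f' = lt k K f'' := by
  rw [← sub_eq_zero, ← map_sub]
  apply lt_eq_zero P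
  intro Q hQ
  by_cases hQP : Q = P
  · subst hQP
    have : f' - f'' = (f' - f) - (f'' - f) := by ring
    rw [this]
    exact (Valuation.map_sub _ _ _).trans (max_le h1 h1')
  · exact (Valuation.map_sub _ _ _).trans (max_le (h2 Q hQP hQ) (h2' Q hQP hQ))

/-- **the residue** of `f dX` at `P` -/
noncomputable def res (P : Pl k K) : K →ₗ[k] k where
  toFun f := sg P * lt k K (exists_app P f (canD k K)).choose
  map_add' f g := by
    rw [← mul_add, ← map_add]
    congr 1
    obtain ⟨h1, h2⟩ := (exists_app P f (canD k K)).choose_spec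
    obtain ⟨h3, h4⟩ := (exists_app P g (canD k K)).choose_spec
    obtain ⟨h5, h6⟩ := (exists_app P (f + g) (canD k K)).choose_spec
    refine res_aux P h5 h6 ?_ ?_
    · rw [add_sub_add_comm]
      exact (Valuation.map_add _ _ _).trans (max_le h1 h3)
    · intro Q hQ hS
      exact (Valuation.map_add _ _ _).trans (max_le (h2 Q hQ hS) (h4 Q hQ hS))
  map_smul' a f := by
    rw [RingHom.id_apply, smul_eq_mul, mul_left_comm, ← smul_eq_mul (a := a), ← map_smul]
    congr 1
    obtain ⟨h1, h2⟩ := (exists_app P f (canD k K)).choose_spec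
    obtain ⟨h5, h6⟩ := (exists_app P (a • f) (canD k K)).choose_spec
    refine res_aux P h5 h6 ?_ ?_
    · rw [← smul_sub]
      exact (ball P _).smul_mem a h1
    · intro Q hQ hS
      exact (ball Q _).smul_mem a (h2 Q hQ hS)

theorem res_eq (P : Pl k K) {f f' : K} (h1 : P.v (f' - f) ≤ exp (canD k K P))
    (h2 : ∀ Q, Q ≠ P → Same P Q → Q.v f' ≤ exp (canD k K Q)) : res P f = sg P * lt k K f' := by
  obtain ⟨h3, h4⟩ := (exists_app P f (canD k K)).choose_spec
  show sg P * lt k K (exists_app P f (canD k K)).choose = _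
  rw [res_aux P h3 h4 h1 h2]

/-- regular differentials have no residues -/
theorem res_of_le {P : Pl k K} {f : K} (h : P.v f ≤ exp (canD k K P)) : res P f = 0 := by
  rw [res_eq P (f' := 0) (by rw [zero_sub, Valuation.map_neg]; exact h)
    (fun Q _ _ => by rw [map_zero]; exact zero_le), map_zero, mul_zero]

/-- the residue depends only on the germ -/
theorem res_congr {P : Pl k K} {f g : K} (h : P.v (f - g) ≤ exp (canD k K P)) : res P f = res P g := by
  rw [← sub_eq_zero, ← map_sub, res_of_le h]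


/-- the sum of the residues in one chart -/
theorem lt_eq_sum (P0 : Pl k K) (f : K) (S : Finset (Pl k K)) (hS1 : ∀ Q ∈ S, Same P0 Q)
    (hS : ∀ Q, Same P0 Q → Q ∉ S → Q.v f ≤ exp (canD k K Q)) :
    sg P0 * lt k K f = ∑ P ∈ S, res P f := by
  classical
  choose a ha1 ha2 using fun P : Pl k K => exists_app P f (canD k K)
  have h1 : ∀ P ∈ S, res P f = sg P0 * lt k K (a P) := by
    intro P hP
    rw [res_eq P (ha1 P) (ha2 P), sg_eq (hS1 P hP)]
  rw [Finset.sum_congr rfl h1, ← Finset.mul_sum, ← map_sum]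
  congr 1
  rw [← sub_eq_zero, ← map_sub]
  apply lt_eq_zero P0
  intro Q hQ
  by_cases hQS : Q ∈ S
  · rw [← Finset.add_sum_erase S a hQS]
    have : f - (a Q + ∑ P ∈ S.erase Q, a P) = -((a Q - f) + ∑ P ∈ S.erase Q, a P) := by ring
    rw [this, Valuation.map_neg]
    refine (Valuation.map_add _ _ _).trans (max_le (ha1 Q) ?_)
    refine Valuation.map_sum_le _ fun P hP => ?_
    rw [Finset.mem_erase] at hP
    exact ha2 P Q (Ne.symm hP.1) ((hS1 P hP.2).symm.trans hQ)
  · refine (Valuation.map_sub _ _ _).trans (max_le (hS Q hQ hQS) ?_)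
    refine Valuation.map_sum_le _ fun P hP => ?_
    exact ha2 P Q (fun h => hQS (h ▸ hP)) ((hS1 P hP).symm.trans hQ)

/-- **the residue theorem** -/
theorem sum_res (f : K) (S : Finset (Pl k K)) (hS : ∀ Q ∉ S, Q.v f ≤ exp (canD k K Q)) :
    ∑ P ∈ S, res P f = 0 := by
  classical
  obtain ⟨P0, hP0⟩ := exists_finite k K
  obtain ⟨P1, hP1⟩ := exists_infinite k K
  rw [← Finset.sum_filter_add_sum_filter_not S (fun P => P.v (xK k K) ≤ 1)]
  rw [← lt_eq_sum P0 f, ← lt_eq_sum P1 f]
  · have h0 : sg P0 = 1 := by unfold sg; rw [if_pos hP0]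
    have h1 : sg P1 = -1 := by unfold sg; rw [if_neg (not_le.mpr hP1)]
    rw [h0, h1]; ring
  · intro Q hQ
    rw [Finset.mem_filter] at hQ
    exact ⟨fun h => absurd h (not_le.mpr hP1), fun h => absurd h hQ.2⟩
  · intro Q hQ hQS
    rw [Finset.mem_filter, not_and, not_not] at hQS
    by_cases hQS' : Q ∈ S
    · exact absurd (hQ.mpr (hQS hQS')) (not_le.mpr hP1)
    · exact hS Q hQS'
  · intro Q hQ
    rw [Finset.mem_filter] at hQ
    exact ⟨fun _ => hQ.2, fun _ => hP0⟩
  · intro Q hQ hQS
    rw [Finset.mem_filter, not_and] at hQS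
    by_cases hQS' : Q ∈ S
    · exact absurd (hQ.mp hP0) (hQS hQS')
    · exact hS Q hQS'


end res

end Crest.Agent.R013.RR26_948
end

-- ▼ part R013/RR27_948
section

/-!
# R013 / RR27: computation of residues (helper948)

* `res_car` : `res P f = (res P (car f)) ^ p` (`k` perfect of characteristic `p`);
* `res_del` : exact differentials have no residues (`k` perfect);
* `sum_res_above` : `∑_{Q | P0} res Q f = res P0 (Tr f)`, `P0` a place of `k(x)`.
-/

set_option autoImplicit false
set_option linter.all false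

namespace Crest.Agent.R013.RR27_948

open Polynomial WithZero Module IsDedekindDomain nonZeroDivisors
open Crest.Agent.R013.RR1_948 Crest.Agent.R013.RR2_948 Crest.Agent.R013.RR3_948
open Crest.Agent.R013.RR4_948 Crest.Agent.R013.RR5_948 Crest.Agent.R013.RR6_948
open Crest.Agent.R013.RR7_948 Crest.Agent.R013.RR8_948 Crest.Agent.R013.RR9_948
open Crest.Agent.R013.RR11_948 Crest.Agent.R013.RR12_948 Crest.Agent.R013.RR13_948
open Crest.Agent.R013.RR14_948 Crest.Agent.R013.RR15_948
open Crest.Agent.R013.RR18_948 Crest.Agent.R013.RR19_948 Crest.Agent.R013.RR20_948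
open Crest.Agent.R013.RR21_948 Crest.Agent.R013.RR22_948 Crest.Agent.R013.RR23_948
open Crest.Agent.R013.RR24_948 Crest.Agent.R013.RR25_948 Crest.Agent.R013.RR26_948

section sg

variable {k : Type*} [Field k] {K : Type*} [Field K] [Algebra k K] [Algebra (RatFunc k) K]


theorem sg_of_finite {P : Pl k K} (h : P.v (xK k K) ≤ 1) : sg P = 1 := by
  unfold sg; rw [if_pos h]

theorem sg_of_infinite {P : Pl k K} (h : ¬ P.v (xK k K) ≤ 1) : sg P = -1 := by
  unfold sg; rw [if_neg h]

end sg

section car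

variable {k : Type*} [Field k] (p : ℕ) [hp : Fact p.Prime] [CharP k p] [PerfectRing k p]
  {K : Type*} [Field K] [Algebra k K] [Algebra (RatFunc k) K]
  [IsScalarTower k (RatFunc k) K] [FiniteDimensional (RatFunc k) K]
  [Algebra.IsSeparable (RatFunc k) K]









end car

section del

variable {k : Type*} [Field k] [PerfectField k] {K : Type*} [Field K] [Algebra k K]
  [Algebra (RatFunc k) K] [IsScalarTower k (RatFunc k) K] [FiniteDimensional (RatFunc k) K]
  [Algebra.IsSeparable (RatFunc k) K]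


/-- `dlog` of a unit is regular -/
theorem v_dlog_unit (P : Pl k K) {u : K} (hu : P.v u = 1) :
    P.v (del k K u / u) ≤ exp (canD k K P) := by
  rw [map_div₀, hu, div_one]
  exact Crest.Agent.R013.Car5_700.v_del_le P hu.le

/-- `dlog f = n dlog t + regular` -/
theorem v_dlog_sub (P : Pl k K) {t f : K} {n : ℤ} (ht : P.v t = exp (-1)) (hf : P.v f = exp (-n)) :
    P.v (del k K f / f - (n : K) * (del k K t / t)) ≤ exp (canD k K P) := by
  have ht0 : t ≠ 0 := by rintro rfl; rw [map_zero] at ht; exact exp_ne_zero ht.symm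
  have hf0 : f ≠ 0 := by rintro rfl; rw [map_zero] at hf; exact exp_ne_zero hf.symm
  set u := f * t ^ (-n) with hu
  have hu0 : u ≠ 0 := mul_ne_zero hf0 (zpow_ne_zero _ ht0)
  have hvu : P.v u = 1 := by
    rw [hu, map_mul, map_zpow₀, hf, ht, ← exp_zsmul, ← exp_add]; simp
  have hfu : f = t ^ n * u := by
    rw [hu, mul_comm, mul_assoc, ← zpow_add₀ ht0]; simp
  have h1 : del k K f / f = (n : K) * (del k K t / t) + del k K u / u := by
    rw [hfu, Derivation.leibniz, Derivation.leibniz_zpow, smul_eq_mul, smul_eq_mul, smul_eq_mul,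
      zsmul_eq_mul]
    have h2 : t ^ n = t ^ (n - 1) * t := by
      rw [← zpow_add_one₀ ht0]; simp
    have h3 : t ^ (n - 1) ≠ 0 := zpow_ne_zero _ ht0
    rw [h2]
    field_simp
    ring
  rw [h1, add_sub_cancel_left]
  exact v_dlog_unit P hvu

theorem res_dlog_eq (P : Pl k K) {t f : K} {n : ℤ} (ht : P.v t = exp (-1)) (hf : P.v f = exp (-n)) :
    res P (del k K f / f) = n * res P (del k K t / t) := by
  have h := res_congr (v_dlog_sub P ht hf)
  rw [h]
  have h1 : (n : K) * (del k K t / t) = (n : k) • (del k K t / t) := by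
    rw [Algebra.smul_def, map_intCast]
  rw [h1, map_smul, smul_eq_mul]

theorem res_dlog_unit (P : Pl k K) {u : K} (hu : P.v u = 1) : res P (del k K u / u) = 0 :=
  res_of_le (v_dlog_unit P hu)

end del

section above

variable {k : Type*} [Field k] {K : Type*} [Field K] [Algebra k K]
  [Algebra (RatFunc k) K] [IsScalarTower k (RatFunc k) K] [FiniteDimensional (RatFunc k) K]
  [Algebra.IsSeparable (RatFunc k) K]

theorem lt_ratFunc (r : RatFunc k) : lt k (RatFunc k) r = cinf k r := by
  rw [lt_apply, Algebra.trace_self_apply]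

theorem lt_trace (f : K) : lt k (RatFunc k) (Algebra.trace (RatFunc k) K f) = lt k K f := by
  rw [lt_ratFunc, lt_apply]

theorem algebraMap_X : algebraMap (RatFunc k) K RatFunc.X = xK k K := rfl

theorem under_finite_iff (Q : Pl k K) :
    (under (RatFunc k) Q).v (xK k (RatFunc k)) ≤ 1 ↔ Q.v (xK k K) ≤ 1 := by
  rw [xK_ratFunc]
  exact under_le_one_iff (K := RatFunc k) Q RatFunc.X

theorem same_under_iff {P Q : Pl k K} :
    Same (under (RatFunc k) P) (under (RatFunc k) Q) ↔ Same P Q := by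
  unfold Same
  rw [under_finite_iff, under_finite_iff]

theorem sg_under (Q : Pl k K) : sg (under (RatFunc k) Q) = sg Q := by
  by_cases h : Q.v (xK k K) ≤ 1
  · rw [sg_of_finite h, sg_of_finite ((under_finite_iff Q).mpr h)]
  · rw [sg_of_infinite h, sg_of_infinite (fun h' => h ((under_finite_iff Q).mp h'))]

theorem trace_smul' (g : RatFunc k) (f : K) :
    Algebra.trace (RatFunc k) K (algebraMap (RatFunc k) K g * f) =
      g * Algebra.trace (RatFunc k) K f := by
  rw [← Algebra.smul_def, map_smul, smul_eq_mul]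

theorem trace_mem_N0 {f : K} (h : f ∈ N0 (canD k K)) :
    Algebra.trace (RatFunc k) K f ∈ N0 (canD k (RatFunc k)) := by
  have h0 : canD k (RatFunc k) = canD k (RatFunc k) - 0 := by rw [sub_zero]
  rw [h0, mem_N0_iff]
  intro g hg
  rw [pair_eq_lt, ← trace_smul', lt_trace]
  apply lt_of_N0
  rw [mem_N0] at h hg ⊢
  intro Q hQ
  rw [map_mul]
  have h1 : Q.v (algebraMap (RatFunc k) K g) ≤ 1 := by
    rw [← under_le_one_iff]
    have := hg (under (RatFunc k) Q) ((under_finite_iff Q).mpr hQ)
    rwa [Finsupp.zero_apply, exp_zero] at this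
  calc _ ≤ 1 * exp (canD k K Q) := mul_le_mul' h1 (h Q hQ)
    _ = _ := one_mul _

theorem trace_mem_N1 {f : K} (h : f ∈ N1 (canD k K)) :
    Algebra.trace (RatFunc k) K f ∈ N1 (canD k (RatFunc k)) := by
  have h0 : canD k (RatFunc k) = canD k (RatFunc k) - 0 := by rw [sub_zero]
  rw [h0, mem_N1_iff]
  intro g hg
  rw [pair_eq_lt, ← trace_smul', lt_trace]
  apply lt_of_N1
  rw [mem_N1] at h hg ⊢
  intro Q hQ
  rw [map_mul]
  have h1 : Q.v (algebraMap (RatFunc k) K g) ≤ 1 := by
    rw [← under_le_one_iff]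
    have := hg (under (RatFunc k) Q) (by
      rw [← not_le]
      rw [← not_le] at hQ
      exact fun h' => hQ ((under_finite_iff Q).mp h'))
    rwa [Finsupp.zero_apply, exp_zero] at this
  calc _ ≤ 1 * exp (canD k K Q) := mul_le_mul' h1 (h Q hQ)
    _ = _ := one_mul _

theorem trace_mem_chart (P0 : Pl k K) {f : K} (h : ∀ Q, Same P0 Q → Q.v f ≤ exp (canD k K Q)) :
    (under (RatFunc k) P0).v (Algebra.trace (RatFunc k) K f) ≤
      exp (canD k (RatFunc k) (under (RatFunc k) P0)) := by
  by_cases hP : P0.v (xK k K) ≤ 1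
  · have h1 : f ∈ N0 (canD k K) := by
      rw [mem_N0]
      exact fun Q hQ => h Q ⟨fun _ => hQ, fun _ => hP⟩
    exact (mem_N0.mp (trace_mem_N0 h1)) _ ((under_finite_iff P0).mpr hP)
  · have h1 : f ∈ N1 (canD k K) := by
      rw [mem_N1]
      exact fun Q hQ => h Q ⟨fun h' => absurd h' hP, fun h' => absurd hQ (not_lt.mpr h')⟩
    refine (mem_N1.mp (trace_mem_N1 h1)) _ ?_
    rw [← not_le]
    exact fun h' => hP ((under_finite_iff P0).mp h')

/-- the trace of elements of the inverse different, locally -/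
theorem trace_le (P0 : Pl k (RatFunc k)) {f : K}
    (h : ∀ Q ∈ above K P0, Q.v f ≤ exp (canD k K Q)) :
    P0.v (Algebra.trace (RatFunc k) K f) ≤ exp (canD k (RatFunc k) P0) := by
  classical
  by_cases hf : f = 0
  · subst hf
    rw [map_zero, map_zero]
    exact zero_le
  set S : Finset (Pl k K) := (canD k K).support ∪ (divf (k := k) f).support with hS
  set w : Pl k K → ℤ := fun Q => |canD k K Q| + |divf (k := k) f Q| with hw
  have hw0 : ∀ Q, 0 ≤ w Q := fun Q => add_nonneg (abs_nonneg _) (abs_nonneg _)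
  set D0 : Pl k (RatFunc k) →₀ ℤ :=
    - ∑ Q ∈ S, Finsupp.single (under (RatFunc k) Q) (w Q) - Finsupp.single P0 1 with hD0
  have hD0le : ∀ Q : Pl k K, D0 (under (RatFunc k) Q) ≤ - w Q := by
    intro Q
    rw [hD0, Finsupp.sub_apply, Finsupp.neg_apply, Finsupp.finset_sum_apply]
    have h1 : 0 ≤ Finsupp.single P0 (1 : ℤ) (under (RatFunc k) Q) := by
      rw [Finsupp.single_apply]; split_ifs <;> norm_num
    have h2 : ∀ R ∈ S, 0 ≤ Finsupp.single (under (RatFunc k) R) (w R) (under (RatFunc k) Q) := by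
      intro R _
      rw [Finsupp.single_apply]; split_ifs
      · exact hw0 R
      · exact le_rfl
    by_cases hQ : Q ∈ S
    · have h3 := Finset.single_le_sum h2 hQ
      rw [Finsupp.single_apply, if_pos rfl] at h3
      linarith
    · have h3 := Finset.sum_nonneg h2
      have h4 : w Q = 0 := by
        rw [hS, Finset.mem_union, not_or, Finsupp.notMem_support_iff, Finsupp.notMem_support_iff] at hQ
        rw [hw]
        simp only [hQ.1, hQ.2, abs_zero, add_zero]
      linarith
  obtain ⟨s, hs1, hs2⟩ := exists_app P0 (1 : RatFunc k) D0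
  have hD0P : D0 P0 ≤ -1 := by
    rw [hD0, Finsupp.sub_apply, Finsupp.neg_apply, Finsupp.finset_sum_apply, Finsupp.single_eq_same]
    have h2 : ∀ R ∈ S, 0 ≤ Finsupp.single (under (RatFunc k) R) (w R) P0 := by
      intro R _
      rw [Finsupp.single_apply]; split_ifs
      · exact hw0 R
      · exact le_rfl
    have h3 := Finset.sum_nonneg h2
    linarith
  have hs3 : P0.v s = 1 := by
    have h1 : P0.v (s - 1) < P0.v 1 := by
      rw [map_one]
      refine hs1.trans_lt ?_
      rw [← exp_zero, exp_lt_exp]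
      linarith
    have h2 := Valuation.map_add_eq_of_lt_left P0.v h1
    rw [add_sub_cancel, map_one] at h2
    exact h2
  obtain ⟨Q0, hQ0⟩ := above_nonempty (L := K) P0
  rw [mem_above] at hQ0
  have key : ∀ Q, Same Q0 Q → Q.v (algebraMap (RatFunc k) K s * f) ≤ exp (canD k K Q) := by
    intro Q hQ
    by_cases hQP : under (RatFunc k) Q = P0
    · rw [map_mul]
      have h1 : Q.v (algebraMap (RatFunc k) K s) = 1 := by
        have := v_algebraMap_exp (K := RatFunc k) Q (f := s) (n := 0) (by rw [hQP, hs3, exp_zero])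
        rw [this, mul_zero, exp_zero]
      rw [h1, one_mul]
      exact h Q (by rw [mem_above]; exact hQP)
    · have h1 : (under (RatFunc k) Q).v s ≤ exp (D0 (under (RatFunc k) Q)) := by
        apply hs2 _ hQP
        rw [← hQ0, same_under_iff]
        exact hQ
      have h2 : Q.v (algebraMap (RatFunc k) K s) ≤ exp (-w Q) := by
        rw [v_algebraMap]
        calc (under (RatFunc k) Q).v s ^ eR (RatFunc k) Q
            ≤ exp (-w Q) ^ eR (RatFunc k) Q :=
              pow_le_pow_left₀ zero_le (h1.trans (exp_le_exp.mpr (hD0le Q))) _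
          _ ≤ exp (-w Q) := by
              rw [← exp_nsmul, exp_le_exp]
              have h3 := hw0 Q
              have h4 : (1 : ℤ) ≤ eR (RatFunc k) Q := by exact_mod_cast eR_pos (K := RatFunc k) Q
              rw [nsmul_eq_mul]
              nlinarith
      rw [map_mul, v_eq (k := k) hf Q]
      calc _ ≤ exp (-w Q) * exp (-divf (k := k) f Q) := mul_le_mul_left h2 _
        _ ≤ _ := by
          rw [← exp_add, exp_le_exp, hw]
          have h5 := neg_abs_le (canD k K Q)
          have h6 := neg_abs_le (divf (k := k) f Q)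
          simp only
          linarith
  have h1 := trace_mem_chart Q0 key
  rw [trace_smul', map_mul, hQ0, hs3, one_mul] at h1
  exact h1

/-- **residues and traces** -/
theorem sum_res_above (P0 : Pl k (RatFunc k)) (f : K) :
    ∑ Q ∈ above K P0, res Q f = res P0 (Algebra.trace (RatFunc k) K f) := by
  classical
  choose a ha1 ha2 using fun P : Pl k K => exists_app P f (canD k K)
  set f' := ∑ P ∈ above K P0, a P with hf'
  obtain ⟨Q0, hQ0⟩ := above_nonempty (L := K) P0
  rw [mem_above] at hQ0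
  have hsame : ∀ P ∈ above K P0, Same Q0 P := by
    intro P hP
    rw [mem_above] at hP
    rw [← same_under_iff, hQ0, hP]
    exact Same.refl _
  have h1 : ∀ Q ∈ above K P0, Q.v (f' - f) ≤ exp (canD k K Q) := by
    intro Q hQ
    rw [hf', ← Finset.add_sum_erase _ a hQ]
    have : a Q + ∑ P ∈ (above K P0).erase Q, a P - f =
      (a Q - f) + ∑ P ∈ (above K P0).erase Q, a P := by ring
    rw [this]
    refine (Valuation.map_add _ _ _).trans (max_le (ha1 Q) ?_)
    refine Valuation.map_sum_le _ fun P hP => ?_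
    rw [Finset.mem_erase] at hP
    exact ha2 P Q (Ne.symm hP.1) ((hsame P hP.2).symm.trans (hsame Q hQ))
  have h2 : ∀ Q, Same Q0 Q → Q ∉ above K P0 → Q.v f' ≤ exp (canD k K Q) := by
    intro Q hQ hQn
    refine Valuation.map_sum_le _ fun P hP => ?_
    exact ha2 P Q (fun h => hQn (h ▸ hP)) ((hsame P hP).symm.trans hQ)
  have h3 := lt_eq_sum Q0 f' (above K P0) hsame h2
  have h4 : ∑ Q ∈ above K P0, res Q f' = ∑ Q ∈ above K P0, res Q f :=
    Finset.sum_congr rfl fun Q hQ => res_congr (h1 Q hQ)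
  rw [← h4, ← h3, ← lt_trace, ← sg_under, hQ0]
  have h5 : P0.v (Algebra.trace (RatFunc k) K f' - Algebra.trace (RatFunc k) K f) ≤
      exp (canD k (RatFunc k) P0) := by
    rw [← map_sub]
    exact trace_le P0 h1
  symm
  apply res_eq P0 h5
  intro R hR hS
  apply trace_le
  intro Q hQ
  rw [mem_above] at hQ
  subst hQ
  apply h2
  · rw [← same_under_iff, hQ0]
    exact hS
  · rw [mem_above]
    exact hR

end above

end Crest.Agent.R013.RR27_948
end

-- ▼ part R013/RR28_948

/-!
# R013 / RR28: residues over an algebraically closed field (helper948)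

* `res_dlog` : `res P (del f / f) = ord_P f`;
* `res_zpow` : `res P (t ^ n * del t) = [n = -1]`, any characteristic;
* `res_eq_coeff` : the residue is the coefficient of `t⁻¹`;
* `coef`, `coef_spec` : Laurent expansions by residues;
* `res_mapPl` : invariance under isomorphisms (and change of `x`).
-/

set_option autoImplicit false
set_option linter.all false

namespace Crest.Agent.R013.RR28_948

open Polynomial WithZero Module IsDedekindDomain nonZeroDivisors
open Crest.Agent.R013.RR1_948 Crest.Agent.R013.RR2_948 Crest.Agent.R013.RR3_948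
open Crest.Agent.R013.RR4_948 Crest.Agent.R013.RR5_948 Crest.Agent.R013.RR6_948
open Crest.Agent.R013.RR7_948 Crest.Agent.R013.RR8_948 Crest.Agent.R013.RR9_948
open Crest.Agent.R013.RR11_948 Crest.Agent.R013.RR12_948 Crest.Agent.R013.RR13_948
open Crest.Agent.R013.RR14_948 Crest.Agent.R013.RR15_948
open Crest.Agent.R013.RR18_948 Crest.Agent.R013.RR19_948 Crest.Agent.R013.RR20_948
open Crest.Agent.R013.RR21_948 Crest.Agent.R013.RR22_948 Crest.Agent.R013.RR23_948
open Crest.Agent.R013.RR24_948 Crest.Agent.R013.RR25_948 Crest.Agent.R013.RR26_948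
open Crest.Agent.R013.RR27_948
open Crest.Agent.R013.GR2_921 (exists_const degP_eq_one)
open Crest.Agent.R013.Car5_700 (v_del_eq v_del_le v_del_le')

section gen

variable {k : Type*} [Field k] {K : Type*} [Field K] [Algebra k K]

theorem gen_of_zpow {P : Pl k K} {t : K} (ht : P.v t < 1)
    (h : ∀ f : K, f ≠ 0 → ∃ m : ℤ, P.v f = P.v t ^ m) : P.v t = exp (-1) := by
  obtain ⟨f, hf⟩ := P.surj (exp (-1))
  have hf0 : f ≠ 0 := by rintro rfl; rw [map_zero] at hf; exact exp_ne_zero hf.symm
  obtain ⟨m, hm⟩ := h f hf0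
  rw [hf] at hm
  have ht0 : P.v t ≠ 0 := by
    intro h0
    rw [h0] at hm
    by_cases hm0 : m = 0
    · rw [hm0, zpow_zero, ← exp_zero, exp_inj] at hm
      norm_num at hm
    · rw [zero_zpow m hm0] at hm
      exact exp_ne_zero hm
  have h1 := (exp_log ht0).symm
  set c := log (P.v t) with hc
  rw [h1] at hm ht ⊢
  rw [← exp_zsmul, exp_inj, smul_eq_mul] at hm
  rw [← exp_zero, exp_lt_exp] at ht
  rw [exp_inj]
  have h2 : (-m) * c = 1 := by linarith
  rcases Int.eq_one_or_neg_one_of_mul_eq_one (show c * (-m) = 1 by linarith) with h3 | h3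
  · omega
  · exact h3

end gen

section rat

variable {k : Type*} [Field k] [IsAlgClosed k]

theorem X_sub_C_ne (a : k) : (RatFunc.X : RatFunc k) - RatFunc.C a ≠ 0 := by
  have h := RatFunc.algebraMap_ne_zero (K := k) (X_sub_C_ne_zero a)
  rwa [map_sub, RatFunc.algebraMap_X, RatFunc.algebraMap_C] at h

theorem ratFunc_ind {M : RatFunc k → Prop} (hC : ∀ c : k, c ≠ 0 → M (RatFunc.C c))
    (hX : ∀ a : k, M (RatFunc.X - RatFunc.C a))
    (hmul : ∀ f g, f ≠ 0 → g ≠ 0 → M f → M g → M (f * g))
    (hinv : ∀ f, f ≠ 0 → M f → M f⁻¹) {f : RatFunc k} (hf : f ≠ 0) : M f := by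
  have hXa : ∀ a : k, (RatFunc.X : RatFunc k) - RatFunc.C a ≠ 0 := X_sub_C_ne
  have hp : ∀ q : k[X], q ≠ 0 → M (algebraMap k[X] (RatFunc k) q) := by
    intro q hq
    have h1 := (IsAlgClosed.splits q).eq_prod_roots
    rw [h1, map_mul, RatFunc.algebraMap_C]
    have h2 : ∀ s : Multiset k, M (algebraMap k[X] (RatFunc k) ((s.map fun a => X - C a).prod)) ∧
        algebraMap k[X] (RatFunc k) ((s.map fun a => X - C a).prod) ≠ 0 := by
      intro s
      induction s using Multiset.induction_on with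
      | empty =>
        simp only [Multiset.map_zero, Multiset.prod_zero, map_one]
        refine ⟨?_, one_ne_zero⟩
        have := hC 1 one_ne_zero
        rwa [map_one] at this
      | cons a s ih =>
        rw [Multiset.map_cons, Multiset.prod_cons, map_mul, map_sub, RatFunc.algebraMap_X,
          RatFunc.algebraMap_C]
        exact ⟨hmul _ _ (hXa a) ih.2 (hX a) ih.1, mul_ne_zero (hXa a) ih.2⟩
    have hlc : q.leadingCoeff ≠ 0 := leadingCoeff_ne_zero.mpr hq
    exact hmul _ _ ((_root_.map_ne_zero _).mpr hlc) (h2 _).2 (hC _ hlc) (h2 _).1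
  have h3 : algebraMap k[X] (RatFunc k) f.num / algebraMap k[X] (RatFunc k) f.denom = f :=
    RatFunc.num_div_denom f
  have hn : f.num ≠ 0 := RatFunc.num_ne_zero hf
  have hd : f.denom ≠ 0 := f.denom_ne_zero
  have hn' : algebraMap k[X] (RatFunc k) f.num ≠ 0 := RatFunc.algebraMap_ne_zero hn
  have hd' : algebraMap k[X] (RatFunc k) f.denom ≠ 0 := RatFunc.algebraMap_ne_zero hd
  rw [← h3, div_eq_mul_inv]
  exact hmul _ _ hn' (inv_ne_zero hd') (hp _ hn) (hinv _ hd' (hp _ hd))

theorem v_C (P : Pl k (RatFunc k)) {c : k} (hc : c ≠ 0) : P.v (RatFunc.C c) = 1 := by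
  rw [← algebraMap_eq_C, P.const c hc]

theorem v_C_le (P : Pl k (RatFunc k)) (c : k) : P.v (RatFunc.C c) ≤ 1 := by
  by_cases hc : c = 0
  · rw [hc, map_zero, map_zero]; exact zero_le
  · rw [v_C P hc]

theorem zpow_finite (a : k) {f : RatFunc k} (hf : f ≠ 0) :
    ∃ m : ℤ, ∀ P : Pl k (RatFunc k), P.v (RatFunc.X - RatFunc.C a) < 1 →
      P.v f = P.v (RatFunc.X - RatFunc.C a) ^ m := by
  have hXa : (RatFunc.X : RatFunc k) - RatFunc.C a ≠ 0 := X_sub_C_ne a
  refine ratFunc_ind (M := fun f => ∃ m : ℤ, ∀ P : Pl k (RatFunc k),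
    P.v (RatFunc.X - RatFunc.C a) < 1 → P.v f = P.v (RatFunc.X - RatFunc.C a) ^ m) ?_ ?_ ?_ ?_ hf
  · intro c hc
    exact ⟨0, fun P _ => by rw [v_C P hc, zpow_zero]⟩
  · intro b
    by_cases hb : b = a
    · subst hb
      exact ⟨1, fun P _ => by rw [zpow_one]⟩
    · refine ⟨0, fun P hP => ?_⟩
      have h1 : (RatFunc.X : RatFunc k) - RatFunc.C b =
          RatFunc.C (a - b) + (RatFunc.X - RatFunc.C a) := by
        rw [map_sub]; ring
      have h2 : P.v (RatFunc.C (a - b)) = 1 := v_C P (sub_ne_zero.mpr (Ne.symm hb))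
      rw [h1, Valuation.map_add_eq_of_lt_left _ (by rw [h2]; exact hP), h2, zpow_zero]
  · rintro f g hf hg ⟨m, hm⟩ ⟨n, hn⟩
    refine ⟨m + n, fun P hP => ?_⟩
    rw [map_mul, hm P hP, hn P hP, zpow_add₀ ((Valuation.ne_zero_iff _).mpr hXa)]
  · rintro f hf ⟨m, hm⟩
    refine ⟨-m, fun P hP => ?_⟩
    rw [map_inv₀, hm P hP, zpow_neg]

theorem zpow_infinite {f : RatFunc k} (hf : f ≠ 0) :
    ∃ m : ℤ, ∀ P : Pl k (RatFunc k), 1 < P.v RatFunc.X →
      P.v f = P.v (RatFunc.X⁻¹) ^ m := by
  have hX : (RatFunc.X : RatFunc k) ≠ 0 := RatFunc.X_ne_zero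
  refine ratFunc_ind (M := fun f => ∃ m : ℤ, ∀ P : Pl k (RatFunc k),
    1 < P.v RatFunc.X → P.v f = P.v (RatFunc.X⁻¹) ^ m) ?_ ?_ ?_ ?_ hf
  · intro c hc
    exact ⟨0, fun P _ => by rw [v_C P hc, zpow_zero]⟩
  · intro b
    refine ⟨-1, fun P hP => ?_⟩
    have h1 : (RatFunc.X : RatFunc k) - RatFunc.C b = RatFunc.X + RatFunc.C (-b) := by
      rw [map_neg]; ring
    rw [h1, Valuation.map_add_eq_of_lt_left _ ((v_C_le P _).trans_lt hP), map_inv₀, zpow_neg,
      zpow_one, inv_inv]
  · rintro f g hf hg ⟨m, hm⟩ ⟨n, hn⟩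
    refine ⟨m + n, fun P hP => ?_⟩
    rw [map_mul, hm P hP, hn P hP, zpow_add₀ ((Valuation.ne_zero_iff _).mpr (inv_ne_zero hX))]
  · rintro f hf ⟨m, hm⟩
    refine ⟨-m, fun P hP => ?_⟩
    rw [map_inv₀, hm P hP, zpow_neg]

theorem zpow_le_one_iff' {t : ℤᵐ⁰} (ht : t < 1) (ht0 : t ≠ 0) (m : ℤ) : t ^ m ≤ 1 ↔ 0 ≤ m := by
  have h1 := (exp_log ht0).symm
  set c := log t with hc
  rw [h1] at ht ⊢
  rw [← exp_zero, exp_lt_exp] at ht
  rw [← exp_zsmul, ← exp_zero, exp_le_exp, smul_eq_mul]
  constructor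
  · intro h
    by_contra hm
    nlinarith
  · intro h
    nlinarith

theorem ratFunc_finite (P : Pl k (RatFunc k)) (hP : P.v RatFunc.X ≤ 1) :
    ∃ a : k, P.v (RatFunc.X - RatFunc.C a) = exp (-1) ∧
      ∀ R : Pl k (RatFunc k), R ≠ P → R.v RatFunc.X ≤ 1 → R.v (RatFunc.X - RatFunc.C a) = 1 := by
  obtain ⟨a, ha⟩ := exists_const P hP
  rw [algebraMap_eq_C] at ha
  have hXa : (RatFunc.X : RatFunc k) - RatFunc.C a ≠ 0 := X_sub_C_ne a
  refine ⟨a, gen_of_zpow ha fun f hf => ?_, ?_⟩
  · obtain ⟨m, hm⟩ := zpow_finite a hf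
    exact ⟨m, hm P ha⟩
  · intro R hR hRX
    by_contra hcon
    apply hR
    have h1 : R.v (RatFunc.X - RatFunc.C a) < 1 := by
      refine lt_of_le_of_ne ?_ hcon
      exact (Valuation.map_sub _ _ _).trans (max_le hRX (v_C_le R a))
    symm
    apply pl_eq_of_le
    intro f hf
    by_cases hf0 : f = 0
    · subst hf0; rw [map_zero]; exact zero_le
    obtain ⟨m, hm⟩ := zpow_finite a hf0
    rw [hm P ha, zpow_le_one_iff' ha ((Valuation.ne_zero_iff _).mpr hXa)] at hf
    rw [hm R h1, zpow_le_one_iff' h1 ((Valuation.ne_zero_iff _).mpr hXa)]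
    exact hf

theorem ratFunc_infinite (P : Pl k (RatFunc k)) (hP : 1 < P.v RatFunc.X) :
    P.v (RatFunc.X⁻¹) = exp (-1) ∧ ∀ R : Pl k (RatFunc k), 1 < R.v RatFunc.X → R = P := by
  have hX : (RatFunc.X : RatFunc k) ≠ 0 := RatFunc.X_ne_zero
  have hlt : ∀ R : Pl k (RatFunc k), 1 < R.v RatFunc.X → R.v (RatFunc.X⁻¹) < 1 := by
    intro R hR
    rw [map_inv₀]
    exact inv_lt_one_of_one_lt₀ hR
  refine ⟨gen_of_zpow (hlt P hP) fun f hf => ?_, fun R hR => ?_⟩
  · obtain ⟨m, hm⟩ := zpow_infinite hf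
    exact ⟨m, hm P hP⟩
  · symm
    apply pl_eq_of_le
    intro f hf
    by_cases hf0 : f = 0
    · subst hf0; rw [map_zero]; exact zero_le
    obtain ⟨m, hm⟩ := zpow_infinite hf0
    rw [hm P hP, zpow_le_one_iff' (hlt P hP) ((Valuation.ne_zero_iff _).mpr (inv_ne_zero hX))] at hf
    rw [hm R hR, zpow_le_one_iff' (hlt R hR) ((Valuation.ne_zero_iff _).mpr (inv_ne_zero hX))]
    exact hf

theorem del_X_sub_C (a : k) : del k (RatFunc k) (RatFunc.X - RatFunc.C a) = 1 := by
  rw [map_sub, dR_X, ← algebraMap_eq_C, Derivation.map_algebraMap, sub_zero]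

theorem canD_ratFunc_finite (P : Pl k (RatFunc k)) (hP : P.v RatFunc.X ≤ 1) :
    canD k (RatFunc k) P = 0 := by
  obtain ⟨a, ha, _⟩ := ratFunc_finite P hP
  have h := v_del_eq P ha
  rw [del_X_sub_C, map_one, ← exp_zero, exp_inj] at h
  exact h.symm


theorem cinf_inv_X_sub_C (a : k) : cinf k (RatFunc.X - RatFunc.C a)⁻¹ = 1 := by
  have hv : vinf k (RatFunc.X - RatFunc.C a) = exp 1 := by
    have h1 : (RatFunc.X : RatFunc k) - RatFunc.C a = RatFunc.X + RatFunc.C (-a) := by
      rw [map_neg]; ring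
    rw [h1, Valuation.map_add_eq_of_lt_left _ (by
      rw [vinf_X]
      refine (vinf_C_le k (-a)).trans_lt ?_
      rw [← exp_zero, exp_lt_exp]; norm_num), vinf_X]
  have h := cinf_dlog hv
  rw [del_X_sub_C, one_div, Int.cast_one] at h
  exact h

theorem res_dlog_rat (P : Pl k (RatFunc k)) {t : RatFunc k} (ht : P.v t = exp (-1)) :
    res P (del k (RatFunc k) t / t) = 1 := by
  by_cases hP : P.v RatFunc.X ≤ 1
  · obtain ⟨a, ha, ha'⟩ := ratFunc_finite P hP
    rw [res_dlog_eq P (n := 1) ha ht, Int.cast_one, one_mul, del_X_sub_C, one_div]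
    rw [res_eq P (f' := (RatFunc.X - RatFunc.C a)⁻¹), lt_ratFunc, cinf_inv_X_sub_C, mul_one]
    · exact sg_of_finite hP
    · rw [sub_self, map_zero]; exact zero_le
    · intro Q hQ hS
      have hQX : Q.v RatFunc.X ≤ 1 := hS.mp hP
      rw [map_inv₀, ha' Q hQ hQX, inv_one, canD_ratFunc_finite Q hQX, exp_zero]
  · have hP' : 1 < P.v RatFunc.X := not_le.mp hP
    obtain ⟨h1, h2⟩ := ratFunc_infinite P hP'
    rw [res_dlog_eq P (n := 1) h1 ht, Int.cast_one, one_mul]
    have h3 : del k (RatFunc k) (RatFunc.X⁻¹ : RatFunc k) / RatFunc.X⁻¹ = -RatFunc.X⁻¹ := by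
      rw [Derivation.leibniz_inv, dR_X]
      have hX : (RatFunc.X : RatFunc k) ≠ 0 := RatFunc.X_ne_zero
      simp only [smul_eq_mul, mul_one]
      field_simp
    rw [h3, map_neg, res_eq P (f' := RatFunc.X⁻¹), lt_ratFunc, cinf_X_inv, mul_one,
      sg_of_infinite hP, neg_neg]
    · rw [sub_self, map_zero]; exact zero_le
    · intro Q hQ hS
      exfalso
      apply hQ
      apply h2
      rw [← not_le]
      exact fun h => hP (hS.mpr h)

end rat

section closed

variable {k : Type*} [Field k] [IsAlgClosed k] {K : Type*} [Field K] [Algebra k K]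
  [Algebra (RatFunc k) K] [IsScalarTower k (RatFunc k) K] [FiniteDimensional (RatFunc k) K]
  [Algebra.IsSeparable (RatFunc k) K]

theorem v_exp_divf {f : K} (hf : f ≠ 0) {P : Pl k K} {n : ℤ} (h : P.v f = exp (-n)) :
    divf (k := k) f P = n := by
  rw [v_eq (k := k) hf P, exp_inj] at h
  omega

theorem res_dlog_one (P : Pl k K) {t : K} (ht : P.v t = exp (-1)) :
    res P (del k K t / t) = 1 := by
  classical
  set P0 := under (RatFunc k) P with hP0
  obtain ⟨F, hF0, hF⟩ := exists_prescribed (above K P0) (fun Q => if Q = P then (-1 : ℤ) else 0)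
  have hPm : P ∈ above K P0 := by rw [mem_above]
  have hFP : P.v F = exp (-1) := by rw [hF P hPm, if_pos rfl]
  have hFQ : ∀ Q ∈ above K P0, Q ≠ P → Q.v F = 1 := by
    intro Q hQ hQP
    rw [hF Q hQ, if_neg hQP, exp_zero]
  rw [res_dlog_eq P (n := 1) hFP ht, Int.cast_one, one_mul]
  have h1 := sum_res_above P0 (del k K F / F)
  rw [trace_dlog hF0, ← Finset.add_sum_erase _ _ hPm, Finset.sum_eq_zero, add_zero] at h1
  · rw [h1]
    apply res_dlog_rat
    have hN0 : Algebra.norm (RatFunc k) F ≠ 0 := Algebra.norm_ne_zero_iff.mpr hF0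
    rw [v_eq (k := k) hN0, divf_norm_of_degP hF0 P0 (fun Q _ => by rw [degP_eq_one, degP_eq_one]),
      ← Finset.add_sum_erase _ _ hPm, Finset.sum_eq_zero, add_zero, v_exp_divf hF0 (n := 1) hFP]
    intro Q hQ
    rw [Finset.mem_erase] at hQ
    apply v_exp_divf hF0
    rw [hFQ Q hQ.2 hQ.1, neg_zero, exp_zero]
  · intro Q hQ
    rw [Finset.mem_erase] at hQ
    exact res_dlog_unit Q (hFQ Q hQ.2 hQ.1)

/-- **the residue of `dlog f` is the order of `f`** -/
theorem res_dlog (P : Pl k K) {f : K} {n : ℤ} (hf : P.v f = exp (-n)) :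
    res P (del k K f / f) = n := by
  obtain ⟨t, _, ht⟩ := exists_v_eq P (-1)
  rw [res_dlog_eq P ht hf, res_dlog_one P ht, mul_one]





end closed

end Crest.Agent.R013.RR28_948
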