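import Mathlib
import Crest.Agent.R013.RR28_948

/-!
# R013 / RR29: residues: principal parts, Laurent coefficients, isomorphisms, traces (helper948)

* `exists_principal_iff` : principal parts exist iff the residues against `L(W - D)` vanish;
* `coef`, `coef_spec` : Laurent expansions;
* `res_mul_dlog`;
* `res_mapPl` : invariance under isomorphisms (change of `x` included);
* `sum_res_above'` : `∑_{Q | P} res Q f = res P (Tr_{L/K} f)`.
-/

set_option autoImplicit false
set_option linter.all false

namespace Crest.Agent.R013.RR29_948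

open Polynomial WithZero Module IsDedekindDomain nonZeroDivisors
open Crest.Agent.R013.RR1_948 Crest.Agent.R013.RR2_948 Crest.Agent.R013.RR3_948
open Crest.Agent.R013.RR4_948 Crest.Agent.R013.RR5_948 Crest.Agent.R013.RR6_948
open Crest.Agent.R013.RR7_948 Crest.Agent.R013.RR8_948 Crest.Agent.R013.RR9_948
open Crest.Agent.R013.RR11_948 Crest.Agent.R013.RR12_948 Crest.Agent.R013.RR13_948
open Crest.Agent.R013.RR14_948 Crest.Agent.R013.RR15_948
open Crest.Agent.R013.RR18_948 Crest.Agent.R013.RR19_948 Crest.Agent.R013.RR20_948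
open Crest.Agent.R013.RR21_948 Crest.Agent.R013.RR22_948 Crest.Agent.R013.RR23_948
open Crest.Agent.R013.RR24_948 Crest.Agent.R013.RR25_948 Crest.Agent.R013.RR26_948
open Crest.Agent.R013.RR27_948 Crest.Agent.R013.RR28_948
open Crest.Agent.R013.GR2_921 (exists_const degP_eq_one)
open Crest.Agent.R013.Car5_700 (v_del_eq v_del_le v_del_le')

section principal

variable {k : Type*} [Field k] {K : Type*} [Field K] [Algebra k K]
  [Algebra (RatFunc k) K] [IsScalarTower k (RatFunc k) K] [FiniteDimensional (RatFunc k) K]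
  [Algebra.IsSeparable (RatFunc k) K]


theorem v_mul_le {P : Pl k K} {f g : K} {m n : ℤ} (hf : P.v f ≤ exp m) (hg : P.v g ≤ exp n) :
    P.v (f * g) ≤ exp (m + n) := by
  rw [map_mul, exp_add]
  exact mul_le_mul' hf hg

theorem res_mul_congr {P : Pl k K} {f r g : K} {d : ℤ} (hf : P.v (f - r) ≤ exp d)
    (hg : P.v g ≤ exp (canD k K P - d)) : res P (f * g) = res P (r * g) := by
  apply res_congr
  rw [← sub_mul]
  have := v_mul_le hf hg
  rwa [add_sub_cancel] at this




end principal

section closed

variable {k : Type*} [Field k] [IsAlgClosed k] {K : Type*} [Field K] [Algebra k K]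
  [Algebra (RatFunc k) K] [IsScalarTower k (RatFunc k) K] [FiniteDimensional (RatFunc k) K]
  [Algebra.IsSeparable (RatFunc k) K]

theorem uni_ne_zero {P : Pl k K} {t : K} (ht : P.v t = exp (-1)) : t ≠ 0 := by
  rintro rfl; rw [map_zero] at ht; exact exp_ne_zero ht.symm

theorem v_uni_zpow {P : Pl k K} {t : K} (ht : P.v t = exp (-1)) (n : ℤ) : P.v (t ^ n) = exp (-n) := by
  rw [map_zpow₀, ht, ← exp_zsmul]; simp

/-- the coefficient of `t ^ n` in the expansion of `h` at `P` -/
noncomputable def coef (P : Pl k K) (t : K) (n : ℤ) : K →ₗ[k] k :=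
  (res P).comp (LinearMap.mulRight k (t ^ (-n - 1) * del k K t))




theorem exists_exp {P : Pl k K} {t : K} (ht : P.v t = exp (-1)) {h : K} {N : ℤ}
    (hh : P.v h ≤ exp N) (m : ℕ) :
    ∃ a : ℤ → k, P.v (h - ∑ n ∈ Finset.Ico (-N) (-N + m), a n • t ^ n) ≤ exp (N - m) := by
  classical
  induction m with
  | zero => exact ⟨0, by simpa using hh⟩
  | succ m ih =>
    obtain ⟨a, ha⟩ := ih
    set r := h - ∑ n ∈ Finset.Ico (-N) (-N + m), a n • t ^ n with hr
    have h1 : P.v (r * t ^ (N - m)) ≤ 1 := by
      have h2 := v_mul_le ha (v_uni_zpow ht (N - m)).le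
      rw [add_neg_cancel, exp_zero] at h2
      exact h2
    obtain ⟨c, hc⟩ := exists_const P h1
    refine ⟨fun n => if n = -N + m then c else a n, ?_⟩
    have hI : Finset.Ico (-N) (-N + ((m + 1 : ℕ) : ℤ)) = insert (-N + m) (Finset.Ico (-N) (-N + m)) := by
      ext z
      simp only [Finset.mem_Ico, Finset.mem_insert]
      push_cast
      omega
    rw [hI, Finset.sum_insert (by simp)]
    beta_reduce
    rw [if_pos rfl]
    have hs : ∑ n ∈ Finset.Ico (-N) (-N + (m : ℤ)), (if n = -N + m then c else a n) • t ^ n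
        = ∑ n ∈ Finset.Ico (-N) (-N + (m : ℤ)), a n • t ^ n := by
      refine Finset.sum_congr rfl fun n hn => ?_
      rw [Finset.mem_Ico] at hn
      rw [if_neg (by omega)]
    rw [hs]
    have h3 : h - (c • t ^ (-N + (m : ℤ)) + ∑ n ∈ Finset.Ico (-N) (-N + (m : ℤ)), a n • t ^ n)
        = (r * t ^ (N - m) - algebraMap k K c) * t ^ (-N + (m : ℤ)) := by
      have h4 : t ^ (N - m) * t ^ (-N + (m : ℤ)) = 1 := by
        rw [← zpow_add₀ (uni_ne_zero ht)]
        have : (N - m) + (-N + (m : ℤ)) = 0 := by ring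
        rw [this, zpow_zero]
      rw [sub_mul, mul_assoc, h4, mul_one, hr, Algebra.smul_def]
      ring
    rw [h3]
    have h5 := v_mul_le ((lt_one_iff _).mp hc) (v_uni_zpow ht (-N + (m : ℤ))).le
    refine h5.trans ?_
    rw [exp_le_exp]
    push_cast
    linarith



/-- residues of `f dlog h` for `f` regular with value `c` -/
theorem res_mul_dlog (P : Pl k K) {f h : K} {c : k} {n : ℤ} (hf : P.v (f - algebraMap k K c) < 1)
    (hh : P.v h = exp (-n)) : res P (f * (del k K h / h)) = c * n := by
  have hh0 : h ≠ 0 := by rintro rfl; rw [map_zero] at hh; exact exp_ne_zero hh.symm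
  have h1 : P.v (del k K h / h) ≤ exp (canD k K P + 1) := by
    rw [map_div₀, div_le_iff₀ (zero_lt_iff.mpr ((Valuation.ne_zero_iff _).mpr hh0)), mul_comm]
    exact v_del_le' P h
  have h2 : res P (f * (del k K h / h)) = res P (algebraMap k K c * (del k K h / h)) := by
    apply res_mul_congr (d := -1) ((lt_one_iff _).mp hf)
    rw [sub_neg_eq_add]
    exact h1
  rw [h2, ← Algebra.smul_def, map_smul, res_dlog P hh, smul_eq_mul]

end closed

section iso

variable {k : Type*} [Field k] {K : Type*} [Field K] [Algebra k K]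
  [Algebra (RatFunc k) K] [IsScalarTower k (RatFunc k) K]
  [Algebra.IsSeparable (RatFunc k) K]
  {K' : Type*} [Field K'] [Algebra k K']
  [Algebra (RatFunc k) K'] [IsScalarTower k (RatFunc k) K']
  [Algebra.IsSeparable (RatFunc k) K']

/-- the chain rule -/
theorem del_map (σ : K →ₐ[k] K') (h : K) :
    del k K' (σ h) = σ (del k K h) * del k K' (σ (xK k K)) := by
  letI : Algebra K K' := σ.toRingHom.toAlgebra
  haveI : IsScalarTower k K K' := IsScalarTower.of_algebraMap_eq fun c => (σ.commutes c).symm
  have h1 := congrArg (KaehlerDifferential.map k k K K') (D_eq k K h)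
  rw [KaehlerDifferential.map_D, map_smul, KaehlerDifferential.map_D] at h1
  have e1 : algebraMap K K' h = σ h := rfl
  have e2 : algebraMap K K' (xK k K) = σ (xK k K) := rfl
  rw [e1, e2, D_eq k K' (σ h), D_eq k K' (σ (xK k K))] at h1
  have e3 : del k K h • del k K' (σ (xK k K)) • KaehlerDifferential.D k K' (xK k K') =
      (σ (del k K h) * del k K' (σ (xK k K))) • KaehlerDifferential.D k K' (xK k K') := by
    rw [← algebraMap_smul K' (del k K h), smul_smul]
    rfl
  rw [e3, ← sub_eq_zero, ← sub_smul] at h1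
  rcases smul_eq_zero.mp h1 with h3 | h3
  · exact sub_eq_zero.mp h3
  · exact absurd h3 (D_xK_ne_zero k K')

end iso

section iso2

variable {k : Type*} [Field k] [IsAlgClosed k] {K : Type*} [Field K] [Algebra k K]
  [Algebra (RatFunc k) K] [IsScalarTower k (RatFunc k) K] [FiniteDimensional (RatFunc k) K]
  [Algebra.IsSeparable (RatFunc k) K]
  {K' : Type*} [Field K'] [Algebra k K']
  [Algebra (RatFunc k) K'] [IsScalarTower k (RatFunc k) K'] [FiniteDimensional (RatFunc k) K']
  [Algebra.IsSeparable (RatFunc k) K']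


end iso2

section tower

variable {k : Type*} [Field k] {K : Type*} [Field K] [Algebra k K] [Algebra (RatFunc k) K]
  [IsScalarTower k (RatFunc k) K] [FiniteDimensional (RatFunc k) K]
  [Algebra.IsSeparable (RatFunc k) K]
  {L : Type*} [Field L] [Algebra k L] [Algebra K L] [IsScalarTower k K L]
  [FiniteDimensional K L] [Algebra.IsSeparable K L]
  [Algebra (RatFunc k) L] [IsScalarTower k (RatFunc k) L] [FiniteDimensional (RatFunc k) L]
  [Algebra.IsSeparable (RatFunc k) L] [IsScalarTower (RatFunc k) K L]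










end tower

end Crest.Agent.R013.RR29_948
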