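import Crest.Agent.R013.CartC2_359_Mg
import Mathlib
import Crest.Agent.R013.EE4_809
import Crest.Agent.R013.M3Defs_359
import Crest.Agent.R013.RedD7_310
import Crest.Agent.R013.Pow2_931
import Crest.Agent.R013.RR29_948

-- ▼ part R013/CartC3_359
section
/-
ROW 13, leaf CARTC (helper359), file 3: reduction maps, derivations at a level, residue fields at a level.
-/
set_option autoImplicit false
set_option linter.unusedSectionVars false

namespace Crest.Agent.R013.CartC_359

open Polynomial Crest.Agent.R013.Chart_359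

variable {K Γ₀ κ : Type*} [Field K] [LinearOrderedCommGroupWithZero Γ₀] [Field κ]

/-- a reduction map: residue field of `v` in any model, as a total function on `K`. -/
structure Red (v : Valuation K Γ₀) (κ : Type*) [Field κ] where
  res : K → κ
  add : ∀ x y, v x ≤ 1 → v y ≤ 1 → res (x + y) = res x + res y
  mul : ∀ x y, v x ≤ 1 → v y ≤ 1 → res (x * y) = res x * res y
  one : res 1 = 1
  zero_iff : ∀ x, v x ≤ 1 → (res x = 0 ↔ v x < 1)
  surj : ∀ y, ∃ x, v x ≤ 1 ∧ res x = y

namespace Red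

variable {v : Valuation K Γ₀} (r : Red v κ)

include r

theorem zero : r.res 0 = 0 := (r.zero_iff 0 (by simp)).mpr (by simp)

theorem neg {x : K} (hx : v x ≤ 1) : r.res (-x) = - r.res x := by
  have h1 := r.add x (-x) hx (by rwa [Valuation.map_neg])
  rw [add_neg_cancel, r.zero] at h1
  exact (neg_eq_of_add_eq_zero_right h1.symm).symm

theorem sub {x y : K} (hx : v x ≤ 1) (hy : v y ≤ 1) : r.res (x - y) = r.res x - r.res y := by
  rw [sub_eq_add_neg, r.add x (-y) hx (by rwa [Valuation.map_neg]), r.neg hy, sub_eq_add_neg]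

theorem pow {x : K} (hx : v x ≤ 1) (n : ℕ) : r.res (x ^ n) = r.res x ^ n := by
  induction n with
  | zero => rw [pow_zero, pow_zero, r.one]
  | succ n ih => rw [pow_succ, pow_succ, r.mul _ _ (by rw [map_pow]; exact pow_le_one' hx n) hx, ih]

theorem sum {ι : Type*} (s : Finset ι) (f : ι → K) (hf : ∀ i ∈ s, v (f i) ≤ 1) :
    r.res (∑ i ∈ s, f i) = ∑ i ∈ s, r.res (f i) := by
  classical
  induction s using Finset.induction_on with
  | empty => simp [r.zero]
  | insert a s ha ih =>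
    rw [Finset.sum_insert ha, Finset.sum_insert ha, r.add _ _ (hf a (Finset.mem_insert_self _ _))
      (Valuation.map_sum_le v (fun i hi => hf i (Finset.mem_insert_of_mem hi))),
      ih (fun i hi => hf i (Finset.mem_insert_of_mem hi))]

theorem ne_zero_iff {x : K} (hx : v x ≤ 1) : r.res x ≠ 0 ↔ v x = 1 := by
  rw [ne_eq, r.zero_iff x hx, not_lt]
  exact ⟨fun h => le_antisymm hx h, fun h => h.ge⟩

theorem inv {x : K} (hx : v x = 1) : r.res x⁻¹ = (r.res x)⁻¹ := by
  have hx0 : x ≠ 0 := by rintro rfl; simp at hx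
  have h1 := r.mul x x⁻¹ hx.le (by rw [map_inv₀, hx, inv_one])
  rw [mul_inv_cancel₀ hx0, r.one] at h1
  exact eq_inv_of_mul_eq_one_right h1.symm

theorem div {x y : K} (hx : v x ≤ 1) (hy : v y = 1) : r.res (x / y) = r.res x / r.res y := by
  rw [div_eq_mul_inv, div_eq_mul_inv, r.mul _ _ hx (by rw [map_inv₀, hy, inv_one]), r.inv hy]

theorem congr {x y : K} (hx : v x ≤ 1) (hy : v y ≤ 1) (h : v (x - y) < 1) : r.res x = r.res y := by
  have h1 := (r.zero_iff (x - y) h.le).mpr h
  rw [r.sub hx hy] at h1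
  exact sub_eq_zero.mp h1

theorem congr_iff {x y : K} (hx : v x ≤ 1) (hy : v y ≤ 1) : r.res x = r.res y ↔ v (x - y) < 1 := by
  constructor
  · intro h
    have h1 : r.res (x - y) = 0 := by rw [r.sub hx hy, h, sub_self]
    exact (r.zero_iff _ ((v.map_sub _ _).trans (max_le hx hy))).mp h1
  · exact r.congr hx hy

end Red

/-- the canonical reduction map. -/
noncomputable def Red.canonical (v : Valuation K Γ₀) :
    Red v (IsLocalRing.ResidueField v.valuationSubring) where
  res := fun x => by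
    classical
    exact if h : x ∈ v.valuationSubring then IsLocalRing.residue v.valuationSubring ⟨x, h⟩ else 0
  add := by
    intro x y hx hy
    have hx' : x ∈ v.valuationSubring := (Valuation.mem_valuationSubring_iff v _).mpr hx
    have hy' : y ∈ v.valuationSubring := (Valuation.mem_valuationSubring_iff v _).mpr hy
    rw [dif_pos (add_mem hx' hy'), dif_pos hx', dif_pos hy', ← map_add]
    rfl
  mul := by
    intro x y hx hy
    have hx' : x ∈ v.valuationSubring := (Valuation.mem_valuationSubring_iff v _).mpr hx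
    have hy' : y ∈ v.valuationSubring := (Valuation.mem_valuationSubring_iff v _).mpr hy
    rw [dif_pos (mul_mem hx' hy'), dif_pos hx', dif_pos hy', ← map_mul]
    rfl
  one := by
    rw [dif_pos (one_mem v.valuationSubring)]
    exact map_one _
  zero_iff := by
    intro x hx
    have hx' : x ∈ v.valuationSubring := (Valuation.mem_valuationSubring_iff v _).mpr hx
    rw [dif_pos hx', IsLocalRing.residue_eq_zero_iff]
    exact Valuation.mem_maximalIdeal_iff K v
  surj := by
    intro y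
    obtain ⟨x, rfl⟩ := IsLocalRing.residue_surjective y
    exact ⟨x, (Valuation.mem_valuationSubring_iff v _).mp x.2, by rw [dif_pos x.2]⟩

namespace Level

variable {v : Valuation K Γ₀} {L : Subfield K} {T z : K} {M : K[X]} (h : Level v L T z M)

include h

section der

variable (D : Derivation ℤ K K) (hDL : ∀ a ∈ L, D a = 0) (hDT : D T = 1)

include hDL hDT





end der

end Level

end Crest.Agent.R013.CartC_359
end

-- ▼ part R013/CartC4_359
section
/-
ROW 13, leaf CARTC (helper359), file 4: residue fields at a level.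
-/
set_option autoImplicit false
set_option linter.unusedSectionVars false

namespace Crest.Agent.R013.CartC_359

open Polynomial Crest.Agent.R013.Chart_359

variable {K Γ₀ κ : Type*} [Field K] [LinearOrderedCommGroupWithZero Γ₀] [Field κ]

/-- residue field of the constants -/
def resL {v : Valuation K Γ₀} (r : Red v κ) (L : Subfield K) : Subfield κ where
  carrier := {y | ∃ a ∈ L, v a ≤ 1 ∧ r.res a = y}
  mul_mem' := by
    rintro _ _ ⟨a, ha, ha1, rfl⟩ ⟨b, hb, hb1, rfl⟩
    exact ⟨a * b, mul_mem ha hb, by rw [map_mul]; exact mul_le_one' ha1 hb1, r.mul _ _ ha1 hb1⟩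
  one_mem' := ⟨1, L.one_mem, by rw [map_one], r.one⟩
  add_mem' := by
    rintro _ _ ⟨a, ha, ha1, rfl⟩ ⟨b, hb, hb1, rfl⟩
    exact ⟨a + b, add_mem ha hb, (v.map_add _ _).trans (max_le ha1 hb1), r.add _ _ ha1 hb1⟩
  zero_mem' := ⟨0, L.zero_mem, by simp, r.zero⟩
  neg_mem' := by
    rintro _ ⟨a, ha, ha1, rfl⟩
    exact ⟨-a, neg_mem ha, by rwa [Valuation.map_neg], r.neg ha1⟩
  inv_mem' := by
    rintro _ ⟨a, ha, ha1, rfl⟩
    by_cases h0 : r.res a = 0
    · exact ⟨0, L.zero_mem, by simp, by rw [h0, inv_zero, r.zero]⟩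
    · have h1 : v a = 1 := (r.ne_zero_iff ha1).mp h0
      exact ⟨a⁻¹, inv_mem ha, by rw [map_inv₀, h1, inv_one], r.inv h1⟩

theorem mem_resL {v : Valuation K Γ₀} (r : Red v κ) (L : Subfield K) (y : κ) :
    y ∈ resL r L ↔ ∃ a ∈ L, v a ≤ 1 ∧ r.res a = y := Iff.rfl

theorem res_mem_cl {v : Valuation K Γ₀} (r : Red v κ) (L : Subfield K) (S : Set κ) {a : K}
    (ha : a ∈ L) (ha1 : v a ≤ 1) : r.res a ∈ Subfield.closure ((resL r L : Set κ) ∪ S) := by
  have : r.res a ∈ resL r L := ⟨a, ha, ha1, rfl⟩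
  exact Subfield.subset_closure (Or.inl this)

theorem closure_coe_top {F : Type*} [Field F] (s : Set F) :
    Subfield.closure ((fun x : Subfield.closure s => (x : F)) ⁻¹' s) = ⊤ := by
  rw [eq_top_iff]
  rintro ⟨x, hx⟩ -
  induction hx using Subfield.closure_induction with
  | mem x hx => exact Subfield.subset_closure hx
  | one => exact one_mem _
  | add x y hx' hy' hx hy => exact add_mem hx hy
  | neg x hx' hx => exact neg_mem hx
  | inv x hx' hx => exact inv_mem hx
  | mul x y hx' hy' hx hy => exact mul_mem hx hy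

namespace Level

variable {v : Valuation K Γ₀} {L : Subfield K} {T z : K} {M : K[X]} (h : Level v L T z M)
  (r : Red v κ)

include h

theorem res_aeval_T (A : L[X]) (hA : ∀ i, v (A.coeff i : K) ≤ 1) :
    r.res (aeval T A) ∈ Subfield.closure ((resL r L : Set κ) ∪ {r.res T}) := by
  rw [aeval_eq_sum_range, r.sum]
  · refine sum_mem (fun i _ => ?_)
    have e : (A.coeff i) • T ^ i = (A.coeff i : K) * T ^ i := rfl
    rw [e, r.mul _ _ (hA i) (by rw [map_pow]; exact pow_le_one' h.T_le i),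
      r.pow h.T_le]
    have hT : r.res T ∈ Subfield.closure ((resL r L : Set κ) ∪ {r.res T}) :=
      Subfield.subset_closure (Or.inr rfl)
    exact mul_mem (res_mem_cl r L _ (A.coeff i).2 (hA i)) (pow_mem hT _)
  · intro i _
    rw [Algebra.smul_def, map_mul, map_pow]
    exact mul_le_one' (hA i) (pow_le_one' h.T_le i)

theorem res_FL {x : K} (hx : x ∈ FL L T) (hx1 : v x ≤ 1) :
    r.res x ∈ Subfield.closure ((resL r L : Set κ) ∪ {r.res T}) := by
  obtain ⟨A, B, hBc, hB, rfl⟩ := h.normal hx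
  have hA : v (aeval T A) ≤ 1 := by rwa [map_div₀, hB, div_one] at hx1
  rw [r.div hA hB]
  exact div_mem (h.res_aeval_T r A (fun i => (h.gauss A i).trans hA)) (h.res_aeval_T r B hBc)





/-- reduction of the chart polynomial -/
theorem exists_Mb : ∃ Mb : κ[X], (∀ i, Mb.coeff i ∈ Subfield.closure ((resL r L : Set κ) ∪ {r.res T})) ∧
    eval (r.res z) Mb = 0 ∧ eval (r.res z) (derivative Mb) ≠ 0 := by
  have hzv : v z ≤ 1 := h.chart.v_z_le
  let S := Finset.range (M.natDegree + 1)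
  let Mb : κ[X] := ∑ i ∈ S, Polynomial.C (r.res (M.coeff i)) * X ^ i
  have hcast : ∀ n : ℕ, v (n : K) ≤ 1 := by
    intro n
    induction n with
    | zero => simp
    | succ n ih =>
      rw [Nat.cast_succ]
      exact (v.map_add _ _).trans (max_le ih (by rw [map_one]))
  have hrn : ∀ n : ℕ, r.res (n : K) = n := by
    intro n
    induction n with
    | zero => simp [r.zero]
    | succ n ih => rw [Nat.cast_succ, Nat.cast_succ, r.add _ _ (hcast n) (by rw [map_one]), ih, r.one]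
  refine ⟨Mb, ?_, ?_, ?_⟩
  · intro i
    have : Mb.coeff i = if i ∈ S then r.res (M.coeff i) else 0 := by
      simp only [Mb, finsetSum_coeff, coeff_C_mul, coeff_X_pow]
      simp [Finset.sum_ite_eq]
    rw [this]
    split_ifs
    · exact h.res_FL r (h.coeff_mem i) (h.coeff_le i)
    · exact zero_mem _
  · have h1 : r.res (eval z M) = eval (r.res z) Mb := by
      rw [eval_eq_sum_range, r.sum]
      · simp only [Mb, eval_finsetSum, eval_mul, eval_C, eval_pow, eval_X]
        refine Finset.sum_congr rfl (fun i _ => ?_)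
        rw [r.mul _ _ (h.coeff_le i) (by rw [map_pow]; exact pow_le_one' hzv i), r.pow hzv]
      · intro i _
        rw [map_mul, map_pow]
        exact mul_le_one' (h.coeff_le i) (pow_le_one' hzv i)
    rw [← h1, h.root, r.zero]
  · have h1 : r.res (eval z (derivative M)) = eval (r.res z) (derivative Mb) := by
      have e1 : eval z (derivative M) = ∑ i ∈ S, M.coeff i * (i : K) * z ^ (i - 1) := by
        conv_lhs => rw [M.as_sum_range_C_mul_X_pow]
        rw [derivative_sum, eval_finsetSum]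
        refine Finset.sum_congr rfl (fun i _ => ?_)
        rw [derivative_C_mul_X_pow]
        simp
      have e2 : eval (r.res z) (derivative Mb) =
          ∑ i ∈ S, r.res (M.coeff i) * (i : κ) * (r.res z) ^ (i - 1) := by
        simp only [Mb]
        rw [derivative_sum, eval_finsetSum]
        refine Finset.sum_congr rfl (fun i _ => ?_)
        rw [derivative_C_mul_X_pow]
        simp
      rw [e1, e2, r.sum]
      · refine Finset.sum_congr rfl (fun i _ => ?_)
        rw [r.mul _ _ (by rw [map_mul]; exact mul_le_one' (h.coeff_le i) (hcast i))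
          (by rw [map_pow]; exact pow_le_one' hzv _), r.pow hzv, r.mul _ _ (h.coeff_le i) (hcast i), hrn]
      · intro i _
        rw [map_mul, map_mul, map_pow]
        exact mul_le_one' (mul_le_one' (h.coeff_le i) (hcast i)) (pow_le_one' hzv _)
    rw [← h1, r.ne_zero_iff h.unit.le]
    exact h.unit

/-- the residue field at level `L` -/
abbrev kapL (_ : Level v L T z M) (r : Red v κ) : Subfield κ :=
  Subfield.closure ((resL r L : Set κ) ∪ {r.res T, r.res z})

theorem span (p : ℕ) [hp : Fact p.Prime] [CharP κ p]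
    (hperf : ∀ a ∈ L, v a ≤ 1 → ∃ b ∈ L, v b ≤ 1 ∧ v (a - b ^ p) < 1)
    (f : h.kapL r) : Rep p (⟨r.res T, Subfield.subset_closure (Or.inr (Or.inl rfl))⟩ : h.kapL r) f := by
  obtain ⟨Mb, hMc, hMz, hM'⟩ := h.exists_Mb r
  have hle : Subfield.closure ((resL r L : Set κ) ∪ {r.res T}) ≤ h.kapL r :=
    Subfield.closure_mono (Set.union_subset_union_right _ (by intro y hy; exact Or.inl hy))
  have hl : Mb ∈ Polynomial.lifts (algebraMap (h.kapL r) κ) := by
    rw [Polynomial.lifts_iff_coeff_lifts]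
    intro i
    exact ⟨⟨Mb.coeff i, hle (hMc i)⟩, rfl⟩
  obtain ⟨N, hN⟩ := (Polynomial.mem_lifts _).mp hl
  have : CharP (h.kapL r) p :=
    ((algebraMap (h.kapL r) κ).charP_iff (algebraMap (h.kapL r) κ).injective p).mpr inferInstance
  have hev : ∀ P : (h.kapL r)[X], ∀ w : h.kapL r, ((eval w P : h.kapL r) : κ) =
      eval (w : κ) (P.map (algebraMap (h.kapL r) κ)) := by
    intro P w
    have : ((eval w P : h.kapL r) : κ) = algebraMap (h.kapL r) κ (eval w P) := rfl
    rw [this, ← eval₂_at_apply, eval_map]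
    rfl
  refine span_rep (p := p) ((resL r L).comap (algebraMap (h.kapL r) κ)) ?_
    (⟨r.res T, Subfield.subset_closure (Or.inr (Or.inl rfl))⟩ : h.kapL r)
    (⟨r.res z, Subfield.subset_closure (Or.inr (Or.inr rfl))⟩ : h.kapL r) N ?_ ?_ ?_ ?_ f
  · rintro ⟨a, ha⟩ ha'
    obtain ⟨a', ha'L, ha'1, ha'r⟩ := (mem_resL r L a).mp ha'
    obtain ⟨b, hb, hb1, hab⟩ := hperf a' ha'L ha'1
    refine ⟨⟨r.res b, Subfield.subset_closure (Or.inl ⟨b, hb, hb1, rfl⟩)⟩, ?_⟩
    apply Subtype.ext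
    change a = r.res b ^ p
    rw [← r.pow hb1, ← ha'r]
    exact r.congr ha'1 (by rw [map_pow]; exact pow_le_one' hb1 p) hab
  · intro i
    have hi : ((N.coeff i : h.kapL r) : κ) = Mb.coeff i := by
      rw [← hN, coeff_map]; rfl
    have h1 : ((N.coeff i : h.kapL r) : κ) ∈ Subfield.closure ((resL r L : Set κ) ∪ {r.res T}) := by
      rw [hi]; exact hMc i
    -- transfer to the subtype
    have h2 : ∀ y : κ, ∀ hy : y ∈ Subfield.closure ((resL r L : Set κ) ∪ {r.res T}),
        (⟨y, hle hy⟩ : h.kapL r) ∈ Subfield.closure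
          ((((resL r L).comap (algebraMap (h.kapL r) κ) : Subfield (h.kapL r)) : Set (h.kapL r)) ∪
            {(⟨r.res T, Subfield.subset_closure (Or.inr (Or.inl rfl))⟩ : h.kapL r)}) := by
      intro y hy
      induction hy using Subfield.closure_induction with
      | mem x hx =>
        rcases hx with hx | hx
        · exact Subfield.subset_closure (Or.inl hx)
        · rw [Set.mem_singleton_iff] at hx
          subst hx
          exact Subfield.subset_closure (Or.inr rfl)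
      | one => exact one_mem _
      | add x y hx' hy' hx hy => exact add_mem hx hy
      | neg x hx' hx => exact neg_mem hx
      | inv x hx' hx => exact inv_mem hx
      | mul x y hx' hy' hx hy => exact mul_mem hx hy
    exact h2 _ h1
  · apply Subtype.ext
    rw [hev, hN]
    exact hMz
  · intro h0
    have h1 : ((eval _ (derivative N) : h.kapL r) : κ) = ((0 : h.kapL r) : κ) :=
      congrArg (fun x : h.kapL r => (x : κ)) h0
    rw [hev, ← derivative_map, hN] at h1
    exact hM' h1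
  · rw [eq_top_iff]
    have h1 := closure_coe_top ((resL r L : Set κ) ∪ {r.res T, r.res z})
    rw [← h1]
    apply Subfield.closure_mono
    rintro ⟨x, hx⟩ hx'
    rcases hx' with hx' | hx' | hx'
    · exact Or.inl hx'
    · exact Or.inr (Or.inl (Subtype.ext hx'))
    · exact Or.inr (Or.inr (Subtype.ext hx'))

end Level

end Crest.Agent.R013.CartC_359
end

-- ▼ part R013/Cart_359
section
/-
ROW 13, leaf CART (helper359).  CARTIER CONTRACTION.

R a domain, pi in R (think: uniformizer of a discrete valuation ring, constant for the derivation D), rho : R -> kappa surjective with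
kernel (pi), D a derivation of R with D pi = 0 inducing Dbar on kappa, C a Cartier operator on kappa (kappa = coefficients of dx):
  C additive, C (y^p f) = y C f, C (Dbar f) = 0, C (f^(p-1) Dbar f) = Dbar f.
LEMMA (exact): b, r in R, D b = pi^N r  ==>  C^[N/e+1] (rho r) = 0, rho b in kappa^(p^ceil(N/e)).
COROLLARY (dlog): h, g units, rho h = (rho g)^(p^n), D h = h pi^M t, M < n e   ==>   C^[M/e+1] (rho t) = 0.
-/
set_option autoImplicit false

namespace Crest.Agent.R013.Cart_359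

open Function

/-- abstract data of a type 2 point: ring `R`, uniformizer `π`, reduction `ρ`, derivation `D`, reduced derivation `Db`,
Cartier operator `C`. -/
structure CartData (p : ℕ) (R κ : Type*) [CommRing R] [Field κ] where
  π : R
  ρ : R →+* κ
  D : R → R
  Db : κ → κ
  C : κ → κ
  u : R
  e : ℕ
  hp : p.Prime
  charp : (p : κ) = 0
  reg : ∀ x : R, π * x = 0 → x = 0
  surj : Function.Surjective ρ
  ker : ∀ x : R, ρ x = 0 → ∃ y, x = π * y
  ρπ : ρ π = 0
  D_add : ∀ x y, D (x + y) = D x + D y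
  D_mul : ∀ x y, D (x * y) = x * D y + y * D x
  Dπ : D π = 0
  ρD : ∀ x, ρ (D x) = Db (ρ x)
  C_add : ∀ x y, C (x + y) = C x + C y
  C_pow : ∀ y f, C (y ^ p * f) = y * C f
  C_exact : ∀ f, C (Db f) = 0
  C_log : ∀ f, C (f ^ (p - 1) * Db f) = Db f
  kerD : ∀ y, Db y = 0 → ∃ z, y = z ^ p
  e_pos : 0 < e
  p_eq : (p : R) = u * π ^ e
  ρu : ρ u ≠ 0
  u_perf : ∀ i : ℕ, ∃ w : κ, w ^ (p ^ i) = ρ u

namespace CartData

variable {p : ℕ} {R κ : Type*} [CommRing R] [Field κ] (S : CartData p R κ)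

include S

theorem C_zero : S.C 0 = 0 := by
  have h := S.C_add 0 0
  simpa using h

theorem C_neg (x : κ) : S.C (-x) = - S.C x := by
  have h := S.C_add x (-x)
  rw [add_neg_cancel, C_zero] at h
  exact (neg_eq_of_add_eq_zero_right h.symm).symm

theorem Cit_zero (n : ℕ) : S.C^[n] 0 = 0 := by
  induction n with
  | zero => rfl
  | succ n ih => rw [Function.iterate_succ_apply, C_zero, ih]

theorem Cit_add (n : ℕ) (x y : κ) : S.C^[n] (x + y) = S.C^[n] x + S.C^[n] y := by
  induction n generalizing x y with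
  | zero => rfl
  | succ n ih => rw [Function.iterate_succ_apply, S.C_add, ih, ← Function.iterate_succ_apply,
      ← Function.iterate_succ_apply]

theorem Cit_neg (n : ℕ) (x : κ) : S.C^[n] (-x) = - S.C^[n] x := by
  induction n generalizing x with
  | zero => rfl
  | succ n ih => rw [Function.iterate_succ_apply, C_neg, ih, ← Function.iterate_succ_apply]

theorem Cit_pow (n : ℕ) (y f : κ) : S.C^[n] (y ^ (p ^ n) * f) = y * S.C^[n] f := by
  induction n generalizing f with
  | zero => simp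
  | succ n ih =>
    rw [Function.iterate_succ_apply, pow_succ, pow_mul, S.C_pow, ih, ← Function.iterate_succ_apply]

theorem Cit_log (n : ℕ) (f : κ) : S.C^[n] (f ^ (p ^ n - 1) * S.Db f) = S.Db f := by
  induction n with
  | zero => simp
  | succ n ih =>
    have h1 : 1 ≤ p := S.hp.one_lt.le
    have h2 : 1 ≤ p ^ n := Nat.one_le_pow _ _ h1
    have h3 : p ^ (n + 1) - 1 = (p ^ n - 1) * p + (p - 1) := by
      rw [pow_succ, Nat.sub_mul]
      have : p ≤ p ^ n * p := Nat.le_mul_of_pos_left p (by omega)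
      omega
    rw [Function.iterate_succ_apply, h3, pow_add, pow_mul, mul_assoc, S.C_pow, S.C_log, ih]

/-- an iterate kills everything that a smaller iterate kills -/
theorem Cit_mono {m n : ℕ} (h : m ≤ n) {x : κ} (hx : S.C^[m] x = 0) : S.C^[n] x = 0 := by
  obtain ⟨k, rfl⟩ := Nat.exists_eq_add_of_le' h
  rw [Function.iterate_add_apply, hx, Cit_zero]


theorem D_pow (x : R) (n : ℕ) : S.D (x ^ (n + 1)) = (n + 1 : ℕ) * x ^ n * S.D x := by
  induction n with
  | zero => simp
  | succ n ih =>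
    rw [pow_succ x (n + 1), S.D_mul, ih]
    push_cast
    ring

theorem D_pow' (x : R) {n : ℕ} (hn : 1 ≤ n) : S.D (x ^ n) = (n : R) * x ^ (n - 1) * S.D x := by
  obtain ⟨m, rfl⟩ := Nat.exists_eq_add_of_le' hn
  rw [D_pow]
  simp

theorem D_π_pow (n : ℕ) : S.D (S.π ^ n) = 0 := by
  rcases Nat.eq_zero_or_pos n with h | h
  · subst h
    have h1 := S.D_mul 1 1
    simp at h1
    simpa using h1
  · rw [D_pow' S S.π h, S.Dπ, mul_zero]

theorem D_π_mul (n : ℕ) (x : R) : S.D (S.π ^ n * x) = S.π ^ n * S.D x := by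
  rw [S.D_mul, D_π_pow, mul_zero, add_zero]

theorem D_π_mul1 (x : R) : S.D (S.π * x) = S.π * S.D x := by
  simpa using D_π_mul S 1 x

theorem reg_pow (n : ℕ) {x y : R} (h : S.π ^ n * x = S.π ^ n * y) : x = y := by
  induction n with
  | zero => simpa using h
  | succ n ih =>
    apply ih
    have : S.π * (S.π ^ n * x - S.π ^ n * y) = 0 := by
      rw [mul_sub, ← mul_assoc, ← mul_assoc, ← pow_succ', h, sub_self]
    exact sub_eq_zero.mp (S.reg _ this)

theorem reg1 {x y : R} (h : S.π * x = S.π * y) : x = y := by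
  apply reg_pow S 1
  simpa using h

/-- lifting: `ρ b = (ρ a)^m` gives `b = a^m + π b₁` -/
theorem lift_pow (b a : R) (m : ℕ) (h : S.ρ b = S.ρ a ^ m) : ∃ b₁, b = a ^ m + S.π * b₁ := by
  obtain ⟨y, hy⟩ := S.ker (b - a ^ m) (by rw [map_sub, map_pow, h, sub_self])
  exact ⟨y, by rw [← hy]; ring⟩

theorem p_pow (i : ℕ) : ((p ^ i : ℕ) : R) = S.u ^ i * S.π ^ (i * S.e) := by
  push_cast
  rw [S.p_eq, mul_pow, ← pow_mul, mul_comm S.e i]

/-- the constant factor: `C^[i]` of `ū^j * a^(p^i-1) * Da` -/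
theorem Cit_const (i j k : ℕ) (a : κ) : ∃ w : κ, w ≠ 0 ∧ (∃ w', w = w' ^ (p ^ k)) ∧
    S.C^[i] (S.ρ S.u ^ j * (a ^ (p ^ i - 1) * S.Db a)) = w * S.Db a := by
  obtain ⟨w, hw⟩ := S.u_perf (k + i)
  have hw0 : w ≠ 0 := by
    rintro rfl
    apply S.ρu
    rw [← hw, zero_pow]
    exact (Nat.pow_pos S.hp.pos).ne'
  refine ⟨(w ^ j) ^ (p ^ k), pow_ne_zero _ (pow_ne_zero _ hw0), ⟨w ^ j, rfl⟩, ?_⟩
  have h1 : S.ρ S.u ^ j = ((w ^ j) ^ (p ^ k)) ^ (p ^ i) := by
    rw [← hw, ← pow_mul, ← pow_mul, ← pow_mul, pow_add]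
    ring_nf
  rw [h1, Cit_pow, Cit_log]

/-- MAIN LEMMA: reductions of exact forms (with denominators) are Cartier nilpotent. -/
theorem exact_nil (N : ℕ) : ∀ b r : R, S.D b = S.π ^ N * r →
    (∀ i, i * S.e < N + S.e → ∃ y : κ, S.ρ b = y ^ (p ^ i)) ∧ S.C^[N / S.e + 1] (S.ρ r) = 0 := by
  induction N using Nat.strong_induction_on with
  | _ N IH =>
  intro b r hbr
  have he := S.e_pos
  rcases Nat.eq_zero_or_pos N with hN | hN
  · subst hN
    constructor
    · intro i hi
      have : i = 0 := by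
        by_contra h
        have : S.e ≤ i * S.e := Nat.le_mul_of_pos_left _ (Nat.pos_of_ne_zero h)
        omega
      subst this
      exact ⟨S.ρ b, by simp⟩
    · have hr : r = S.D b := by simpa using hbr.symm
      rw [hr, S.ρD]
      simp [S.C_exact]
  -- part (i)
  have hi : ∀ i, i * S.e < N + S.e → ∃ y : κ, S.ρ b = y ^ (p ^ i) := by
    intro i
    induction i with
    | zero => intro _; exact ⟨S.ρ b, by simp⟩
    | succ i ih =>
      intro hlt
      have hlt' : i * S.e < N := by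
        have : (i + 1) * S.e = i * S.e + S.e := by ring
        omega
      obtain ⟨y, hy⟩ := ih (by omega)
      obtain ⟨a, rfl⟩ := S.surj y
      rcases Nat.eq_zero_or_pos i with hi0 | hi0
      · subst hi0
        have h0 : S.Db (S.ρ b) = 0 := by
          rw [← S.ρD, hbr, map_mul, map_pow, S.ρπ, zero_pow hN.ne', zero_mul]
        obtain ⟨z, hz⟩ := S.kerD _ h0
        exact ⟨z, by simpa using hz⟩
      · obtain ⟨b₁, hb₁⟩ := lift_pow S b a _ hy
        have hpp : 1 ≤ p ^ i := Nat.one_le_pow _ _ S.hp.pos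
        have h1 : S.D b = (S.u ^ i * S.π ^ (i * S.e)) * a ^ (p ^ i - 1) * S.D a + S.π * S.D b₁ := by
          rw [hb₁, S.D_add, D_pow' S a hpp, p_pow S, D_π_mul1 S]
        -- i * e ≥ 1
        have hie : 1 ≤ i * S.e := Nat.mul_pos hi0 he
        obtain ⟨c, hc⟩ := Nat.exists_eq_add_of_le' hie
        obtain ⟨d, hd⟩ : ∃ d, N = i * S.e + (d + 1) := ⟨N - i * S.e - 1, by omega⟩
        have h2 : S.D b₁ = S.π ^ c * (S.π ^ (d + 1) * r - S.u ^ i * (a ^ (p ^ i - 1) * S.D a)) := by
          apply reg1 S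
          have h3 : S.π * S.D b₁ = S.π ^ N * r - (S.u ^ i * S.π ^ (i * S.e)) * a ^ (p ^ i - 1) * S.D a := by
            rw [← hbr, h1]; ring
          rw [h3, hd, hc]
          ring
        have hcN : c < N := by omega
        have h4 := (IH c hcN b₁ _ h2).2
        have hce : c / S.e + 1 = i := by
          have : c = i * S.e - 1 := by omega
          obtain ⟨i', hi'⟩ : ∃ i', i = i' + 1 := ⟨i - 1, by omega⟩
          subst hi'
          have h5 : c = i' * S.e + (S.e - 1) := by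
            have : (i' + 1) * S.e = i' * S.e + S.e := by ring
            omega
          rw [h5]
          have : (i' * S.e + (S.e - 1)) / S.e = i' := by
            rw [mul_comm, Nat.mul_add_div he]
            have : (S.e - 1) / S.e = 0 := Nat.div_eq_of_lt (by omega)
            omega
          omega
        rw [hce, map_sub, map_mul, map_pow, S.ρπ, zero_pow (Nat.succ_ne_zero d), zero_mul, zero_sub, Cit_neg,
          neg_eq_zero, map_mul, map_pow, map_mul, map_pow, S.ρD] at h4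
        obtain ⟨w, hw0, -, hw⟩ := Cit_const S i i 0 (S.ρ a)
        rw [hw] at h4
        have h5 : S.Db (S.ρ a) = 0 := by
          rcases mul_eq_zero.mp h4 with h | h
          · exact absurd h hw0
          · exact h
        obtain ⟨z, hz⟩ := S.kerD _ h5
        refine ⟨z, ?_⟩
        rw [hy, hz, ← pow_mul, pow_succ, mul_comm]
  refine ⟨hi, ?_⟩
  -- part (ii): j = ceil (N / e)
  obtain ⟨j, hj1, hj2⟩ : ∃ j, N ≤ j * S.e ∧ j * S.e < N + S.e := by
    refine ⟨(N + S.e - 1) / S.e, ?_, ?_⟩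
    · have h1 := Nat.lt_div_mul_add (a := N + S.e - 1) he
      omega
    · have h1 := Nat.div_mul_le_self (N + S.e - 1) S.e
      omega
  obtain ⟨y, hy⟩ := hi j hj2
  obtain ⟨a, rfl⟩ := S.surj y
  obtain ⟨b₁, hb₁⟩ := lift_pow S b a _ hy
  have hpp : 1 ≤ p ^ j := Nat.one_le_pow _ _ S.hp.pos
  have h1 : S.D b = (S.u ^ j * S.π ^ (j * S.e)) * a ^ (p ^ j - 1) * S.D a + S.π * S.D b₁ := by
    rw [hb₁, S.D_add, D_pow' S a hpp, p_pow S, D_π_mul1 S]
  obtain ⟨N', hN'⟩ := Nat.exists_eq_add_of_le' hN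
  obtain ⟨d, hd⟩ := Nat.exists_eq_add_of_le hj1
  have h2 : S.D b₁ = S.π ^ N' * (r - S.u ^ j * S.π ^ d * (a ^ (p ^ j - 1) * S.D a)) := by
    apply reg1 S
    have h3 : S.π * S.D b₁ = S.π ^ N * r - (S.u ^ j * S.π ^ (j * S.e)) * a ^ (p ^ j - 1) * S.D a := by
      rw [← hbr, h1]; ring
    rw [h3, hd, hN']
    ring
  have h4 := (IH N' (by omega) b₁ _ h2).2
  have h5 : S.ρ r = S.ρ (r - S.u ^ j * S.π ^ d * (a ^ (p ^ j - 1) * S.D a)) +
      S.ρ S.u ^ j * S.ρ S.π ^ d * (S.ρ a ^ (p ^ j - 1) * S.Db (S.ρ a)) := by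
    rw [← S.ρD, ← map_pow, ← map_pow, ← map_mul, ← map_pow, ← map_mul, ← map_mul, ← map_add]
    congr 1
    ring
  have h6 : N' / S.e ≤ N / S.e := Nat.div_le_div_right (by omega)
  rw [h5, Cit_add, Cit_mono S (by omega) h4, zero_add]
  rcases Nat.eq_zero_or_pos d with hd0 | hd0
  · subst hd0
    have hNj : N / S.e = j := by
      rw [add_zero] at hd
      rw [← hd, Nat.mul_div_cancel _ he]
    rw [pow_zero, mul_one, hNj]
    obtain ⟨w, -, ⟨w', hw'⟩, hw⟩ := Cit_const S j j 1 (S.ρ a)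
    rw [Function.iterate_succ_apply', hw, hw', pow_one, S.C_pow, S.C_exact, mul_zero]
  · rw [S.ρπ, zero_pow hd0.ne', mul_zero, zero_mul, Cit_zero]

/-- COROLLARY (M2): if `h` and `g` are units, `h̄ = ḡ^(p^n)` and `dlog h = π^M t` with `M < n e`, then `t̄` is Cartier nilpotent. -/
theorem dlog_nil (h g t : R) (n M : ℕ) (hg : IsUnit g) (hhg : S.ρ h = S.ρ g ^ (p ^ n))
    (hM : M < n * S.e) (ht : S.D h = h * (S.π ^ M * t)) : S.C^[M / S.e + 1] (S.ρ t) = 0 := by
  obtain ⟨g', hg'⟩ := hg.exists_right_inv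
  -- h = g^(p^n) (1 + π b)
  obtain ⟨b₁, hb₁⟩ := lift_pow S h g _ hhg
  set P := p ^ n with hP
  have hP1 : 1 ≤ P := Nat.one_le_pow _ _ S.hp.pos
  have hgP : g ^ P * g' ^ P = 1 := by rw [← mul_pow, hg', one_pow]
  set y := S.π * (g' ^ P * b₁) with hy
  have hh : h = g ^ P * (1 + y) := by
    rw [hb₁, hy]
    linear_combination (-(S.π * b₁)) * hgP
  have hD1 : S.D (1 : R) = 0 := by
    have h1 := S.D_mul 1 1
    simp at h1
    simpa using h1
  have h1 : S.D h = g ^ P * S.D y + (1 + y) * (((P : ℕ) : R) * g ^ (P - 1) * S.D g) := by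
    rw [hh, S.D_mul, S.D_add, hD1, zero_add, D_pow' S g hP1]
  have hPe : ((P : ℕ) : R) = S.u ^ n * S.π ^ (n * S.e) := p_pow S n
  obtain ⟨d, hd⟩ : ∃ d, n * S.e = M + (d + 1) := ⟨n * S.e - M - 1, by omega⟩
  -- D y = π^M * r
  have h2 : S.D y = S.π ^ M * ((1 + y) * t - g' ^ P * ((1 + y) * (S.u ^ n * S.π ^ (d + 1) * g ^ (P - 1) * S.D g))) := by
    have h3 : g ^ P * S.D y = h * (S.π ^ M * t) - (1 + y) * (((P : ℕ) : R) * g ^ (P - 1) * S.D g) := by
      rw [← ht, h1]; ring
    have h4 : S.D y = g' ^ P * (g ^ P * S.D y) := by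
      linear_combination (-S.D y) * hgP
    rw [h4, h3, hPe, hd, hh]
    linear_combination ((1 + y) * S.π ^ M * t) * hgP
  have h5 := (exact_nil S M y _ h2).2
  have hρy : S.ρ y = 0 := by rw [hy, map_mul, S.ρπ, zero_mul]
  rw [map_sub, map_mul, map_add, map_one, hρy, add_zero, one_mul] at h5
  rw [show g' ^ P * ((1 + y) * (S.u ^ n * S.π ^ (d + 1) * g ^ (P - 1) * S.D g)) =
      S.π * (g' ^ P * ((1 + y) * (S.u ^ n * S.π ^ d * g ^ (P - 1) * S.D g))) by ring,
    map_mul, S.ρπ, zero_mul, sub_zero] at h5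
  exact h5

end CartData

end Crest.Agent.R013.Cart_359
end

-- ▼ part R013/CartG1_359
section
/-
ROW 13, leaf CARTC (helper359), file G1: the Cartier contraction at an abstract discrete level `KL` (subfield of K with uniformizer π).
-/
set_option autoImplicit false
set_option linter.unusedSectionVars false

namespace Crest.Agent.R013.CartG_359

open Polynomial Crest.Agent.R013.Chart_359 Crest.Agent.R013.Cart_359 Crest.Agent.R013.CartC_359

variable {K Γ₀ κ : Type*} [Field K] [LinearOrderedCommGroupWithZero Γ₀] [Field κ]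

/-- An abstract discrete level: `L ≤ KL` constants, `T` coordinate, `π ∈ L` uniformizer of `KL`. -/
structure DLev (p : ℕ) (v : Valuation K Γ₀) (r : Red v κ) (L KL : Subfield K) (T π : K) (e : ℕ)
    (D : Derivation ℤ K K) (Δ : Derivation ℤ κ κ) : Prop where
  L_le : L ≤ KL
  T_mem : T ∈ KL
  T_le : v T ≤ 1
  π_mem : π ∈ L
  π_ne : π ≠ 0
  π_lt : v π < 1
  unif : ∀ x ∈ KL, v x < 1 → v x ≤ v π
  e_pos : 0 < e
  p_eq : v (p : K) = v π ^ e
  perf : ∀ a ∈ L, v a ≤ 1 → ∃ b ∈ L, v b ≤ 1 ∧ v (a - b ^ p) < 1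
  DL : ∀ a ∈ L, D a = 0
  DT : D T = 1
  D_mem : ∀ x ∈ KL, D x ∈ KL
  D_le : ∀ x ∈ KL, v x ≤ 1 → v (D x) ≤ 1
  res_D : ∀ x ∈ KL, v x ≤ 1 → r.res (D x) = Δ (r.res x)
  span : ∀ x ∈ KL, v x ≤ 1 → ∃ y : ℕ → K, (∀ i, y i ∈ KL ∧ v (y i) ≤ 1) ∧
    v (x - ∑ i ∈ Finset.range p, y i ^ p * T ^ i) < 1

/-- the valuation ring at level `KL` -/
def RL (v : Valuation K Γ₀) (KL : Subfield K) : Subring K := KL.toSubring ⊓ v.integer


/-- reduction `RL → resL` -/
def rhoL {v : Valuation K Γ₀} (r : Red v κ) (KL : Subfield K) : RL v KL →+* resL r KL where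
  toFun x := ⟨r.res x, x, x.2.1, x.2.2, rfl⟩
  map_one' := Subtype.ext r.one
  map_mul' x y := Subtype.ext (r.mul _ _ x.2.2 y.2.2)
  map_zero' := Subtype.ext r.zero
  map_add' x y := Subtype.ext (r.add _ _ x.2.2 y.2.2)

namespace DLev

variable {p : ℕ} {v : Valuation K Γ₀} {r : Red v κ} {L KL : Subfield K} {T π : K} {e : ℕ}
  {D : Derivation ℤ K K} {Δ : Derivation ℤ κ κ} (h : DLev p v r L KL T π e D Δ)

include h

theorem Delta_mem (y : resL r KL) : Δ (y : κ) ∈ resL r KL := by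
  obtain ⟨x, hx, hx1, hxy⟩ := y.2
  rw [← hxy, ← h.res_D x hx hx1]
  exact ⟨D x, h.D_mem x hx, h.D_le x hx hx1, rfl⟩

/-- the derivation on the residue field at level `KL` -/
noncomputable def DeltaL : Derivation ℤ (resL r KL) (resL r KL) :=
  Derivation.mk' (AddMonoidHom.toIntLinearMap
    { toFun := fun y => ⟨Δ (y : κ), h.Delta_mem y⟩
      map_zero' := Subtype.ext (by simp)
      map_add' := fun x y => Subtype.ext (by simp) })
    (fun a b => Subtype.ext (by
      change Δ ((a : κ) * b) = (a : κ) • Δ (b : κ) + (b : κ) • Δ (a : κ)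
      rw [Derivation.leibniz]))

theorem res_rep {x : K} (y : ℕ → K) (hx1 : v x ≤ 1)
    (hy : ∀ i, y i ∈ KL ∧ v (y i) ≤ 1)
    (hxy : v (x - ∑ i ∈ Finset.range p, y i ^ p * T ^ i) < 1) :
    r.res x = ∑ i ∈ Finset.range p, r.res (y i) ^ p * r.res T ^ i := by
  have hterm : ∀ i ∈ Finset.range p, v (y i ^ p * T ^ i) ≤ 1 := by
    intro i _
    rw [map_mul, map_pow, map_pow]
    exact mul_le_one' (pow_le_one' (hy i).2 _) (pow_le_one' h.T_le _)
  rw [r.congr hx1 (Valuation.map_sum_le v hterm) hxy, r.sum _ _ hterm]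
  refine Finset.sum_congr rfl (fun i _ => ?_)
  rw [r.mul _ _ (by rw [map_pow]; exact pow_le_one' (hy i).2 _)
    (by rw [map_pow]; exact pow_le_one' h.T_le _), r.pow (hy i).2, r.pow h.T_le]

/-- CARTIER CONTRACTION AT AN ABSTRACT DISCRETE LEVEL. -/
theorem cart [hp : Fact p.Prime] [CharP κ p]
    (CO : κ → κ) (hCO : ∀ y : ℕ → κ, CO (∑ i ∈ Finset.range p, y i ^ p * r.res T ^ i) = y (p - 1))
    (x : K) (hx : x ∈ KL) (hx1 : v x = 1) (g : K) (hg : g ∈ KL) (hg1 : v g ≤ 1)
    (n : ℕ) (hxg : r.res x = r.res g ^ (p ^ n))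
    (c : K) (hc : c ∈ L) (hcx : v c = v (D x)) (hcn : v (p : K) ^ n < v c) :
    ∃ m, CO^[m] (r.res (D x / (c * x))) = 0 := by
  have hvπ : v π ≠ 0 := (Valuation.ne_zero_iff v).mpr h.π_ne
  have hpn : CharP (resL r KL) p :=
    ((algebraMap (resL r KL) κ).charP_iff (algebraMap (resL r KL) κ).injective p).mpr inferInstance
  have hLK := h.L_le
  have hπL := h.π_mem
  have hπ0 := h.π_ne
  have hπ1 := h.π_lt
  have hpe := h.p_eq
  have hperf := h.perf
  let Δ' := h.DeltaL
  let t' : resL r KL := ⟨r.res T, T, h.T_mem, h.T_le, rfl⟩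
  have hspan : ∀ f : resL r KL, Rep p t' f := by
    rintro ⟨_, x, hx, hx1, rfl⟩
    obtain ⟨y, hy, hxy⟩ := h.span x hx hx1
    refine ⟨fun i => ⟨r.res (y i), y i, (hy i).1, (hy i).2, rfl⟩, ?_⟩
    apply Subtype.ext
    have e1 := h.res_rep y hx1 hy hxy
    simpa [t'] using e1
  have ht' : Δ' t' = 1 := by
    apply Subtype.ext
    change Δ (r.res T) = 1
    rw [← h.res_D T h.T_mem h.T_le, h.DT, r.one]
  -- the Cartier operator at level L
  have hCmem : ∀ y : resL r KL, CO (y : κ) ∈ resL r KL := by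
    intro y
    obtain ⟨w, hw⟩ := hspan y
    have h1 : (y : κ) = ∑ i ∈ Finset.range p, (w i : κ) ^ p * r.res T ^ i := by
      have := congrArg (fun x : resL r KL => (x : κ)) hw
      simpa using this
    rw [h1, hCO]
    exact (w (p - 1)).2
  let CO' : resL r KL → resL r KL := fun y => ⟨CO (y : κ), hCmem y⟩
  have hCO' : ∀ y : ℕ → resL r KL, CO' (∑ i ∈ Finset.range p, y i ^ p * t' ^ i) = y (p - 1) := by
    intro y
    apply Subtype.ext
    change CO (((∑ i ∈ Finset.range p, y i ^ p * t' ^ i : resL r KL)) : κ) = (y (p - 1) : κ)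
    rw [← hCO (fun i => (y i : κ))]
    congr 1
    simp [t']
  -- the unit u
  have hπR : π ∈ RL v KL := ⟨hLK hπL, hπ1.le⟩
  have hpL : (p : K) ∈ L := natCast_mem L p
  have hu1 : v ((p : K) / π ^ e) = 1 := by
    rw [map_div₀, map_pow, hpe, div_self (pow_ne_zero _ hvπ)]
  have huL : (p : K) / π ^ e ∈ L := div_mem hpL (pow_mem hπL e)
  have huR : (p : K) / π ^ e ∈ RL v KL := ⟨hLK huL, hu1.le⟩
  -- perfectness of the residue field of constants
  have hres : ∀ a ∈ L, v a ≤ 1 → ∀ i : ℕ, ∃ b ∈ L, v b ≤ 1 ∧ r.res b ^ (p ^ i) = r.res a := by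
    intro a ha ha1 i
    induction i with
    | zero => exact ⟨a, ha, ha1, by simp⟩
    | succ i ih =>
      obtain ⟨b, hb, hb1, hba⟩ := ih
      obtain ⟨b', hb', hb'1, hbb'⟩ := hperf b hb hb1
      refine ⟨b', hb', hb'1, ?_⟩
      rw [← hba, r.congr hb1 (by rw [map_pow]; exact pow_le_one' hb'1 p) hbb', r.pow hb'1, ← pow_mul,
        ← pow_succ']
  let S : CartData p (RL v KL) (resL r KL) :=
    { π := ⟨π, hπR⟩
      ρ := rhoL r KL
      D := fun x => ⟨D x, h.D_mem x x.2.1, h.D_le x x.2.1 x.2.2⟩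
      Db := fun y => Δ' y
      C := CO'
      u := ⟨(p : K) / π ^ e, huR⟩
      e := e
      hp := hp.out
      charp := CharP.cast_eq_zero (resL r KL) p
      reg := by
        intro x hx
        have h1 : π * (x : K) = 0 := congrArg (fun x : RL v KL => (x : K)) hx
        rcases mul_eq_zero.mp h1 with h2 | h2
        · exact absurd h2 hπ0
        · exact Subtype.ext h2
      surj := by
        intro y
        obtain ⟨x, hx, hx1, hxy⟩ := y.2
        exact ⟨⟨x, hx, hx1⟩, Subtype.ext hxy⟩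
      ker := by
        intro x hx
        have h1 : r.res (x : K) = 0 := congrArg (fun x : resL r KL => (x : κ)) hx
        have h2 : v (x : K) < 1 := (r.zero_iff _ x.2.2).mp h1
        have h3 : v (x : K) ≤ v π := h.unif x x.2.1 h2
        have h4 : (x : K) / π ∈ KL := div_mem (show (x : K) ∈ KL from x.2.1)
          (hLK hπL)
        have h5 : v ((x : K) / π) ≤ 1 := by
          rw [map_div₀]
          exact div_le_one_of_le₀ h3 zero_le
        refine ⟨⟨(x : K) / π, h4, h5⟩, ?_⟩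
        · apply Subtype.ext
          change (x : K) = π * ((x : K) / π)
          rw [mul_div_cancel₀ _ hπ0]
      ρπ := Subtype.ext ((r.zero_iff π hπ1.le).mpr hπ1)
      D_add := fun x y => Subtype.ext (map_add D _ _)
      D_mul := fun x y => Subtype.ext (by
        change D ((x : K) * y) = (x : K) * D y + (y : K) * D x
        rw [Derivation.leibniz, smul_eq_mul, smul_eq_mul])
      Dπ := Subtype.ext (h.DL π hπL)
      ρD := fun x => Subtype.ext (h.res_D x x.2.1 x.2.2)
      C_add := car_add hspan CO' hCO'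
      C_pow := car_pow hspan CO' hCO'
      C_exact := car_exact Δ' ht' hspan CO' hCO'
      C_log := car_log Δ' ht' hspan CO' hCO'
      kerD := exists_pow_of_delta Δ' ht' hspan
      e_pos := h.e_pos
      p_eq := Subtype.ext (by
        change (p : K) = (p : K) / π ^ e * π ^ e
        rw [div_mul_cancel₀ _ (pow_ne_zero _ hπ0)])
      ρu := by
        intro h0
        have h1 : r.res ((p : K) / π ^ e) = 0 := congrArg (fun x : resL r KL => (x : κ)) h0
        exact (r.ne_zero_iff hu1.le).mpr hu1 h1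
      u_perf := by
        intro i
        obtain ⟨b, hb, hb1, hbu⟩ := hres _ huL hu1.le i
        exact ⟨⟨r.res b, b, hLK hb, hb1, rfl⟩, Subtype.ext hbu⟩ }
  -- the exponent of c
  have hcM : ∃ M, M < n * e ∧ v c ≤ v π ^ M ∧ ¬ v c ≤ v π ^ (M + 1) := by
    have hn : ¬ v c ≤ v π ^ (n * e) := by
      rw [not_le, mul_comm, pow_mul, ← hpe]
      exact hcn
    have h0 : v c ≤ v π ^ 0 := by
      rw [pow_zero, hcx]
      exact h.D_le x hx hx1.le
    by_contra hcon
    push Not at hcon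
    have : ∀ k, k ≤ n * e → v c ≤ v π ^ k := by
      intro k
      induction k with
      | zero => intro _; exact h0
      | succ k ih => intro hk; exact hcon k (by omega) (ih (by omega))
    exact hn (this _ le_rfl)
  obtain ⟨N, hN, hcN, hcN'⟩ := hcM
  set w := c / π ^ N with hw
  have hwL : w ∈ L := div_mem hc (pow_mem hπL N)
  have hw1 : v w = 1 := by
    have h1 : v w ≤ 1 := by
      rw [hw, map_div₀, map_pow]
      exact div_le_one_of_le₀ hcN zero_le
    refine le_antisymm h1 (not_lt.mp (fun hlt => hcN' ?_))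
    have h2 := h.unif w (hLK hwL) hlt
    have h3 : c = π ^ N * w := by rw [hw, mul_div_cancel₀ _ (pow_ne_zero _ hπ0)]
    rw [h3, map_mul, map_pow, pow_succ]
    exact mul_le_mul_right h2 _
  have hw0 : w ≠ 0 := by rintro h0; rw [h0, map_zero] at hw1; exact zero_ne_one hw1
  have hx0 : x ≠ 0 := by rintro rfl; rw [map_zero] at hx1; exact zero_ne_one hx1
  have hcw : c = π ^ N * w := by rw [hw, mul_div_cancel₀ _ (pow_ne_zero _ hπ0)]
  -- g is a unit
  have hg1' : v g = 1 := by
    rw [← r.ne_zero_iff hg1]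
    intro h0
    rw [h0, zero_pow (pow_ne_zero _ hp.out.ne_zero)] at hxg
    exact (r.ne_zero_iff hx1.le).mpr hx1 hxg
  have hg0 : g ≠ 0 := by rintro rfl; rw [map_zero] at hg1'; exact zero_ne_one hg1'
  -- t
  set t := D x / (x * π ^ N) with ht
  have hDx : D x ∈ KL := h.D_mem x hx
  have htK : t ∈ KL := div_mem hDx (mul_mem hx (pow_mem (hLK hπL) N))
  have htv : v t ≤ 1 := by
    rw [ht, map_div₀, map_mul, map_pow, hx1, one_mul, ← hcx]
    exact div_le_one_of_le₀ hcN zero_le
  have key := S.dlog_nil ⟨x, hx, hx1.le⟩ ⟨g, hg, hg1⟩ ⟨t, htK, htv⟩ n N ?_ ?_ hN ?_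
  · -- conclusion
    refine ⟨N / e + 1, ?_⟩
    obtain ⟨b, hb, hb1, hbw⟩ := hres w hwL hw1.le (N / e + 1)
    have hb1' : v b = 1 := by
      rw [← r.ne_zero_iff hb1]
      intro h0
      rw [h0, zero_pow (pow_ne_zero _ hp.out.ne_zero)] at hbw
      exact (r.ne_zero_iff hw1.le).mpr hw1 hbw.symm
    have hb0 : b ≠ 0 := by rintro rfl; rw [map_zero] at hb1'; exact zero_ne_one hb1'
    have h1 : D x / (c * x) = t / w := by
      rw [ht, hcw]
      field_simp
    let bb : resL r KL := ⟨r.res b⁻¹, b⁻¹, inv_mem (hLK hb),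
      by rw [map_inv₀, hb1', inv_one], rfl⟩
    have h2 := S.Cit_pow (N / e + 1) bb (S.ρ ⟨t, htK, htv⟩)
    rw [key, mul_zero] at h2
    have h3 : ∀ m (y : resL r KL), ((S.C^[m] y : resL r KL) : κ) = CO^[m] (y : κ) := by
      intro m
      induction m with
      | zero => intro y; rfl
      | succ m ih =>
        intro y
        rw [Function.iterate_succ_apply, Function.iterate_succ_apply, ih]
    have h4 := congrArg (fun x : resL r KL => (x : κ)) h2
    simp only [h3] at h4
    have h5 : ((bb ^ p ^ (N / e + 1) * S.ρ ⟨t, htK, htv⟩ : resL r KL) : κ) = r.res (D x / (c * x)) := by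
      change r.res b⁻¹ ^ p ^ (N / e + 1) * r.res t = _
      rw [h1, r.div htv hw1, ← hbw, r.inv hb1', inv_pow, div_eq_inv_mul]
    rw [h5] at h4
    exact h4
  · rw [isUnit_iff_exists_inv]
    have h4 : g⁻¹ ∈ KL := inv_mem hg
    have h5 : v g⁻¹ ≤ 1 := by rw [map_inv₀, hg1', inv_one]
    exact ⟨⟨g⁻¹, h4, h5⟩, Subtype.ext (mul_inv_cancel₀ hg0)⟩
  · apply Subtype.ext
    change r.res x = ((rhoL r KL ⟨g, hg, hg1⟩ ^ p ^ n : resL r KL) : κ)
    rw [hxg]
    rfl
  · apply Subtype.ext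
    change D x = x * (π ^ N * t)
    rw [ht]
    field_simp

end DLev

end Crest.Agent.R013.CartG_359
end

-- ▼ part R013/CartE1_359
section
/-
ROW 13, leaf CARTC (helper359), file E1: the Cartier contraction in 809's field `EE k C` (two-sided series).
-/
set_option autoImplicit false
set_option linter.unusedSectionVars false

namespace Crest.Agent.R013.CartE_359

open Filter Topology
open scoped NNReal
open Crest.Agent.R013.Cell_408 (FinDef DiscNorm exists_max BD)
open Crest.Agent.R013.EE809 Crest.Agent.R013.CartC_359 Crest.Agent.R013.CartG_359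

variable {k : Type*} [NontriviallyNormedField k] [CompleteSpace k] [IsUltrametricDist k]
variable {C : Type*} [NormedField C] [IsUltrametricDist C] [NormedAlgebra k C]
  [Algebra.IsAlgebraic k C] [IsAlgClosed C] [hk : Fact (DiscNorm k)]

/-- the norm in `ℝ≥0` -/
noncomputable def gnn (a : EE k C) : ℝ≥0 := ⟨gn a, gn_nonneg a⟩

omit [IsUltrametricDist k] [IsAlgClosed C] hk in
theorem coe_gnn (a : EE k C) : (gnn a : ℝ) = gn a := rfl

/-- the norm `gn` as a valuation -/
noncomputable def vE : Valuation (EE k C) ℝ≥0 where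
  toFun a := gnn a
  map_zero' := by
    rw [← NNReal.coe_inj, coe_gnn, gn_zero, NNReal.coe_zero]
  map_one' := by
    rw [← NNReal.coe_inj, coe_gnn, gn_one, NNReal.coe_one]
  map_mul' a b := by
    rw [← NNReal.coe_inj, NNReal.coe_mul, coe_gnn, coe_gnn, coe_gnn, gn_mul hk.out a b]
  map_add_le_max' a b := by
    rw [← NNReal.coe_le_coe, NNReal.coe_max, coe_gnn, coe_gnn, coe_gnn]
    exact gn_add_le a b

theorem coe_vE (a : EE k C) : ((vE a : ℝ≥0) : ℝ) = gn a := rfl

theorem vE_le_one {a : EE k C} : vE a ≤ 1 ↔ gn a ≤ 1 := by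
  rw [← NNReal.coe_le_coe, coe_vE, NNReal.coe_one]

theorem vE_lt_one {a : EE k C} : vE a < 1 ↔ gn a < 1 := by
  rw [← NNReal.coe_lt_coe, coe_vE, NNReal.coe_one]

/-- elements with coefficients in `L` -/
noncomputable def EL (L : IntermediateField k C) [FiniteDimensional k L] : Subfield (EE k C) where
  carrier := {a | InL L a}
  mul_mem' := fun ha hb => InL.mul ha hb
  one_mem' := InL.one L
  add_mem' := fun ha hb => InL.add ha hb
  zero_mem' := InL.zero L
  neg_mem' := fun ha => InL.neg ha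
  inv_mem' := fun _ ha => inL_inv ha


/-- constants in `L` -/
noncomputable def LC (L : IntermediateField k C) : Subfield (EE k C) :=
  L.toSubfield.map (algebraMap C (EE k C))


/-- all coefficients `< 1` implies `gn < 1` -/
theorem gn_lt_one {a : EE k C} (h : ∀ n, ‖a.co n‖ < 1) : gn a < 1 := by
  rcases eq_or_ne a 0 with rfl | h0
  · rw [gn_zero]; exact zero_lt_one
  · obtain ⟨n, hn⟩ := exists_gn hk.out h0
    rw [← hn]
    exact h n

/-- uniformizer of a finite level -/
theorem exists_unif (L : IntermediateField k C) [FiniteDimensional k L] :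
    ∃ π ∈ L, π ≠ 0 ∧ ‖π‖ < 1 ∧ ∀ a ∈ L, ‖a‖ < 1 → ‖a‖ ≤ ‖π‖ := by
  obtain ⟨ρ, N, hρ0, hρ1, hN, hz⟩ := Cell_408.exists_zpow_of_mem hk.out L
  obtain ⟨ϖ, h0, h1, -⟩ := hk.out
  have hϖ : ‖algebraMap k C ϖ‖ = ‖ϖ‖ := norm_algebraMap' C ϖ
  -- exponents of elements of norm < 1 are positive
  have hpos : ∀ a ∈ L, a ≠ 0 → ‖a‖ < 1 → ∃ n : ℕ, 0 < n ∧ ‖a‖ ^ N = ρ ^ n := by
    intro a ha ha0 ha1
    obtain ⟨n, hn⟩ := hz a ha ha0
    have h2 : ‖a‖ ^ N < 1 := pow_lt_one₀ (norm_nonneg _) ha1 hN.ne'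
    have h3 : 0 < n := by
      by_contra hcon
      push Not at hcon
      have : (1 : ℝ) ≤ ρ ^ n := by
        have := zpow_le_zpow_right_of_le_one₀ hρ0 hρ1.le hcon
        rwa [zpow_zero] at this
      rw [hn] at h2
      linarith
    obtain ⟨m, rfl⟩ := Int.eq_ofNat_of_zero_le h3.le
    exact ⟨m, by exact_mod_cast h3, by rw [hn]; exact zpow_natCast _ _⟩
  classical
  have hex : ∃ n : ℕ, ∃ a ∈ L, a ≠ 0 ∧ ‖a‖ < 1 ∧ ‖a‖ ^ N = ρ ^ n := by
    have hm : algebraMap k C ϖ ∈ L := L.algebraMap_mem ϖ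
    have hne : algebraMap k C ϖ ≠ 0 := by
      rw [← norm_pos_iff, hϖ]; exact h0
    obtain ⟨n, -, hn⟩ := hpos _ hm hne (by rw [hϖ]; exact h1)
    exact ⟨n, _, hm, hne, by rw [hϖ]; exact h1, hn⟩
  obtain ⟨π, hπ, hπ0, hπ1, hπn⟩ := Nat.find_spec hex
  refine ⟨π, hπ, hπ0, hπ1, fun a ha ha1 => ?_⟩
  rcases eq_or_ne a 0 with rfl | ha0
  · rw [norm_zero]; exact norm_nonneg _
  obtain ⟨n, -, hn⟩ := hpos a ha ha0 ha1
  have hle : Nat.find hex ≤ n := Nat.find_min' hex ⟨a, ha, ha0, ha1, hn⟩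
  have h2 : ‖a‖ ^ N ≤ ‖π‖ ^ N := by
    rw [hn, hπn]
    exact pow_le_pow_of_le_one hρ0.le hρ1.le hle
  exact le_of_pow_le_pow_left₀ hN.ne' (norm_nonneg _) h2

/-- every non-zero element of norm `≤ 1` of a finite level has the norm of a power of the uniformizer -/
theorem exists_pow_unif {L : IntermediateField k C} {π : C} (hπ : π ∈ L) (hπ0 : π ≠ 0) (hπ1 : ‖π‖ < 1)
    (hu : ∀ a ∈ L, ‖a‖ < 1 → ‖a‖ ≤ ‖π‖) {a : C} (ha : a ∈ L) (ha0 : a ≠ 0) (ha1 : ‖a‖ ≤ 1) :
    ∃ n : ℕ, ‖a‖ = ‖π‖ ^ n := by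
  classical
  have hex : ∃ n : ℕ, ‖π‖ ^ (n + 1) < ‖a‖ := by
    obtain ⟨n, hn⟩ := exists_pow_lt_of_lt_one (norm_pos_iff.mpr ha0) hπ1
    exact ⟨n, (pow_le_pow_of_le_one (norm_nonneg _) hπ1.le (Nat.le_succ n)).trans_lt hn⟩
  refine ⟨Nat.find hex, ?_⟩
  have h1 := Nat.find_spec hex
  have hπn : ∀ n : ℕ, 0 < ‖π‖ ^ n := fun n => pow_pos (norm_pos_iff.mpr hπ0) n
  have h2 : ‖a‖ ≤ ‖π‖ ^ Nat.find hex := by
    rcases Nat.eq_zero_or_pos (Nat.find hex) with h | h
    · rw [h, pow_zero]; exact ha1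
    · have h3 := Nat.find_min hex (Nat.sub_lt h Nat.one_pos)
      rw [not_lt, Nat.sub_add_cancel h] at h3
      exact h3
  refine le_antisymm h2 ?_
  by_contra hcon
  rw [not_le] at hcon
  have h3 : ‖a / π ^ Nat.find hex‖ < 1 := by
    rw [norm_div, norm_pow, div_lt_one (hπn _)]
    exact hcon
  have h4 := hu _ (div_mem ha (pow_mem hπ _)) h3
  rw [norm_div, norm_pow, div_le_iff₀ (hπn _), ← pow_succ'] at h4
  exact absurd h4 (not_le.mpr h1)

end Crest.Agent.R013.CartE_359
end

-- ▼ part R013/CartE2_359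
section
/-
ROW 13, leaf CARTC (helper359), file E2: p-basis of the residue field of `EE` at a finite level (freshman's dream for series).
-/
set_option autoImplicit false
set_option linter.unusedSectionVars false

namespace Crest.Agent.R013.CartE_359

open Filter Topology
open scoped NNReal
open Crest.Agent.R013.Cell_408 (FinDef DiscNorm exists_max BD)
open Crest.Agent.R013.EE809 Crest.Agent.R013.CartC_359 Crest.Agent.R013.CartG_359

section supp

variable {k : Type*} [NontriviallyNormedField k] [CompleteSpace k]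
variable {C : Type*} [NormedField C] [IsUltrametricDist C] [NormedAlgebra k C]

/-- support bounded below by `s` -/
def Supp (s : ℤ) (a : EE k C) : Prop := ∀ i < s, a.co i = 0

theorem Supp.mul {s t : ℤ} {a b : EE k C} (ha : Supp s a) (hb : Supp t b) : Supp (s + t) (a * b) := by
  intro m hm
  rw [co_mul']
  have : (fun i => a.co i * b.co (m - i)) = fun _ => 0 := by
    funext i
    rcases lt_or_ge i s with h | h
    · rw [ha i h, zero_mul]
    · rw [hb (m - i) (by omega), mul_zero]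
  rw [this, tsum_zero]

theorem Supp.add {s : ℤ} {a b : EE k C} (ha : Supp s a) (hb : Supp s b) : Supp s (a + b) := by
  intro m hm
  rw [co_add, ha m hm, hb m hm, add_zero]

theorem Supp.zero (s : ℤ) : Supp s (0 : EE k C) := fun m _ => co_zero m

theorem Supp.one : Supp 0 (1 : EE k C) := by
  intro m hm
  rw [co_one, if_neg (by omega)]

theorem Supp.sum {ι : Type*} {s : ℤ} (S : Finset ι) (f : ι → EE k C) (h : ∀ i ∈ S, Supp s (f i)) :
    Supp s (∑ i ∈ S, f i) := by
  classical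
  induction S using Finset.induction_on with
  | empty => rw [Finset.sum_empty]; exact Supp.zero s
  | insert a S ha ih =>
    rw [Finset.sum_insert ha]
    exact (h a (Finset.mem_insert_self _ _)).add (ih (fun i hi => h i (Finset.mem_insert_of_mem hi)))

theorem Supp.pow {N : ℤ} {a : EE k C} (ha : Supp (-N) a) (n : ℕ) : Supp (-(n * N)) (a ^ n) := by
  induction n with
  | zero => simpa using (Supp.one : Supp 0 (1 : EE k C))
  | succ n ih =>
    rw [pow_succ]
    have h1 := ih.mul ha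
    have h2 : (-(((n + 1 : ℕ) : ℤ) * N)) = -((n : ℤ) * N) + -N := by push_cast; ring
    rw [h2]
    exact h1

theorem Supp.mono {s t : ℤ} (h : t ≤ s) {a : EE k C} (ha : Supp s a) : Supp t a :=
  fun i hi => ha i (by omega)

theorem co_sum {ι : Type*} (S : Finset ι) (f : ι → EE k C) (m : ℤ) :
    (∑ i ∈ S, f i).co m = ∑ i ∈ S, (f i).co m := by
  classical
  induction S using Finset.induction_on with
  | empty => simp
  | insert a S ha ih => rw [Finset.sum_insert ha, Finset.sum_insert ha, co_add, ih]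

end supp

variable {k : Type*} [NontriviallyNormedField k] [CompleteSpace k] [IsUltrametricDist k]
variable {C : Type*} [NormedField C] [IsUltrametricDist C] [NormedAlgebra k C]
  [Algebra.IsAlgebraic k C] [IsAlgClosed C] [hk : Fact (DiscNorm k)]

theorem charP_res {κ : Type*} [Field κ] (r : Red (vE (k := k) (C := C)) κ) (p : ℕ) (hp : p.Prime)
    (hp1 : ‖(p : C)‖ < 1) : CharP κ p := by
  have hcast : ∀ n : ℕ, vE (k := k) (C := C) (n : EE k C) ≤ 1 := by
    intro n
    induction n with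
    | zero => simp
    | succ n ih =>
      rw [Nat.cast_succ]
      exact (Valuation.map_add _ _ _).trans (max_le ih (by rw [map_one]))
  have hrn : ∀ n : ℕ, r.res (n : EE k C) = n := by
    intro n
    induction n with
    | zero => simp [r.zero]
    | succ n ih => rw [Nat.cast_succ, Nat.cast_succ, r.add _ _ (hcast n) (by rw [map_one]), ih, r.one]
  have h0 : (p : κ) = 0 := by
    rw [← hrn p, r.zero_iff _ (hcast p), vE_lt_one]
    have : (p : EE k C) = algebraMap C (EE k C) (p : C) := by rw [map_natCast]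
    rw [this, gn_algebraMap]
    exact hp1
  obtain ⟨q, hq⟩ := CharP.exists κ
  have hqp : q ∣ p := (CharP.cast_eq_zero_iff κ q p).mp h0
  rcases (Nat.dvd_prime hp).mp hqp with h | h
  · subst h
    have h1 := CharP.cast_eq_zero κ 1
    rw [Nat.cast_one] at h1
    exact absurd h1 one_ne_zero
  · subst h; exact hq

theorem mo_pow (n : ℤ) (c : C) (m : ℕ) : (mo n c : EE k C) ^ m = mo (m * n) (c ^ m) := by
  induction m with
  | zero => rw [pow_zero, pow_zero]; simp [mo_zero_one]
  | succ m ih =>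
    rw [pow_succ, ih, mo_mul_mo, pow_succ]
    congr 1
    push_cast
    ring

/-- freshman's dream for finite sums -/
theorem gn_sum_pow_sub {p : ℕ} (hp : p.Prime) (hp1 : ‖(p : C)‖ < 1) (S : Finset ℤ) (c : ℤ → C)
    (hc : ∀ j, ‖c j‖ ≤ 1) :
    gn ((∑ j ∈ S, (mo j (c j) : EE k C)) ^ p - ∑ j ∈ S, (mo (p * j) (c j ^ p) : EE k C)) < 1 := by
  have : Fact p.Prime := ⟨hp⟩
  let r := Red.canonical (vE (k := k) (C := C))
  have := charP_res r p hp hp1
  have h1 : ∀ j ∈ S, vE (mo j (c j) : EE k C) ≤ 1 := by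
    intro j _
    rw [vE_le_one, gn_mo]
    exact hc j
  have h2 : ∀ j ∈ S, vE (mo (p * j) (c j ^ p) : EE k C) ≤ 1 := by
    intro j _
    rw [vE_le_one, gn_mo, norm_pow]
    exact pow_le_one₀ (norm_nonneg _) (hc j)
  rw [← vE_lt_one]
  rw [← r.congr_iff (by rw [map_pow]; exact pow_le_one' (Valuation.map_sum_le _ h1) p)
    (Valuation.map_sum_le _ h2)]
  rw [r.pow (Valuation.map_sum_le _ h1), r.sum _ _ h1, r.sum _ _ h2, sum_pow_char]
  refine Finset.sum_congr rfl (fun j hj => ?_)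
  rw [← r.pow (h1 j hj), mo_pow]

/-- freshman's dream, coefficientwise -/
theorem co_pow_sub {p : ℕ} (hp : p.Prime) (hp1 : ‖(p : C)‖ < 1) (y : EE k C) (N : ℕ)
    (hN : Supp (-(N : ℤ)) y) (hy : ∀ j, ‖y.co j‖ ≤ 1) (m : ℤ) :
    ‖(y ^ p).co m - (if (p : ℤ) ∣ m then (y.co (m / p)) ^ p else 0)‖ < 1 := by
  set M : ℤ := |m| + p * N + 1 with hM
  have hp0 : (0 : ℤ) < p := by exact_mod_cast hp.pos
  have hMpos : 0 < M := by positivity
  have hmM : m < M := by
    have := le_abs_self m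
    have : (0 : ℤ) ≤ p * N := by positivity
    omega
  set P : EE k C := ∑ j ∈ Finset.Ico (-(N : ℤ)) M, mo j (y.co j) with hP
  have hPco : ∀ i, P.co i = if -(N : ℤ) ≤ i ∧ i < M then y.co i else 0 := by
    intro i
    rw [hP, co_sum]
    simp only [co_mo]
    rw [Finset.sum_ite_eq]
    simp only [Finset.mem_Ico]
  have hPs : Supp (-(N : ℤ)) P := by
    intro i hi
    rw [hPco, if_neg (by omega)]
  have hQ : Supp M (y - P) := by
    intro i hi
    rw [co_sub, hPco]
    by_cases h : -(N : ℤ) ≤ i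
    · rw [if_pos ⟨h, hi⟩, sub_self]
    · rw [if_neg (by omega), hN i (by omega), sub_zero]
  -- coefficients of y^p and P^p agree at m
  have h1 : (y ^ p - P ^ p).co m = 0 := by
    have h2 : y ^ p - P ^ p = (∑ i ∈ Finset.range p, y ^ i * P ^ (p - 1 - i)) * (y - P) :=
      (Commute.geom_sum₂_mul (Commute.all y P) p).symm
    rw [h2]
    have h3 : Supp (-((p : ℤ) * N)) (∑ i ∈ Finset.range p, y ^ i * P ^ (p - 1 - i)) := by
      refine Supp.sum _ _ (fun i hi => ?_)
      have hi' : i < p := Finset.mem_range.mp hi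
      refine ((hN.pow i).mul (hPs.pow (p - 1 - i))).mono ?_
      have h4 : ((p - 1 - i : ℕ) : ℤ) = (p : ℤ) - 1 - i := by omega
      rw [h4]
      have h5 : (0 : ℤ) ≤ N := by positivity
      nlinarith
    apply (h3.mul hQ)
    have := le_abs_self m
    omega
  have h2 : (y ^ p).co m = (P ^ p).co m := by
    rw [co_sub] at h1
    exact sub_eq_zero.mp h1
  have h3 := gn_sum_pow_sub (k := k) hp hp1 (Finset.Ico (-(N : ℤ)) M) y.co hy
  have h4 := (le_gn _ m).trans_lt h3
  rw [co_sub, ← hP, ← h2] at h4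
  have h5 : (∑ j ∈ Finset.Ico (-(N : ℤ)) M, (mo (p * j) (y.co j ^ p) : EE k C)).co m =
      (if (p : ℤ) ∣ m then (y.co (m / p)) ^ p else 0) := by
    rw [co_sum]
    simp only [co_mo]
    by_cases hd : (p : ℤ) ∣ m
    · obtain ⟨j, rfl⟩ := hd
      rw [if_pos (dvd_mul_right _ _), Int.mul_ediv_cancel_left _ hp0.ne']
      rw [Finset.sum_eq_single j]
      · simp
      · intro i _ hi
        rw [if_neg]
        intro h
        exact hi (mul_left_cancel₀ hp0.ne' h).symm
      · intro hj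
        rw [if_pos rfl]
        rw [Finset.mem_Ico, not_and_or, not_le, not_lt] at hj
        rcases hj with hj | hj
        · rw [hN j hj, zero_pow hp.ne_zero]
        · exfalso
          have : M ≤ p * j := by nlinarith
          omega
    · rw [if_neg hd]
      refine Finset.sum_eq_zero (fun i _ => ?_)
      rw [if_neg]
      rintro rfl
      exact hd (dvd_mul_right _ _)
  rw [h5] at h4
  exact h4

/-- SPAN: `p`-basis property of the residue field at level `L`. -/
theorem span_EE {p : ℕ} (hp : p.Prime) (hp1 : ‖(p : C)‖ < 1) (L : IntermediateField k C)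
    [FiniteDimensional k L]
    (hperf : ∀ a ∈ L, ‖a‖ ≤ 1 → ∃ b ∈ L, ‖b‖ ≤ 1 ∧ ‖a - b ^ p‖ < 1)
    (a : EE k C) (haL : InL L a) (ha1 : gn a ≤ 1) :
    ∃ y : ℕ → EE k C, (∀ i, InL L (y i) ∧ gn (y i) ≤ 1) ∧
      gn (a - ∑ i ∈ Finset.range p, y i ^ p * T 1 ^ i) < 1 := by
  have hp0 : (0 : ℤ) < p := by exact_mod_cast hp.pos
  have hch : ∀ m : ℤ, ∃ b ∈ L, ‖b‖ ≤ 1 ∧ ‖a.co m - b ^ p‖ < 1 ∧ (‖a.co m‖ < 1 → b = 0) := by
    intro m
    by_cases h : ‖a.co m‖ < 1
    · exact ⟨0, L.zero_mem, by simp, by rw [zero_pow hp.ne_zero, sub_zero]; exact h, fun _ => rfl⟩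
    · obtain ⟨b, hb, hb1, hab⟩ := hperf _ (haL m) ((le_gn a m).trans ha1)
      exact ⟨b, hb, hb1, hab, fun h' => absurd h' h⟩
  choose b hbL hb1 hab hb0 using hch
  obtain ⟨K, hK0, hK⟩ := a.small zero_lt_one
  have hbK : ∀ n, n < -K → b n = 0 := fun n hn => hb0 n (hK n hn)
  -- the series y i
  have hidx : ∀ i : ℕ, i < p → ∀ j : ℤ, j < -(K + 1) → b (p * j + i) = 0 := by
    intro i hi j hj
    apply hbK
    have h1 : (i : ℤ) < p := by exact_mod_cast hi
    nlinarith
  let Y : ℕ → EE k C := fun i => if hi : i < p then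
    mk' (fun j => b (p * j + i)) ⟨L, inferInstance, fun j => hbL _⟩ ⟨1, fun j => hb1 _⟩
      (by
        apply tendsto_const_nhds.congr'
        filter_upwards [Filter.eventually_lt_atBot (-(K + 1))] with j hj
        exact (hidx i hi j hj).symm)
    else 0
  have hYco : ∀ i, i < p → ∀ j, (Y i).co j = b (p * j + i) := by
    intro i hi j
    simp only [Y, dif_pos hi]
    rfl
  refine ⟨Y, ?_, ?_⟩
  · intro i
    by_cases hi : i < p
    · refine ⟨fun j => ?_, gn_le (fun j => ?_)⟩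
      · rw [hYco i hi]; exact hbL _
      · rw [hYco i hi]; exact hb1 _
    · simp only [Y, dif_neg hi]
      exact ⟨InL.zero L, by rw [gn_zero]; exact zero_le_one⟩
  · apply gn_lt_one
    intro m
    rw [co_sub, co_sum]
    have hterm : ∀ i ∈ Finset.range p,
        ‖(Y i ^ p * T 1 ^ i).co m - (if (p : ℤ) ∣ (m - i) then b m ^ p else 0)‖ < 1 := by
      intro i hi
      have hi' : i < p := Finset.mem_range.mp hi
      have h1 : (Y i ^ p * T 1 ^ i).co m = (Y i ^ p).co (m - i) := by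
        rw [mul_comm, ← zpow_natCast, ← T_eq_zpow, co_T_mul]
      have hS : Supp (-((K + 1).toNat : ℤ)) (Y i) := by
        intro j hj
        rw [hYco i hi', hidx i hi' j (by omega)]
      have h2 := co_pow_sub (k := k) hp hp1 (Y i) (K + 1).toNat hS
        (fun j => by rw [hYco i hi']; exact hb1 _) (m - i)
      rw [h1]
      by_cases hd : (p : ℤ) ∣ (m - i)
      · rw [if_pos hd] at h2 ⊢
        rw [hYco i hi'] at h2
        have h3 : (p : ℤ) * ((m - i) / p) + i = m := by
          rw [Int.mul_ediv_cancel' hd]; ring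
        rwa [h3] at h2
      · rw [if_neg hd] at h2 ⊢
        exact h2
    have hsum : ∑ i ∈ Finset.range p, (if (p : ℤ) ∣ (m - (i : ℤ)) then b m ^ p else 0) = b m ^ p := by
      rw [Finset.sum_eq_single (m % p).toNat]
      · rw [if_pos]
        have h1 : ((m % p).toNat : ℤ) = m % p := Int.toNat_of_nonneg (Int.emod_nonneg _ hp0.ne')
        rw [h1]
        exact Int.dvd_self_sub_emod
      · intro i hi hne
        rw [if_neg]
        intro hd
        apply hne
        have hi' : i < p := Finset.mem_range.mp hi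
        have h2 : m % p = (i : ℤ) % p := (Int.modEq_iff_dvd.mpr hd : (i : ℤ) ≡ m [ZMOD p]).symm
        have h3 : (i : ℤ) % p = i := Int.emod_eq_of_lt (by positivity) (by exact_mod_cast hi')
        rw [h2, h3, Int.toNat_natCast]
      · intro h
        exfalso
        apply h
        rw [Finset.mem_range]
        have h1 := Int.emod_lt_of_pos m hp0
        have h2 := Int.emod_nonneg m hp0.ne'
        omega
    have h6 : a.co m - ∑ i ∈ Finset.range p, (Y i ^ p * T 1 ^ i).co m = (a.co m - b m ^ p) -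
        ∑ i ∈ Finset.range p, ((Y i ^ p * T 1 ^ i).co m -
          (if (p : ℤ) ∣ (m - (i : ℤ)) then b m ^ p else 0)) := by
      rw [Finset.sum_sub_distrib, hsum]
      ring
    rw [h6, sub_eq_add_neg]
    refine lt_of_le_of_lt (IsUltrametricDist.norm_add_le_max _ _) (max_lt (hab m) ?_)
    rw [norm_neg]
    have hne : (Finset.range p).Nonempty := ⟨0, Finset.mem_range.mpr hp.pos⟩
    obtain ⟨i, hi, hle⟩ := IsUltrametricDist.exists_norm_finsetSum_le_of_nonempty hne
      (fun i => (Y i ^ p * T 1 ^ i).co m - (if (p : ℤ) ∣ (m - (i : ℤ)) then b m ^ p else 0))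
    exact hle.trans_lt (hterm i hi)

end Crest.Agent.R013.CartE_359
end

-- ▼ part R013/CartE3_359
section
/-
ROW 13, leaf CARTC (helper359), file E3: CARTIER CONTRACTION IN `EE k C` (C = kbar level, no chart, no discreteness of C).
-/
set_option autoImplicit false
set_option linter.unusedSectionVars false

namespace Crest.Agent.R013.CartE_359

open Filter Topology
open scoped NNReal
open Crest.Agent.R013.Cell_408 (FinDef DiscNorm exists_max BD)
open Crest.Agent.R013.EE809 Crest.Agent.R013.CartC_359 Crest.Agent.R013.CartG_359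

/-- a derivation which contracts the valuation ring induces a derivation on the residue field -/
theorem exists_Delta {K Γ₀ κ : Type*} [Field K] [LinearOrderedCommGroupWithZero Γ₀] [Field κ]
    {v : Valuation K Γ₀} (r : Red v κ) (D : Derivation ℤ K K) (h1 : ∀ x, v x ≤ 1 → v (D x) ≤ 1)
    (h2 : ∀ x, v x < 1 → v (D x) < 1) :
    ∃ Δ : Derivation ℤ κ κ, ∀ x, v x ≤ 1 → r.res (D x) = Δ (r.res x) := by
  choose lift hl1 hl2 using r.surj
  have key : ∀ x y, v x ≤ 1 → v y ≤ 1 → r.res x = r.res y → r.res (D x) = r.res (D y) := by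
    intro x y hx hy hxy
    have h3 := (r.congr_iff hx hy).mp hxy
    apply r.congr (h1 x hx) (h1 y hy)
    rw [← map_sub]
    exact h2 _ h3
  let Δ : Derivation ℤ κ κ := Derivation.mk' (AddMonoidHom.toIntLinearMap
    { toFun := fun y => r.res (D (lift y))
      map_zero' := by
        have := key (lift 0) 0 (hl1 0) (by simp) (by rw [hl2, r.zero])
        rw [this, map_zero, r.zero]
      map_add' := fun x y => by
        have h3 : v (lift x + lift y) ≤ 1 := (v.map_add _ _).trans (max_le (hl1 x) (hl1 y))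
        have := key (lift (x + y)) (lift x + lift y) (hl1 _) h3
          (by rw [hl2, r.add _ _ (hl1 x) (hl1 y), hl2, hl2])
        rw [this, map_add, r.add _ _ (h1 _ (hl1 x)) (h1 _ (hl1 y))] })
    (fun a b => by
      change r.res (D (lift (a * b))) = a • r.res (D (lift b)) + b • r.res (D (lift a))
      have h3 : v (lift a * lift b) ≤ 1 := by rw [map_mul]; exact mul_le_one' (hl1 a) (hl1 b)
      have := key (lift (a * b)) (lift a * lift b) (hl1 _) h3
        (by rw [hl2, r.mul _ _ (hl1 a) (hl1 b), hl2, hl2])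
      rw [this, Derivation.leibniz, smul_eq_mul, smul_eq_mul, smul_eq_mul, smul_eq_mul,
        r.add _ _ (by rw [map_mul]; exact mul_le_one' (hl1 a) (h1 _ (hl1 b)))
          (by rw [map_mul]; exact mul_le_one' (hl1 b) (h1 _ (hl1 a))),
        r.mul _ _ (hl1 a) (h1 _ (hl1 b)), r.mul _ _ (hl1 b) (h1 _ (hl1 a)), hl2, hl2])
  refine ⟨Δ, fun x hx => ?_⟩
  exact key x (lift (r.res x)) hx (hl1 _) (by rw [hl2])

variable {k : Type*} [NontriviallyNormedField k] [CompleteSpace k] [IsUltrametricDist k]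
variable {C : Type*} [NormedField C] [IsUltrametricDist C] [NormedAlgebra k C]
  [Algebra.IsAlgebraic k C] [IsAlgClosed C] [hk : Fact (DiscNorm k)]

section der

variable (dE : Derivation ℤ (EE k C) (EE k C))
  (hdE : ∀ (a : EE k C) (n : ℤ), (dE a).co n = ((n : C) + 1) * a.co (n + 1))

include hdE

theorem norm_intCast_le (n : ℤ) : ‖(n : C)‖ ≤ 1 := by
  have hnat : ∀ m : ℕ, ‖(m : C)‖ ≤ 1 := fun m => IsUltrametricDist.norm_natCast_le_one C m
  cases n with
  | ofNat m => simpa using hnat m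
  | negSucc m =>
    rw [Int.cast_negSucc, norm_neg]
    exact hnat _

theorem gn_dE_le (a : EE k C) : gn (dE a) ≤ gn a := by
  apply gn_le
  intro n
  rw [hdE, norm_mul]
  have h1 : ‖(n : C) + 1‖ ≤ 1 := by
    have := norm_intCast_le dE hdE (n + 1)
    push_cast at this
    exact this
  calc ‖(n : C) + 1‖ * ‖a.co (n + 1)‖ ≤ 1 * ‖a.co (n + 1)‖ :=
        mul_le_mul_of_nonneg_right h1 (norm_nonneg _)
    _ ≤ gn a := by rw [one_mul]; exact le_gn a _

theorem dE_algebraMap (c : C) : dE (algebraMap C (EE k C) c) = 0 := by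
  ext n
  rw [hdE, co_algebraMap, co_zero]
  by_cases h : n + 1 = 0
  · have : (n : C) + 1 = 0 := by
      have h2 : ((n + 1 : ℤ) : C) = 0 := by rw [h]; simp
      push_cast at h2
      exact h2
    rw [this, zero_mul]
  · rw [if_neg h, mul_zero]

theorem dE_T : dE (T 1 : EE k C) = 1 := by
  ext n
  rw [hdE, T, co_mo, co_one]
  by_cases h : n = 0
  · subst h; simp
  · rw [if_neg (by omega), if_neg h, mul_zero]

theorem dE_mem {L : IntermediateField k C} {a : EE k C} (ha : InL L a) : InL L (dE a) := by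
  intro n
  rw [hdE]
  refine mul_mem ?_ (ha _)
  have : ((n : C) + 1) = ((n + 1 : ℤ) : C) := by push_cast; rfl
  rw [this]
  exact intCast_mem L _

variable {κ : Type*} [Field κ] (r : Red (vE (k := k) (C := C)) κ)

theorem exists_DeltaE : ∃ Δ : Derivation ℤ κ κ, ∀ x, vE x ≤ 1 → r.res (dE x) = Δ (r.res x) := by
  apply exists_Delta
  · intro x hx
    rw [vE_le_one] at hx ⊢
    exact (gn_dE_le dE hdE x).trans hx
  · intro x hx
    rw [vE_lt_one] at hx ⊢
    exact (gn_dE_le dE hdE x).trans_lt hx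

/-- the level `L` of `EE` -/
theorem exists_DLev {p : ℕ} (hp : p.Prime) (hp0 : (p : C) ≠ 0) (hp1 : ‖(p : C)‖ < 1)
    (L : IntermediateField k C) [FiniteDimensional k L]
    (hperf : ∀ a ∈ L, ‖a‖ ≤ 1 → ∃ b ∈ L, ‖b‖ ≤ 1 ∧ ‖a - b ^ p‖ < 1)
    (Δ : Derivation ℤ κ κ) (hΔ : ∀ x, vE x ≤ 1 → r.res (dE x) = Δ (r.res x)) :
    ∃ (π : EE k C) (e : ℕ), DLev p vE r (LC L) (EL L) (T 1) π e dE Δ := by
  obtain ⟨π, hπ, hπ0, hπ1, hu⟩ := exists_unif (k := k) L
  obtain ⟨e, he⟩ := exists_pow_unif hπ hπ0 hπ1 hu (natCast_mem L p) hp0 hp1.le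
  have he0 : 0 < e := by
    rcases Nat.eq_zero_or_pos e with h | h
    · rw [h, pow_zero] at he
      rw [he] at hp1
      exact absurd hp1 (lt_irrefl _)
    · exact h
  have hvC : ∀ c : C, ((vE (algebraMap C (EE k C) c) : ℝ≥0) : ℝ) = ‖c‖ := by
    intro c
    rw [coe_vE, gn_algebraMap]
  refine ⟨algebraMap C (EE k C) π, e, ?_⟩
  refine
    { L_le := ?_
      T_mem := InL.T L 1
      T_le := ?_
      π_mem := ⟨π, hπ, rfl⟩
      π_ne := ?_
      π_lt := ?_
      unif := ?_
      e_pos := he0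
      p_eq := ?_
      perf := ?_
      DL := ?_
      DT := dE_T dE hdE
      D_mem := fun x hx => dE_mem dE hdE hx
      D_le := ?_
      res_D := fun x _ hx => hΔ x hx
      span := ?_ }
  · rintro _ ⟨c, hc, rfl⟩
    intro n
    rw [co_algebraMap]
    split_ifs
    · exact hc
    · exact zero_mem L
  · rw [vE_le_one, T, gn_mo, norm_one]
  · rw [ne_eq, map_eq_zero]; exact hπ0
  · rw [vE_lt_one, gn_algebraMap]; exact hπ1
  · intro x hx hx1
    rw [← NNReal.coe_le_coe, hvC, coe_vE]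
    rw [vE_lt_one] at hx1
    exact gn_le (fun n => hu _ (hx n) ((le_gn x n).trans_lt hx1))
  · rw [← NNReal.coe_inj, NNReal.coe_pow, hvC, ← he]
    have : (p : EE k C) = algebraMap C (EE k C) (p : C) := by rw [map_natCast]
    rw [this, hvC]
  · rintro _ ⟨c, hc, rfl⟩ hc1
    rw [← NNReal.coe_le_coe, hvC, NNReal.coe_one] at hc1
    obtain ⟨b, hb, hb1, hbc⟩ := hperf c hc hc1
    refine ⟨algebraMap C (EE k C) b, ⟨b, hb, rfl⟩, ?_, ?_⟩
    · rw [← NNReal.coe_le_coe, hvC, NNReal.coe_one]; exact hb1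
    · rw [← map_pow, ← map_sub, ← NNReal.coe_lt_coe, hvC, NNReal.coe_one]; exact hbc
  · rintro _ ⟨c, hc, rfl⟩
    exact dE_algebraMap dE hdE c
  · intro x _ hx
    rw [vE_le_one] at hx ⊢
    exact (gn_dE_le dE hdE x).trans hx
  · intro x hx hx1
    rw [vE_le_one] at hx1
    obtain ⟨y, hy, hxy⟩ := span_EE hp hp1 L hperf x hx hx1
    exact ⟨y, fun i => ⟨(hy i).1, vE_le_one.mpr (hy i).2⟩, vE_lt_one.mpr hxy⟩

/-- **CARTIER CONTRACTION in `EE`**. -/
theorem cartE {p : ℕ} [hp : Fact p.Prime] (hp0 : (p : C) ≠ 0) (hp1 : ‖(p : C)‖ < 1)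
    (hperf : ∀ L : IntermediateField k C, FiniteDimensional k L →
      ∀ a ∈ L, ‖a‖ ≤ 1 → ∃ b ∈ L, ‖b‖ ≤ 1 ∧ ‖a - b ^ p‖ < 1)
    (CO : κ → κ) (hCO : ∀ y : ℕ → κ, CO (∑ i ∈ Finset.range p, y i ^ p * r.res (T 1) ^ i) = y (p - 1))
    (a g : EE k C) (ha : gn a = 1) (hg : gn g ≤ 1) (n : ℕ) (hag : gn (a - g ^ (p ^ n)) < 1)
    (c : C) (hc : ‖c‖ = gn (dE a)) (hcn : ‖(p : C)‖ ^ n < ‖c‖) :
    ∃ m, CO^[m] (r.res (dE a / (algebraMap C (EE k C) c * a))) = 0 := by
  obtain ⟨L1, hL1, haL⟩ := a.exists_inL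
  obtain ⟨L2, hL2, hgL⟩ := g.exists_inL
  have hcint : IsIntegral k c := (Algebra.IsAlgebraic.isAlgebraic c).isIntegral
  have hL3 : FiniteDimensional k (IntermediateField.adjoin k {c}) :=
    IntermediateField.adjoin.finiteDimensional hcint
  let L := L1 ⊔ L2 ⊔ IntermediateField.adjoin k {c}
  have hL : FiniteDimensional k L := inferInstance
  have haL' : InL L a := haL.mono (le_sup_left.trans le_sup_left)
  have hgL' : InL L g := hgL.mono (le_sup_right.trans le_sup_left)
  have hcL : c ∈ L := (le_sup_right : _ ≤ L) (IntermediateField.mem_adjoin_simple_self k c)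
  obtain ⟨Δ, hΔ⟩ := exists_DeltaE dE hdE r
  obtain ⟨π, e, hD⟩ := exists_DLev dE hdE r hp.out hp0 hp1 L (hperf L hL) Δ hΔ
  have := charP_res r p hp.out hp1
  have hvC : ∀ c : C, ((vE (algebraMap C (EE k C) c) : ℝ≥0) : ℝ) = ‖c‖ := by
    intro c
    rw [coe_vE, gn_algebraMap]
  have hvp : ((vE (p : EE k C) : ℝ≥0) : ℝ) = ‖(p : C)‖ := by
    have : (p : EE k C) = algebraMap C (EE k C) (p : C) := by rw [map_natCast]
    rw [this, hvC]
  refine hD.cart CO hCO a haL' ?_ g hgL' (vE_le_one.mpr hg) n ?_ (algebraMap C (EE k C) c)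
    ⟨c, hcL, rfl⟩ ?_ ?_
  · rw [← NNReal.coe_inj, coe_vE, ha, NNReal.coe_one]
  · rw [← r.pow (vE_le_one.mpr hg)]
    apply r.congr (vE_le_one.mpr ha.le)
      (by rw [map_pow]; exact pow_le_one' (vE_le_one.mpr hg) _)
    rw [vE_lt_one]
    exact hag
  · rw [← NNReal.coe_inj, hvC, hc, coe_vE]
  · rw [← NNReal.coe_lt_coe, NNReal.coe_pow, hvp, hvC]
    exact hcn

end der

end Crest.Agent.R013.CartE_359
end

-- ▼ part R013/M3A_359
section
/-
ROW 13, leaf M3 (helper359), file A: the Cartier contraction (`cartE`) in the residue field `kap w` of a norm of `K`.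
-/
set_option autoImplicit false
set_option linter.unusedSectionVars false
set_option linter.style.haveILetI false
set_option linter.unusedVariables false

namespace Crest.Agent.R013.M3_359

open scoped NNReal
open WithZero Module
open Crest.Agent.R013.Cell_408 (FinDef DiscNorm)
open Crest.Agent.R013.EE809 hiding od
open Crest.Agent.R013.RR7_948 Crest.Agent.R013.RR8_948 Crest.Agent.R013.RR9_948
open Crest.Agent.R013.RR11_948 Crest.Agent.R013.RR14_948
open Crest.Agent.R013.Red332 hiding od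
open Crest.Agent.R013.Car1_700 Crest.Agent.R013.RedD_310
open Crest.Agent.R013.SSK_332 Crest.Agent.R013.Car2_700 Crest.Agent.R013.Car6_700
open Crest.Agent.R013.CartC_359 Crest.Agent.R013.CartE_359

section perf

variable {C : Type*} [NormedField C] [IsUltrametricDist C] (p : ℕ) [hp : Fact p.Prime]
  [CharP (Ct C) p]

theorem rc_natCast (n : ℕ) : rc (n : C) = n := by
  induction n with
  | zero => simp [rc_zero]
  | succ n ih =>
    rw [Nat.cast_succ, Nat.cast_succ, rc_add (by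
      rw [← NNReal.coe_le_coe, coe_nnnorm, NNReal.coe_one]
      exact IsUltrametricDist.norm_natCast_le_one C n) (by simp), ih, rc_one]

theorem norm_p_lt : ‖(p : C)‖ < 1 := by
  have h : rc (p : C) = 0 := by rw [rc_natCast, CharP.cast_eq_zero]
  rw [rc_eq_zero_iff (by
    rw [← NNReal.coe_le_coe, coe_nnnorm, NNReal.coe_one]
    exact IsUltrametricDist.norm_natCast_le_one C p)] at h
  exact_mod_cast h

theorem rc_pow {c : C} (hc : ‖c‖₊ ≤ 1) (n : ℕ) : rc (c ^ n) = rc c ^ n := by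
  induction n with
  | zero => rw [pow_zero, pow_zero, rc_one]
  | succ n ih =>
    rw [pow_succ, pow_succ, rc_mul (by rw [nnnorm_pow]; exact pow_le_one' hc n) hc, ih]

variable [Algebra (ZMod p) (Ct C)] [Algebra.IsAlgebraic (ZMod p) (Ct C)]

theorem exists_pow_eq (x : Ct C) : ∃ r : ℕ, 0 < r ∧ x ^ p ^ r = x := by
  have hx : IsIntegral (ZMod p) x := (Algebra.IsAlgebraic.isAlgebraic x).isIntegral
  let F := IntermediateField.adjoin (ZMod p) {x}
  haveI : FiniteDimensional (ZMod p) F := IntermediateField.adjoin.finiteDimensional hx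
  haveI : Finite F := Module.finite_of_finite (ZMod p)
  haveI : Fintype F := Fintype.ofFinite F
  haveI : CharP F p := charP_of_injective_algebraMap (algebraMap (ZMod p) F).injective p
  obtain ⟨n, -, hn⟩ := FiniteField.card F p
  refine ⟨n, n.pos, ?_⟩
  have h1 := FiniteField.pow_card (⟨x, IntermediateField.mem_adjoin_simple_self (ZMod p) x⟩ : F)
  rw [hn] at h1
  exact congrArg Subtype.val h1

theorem hperf {k : Type*} [NontriviallyNormedField k] [NormedAlgebra k C]
    (L : IntermediateField k C) (a : C) (ha : a ∈ L) (ha1 : ‖a‖ ≤ 1) :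
    ∃ b ∈ L, ‖b‖ ≤ 1 ∧ ‖a - b ^ p‖ < 1 := by
  have ha2 : ‖a‖₊ ≤ 1 := by exact_mod_cast ha1
  obtain ⟨r, hr, h⟩ := exists_pow_eq p (rc a)
  obtain ⟨s, rfl⟩ : ∃ s, r = s + 1 := ⟨r - 1, by omega⟩
  refine ⟨a ^ p ^ s, pow_mem ha _, by rw [norm_pow]; exact pow_le_one₀ (norm_nonneg _) ha1, ?_⟩
  have h2 : rc (a ^ p ^ (s + 1)) = rc a := by rw [rc_pow ha2, h]
  have h3 : ‖a - a ^ p ^ (s + 1)‖₊ < 1 := by
    have h4 : ‖-(a ^ p ^ (s + 1))‖₊ ≤ 1 := by
      rw [nnnorm_neg, nnnorm_pow]; exact pow_le_one' ha2 _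
    have h5 : ‖a + -(a ^ p ^ (s + 1))‖₊ ≤ 1 := (NormedField.valuation (K := C)).map_add_le ha2 h4
    have h7 : rc (-(a ^ p ^ (s + 1))) = - rc a := by
      have h8 := rc_add (a := a ^ p ^ (s + 1)) (b := -(a ^ p ^ (s + 1)))
        (by rw [nnnorm_pow]; exact pow_le_one' ha2 _) h4
      rw [add_neg_cancel, rc_zero, h2] at h8
      exact (neg_eq_of_add_eq_zero_right h8.symm).symm
    have h6 : rc (a + -(a ^ p ^ (s + 1))) = 0 := by
      rw [rc_add ha2 h4, h7, add_neg_cancel]
    rw [rc_eq_zero_iff h5, ← sub_eq_add_neg] at h6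
    exact h6
  rw [← pow_mul, ← pow_succ]
  exact_mod_cast h3

end perf

section circle

variable {k : Type*} [NontriviallyNormedField k] [CompleteSpace k] [IsUltrametricDist k]
variable {C : Type*} [NormedField C] [IsUltrametricDist C] [NormedAlgebra k C]
  [Algebra.IsAlgebraic k C] [IsAlgClosed C] [hk : Fact (DiscNorm k)]

variable (k C) in
/-- the residue field of the circle -/
abbrev KE : Type _ := IsLocalRing.ResidueField (vE (k := k) (C := C)).valuationSubring

variable (k C) in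
/-- the reduction map of the circle -/
noncomputable abbrev rE : Red (vE (k := k) (C := C)) (KE k C) := Red.canonical _

variable (k C) in
/-- `d/dT` as a derivation over `ℤ` -/
noncomputable def dZ : Derivation ℤ (EE k C) (EE k C) := (dT k C).restrictScalars ℤ

theorem dZ_apply (a : EE k C) : dZ k C a = dT k C a := rfl

theorem co_dZ (a : EE k C) (n : ℤ) : (dZ k C a).co n = ((n : C) + 1) * a.co (n + 1) := by
  rw [dZ_apply, co_dT]
  push_cast
  rfl

variable (p : ℕ) [hp : Fact p.Prime] [CharP (Ct C) p] [Algebra (ZMod p) (Ct C)]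
  [Algebra.IsAlgebraic (ZMod p) (Ct C)]

variable (k C) in
/-- the one-element `p`-basis of the residue field of the circle -/
noncomputable def pbE : PB p (KE k C) where
  hp := hp.out
  char := charP_res (rE k C) p hp.out (norm_p_lt p)
  x := (rE k C).res (T 1)
  D := fun y => (exists_DeltaE (dZ k C) co_dZ (rE k C)).choose y
  D_add := fun a b => map_add _ a b
  D_mul := fun a b => by rw [Derivation.leibniz, smul_eq_mul, smul_eq_mul]
  D_x := by
    rw [← (exists_DeltaE (dZ k C) co_dZ (rE k C)).choose_spec (T 1) (by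
      rw [vE_le_one, T, gn_mo, norm_one]), dE_T (dZ k C) co_dZ, (rE k C).one]
  span := fun y => by
    obtain ⟨a, ha, rfl⟩ := (rE k C).surj y
    obtain ⟨L, hL, haL⟩ := a.exists_inL
    obtain ⟨g, hg, hag⟩ := span_EE hp.out (norm_p_lt p) L (hperf p L) a haL (vE_le_one.mp ha)
    refine ⟨fun i => (rE k C).res (g i), ?_⟩
    have hT : vE (T 1 : EE k C) ≤ 1 := by rw [vE_le_one, T, gn_mo, norm_one]
    have hgi : ∀ i, vE (g i) ≤ 1 := fun i => vE_le_one.mpr (hg i).2
    have hterm : ∀ i ∈ Finset.range p, vE (g i ^ p * T 1 ^ i) ≤ 1 := fun i _ => by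
      rw [map_mul, map_pow, map_pow]
      exact mul_le_one' (pow_le_one' (hgi i) _) (pow_le_one' hT _)
    have h1 := (rE k C).congr ha (Valuation.map_sum_le vE hterm) (vE_lt_one.mpr hag)
    rw [h1, (rE k C).sum _ _ hterm]
    refine Finset.sum_congr rfl fun i hi => ?_
    rw [(rE k C).mul _ _ (by rw [map_pow]; exact pow_le_one' (hgi i) _)
      (by rw [map_pow]; exact pow_le_one' hT _), (rE k C).pow (hgi i), (rE k C).pow hT]


theorem pbE_D {a : EE k C} (ha : vE a ≤ 1) : (pbE k C p).D ((rE k C).res a) =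
    (rE k C).res (dT k C a) :=
  ((exists_DeltaE (dZ k C) co_dZ (rE k C)).choose_spec a ha).symm

/-- `cartE` in terms of `pbE` -/
theorem cart_pbE (hp0 : (p : C) ≠ 0) (a g : EE k C) (ha : gn a = 1) (hg : gn g ≤ 1) (n : ℕ)
    (hag : gn (a - g ^ (p ^ n)) < 1) (c : C) (hc : ‖c‖ = gn (dT k C a))
    (hcn : ‖(p : C)‖ ^ n < ‖c‖) :
    ∃ m, (pbE k C p).C^[m] ((rE k C).res (dT k C a / (algebraMap C (EE k C) c * a))) = 0 :=
  cartE (dZ k C) co_dZ (rE k C) hp0 (norm_p_lt p) (fun L _ a ha ha1 => hperf p L a ha ha1)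
    (pbE k C p).C (fun y => (pbE k C p).C_eq rfl) a g ha hg n hag c hc hcn

end circle

/-! ### the residue field of a norm in the residue field of the circle -/

section psi

variable {k : Type*} [NontriviallyNormedField k] [CompleteSpace k] [IsUltrametricDist k]
variable {C : Type*} [NormedField C] [IsUltrametricDist C] [NormedAlgebra k C]
  [Algebra.IsAlgebraic k C] [IsAlgClosed C] [hk : Fact (DiscNorm k)]
variable {K : Type*} [Field K] [Algebra C K]
variable (w : Nm C K) {em : K →+* EE k C} (hgn : ∀ f, gn (em f) = w.v f)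

include hgn

theorem vE_em (f : K) : vE (em f) = w.v f := by
  rw [← NNReal.coe_inj, coe_vE, hgn]

/-- the embedding of residue fields -/
theorem exists_psi : ∃ Ψ : kap w →+* KE k C, ∀ f, w.v f ≤ 1 → Ψ (red w f) = (rE k C).res (em f) := by
  have h1 : ∀ f, w.v f ≤ 1 → vE (em f) ≤ 1 := fun f hf => by rw [vE_em w hgn]; exact hf
  have key : ∀ f g, w.v f ≤ 1 → w.v g ≤ 1 → red w f = red w g →
      (rE k C).res (em f) = (rE k C).res (em g) := by
    intro f g hf hg h
    apply (rE k C).congr (h1 f hf) (h1 g hg)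
    rw [← map_sub, vE_em w hgn, ← red_eq_iff w hf hg, h]
  choose lift hl1 hl2 using red_surj w
  refine ⟨{ toFun := fun g => (rE k C).res (em (lift g))
            map_one' := ?_
            map_mul' := ?_
            map_zero' := ?_
            map_add' := ?_ }, ?_⟩
  · rw [key _ 1 (hl1 _) (by simp) (by rw [hl2, red_one]), map_one, (rE k C).one]
  · intro x y
    have h2 : w.v (lift x * lift y) ≤ 1 := by rw [map_mul]; exact mul_le_one' (hl1 x) (hl1 y)
    rw [key _ (lift x * lift y) (hl1 _) h2 (by rw [hl2, red_mul w (hl1 x) (hl1 y), hl2, hl2]),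
      map_mul, (rE k C).mul _ _ (h1 _ (hl1 x)) (h1 _ (hl1 y))]
  · rw [key _ 0 (hl1 _) (by simp) (by rw [hl2, red_zero]), map_zero, (rE k C).zero]
  · intro x y
    have h2 : w.v (lift x + lift y) ≤ 1 := (w.v.map_add _ _).trans (max_le (hl1 x) (hl1 y))
    rw [key _ (lift x + lift y) (hl1 _) h2 (by rw [hl2, red_add w (hl1 x) (hl1 y), hl2, hl2]),
      map_add, (rE k C).add _ _ (h1 _ (hl1 x)) (h1 _ (hl1 y))]
  · intro f hf
    exact key _ f (hl1 _) hf (hl2 _)

end psi

section main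

variable {k : Type*} [NontriviallyNormedField k] [CompleteSpace k] [IsUltrametricDist k]
variable {C : Type*} [NormedField C] [IsUltrametricDist C] [NormedAlgebra k C]
  [Algebra.IsAlgebraic k C] [IsAlgClosed C] [hk : Fact (DiscNorm k)]
variable {K : Type*} [Field K] [Algebra C K] [Algebra (RatFunc C) K]
  [IsScalarTower C (RatFunc C) K] [Algebra.IsSeparable (RatFunc C) K]
variable {w : Nm C K}
variable [Algebra (RatFunc (Ct C)) (kap w)] [IsScalarTower (Ct C) (RatFunc (Ct C)) (kap w)]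
  [FiniteDimensional (RatFunc (Ct C)) (kap w)] [Algebra.IsSeparable (RatFunc (Ct C)) (kap w)]
variable {T0 : K} (hT : w.v T0 ≤ 1) (hT' : red w T0 = RR8_948.xK (Ct C) (kap w))

variable (x : Pl (Ct C) (kap w)) {em : K →+* EE k C}
  (hC : ∀ (c : C) (n : ℤ), (em (algebraMap C K c)).co n = if n = 0 then c else 0)
  (hgn : ∀ f, gn (em f) = w.v f)
  (hod : ∀ f, f ≠ 0 → EE809.od (em f) = Red332.od w x f)

variable (p : ℕ) [hp : Fact p.Prime] [CharP (Ct C) p] [Algebra (ZMod p) (Ct C)]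
  [Algebra.IsAlgebraic (ZMod p) (Ct C)] [PerfectField (Ct C)]

include hT hT' hC hgn hod

/-- **Cartier commutes with the embedding of residue fields** -/
theorem C_psi (Ψ : kap w →+* KE k C) (hΨ : ∀ f, w.v f ≤ 1 → Ψ (red w f) = (rE k C).res (em f))
    (g : kap w) : (pbE k C p).C (Ψ g * (rE k C).res (dT k C (em T0))) =
      Ψ (CK p (Ct C) (kap w) g) * (rE k C).res (dT k C (em T0)) := by
  have h1 : gn (dT k C (em T0)) = 1 := gn_dT_lift x hC hgn hod hT hT'
  have hT0 : vE (em T0) ≤ 1 := by rw [vE_em w hgn]; exact hT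
  have h2 : (pbE k C p).D (Ψ (RR8_948.xK (Ct C) (kap w))) = (rE k C).res (dT k C (em T0)) := by
    rw [← hT', hΨ T0 hT, pbE_D p hT0]
  have h3 : (pbE k C p).D (Ψ (RR8_948.xK (Ct C) (kap w))) ≠ 0 := by
    rw [h2, (rE k C).ne_zero_iff (vE_le_one.mpr h1.le), ← NNReal.coe_inj, coe_vE, h1, NNReal.coe_one]
  have h4 := (pbE k C p).C_chg h3 (Ψ g)
  rw [h2] at h4
  rw [h4]
  congr 1
  have h5 := (pb p (Ct C) (kap w)).co_spec g
  have h6 : Ψ g = ∑ i ∈ Finset.range p, (fun i => Ψ ((pb p (Ct C) (kap w)).co g i)) i ^ p *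
      ((pbE k C p).chg h3).x ^ i := by
    conv_lhs => rw [h5]
    rw [map_sum]
    refine Finset.sum_congr rfl fun i _ => ?_
    rw [map_mul, map_pow, map_pow]
    rfl
  exact ((pbE k C p).chg h3).C_eq h6

theorem C_psi_iter (Ψ : kap w →+* KE k C)
    (hΨ : ∀ f, w.v f ≤ 1 → Ψ (red w f) = (rE k C).res (em f)) (m : ℕ)
    (g : kap w) : (pbE k C p).C^[m] (Ψ g * (rE k C).res (dT k C (em T0))) =
      Ψ ((CK p (Ct C) (kap w))^[m] g) * (rE k C).res (dT k C (em T0)) := by
  induction m generalizing g with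
  | zero => rfl
  | succ m ih =>
    rw [Function.iterate_succ_apply, Function.iterate_succ_apply,
      C_psi hT hT' x hC hgn hod p Ψ hΨ, ih]

/-- **CARTIER CONTRACTION at a norm of `K`**: if the reduction of `h` is a `p^n`-th power and
`|dlog h| > |p^n|`, the reduction of `dlog h` is killed by a power of the Cartier operator. -/
theorem cartK (hp0 : (p : C) ≠ 0) {h : K} (hh : w.v h = 1) {n : ℕ} {y : kap w}
    (hy : red w h = y ^ p ^ n) {c : C} (hc : ‖c‖ = gn (dT k C (em h)))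
    (hcn : ‖(p : C)‖ ^ n < ‖c‖) :
    ∃ m, (CK p (Ct C) (kap w))^[m]
      (red w (del C K h / (algebraMap C K c * h) / del C K T0)) = 0 := by
  obtain ⟨Ψ, hΨ⟩ := exists_psi w hgn
  have h1 : gn (dT k C (em T0)) = 1 := gn_dT_lift x hC hgn hod hT hT'
  obtain ⟨f, hf, rfl⟩ := red_surj w y
  have hdT := del_lift_ne_zero hT hT' x hC hgn hod
  have hc0 : c ≠ 0 := by
    rintro rfl
    rw [norm_zero] at hcn
    exact absurd hcn (not_lt.mpr (pow_nonneg (norm_nonneg _) n))
  have hcK : algebraMap C K c ≠ 0 := (map_ne_zero _).mpr hc0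
  have hh0 : h ≠ 0 := by rintro rfl; simp at hh
  have hgnh : gn (em h) = 1 := by rw [hgn, hh]; rfl
  have hlt : gn (em h - em f ^ p ^ n) < 1 := by
    rw [← map_pow, ← map_sub, hgn]
    have h2 : w.v (h - f ^ p ^ n) < 1 := by
      rw [← red_eq_iff w hh.le (by rw [map_pow]; exact pow_le_one' hf _), hy, red_pow w hf]
    exact_mod_cast h2
  obtain ⟨m, hm⟩ := cart_pbE p hp0 (em h) (em f) hgnh (by rw [hgn]; exact_mod_cast hf) n hlt c hc hcn
  refine ⟨m, ?_⟩
  set q : K := del C K h / (algebraMap C K c * h) / del C K T0 with hq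
  have hqv : w.v q ≤ 1 := by
    have h3 := v_del_div w hC hgn h1 (del C K h)
    rw [ex_del em hC, ← hc] at h3
    have h4 : w.v (del C K h / del C K T0) = ‖c‖₊ := by
      rw [← NNReal.coe_inj, h3]; rfl
    have h5 : q = del C K h / del C K T0 * (algebraMap C K c)⁻¹ * h⁻¹ := by
      rw [hq]; field_simp
    rw [h5, map_mul, map_mul, map_inv₀, map_inv₀, hh, h4, w.hC, inv_one, mul_one,
      mul_inv_cancel₀ (by simpa using hc0)]
  have hemc : em (algebraMap C K c) = algebraMap C (EE k C) c := by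
    ext n; rw [hC, co_algebraMap]
  have h6 : dT k C (em h) / (algebraMap C (EE k C) c * em h) = em q * dT k C (em T0) := by
    have h7 := ex_mul em q (del C K T0)
    rw [ex_del em hC] at h7
    rw [← h7]
    have h8 : q * del C K T0 = (algebraMap C K c * h)⁻¹ * del C K h := by
      rw [hq]; field_simp
    rw [h8, ex_mul, ex_del em hC, map_inv₀, map_mul, hemc, div_eq_mul_inv, mul_comm]
  have h9 : vE (dT k C (em T0)) = 1 := by
    rw [← NNReal.coe_inj, coe_vE, h1, NNReal.coe_one]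
  rw [h6, (rE k C).mul _ _ (by rw [vE_em w hgn]; exact hqv) h9.le, ← hΨ q hqv,
    C_psi_iter hT hT' x hC hgn hod p Ψ hΨ] at hm
  rcases mul_eq_zero.mp hm with h10 | h10
  · exact (map_eq_zero Ψ).mp h10
  · exact absurd h10 (((rE k C).ne_zero_iff h9.le).mpr h9)

end main

end Crest.Agent.R013.M3_359
end

-- ▼ part R013/M3B_359
section
/-
ROW 13, leaf M1 (helper359), file B: `dlog` of a function all of whose orders on a cell are divisible by `n`.
-/
set_option autoImplicit false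
set_option linter.unusedSectionVars false
set_option linter.unusedVariables false

namespace Crest.Agent.R013.M3_359

open Crest.Agent.R013.Cell_408 (FinDef DiscNorm)
open Crest.Agent.R013.EE809 Crest.Agent.R013.SSK_332 Crest.Agent.R013.RedD_310

variable {k : Type*} [NontriviallyNormedField k] [CompleteSpace k] [IsUltrametricDist k]
variable {C : Type*} [NormedField C] [IsUltrametricDist C] [NormedAlgebra k C]
  [Algebra.IsAlgebraic k C] [IsAlgClosed C] [hk : Fact (DiscNorm k)]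

/-- logarithmic derivative -/
noncomputable def dl (a : EE k C) : EE k C := dFun a / a

theorem dl_mul {a b : EE k C} (ha : a ≠ 0) (hb : b ≠ 0) : dl (a * b) = dl a + dl b := by
  unfold dl
  rw [dFun_mul]
  field_simp
  ring

theorem dl_one : dl (1 : EE k C) = 0 := by
  have h := dl_mul (one_ne_zero (α := EE k C)) one_ne_zero
  rw [mul_one] at h
  exact left_eq_add.mp h

theorem dl_pow {a : EE k C} (ha : a ≠ 0) (n : ℕ) : dl (a ^ n) = (n : EE k C) * dl a := by
  induction n with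
  | zero => rw [pow_zero, dl_one, Nat.cast_zero, zero_mul]
  | succ n ih =>
    rw [pow_succ, dl_mul (pow_ne_zero n ha) ha, ih]
    push_cast
    ring

theorem gn_div (a : EE k C) {b : EE k C} (hb : b ≠ 0) : gn (a / b) = gn a / gn b := by
  rw [eq_div_iff (gn_pos hb).ne', ← gn_mul hk.out, div_mul_cancel₀ _ hb]

theorem gn_dl_le {a : EE k C} (ha : a ≠ 0) : gn (dl a) ≤ 1 := by
  unfold dl
  rw [gn_div _ ha, div_le_one (gn_pos ha)]
  exact gn_dFun_le a

theorem gn_natCast_mul (n : ℕ) (a : EE k C) : gn ((n : EE k C) * a) = ‖(n : C)‖ * gn a := by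
  have : (n : EE k C) = algebraMap C (EE k C) (n : C) := by rw [map_natCast]
  rw [this, gn_mul hk.out, gn_algebraMap]

theorem gn_dl_pow_le {a : EE k C} (ha : a ≠ 0) (n : ℕ) : gn (dl (a ^ n)) ≤ ‖(n : C)‖ := by
  rw [dl_pow ha, gn_natCast_mul]
  calc ‖(n : C)‖ * gn (dl a) ≤ ‖(n : C)‖ * 1 := mul_le_mul_of_nonneg_left (gn_dl_le ha) (norm_nonneg _)
    _ = ‖(n : C)‖ := mul_one _

/-! ### multiplicities -/

/-- two multisets whose multiplicities are congruent modulo `n` -/
theorem exists_root {n : ℕ} (hn : n ≠ 0) {Z Z' : Multiset C} (h : ∀ τ, (n : ℤ) ∣ mlt Z Z' τ) :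
    ∃ S : Multiset C, linP k Z * linP k Z' ^ (n - 1) = linP k S ^ n := by
  classical
  have hpow : ∀ (Y : Multiset C) (m : ℕ), linP k (m • Y) = linP k Y ^ m := by
    intro Y m
    induction m with
    | zero => rw [zero_smul, pow_zero, linP_zero]
    | succ m ih => rw [succ_nsmul, linP_add, ih, pow_succ]
  have h1 : ∀ a, n ∣ (by classical exact (Z + (n - 1) • Z').count a : ℕ) := by
    intro a
    have h2 := h a
    rw [mlt_apply] at h2
    have h3 : (n : ℤ) ∣ (((Z + (n - 1) • Z').count a : ℕ) : ℤ) := by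
      rw [Multiset.count_add, Multiset.count_nsmul]
      push_cast
      rw [Nat.cast_sub (Nat.one_le_iff_ne_zero.mpr hn)]
      have h4 : ((Z.count a : ℕ) : ℤ) + ((n : ℤ) - (1 : ℕ)) * ((Z'.count a : ℕ) : ℤ) =
          (((Z.count a : ℕ) : ℤ) - ((Z'.count a : ℕ) : ℤ)) + (n : ℤ) * ((Z'.count a : ℕ) : ℤ) := by
        push_cast; ring
      rw [h4]
      refine dvd_add ?_ (dvd_mul_right _ _)
      convert h2
    convert Int.natCast_dvd_natCast.mp h3
  obtain ⟨S, hS⟩ := Pow2_931.exists_nsmul _ h1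
  refine ⟨S, ?_⟩
  rw [← hpow S, ← hS, linP_add, hpow]

/-- a function with orders divisible by `n` is an `n`-th power times a unit of the cell -/
theorem exists_unit {X : CellI k C} {n : ℕ} (hn : n ≠ 0) {u : EE k C} {Z Z' : Multiset C}
    {e e' e₂ e₂' : EE k C} (he : e ∈ X.B) (he' : e' ∈ X.B) (h : e * e' = 1) (he₂ : e₂ ∈ X.B)
    (he₂' : e₂' ∈ X.B) (h₂ : e₂ * e₂' = 1) (hu : u * (linP k Z' * e₂) = linP k Z * e)
    (hdiv : ∀ τ, (n : ℤ) ∣ mlt Z Z' τ) :
    ∃ S : Multiset C, ∃ v v' : EE k C, v ∈ X.B ∧ v' ∈ X.B ∧ v * v' = 1 ∧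
      u = (linP k S / linP k Z') ^ n * v := by
  obtain ⟨S, hS⟩ := exists_root (k := k) hn hdiv
  refine ⟨S, e * e₂', e' * e₂, X.B.mul_mem he he₂', X.B.mul_mem he' he₂, ?_, ?_⟩
  · calc e * e₂' * (e' * e₂) = (e * e') * (e₂ * e₂') := by ring
      _ = 1 := by rw [h, h₂, one_mul]
  · have h1 : linP k Z' ≠ 0 := linP_ne_zero Z'
    have h4 : e₂ ≠ 0 := by
      rintro rfl
      rw [zero_mul] at h₂
      exact zero_ne_one h₂
    have h5 : e₂' = e₂⁻¹ := (eq_inv_of_mul_eq_one_right h₂)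
    have h3 : u = linP k Z * e / (linP k Z' * e₂) := by
      rw [eq_div_iff (mul_ne_zero h1 h4), hu]
    have h6 : linP k Z' ^ n = linP k Z' ^ (n - 1) * linP k Z' := by
      rw [← pow_succ, Nat.sub_add_cancel (Nat.one_le_iff_ne_zero.mpr hn)]
    rw [h3, div_pow, ← hS, h6, h5]
    have h7 : linP k Z' ^ (n - 1) ≠ 0 := pow_ne_zero _ h1
    field_simp

/-! ### discs -/

theorem disc_unit {n : ℕ} (hn : n ≠ 0) {u g h : EE k C} (hg : InD g) (hh : InD h) (hh0 : h ≠ 0)
    (hu : u * h = g) (hu0 : u ≠ 0)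
    (hdiv : ∀ τ : C, ‖τ‖ < 1 → ∃ m : ℤ, HasOrd (cD k C) τ u m ∧ (n : ℤ) ∣ m) :
    ∃ R v : EE k C, R ≠ 0 ∧ v ≠ 0 ∧ u = R ^ n * v ∧ InD (dl v) := by
  classical
  have hg0 : g ≠ 0 := by rw [← hu]; exact mul_ne_zero hu0 hh0
  obtain ⟨Z, hZ, hZc, e, e', he, he', hee, rfl⟩ := wD hg0 hg
  obtain ⟨Z', hZ', hZc', e₂, e₂', he₂, he₂', hee₂, rfl⟩ := wD hh0 hh
  have hm : ∀ τ, (n : ℤ) ∣ mlt Z Z' τ := by
    intro τ
    by_cases hτ : ‖τ‖ < 1
    · obtain ⟨m, hm, hnm⟩ := hdiv τ hτ
      have h1 := hasOrd_quot (X := cD k C) he he' hee he₂ he₂' hee₂ hu (τ := τ) hτ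
      rw [h1.uniq (X := cD k C) hτ hm]
      exact hnm
    · rw [mlt_apply, Multiset.count_eq_zero_of_notMem (fun h => hτ (hZ τ h)),
        Multiset.count_eq_zero_of_notMem (fun h => hτ (hZ' τ h))]
      simp
  obtain ⟨S, v, v', hv, hv', hvv, huv⟩ := exists_unit (X := cD k C) hn he he' hee he₂ he₂' hee₂ hu hm
  have hv0 : v ≠ 0 := by
    rintro rfl
    rw [zero_mul] at hvv
    exact zero_ne_one hvv
  refine ⟨_, v, div_ne_zero (linP_ne_zero S) (linP_ne_zero Z'), hv0, huv, ?_⟩
  have h1 : dl v = dFun v * v' := by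
    unfold dl
    rw [div_eq_mul_inv, eq_inv_of_mul_eq_one_right hvv]
  rw [h1]
  exact InD.mul (inD_dFun hv) hv'

/-- **disc**: the negative coefficients of `dlog u` are divisible by `n` -/
theorem disc_co {n : ℕ} {u g h : EE k C} (hn : n ≠ 0) (hg : InD g) (hh : InD h) (hh0 : h ≠ 0)
    (hu : u * h = g) (hu0 : u ≠ 0)
    (hdiv : ∀ τ : C, ‖τ‖ < 1 → ∃ m : ℤ, HasOrd (cD k C) τ u m ∧ (n : ℤ) ∣ m)
    {j : ℤ} (hj : j < 0) : ‖(dl u).co j‖ ≤ ‖(n : C)‖ := by
  obtain ⟨R, v, hR, hv, rfl, hd⟩ := disc_unit hn hg hh hh0 hu hu0 hdiv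
  rw [dl_mul (pow_ne_zero n hR) hv, co_add, hd j hj, add_zero]
  exact (le_gn _ j).trans (gn_dl_pow_le hR n)

/-! ### annuli -/

variable {c : C}

omit [IsUltrametricDist k] [IsAlgClosed C] hk in
theorem flip_one : Flip c (1 : EE k C) 1 := fun n => by
  rw [co_one, co_one]
  by_cases hn : n = 0
  · rw [hn]; simp
  · rw [if_neg hn, if_neg (by omega), zero_mul]

theorem FlipF.uniq (hc0 : c ≠ 0) (hc1 : ‖c‖ < 1) {u u' u'' : EE k C} (h : FlipF c u u')
    (h' : FlipF c u u'') : u' = u'' := by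
  obtain ⟨a, b, a', b', hb0, ha, hb, e1, e2, e3, e4⟩ := h
  obtain ⟨p, q, p', q', hq0, hp, hq, f1, f2, f3, f4⟩ := h'
  have h1 : a * q = p * b := by rw [← e3, ← f3]; ring
  have h2 := Flip.mul (hc0 := hc0) hc1 ha hq e1 f2
  have h3 := Flip.mul (hc0 := hc0) hc1 hp hb f1 e2
  rw [h1] at h2
  have h4 := Flip.uniq h2 h3
  have hb' := Flip.ne_zero hc0 e2 hb0
  have hq' := Flip.ne_zero hc0 f2 hq0
  apply mul_right_cancel₀ (mul_ne_zero hb' hq')
  calc u' * (b' * q') = a' * q' := by rw [← e4]; ring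
    _ = p' * b' := h4
    _ = u'' * (b' * q') := by rw [← f4]; ring

theorem FlipF.pow (hc0 : c ≠ 0) (hc1 : ‖c‖ < 1) {u u' : EE k C} (h : FlipF c u u') (n : ℕ) :
    FlipF c (u ^ n) (u' ^ n) := by
  induction n with
  | zero =>
    rw [pow_zero, pow_zero]
    have h1 : Flip c (1 : EE k C) 1 := flip_one
    exact ⟨1, 1, 1, 1, one_ne_zero, (rA k c hc0).one_mem, (rA k c hc0).one_mem, h1, h1,
      mul_one 1, mul_one 1⟩
  | succ n ih => rw [pow_succ, pow_succ]; exact ih.mul hc0 hc1 h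

theorem exists_flip' (hc0 : c ≠ 0) (hc1 : ‖c‖ < 1) {a : EE k C} (ha : InA c a) :
    ∃ b, Flip c a b := ⟨_, flip_flip' hc0 hc1 ha⟩

theorem flipF_div (hc0 : c ≠ 0) (hc1 : ‖c‖ < 1) {a b : EE k C} (ha : InA c a) (hb : InA c b)
    (hb0 : b ≠ 0) : ∃ u', FlipF c (a / b) u' := by
  obtain ⟨a', ha'⟩ := exists_flip' hc0 hc1 ha
  obtain ⟨b', hb'⟩ := exists_flip' hc0 hc1 hb
  have hb0' := Flip.ne_zero hc0 hb' hb0
  exact ⟨a' / b', a, b, a', b', hb0, ha, hb, ha', hb', div_mul_cancel₀ _ hb0,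
    div_mul_cancel₀ _ hb0'⟩

theorem flipF_of (hc0 : c ≠ 0) (hc1 : ‖c‖ < 1) {a a' : EE k C} (ha : InA c a) (h : Flip c a a') :
    FlipF c a a' := by
  have h1 : Flip c (1 : EE k C) 1 := flip_one
  exact ⟨a, 1, a', 1, one_ne_zero, ha, (rA k c hc0).one_mem, h, h1, mul_one _, mul_one _⟩

theorem FlipF.ne_zero' (hc0 : c ≠ 0) {u u' : EE k C} (h : FlipF c u u') (hu : u ≠ 0) :
    u' ≠ 0 := by
  obtain ⟨a, b, a', b', hb0, ha, hb, e1, e2, e3, e4⟩ := h
  have ha0 : a ≠ 0 := by rw [← e3]; exact mul_ne_zero hu hb0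
  rintro rfl
  rw [zero_mul] at e4
  exact Flip.ne_zero hc0 e1 ha0 e4.symm

/-- the structure of a function on an annulus with orders divisible by `n` -/
theorem ann_unit (hc0 : c ≠ 0) (hc1 : ‖c‖ < 1) {n : ℕ} (hn : n ≠ 0) {u u' : EE k C} (hu0 : u ≠ 0)
    (h : FlipF c u u')
    (hdiv : ∀ τ : C, ‖c‖ < ‖τ‖ → ‖τ‖ < 1 → ∃ m : ℤ, HasOrd (cA k c hc0) τ u m ∧ (n : ℤ) ∣ m) :
    ∃ R R' v v' : EE k C, R ≠ 0 ∧ R' ≠ 0 ∧ v ≠ 0 ∧ v' ≠ 0 ∧ u = R ^ n * v ∧ u' = R' ^ n * v' ∧
      Flip c (dl v) (mo 2 (-c⁻¹) * dl v') := by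
  classical
  have hflip := h
  obtain ⟨g, h, g', h', hh0, hg, hh, e1, e2, e3, e4⟩ := h
  have hg0 : g ≠ 0 := by rw [← e3]; exact mul_ne_zero hu0 hh0
  obtain ⟨Z, hZ, hZc, e, e', he, he', hee, rfl⟩ := wA hc0 hc1 hg0 hg e1
  obtain ⟨Z', hZ', hZc', e₂, e₂', he₂, he₂', hee₂, rfl⟩ := wA hc0 hc1 hh0 hh e2
  have hm : ∀ τ, (n : ℤ) ∣ mlt Z Z' τ := by
    intro τ
    by_cases hτ : ‖c‖ < ‖τ‖ ∧ ‖τ‖ < 1
    · obtain ⟨m, hm, hnm⟩ := hdiv τ hτ.1 hτ.2
      have h1 := hasOrd_quot (X := cA k c hc0) he he' hee he₂ he₂' hee₂ e3 (τ := τ) hτ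
      rw [h1.uniq (X := cA k c hc0) hτ hm]
      exact hnm
    · rw [mlt_apply, Multiset.count_eq_zero_of_notMem (fun h => hτ (hZ τ h)),
        Multiset.count_eq_zero_of_notMem (fun h => hτ (hZ' τ h))]
      simp
  obtain ⟨S, v, w, hv, hw, hvw, huv⟩ :=
    exists_unit (X := cA k c hc0) hn he he' hee he₂ he₂' hee₂ e3 hm
  obtain ⟨R', hR'⟩ := flipF_div hc0 hc1 (k := k) (linP_mem (X := cA k c hc0) S)
    (linP_mem (X := cA k c hc0) Z') (linP_ne_zero Z')
  obtain ⟨v', hv'⟩ := exists_flip' hc0 hc1 (k := k) (a := v) hv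
  obtain ⟨w', hw'⟩ := exists_flip' hc0 hc1 (k := k) (a := w) hw
  have hv0 : v ≠ 0 := by
    rintro rfl
    rw [zero_mul] at hvw
    exact zero_ne_one hvw
  have hR0 : linP k S / linP k Z' ≠ 0 := div_ne_zero (linP_ne_zero S) (linP_ne_zero Z')
  have h1 : Flip c (1 : EE k C) 1 := flip_one
  have hvw' : v' * w' = 1 := by
    have h2 := Flip.mul (hc0 := hc0) hc1 hv hw hv' hw'
    rw [hvw] at h2
    exact Flip.uniq h2 h1
  refine ⟨_, R', v, v', hR0, FlipF.ne_zero' hc0 hR' hR0, hv0, Flip.ne_zero hc0 hv' hv0, huv, ?_, ?_⟩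
  · apply FlipF.uniq hc0 hc1 hflip
    rw [huv]
    exact (FlipF.pow hc0 hc1 hR' n).mul hc0 hc1 (flipF_of hc0 hc1 hv hv')
  · have h3 : dl v = dFun v * w := by
      unfold dl
      rw [div_eq_mul_inv, eq_inv_of_mul_eq_one_right hvw]
    have h4 : dl v' = dFun v' * w' := by
      unfold dl
      rw [div_eq_mul_inv, eq_inv_of_mul_eq_one_right hvw']
    rw [h3, h4, ← mul_assoc]
    exact Flip.mul (hc0 := hc0) hc1 (inA_dFun hc0 hv) hw (Flip.deriv hc0 hv') hw'

/-- **annulus**: if `dlog u` has norm at most `M` at the other end and `|n| < M`, then the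
coefficients of `dlog u` of degree at most `-2` have norm less than `M` -/
theorem ann_co (hc0 : c ≠ 0) (hc1 : ‖c‖ < 1) {n : ℕ} (hn : n ≠ 0) {u u' : EE k C} (hu0 : u ≠ 0)
    (h : FlipF c u u')
    (hdiv : ∀ τ : C, ‖c‖ < ‖τ‖ → ‖τ‖ < 1 → ∃ m : ℤ, HasOrd (cA k c hc0) τ u m ∧ (n : ℤ) ∣ m)
    {M : ℝ} (hM : ‖(n : C)‖ < M) (hu' : gn (dl u') ≤ M) {j : ℤ} (hj : j ≤ -2) :
    ‖(dl u).co j‖ < M := by
  obtain ⟨R, R', v, v', hR, hR', hv, hv', rfl, rfl, hf⟩ := ann_unit hc0 hc1 hn hu0 h hdiv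
  rw [dl_mul (pow_ne_zero n hR) hv, co_add]
  have hM0 : 0 < M := (norm_nonneg _).trans_lt hM
  have hRn : ∀ i, ‖(dl (R ^ n)).co i‖ < M := fun i =>
    ((le_gn _ i).trans (gn_dl_pow_le hR n)).trans_lt hM
  have hgv' : gn (dl v') ≤ M := by
    have h1 : dl v' = dl (R' ^ n * v') - dl (R' ^ n) := by
      rw [dl_mul (pow_ne_zero n hR') hv']; ring
    rw [h1]
    exact (gn_sub_le _ _).trans (max_le hu' ((gn_dl_pow_le hR' n).trans hM.le))
  refine lt_of_le_of_lt (IsUltrametricDist.norm_add_le_max _ _) (max_lt (hRn j) ?_)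
  -- `(dl v).co j = - c⁻¹ (dl v').co (-j-2) c ^ (-j)`
  have h2 := hf (-j)
  rw [co_mo_mul, neg_neg] at h2
  have hcj : c ^ j * c ^ (-j) = 1 := by rw [← zpow_add₀ hc0, add_neg_cancel, zpow_zero]
  have h3 : (dl v).co j = -c⁻¹ * (dl v').co (-j - 2) * c ^ (-j) := by
    rw [h2, mul_assoc, hcj, mul_one]
  have h4 : -c⁻¹ * (dl v').co (-j - 2) * c ^ (-j) = -(c ^ (-j - 1) * (dl v').co (-j - 2)) := by
    rw [zpow_sub₀ hc0, zpow_one]
    field_simp
  rw [h3, h4, norm_neg, norm_mul, norm_zpow]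
  have h5 : ‖c‖ ^ (-j - 1) < 1 := by
    obtain ⟨m, hm⟩ := Int.eq_ofNat_of_zero_le (a := -j - 1) (by omega)
    rw [hm, zpow_natCast]
    exact pow_lt_one₀ (norm_nonneg _) hc1 (by rintro rfl; simp at hm; omega)
  calc ‖c‖ ^ (-j - 1) * ‖(dl v').co (-j - 2)‖ ≤ ‖c‖ ^ (-j - 1) * M :=
        mul_le_mul_of_nonneg_left ((le_gn _ _).trans hgv') (zpow_nonneg (norm_nonneg _) _)
    _ < 1 * M := mul_lt_mul_of_pos_right h5 hM0
    _ = M := one_mul M

/-- the same at the other end -/
theorem ann_co' (hc0 : c ≠ 0) (hc1 : ‖c‖ < 1) {n : ℕ} (hn : n ≠ 0) {u u' : EE k C} (hu0 : u ≠ 0)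
    (h : FlipF c u u')
    (hdiv : ∀ τ : C, ‖c‖ < ‖τ‖ → ‖τ‖ < 1 → ∃ m : ℤ, HasOrd (cA k c hc0) τ u m ∧ (n : ℤ) ∣ m)
    {M : ℝ} (hM : ‖(n : C)‖ < M) (hu' : gn (dl u) ≤ M) {j : ℤ} (hj : j ≤ -2) :
    ‖(dl u').co j‖ < M := by
  obtain ⟨R, R', v, v', hR, hR', hv, hv', rfl, rfl, hf⟩ := ann_unit hc0 hc1 hn hu0 h hdiv
  rw [dl_mul (pow_ne_zero n hR') hv', co_add]
  have hM0 : 0 < M := (norm_nonneg _).trans_lt hM
  have hRn : ∀ i, ‖(dl (R' ^ n)).co i‖ < M := fun i =>
    ((le_gn _ i).trans (gn_dl_pow_le hR' n)).trans_lt hM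
  have hgv : gn (dl v) ≤ M := by
    have h1 : dl v = dl (R ^ n * v) - dl (R ^ n) := by
      rw [dl_mul (pow_ne_zero n hR) hv]; ring
    rw [h1]
    exact (gn_sub_le _ _).trans (max_le hu' ((gn_dl_pow_le hR n).trans hM.le))
  refine lt_of_le_of_lt (IsUltrametricDist.norm_add_le_max _ _) (max_lt (hRn j) ?_)
  have h2 := hf (j + 2)
  rw [co_mo_mul, add_sub_cancel_right] at h2
  have h4 : (dl v').co j = -(c ^ (-j - 1) * (dl v).co (-j - 2)) := by
    have h5 : -(j + 2) = -j - 2 := by ring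
    have h6 : (dl v').co j = -c * (-c⁻¹ * (dl v').co j) := by
      field_simp
    rw [h6, h2, h5]
    have h7 : c ^ (-j - 1) = c ^ (-j - 2) * c := by
      rw [← zpow_add_one₀ hc0]; congr 1; ring
    rw [h7]
    ring
  rw [h4, norm_neg, norm_mul, norm_zpow]
  have h5 : ‖c‖ ^ (-j - 1) < 1 := by
    obtain ⟨m, hm⟩ := Int.eq_ofNat_of_zero_le (a := -j - 1) (by omega)
    rw [hm, zpow_natCast]
    exact pow_lt_one₀ (norm_nonneg _) hc1 (by rintro rfl; simp at hm; omega)
  calc ‖c‖ ^ (-j - 1) * ‖(dl v).co (-j - 2)‖ ≤ ‖c‖ ^ (-j - 1) * M :=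
        mul_le_mul_of_nonneg_left ((le_gn _ _).trans hgv) (zpow_nonneg (norm_nonneg _) _)
    _ < 1 * M := mul_lt_mul_of_pos_right h5 hM0
    _ = M := one_mul M

end Crest.Agent.R013.M3_359
end

-- ▼ part R013/M3C_359
section
/-
ROW 13, leaves M1, M3 (helper359), file C: MAXIMUM PRINCIPLE.  If `p^n | div h`, all reductions of `h` are `p^n`-th powers and
the maximum `|c|` of the norms of `dlog h` is larger than `|p^n|`, then all reductions of `dlog h / c` are REGULAR and
Cartier nilpotent.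
-/
set_option autoImplicit false
set_option linter.unusedSectionVars false
set_option linter.unusedVariables false

namespace Crest.Agent.R013.M3_359

open scoped NNReal
open WithZero Module
open Crest.Agent.R013.Cell_408 (FinDef DiscNorm)
open Crest.Agent.R013.EE809 hiding od
open Crest.Agent.R013.RR7_948 Crest.Agent.R013.RR8_948 Crest.Agent.R013.RR9_948
open Crest.Agent.R013.RR11_948 Crest.Agent.R013.RR14_948
open Crest.Agent.R013.Red332 hiding od
open Crest.Agent.R013.Car1_700 Crest.Agent.R013.RedD_310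
open Crest.Agent.R013.SSK_332 Crest.Agent.R013.Car2_700 Crest.Agent.R013.Car6_700
open Crest.Agent.R013.CartC_359 Crest.Agent.R013.CartE_359

section pole

variable (p : ℕ) [hp : Fact p.Prime] {k : Type*} [Field k] [CharP k p] [PerfectField k]
  {K : Type*} [Field K] [Algebra k K] [Algebra (RatFunc k) K]
  [IsScalarTower k (RatFunc k) K] [FiniteDimensional (RatFunc k) K]
  [Algebra.IsSeparable (RatFunc k) K]

theorem v_CK_iter_pole (P : Pl k K) {g : K} (hg : P.v g = exp (canD k K P + 1)) (m : ℕ) :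
    P.v ((CK p k K)^[m] g) = exp (canD k K P + 1) := by
  induction m generalizing g with
  | zero => exact hg
  | succ m ih =>
    rw [Function.iterate_succ_apply]
    apply ih
    have h := v_CK_eq p P (g := g) (m := -1) (by
      rw [hg]; congr 1
      have : ((p - 1 : ℕ) : ℤ) = p - 1 := by
        rw [Nat.cast_sub hp.out.pos]; simp
      rw [this]; ring)
    rw [h]
    congr 1

/-- a Cartier nilpotent form with at most a simple pole is regular -/
theorem reg_of_nil (P : Pl k K) {g : K} (hg : P.v g ≤ exp (canD k K P + 1)) {m : ℕ}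
    (hm : (CK p k K)^[m] g = 0) : P.v g ≤ exp (canD k K P) := by
  by_cases hg0 : g = 0
  · rw [hg0, map_zero]; exact zero_le
  have hv := (exp_log ((Valuation.ne_zero_iff P.v).mpr hg0)).symm
  rw [hv, exp_le_exp] at hg ⊢
  by_contra hcon
  have h1 : P.v g = exp (canD k K P + 1) := by
    rw [hv]; congr 1; omega
  have h2 := v_CK_iter_pole p P h1 m
  rw [hm, map_zero] at h2
  exact exp_ne_zero h2.symm

end pole

section ssk

variable (p : ℕ) [hp : Fact p.Prime]
variable {k : Type*} [NontriviallyNormedField k] [CompleteSpace k] [IsUltrametricDist k]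
variable {C : Type*} [NormedField C] [IsUltrametricDist C] [NormedAlgebra k C]
  [Algebra.IsAlgebraic k C] [IsAlgClosed C] [hk : Fact (DiscNorm k)]
variable {K : Type*} [Field K] [Algebra C K] [Algebra (RatFunc C) K]
  [IsScalarTower C (RatFunc C) K] [FiniteDimensional (RatFunc C) K]
  [Algebra.IsSeparable (RatFunc C) K]

/-- all orders are divisible by `p^n` and all reductions are `p^n`-th powers -/
structure GoodF (n : ℕ) (S : SSK k C K) (h : K) : Prop where
  ne : h ≠ 0
  div : ∀ P : Pl C K, ((p ^ n : ℕ) : ℤ) ∣ divf (k := C) h P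
  red : ∀ v, ∃ (c : C) (y : kap (S.nm v)), c ≠ 0 ∧ (S.nm v).v (h * (algebraMap C K c)⁻¹) = 1 ∧
    Red332.red (S.nm v) (h * (algebraMap C K c)⁻¹) = y ^ p ^ n

variable (S : SSK k C K)

variable {p} in
/-- the coefficients of degree at most `-2` -/
theorem co_lt {n : ℕ} {h : K} (hh : GoodF p n S h) {M : ℝ} (hM : ‖(p : C)‖ ^ n < M)
    (hle : ∀ D : S.Dir, gn (dl (S.em D h)) ≤ M) (D : S.Dir) {j : ℤ} (hj : j ≤ -2) :
    ‖(dl (S.em D h)).co j‖ < M := by
  have hn : p ^ n ≠ 0 := pow_ne_zero _ hp.out.ne_zero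
  have hpn : ‖((p ^ n : ℕ) : C)‖ = ‖(p : C)‖ ^ n := by
    rw [Nat.cast_pow, norm_pow]
  have hem : ∀ D : S.Dir, S.em D h ≠ 0 := fun D => (map_ne_zero _).mpr hh.ne
  by_cases h0 : ∃ e, D = S.e0 e
  · obtain ⟨e, rfl⟩ := h0
    exact ann_co (S.cc_ne e) (S.cc_lt e) hn (hem _) (flipF_em S e h)
      (fun τ h0 h1 => ⟨_, hasOrd_ptA S e τ h0 h1 hh.ne, hh.div _⟩) (by rw [hpn]; exact hM)
      (hle _) hj
  · by_cases h1 : ∃ e, D = S.e1 e
    · obtain ⟨e, rfl⟩ := h1
      exact ann_co' (S.cc_ne e) (S.cc_lt e) hn (hem _) (flipF_em S e h)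
        (fun τ h0 h1 => ⟨_, hasOrd_ptA S e τ h0 h1 hh.ne, hh.div _⟩) (by rw [hpn]; exact hM)
        (hle _) hj
    · push Not at h0 h1
      obtain ⟨g, H, hH0, hg, hH, e⟩ := qD_em S D h0 h1 h
      refine lt_of_le_of_lt (disc_co hn hg hH hH0 e (hem _)
        (fun τ hτ => ⟨_, hasOrd_ptD S D h0 h1 τ hτ hh.ne, hh.div _⟩) (by omega)) ?_
      rw [hpn]
      exact hM

variable {p} in
/-- at most simple poles -/
theorem od_ge {n : ℕ} {h : K} (hh : GoodF p n S h) {M : ℝ} (hM : ‖(p : C)‖ ^ n < M)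
    (hle : ∀ D : S.Dir, gn (dl (S.em D h)) ≤ M) (D : S.Dir) (hD : gn (dl (S.em D h)) = M) :
    -1 ≤ EE809.od (dl (S.em D h)) := by
  by_contra hlt
  push Not at hlt
  have h1 := co_lt S hh hM hle D (j := EE809.od (dl (S.em D h))) (by omega)
  have h2 : dl (S.em D h) ≠ 0 := by
    intro h0
    rw [h0, gn_zero] at hD
    rw [← hD] at hM
    exact absurd hM (not_lt.mpr (pow_nonneg (norm_nonneg _) n))
  rw [norm_co_od hk.out h2, hD] at h1
  exact lt_irrefl _ h1

theorem ex_dlog (D : S.Dir) {h : K} (h0 : h ≠ 0) :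
    ex (S.em D) (del C K h / h) = dl (S.em D h) := by
  rw [div_eq_mul_inv, mul_comm, ex_mul, ex_del _ (S.em_C D), dT_apply, map_inv₀, dl,
    div_eq_mul_inv, mul_comm]

variable [CharP (Ct C) p] [Algebra (ZMod p) (Ct C)]
  [Algebra.IsAlgebraic (ZMod p) (Ct C)] [PerfectField (Ct C)]

section vertex

variable (v : S.V)
variable [Algebra (RatFunc (Ct C)) (kap (S.nm v))]
  [IsScalarTower (Ct C) (RatFunc (Ct C)) (kap (S.nm v))]
  [FiniteDimensional (RatFunc (Ct C)) (kap (S.nm v))]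
  [Algebra.IsSeparable (RatFunc (Ct C)) (kap (S.nm v))]
variable {T0 : K} (hT : (S.nm v).v T0 ≤ 1)
  (hT' : Red332.red (S.nm v) T0 = RR8_948.xK (Ct C) (kap (S.nm v)))

/-- the reduction of `dlog h / c` at `v`, as a function with respect to the coordinate of
`kap v` -/
noncomputable def om (T0 : K) (c : C) (h : K) : kap (S.nm v) :=
  Red332.red (S.nm v) (del C K h / (algebraMap C K c * h) / del C K T0)

include hT hT'

/-- the norm of `dlog h / c` -/
theorem v_om (x : Pl (Ct C) (kap (S.nm v))) {c : C} (hc : c ≠ 0) {h : K} (h0 : h ≠ 0) :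
    (((S.nm v).v (del C K h / (algebraMap C K c * h) / del C K T0) : ℝ≥0) : ℝ) =
      gn (dl (S.em ⟨v, x⟩ h)) / ‖c‖ := by
  have h1 := nd_eq hT hT' x (S.em_C ⟨v, x⟩) (S.em_gn ⟨v, x⟩) (S.em_od ⟨v, x⟩) (del C K h / h)
  rw [ex_dlog S ⟨v, x⟩ h0] at h1
  have h2 : del C K h / (algebraMap C K c * h) / del C K T0 =
      del C K h / h / del C K T0 * (algebraMap C K c)⁻¹ := by
    field_simp
  rw [h2, map_mul, map_inv₀, (S.nm v).hC, NNReal.coe_mul, h1, NNReal.coe_inv, coe_nnnorm,
    div_eq_mul_inv]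

variable {p} in
/-- **Cartier nilpotent** -/
theorem om_nil (hp0 : (p : C) ≠ 0) {n : ℕ} {h : K} (hh : GoodF p n S h) {c : C}
    (hM : ‖(p : C)‖ ^ n < ‖c‖) (hle : ∀ D : S.Dir, gn (dl (S.em D h)) ≤ ‖c‖)
    (x : Pl (Ct C) (kap (S.nm v))) :
    ∃ m, (CK p (Ct C) (kap (S.nm v)))^[m] (om S v T0 c h) = 0 := by
  have hc0 : c ≠ 0 := by
    rintro rfl
    rw [norm_zero] at hM
    exact absurd hM (not_lt.mpr (pow_nonneg (norm_nonneg _) n))
  have hcn : 0 < ‖c‖ := norm_pos_iff.mpr hc0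
  have hv := v_om S v hT hT' x hc0 hh.ne
  rcases (hle ⟨v, x⟩).lt_or_eq with hlt | heq
  · refine ⟨0, ?_⟩
    have h1 : (S.nm v).v (del C K h / (algebraMap C K c * h) / del C K T0) < 1 := by
      rw [← NNReal.coe_lt_coe, hv, NNReal.coe_one, div_lt_one hcn]
      exact hlt
    rw [Function.iterate_zero_apply, om, Red332.red_eq_zero_iff _ h1.le]
    exact h1
  · obtain ⟨a, y, ha, hva, hy⟩ := hh.red v
    have haK : algebraMap C K a ≠ 0 := (map_ne_zero _).mpr ha
    set h' : K := h * (algebraMap C K a)⁻¹ with hh'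
    have hdel : del C K h' = del C K h * (algebraMap C K a)⁻¹ := by
      rw [hh', ← map_inv₀, Derivation.leibniz, Derivation.map_algebraMap, smul_zero, zero_add,
        smul_eq_mul, mul_comm]
    have hemh : gn (S.em ⟨v, x⟩ h') = 1 := by rw [S.em_gn, hva]; rfl
    have h'0 : h' ≠ 0 := mul_ne_zero hh.ne (inv_ne_zero haK)
    have hdl : dl (S.em ⟨v, x⟩ h') = dl (S.em ⟨v, x⟩ h) := by
      rw [← ex_dlog S _ hh.ne, ← ex_dlog S _ h'0]
      congr 1
      rw [hdel, hh']
      field_simp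
    have hc : ‖c‖ = gn (dT k C (S.em ⟨v, x⟩ h')) := by
      rw [← heq, ← hdl, dl, gn_div _ ((map_ne_zero _).mpr h'0), hemh, div_one, dT_apply]
    obtain ⟨m, hm⟩ := cartK hT hT' x (S.em_C ⟨v, x⟩) (S.em_gn ⟨v, x⟩) (S.em_od ⟨v, x⟩) p hp0
      hva hy hc hM
    refine ⟨m, ?_⟩
    have h2 : del C K h' / (algebraMap C K c * h') / del C K T0 =
        del C K h / (algebraMap C K c * h) / del C K T0 := by
      rw [hdel, hh']
      field_simp
    rw [h2] at hm
    exact hm

variable {p} in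
/-- **at most simple poles** -/
theorem om_pole {n : ℕ} {h : K} (hh : GoodF p n S h) {c : C}
    (hM : ‖(p : C)‖ ^ n < ‖c‖) (hle : ∀ D : S.Dir, gn (dl (S.em D h)) ≤ ‖c‖)
    (x : Pl (Ct C) (kap (S.nm v))) :
    x.v (om S v T0 c h) ≤ exp (canD (Ct C) (kap (S.nm v)) x + 1) := by
  have hc0 : c ≠ 0 := by
    rintro rfl
    rw [norm_zero] at hM
    exact absurd hM (not_lt.mpr (pow_nonneg (norm_nonneg _) n))
  have hcn : 0 < ‖c‖ := norm_pos_iff.mpr hc0
  have hcK : algebraMap C K c ≠ 0 := (map_ne_zero _).mpr hc0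
  have hv := v_om S v hT hT' x hc0 hh.ne
  rcases (hle ⟨v, x⟩).lt_or_eq with hlt | heq
  · have h1 : (S.nm v).v (del C K h / (algebraMap C K c * h) / del C K T0) < 1 := by
      rw [← NNReal.coe_lt_coe, hv, NNReal.coe_one, div_lt_one hcn]
      exact hlt
    rw [om, (Red332.red_eq_zero_iff _ h1.le).mpr h1, map_zero]
    exact zero_le
  · have h1 := od_ge S hh hM hle ⟨v, x⟩ heq
    have hne : dl (S.em ⟨v, x⟩ h) ≠ 0 := by
      intro h0
      rw [h0, gn_zero] at heq
      exact hcn.ne heq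
    have hdh : del C K h / h ≠ 0 := by
      intro h0
      apply hne
      rw [← ex_dlog S _ hh.ne, h0, ex_zero]
    have h2 := od_ex hT hT' x (S.em_C ⟨v, x⟩) (S.em_gn ⟨v, x⟩) (S.em_od ⟨v, x⟩) hdh
    rw [ex_dlog S _ hh.ne] at h2
    have h3 : del C K h / h / del C K T0 * (algebraMap C K c)⁻¹ =
        del C K h / (algebraMap C K c * h) / del C K T0 := by
      field_simp
    have h4 : (S.nm v).v (del C K h / h / del C K T0 * (algebraMap C K c)⁻¹) = 1 := by
      rw [h3, ← NNReal.coe_inj, hv, heq, div_self hcn.ne', NNReal.coe_one]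
    have h5 := Red332.od_eq_of x h4
    rw [h3] at h5
    have h6 : om S v T0 c h ≠ 0 := by
      rw [om, ← h3]
      exact Red332.red_ne_zero _ h4
    have h7 : x.v (om S v T0 c h) ≠ 0 := (Valuation.ne_zero_iff _).mpr h6
    rw [← exp_log h7, exp_le_exp]
    have h8 : Red332.od (S.nm v) x (del C K h / h / del C K T0) = -log (x.v (om S v T0 c h)) := h5
    omega

variable {p} in
/-- **M1**: all reductions of `dlog h / c` are regular -/
theorem om_reg (hp0 : (p : C) ≠ 0) {n : ℕ} {h : K} (hh : GoodF p n S h) {c : C}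
    (hM : ‖(p : C)‖ ^ n < ‖c‖) (hle : ∀ D : S.Dir, gn (dl (S.em D h)) ≤ ‖c‖) :
    om S v T0 c h ∈ LD (canD (Ct C) (kap (S.nm v))) := by
  rw [mem_LD]
  intro x
  obtain ⟨m, hm⟩ := om_nil S v hT hT' hp0 hh hM hle x
  exact reg_of_nil p x (om_pole S v hT hT' hh hM hle x) hm

end vertex

end ssk

end Crest.Agent.R013.M3_359
end

-- ▼ part R013/M3D_359
/-
ROW 13, leaf M3 (helper359), file D: the `e`-part and the theorem `‖dlog h_n‖ ≤ |p^n|`.
-/
set_option autoImplicit false
set_option linter.unusedSectionVars false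
set_option linter.unusedVariables false
set_option linter.style.haveILetI false

namespace Crest.Agent.R013.M3_359

open scoped NNReal
open WithZero Module PadicInt
open Crest.Agent.R013.Cell_408 (FinDef DiscNorm)
open Crest.Agent.R013.EE809 hiding od
open Crest.Agent.R013.RR7_948 Crest.Agent.R013.RR8_948 Crest.Agent.R013.RR9_948
open Crest.Agent.R013.RR11_948 Crest.Agent.R013.RR14_948
open Crest.Agent.R013.Red332 hiding od
open Crest.Agent.R013.Car1_700 Crest.Agent.R013.RedD_310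
open Crest.Agent.R013.SSK_332 Crest.Agent.R013.Car2_700 Crest.Agent.R013.Car6_700
open Crest.Agent.R013.PicD_398 Crest.Agent.R013.Frob1_914 Crest.Agent.R013.TP_928

section rel

variable {p : ℕ} [hp : Fact p.Prime]
variable {C : Type*} [NormedField C] [IsUltrametricDist C] [IsAlgClosed C]
variable {K : Type*} [Field K] [Algebra C K] [Algebra (RatFunc C) K]
  [IsScalarTower C (RatFunc C) K] [FiniteDimensional (RatFunc C) K]
  [Algebra.IsSeparable (RatFunc C) K]

variable (C K) in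
/-- logarithmic derivative -/
noncomputable def dlg : Additive Kˣ →+ K :=
  AddMonoidHom.mk' (fun e => del C K (e.toMul : K) / (e.toMul : K)) (fun e f => by
    change del C K ((e.toMul : K) * (f.toMul : K)) / ((e.toMul : K) * (f.toMul : K)) = _
    have h1 : (e.toMul : K) ≠ 0 := Units.ne_zero _
    have h2 : (f.toMul : K) ≠ 0 := Units.ne_zero _
    rw [Derivation.leibniz, smul_eq_mul, smul_eq_mul]
    field_simp
    ring)

theorem dlg_apply (e : Additive Kˣ) : dlg C K e = del C K (e.toMul : K) / (e.toMul : K) := rfl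

variable {A : Type*} [Group A] [Fintype A] (cov : A →* (K ≃ₐ[C] K)) (c : A → ℤ_[p])

/-- the action on units -/
noncomputable def phi (a : A) : Additive Kˣ →+ Additive Kˣ :=
  MonoidHom.toAdditive (Units.map ((cov a : K ≃ₐ[C] K) : K →* K))

theorem phi_coe (a : A) (e : Additive Kˣ) : (((phi cov a e).toMul : Kˣ) : K) = cov a (e.toMul : K) :=
  rfl

theorem rep_phi (a : A) {n : ℕ} {z : Pic C K} {e : Additive Kˣ}
    (h : Rep p (dv C K) (Prin C K) n z e) :
    Rep p (dv C K) (Prin C K) n ((TPS.ofAlg (cov a)).pic z) (phi cov a e) := by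
  obtain ⟨x, rfl, hx⟩ := h
  refine ⟨(TPS.ofAlg (cov a)).D x, rfl, ?_⟩
  have h1 := (TPS.ofAlg (cov a)).divf_f (Units.ne_zero e.toMul)
  have h2 : divf (k := C) (e.toMul : K) = (p ^ n) • x := hx
  rw [h2, map_nsmul] at h1
  exact h1

theorem rep_sum {n : ℕ} (s : Finset A) (m : A → ℕ) (z : A → Pic C K) (e : A → Additive Kˣ)
    (h : ∀ a ∈ s, Rep p (dv C K) (Prin C K) n (z a) (e a)) :
    Rep p (dv C K) (Prin C K) n (∑ a ∈ s, m a • z a) (∑ a ∈ s, m a • e a) := by
  classical
  induction s using Finset.induction_on with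
  | empty => rw [Finset.sum_empty, Finset.sum_empty]; exact rep_zero
  | insert a s ha ih =>
    rw [Finset.sum_insert ha, Finset.sum_insert ha]
    exact ((h a (Finset.mem_insert_self a s)).smul (m a)).add
      (ih fun b hb => h b (Finset.mem_insert_of_mem hb))

theorem tate_sum_apply {G : Type*} [AddCommGroup G] {ι : Type*} (s : Finset ι) (t : ι → Tate p G)
    (n : ℕ) : (∑ i ∈ s, t i) n = ∑ i ∈ s, t i n := by
  classical
  induction s using Finset.induction_on with
  | empty => rfl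
  | insert a s ha ih => rw [Finset.sum_insert ha, Finset.sum_insert ha, Tate.add_apply, ih]

/-- the relation of the `e`-part: `∏ (cov b h)^(c b) = const. h g^(p^n)`, and its transforms -/
theorem exists_rel (u : Tate p (Pic C K))
    (hu : ∑ α, c α • Tate.map ((TPS.ofAlg (cov α)).pic : Pic C K →+ Pic C K) u = u)
    {n : ℕ} {h : K} (h0 : h ≠ 0) (hr : RepK p n (u n) h) :
    ∃ g : K, g ≠ 0 ∧ ∀ a : A,
      ∑ b, ((rp (c b) n : ℕ) : K) * (del C K (cov (a * b) h) / cov (a * b) h) =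
        del C K (cov a h) / cov a h + ((p ^ n : ℕ) : K) * (del C K (cov a g) / cov a g) := by
  let E : Additive Kˣ := Additive.ofMul (Units.mk0 h h0)
  have hE : Rep p (dv C K) (Prin C K) n (u n) E := hr
  have h1 := rep_sum (p := p) (n := n) Finset.univ (fun b => rp (c b) n) _ (fun b => phi cov b E)
    (fun b _ => rep_phi cov b hE)
  have h2 : ∑ b, rp (c b) n • ((TPS.ofAlg (cov b)).pic (u n)) = u n := by
    have h3 : (∑ α, c α • Tate.map ((TPS.ofAlg (cov α)).pic : Pic C K →+ Pic C K) u) n = u n := by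
      rw [hu]
    rw [tate_sum_apply] at h3
    exact h3
  rw [h2] at h1
  obtain ⟨cc, f, hcc, hf⟩ := Rep.exists_sub (mem_Prin_iff C K) hE h1
  refine ⟨(f.toMul : K), Units.ne_zero _, fun a => ?_⟩
  have h4 := congrArg (fun e => dlg C K (phi cov a e)) hf
  simp only [map_add, map_sum, map_nsmul] at h4
  obtain ⟨c1, hc1, hc2⟩ := exists_const_of_dv_eq_zero hCbot hcc
  have h5 : dlg C K (phi cov a cc) = 0 := by
    rw [dlg_apply, phi_coe, hc2, AlgEquiv.commutes, Derivation.map_algebraMap, zero_div]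
  rw [h5, add_zero] at h4
  have h6 : ∀ b, dlg C K (phi cov a (phi cov b E)) = del C K (cov (a * b) h) / cov (a * b) h := by
    intro b
    rw [dlg_apply, phi_coe, phi_coe, map_mul]
    rfl
  simp only [h6] at h4
  simp only [nsmul_eq_mul] at h4
  exact h4

/-- the representative of `a` modulo `p^n`, `n > 0`, in a ring of characteristic `p` -/
theorem natCast_rp_eq {R : Type*} [CommRing R] [Algebra (ZMod p) R] (a : ℤ_[p]) {n : ℕ} (hn : n ≠ 0) :
    ((rp a n : ℕ) : R) = algebraMap (ZMod p) R (toZMod a) := by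
  have h1 : toZMod a = ((rp a n : ℕ) : ZMod p) := by
    have h2 : a - (rp a n : ℕ) ∈ RingHom.ker (toZModPow (p := p) n) := by
      rw [RingHom.mem_ker, map_sub, map_natCast, natCast_rp, sub_self]
    rw [ker_toZModPow, Ideal.mem_span_singleton] at h2
    have h3 : a - (rp a n : ℕ) ∈ RingHom.ker (toZMod (p := p)) := by
      rw [ker_toZMod, maximalIdeal_eq_span_p, Ideal.mem_span_singleton]
      exact (dvd_pow_self _ hn).trans h2
    rw [RingHom.mem_ker, map_sub, map_natCast, sub_eq_zero] at h3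
    exact h3
  rw [h1, map_natCast]

end rel

section ssk

variable {p : ℕ} [hp : Fact p.Prime]
variable {k : Type*} [NontriviallyNormedField k] [CompleteSpace k] [IsUltrametricDist k]
variable {C : Type*} [NormedField C] [IsUltrametricDist C] [NormedAlgebra k C]
  [Algebra.IsAlgebraic k C] [IsAlgClosed C] [hk : Fact (DiscNorm k)]
variable {K : Type*} [Field K] [Algebra C K] [Algebra (RatFunc C) K]
  [IsScalarTower C (RatFunc C) K] [FiniteDimensional (RatFunc C) K]
  [Algebra.IsSeparable (RatFunc C) K]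
variable {S : SSK k C K}
variable {A : Type*} [Group A] [Fintype A] {cov : A →* (K ≃ₐ[C] K)}
  (hcov : ∀ α w, ∃ w', ∀ f, (S.nm w).v (cov α f) = (S.nm w').v f)

include hcov

/-- covering transformations preserve `GoodF` -/
theorem goodF_cov {n : ℕ} {h : K} (hh : GoodF p n S h) (a : A) : GoodF p n S (cov a h) where
  ne := (map_ne_zero (cov a)).mpr hh.ne
  div := fun P => by
    have h1 := (TPS.ofAlg (cov a)).divf_f hh.ne
    have h2 : divf (k := C) (cov a h) = (TPS.ofAlg (cov a)).D (divf (k := C) h) := h1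
    rw [h2, SI.D_apply]
    exact hh.div _
  red := fun v => by
    obtain ⟨v', hv'⟩ := hcov a v
    obtain ⟨c, y, hc, h1, h2⟩ := hh.red v'
    obtain ⟨f, hf, rfl⟩ := red_surj (S.nm v') y
    have e1 : cov a h * (algebraMap C K c)⁻¹ = cov a (h * (algebraMap C K c)⁻¹) := by
      rw [map_mul, map_inv₀, AlgEquiv.commutes]
    have h3 : (S.nm v).v (cov a h * (algebraMap C K c)⁻¹) = 1 := by rw [e1, hv', h1]
    refine ⟨c, Red332.red (S.nm v) (cov a f), hc, h3, ?_⟩
    have hf' : (S.nm v).v (cov a f) ≤ 1 := by rw [hv']; exact hf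
    rw [← red_pow _ hf', red_eq_iff _ h3.le (by rw [map_pow]; exact pow_le_one' hf' _), e1,
      ← map_pow, ← map_sub, hv', ← red_eq_iff _ h1.le (by rw [map_pow]; exact pow_le_one' hf _),
      h2, red_pow _ hf]

end ssk

section main

variable {p : ℕ} [hp : Fact p.Prime]
variable {k : Type*} [NontriviallyNormedField k] [CompleteSpace k] [IsUltrametricDist k]
variable {C : Type*} [NormedField C] [IsUltrametricDist C] [NormedAlgebra k C]
  [Algebra.IsAlgebraic k C] [IsAlgClosed C] [hk : Fact (DiscNorm k)]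
variable {K : Type*} [Field K] [Algebra C K] [Algebra (RatFunc C) K]
  [IsScalarTower C (RatFunc C) K] [FiniteDimensional (RatFunc C) K]
  [Algebra.IsSeparable (RatFunc C) K]
variable (S : SSK k C K) [CharP (Ct C) p] [Algebra (ZMod p) (Ct C)]
  [Algebra.IsAlgebraic (ZMod p) (Ct C)] [PerfectField (Ct C)]

/-- multiplication by an integer and reduction -/
theorem red_natCast_mul (w : Nm C K) {q : K} (hq : w.v q ≤ 1) (m : ℕ) :
    Red332.red w ((m : K) * q) = (m : kap w) * Red332.red w q := by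
  have hle : ∀ m : ℕ, w.v (m : K) ≤ 1 := by
    intro m
    induction m with
    | zero => simp
    | succ m ih =>
      rw [Nat.cast_succ]
      exact (Valuation.map_add _ _ _).trans (max_le ih (by rw [map_one]))
  have hr : Red332.red w (m : K) = m := by
    induction m with
    | zero => rw [Nat.cast_zero, Nat.cast_zero, red_zero]
    | succ m ih => rw [Nat.cast_succ, Nat.cast_succ, red_add w (hle m) (by rw [map_one]), ih, red_one]
  rw [red_mul w (hle m) hq, hr]

theorem red_sum (w : Nm C K) {ι : Type*} (s : Finset ι) (f : ι → K) (hf : ∀ i ∈ s, w.v (f i) ≤ 1) :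
    Red332.red w (∑ i ∈ s, f i) = ∑ i ∈ s, Red332.red w (f i) := by
  classical
  induction s using Finset.induction_on with
  | empty => rw [Finset.sum_empty, Finset.sum_empty, red_zero]
  | insert a s ha ih =>
    rw [Finset.sum_insert ha, Finset.sum_insert ha, red_add w (hf a (Finset.mem_insert_self _ _))
      (Valuation.map_sum_le w.v (fun i hi => hf i (Finset.mem_insert_of_mem hi))),
      ih (fun i hi => hf i (Finset.mem_insert_of_mem hi))]

section vertex

variable (v : S.V)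
variable [Algebra (RatFunc (Ct C)) (kap (S.nm v))]
  [IsScalarTower (Ct C) (RatFunc (Ct C)) (kap (S.nm v))]
  [FiniteDimensional (RatFunc (Ct C)) (kap (S.nm v))]
  [Algebra.IsSeparable (RatFunc (Ct C)) (kap (S.nm v))]
variable {T0 : K} (hT : (S.nm v).v T0 ≤ 1)
  (hT' : Red332.red (S.nm v) T0 = RR8_948.xK (Ct C) (kap (S.nm v)))
variable {A : Type*} [Group A] [Fintype A] {cov : A →* (K ≃ₐ[C] K)}
  (hcov : ∀ α w, ∃ w', ∀ f, (S.nm w).v (cov α f) = (S.nm w').v f)

include hT hT' hcov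

/-- the vector of reductions at one vertex is zero -/
theorem om_zero (hp0 : (p : C) ≠ 0) {c : A → ℤ_[p]}
    (hCI : CInj p (S.nm v) cov (fun a => algebraMap (ZMod p) (Ct C) (toZMod (c a))))
    (u : Tate p (Pic C K))
    (hu : ∑ α, c α • Tate.map ((TPS.ofAlg (cov α)).pic : Pic C K →+ Pic C K) u = u)
    {n : ℕ} (hn : n ≠ 0) {h : K} (hr : RepK p n (u n) h) (hh : GoodF p n S h) {c0 : C}
    (hM : ‖(p : C)‖ ^ n < ‖c0‖) (hle : ∀ a, ∀ D : S.Dir, gn (dl (S.em D (cov a h))) ≤ ‖c0‖)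
    (a : A) : om S v T0 c0 (cov a h) = 0 := by
  obtain ⟨x, -⟩ := RR12_948.exists_notMem (k := Ct C) (K := kap (S.nm v)) ∅
  have hc0 : c0 ≠ 0 := by
    rintro rfl
    rw [norm_zero] at hM
    exact absurd hM (not_lt.mpr (pow_nonneg (norm_nonneg _) n))
  have hcn : 0 < ‖c0‖ := norm_pos_iff.mpr hc0
  have hcK : algebraMap C K c0 ≠ 0 := (map_ne_zero _).mpr hc0
  have hdT : del C K T0 ≠ 0 := del_lift_ne_zero hT hT' x (S.em_C ⟨v, x⟩) (S.em_gn ⟨v, x⟩)
    (S.em_od ⟨v, x⟩)
  have hqle : ∀ {g : K}, g ≠ 0 → gn (dl (S.em ⟨v, x⟩ g)) ≤ ‖c0‖ →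
      (S.nm v).v (del C K g / (algebraMap C K c0 * g) / del C K T0) ≤ 1 := by
    intro g hg hgl
    rw [← NNReal.coe_le_coe, v_om S v hT hT' x hc0 hg, NNReal.coe_one, div_le_one hcn]
    exact hgl
  have hG := fun a => goodF_cov hcov hh a
  refine hCI (fun a => om S v T0 c0 (cov a h)) (fun a => ?_) (fun a => ?_) (fun a => ?_)
    (fun b hb θ hθ a => ?_) a
  · exact om_reg S v hT hT' hp0 (hG a) hM (hle a)
  · exact om_nil S v hT hT' hp0 (hG a) hM (hle a) x
  · -- the `e`-part
    obtain ⟨g, hg0, hrel⟩ := exists_rel cov c u hu hh.ne hr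
    have h1 := hrel a
    have hga : cov a g ≠ 0 := (map_ne_zero (cov a)).mpr hg0
    -- divide by `c0 * del T0`
    have h2 : ∑ b, ((rp (c b) n : ℕ) : K) *
        (del C K (cov (a * b) h) / (algebraMap C K c0 * cov (a * b) h) / del C K T0) =
        del C K (cov a h) / (algebraMap C K c0 * cov a h) / del C K T0 +
          ((p ^ n : ℕ) : K) * (del C K (cov a g) / (algebraMap C K c0 * cov a g) / del C K T0) := by
      have h3 := congrArg (fun z => z * ((algebraMap C K c0)⁻¹ * (del C K T0)⁻¹)) h1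
      simp only [Finset.sum_mul, add_mul] at h3
      rw [show (∑ b, ((rp (c b) n : ℕ) : K) *
        (del C K (cov (a * b) h) / (algebraMap C K c0 * cov (a * b) h) / del C K T0)) =
        ∑ b, ((rp (c b) n : ℕ) : K) * (del C K (cov (a * b) h) / cov (a * b) h) *
          ((algebraMap C K c0)⁻¹ * (del C K T0)⁻¹) from Finset.sum_congr rfl fun b _ => by
            have : cov (a * b) h ≠ 0 := (hG (a * b)).ne
            field_simp, h3]
      have : cov a h ≠ 0 := (hG a).ne
      field_simp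
    have h4 : (S.nm v).v (((p ^ n : ℕ) : K) *
        (del C K (cov a g) / (algebraMap C K c0 * cov a g) / del C K T0)) < 1 := by
      have h5 : ((p ^ n : ℕ) : K) = algebraMap C K ((p : C) ^ n) := by
        rw [map_pow, map_natCast]; push_cast; rfl
      rw [map_mul, h5, (S.nm v).hC, ← NNReal.coe_lt_coe, NNReal.coe_mul,
        v_om S v hT hT' x hc0 hga, NNReal.coe_one, coe_nnnorm, norm_pow]
      have h6 : gn (dl (S.em ⟨v, x⟩ (cov a g))) ≤ 1 := gn_dl_le ((map_ne_zero _).mpr hga)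
      calc ‖(p : C)‖ ^ n * (gn (dl (S.em ⟨v, x⟩ (cov a g))) / ‖c0‖)
          ≤ ‖(p : C)‖ ^ n * (1 / ‖c0‖) := by
            apply mul_le_mul_of_nonneg_left _ (pow_nonneg (norm_nonneg _) n)
            exact div_le_div_of_nonneg_right h6 hcn.le
        _ < 1 := by rw [mul_one_div, div_lt_one hcn]; exact hM
    have hterm : ∀ b ∈ Finset.univ, (S.nm v).v (((rp (c b) n : ℕ) : K) *
        (del C K (cov (a * b) h) / (algebraMap C K c0 * cov (a * b) h) / del C K T0)) ≤ 1 := by
      intro b _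
      rw [map_mul]
      refine mul_le_one' ?_ (hqle (hG (a * b)).ne (hle _ _))
      have : ((rp (c b) n : ℕ) : K) = algebraMap C K ((rp (c b) n : ℕ) : C) := by
        rw [map_natCast]
      rw [this, (S.nm v).hC, ← NNReal.coe_le_coe, coe_nnnorm, NNReal.coe_one]
      exact IsUltrametricDist.norm_natCast_le_one C _
    have h7 := congrArg (Red332.red (S.nm v)) h2
    rw [red_sum _ _ _ hterm, red_add _ (hqle (hG a).ne (hle a _)) h4.le,
      (red_eq_zero_iff _ h4.le).mpr h4, add_zero] at h7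
    rw [om, ← h7]
    refine Finset.sum_congr rfl fun b _ => ?_
    rw [red_natCast_mul _ (hqle (hG (a * b)).ne (hle _ _)), om, Algebra.smul_def]
    congr 1
    change algebraMap (Ct C) (kap (S.nm v)) (algebraMap (ZMod p) (Ct C) (toZMod (c b))) = _
    rw [← natCast_rp_eq (R := Ct C) (c b) hn, map_natCast]
  · -- the action of the stabiliser
    have e1 : cov (b * a) h = cov b (cov a h) := by rw [map_mul]; rfl
    set f := cov a h with hf
    have hf0 : f ≠ 0 := (hG a).ne
    have hdel : ∀ g, del C K (cov b g) = cov b (del C K g / del C K T0) * del C K (cov b T0) := by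
      intro g
      have h1 := RR29_948.del_map (k := C) (cov b : K ≃ₐ[C] K).toAlgHom g
      have h2 := RR29_948.del_map (k := C) (cov b : K ≃ₐ[C] K).toAlgHom T0
      change del C K (cov b g) = cov b (del C K g) * del C K (cov b (xK C K)) at h1
      change del C K (cov b T0) = cov b (del C K T0) * del C K (cov b (xK C K)) at h2
      have h3 : cov b (del C K T0) ≠ 0 := (map_ne_zero (cov b)).mpr hdT
      rw [h1, h2, map_div₀]
      field_simp
    have hbT : (S.nm v).v (cov b T0) ≤ 1 := by rw [hb]; exact hT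
    have h1 : del C K (cov b f) / (algebraMap C K c0 * cov b f) / del C K T0 =
        cov b (del C K f / (algebraMap C K c0 * f) / del C K T0) *
          (del C K (cov b T0) / del C K T0) := by
      rw [hdel f]
      have h3 : cov b (del C K T0) ≠ 0 := (map_ne_zero (cov b)).mpr hdT
      have h4 : cov b f ≠ 0 := (map_ne_zero (cov b)).mpr hf0
      rw [map_div₀, map_div₀, map_div₀, map_mul, AlgEquiv.commutes]
      field_simp
    have h2 : (S.nm v).v (del C K f / (algebraMap C K c0 * f) / del C K T0) ≤ 1 :=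
      hqle hf0 (hle a _)
    have h3 : (S.nm v).v (del C K (cov b T0) / del C K T0) ≤ 1 :=
      (v_del_lift_le hT hT' x (S.em_C ⟨v, x⟩) (S.em_gn ⟨v, x⟩) (S.em_od ⟨v, x⟩) _).trans hbT
    change om S v T0 c0 (cov (b * a) h) = _
    rw [e1, om, h1, red_mul _ (by rw [hb]; exact h2) h3, ← hθ _ h2,
      red_del hT hT' x (S.em_C ⟨v, x⟩) (S.em_gn ⟨v, x⟩) (S.em_od ⟨v, x⟩) hbT, ← hθ _ hT, hT']
    rfl

end vertex

variable {A : Type*} [Group A] [Fintype A] {cov : A →* (K ≃ₐ[C] K)}
  (hcov : ∀ α w, ∃ w', ∀ f, (S.nm w).v (cov α f) = (S.nm w').v f)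

include hcov

/-- **(M3)** `‖dlog h_n‖ ≤ |p^n|` -/
theorem main (hp0 : (p : C) ≠ 0) {c : A → ℤ_[p]}
    (hCI : CInjS p S cov (fun a => algebraMap (ZMod p) (Ct C) (toZMod (c a))))
    (u : Tate p (Pic C K))
    (hu : ∑ α, c α • Tate.map ((TPS.ofAlg (cov α)).pic : Pic C K →+ Pic C K) u = u)
    {n : ℕ} {h : K} (hr : RepK p n (u n) h) (hh : GoodF p n S h) (D : S.Dir) :
    gn (dl (S.em D h)) ≤ ‖(p : C)‖ ^ n := by
  classical
  haveI := S.fV
  rcases Nat.eq_zero_or_pos n with rfl | hn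
  · rw [pow_zero]
    exact gn_dl_le ((map_ne_zero _).mpr hh.ne)
  by_contra hlt
  push Not at hlt
  choose i1 i2 i3 i4 hC using hCI
  -- the norm at the vertex `v`
  let N : S.V × A → ℝ≥0 := fun va => (S.nm va.1).v (del C K (cov va.2 h) / cov va.2 h /
    del C K (letI := i1 va.1; lT (S.nm va.1)))
  have hG := fun a => goodF_cov hcov hh a
  have hN : ∀ (D : S.Dir) (a : A), gn (dl (S.em D (cov a h))) = N (D.1, a) := by
    rintro ⟨v, x⟩ a
    letI := i1 v
    haveI := i2 v
    haveI := i3 v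
    haveI := i4 v
    have h1 := nd_eq (lT_le (w := S.nm v)) (red_lT (w := S.nm v)) x (S.em_C ⟨v, x⟩)
      (S.em_gn ⟨v, x⟩) (S.em_od ⟨v, x⟩) (del C K (cov a h) / cov a h)
    rw [ex_dlog S ⟨v, x⟩ (hG a).ne] at h1
    exact h1.symm
  haveI : Nonempty (S.V × A) := ⟨(D.1, 1)⟩
  obtain ⟨⟨v, a⟩, hmax⟩ := Finite.exists_max N
  have hpos : ‖(p : C)‖ ^ n < N (v, a) := by
    refine hlt.trans_le ?_
    have h1 := hN D 1
    rw [map_one] at h1
    have h2 : gn (dl (S.em D h)) = N (D.1, 1) := h1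
    rw [h2]
    exact_mod_cast hmax (D.1, 1)
  letI := i1 v
  haveI := i2 v
  haveI := i3 v
  haveI := i4 v
  have hne : del C K (cov a h) / cov a h / del C K (lT (S.nm v)) ≠ 0 := by
    intro h0
    have h1 : N (v, a) = 0 := by
      change (S.nm v).v (del C K (cov a h) / cov a h / del C K (lT (S.nm v))) = 0
      rw [h0, map_zero]
    rw [h1, NNReal.coe_zero] at hpos
    exact absurd hpos (not_lt.mpr (pow_nonneg (norm_nonneg _) n))
  obtain ⟨c0, hc0⟩ := (S.nm v).val _ hne
  have hc0' : ((N (v, a) : ℝ≥0) : ℝ) = ‖c0‖ := by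
    have : N (v, a) = ‖c0‖₊ := hc0
    rw [this, coe_nnnorm]
  rw [hc0'] at hpos
  have hle : ∀ a, ∀ D : S.Dir, gn (dl (S.em D (cov a h))) ≤ ‖c0‖ := by
    intro b D'
    rw [hN D' b, ← hc0']
    exact_mod_cast hmax (D'.1, b)
  have h1 := om_zero S v (T0 := lT (S.nm v)) lT_le red_lT hcov hp0 (hC v) u hu hn.ne' hr hh hpos
    hle a
  obtain ⟨x, -⟩ := RR12_948.exists_notMem (k := Ct C) (K := kap (S.nm v)) ∅
  have hc00 : c0 ≠ 0 := by
    rintro rfl
    rw [norm_zero] at hpos
    exact absurd hpos (not_lt.mpr (pow_nonneg (norm_nonneg _) n))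
  have h2 := v_om S v (lT_le (w := S.nm v)) (red_lT (w := S.nm v)) x hc00 (hG a).ne
  rw [hN ⟨v, x⟩ a, hc0', div_self (norm_ne_zero_iff.mpr hc00)] at h2
  have h3 : (S.nm v).v (del C K (cov a h) / (algebraMap C K c0 * cov a h) /
      del C K (lT (S.nm v))) = 1 := by
    rw [← NNReal.coe_inj, h2, NNReal.coe_one]
  exact Red332.red_ne_zero _ h3 h1

end main

end Crest.Agent.R013.M3_359
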