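import Crest.Agent.R013.SD5_940_Mg
import Crest.Agent.R013.InhC1_770
import Crest.Agent.R013.M3D_359
import Crest.Agent.R013.HU6_522
import Mathlib
import Crest.Agent.R013.Inh12_770
import Crest.Agent.R013.A2c_398
import Crest.Agent.R013.CB1f_903
import Crest.Agent.R013.CY9_957
import Crest.Agent.R013.TP19_928
import Crest.Agent.R013.CAsm5_588
import Crest.Agent.R013.CY10_957
import Crest.Agent.R013.NB7_102
import Crest.Agent.R013.Good2_940
import Crest.Agent.R013.Gl14_946
import Crest.Agent.R013.TopE3_957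
import Crest.Agent.R013.Lift6_903
import Crest.Agent.R013.RR20_948
import Crest.Agent.R013.NB12_102
import Crest.Agent.R013.Desc3_372
import Crest.Agent.R013.DEm3_719
import Crest.Agent.R013.Desc8_372
import Crest.Agent.R013.DescC3_116
import Crest.Agent.R013.Desc5_372
import Crest.Agent.R013.Gl2_946

-- ▼ part R013/TP21_928
section

/-!
# R013 / C-FIN (helper928), part 7: **(D2)**

* `exists_F` : a complete field `F ⊇ C` with dense `C`;
* `PY`, `ru_Y`, `isExp_Y` : the place of `Y` given by `phi : Y →+* maxUnramified k K`;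
* `io_gal` : equivariance of the expansion for the semilinear automorphisms fixing the place;
* `concl_of_cov` : **(D)** : a level `Lvl S κ Y0 ⊥ D`, a covering group with idempotent, a fixed place
  ⟹ `Concl p k K P x δ η`.
-/

set_option autoImplicit false
set_option linter.unusedSectionVars false
set_option linter.style.haveILetI false

namespace Crest.Agent.R013.Fin_928

open scoped NNReal
open WithZero Module PadicInt PowerSeries
open Crest.NumberTheoryR.Sect
open Crest.Agent.R013.Cell_408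
open Crest.Agent.R013.HU6_522
open Crest.Agent.R013.RR7_948 Crest.Agent.R013.RR8_948 Crest.Agent.R013.RR9_948
open Crest.Agent.R013.RR11_948 Crest.Agent.R013.PicD_398 Crest.Agent.R013.Frob1_914
open Crest.Agent.R013.Red332 Crest.Agent.R013.SSK_332 Crest.Agent.R013.TP_928
open Crest.Agent.R013.EE809 Crest.Agent.R013.Desc_372 Crest.Agent.R013.HU14_522
open Crest.Agent.R013.DEm_719 Crest.Agent.R013.HU3_522 Crest.Agent.R013.LemD_323
open Crest.Agent.R013.Small2_940 Crest.Agent.R013.Small4_940 Crest.Agent.R013.Good5_940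
open Crest.Agent.R013.SD1_940 Crest.Agent.R013.SD2_940 Crest.Agent.R013.HU11_522
open Crest.Agent.R013.Puis_702 (mapL coeff_mapL)

section F

universe u

/-- a completion of `C` -/
theorem exists_F (p : ℕ) [hp : Fact p.Prime] (C : Type u) [NormedField C] [IsUltrametricDist C]
    [NormedAlgebra ℚ_[p] C] [CharZero C] :
    ∃ (F : Type u) (_ : NontriviallyNormedField F) (_ : NormedAlgebra ℚ_[p] F)
      (_ : IsUltrametricDist F) (_ : CompleteSpace F) (_ : CharZero F) (_ : Algebra C F)
      (_ : IsScalarTower ℚ_[p] C F) (_ : Algebra ℤ_[p] F) (_ : IsScalarTower ℤ_[p] ℚ_[p] F),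
      (∀ a, ‖algebraMap C F a‖ = ‖a‖) ∧ DenseRange (algebraMap C F) := by
  let F := UniformSpace.Completion C
  let hnn : NontriviallyNormedField F :=
    { (inferInstance : NormedField F) with
      non_trivial := by
        obtain ⟨c, hc⟩ := NontriviallyNormedField.non_trivial (α := ℚ_[p])
        exact ⟨algebraMap ℚ_[p] F c, by rw [norm_algebraMap']; exact hc⟩ }
  have hult : IsUltrametricDist F := by
    apply IsUltrametricDist.isUltrametricDist_of_isNonarchimedean_norm
    intro x y
    induction x, y using UniformSpace.Completion.induction_on₂ with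
    | hp => exact isClosed_le (by fun_prop) (by fun_prop)
    | ih x y =>
      rw [← UniformSpace.Completion.coe_add, UniformSpace.Completion.norm_coe,
        UniformSpace.Completion.norm_coe, UniformSpace.Completion.norm_coe]
      exact IsUltrametricDist.norm_add_le_max x y
  let iZ : Algebra ℤ_[p] F := ((algebraMap ℚ_[p] F).comp (algebraMap ℤ_[p] ℚ_[p])).toAlgebra
  have tZ : @IsScalarTower ℤ_[p] ℚ_[p] F _ _ iZ.toSMul :=
    @IsScalarTower.of_algebraMap_eq ℤ_[p] ℚ_[p] F _ _ _ _ _ iZ fun c => rfl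
  have hcz : CharZero F := charZero_of_injective_algebraMap (algebraMap ℚ_[p] F).injective
  exact ⟨F, hnn, inferInstance, hult, inferInstance, hcz, inferInstance, inferInstance, iZ, tZ,
    fun a => UniformSpace.Completion.norm_coe a, UniformSpace.Completion.denseRange_coe⟩

end F

section place

variable {p : ℕ} [hpF : Fact p.Prime] {k : Type*} [Field k] [CharZero k] [Algebra ℚ_[p] k]
  [FiniteDimensional ℚ_[p] k]
  {K : Type*} [Field K] [Algebra k K]
  [Algebra (RatFunc k) K] [IsScalarTower k (RatFunc k) K] [FiniteDimensional (RatFunc k) K]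
  {P : Valuation (AlgebraicClosure K) ℝ≥0} {x : K}
  {C : Type*} [NormedField C] [IsUltrametricDist C] [NormedAlgebra ℚ_[p] C]
  [Algebra.IsAlgebraic ℚ_[p] C]
  {Y : Type*} [Field Y] [Algebra C Y]
  {J : maxUnramified k K →+* LaurentSeries (Cb k K)} {e : Cb k K ≃+* C}
  {E0 : IntermediateField K (AlgebraicClosure K)} {phi : Y →+* maxUnramified k K}

/-- the place of `Y` -/
noncomputable def PY (P : Valuation (AlgebraicClosure K) ℝ≥0) (phi : Y →+* maxUnramified k K) :
    Valuation Y ℝ≥0 :=
  (P.comap (algebraMap (maxUnramified k K) (AlgebraicClosure K))).comap phi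

theorem PY_apply (z : Y) : PY P phi z = P (phi z : AlgebraicClosure K) := rfl

theorem ru_Y (hP : IsRationalPlace k K (P.comap (algebraMap K (AlgebraicClosure K))))
    (hx : IsUniformizerAt (P.comap (algebraMap K (AlgebraicClosure K))) x) (h : PH e E0 phi)
    {x0 : Y} (hx0 : phi x0 = algebraMap K (maxUnramified k K) x) :
    RU (algebraMap C Y) (PY P phi) x0 where
  rat a ha := by
    obtain ⟨c, hc⟩ := (ru_M hP hx).rat (phi a) ha
    refine ⟨e c, ?_⟩
    have h1 : iM k K c = phi (algebraMap C Y (e c)) := by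
      rw [h.con, RingEquiv.symm_apply_apply]
    rw [h1, ← map_sub] at hc
    exact hc
  lt_one := by
    have h1 := (ru_M hP hx).lt_one
    rw [← hx0] at h1
    exact h1
  unif a ha := by
    have h1 := (ru_M hP hx).unif (phi a) ha
    rw [← hx0] at h1
    exact h1
  ne := by
    rintro rfl
    rw [map_zero] at hx0
    exact (ru_M hP hx).ne hx0.symm

theorem isExp_Y
    (hJ : IsExp (iM k K) (P.comap (algebraMap (maxUnramified k K) (AlgebraicClosure K)))
        (algebraMap K (maxUnramified k K) x) J) (h : PH e E0 phi)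
    {x0 : Y} (hx0 : phi x0 = algebraMap K (maxUnramified k K) x) :
    IsExp (algebraMap C Y) (PY P phi) x0 (io e J phi) where
  con c := io_C hJ h c
  par := by
    rw [io_apply, hx0, hJ.par]
    refine HahnSeries.ext (funext fun i => ?_)
    rw [coeff_mapL, HahnSeries.coeff_single, HahnSeries.coeff_single]
    split_ifs
    · exact map_one _
    · exact map_zero _
  nonneg a ha n hn := by
    rw [coeff_io, hJ.nonneg (phi a) ha n hn, map_zero]

/-- equivariance of the expansion -/
theorem io_gal (hP : IsRationalPlace k K (P.comap (algebraMap K (AlgebraicClosure K))))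
    (hx : IsUniformizerAt (P.comap (algebraMap K (AlgebraicClosure K))) x)
    (hJ : IsExp (iM k K) (P.comap (algebraMap (maxUnramified k K) (AlgebraicClosure K)))
        (algebraMap K (maxUnramified k K) x) J) (h : PH e E0 phi)
    {x0 : Y} (hx0 : phi x0 = algebraMap K (maxUnramified k K) x)
    (g : Y →+* Y) (t : C →+* C) (hgc : ∀ c, g (algebraMap C Y c) = algebraMap C Y (t c))
    (hgx : g x0 = x0) (hgP : ∀ a, PY P phi a ≤ 1 → PY P phi (g a) ≤ 1) (z : Y) :
    mapL t (io e J phi z) = io e J phi (g z) := by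
  refine HahnSeries.ext (funext fun i => ?_)
  rw [coeff_mapL]
  exact ((isExp_Y hJ h hx0).equiv (isExp_Y hJ h hx0) (ru_Y hP hx h hx0) (ru_Y hP hx h hx0).ne
    g t hgc hgx hgP z i).symm

end place

/-- the order which is used -/
def ordI (p : ℕ) : ℕ := if p = 2 then 2 else 1

theorem ordI_le (p : ℕ) : ordI p ≤ 2 := by
  unfold ordI
  split_ifs <;> omega

theorem ordI_spec (p : ℕ) [hp : Fact p.Prime] : ordI p + 1 = p ^ 0 * (ordI p + 1) ∧ 2 ≤ ordI p + 1 ∧
    ¬ p ∣ ordI p + 1 := by
  unfold ordI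
  split_ifs with h
  · subst h
    exact ⟨by norm_num, by norm_num, by norm_num⟩
  · refine ⟨by ring, by norm_num, fun hd => h ?_⟩
    exact (Nat.prime_dvd_prime_iff_eq hp.out Nat.prime_two).mp hd

section main

universe u

variable {p : ℕ} [hpF : Fact p.Prime] {k : Type*} [Field k] [CharZero k] [Algebra ℚ_[p] k]
  [FiniteDimensional ℚ_[p] k]
  {K : Type*} [Field K] [Algebra k K]
  [Algebra (RatFunc k) K] [IsScalarTower k (RatFunc k) K] [FiniteDimensional (RatFunc k) K]
  {P : Valuation (AlgebraicClosure K) ℝ≥0} {x : K}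
  {C : Type u} [NormedField C] [IsUltrametricDist C] [NormedAlgebra ℚ_[p] C]
  [Algebra.IsAlgebraic ℚ_[p] C] [CharZero C] [IsAlgClosed C]
  {Y : Type*} [Field Y] [Algebra C Y] [Algebra (RatFunc C) Y] [IsScalarTower C (RatFunc C) Y]
  [FiniteDimensional (RatFunc C) Y]
  {e : Cb k K ≃+* C}
  {E0 : IntermediateField K (AlgebraicClosure K)} {phi : Y →+* maxUnramified k K}
variable {κ Y0 : Type*} [Field κ] [Field Y0] [Algebra ℚ_[p] κ] [FiniteDimensional ℚ_[p] κ]
  [Algebra κ C] [IsScalarTower ℚ_[p] κ C] [Algebra κ Y0] [Algebra Y0 Y] [Algebra κ Y]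
  [IsScalarTower κ C Y] [IsScalarTower κ Y0 Y] [CE κ C Y0 Y]
variable {S : SSK ℚ_[p] C Y} {D : Set S.Dir}
variable {A : Type*} [Group A] [Fintype A] [MulAction A S.Ed]
variable [CharP (Ct C) p] [Algebra (ZMod p) (Ct C)] [Algebra.IsAlgebraic (ZMod p) (Ct C)]
  [Normal κ C] [IsGalois ℚ_[p] C]

set_option maxHeartbeats 1000000 in
/-- **(D)** -/
theorem concl_of_cov (hP : IsRationalPlace k K (P.comap (algebraMap K (AlgebraicClosure K))))
    (hx : IsUniformizerAt (P.comap (algebraMap K (AlgebraicClosure K))) x)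
    (he : ∀ a : ℚ_[p], e (algebraMap k (Cb k K) (algebraMap ℚ_[p] k a)) = algebraMap ℚ_[p] C a)
    [FiniteDimensional K E0] (hE0 : E0 ≤ maxUnramified k K) (h : PH e E0 phi)
    {x0 : Y0} (hx0 : phi (algebraMap Y0 Y x0) = algebraMap K (maxUnramified k K) x)
    (hfix : ∀ (g : Y ≃ₐ[Y0] Y) (a : Y), PY P phi a ≤ 1 → PY P phi (g a) ≤ 1)
    (H : Lvl S κ Y0 (⊥ : IntermediateField κ C) D)
    (cov : A →* (Y ≃ₐ[C] Y))
    (cov_gal : ∀ (α : A) (g : Y ≃ₐ[Y0] Y) (f : Y), cov α (g f) = g (cov α f))
    (cov_v : ∀ α w, ∃ w', ∀ f, (S.nm w).v (cov α f) = (S.nm w').v f)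
    (cov_e0 : ∀ (α : A) e f, f ≠ 0 → ord S (S.e0 (α • e)) (cov α f) = ord S (S.e0 e) f)
    (c : A → ℤ_[p]) (idem : ∀ α, ∑ β, c β * c (β⁻¹ * α) = c α)
    (hM3 : ∀ {F : Type u} [NontriviallyNormedField F] [NormedAlgebra ℚ_[p] F]
      [IsUltrametricDist F] [CompleteSpace F] [CharZero F] [Algebra C F] [IsScalarTower ℚ_[p] C F]
      [Algebra ℤ_[p] F] [IsScalarTower ℤ_[p] ℚ_[p] F]
      (d : TPS p S (CE.Gam Y0 Y (⊥ : IntermediateField κ C)) A (PowerSeries F)),
      d.cov = cov → d.c = c →
      (∀ u : Tate p (Pic C Y), (∃ D : S.Dir, ∀ n, ∃ f : Y, f ≠ 0 ∧ RepK p n (u n) f ∧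
        gn (th (S.em D f) * S.em D f⁻¹) ≤ ‖(p : C)‖ ^ n) → d.om u = 0) → d.OmZero)
    (hSl : ∀ lam : S.Ed → ZMod p, bdry S (ZMod p) lam = 0 →
      ∃ f : Y, f ≠ 0 ∧ (∃ x : Pl C Y →₀ ℤ, divf (k := C) f = p • x) ∧
        ∀ e, ((ord S (S.e0 e) f : ℤ) : ZMod p) = lam e)
    (hrk : 2 * finrank ℚ_[p] κ <
      finrank ℚ_[p] (Rank_770.eker (fun α => ((c α : ℤ_[p]) : ℚ_[p])) (bdry S ℚ_[p])))
    {δ η : ℝ≥0} (hδ : 0 < δ) (hη : 0 < η) : Concl p k K P x δ η := by
  haveI hk : Fact (DiscNorm ℚ_[p]) := inferInstance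
  obtain ⟨J, hJ⟩ := exists_JM hP hx
  obtain ⟨F, iF1, iF2, iF3, iF4, iF5, iF6, iF7, iF8, iF9, hσ, hd⟩ := exists_F p C
  obtain ⟨N, hN'⟩ := exists_N1 (p := p) hP hx hJ he hE0
  have hN := hN' N le_rfl h
  have hem : ∀ (g : Y ≃ₐ[Y0] Y) (z : Y) (n : ℤ),
      (emP hN (g z)).co n = CE.res κ C Y0 Y g ((emP hN z).co n) := by
    intro g z n
    let t : C →ₐ[ℚ_[p]] C := (CE.res κ C Y0 Y g).restrictScalars ℚ_[p]
    have ht : ∀ a, ‖t a‖ = ‖a‖ := fun a =>
      norm_mapE ((CE.res κ C Y0 Y g).restrictScalars ℚ_[p]) a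
    have hgc : ∀ c, (g : Y →+* Y) (algebraMap C Y c) = algebraMap C Y ((t : C →+* C) c) :=
      fun c => (CE.algebraMap_res κ C Y0 Y g c).symm
    have h1 := emP_equiv hN (g : Y →+* Y) t ht
      (fun z => io_gal hP hx hJ h hx0 (g : Y →+* Y) (t : C →+* C) hgc (g.commutes x0)
        (fun a ha => hfix g a ha) z) z
    exact congrArg (fun f : EE ℚ_[p] C => f.co n) h1
  let k' : IntermediateField ℚ_[p] C := (⊥ : IntermediateField κ C).restrictScalars ℚ_[p]
  haveI : FiniteDimensional ℚ_[p] k' :=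
    FiniteDimensional.trans ℚ_[p] κ (⊥ : IntermediateField κ C)
  obtain ⟨h1, h2, h3⟩ := ordI_spec p
  refine SD5_940.concl_of_tate hN hσ norm_p_lt_one norm_zp hP hx hJ h he hE0 hd k' h1 h2 h3
    (fun ε hε => ?_) hδ hη
  obtain ⟨s, hs, u, hu1, hu2, hu3⟩ := exists_class hk.out (emP hN) (fun c => emP_C hN hJ h c)
    (emP_hι hN) hσ hd H cov cov_gal cov_v cov_e0 c idem hem (fun d h1 h2 h3 => hM3 d h1 h2 h3) hSl
    (ordI p) (lt_of_le_of_lt (Nat.mul_le_mul_right _ (ordI_le p)) hrk) hε
  refine ⟨s, hs, u, fun n => ?_, hu2, hu3⟩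
  obtain ⟨a, ha⟩ := hu1 n
  exact ⟨algebraMap κ C a, (⊥ : IntermediateField κ C).algebraMap_mem a, ha.symm⟩

end main

end Crest.Agent.R013.Fin_928
end

-- ▼ part R013/M3E_359
section
/-
ROW 13, leaf M3 (helper359), file E: 928's `OmZero`.
-/
set_option autoImplicit false
set_option linter.unusedSectionVars false
set_option linter.unusedVariables false
set_option linter.style.haveILetI false

namespace Crest.Agent.R013.M3_359

open scoped NNReal
open WithZero Module PadicInt
open Crest.Agent.R013.Cell_408 (FinDef DiscNorm)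
open Crest.Agent.R013.EE809 hiding od
open Crest.Agent.R013.RR7_948 Crest.Agent.R013.RR8_948 Crest.Agent.R013.RR9_948
open Crest.Agent.R013.RR11_948 Crest.Agent.R013.RR14_948
open Crest.Agent.R013.Red332 hiding od
open Crest.Agent.R013.RedD_310
open Crest.Agent.R013.SSK_332
open Crest.Agent.R013.PicD_398 Crest.Agent.R013.Frob1_914 Crest.Agent.R013.TP_928

section th

variable {k : Type*} [NontriviallyNormedField k] [CompleteSpace k] [IsUltrametricDist k]
variable {C : Type*} [NormedField C] [IsUltrametricDist C] [NormedAlgebra k C]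
  [Algebra.IsAlgebraic k C] [IsAlgClosed C] [hk : Fact (DiscNorm k)]

theorem th_eq (a : EE k C) : HU6_522.th a = T 1 * dFun a := by
  ext n
  rw [HU6_522.co_th, co_T_mul, co_dFun]
  congr 2 <;> push_cast <;> ring

theorem gn_th (a : EE k C) : gn (HU6_522.th a) = gn (dFun a) := by
  rw [th_eq, gn_mul hk.out]
  have h : gn (T 1 : EE k C) = 1 := by rw [T, gn_mo, norm_one]
  rw [h, one_mul]

theorem gn_th_mul_inv {a : EE k C} (ha : a ≠ 0) : gn (HU6_522.th a * a⁻¹) = gn (dl a) := by
  rw [gn_mul hk.out, gn_th, ← gn_mul hk.out, dl, div_eq_mul_inv]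

end th

section main

variable {p : ℕ} [hp : Fact p.Prime]
variable {k : Type*} [NontriviallyNormedField k] [CompleteSpace k] [IsUltrametricDist k]
variable {C : Type*} [NormedField C] [IsUltrametricDist C] [NormedAlgebra k C]
  [Algebra.IsAlgebraic k C] [IsAlgClosed C] [hk : Fact (DiscNorm k)]
variable {K : Type*} [Field K] [Algebra C K] [Algebra (RatFunc C) K]
  [IsScalarTower C (RatFunc C) K] [FiniteDimensional (RatFunc C) K]
  [Algebra.IsSeparable (RatFunc C) K]
variable {S : SSK k C K} [CharP (Ct C) p] [Algebra (ZMod p) (Ct C)]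
  [Algebra.IsAlgebraic (ZMod p) (Ct C)] [PerfectField (Ct C)]
variable {G A W : Type*} [AddCommGroup W] [Module ℤ_[p] W] [Group A] [Fintype A]
  [MulAction A S.Ed]

/-- from the data of `OmZero` to `GoodF` -/
theorem goodF_of {n : ℕ} {z : Pic C K} {h : K} (h0 : h ≠ 0) (hr : RepK p n z h)
    (hred : ∀ v, ∃ (c : C) (y : kap (S.nm v)), c ≠ 0 ∧
      (S.nm v).v (h * (algebraMap C K c)⁻¹) = 1 ∧
      Red332.red (S.nm v) (h * (algebraMap C K c)⁻¹) = y ^ p ^ n) : GoodF p n S h where
  ne := h0
  div := fun P => by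
    obtain ⟨x, -, hx⟩ := hr
    rw [hx, Finsupp.smul_apply, nsmul_eq_mul]
    exact dvd_mul_right _ _
  red := hred

/-- **`‖dlog h_n‖ ≤ |p^n|`** for all representatives and all directions -/
theorem TPS_main (d : TPS p S G A W) (hp0 : (p : C) ≠ 0)
    (hCI : CInjS p S d.cov (fun a => algebraMap (ZMod p) (Ct C) (toZMod (d.c a))))
    (u : Tate p (Pic C K)) (hu : d.e u = u)
    (hred : ∀ n (h : K), h ≠ 0 → RepK p n (u n) h → ∀ v, ∃ (c : C) (y : kap (S.nm v)), c ≠ 0 ∧
      (S.nm v).v (h * (algebraMap C K c)⁻¹) = 1 ∧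
      Red332.red (S.nm v) (h * (algebraMap C K c)⁻¹) = y ^ p ^ n)
    {n : ℕ} {h : K} (h0 : h ≠ 0) (hr : RepK p n (u n) h) (D : S.Dir) :
    gn (dl (S.em D h)) ≤ ‖(p : C)‖ ^ n := by
  have hu' : ∑ α, d.c α • Tate.map ((TPS.ofAlg (d.cov α)).pic : Pic C K →+ Pic C K) u = u := by
    have h2 : d.e u = ∑ α, d.c α • Tate.map ((TPS.ofAlg (d.cov α)).pic : Pic C K →+ Pic C K) u :=
      eop_apply (p := p) d.c _ u
    rw [← h2, hu]
  exact main S d.cov_v hp0 hCI u hu' hr (goodF_of h0 hr (hred n h h0 hr)) D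

omit [IsUltrametricDist k] [IsAlgClosed C] hk [CharP (Ct C) p] [Algebra (ZMod p) (Ct C)]
  [Algebra.IsAlgebraic (ZMod p) (Ct C)] [PerfectField (Ct C)] hp in
variable (S) in
theorem exists_dir : Nonempty S.Dir := by
  obtain ⟨P, -⟩ := RR12_948.exists_notMem (k := C) (K := K) ∅
  rcases S.pt_surj P with ⟨d, -⟩ | ⟨e, -⟩
  · exact ⟨d⟩
  · exact ⟨S.e0 e⟩

/-- **(M3) = `OmZero`** -/
theorem omZero (d : TPS p S G A W) (hp0 : (p : C) ≠ 0)
    (hCI : CInjS p S d.cov (fun a => algebraMap (ZMod p) (Ct C) (toZMod (d.c a))))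
    (hom : ∀ u : Tate p (Pic C K), (∃ D : S.Dir, ∀ n, ∃ f : K, f ≠ 0 ∧ RepK p n (u n) f ∧
      gn (HU6_522.th (S.em D f) * S.em D f⁻¹) ≤ ‖(p : C)‖ ^ n) → d.om u = 0) :
    d.OmZero := by
  intro u hu hred
  obtain ⟨D⟩ := exists_dir S
  apply hom u
  refine ⟨D, fun n => ?_⟩
  obtain ⟨h, h0, hr⟩ := exists_repK (p := p) u n
  refine ⟨h, h0, hr, ?_⟩
  rw [map_inv₀, gn_th_mul_inv ((map_ne_zero _).mpr h0)]
  exact TPS_main d hp0 hCI u hu hred h0 hr D

end main

end Crest.Agent.R013.M3_359
end

-- ▼ part R013/TP22_928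
section

/-!
# R013 / C-FIN (helper928), part 8: (D) with 359's `omZero`

`concl_of_cinj` : `concl_of_cov` with the Cartier injectivity `CInjS` instead of `OmZero`; all the
instances on `C` and `κ` are found inside.
-/

set_option autoImplicit false
set_option linter.unusedSectionVars false
set_option linter.style.haveILetI false

namespace Crest.Agent.R013.Fin_928

open scoped NNReal
open WithZero Module PadicInt PowerSeries
open Crest.NumberTheoryR.Sect
open Crest.Agent.R013.Cell_408
open Crest.Agent.R013.HU6_522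
open Crest.Agent.R013.RR7_948 Crest.Agent.R013.RR8_948 Crest.Agent.R013.RR9_948
open Crest.Agent.R013.RR11_948 Crest.Agent.R013.PicD_398 Crest.Agent.R013.Frob1_914
open Crest.Agent.R013.Red332 Crest.Agent.R013.SSK_332 Crest.Agent.R013.TP_928
open Crest.Agent.R013.EE809 Crest.Agent.R013.Desc_372 Crest.Agent.R013.HU14_522
open Crest.Agent.R013.Small2_940 Crest.Agent.R013.Small4_940 Crest.Agent.R013.Good5_940
open Crest.Agent.R013.SD2_940

section main

universe u

variable {p : ℕ} [hpF : Fact p.Prime] {k : Type*} [Field k] [CharZero k] [Algebra ℚ_[p] k]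
  [FiniteDimensional ℚ_[p] k]
  {K : Type*} [Field K] [Algebra k K]
  [Algebra (RatFunc k) K] [IsScalarTower k (RatFunc k) K] [FiniteDimensional (RatFunc k) K]
  {P : Valuation (AlgebraicClosure K) ℝ≥0} {x : K}
  {C : Type u} [NormedField C] [IsUltrametricDist C] [NormedAlgebra ℚ_[p] C]
  [Algebra.IsAlgebraic ℚ_[p] C] [CharZero C] [IsAlgClosed C]
  {Y : Type*} [Field Y] [Algebra C Y] [Algebra (RatFunc C) Y] [IsScalarTower C (RatFunc C) Y]
  [FiniteDimensional (RatFunc C) Y]
  {e : Cb k K ≃+* C}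
  {E0 : IntermediateField K (AlgebraicClosure K)} {phi : Y →+* maxUnramified k K}
variable {κ Y0 : Type*} [Field κ] [Field Y0] [Algebra ℚ_[p] κ] [FiniteDimensional ℚ_[p] κ]
  [Algebra κ C] [IsScalarTower ℚ_[p] κ C] [Algebra κ Y0] [Algebra Y0 Y] [Algebra κ Y]
  [IsScalarTower κ C Y] [IsScalarTower κ Y0 Y] [CE κ C Y0 Y]
variable {S : SSK ℚ_[p] C Y} {D : Set S.Dir}
variable {A : Type*} [Group A] [Fintype A] [MulAction A S.Ed]

/-- **(D)** -/
theorem concl_of_cinj [CharP (Ct C) p] [Algebra (ZMod p) (Ct C)]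
    (hP : IsRationalPlace k K (P.comap (algebraMap K (AlgebraicClosure K))))
    (hx : IsUniformizerAt (P.comap (algebraMap K (AlgebraicClosure K))) x)
    (he : ∀ a : ℚ_[p], e (algebraMap k (Cb k K) (algebraMap ℚ_[p] k a)) = algebraMap ℚ_[p] C a)
    [FiniteDimensional K E0] (hE0 : E0 ≤ maxUnramified k K) (h : PH e E0 phi)
    {x0 : Y0} (hx0 : phi (algebraMap Y0 Y x0) = algebraMap K (maxUnramified k K) x)
    (hfix : ∀ (g : Y ≃ₐ[Y0] Y) (a : Y), PY P phi a ≤ 1 → PY P phi (g a) ≤ 1)
    (H : Lvl S κ Y0 (⊥ : IntermediateField κ C) D)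
    (cov : A →* (Y ≃ₐ[C] Y))
    (cov_gal : ∀ (α : A) (g : Y ≃ₐ[Y0] Y) (f : Y), cov α (g f) = g (cov α f))
    (cov_v : ∀ α w, ∃ w', ∀ f, (S.nm w).v (cov α f) = (S.nm w').v f)
    (cov_e0 : ∀ (α : A) e f, f ≠ 0 → ord S (S.e0 (α • e)) (cov α f) = ord S (S.e0 e) f)
    (c : A → ℤ_[p]) (idem : ∀ α, ∑ β, c β * c (β⁻¹ * α) = c α)
    (hCI : M3_359.CInjS p S cov (fun a => algebraMap (ZMod p) (Ct C) (toZMod (c a))))
    (hSl : ∀ lam : S.Ed → ZMod p, bdry S (ZMod p) lam = 0 →
      ∃ f : Y, f ≠ 0 ∧ (∃ x : Pl C Y →₀ ℤ, divf (k := C) f = p • x) ∧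
        ∀ e, ((ord S (S.e0 e) f : ℤ) : ZMod p) = lam e)
    (hrk : 2 * finrank ℚ_[p] κ <
      finrank ℚ_[p] (Rank_770.eker (fun α => ((c α : ℤ_[p]) : ℚ_[p])) (bdry S ℚ_[p])))
    {δ η : ℝ≥0} (hδ : 0 < δ) (hη : 0 < η) : Concl p k K P x δ η := by
  haveI hk : Fact (DiscNorm ℚ_[p]) := inferInstance
  haveI hal : Algebra.IsAlgebraic (ZMod p) (Ct C) := by
    have h1 := TP14_928.isAlgebraic_Ct (C := C) p
    have h2 : TP14_928.algCt (C := C) p = ‹Algebra (ZMod p) (Ct C)› := Subsingleton.elim _ _
    rw [h2] at h1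
    exact h1
  haveI : IsAlgClosed (Ct C) := TP14_928.isAlgClosed_Ct
  haveI : Normal κ C := normal_C p κ
  haveI : IsGalois ℚ_[p] C := isGalois_C
  have hp0 : (p : C) ≠ 0 := by exact_mod_cast hpF.out.ne_zero
  refine concl_of_cov hP hx he hE0 h hx0 hfix H cov cov_gal cov_v cov_e0 c idem ?_ hSl hrk hδ hη
  intro F _ _ _ _ _ _ _ _ _ d h1 h2 h3
  refine M3_359.omZero d hp0 ?_ h3
  rw [h1, h2]
  exact hCI

end main

end Crest.Agent.R013.Fin_928
end

-- ▼ part R013/Inh14_770
section

/-!
# Row 13, leaf C-INH (helper770), part 14: the action of the Galois group on the vertices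
-/

set_option autoImplicit false
set_option linter.all false
open WithZero
open scoped NNReal
open Crest.Agent.R013.RR7_948 Crest.Agent.R013.Red332 Crest.Agent.R013.EE809
open Crest.Agent.R013.Cell_408 (FinDef DiscNorm)
open Crest.Agent.R013.SSK_332

namespace Crest.Agent.R013.Inh_770

variable {k : Type*} [NontriviallyNormedField k] [CompleteSpace k] [IsUltrametricDist k]
variable {C : Type*} [NormedField C] [IsUltrametricDist C] [NormedAlgebra k C]
variable [Algebra.IsAlgebraic k C] [IsAlgClosed C] [hk : Fact (DiscNorm k)]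
variable {K : Type*} [Field K] [Algebra C K]
variable {L : Type*} [Field L] [Algebra C L] [Algebra K L] [IsScalarTower C K L]
variable [FiniteDimensional K L] [IsGalois K L]
variable [Algebra (RatFunc C) K] [IsScalarTower C (RatFunc C) K]
  [FiniteDimensional (RatFunc C) K] [Algebra.IsSeparable (RatFunc C) K]

namespace Spl

variable {S : SSK k C K} (P : Spl S L) (hff : ∀ i, FFat (P.nmL i))

/-- the image of a vertex -/
noncomputable def smV (a : L ≃ₐ[K] L) (w : (P.SL hff).V) : (P.SL hff).V :=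
  (P.exists_act_V hff a w).choose

theorem smV_nm (a : L ≃ₐ[K] L) (w : (P.SL hff).V) (f : L) :
    ((P.SL hff).nm (P.smV hff a w)).v (a f) = ((P.SL hff).nm w).v f :=
  (P.exists_act_V hff a w).choose_spec.2 f


theorem eq_smV {a : L ≃ₐ[K] L} {w w' : (P.SL hff).V}
    (h : ∀ f, ((P.SL hff).nm w').v (a f) = ((P.SL hff).nm w).v f) : w' = P.smV hff a w := by
  apply (P.SL hff).nm_inj
  apply Nm.ext'
  intro f
  have h1 := h (a.symm f)
  have h2 := P.smV_nm hff a w (a.symm f)
  rw [AlgEquiv.apply_symm_apply] at h1 h2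
  rw [h1, h2]

/-- the action on the vertices: `(a • w)(a f) = w(f)` -/
@[reducible] noncomputable def actV : MulAction (L ≃ₐ[K] L) (P.SL hff).V where
  smul a w := P.smV hff a w
  one_smul w := (P.eq_smV hff (a := 1) (w := w) (w' := w) fun f => rfl).symm
  mul_smul a b w := (P.eq_smV hff (a := a * b) (w := w) (w' := P.smV hff a (P.smV hff b w))
    fun f => by
      have h1 := P.smV_nm hff a (P.smV hff b w) (b f)
      have h2 := P.smV_nm hff b w f
      exact h1.trans h2).symm





end Spl

end Crest.Agent.R013.Inh_770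
end

-- ▼ part R013/A2d_398
section

/-!
# R013 / C-A2, part d (helper398): counting the vertices of genus zero
-/

set_option autoImplicit false
set_option linter.all false

namespace Crest.Agent.R013.A2_398

open scoped NNReal
open Module IsLocalRing WithZero
open Crest.Agent.R013.Red332 Crest.Agent.R013.Kumv2_275 Crest.Agent.R013.SSK_332
open Crest.Agent.R013.RR7_948 Crest.Agent.R013.RR8_948 Crest.Agent.R013.RR9_948
open Crest.Agent.R013.RR11_948 Crest.Agent.R013.CLiftN_903
open Crest.Agent.R013.CI3_398 Crest.Agent.R013.CI4_398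
open Crest.Agent.R013.GR3_921 Crest.Agent.R013.Cell_408 Crest.Agent.R013.CB1_903
open Crest.Agent.R013.Inh_770

universe u

section n0

variable (p : ℕ) [hp : Fact p.Prime] {k : Type*} [NontriviallyNormedField k] [CompleteSpace k]
  [IsUltrametricDist k] {C : Type*} [NormedField C] [IsUltrametricDist C] [NormedAlgebra k C]
  [Algebra.IsAlgebraic k C] [IsAlgClosed C] [hk : Fact (DiscNorm k)] [CharZero C]
  {K : Type*} [Field K] [Algebra C K] (S : SSK k C K)

/-- the vertices of genus zero -/
def V0 : Set S.V := {v | HasGen (Ct C) (kap (S.nm v)) 0}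


end n0

section zero

variable {k κ : Type*} [Field k] [IsAlgClosed k] [Field κ] [Algebra k κ]


end zero

section fibre

variable {p : ℕ} [hp : Fact p.Prime] {k : Type*} [NontriviallyNormedField k] [CompleteSpace k]
  [IsUltrametricDist k] {C : Type*} [NormedField C] [IsUltrametricDist C] [NormedAlgebra k C]
  [Algebra.IsAlgebraic k C] [IsAlgClosed C] [hk : Fact (DiscNorm k)] [CharP (Ct C) p]
  {K : Type*} [Field K] [Algebra C K] [Algebra (RatFunc C) K] [IsScalarTower C (RatFunc C) K]
  [FiniteDimensional (RatFunc C) K] [Algebra.IsSeparable (RatFunc C) K] {S : SSK k C K}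
  {L : Type*} [Field L]
  [Algebra C L] [Algebra K L] [IsScalarTower C K L] [FiniteDimensional K L] [IsGalois K L]
  (D : A2Data p S L)


namespace A2Data

/-- the vertices of the cover over the vertices of genus zero -/
def V0' : Set D.spl.inh.V := {w | D.spl.vK D.spl.ffL w ∈ V0 S}

theorem dich (w : D.spl.inh.V) : (w ∈ D.V0' ∧
      ∀ σ : L ≃ₐ[K] L, (∀ f, (D.spl.inh.nm w).v (σ f) = (D.spl.inh.nm w).v f) → σ = 1) ∨
    ∀ (B : Subgroup (L ≃ₐ[K] L)) [Fintype B],
      (∀ σ, σ ∈ B ↔ ∀ f, (D.spl.inh.nm w).v (σ f) = (D.spl.inh.nm w).v f) →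
      ∀ a, ∑ b : B, D.c (a * b) = 0 :=
  D.dichotomy (D.spl.vK D.spl.ffL w) (D.spl.inh.nm w) (D.spl.vK_comap D.spl.ffL w)




end A2Data

end fibre

end Crest.Agent.R013.A2_398
end

-- ▼ part R013/A2e_398
section

/-!
# R013 / C-A2, part e (helper398): `CInjS` (359) for a semistable structure of a field over the
Kummer cover
-/

set_option autoImplicit false
set_option linter.all false

namespace Crest.Agent.R013.A2_398

open scoped NNReal
open Module IsLocalRing WithZero
open Crest.Agent.R013.Red332 Crest.Agent.R013.Kumv2_275 Crest.Agent.R013.SSK_332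
open Crest.Agent.R013.RR7_948 Crest.Agent.R013.RR8_948 Crest.Agent.R013.RR9_948
open Crest.Agent.R013.RR11_948
open Crest.Agent.R013.GR3_921 Crest.Agent.R013.Cell_408 Crest.Agent.R013.CB1_903
open Crest.Agent.R013.Inh_770

section glue

variable {p : ℕ} [hp : Fact p.Prime] {k : Type*} [NontriviallyNormedField k] [CompleteSpace k]
  [IsUltrametricDist k] {C : Type*} [NormedField C] [IsUltrametricDist C] [NormedAlgebra k C]
  [Algebra.IsAlgebraic k C] [IsAlgClosed C] [hk : Fact (DiscNorm k)] [CharP (Ct C) p]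
  [PerfectField (Ct C)]
  {K : Type*} [Field K] [Algebra C K] {S : SSK k C K}
  {L : Type*} [Field L]
  [Algebra C L] [Algebra K L] [IsScalarTower C K L] [FiniteDimensional K L] [IsGalois K L]
  (D : A2Data p S L)
  {Y : Type*} [Field Y] [Algebra C Y] [Algebra K Y] [Algebra L Y]
  [IsScalarTower C K Y] [IsScalarTower C L Y] [IsScalarTower K L Y] (SY : SSK k C Y)
  (cov : (L ≃ₐ[K] L) →* (Y ≃ₐ[C] Y))
  (hcov : ∀ a f, cov a (algebraMap L Y f) = algebraMap L Y (a f))

include hcov in
/-- **`CInjS` for `Y`**: every vertex of `SY` lies over a norm of `L` over a vertex of `S`, with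
the same residue field and the same stabiliser -/
theorem A2Data.cinjS (φ : ZMod p →+* Ct C)
    (h : ∀ W : SY.V, ∃ (v : S.V) (w : Nm C L) (_ : w.v.comap (algebraMap K L) = (S.nm v).v)
      (hW : (SY.nm W).v.comap (algebraMap L Y) = w.v),
      Function.Surjective (kapMap w (SY.nm W) hW) ∧
      ∀ a : L ≃ₐ[K] L, (∀ f, w.v (a f) = w.v f) → ∀ f, (SY.nm W).v (cov a f) = (SY.nm W).v f) :
    M3_359.CInjS p SY cov (fun a => φ (PadicInt.toZMod (D.c a))) := by
  intro W
  obtain ⟨v, w, hw, hW, hsurj, hstab⟩ := h W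
  exact D.cinj cov hcov v w hw (SY.nm W) hW hsurj hstab φ


end glue

end Crest.Agent.R013.A2_398
end

-- ▼ part R013/A2f_398
section

/-!
# R013 / C-A2, part f (helper398): `CInjS` and the rank for the field `Y` of 957's C-Y
-/

set_option autoImplicit false
set_option linter.all false

namespace Crest.Agent.R013.A2_398

open scoped NNReal
open Module IsLocalRing WithZero
open Crest.Agent.R013.Red332 Crest.Agent.R013.Kumv2_275 Crest.Agent.R013.SSK_332
open Crest.Agent.R013.RR7_948 Crest.Agent.R013.RR8_948 Crest.Agent.R013.RR9_948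
open Crest.Agent.R013.RR11_948
open Crest.Agent.R013.GR3_921 Crest.Agent.R013.Cell_408 Crest.Agent.R013.CB1_903
open Crest.Agent.R013.Inh_770 Crest.Agent.R013.TopE1_957 Crest.Agent.R013.Desc_372
open Crest.Agent.R013.CY_957 (vY nm_vY comap_vY kapMap_top fix_iff vI Fix mV mE)
open Crest.Agent.R013.Rank_770 Crest.Agent.R013.TP_928 Crest.Agent.R013.Fin_928

section top

variable {p : ℕ} [hp : Fact p.Prime] {k : Type*} [NontriviallyNormedField k] [CompleteSpace k]
  [IsUltrametricDist k] {C : Type*} [NormedField C] [IsUltrametricDist C] [NormedAlgebra k C]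
  [Algebra.IsAlgebraic k C] [IsAlgClosed C] [hk : Fact (DiscNorm k)] [CharP (Ct C) p]
  [PerfectField (Ct C)]

variable {κ M K1 K Y₀ Y : Type*} [Field κ] [Field M] [Field K1] [Field K] [Field Y₀] [Field Y]
  [Algebra k κ] [Algebra κ C] [IsScalarTower k κ C]
  [Algebra κ M] [Algebra κ K] [Algebra κ Y₀] [Algebra κ Y]
  [Algebra C K1] [Algebra C K] [Algebra C Y] [Algebra K1 K] [Algebra K1 Y] [Algebra K Y]
  [Algebra M K] [Algebra M Y₀] [Algebra M Y] [Algebra Y₀ Y]
  [IsScalarTower C K1 K] [IsScalarTower C K1 Y] [IsScalarTower C K Y] [IsScalarTower K1 K Y]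
  [IsScalarTower κ C K] [IsScalarTower κ M K] [IsScalarTower κ C Y] [IsScalarTower κ Y₀ Y]
  [IsScalarTower M K Y] [IsScalarTower M Y₀ Y]
  [FiniteDimensional K1 K] [IsGalois K1 K] [FiniteDimensional K1 Y] [IsGalois K1 Y]
  [FiniteDimensional K Y] [IsGalois K Y]
  [Algebra (RatFunc C) K1] [IsScalarTower C (RatFunc C) K1]
  [FiniteDimensional (RatFunc C) K1] [Algebra.IsSeparable (RatFunc C) K1]
  [CE κ C M K] [CE κ C Y₀ Y] {S : SSK k C K1} (D : A2Data p S K) (PY : Spl S Y)

variable (hs : ∀ w : Valuation Y ℝ≥0, (∀ c : C, w (algebraMap C Y c) ≤ ‖c‖₊) →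
    SplitAt (w.comap (algebraMap M Y)) Y₀)
  (ρ : (K ≃ₐ[K1] K) →* (Y ≃ₐ[K1] Y))
  (hρ : ∀ a (f : K), ρ a (algebraMap K Y f) = algebraMap K Y (a f))
  (hcomm : ∀ a (τ : Y ≃ₐ[K] Y) f, ρ a (τ f) = τ (ρ a f))
  (hcop : (Module.finrank K Y).Coprime (Module.finrank K1 K))


/-- the idempotent over `ℚ_[p]` -/
theorem A2Data.isIdem : Rank_770.IsIdem (fun a : K ≃ₐ[K1] K => (D.c a : ℚ_[p])) := by
  intro a
  have h := D.c_idem a
  have h2 := congrArg (fun z : ℤ_[p] => (z : ℚ_[p])) h
  simpa using h2

theorem A2Data.cQ_ne : (fun a : K ≃ₐ[K1] K => (D.c a : ℚ_[p])) ≠ 0 := by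
  intro h
  apply D.c_ne
  funext a
  have h1 : (D.c a : ℚ_[p]) = 0 := congrFun h a
  rw [← PadicInt.coe_zero] at h1
  exact Subtype.coe_injective h1


end top

end Crest.Agent.R013.A2_398
end

-- ▼ part R013/CAsm6_588
section

/-!
# Row 13, part C, assembly 6 (helper588): from `YOut` (957) to `Concl` (940)

`K → KC → K1 → K'`; `S : SSK ℚ_[p] C K1`, `D : A2Data p S K'`, `M ⊆ K'` a form over `κ`,
`Z : YOut D.spl κ M D1 n`.
-/

set_option autoImplicit false
set_option linter.style.haveILetI false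
set_option linter.unusedSectionVars false

namespace Crest.Agent.R013.CAsm6_588

open scoped NNReal
open Module WithZero
open Crest.NumberTheoryR.Sect
open Crest.Agent.R013.RR7_948 Crest.Agent.R013.RR13_948 Crest.Agent.R013.RR18_948
open Crest.Agent.R013.RR11_948 Crest.Agent.R013.RR9_948
open Crest.Agent.R013.Cell_408 Crest.Agent.R013.EE809 Crest.Agent.R013.Red332
open Crest.Agent.R013.SSK_332 Crest.Agent.R013.Inh_770
open Crest.Agent.R013.TopE1_957 Crest.Agent.R013.TopE4_957
open Crest.Agent.R013.Desc_372 Crest.Agent.R013.CY_957 Crest.Agent.R013.A2_398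
open Crest.Agent.R013.Unr10_957 Crest.Agent.R013.Unr7_957
open Crest.Agent.R013.Small2_940 Crest.Agent.R013.Small4_940 Crest.Agent.R013.Good5_940
open Crest.Agent.R013.CAsm2_588 Crest.Agent.R013.CAsm3_588 Crest.Agent.R013.CAsm5_588
open Crest.Agent.R013.SD2_940 Crest.Agent.R013.TP_928
open Crest.Agent.R013.GR3_921 Crest.Agent.R013.Fin_928

universe u

section gal

variable {κ C Y₀ Y : Type*} [Field κ] [Field C] [Field Y₀] [Field Y] [Algebra κ C] [Algebra κ Y₀]
  [Algebra C Y] [Algebra Y₀ Y] [Algebra κ Y] [IsScalarTower κ C Y] [IsScalarTower κ Y₀ Y]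
  [CE κ C Y₀ Y] [Normal κ C]

/-- every automorphism over `Y₀` is the lift of an automorphism of the constants -/
theorem lift_res (g : Y ≃ₐ[Y₀] Y) : CE.lift κ C Y₀ Y (CE.res κ C Y₀ Y g) = g := by
  ext f
  have h := CE.ringHom_ext κ C Y₀ Y
    (φ := ((CE.lift κ C Y₀ Y (CE.res κ C Y₀ Y g) : Y ≃ₐ[Y₀] Y) : Y →+* Y))
    (ψ := ((g : Y ≃ₐ[Y₀] Y) : Y →+* Y)) (fun c => by
      change CE.lift κ C Y₀ Y (CE.res κ C Y₀ Y g) (algebraMap C Y c) = g (algebraMap C Y c)
      rw [CE.lift_algebraMap, CE.algebraMap_res]) (fun a => by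
      change CE.lift κ C Y₀ Y (CE.res κ C Y₀ Y g) (algebraMap Y₀ Y a) = g (algebraMap Y₀ Y a)
      rw [AlgEquiv.commutes, AlgEquiv.commutes])
  exact congrArg (fun φ : Y →+* Y => φ f) h

end gal

section main

variable {p : ℕ} [hpF : Fact p.Prime] {k : Type*} [Field k] [CharZero k] [Algebra ℚ_[p] k]
  [FiniteDimensional ℚ_[p] k]
  {K : Type*} [Field K] [Algebra k K]
  [Algebra (RatFunc k) K] [IsScalarTower k (RatFunc k) K] [FiniteDimensional (RatFunc k) K]
  {P : Valuation (AlgebraicClosure K) ℝ≥0} {x : K}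
  {C : Type u} [NormedField C] [IsUltrametricDist C] [NormedAlgebra ℚ_[p] C]
  [Algebra.IsAlgebraic ℚ_[p] C] [CharZero C] [IsAlgClosed C] [Algebra k C]
  [IsScalarTower ℚ_[p] k C] [hk : Fact (DiscNorm ℚ_[p])]
  {KC : Type*} [Field KC] [Algebra C KC] [Algebra K KC] [Algebra k KC]
  [IsScalarTower k C KC] [IsScalarTower k K KC] [CE k C K KC]
variable {κ M K1 K' : Type*} [Field κ] [Field M] [Field K1] [Field K']
  [Algebra ℚ_[p] κ] [Algebra κ C] [IsScalarTower ℚ_[p] κ C] [FiniteDimensional ℚ_[p] κ]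
  [Algebra κ M] [Algebra κ K'] [Algebra C K1] [Algebra C K'] [Algebra K1 K'] [Algebra M K']
  [IsScalarTower C K1 K'] [IsScalarTower κ C K'] [IsScalarTower κ M K']
  [FiniteDimensional K1 K'] [IsGalois K1 K']
  [Algebra (RatFunc C) K1] [IsScalarTower C (RatFunc C) K1]
  [FiniteDimensional (RatFunc C) K1] [Algebra.IsSeparable (RatFunc C) K1]
  [CE κ C M K'] {S : SSK ℚ_[p] C K1} (D : A2Data p S K')
  [Algebra KC K1] [IsScalarTower C KC K1] [FiniteDimensional KC K1]
  [Algebra K K'] [Algebra KC K'] [IsScalarTower K KC K'] [IsScalarTower KC K1 K']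
  {D1 : Set S.Dir} {n : ℕ} (Z : YOut D.spl κ M D1 n)

/-- **slopes**: the classes of order `p` of the cover have all slopes -/
def SlopesP (p : ℕ) [Fact p.Prime] {C Y : Type*} [NormedField C] [IsUltrametricDist C]
    [NormedAlgebra ℚ_[p] C] [Algebra.IsAlgebraic ℚ_[p] C] [Field Y] [Algebra C Y]
    [Algebra (RatFunc C) Y] [IsScalarTower C (RatFunc C) Y] [FiniteDimensional (RatFunc C) Y]
    [Algebra.IsSeparable (RatFunc C) Y] (S : SSK ℚ_[p] C Y) : Prop :=
  ∀ lam : S.Ed → ZMod p, bdry S (ZMod p) lam = 0 →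
    ∃ f : Y, f ≠ 0 ∧ (∃ x : Pl C Y →₀ ℤ, divf (k := C) f = p • x) ∧
      ∀ e, ((ord S (S.e0 e) f : ℤ) : ZMod p) = lam e

set_option maxHeartbeats 1000000 in
/-- **(P1)**: `YOut` ⟹ `Concl` -/
theorem concl_of_yOut (hU1 : UnrEv C KC K1)
    (hP : IsRationalPlace k K (P.comap (algebraMap K (AlgebraicClosure K))))
    (hx : IsUniformizerAt (P.comap (algebraMap K (AlgebraicClosure K))) x)
    (hcard : Nat.card {v : S.V // HasGen (Ct C) (kap (S.nm v)) 0} < Nat.card S.Ed)
    (φ' : K' →ₐ[K] AlgebraicClosure K) (Q' : Pl C K')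
    (hQ' : Q'.v.IsEquiv (P.comap (φ' : K' →+* AlgebraicClosure K)))
    (hfix : ∀ (g : K' ≃ₐ[M] K') (f : K'), Q'.v (g f) = Q'.v f)
    (x0 : M) (hx0 : algebraMap M K' x0 = algebraMap K K' x)
    (hSl : SlopesP p Z.PY.inh) (hn : 2 * finrank ℚ_[p] κ < n)
    {δ η : ℝ≥0} (hδ : 0 < δ) (hη : 0 < η) : Concl p k K P x δ η := by
  classical
  haveI : Normal κ C := normal_C p κ
  haveI : Algebra.IsAlgebraic k C := Algebra.IsAlgebraic.tower_top (K := ℚ_[p]) k
  haveI cp := TP14_928.charP_Ct (C := C) p
  letI ap : Algebra (ZMod p) (Ct C) := TP14_928.algCt (C := C) p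
  haveI := TP14_928.isAlgebraic_Ct (C := C) p
  haveI : IsAlgClosed (Ct C) := TP14_928.isAlgClosed_Ct
  -- the algebra structures on `Y`
  letI aKCY : Algebra KC Z.Y := ((algebraMap K1 Z.Y).comp (algebraMap KC K1)).toAlgebra
  haveI tKC1Y : IsScalarTower KC K1 Z.Y := IsScalarTower.of_algebraMap_eq fun _ => rfl
  haveI tKC'Y : IsScalarTower KC K' Z.Y := IsScalarTower.of_algebraMap_eq fun a => by
    rw [IsScalarTower.algebraMap_apply KC K1 Z.Y, IsScalarTower.algebraMap_apply K1 K' Z.Y,
      ← IsScalarTower.algebraMap_apply KC K1 K']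
  haveI tCKCY : IsScalarTower C KC Z.Y := IsScalarTower.of_algebraMap_eq fun a => by
    rw [IsScalarTower.algebraMap_apply KC K1 Z.Y, ← IsScalarTower.algebraMap_apply C KC K1,
      ← IsScalarTower.algebraMap_apply C K1 Z.Y]
  letI aKY : Algebra K Z.Y := ((algebraMap KC Z.Y).comp (algebraMap K KC)).toAlgebra
  haveI tKKCY : IsScalarTower K KC Z.Y := IsScalarTower.of_algebraMap_eq fun _ => rfl
  haveI tKK'Y : IsScalarTower K K' Z.Y := IsScalarTower.of_algebraMap_eq fun a => by
    rw [IsScalarTower.algebraMap_apply K KC Z.Y, IsScalarTower.algebraMap_apply KC K' Z.Y,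
      ← IsScalarTower.algebraMap_apply K KC K']
  letI akY : Algebra k Z.Y := ((algebraMap K Z.Y).comp (algebraMap k K)).toAlgebra
  haveI tkKY : IsScalarTower k K Z.Y := IsScalarTower.of_algebraMap_eq fun _ => rfl
  haveI tkCY : IsScalarTower k C Z.Y := IsScalarTower.of_algebraMap_eq fun a => by
    rw [IsScalarTower.algebraMap_apply k K Z.Y, IsScalarTower.algebraMap_apply K KC Z.Y,
      ← IsScalarTower.algebraMap_apply k K KC, IsScalarTower.algebraMap_apply k C KC,
      ← IsScalarTower.algebraMap_apply C KC Z.Y]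
  haveI fKCY : FiniteDimensional KC Z.Y := FiniteDimensional.trans KC K1 Z.Y
  -- `Y / KC` is unramified
  have hU' : UnrEv C K1 K' := D.unrEv
  have hUY : UnrEv C KC Z.Y := by
    have h1 : UnrEv C K1 Z.Y := UnrEv.trans (L := K') hU' Z.unr
    exact UnrEv.trans (L := K1) hU1 h1
  -- the embedding
  obtain ⟨φ, hφ⟩ := exists_extend_phi (Y := Z.Y) φ'
  obtain ⟨e, E0, hE0f, hE0, hPH, he⟩ := exists_PH (p := p) (k := k) (KC := KC) hUY φ
  haveI := hE0f
  haveI sepY : Algebra.IsSeparable (RatFunc C) Z.Y :=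
    Algebra.IsSeparable.trans (RatFunc C) K1 Z.Y
  obtain ⟨Q, hQ⟩ := exists_plY (p := p) hP hx hUY φ
  -- the context of `K'`
  letI aRK' : Algebra (RatFunc C) K' :=
    ((algebraMap K1 K').comp (algebraMap (RatFunc C) K1)).toAlgebra
  haveI tR1 : IsScalarTower (RatFunc C) K1 K' := IsScalarTower.of_algebraMap_eq fun _ => rfl
  haveI tCR' : IsScalarTower C (RatFunc C) K' := IsScalarTower.of_algebraMap_eq fun c => by
    rw [IsScalarTower.algebraMap_apply (RatFunc C) K1 K',
      ← IsScalarTower.algebraMap_apply C (RatFunc C) K1, ← IsScalarTower.algebraMap_apply C K1 K']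
  haveI fR' : FiniteDimensional (RatFunc C) K' := FiniteDimensional.trans (RatFunc C) K1 K'
  haveI sR' : Algebra.IsSeparable (RatFunc C) K' := Algebra.IsSeparable.trans (RatFunc C) K1 K'
  have hQQ' : ∀ z : K', Q.v (algebraMap K' Z.Y z) = Q'.v z := by
    refine v_algebraMap_of_ext hQ ?_ Z.unr
    have h1 : (P.comap (φ : Z.Y →+* AlgebraicClosure K)).comap (algebraMap K' Z.Y) =
        P.comap (φ' : K' →+* AlgebraicClosure K) := by
      ext z
      exact congrArg _ (congrArg P (hφ z))
    rw [h1]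
    exact hQ'
  have hQfix : ∀ (g : Z.Y ≃ₐ[Z.Y₀] Z.Y) (f : Z.Y), Q.v (g f) = Q.v f := by
    intro g f
    have h1 := Z.place_fix Q (CE.res κ C Z.Y₀ Z.Y g) (fun f => by
      rw [hQQ', hQQ', hfix]) f
    rw [lift_res] at h1
    exact h1
  have hle : ∀ a : Z.Y, Q.v a ≤ 1 ↔ P (φ a) ≤ 1 := fun a => hQ.le_one_iff_le_one (x := a)
  -- the action
  letI iE := mE Z.PY Z.cov
  letI iV := mV Z.PY Z.cov
  have hact : ActS Z.PY.inh ((resC C K1 Z.Y).comp Z.cov) :=
    { nmV := fun a w f => nm_mV Z.PY Z.cov a w f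
      nm0 := fun a e f => by
        rw [← Spl.em_gnV (S := Z.PY.inh), ← Spl.em_gnV (S := Z.PY.inh)]
        exact congrArg _ (em_e0_mE Z.PY Z.cov a e f)
      nm1 := fun a e f => by
        rw [← Spl.em_gnV (S := Z.PY.inh), ← Spl.em_gnV (S := Z.PY.inh)]
        exact congrArg _ (em_e1_mE Z.PY Z.cov a e f) }
  refine concl_of_cinj (S := Z.PY.inh) (κ := κ) (Y0 := Z.Y₀) (Y := Z.Y) (C := C)
    (A := K' ≃ₐ[K1] K') hP hx he hE0 hPH (x0 := algebraMap M Z.Y₀ x0) ?_ ?_ Z.lvl
    ((resC C K1 Z.Y).comp Z.cov) ?_ ?_ ?_ D.c D.c_idem ?_ hSl ?_ hδ hη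
  · rw [← IsScalarTower.algebraMap_apply M Z.Y₀ Z.Y, IsScalarTower.algebraMap_apply M K' Z.Y, hx0,
      ← IsScalarTower.algebraMap_apply K K' Z.Y]
    exact phM_K hUY φ x
  · intro g a ha
    rw [PY_apply, coe_phM] at ha ⊢
    rw [← hle] at ha ⊢
    rw [hQfix]
    exact ha
  · intro α g f
    have h1 := Z.gal_comm (Z.cov α) (CE.res κ C Z.Y₀ Z.Y g) f
    rw [lift_res] at h1
    exact h1
  · intro α w
    refine ⟨(actV Z.PY).toSMul.smul (Z.cov α)⁻¹ w, fun f => ?_⟩
    have h1 := nm_smul Z.PY (Z.cov α)⁻¹ w (Z.cov α f)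
    have h2 : (Z.cov α)⁻¹ (Z.cov α f) = f := (Z.cov α).symm_apply_apply f
    rw [h2] at h1
    exact h1.symm
  · intro α e f hf
    exact od_e0_mE Z.PY Z.cov α e f hf
  · refine D.cinjS Z.PY.inh ((resC C K1 Z.Y).comp Z.cov) (fun a f => Z.cov_K a f)
      (algebraMap (ZMod p) (Ct C)) fun W => ?_
    refine ⟨D.spl.vK D.spl.ffL (vY D.spl Z.PY W), D.spl.inh.nm (vY D.spl Z.PY W),
      D.spl.vK_comap D.spl.ffL _, comap_vY D.spl Z.PY W, (Z.kap W).2, fun a ha => ?_⟩
    exact (Z.fix_iff a W).2 ha
  · -- the rank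
    have hmain := Z.rank (F := ℚ_[p]) D.isIdem D.cQ_ne
      (fun v => HasGen (Ct C) (kap (S.nm v)) 0) (fun w => by
        rcases D.dich w with h | h
        · exact Or.inl ⟨h.1, fun a ha => h.2 a ha⟩
        · right
          let B : Subgroup (K' ≃ₐ[K1] K') :=
            { carrier := {a | Fix a (D.spl.inh.nm w)}
              mul_mem' := fun {a b} ha hb f => (ha (b f)).trans (hb f)
              one_mem' := fun f => rfl
              inv_mem' := fun {a} ha f => by
                have h1 := ha (a⁻¹ f)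
                have h2 : a (a⁻¹ f) = f := AlgEquiv.apply_symm_apply a f
                rw [h2] at h1
                exact h1.symm }
          have hB : ∀ b ∈ B, Fix b (D.spl.inh.nm w) := fun b hb => hb
          refine ⟨B, Fintype.ofFinite B, hB, fun a => ?_⟩
          letI : Fintype B := Fintype.ofFinite B
          have h3 := h B (fun σ => Iff.rfl) a
          have h4 := congrArg (fun z : ℤ_[p] => (z : ℚ_[p])) h3
          simpa using h4) (bdry Z.PY.inh ℚ_[p]) (fun a f => bdry_act hact a f)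
    have h6 := Nat.mul_le_mul_left n (Nat.succ_le_of_lt hcard)
    rw [Nat.succ_eq_add_one, mul_add, mul_one] at h6
    have h7 : n ≤ finrank ℚ_[p] (Rank_770.eker (fun a : K' ≃ₐ[K1] K' => (D.c a : ℚ_[p]))
        (bdry Z.PY.inh ℚ_[p])) := by
      have h8 := h6.trans hmain
      omega
    exact lt_of_lt_of_le hn h7

end main

end Crest.Agent.R013.CAsm6_588
end

-- ▼ part R013/CY11_957
section

/-!
# R013 / CY11 (helper957): `YOut` from a completely split cover `W / U` at the level `κ`
-/

set_option autoImplicit false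
set_option linter.unusedSectionVars false
set_option linter.style.haveILetI false

namespace Crest.Agent.R013.CY_957

open scoped NNReal
open Module WithZero
open Crest.NumberTheoryR.Sect
open Crest.Agent.R013.RR7_948 Crest.Agent.R013.Cell_408 Crest.Agent.R013.EE809
open Crest.Agent.R013.SSK_332 Crest.Agent.R013.Inh_770 Crest.Agent.R013.Red332
open Crest.Agent.R013.TopE1_957 Crest.Agent.R013.TopE4_957 Crest.Agent.R013.TopE6_957
open Crest.Agent.R013.TopE7_957 Crest.Agent.R013.TopE8_957 Crest.Agent.R013.Unr10_957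
open Crest.Agent.R013.Desc_372 Crest.Agent.R013.DEm_719 Crest.Agent.R013.DEm_719.GalAct
open Crest.Agent.R013.Kumv2_275 Crest.Agent.R013.Rank_770

/-- a place restricts to a place of a subfield over which the field is algebraic -/
theorem isPlace_comap {κ C M Y : Type*} [Field κ] [Field C] [Field M] [Field Y] [Algebra κ C]
    [Algebra κ M] [Algebra κ Y] [Algebra C Y] [Algebra M Y] [IsScalarTower κ C Y]
    [IsScalarTower κ M Y] [Algebra.IsAlgebraic M Y] (v : Valuation Y ℝ≥0) (hv : IsPlace C v) :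
    IsPlace κ (v.comap (algebraMap M Y)) := by
  have hv' : IsPlace κ v := by
    refine ⟨fun c hc => ?_, hv.2⟩
    rw [IsScalarTower.algebraMap_apply κ C Y]
    exact hv.1 _ ((_root_.map_ne_zero _).2 hc)
  refine ⟨fun c hc => ?_, ?_⟩
  · rw [Valuation.comap_apply, ← IsScalarTower.algebraMap_apply κ M Y]
    exact hv'.1 c hc
  · by_contra hcon
    push Not at hcon
    obtain ⟨a, ha0, ha1⟩ := hv.2
    refine ha1 (Unr9_957.trivial_of_trivial (F := M) v (fun x hx => ?_) a ?_)
    · have h1 := hcon x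
      rw [Valuation.comap_apply] at h1
      exact h1 ((_root_.map_ne_zero v).2 ((_root_.map_ne_zero _).2 hx))
    · rintro rfl
      exact ha0 (map_zero _)

/-- base change of a completely split cover at the level `κ` -/
theorem splitCov_base {κ U W M Y₀ : Type*} [NormedField κ] [Field U] [Algebra κ U] [Field W]
    [Algebra U W] [Field M] [Field Y₀] [Algebra κ M] [Algebra U M] [IsScalarTower κ U M]
    [Algebra W Y₀] [Algebra M Y₀] [Algebra U Y₀] [IsScalarTower U W Y₀] [IsScalarTower U M Y₀]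
    [Algebra.IsAlgebraic U M]
    (hL : IntermediateField.adjoin M (Set.range (algebraMap W Y₀)) = ⊤) (hW : SplitCov κ U W) :
    SplitCov κ M Y₀ where
  norm v hv := splitAt_normC (k := κ) (C := κ) hL hW (fun _ => le_rfl) v hv
  place v hv := splitAt_placeC (k := κ) (C := κ) hL hW v hv

universe w

variable {k C : Type*} [NontriviallyNormedField k] [CompleteSpace k] [IsUltrametricDist k]
  [NormedField C] [IsUltrametricDist C] [NormedAlgebra k C] [Algebra.IsAlgebraic k C]
  [IsAlgClosed C] [hk : Fact (DiscNorm k)] [CharZero C]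
variable {κ U M K1 W : Type*} {K Y₀ Y : Type w} [NormedField κ] [Field U] [Field M] [Field K1]
  [Field K] [Field W] [Field Y₀] [Field Y]
  [Algebra k κ] [Algebra κ C] [IsScalarTower k κ C]
  [Algebra κ U] [Algebra κ M] [Algebra κ K1] [Algebra κ K] [Algebra κ Y₀] [Algebra κ Y]
  [Algebra C K1] [Algebra C K] [Algebra C Y] [Algebra K1 K] [Algebra K1 Y] [Algebra K Y]
  [Algebra U M] [Algebra U K1] [Algebra U K] [Algebra U W] [Algebra U Y₀] [Algebra U Y]
  [Algebra W Y₀] [Algebra W Y]
  [Algebra M K] [Algebra M Y₀] [Algebra M Y] [Algebra Y₀ Y]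
  [IsScalarTower C K1 K] [IsScalarTower C K1 Y] [IsScalarTower C K Y] [IsScalarTower K1 K Y]
  [IsScalarTower κ C K1] [IsScalarTower κ U K1]
  [IsScalarTower κ C K] [IsScalarTower κ M K] [IsScalarTower κ C Y] [IsScalarTower κ Y₀ Y]
  [IsScalarTower κ U M] [IsScalarTower κ U K] [IsScalarTower κ M Y₀]
  [IsScalarTower M K Y] [IsScalarTower M Y₀ Y]
  [IsScalarTower U M K] [IsScalarTower U K1 K] [IsScalarTower U M Y₀] [IsScalarTower U W Y₀]
  [IsScalarTower U W Y] [IsScalarTower U K1 Y] [IsScalarTower U K Y] [IsScalarTower U Y₀ Y]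
  [IsScalarTower W Y₀ Y]
  [FiniteDimensional K1 K] [IsGalois K1 K] [FiniteDimensional U M] [IsGalois U M]
  [FiniteDimensional U W] [IsGalois U W] [IsCyclic (W ≃ₐ[U] W)]
  [Algebra (RatFunc C) K1] [IsScalarTower C (RatFunc C) K1]
  [FiniteDimensional (RatFunc C) K1] [Algebra.IsSeparable (RatFunc C) K1]
  [CE κ C U K1] [CE κ C M K] {S : SSK k C K1} (P : Spl S K)

/-- **`YOut` from the composita** -/
theorem yOut_of (hκ : ∀ c : κ, ‖algebraMap κ C c‖ = ‖c‖)
    (hW : SplitCov κ U W) {D1 : Set S.Dir}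
    (H : Lvl P.inh κ M (⊥ : IntermediateField κ C) {y | (dI P y).1 ∈ D1})
    (v₀ : Valuation M ℝ≥0) (hv₀ : IsRationalPlace κ M v₀)
    (hcop : (finrank U W).Coprime (finrank K1 K))
    (hY : IntermediateField.adjoin K (Set.range (algebraMap W Y)) = ⊤)
    (hY₀ : IntermediateField.adjoin M (Set.range (algebraMap W Y₀)) = ⊤) :
    Nonempty (YOut P κ M D1 (finrank U W)) := by
  -- characteristic zero
  have : CharZero κ := ⟨fun a b hab => Nat.cast_injective (R := C) (by
    simpa using congrArg (algebraMap κ C) hab)⟩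
  have : CharZero U := charZero_of_injective_algebraMap (algebraMap κ U).injective
  have : CharZero M := charZero_of_injective_algebraMap (algebraMap κ M).injective
  have : CharZero K1 := charZero_of_injective_algebraMap (algebraMap C K1).injective
  have hsepC : Algebra.IsAlgebraic κ C := CE.alg U K1
  -- level `κ`
  have hSM : SplitCov κ M Y₀ := splitCov_base (U := U) (W := W) hY₀ hW
  have fM : FiniteDimensional M Y₀ := finiteDimensional_compositum (U := U) (W := W) hY₀
  have gM : IsGalois M Y₀ := isGalois_compositum (U := U) (W := W) hY₀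
  have hconst : algebraicClosure κ Y₀ = ⊥ := algClosure_eq_bot hv₀ (hSM.place v₀ hv₀.1)
  have hce : CE κ C Y₀ Y :=
    ce_top (κ := κ) (C := C) (M := M) (K := K) (W := W) (Y₀ := Y₀) (Y := Y) hconst hY
  -- degrees
  have hdeg1 : finrank K1 K = finrank U M := finrank_level κ C
  have hdeg0 : finrank M Y₀ = finrank U W := finrank_compositum hY₀ (by rw [← hdeg1]; exact hcop)
  have hdeg : finrank K Y = finrank U W := by
    rw [← hdeg0]
    exact finrank_level κ C
  -- Galois
  have fK : FiniteDimensional K Y := finiteDimensional_compositum (U := U) (W := W) hY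
  have gK : IsGalois K Y := isGalois_compositum (U := U) (W := W) hY
  have cK : IsCyclic (Y ≃ₐ[K] Y) := isCyclic_compositum (U := U) (W := W) hY
  obtain ⟨fK1, gK1⟩ := isGalois_top (U := U) (F := K1) (A := K) (W := W) hY
  obtain ⟨fU, gU⟩ := isGalois_top (U := U) (F := U) (A := M) (W := W) hY₀
  -- splitting
  have halgMK : Algebra.IsAlgebraic M K := CE.isAlgebraic κ C M K
  have halgUK : Algebra.IsAlgebraic U K := Algebra.IsAlgebraic.trans U M K
  have hC : ∀ c : κ, ‖algebraMap κ C c‖ ≤ ‖c‖ := fun c => (hκ c).le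
  have hspN : ∀ v : Valuation K ℝ≥0, (∀ c : C, v (algebraMap C K c) ≤ ‖c‖₊) → SplitAt v Y :=
    fun v hv => splitAt_normC hY hW hC v hv
  have hspP : ∀ v : Valuation K ℝ≥0, IsPlace C v → SplitAt v Y :=
    fun v hv => splitAt_placeC hY hW v hv
  have halgMY : Algebra.IsAlgebraic M Y := by
    have : Algebra.IsAlgebraic Y₀ Y := CE.isAlgebraic κ C Y₀ Y
    exact Algebra.IsAlgebraic.trans M Y₀ Y
  have tκMY : IsScalarTower κ M Y := IsScalarTower.of_algebraMap_eq fun c => by
    rw [IsScalarTower.algebraMap_apply κ Y₀ Y, IsScalarTower.algebraMap_apply κ M Y₀,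
      ← IsScalarTower.algebraMap_apply M Y₀ Y]
  have hs : ∀ v : Valuation Y ℝ≥0, (∀ c : C, v (algebraMap C Y c) ≤ ‖c‖₊) →
      SplitAt (v.comap (algebraMap M Y)) Y₀ := fun v hv => hSM.norm _ fun c => by
    rw [Valuation.comap_apply, ← IsScalarTower.algebraMap_apply κ M Y,
      IsScalarTower.algebraMap_apply κ C Y]
    exact (hv _).trans (hC c)
  have hp : ∀ Q : Pl C Y, SplitAt ((plV Q).comap (algebraMap M Y)) Y₀ := fun Q =>
    hSM.place _ (isPlace_comap (C := C) (plV Q) (isPlace_plV Q))
  -- the semistable structure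
  obtain ⟨Q⟩ := spl_of_top P.inh (L := Y) hY hW hC
  let PY : Spl S Y := splTrans P Q
  -- the context of `Y`
  letI aRY : Algebra (RatFunc C) Y :=
    ((algebraMap K1 Y).comp (algebraMap (RatFunc C) K1)).toAlgebra
  haveI tR : IsScalarTower (RatFunc C) K1 Y := IsScalarTower.of_algebraMap_eq fun _ => rfl
  haveI tCR : IsScalarTower C (RatFunc C) Y := IsScalarTower.of_algebraMap_eq fun c => by
    rw [IsScalarTower.algebraMap_apply (RatFunc C) K1 Y,
      ← IsScalarTower.algebraMap_apply C (RatFunc C) K1, ← IsScalarTower.algebraMap_apply C K1 Y]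
  haveI fR : FiniteDimensional (RatFunc C) Y := FiniteDimensional.trans (RatFunc C) K1 Y
  -- the covering group
  have hcK := cov_K (U := U) (K1 := K1) hY hdeg
  have hcc := cov_comm (U := U) (K1 := K1) hY hdeg
  have hcop' : (finrank K Y).Coprime (finrank K1 K) := by rw [hdeg]; exact hcop
  exact ⟨{
    Y := Y
    Y₀ := Y₀
    finrank_K := hdeg
    cyc := cK
    unr := unrEv_C (C := C) hY hW
    splitN := hspN
    splitP := hspP
    const := hconst
    cov := cov (U := U) (K1 := K1) hY hdeg
    cov_K := hcK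
    cov_comm := hcc
    res_Y₀ := fun σ f => exists_res U Y₀ σ f
    gal_comm := fun σ s f => gal_comm U σ s f
    PY := PY
    lvl := lvl_top P PY hs H
    norm_fix := fun v hv s hK F => norm_lift (M := M) (K := K) v (hs v fun c => (hv c).le) s
      (fun c => by
        have h1 : ‖(s.restrictScalars k) c‖ = ‖c‖ := norm_mapE _ c
        rw [hv, hv]
        exact NNReal.eq h1) hK F
    place_fix := fun Q s hK F => place_lift (M := M) (K := K) Q (hp Q) s hK F
    kap := kapMap_top κ P PY hs
    fix_iff := fix_iff κ P PY hs _ hcK hcc hcop'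
    rank := fun {F} _ _ _ {e} he h0 Q hQ d hd => by
      have h1 := rank_top κ P PY hs _ hcK hcc hcop' he h0 Q hQ d hd
      rw [hdeg] at h1
      exact h1 }⟩

end Crest.Agent.R013.CY_957
end

-- ▼ part R013/NB8_102
section

/-!
# Row 13, C-NB, part 8: from a loop to cyclic topological covers of every degree
-/

set_option autoImplicit false
set_option linter.unusedSectionVars false
set_option linter.style.haveILetI false

noncomputable section

namespace Crest.Agent.R013.NB_102

open Module Filter Topology Polynomial TensorProduct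
open Crest.Agent.R013.Gl946 Crest.Agent.R013.A2a_275 Crest.Agent.R013.CutCov_92
open Crest.Agent.R013.TopE1_957
open scoped NNReal

universe u

section Build

variable {k : Type u} [NontriviallyNormedField k] [IsUltrametricDist k] [CompleteSpace k]
  {U : Type u} [Field U] [CharZero U] [Algebra k U]

theorem aeval_injective {yU : U} {w0 : Valuation U ℝ≥0}
    (hg : ∀ (f : k[X]) (i : ℕ), ‖f.coeff i‖ ≤ w0 (aeval yU f)) :
    Function.Injective (aeval yU : k[X] →ₐ[k] U) := by
  rw [injective_iff_map_eq_zero]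
  intro f hf
  ext i
  have := hg f i
  rw [hf, map_zero, NNReal.coe_zero] at this
  rw [coeff_zero, ← norm_le_zero_iff]
  exact this

/-- **The edge of a loop**: everything that the cut cover needs. -/
theorem exists_edge {π : k} (hπ : IsUnif π) (yU : U) (w0 : Valuation U ℝ≥0)
    (hL : LoopAt k yU w0) (F : Type u) [Field F] [Algebra F U] [FiniteDimensional F U]
    (iF : k[X] →+* F) (hiF : ∀ f, algebraMap F U (iF f) = aeval yU f)
    (hgen : ∀ x : F, ∃ f g : k[X], g ≠ 0 ∧ x = iF f / iF g) :
    ∃ (E : Type u) (_ : NormedField E) (_ : NormedAlgebra k E) (_ : IsUltrametricDist E)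
      (_ : CompleteSpace E) (y : E) (hG : IsGauss k y) (hd : DenseRat k y) (V : Type u)
      (_ : CommRing V) (_ : Algebra E V) (_ : IsReduced V) (_ : Nontrivial V)
      (X : Edge (gaussDatum hG hπ hd) V (finrank F U)) (j : U →+* V),
      (∀ v, v ∈ X.L ↔ ∃ u, j u = v) ∧
      (∀ c : k, j (algebraMap k U c) = algebraMap E V (algebraMap k E c)) ∧
      j yU = algebraMap E V y ∧ (∀ z ∈ (gaussDatum hG hπ hd).F0, algebraMap E V z ∈ X.L) ∧
      X.e ≠ 0 ∧ X.NonBridge := by
  classical
  obtain ⟨E, i1, i2, i3, i4, y, hG, hd⟩ := Good2_940.exists_circle k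
  have hinj : Function.Injective iF := by
    intro a b hab
    have := congrArg (algebraMap F U) hab
    rw [hiF, hiF] at this
    exact aeval_injective hL.gauss this
  -- `F → E`
  have hgi : Function.Injective (aeval y : k[X] →ₐ[k] E) := hG.injective
  let _ : Algebra k[X] F := iF.toAlgebra
  have hfs : FaithfulSMul k[X] F := (faithfulSMul_iff_algebraMap_injective k[X] F).2 hinj
  have hfr : IsFractionRing k[X] F := by
    refine IsFractionRing.of_field k[X] F ?_
    intro z
    obtain ⟨f, g, hg, e⟩ := hgen z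
    exact ⟨f, g, e⟩
  let φ : F →+* E := IsFractionRing.lift (A := k[X]) (K := F) (g := (aeval y : k[X] →ₐ[k] E).toRingHom) hgi
  have hφ : ∀ f : k[X], φ (iF f) = aeval y f := fun f =>
    IsFractionRing.lift_algebraMap (A := k[X]) (K := F) hgi f
  let _ : Algebra F E := φ.toAlgebra
  have hFE : ∀ x : F, algebraMap F E x = φ x := fun x => rfl
  have hrange : ∀ z : E, z ∈ KY hG ↔ ∃ x : F, algebraMap F E x = z := by
    intro z
    constructor
    · rintro ⟨f, g, hg, rfl⟩
      exact ⟨iF f / iF g, by rw [hFE, map_div₀, hφ, hφ]⟩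
    · rintro ⟨x, rfl⟩
      obtain ⟨f, g, hg, rfl⟩ := hgen x
      exact ⟨f, g, hg, by rw [hFE, map_div₀, hφ, hφ]⟩
  let nn : NontriviallyNormedField E :=
    { i1 with
      non_trivial := ⟨algebraMap k E π⁻¹, by
        rw [norm_algebraMap', norm_inv]
        exact (one_lt_inv₀ hπ.pos).2 hπ.lt_one⟩ }
  let V := E ⊗[F] U
  have hcF : CharZero F := (algebraMap F U).charZero
  have : Algebra.IsSeparable F U := inferInstance
  have : Algebra.FormallyUnramified F U := Algebra.FormallyUnramified.of_isSeparable F U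
  have : Algebra.FormallyUnramified E V := inferInstance
  have : Module.Finite E V := inferInstance
  have hred : IsReduced V := Algebra.FormallyUnramified.isReduced_of_field E V
  have hnt : Nontrivial V := inferInstance
  let j : U →+* V := (Algebra.TensorProduct.includeRight : U →ₐ[F] E ⊗[F] U).toRingHom
  have hju : ∀ u, j u = 1 ⊗ₜ[F] u := fun u => rfl
  let b0 : Basis (Fin (finrank F U)) F U := finBasis F U
  let b : Basis (Fin (finrank F U)) E V := Algebra.TensorProduct.basis E b0
  have hb : ∀ i, b i = 1 ⊗ₜ b0 i := fun i => Algebra.TensorProduct.basis_apply b0 i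
  let D := gaussDatum hG hπ hd
  have hjF : ∀ x : F, j (algebraMap F U x) = algebraMap E V (algebraMap F E x) := by
    intro x
    rw [hju, Algebra.TensorProduct.algebraMap_apply, Algebra.algebraMap_self, RingHom.id_apply,
      Algebra.algebraMap_eq_smul_one, Algebra.algebraMap_eq_smul_one, TensorProduct.tmul_smul,
      TensorProduct.smul_tmul']
  have hL' : ∀ v, v ∈ j.range ↔ v ∈ cs b D.F0.toSubring := by
    intro v
    constructor
    · rintro ⟨u, rfl⟩ i
      rw [hju]
      have : b.repr (1 ⊗ₜ[F] u) i = algebraMap F E (b0.repr u i) := by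
        rw [Algebra.TensorProduct.basis_repr_tmul, Finsupp.smul_apply, Finsupp.mapRange_apply,
          one_smul]
      rw [this]
      exact (hrange _).2 ⟨_, rfl⟩
    · intro hv
      have hex : ∀ i, ∃ x : F, algebraMap F E x = b.repr v i := fun i => (hrange _).1 (hv i)
      choose x hx using hex
      refine ⟨∑ i, x i • b0 i, ?_⟩
      conv_rhs => rw [← b.sum_repr v]
      rw [map_sum]
      refine Finset.sum_congr rfl fun i _ => ?_
      rw [← hx i, hb i, Algebra.smul_def, map_mul, hjF, Algebra.smul_def, hju]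
  have hk : ∀ c : k, j (algebraMap k U c) = algebraMap E V (algebraMap k E c) := by
    intro c
    have e1 : algebraMap k U c = algebraMap F U (iF (C c)) := by rw [hiF, aeval_C]
    rw [e1, hjF, hFE, hφ, aeval_C]
  have hy : j yU = algebraMap E V y := by
    have e1 : yU = algebraMap F U (iF X) := by rw [hiF, aeval_X]
    conv_lhs => rw [e1]
    rw [hjF, hFE, hφ, aeval_X]
  let X0 : Dat E V U (Fin (finrank F U)) := ⟨b, D.F0, j, hL'⟩
  have hF : ∀ z : E, z ∈ X0.F0 ↔ z ∈ KY hG := fun z => Iff.rfl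
  have hden := dense_F0 hd hG X0.F0 hF
  have hGT : GT X0 w0 := by
    refine gt_of_poly hG hF hk hy fun f => ?_
    refine le_antisymm ?_ ?_
    · exact hL.nk.poly_le yU hL.y1 f (norm_nonneg _) (hG.coeff_le f)
    · rcases eq_or_ne f 0 with rfl | hf
      · rw [map_zero, norm_zero]; exact NNReal.coe_nonneg _
      · obtain ⟨m, hm, -⟩ := hG.exists_index hf
        rw [← hm]
        exact hL.gauss f m
  obtain ⟨e, hee, he0, -, hev, -⟩ := exists_atom (X := X0) hden hGT
  let X1 : Edge D V (finrank F U) := ⟨b, j.range, hL', e, hee⟩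
  have hjX : ∀ v, v ∈ X1.L ↔ ∃ u, j u = v := fun v => Iff.rfl
  refine ⟨E, i1, i2, i3, i4, y, hG, hd, V, inferInstance, inferInstance, hred, hnt, X1, j, hjX, hk,
    hy, ?_, he0, ?_⟩
  · intro z hz
    obtain ⟨x, hx⟩ := (hrange z).1 hz
    exact ⟨algebraMap F U x, by rw [hjF, hx]⟩
  · obtain ⟨v1, v2, ⟨α, hα⟩, ⟨β, hβ⟩, ⟨γ, hγ⟩⟩ := hL.loop
    refine nonBridge_of_loop (D := D) hG hπ hd (fun z => Iff.rfl) (fun z hz => hz) (fun z hz => hz)
      X1 j hjX hk hy (w0 := w0) hGT hev
      (fun t => (α t).v) 0 1 (NS.continuous_eval α.continuous) (fun t => (hα t).1)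
      (by rw [α.source]; rfl) (fun t => (hα t).2)
      (fun t => (β t).v) 0 1 (NS.continuous_eval β.continuous) (fun t => (hβ t).1)
      (by rw [β.source]; rfl) (fun t ht => (hβ t).2 ht) one_ne_zero
      (fun t => (γ t).v) 0 1 (NS.continuous_eval γ.continuous) (fun t => (hγ t).1)
      (by rw [γ.source, α.target]) (by rw [γ.target, β.target]) (fun t => (hγ t).2)

/-- **CYCLIC TOPOLOGICAL COVERS OF EVERY DEGREE FROM A LOOP.** -/
theorem exists_cyclic_cover {π : k} (hπ : IsUnif π) (yU : U) (w0 : Valuation U ℝ≥0)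
    (hL : LoopAt k yU w0) (F : Type u) [Field F] [Algebra F U] [FiniteDimensional F U]
    (iF : k[X] →+* F) (hiF : ∀ f, algebraMap F U (iF f) = aeval yU f)
    (hgen : ∀ x : F, ∃ f g : k[X], g ≠ 0 ∧ x = iF f / iF g) (n : ℕ) [NeZero n] :
    ∃ (W : Type u) (_ : Field W) (_ : Algebra U W), FiniteDimensional U W ∧ finrank U W = n ∧
      IsGalois U W ∧ (∃ σ : W ≃ₐ[U] W, orderOf σ = n ∧ Subgroup.zpowers σ = ⊤) ∧
      (∀ v : Valuation U ℝ≥0, (∀ c : k, v (algebraMap k U c) ≤ ‖c‖₊) → SplitAt v W) ∧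
      (∀ v : Valuation U ℝ≥0, (∀ c : k, c ≠ 0 → v (algebraMap k U c) = 1) →
        (v yU ≤ 1 → ∃ P : k[X], P ≠ 0 ∧ v (aeval yU P) < 1) → SplitAt v W) := by
  obtain ⟨E, i1, i2, i3, i4, y, hG, hd, V, i5, i6, i7, i8, X, j, hj, hk, hy, hF0, he0, hNB⟩ :=
    exists_edge hπ yU w0 hL F iF hiF hgen
  obtain ⟨W, iW, aW, ⟨C⟩⟩ := exists_cutCover X j hj hF0 n hNB he0
  have hj' : ∀ v, v ∈ X.L → ∃ u, j u = v := fun v hv => (hj v).1 hv
  refine ⟨W, iW, aW, C.finiteDimensional hj', C.finrank_eq hj', C.isGalois hj',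
    ⟨C.σ, C.orderOf_σ, C.zpowers_eq_top hj'⟩, fun v hv => ?_, fun v hv hP => ?_⟩
  · exact TopE3_957.splitAt_norm hG hπ hd (fun z => Iff.rfl) (fun z hz => hz) (fun z hz => hz) C hk
      hy hF0 hj' v hv
  · exact TopE3_957.splitAt_place hG hπ hd (fun z => Iff.rfl) (fun z hz => hz) (fun z hz => hz) C hk
      hy hF0 hj' v hv hP

end Build

end Crest.Agent.R013.NB_102
end
end

-- ▼ part R013/NB9_102
section

/-!
# Row 13, C-NB, part 9: cyclic topological covers of a function field with a loop
-/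

set_option autoImplicit false
set_option linter.unusedSectionVars false
set_option linter.style.haveILetI false

noncomputable section

namespace Crest.Agent.R013.NB_102

open Module Filter Topology Polynomial
open Crest.Agent.R013.Gl946 Crest.Agent.R013.TopE1_957 Crest.Agent.R013.RR20_948
open Crest.NumberTheoryR.Sect
open scoped NNReal

universe u

theorem ratHom_poly {k K : Type*} [Field k] [Field K] [Algebra k K] (y : K)
    (hy : Transcendental k y) (f : k[X]) :
    ratHom y hy (algebraMap k[X] (RatFunc k) f) = aeval y f := by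
  have h : (ratHom y hy).comp (IsScalarTower.toAlgHom k k[X] (RatFunc k)) =
      (aeval y : k[X] →ₐ[k] K) := by
    apply Polynomial.algHom_ext
    change ratHom y hy (algebraMap k[X] (RatFunc k) X) = aeval y X
    rw [RatFunc.algebraMap_X, ratHom_X, aeval_X]
  exact congrArg (fun φ : k[X] →ₐ[k] K => φ f) h

section

variable {k : Type u} [NontriviallyNormedField k] [IsUltrametricDist k] [CompleteSpace k]
  {U : Type u} [Field U] [CharZero U] [Algebra k U]

theorem transcendental_of_gauss {y : U} {w0 : Valuation U ℝ≥0}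
    (hg : ∀ (f : k[X]) (i : ℕ), ‖f.coeff i‖ ≤ w0 (aeval y f)) : Transcendental k y :=
  transcendental_iff_injective.2 (aeval_injective hg)

/-- A place with `v y ≤ 1` has a residue polynomial. -/
theorem exists_poly_lt_one {k U : Type*} [Field k] [Field U] [Algebra k U] (y : U)
    (hy : Transcendental k y)
    (hfin : @FiniteDimensional (RatFunc k) U _ _ (ratAlg y hy).toModule)
    (v : Valuation U ℝ≥0) (hv : IsPlace k v) (h1 : v y ≤ 1) :
    ∃ P : k[X], P ≠ 0 ∧ v (aeval y P) < 1 := by
  letI := ratAlg y hy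
  have hfin' : FiniteDimensional (RatFunc k) U := hfin
  obtain ⟨f, hf0, hf1⟩ := exists_lt_one (F := RatFunc k) v hv.2
  have hle : ∀ P : k[X], v (aeval y P) ≤ 1 := by
    intro P
    rw [aeval_eq_sum_range]
    refine Valuation.map_sum_le v fun i _ => ?_
    rw [Algebra.smul_def, map_mul, map_pow]
    have h2 : v (algebraMap k U (P.coeff i)) ≤ 1 := by
      rcases eq_or_ne (P.coeff i) 0 with h | h
      · rw [h, map_zero, map_zero]; exact zero_le_one
      · exact (hv.1 _ h).le
    exact mul_le_one' h2 (pow_le_one₀ zero_le h1)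
  refine ⟨f.num, RatFunc.num_ne_zero hf0, ?_⟩
  have e1 : algebraMap (RatFunc k) U f * aeval y f.denom = aeval y f.num := by
    rw [← ratHom_poly y hy, ← ratHom_poly y hy]
    change ratHom y hy f * _ = _
    rw [← map_mul]
    congr 1
    have h3 := RatFunc.num_div_denom f
    rw [div_eq_iff (RatFunc.algebraMap_ne_zero f.denom_ne_zero)] at h3
    exact h3.symm
  rw [← e1, map_mul]
  calc v (algebraMap (RatFunc k) U f) * v (aeval y f.denom)
      ≤ v (algebraMap (RatFunc k) U f) * 1 := mul_le_mul_right (hle _) _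
    _ < 1 := by rw [mul_one]; exact hf1

/-- **CYCLIC TOPOLOGICAL COVERS.**  A function field `U/k` with a loop of norms through the Gauss
norm of `k(y)` has, for every `n ≥ 1`, a cyclic extension of degree `n` which is completely split at
all norms and all places. -/
theorem cover_of_loop [Algebra (RatFunc k) U] [IsScalarTower k (RatFunc k) U]
    [FiniteDimensional (RatFunc k) U] {π : k} (hπ : IsUnif π) (y : U) (w0 : Valuation U ℝ≥0)
    (hL : LoopAt k y w0) (n : ℕ) [NeZero n] :
    ∃ (W : Type u) (_ : Field W) (_ : Algebra U W), FiniteDimensional U W ∧ finrank U W = n ∧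
      IsGalois U W ∧ (∃ σ : W ≃ₐ[U] W, orderOf σ = n ∧ Subgroup.zpowers σ = ⊤) ∧
      (∀ v : Valuation U ℝ≥0, (∀ c : k, v (algebraMap k U c) ≤ ‖c‖₊) → SplitAt v W) ∧
      (∀ v : Valuation U ℝ≥0, IsPlace k v → SplitAt v W) := by
  have hy : Transcendental k y := transcendental_of_gauss hL.gauss
  have hfin : @FiniteDimensional (RatFunc k) U _ _ (ratAlg y hy).toModule := ratAlg_finite y hy
  obtain ⟨W, i1, i2, h1, h2, h3, h4, h5, h6⟩ :=
    @exists_cyclic_cover k _ _ _ U _ _ _ π hπ y w0 hL (RatFunc k) _ (ratAlg y hy) hfin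
      (algebraMap k[X] (RatFunc k)) (fun f => ratHom_poly y hy f)
      (fun x => ⟨x.num, x.denom, x.denom_ne_zero, (RatFunc.num_div_denom x).symm⟩) n _
  refine ⟨W, i1, i2, h1, h2, h3, h4, h5, fun v hv => h6 v hv.1 fun hle => ?_⟩
  exact exists_poly_lt_one y hy hfin v hv hle

end

end Crest.Agent.R013.NB_102
end
end

-- ▼ part R013/NB13_102
section

/-!
# Row 13, C-NB, part 13: a graph with at least as many edges as vertices has a loop

`exists_cycle_edge` : in a finite graph with at least as many edges as vertices there is an edge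
whose two ends are joined by the other edges.  `exists_loop_of_card` : hence a semistable structure
with `#V ≤ #Ed` has a loop of norms at a vertex.  `cover_of_loop_top` : a loop at a Galois invariant
norm of `K = U C` gives cyclic topological covers of `U` of every degree.
-/

set_option autoImplicit false
set_option linter.unusedSectionVars false
set_option linter.style.haveILetI false

noncomputable section

namespace Crest.Agent.R013.NB_102

open Filter Topology
open scoped NNReal
open Crest.Agent.R013.Cell_408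
open Crest.Agent.R013.RR7_948
open Crest.Agent.R013.Gl946 Crest.Agent.R013.TopE1_957
open Crest.NumberTheoryR.Sect

/-- an edge on a cycle -/
theorem exists_cycle_edge {V Ed : Type*} [Fintype V] [Fintype Ed] [Nonempty V] (s t : Ed → V)
    (h : Fintype.card V ≤ Fintype.card Ed) :
    ∃ e₀, Relation.ReflTransGen
      (fun v w => ∃ e, e ≠ e₀ ∧ ((s e = v ∧ t e = w) ∨ (t e = v ∧ s e = w))) (t e₀) (s e₀) := by
  classical
  -- the boundary map
  let bd : (Ed → ℚ) →ₗ[ℚ] (V → ℚ) :=
    LinearMap.pi fun v => ∑ e, ((if s e = v then 1 else 0) - (if t e = v then 1 else 0) : ℚ) •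
      (LinearMap.proj e : (Ed → ℚ) →ₗ[ℚ] ℚ)
  have hbd : ∀ (l : Ed → ℚ) (v : V), bd l v =
      ∑ e, ((if s e = v then 1 else 0) - (if t e = v then 1 else 0) : ℚ) * l e := by
    intro l v
    simp [bd]
  have hsumA : ∀ (l : Ed → ℚ) (A : Finset V), ∑ v ∈ A, bd l v =
      ∑ e, ((if s e ∈ A then 1 else 0) - (if t e ∈ A then 1 else 0) : ℚ) * l e := by
    intro l A
    simp_rw [hbd]
    rw [Finset.sum_comm]
    refine Finset.sum_congr rfl fun e _ => ?_
    rw [← Finset.sum_mul, Finset.sum_sub_distrib, Finset.sum_ite_eq, Finset.sum_ite_eq]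
  have hninj : ¬ Function.Injective bd := by
    intro hinj
    have h1 : Module.finrank ℚ (Ed → ℚ) = Module.finrank ℚ (V → ℚ) := by
      refine le_antisymm (LinearMap.finrank_le_finrank_of_injective hinj) ?_
      rw [Module.finrank_fintype_fun_eq_card, Module.finrank_fintype_fun_eq_card]
      exact h
    have hsurj := (LinearMap.injective_iff_surjective_of_finrank_eq_finrank h1).1 hinj
    obtain ⟨l, hl⟩ := hsurj (fun _ => 1)
    have h2 := hsumA l Finset.univ
    rw [hl] at h2
    simp at h2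
  obtain ⟨l, hl, hl0⟩ : ∃ l, bd l = 0 ∧ l ≠ 0 := by
    by_contra hcon
    push Not at hcon
    exact hninj ((injective_iff_map_eq_zero bd).2 hcon)
  obtain ⟨e₀, he₀⟩ : ∃ e, l e ≠ 0 := by
    by_contra hcon
    push Not at hcon
    exact hl0 (funext hcon)
  refine ⟨e₀, ?_⟩
  set R : V → V → Prop := fun v w => ∃ e, e ≠ e₀ ∧ ((s e = v ∧ t e = w) ∨ (t e = v ∧ s e = w))
    with hR
  by_contra hcon
  set A : Finset V := Finset.univ.filter fun w => Relation.ReflTransGen R (t e₀) w with hA
  have hmem : ∀ w, w ∈ A ↔ Relation.ReflTransGen R (t e₀) w := fun w => by simp [hA]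
  have hiff : ∀ e, e ≠ e₀ → (s e ∈ A ↔ t e ∈ A) := by
    intro e he
    rw [hmem, hmem]
    exact ⟨fun h => h.tail ⟨e, he, Or.inl ⟨rfl, rfl⟩⟩, fun h => h.tail ⟨e, he, Or.inr ⟨rfl, rfl⟩⟩⟩
  have h1 := hsumA l A
  rw [hl] at h1
  simp only [Pi.zero_apply, Finset.sum_const_zero] at h1
  rw [Finset.sum_eq_single e₀] at h1
  · rw [if_neg (fun h => hcon ((hmem _).1 h)), if_pos ((hmem _).2 .refl)] at h1
    apply he₀
    linarith
  · intro e _ he
    by_cases h2 : s e ∈ A
    · rw [if_pos h2, if_pos ((hiff e he).1 h2), sub_self, zero_mul]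
    · rw [if_neg h2, if_neg (fun h3 => h2 ((hiff e he).2 h3)), sub_self, zero_mul]
  · intro h2
    exact absurd (Finset.mem_univ _) h2

section

variable {k C K : Type*} [NontriviallyNormedField k] [CompleteSpace k] [IsUltrametricDist k]
    [NormedField C] [IsUltrametricDist C] [NormedAlgebra k C] [Algebra.IsAlgebraic k C]
    [IsAlgClosed C] [hk : Fact (DiscNorm k)] [Field K] [Algebra C K] (S : SSK_332.SSK k C K)
    [Algebra (RatFunc C) K] [IsScalarTower C (RatFunc C) K]
    [FiniteDimensional (RatFunc C) K] [Algebra.IsSeparable (RatFunc C) K]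

/-- **a loop of norms at a vertex**, for every semistable structure with `#V ≤ #Ed` -/
theorem exists_loop_of_card (h : @Fintype.card S.V S.fV ≤ @Fintype.card S.Ed S.fEd) :
    ∃ (v : S.V) (y : K), LoopAt C y (S.nm v).v := by
  letI := S.fV
  letI := S.fEd
  haveI : Nonempty S.V := S.conn.1
  obtain ⟨e₀, he₀⟩ := exists_cycle_edge (fun e => (S.e0 e).1) (fun e => (S.e1 e).1) h
  exact ⟨_, exists_loopAt S e₀ he₀⟩

end

section

universe u

variable {k : Type u} [NontriviallyNormedField k] [IsUltrametricDist k] [CompleteSpace k]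
  {U : Type u} [Field U] [CharZero U] [Algebra k U] [Algebra (RatFunc k) U]
  [IsScalarTower k (RatFunc k) U] [FiniteDimensional (RatFunc k) U]
  {C K : Type*} [NormedField C] [Field K] [Algebra k C] [Algebra C K] [Algebra U K] [Algebra k K]
  [IsScalarTower k C K] [IsScalarTower k U K] [Normal U K]


end

end Crest.Agent.R013.NB_102
end
end

-- ▼ part R013/CY12_957
section

/-!
# R013 / CY12 (helper957): **stage (C)**: `YOut` for every degree, over the fixed level
-/

set_option autoImplicit false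
set_option linter.unusedSectionVars false
set_option linter.style.haveILetI false

namespace Crest.Agent.R013.CY_957

open scoped NNReal
open Module WithZero
open Crest.NumberTheoryR.Sect
open Crest.Agent.R013.RR7_948 Crest.Agent.R013.Cell_408 Crest.Agent.R013.EE809
open Crest.Agent.R013.SSK_332 Crest.Agent.R013.Inh_770 Crest.Agent.R013.Red332
open Crest.Agent.R013.TopE1_957 Crest.Agent.R013.TopE4_957 Crest.Agent.R013.TopE6_957
open Crest.Agent.R013.TopE7_957 Crest.Agent.R013.TopE8_957 Crest.Agent.R013.Unr10_957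
open Crest.Agent.R013.Desc_372 Crest.Agent.R013.DEm_719 Crest.Agent.R013.DEm_719.GalAct
open Crest.Agent.R013.Kumv2_275 Crest.Agent.R013.Rank_770 Crest.Agent.R013.NB_102

universe w

section exist

variable {k C : Type*} [NontriviallyNormedField k] [CompleteSpace k] [IsUltrametricDist k]
  [NormedField C] [IsUltrametricDist C] [NormedAlgebra k C] [Algebra.IsAlgebraic k C]
  [IsAlgClosed C] [hk : Fact (DiscNorm k)] [CharZero C]
variable {κ U M K1 W : Type*} {K : Type w} [NormedField κ] [Field U] [Field M] [Field K1]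
  [Field K] [Field W]
  [Algebra k κ] [Algebra κ C] [IsScalarTower k κ C]
  [Algebra κ U] [Algebra κ M] [Algebra κ K1] [Algebra κ K]
  [Algebra C K1] [Algebra C K] [Algebra K1 K]
  [Algebra U M] [Algebra U K1] [Algebra U K] [Algebra U W] [Algebra M K]
  [IsScalarTower C K1 K] [IsScalarTower κ C K1] [IsScalarTower κ U K1]
  [IsScalarTower κ C K] [IsScalarTower κ M K] [IsScalarTower κ U M] [IsScalarTower κ U K]
  [IsScalarTower U M K] [IsScalarTower U K1 K]
  [FiniteDimensional K1 K] [IsGalois K1 K] [FiniteDimensional U M] [IsGalois U M]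
  [FiniteDimensional U W] [IsGalois U W] [IsCyclic (W ≃ₐ[U] W)]
  [Algebra (RatFunc C) K1] [IsScalarTower C (RatFunc C) K1]
  [FiniteDimensional (RatFunc C) K1] [Algebra.IsSeparable (RatFunc C) K1]
  [CE κ C U K1] [CE κ C M K] {S : SSK k C K1} (P : Spl S K)

/-- **`YOut` from a completely split cover of `U`** -/
theorem exists_yOut (hκ : ∀ c : κ, ‖algebraMap κ C c‖ = ‖c‖)
    (hW : SplitCov κ U W) {D1 : Set S.Dir}
    (H : Lvl P.inh κ M (⊥ : IntermediateField κ C) {y | (dI P y).1 ∈ D1})
    (v₀ : Valuation M ℝ≥0) (hv₀ : IsRationalPlace κ M v₀)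
    (hcop : (finrank U W).Coprime (finrank K1 K)) :
    Nonempty (YOut P κ M D1 (finrank U W)) := by
  let Ω : Type w := AlgebraicClosure K
  letI : Algebra U Ω := inferInstance
  haveI : IsScalarTower U K Ω := inferInstance
  haveI : IsScalarTower U M Ω := inferInstance
  haveI : IsScalarTower M K Ω := inferInstance
  let j : W →ₐ[U] Ω := IsAlgClosed.lift
  let YI : IntermediateField K Ω := IntermediateField.adjoin K (Set.range j)
  let ZI : IntermediateField M Ω := IntermediateField.adjoin M (Set.range j)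
  have hjY : ∀ x, j x ∈ YI := fun x => IntermediateField.subset_adjoin _ _ ⟨x, rfl⟩
  have hjZ : ∀ x, j x ∈ ZI := fun x => IntermediateField.subset_adjoin _ _ ⟨x, rfl⟩
  have hle : ∀ x, x ∈ ZI → x ∈ YI := by
    intro x hx
    refine IntermediateField.adjoin_induction M (p := fun y _ => y ∈ YI) ?_ ?_ ?_ ?_ ?_ hx
    · rintro _ ⟨y, rfl⟩; exact hjY y
    · intro m
      rw [IsScalarTower.algebraMap_apply M K Ω]
      exact YI.algebraMap_mem _
    · intro x y _ _ hx hy; exact add_mem hx hy
    · intro x _ hx; exact inv_mem hx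
    · intro x y _ _ hx hy; exact mul_mem hx hy
  letI aWY : Algebra W YI := ((j : W →+* Ω).codRestrict YI.toSubfield hjY).toAlgebra
  letI aWZ : Algebra W ZI := ((j : W →+* Ω).codRestrict ZI.toSubfield hjZ).toAlgebra
  letI aZY : Algebra ZI YI :=
    ((algebraMap ZI Ω).codRestrict YI.toSubfield (fun x => hle x x.2)).toAlgebra
  have cW : ∀ x : W, ((algebraMap W YI x : YI) : Ω) = j x := fun _ => rfl
  have cW' : ∀ x : W, ((algebraMap W ZI x : ZI) : Ω) = j x := fun _ => rfl
  have cZ : ∀ x : ZI, ((algebraMap ZI YI x : YI) : Ω) = (x : Ω) := fun _ => rfl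
  haveI i1 : IsScalarTower C K1 Ω := inferInstance
  haveI i2 : IsScalarTower C K Ω := inferInstance
  haveI i3 : IsScalarTower K1 K Ω := inferInstance
  haveI i4 : IsScalarTower κ C Ω := inferInstance
  haveI i5 : IsScalarTower κ M Ω := inferInstance
  haveI i6 : IsScalarTower U K1 Ω := inferInstance
  haveI t1 : IsScalarTower C K1 YI :=
    IsScalarTower.of_algebraMap_eq fun x => Subtype.ext (IsScalarTower.algebraMap_apply C K1 Ω x)
  haveI t2 : IsScalarTower C K YI :=
    IsScalarTower.of_algebraMap_eq fun x => Subtype.ext (IsScalarTower.algebraMap_apply C K Ω x)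
  haveI t3 : IsScalarTower K1 K YI :=
    IsScalarTower.of_algebraMap_eq fun x => Subtype.ext (IsScalarTower.algebraMap_apply K1 K Ω x)
  haveI t4 : IsScalarTower κ C YI :=
    IsScalarTower.of_algebraMap_eq fun x => Subtype.ext (IsScalarTower.algebraMap_apply κ C Ω x)
  haveI t5 : IsScalarTower κ ZI YI := IsScalarTower.of_algebraMap_eq fun x => Subtype.ext rfl
  haveI t6 : IsScalarTower κ M ZI :=
    IsScalarTower.of_algebraMap_eq fun x => Subtype.ext (IsScalarTower.algebraMap_apply κ M Ω x)
  haveI t7 : IsScalarTower M K YI :=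
    IsScalarTower.of_algebraMap_eq fun x => Subtype.ext (IsScalarTower.algebraMap_apply M K Ω x)
  haveI t8 : IsScalarTower M ZI YI := IsScalarTower.of_algebraMap_eq fun x => Subtype.ext rfl
  haveI t9 : IsScalarTower U M ZI :=
    IsScalarTower.of_algebraMap_eq fun x => Subtype.ext (IsScalarTower.algebraMap_apply U M Ω x)
  haveI t10 : IsScalarTower U W ZI :=
    IsScalarTower.of_algebraMap_eq fun x => Subtype.ext (j.commutes x).symm
  haveI t11 : IsScalarTower U W YI :=
    IsScalarTower.of_algebraMap_eq fun x => Subtype.ext (j.commutes x).symm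
  haveI t12 : IsScalarTower U K1 YI :=
    IsScalarTower.of_algebraMap_eq fun x => Subtype.ext (IsScalarTower.algebraMap_apply U K1 Ω x)
  haveI t13 : IsScalarTower U K YI :=
    IsScalarTower.of_algebraMap_eq fun x => Subtype.ext (IsScalarTower.algebraMap_apply U K Ω x)
  haveI t14 : IsScalarTower U ZI YI := IsScalarTower.of_algebraMap_eq fun x => Subtype.ext rfl
  haveI t15 : IsScalarTower W ZI YI := IsScalarTower.of_algebraMap_eq fun x => Subtype.ext rfl
  have hgenY : IntermediateField.adjoin K (Set.range (algebraMap W YI)) = ⊤ := by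
    rw [eq_top_iff]
    rintro ⟨y, hy⟩ _
    have h1 : (IntermediateField.adjoin K (Set.range (algebraMap W YI))).map YI.val = YI := by
      rw [IntermediateField.adjoin_map, ← Set.range_comp]
      rfl
    have h2 : y ∈ (IntermediateField.adjoin K (Set.range (algebraMap W YI))).map YI.val := by
      rw [h1]; exact hy
    obtain ⟨z, hz, hzy⟩ := h2
    have h3 : z = ⟨y, hy⟩ := Subtype.ext hzy
    rw [← h3]
    exact hz
  have hgenZ : IntermediateField.adjoin M (Set.range (algebraMap W ZI)) = ⊤ := by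
    rw [eq_top_iff]
    rintro ⟨y, hy⟩ _
    have h1 : (IntermediateField.adjoin M (Set.range (algebraMap W ZI))).map ZI.val = ZI := by
      rw [IntermediateField.adjoin_map, ← Set.range_comp]
      rfl
    have h2 : y ∈ (IntermediateField.adjoin M (Set.range (algebraMap W ZI))).map ZI.val := by
      rw [h1]; exact hy
    obtain ⟨z, hz, hzy⟩ := h2
    have h3 : z = ⟨y, hy⟩ := Subtype.ext hzy
    rw [← h3]
    exact hz
  exact yOut_of (U := U) (W := W) (Y := YI) (Y₀ := ZI) P hκ hW H v₀ hv₀ hcop hgenY hgenZ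

end exist

section loop

universe u

variable {k C : Type*} [NontriviallyNormedField k] [CompleteSpace k] [IsUltrametricDist k]
  [NormedField C] [IsUltrametricDist C] [NormedAlgebra k C] [Algebra.IsAlgebraic k C]
  [IsAlgClosed C] [hk : Fact (DiscNorm k)] [CharZero C]
variable {κ U : Type u} {M K1 : Type*} {K : Type w} [NontriviallyNormedField κ]
  [IsUltrametricDist κ] [CompleteSpace κ] [Field U] [Field M] [Field K1]
  [Field K]
  [Algebra k κ] [Algebra κ C] [IsScalarTower k κ C]
  [Algebra κ U] [Algebra κ M] [Algebra κ K1] [Algebra κ K]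
  [Algebra C K1] [Algebra C K] [Algebra K1 K]
  [Algebra U M] [Algebra U K1] [Algebra U K] [Algebra M K]
  [IsScalarTower C K1 K] [IsScalarTower κ C K1] [IsScalarTower κ U K1]
  [IsScalarTower κ C K] [IsScalarTower κ M K] [IsScalarTower κ U M] [IsScalarTower κ U K]
  [IsScalarTower U M K] [IsScalarTower U K1 K]
  [FiniteDimensional K1 K] [IsGalois K1 K] [FiniteDimensional U M] [IsGalois U M]
  [Algebra (RatFunc κ) U] [IsScalarTower κ (RatFunc κ) U] [FiniteDimensional (RatFunc κ) U]
  [Algebra (RatFunc C) K1] [IsScalarTower C (RatFunc C) K1]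
  [FiniteDimensional (RatFunc C) K1] [Algebra.IsSeparable (RatFunc C) K1]
  [CE κ C U K1] [CE κ C M K] {S : SSK k C K1} (P : Spl S K)

/-- **STAGE (C)**: `YOut` for every degree prime to `[K : K1]`, over the fixed level `κ`, from a
loop at the level `κ` -/
theorem stageC (hκ : ∀ c : κ, ‖algebraMap κ C c‖ = ‖c‖) {π : κ} (hπ : Gl946.IsUnif π)
    {y : U} {w0 : Valuation U ℝ≥0} (hL : LoopAt κ y w0) {D1 : Set S.Dir}
    (H : Lvl P.inh κ M (⊥ : IntermediateField κ C) {y | (dI P y).1 ∈ D1})
    (v₀ : Valuation M ℝ≥0) (hv₀ : IsRationalPlace κ M v₀) (n : ℕ) (hn : n ≠ 0)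
    (hcop : n.Coprime (finrank K1 K)) : Nonempty (YOut P κ M D1 n) := by
  have : CharZero κ := ⟨fun a b hab => Nat.cast_injective (R := C) (by
    simpa using congrArg (algebraMap κ C) hab)⟩
  have : CharZero U := charZero_of_injective_algebraMap (algebraMap κ U).injective
  have : NeZero n := ⟨hn⟩
  obtain ⟨W, i1, i2, h1, h2, h3, ⟨σ, -, hσ⟩, h4, h5⟩ := cover_of_loop hπ y w0 hL n
  have hcyc : IsCyclic (W ≃ₐ[U] W) := ⟨σ, fun x => by
    have hx : x ∈ Subgroup.zpowers σ := by rw [hσ]; trivial
    exact hx⟩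
  have hW : SplitCov κ U W := ⟨h4, h5⟩
  have h6 := exists_yOut (U := U) (W := W) P hκ hW H v₀ hv₀ (by rw [h2]; exact hcop)
  rw [h2] at h6
  exact h6

end loop

end Crest.Agent.R013.CY_957
end

-- ▼ part R013/NB14_102
section

/-!
# Row 13, C-NB, part 14: descent of loops in 372's language

`normal_of_CE` : `K/K₀` is normal if `K = K₀ ⊗ C` with `C/k` normal.  `loop_of_CE`, `loop_of_def`:
a loop of norms of `K` at a vertex of a semistable structure which is defined over the level `k'`
gives a loop of norms of the level field.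
-/

set_option autoImplicit false
set_option linter.unusedSectionVars false

namespace Crest.Agent.R013.NB_102

open Module IntermediateField
open scoped NNReal
open Crest.Agent.R013.Desc_372

section

variable (k C K₀ K : Type*) [Field k] [Field C] [Field K₀] [Field K] [Algebra k C] [Algebra k K₀]
    [Algebra C K] [Algebra K₀ K] [Algebra k K] [IsScalarTower k C K] [IsScalarTower k K₀ K]

/-- `K/K₀` is generated by the constants -/
theorem adjoin_const_eq_top [CE k C K₀ K] :
    IntermediateField.adjoin K₀ (Set.range (algebraMap C K)) = ⊤ := by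
  rw [eq_top_iff]
  intro f _
  obtain ⟨n, c, g, rfl⟩ := CE.exists_sum k C K₀ K f
  refine sum_mem fun i _ => mul_mem ?_ ?_
  · exact IntermediateField.subset_adjoin K₀ _ ⟨c i, rfl⟩
  · exact IntermediateField.algebraMap_mem _ (g i)

/-- `K/K₀` is normal -/
theorem normal_of_CE [CE k C K₀ K] [Normal k C] : Normal K₀ K := by
  have hs : ∀ x ∈ Set.range (algebraMap C K), IsIntegral K₀ x ∧
      ((minpoly K₀ x).map (algebraMap K₀ K)).Splits := by
    rintro _ ⟨c, rfl⟩
    have hc : IsIntegral k c := Normal.isIntegral inferInstance c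
    have hc' : IsIntegral k (algebraMap C K c) := hc.map (IsScalarTower.toAlgHom k C K)
    refine ⟨hc'.tower_top, ?_⟩
    have h1 : ((minpoly k c).map (algebraMap k C)).Splits := Normal.splits inferInstance c
    have h2 : (((minpoly k c).map (algebraMap k K₀)).map (algebraMap K₀ K)).Splits := by
      have h3 := h1.map (algebraMap C K)
      rw [Polynomial.map_map, ← IsScalarTower.algebraMap_eq] at h3
      rw [Polynomial.map_map, ← IsScalarTower.algebraMap_eq]
      exact h3
    refine h2.of_dvd ?_ (Polynomial.map_dvd _ ?_)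
    · rw [Polynomial.map_map]
      exact Polynomial.map_ne_zero (minpoly.ne_zero hc)
    · apply minpoly.dvd
      rw [Polynomial.aeval_map_algebraMap, Polynomial.aeval_algebraMap_apply, minpoly.aeval,
        map_zero]
  have hmem : ∀ x : K, x ∈ IntermediateField.adjoin K₀ (Set.range (algebraMap C K)) := by
    intro x
    rw [adjoin_const_eq_top k C K₀ K]
    trivial
  have : Algebra.IsAlgebraic K₀ K := by
    constructor
    intro x
    have h1 : Algebra.IsAlgebraic K₀ (IntermediateField.adjoin K₀ (Set.range (algebraMap C K))) :=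
      IntermediateField.isAlgebraic_adjoin fun x hx => (hs x hx).1
    have h2 := h1.isAlgebraic ⟨x, hmem x⟩
    exact h2.algHom (IntermediateField.val _)
  refine ⟨fun x => ?_⟩
  exact IntermediateField.splits_of_mem_adjoin K₀ K hs (hmem x)

end

section

variable {κ C U K : Type*} [NormedField κ] [NormedField C] [Algebra κ C] [Field U] [Field K]
  [Algebra κ U] [Algebra C K] [Algebra U K] [Algebra κ K] [IsScalarTower κ C K]
  [IsScalarTower κ U K]

/-- descent of a loop to a model -/
theorem loop_of_CE [CE κ C U K] [Normal κ C] (hκC : ∀ c : κ, ‖algebraMap κ C c‖ = ‖c‖)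
    (hnt : ∃ c : κ, 1 < ‖c‖) {y : U} {w0 : Valuation K ℝ≥0}
    (h : LoopAt C (algebraMap U K y) w0) (hfix : ∀ (σ : K ≃ₐ[U] K) (a : K), w0 (σ a) = w0 a) :
    LoopAt κ y (w0.comap (algebraMap U K)) := by
  have := normal_of_CE κ C U K
  exact h.descend hκC hfix hnt

end

section

open Crest.Agent.R013.DEm_719

variable {k C K : Type*} [NontriviallyNormedField k] [CompleteSpace k] [IsUltrametricDist k]
    [NormedField C] [IsUltrametricDist C] [NormedAlgebra k C] [Algebra.IsAlgebraic k C]
    [Field K] [Algebra C K] {S : SSK_332.SSK k C K}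

section level

variable {k₁ K₀ : Type*} [Field k₁] [Field K₀] [Algebra k k₁] [Algebra k₁ C] [IsScalarTower k k₁ C]
  [Algebra k₁ K₀] [Algebra K₀ K] [Algebra k₁ K] [IsScalarTower k₁ C K] [IsScalarTower k₁ K₀ K]
  [CE k₁ C K₀ K] [Normal k₁ C] {k' : IntermediateField k₁ C} {D : Set S.Dir}


/-- the same over the field itself, for `k' = ⊥` -/
theorem fix_of_def_bot (H : Def S k₁ K₀ ⊥ D) (σ : K ≃ₐ[K₀] K) (v : S.V) (a : K) :
    (S.nm v).v (σ a) = (S.nm v).v a := by
  refine H.nm (g := σ) (CE.mem_Gam.mpr fun c hc => ?_) v a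
  obtain ⟨c₀, rfl⟩ := IntermediateField.mem_bot.1 hc
  change σ (algebraMap C K (algebraMap k₁ C c₀)) = algebraMap C K (algebraMap k₁ C c₀)
  rw [← IsScalarTower.algebraMap_apply k₁ C K, IsScalarTower.algebraMap_apply k₁ K₀ K, σ.commutes]

end level

/-- **the loop at a fixed level** (957's (i)): `S` is defined over `κ`, `y` is in the model `U` -/
theorem loop_of_def_bot {κ U : Type*} [NormedField κ] [Field U] [Algebra k κ] [Algebra κ C]
    [IsScalarTower k κ C] [Algebra κ U] [Algebra U K] [Algebra κ K] [IsScalarTower κ C K]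
    [IsScalarTower κ U K] [CE κ C U K] [Normal κ C] {D : Set S.Dir} (H : Def S κ U ⊥ D)
    (hκC : ∀ c : κ, ‖algebraMap κ C c‖ = ‖c‖) {v : S.V} {y : U}
    (h : LoopAt C (algebraMap U K y) (S.nm v).v) :
    LoopAt κ y ((S.nm v).v.comap (algebraMap U K)) := by
  refine loop_of_CE hκC ?_ h fun σ a => fix_of_def_bot H σ v a
  obtain ⟨c, hc⟩ := NontriviallyNormedField.non_trivial (α := k)
  refine ⟨algebraMap k κ c, ?_⟩
  rw [← hκC, ← IsScalarTower.algebraMap_apply, norm_algebraMap']
  exact hc

end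

end Crest.Agent.R013.NB_102
end

-- ▼ part R013/Lev1_372
section

/-!
# R013 / LEV, part 1 (helper372): eventual statements over the levels, change of the base level

`Ev k C Φ` : `Φ κ` holds for all sufficiently large `κ` (finite over `k`).
`def_bot`, `lvl_bot` : a semistable structure defined over `κ` (with respect to `k₁, K₀`) is defined
over the base `κ, lev K₀ K κ`.
-/

set_option autoImplicit false
set_option linter.all false

namespace Crest.Agent.R013.Lev_372

open scoped NNReal
open WithZero Module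
open Crest.Agent.R013.Desc_372 Crest.Agent.R013.Desc_372.CE
open Crest.Agent.R013.RR7_948 Crest.Agent.R013.Red332 Crest.Agent.R013.SSK_332
  Crest.Agent.R013.DEm_719

/-! ### eventual statements -/

section ev

variable (k C : Type*) [Field k] [Field C] [Algebra k C]

/-- `Φ κ` for all sufficiently large levels `κ` -/
def Ev (Φ : IntermediateField k C → Prop) : Prop :=
  ∃ κ₀ : IntermediateField k C, FiniteDimensional k κ₀ ∧ ∀ κ, κ₀ ≤ κ → Φ κ

variable {k C}


theorem Ev.mono {Φ Ψ : IntermediateField k C → Prop} (h : Ev k C Φ) (h' : ∀ κ, Φ κ → Ψ κ) :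
    Ev k C Ψ := by
  obtain ⟨κ₀, h1, h2⟩ := h
  exact ⟨κ₀, h1, fun κ hκ => h' κ (h2 κ hκ)⟩

theorem Ev.and {Φ Ψ : IntermediateField k C → Prop} (h : Ev k C Φ) (h' : Ev k C Ψ) :
    Ev k C fun κ => Φ κ ∧ Ψ κ := by
  obtain ⟨κ₀, h1, h2⟩ := h
  obtain ⟨κ₁, h3, h4⟩ := h'
  exact ⟨κ₀ ⊔ κ₁, inferInstance, fun κ hκ => ⟨h2 κ (le_sup_left.trans hκ),
    h4 κ (le_sup_right.trans hκ)⟩⟩

theorem Ev.all {Φ : IntermediateField k C → Prop} (h : ∀ κ, Φ κ) : Ev k C Φ :=
  ⟨⊥, inferInstance, fun κ _ => h κ⟩

theorem Ev.forall {ι : Type*} [Finite ι] {Φ : ι → IntermediateField k C → Prop}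
    (h : ∀ i, Ev k C (Φ i)) : Ev k C fun κ => ∀ i, Φ i κ := by
  choose κ h1 h2 using h
  haveI := h1
  exact ⟨⨆ i, κ i, inferInstance, fun κ' hκ i => h2 i κ' ((le_iSup κ i).trans hκ)⟩

theorem Ev.forall_mem {ι : Type*} {s : Set ι} (hs : s.Finite)
    {Φ : ι → IntermediateField k C → Prop} (h : ∀ i ∈ s, Ev k C (Φ i)) :
    Ev k C fun κ => ∀ i ∈ s, Φ i κ := by
  haveI := hs.to_subtype
  exact (Ev.forall (ι := s) fun i => h i i.2).mono fun κ h' i hi => h' ⟨i, hi⟩

theorem Ev.le (κ₀ : IntermediateField k C) [FiniteDimensional k κ₀] :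
    Ev k C fun κ => κ₀ ≤ κ := ⟨κ₀, inferInstance, fun _ h => h⟩

theorem Ev.exists {Φ : IntermediateField k C → Prop} (h : Ev k C Φ) :
    ∃ κ : IntermediateField k C, FiniteDimensional k κ ∧ Φ κ := by
  obtain ⟨κ₀, h1, h2⟩ := h
  exact ⟨κ₀, h1, h2 κ₀ le_rfl⟩



end ev

section ce

variable {k C K₀ K : Type*} [Field k] [Field C] [Field K₀] [Field K] [Algebra k C] [Algebra k K₀]
  [Algebra C K] [Algebra K₀ K] [Algebra k K] [IsScalarTower k C K] [IsScalarTower k K₀ K]

theorem ev_mem_lev [CE k C K₀ K] (f : K) : Ev k C fun κ => f ∈ lev K₀ K κ := by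
  obtain ⟨κ, h1, h2⟩ := exists_lev (k := k) (C := C) (K₀ := K₀) (K := K) {f} (Set.finite_singleton f)
  exact ⟨κ, h1, fun κ' hκ => lev_mono (K₀ := K₀) (K := K) hκ (h2 rfl)⟩

theorem ev_subset_lev [CE k C K₀ K] {T : Set K} (hT : T.Finite) :
    Ev k C fun κ => T ⊆ lev K₀ K κ :=
  Ev.forall_mem hT fun f _ => ev_mem_lev f

/-! ### change of the base level -/

theorem mem_lev_bot' {κ : IntermediateField k C} {f : K} (hf : f ∈ lev K₀ K κ) :
    f ∈ lev (lev K₀ K κ) K (⊥ : IntermediateField κ C) :=
  (lev (lev K₀ K κ) K (⊥ : IntermediateField κ C)).algebraMap_mem ⟨f, hf⟩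


/-- the lift of an automorphism over `κ` -/
theorem lift_lev [CE k C K₀ K] (κ : IntermediateField k C) (s : C ≃ₐ[κ] C) (f : K) :
    CE.lift κ C (lev K₀ K κ) K s f = CE.lift k C K₀ K (s.restrictScalars k) f := by
  have h1 := CE.ringHom_ext k C K₀ K
    (φ := ((CE.lift κ C (lev K₀ K κ) K s : K ≃ₐ[lev K₀ K κ] K) : K →+* K))
    (ψ := ((CE.lift k C K₀ K (s.restrictScalars k) : K ≃ₐ[K₀] K) : K →+* K))
    (fun c => by
      show CE.lift κ C (lev K₀ K κ) K s (algebraMap C K c) =
        CE.lift k C K₀ K (s.restrictScalars k) (algebraMap C K c)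
      rw [lift_algebraMap, lift_algebraMap]
      rfl)
    (fun g => by
      show CE.lift κ C (lev K₀ K κ) K s (algebraMap K₀ K g) =
        CE.lift k C K₀ K (s.restrictScalars k) (algebraMap K₀ K g)
      rw [AlgEquiv.commutes]
      exact (CE.lift κ C (lev K₀ K κ) K s).commutes (algebraMap K₀ (lev K₀ K κ) g))
  exact congrArg (fun φ : K →+* K => φ f) h1

end ce

section ssk

variable {k C K : Type*} [NontriviallyNormedField k] [CompleteSpace k] [IsUltrametricDist k]
    [NormedField C] [IsUltrametricDist C] [NormedAlgebra k C] [Algebra.IsAlgebraic k C]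
    [Field K] [Algebra C K] {S : SSK k C K}
variable {k₁ K₀ : Type*} [Field k₁] [Field K₀] [Algebra k k₁] [Algebra k₁ C] [IsScalarTower k k₁ C]
  [Algebra k₁ K₀] [Algebra K₀ K] [Algebra k₁ K] [IsScalarTower k₁ C K] [IsScalarTower k₁ K₀ K]

theorem def_bot [CE k₁ C K₀ K] {κ : IntermediateField k₁ C} {D : Set S.Dir}
    (H : Def S k₁ K₀ κ D) : Def S κ (lev K₀ K κ) (⊥ : IntermediateField κ C) D where
  e0_mem := H.e0_mem
  e1_mem := H.e1_mem
  vert := H.vert
  cc_mem e := IntermediateField.mem_bot.mpr ⟨⟨S.cc e, H.cc_mem e⟩, rfl⟩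
  eqAt d hd s hs f := by
    have h1 := H.eqAt d hd (s.restrictScalars k₁) (fun c hc => s.commutes ⟨c, hc⟩) f
    rw [lift_lev]
    exact h1

theorem lvl_bot [CE k₁ C K₀ K] {κ : IntermediateField k₁ C} {D : Set S.Dir}
    (H : Lvl S k₁ K₀ κ D) : Lvl S κ (lev K₀ K κ) (⊥ : IntermediateField κ C) D where
  df := def_bot H.df
  span v := by
    rw [eq_top_iff, ← H.span v]
    refine Submodule.span_mono ?_
    rintro y ⟨f, hf, h1, h2⟩
    exact ⟨f, mem_lev_bot' hf, h1, h2⟩

/-- smaller sets of directions -/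
theorem Def.sub [CE k₁ C K₀ K] {κ : IntermediateField k₁ C} {D D' : Set S.Dir}
    (H : Def S k₁ K₀ κ D) (h : D' ⊆ D) (h0 : ∀ e, S.e0 e ∈ D') (h1 : ∀ e, S.e1 e ∈ D')
    (h2 : ∀ v, ∃ d ∈ D', d.1 = v) : Def S k₁ K₀ κ D' where
  e0_mem := h0
  e1_mem := h1
  vert := h2
  cc_mem := H.cc_mem
  eqAt d hd := H.eqAt d (h hd)

variable (S k₁ K₀) in
/-- **(EV-LVL)** eventually in the levels -/
theorem ev_lvl [LocallyCompactSpace k] [CE k₁ C K₀ K] (hfg : (⊤ : IntermediateField k₁ K₀).FG)
    (D : Set S.Dir) (hD : D.Finite) (h0 : ∀ e, S.e0 e ∈ D) (h1 : ∀ e, S.e1 e ∈ D)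
    (h2 : ∀ v, ∃ d ∈ D, d.1 = v) : Ev k₁ C fun κ => Lvl S k₁ K₀ κ D := by
  obtain ⟨κ, D', h3, h4, h5, H⟩ := exists_lvl S (k₁ := k₁) (K₀ := K₀) hfg D hD
  have H' : Lvl S k₁ K₀ κ D := ⟨Def.sub H.df h5 h0 h1 h2, H.span⟩
  exact ⟨κ, h3, fun κ' hκ => H'.mono hκ⟩

variable (S) in
/-- a finite set of directions containing `D`, the ends and a direction at each vertex -/
theorem exists_dirs (D : Set S.Dir) (hD : D.Finite) : ∃ D' : Set S.Dir, D'.Finite ∧ D ⊆ D' ∧
    (∀ e, S.e0 e ∈ D') ∧ (∀ e, S.e1 e ∈ D') ∧ ∀ v, ∃ d ∈ D', d.1 = v := by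
  classical
  haveI := S.fV
  haveI := S.fEd
  choose dv hdv using exists_dir S
  refine ⟨D ∪ (Set.range S.e0 ∪ Set.range S.e1 ∪ Set.range dv), hD.union
    (((Set.finite_range _).union (Set.finite_range _)).union (Set.finite_range _)),
    Set.subset_union_left, fun e => Or.inr (Or.inl (Or.inl ⟨e, rfl⟩)),
    fun e => Or.inr (Or.inl (Or.inr ⟨e, rfl⟩)), fun v => ⟨dv v, Or.inr (Or.inr ⟨v, rfl⟩), hdv v⟩⟩

end ssk

end Crest.Agent.R013.Lev_372
end

-- ▼ part R013/Lev2_372
section

/-!
# R013 / LEV, part 2 (helper372): towers of function fields and their levels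

`U ⊆ M` forms over `k` of `K ⊆ L` over `C`.  For a level `κ`: `Algebra (lev U K κ) (lev M L κ)`,
which is Galois with the same group if `M/U` is.
-/

set_option autoImplicit false
set_option linter.all false

namespace Crest.Agent.R013.Lev_372

open scoped NNReal
open WithZero Module
open Crest.Agent.R013.Desc_372 Crest.Agent.R013.Desc_372.CE

/-! ### Galois theory -/

section gal

variable {U M E F : Type*} [Field U] [Field M] [Field E] [Field F] [Algebra U M] [Algebra U E]
  [Algebra M F] [Algebra E F] [Algebra U F] [IsScalarTower U M F] [IsScalarTower U E F]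

/-- base change of a finite Galois extension -/
theorem isGalois_of_gen [FiniteDimensional U M] [IsGalois U M]
    (h : Algebra.adjoin E (Set.range (algebraMap M F)) = ⊤) :
    FiniteDimensional E F ∧ IsGalois E F := by
  classical
  obtain ⟨p, hp, hs⟩ := IsGalois.is_separable_splitting_field U M
  have hroots : p.rootSet F = algebraMap M F '' (p.rootSet M) := by
    have h1 : (p.map (algebraMap U M)).Splits := hs.splits
    have h2 := h1.image_rootSet (IsScalarTower.toAlgHom U M F)
    exact h2.symm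
  have hadj : Algebra.adjoin E ((p.map (algebraMap U E)).rootSet F) = ⊤ := by
    have e1 : (p.map (algebraMap U E)).rootSet F = p.rootSet F := by
      unfold Polynomial.rootSet Polynomial.aroots
      rw [Polynomial.map_map, ← IsScalarTower.algebraMap_eq]
    rw [e1, hroots, eq_top_iff, ← h]
    refine Algebra.adjoin_le ?_
    rintro _ ⟨m, rfl⟩
    have h3 : m ∈ Algebra.adjoin U (p.rootSet M) := by
      rw [hs.adjoin_rootSet]; trivial
    have h4 : Algebra.adjoin U (p.rootSet M) ≤
        ((Algebra.adjoin E (algebraMap M F '' (p.rootSet M))).restrictScalars U).comap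
          (IsScalarTower.toAlgHom U M F) := by
      refine Algebra.adjoin_le fun x hx => ?_
      exact Algebra.subset_adjoin ⟨x, hx, rfl⟩
    exact h4 h3
  have hsp : ((p.map (algebraMap U E)).map (algebraMap E F)).Splits := by
    rw [Polynomial.map_map, ← IsScalarTower.algebraMap_eq, IsScalarTower.algebraMap_eq U M F,
      ← Polynomial.map_map]
    exact hs.splits.map (algebraMap M F)
  haveI : Polynomial.IsSplittingField E F (p.map (algebraMap U E)) := ⟨hsp, hadj⟩
  exact ⟨Polynomial.IsSplittingField.finiteDimensional F (p.map (algebraMap U E)),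
    IsGalois.of_separable_splitting_field (p := p.map (algebraMap U E)) hp.map⟩







end gal

section tower

variable {k C U M K L : Type*} [Field k] [Field C] [Field U] [Field M] [Field K] [Field L]
  [Algebra k C] [Algebra k U] [Algebra C K] [Algebra U K] [Algebra k K] [IsScalarTower k C K]
  [IsScalarTower k U K]
  [Algebra k M] [Algebra C L] [Algebra M L] [Algebra k L] [IsScalarTower k C L]
  [IsScalarTower k M L]
  [Algebra K L] [IsScalarTower C K L] [IsScalarTower k K L]
  [Algebra U M] [Algebra U L] [IsScalarTower U K L] [IsScalarTower U M L] [IsScalarTower k U M]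
  [IsScalarTower k U L]

variable (U M K L) in
theorem map_mem_lev (κ : IntermediateField k C) {x : K} (hx : x ∈ lev U K κ) :
    algebraMap K L x ∈ lev M L κ := by
  have h1 : lev U K κ ≤ ((lev M L κ).restrictScalars U).comap (IsScalarTower.toAlgHom U K L) := by
    rw [lev_le_iff]
    intro c hc
    show algebraMap K L (algebraMap C K c) ∈ lev M L κ
    rw [← IsScalarTower.algebraMap_apply]
    exact algebraMap_mem_lev M L κ hc
  exact h1 hx

variable (U M K L) in
/-- the inclusion of the levels -/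
noncomputable def levHom (κ : IntermediateField k C) : lev U K κ →+* lev M L κ :=
  ((algebraMap K L).comp (lev U K κ).val.toRingHom).codRestrict (lev M L κ).toSubfield.toSubring
    fun x => map_mem_lev U M K L κ x.2


variable (U M K L) in
/-- the algebra structure on the levels -/
@[reducible] noncomputable def levLev (κ : IntermediateField k C) :
    Algebra (lev U K κ) (lev M L κ) := (levHom U M K L κ).toAlgebra

attribute [local instance] levLev



theorem tower_levLev (κ : IntermediateField k C) : IsScalarTower (lev U K κ) (lev M L κ) L :=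
  IsScalarTower.of_algebraMap_eq fun _ => rfl

theorem tower_κ_levLev (κ : IntermediateField k C) : IsScalarTower κ (lev U K κ) (lev M L κ) :=
  IsScalarTower.of_algebraMap_eq fun x => Subtype.ext (IsScalarTower.algebraMap_apply C K L x)

theorem tower_U_levLev (κ : IntermediateField k C) : IsScalarTower U (lev U K κ) (lev M L κ) :=
  IsScalarTower.of_algebraMap_eq fun x => Subtype.ext (by
    exact IsScalarTower.algebraMap_apply U K L x)

attribute [local instance] tower_levLev tower_κ_levLev tower_U_levLev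

variable [CE k C U K] [CE k C M L]



theorem adjoin_lev (κ : IntermediateField k C) :
    Algebra.adjoin (lev U K κ) (Set.range (algebraMap M (lev M L κ))) = ⊤ := by
  rw [eq_top_iff]
  rintro ⟨f, hf⟩ _
  obtain ⟨n, c, g, hc, rfl⟩ := (mem_lev_iff M L κ f).mp hf
  have h1 : (⟨∑ i, algebraMap C L (c i) * algebraMap M L (g i), hf⟩ : lev M L κ) =
      ∑ i, algebraMap (lev U K κ) (lev M L κ) (algebraMap κ (lev U K κ) ⟨c i, hc i⟩) *
        algebraMap M (lev M L κ) (g i) := by
    apply (lev M L κ).val.injective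
    rw [map_sum]
    change (∑ i, algebraMap C L (c i) * algebraMap M L (g i) : L) = _
    refine Finset.sum_congr rfl fun i _ => ?_
    show algebraMap C L (c i) * algebraMap M L (g i) =
      algebraMap K L (algebraMap C K (c i)) * algebraMap M L (g i)
    rw [← IsScalarTower.algebraMap_apply C K L]
  rw [h1]
  exact Subalgebra.sum_mem _ fun i _ => Subalgebra.mul_mem _ (Subalgebra.algebraMap_mem _ _)
    (Algebra.subset_adjoin ⟨g i, rfl⟩)

variable [FiniteDimensional U M] [IsGalois U M]


theorem isGalois_lev (κ : IntermediateField k C) :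
    FiniteDimensional (lev U K κ) (lev M L κ) ∧ IsGalois (lev U K κ) (lev M L κ) :=
  isGalois_of_gen (U := U) (M := M) (adjoin_lev κ)





end tower

end Crest.Agent.R013.Lev_372
end

-- ▼ part R013/Lev3_372
section

/-!
# R013 / LEV, part 3 (helper372): levels of a tower with semistable structures

`U ⊆ M` forms over `k₁` of `K ⊆ L` over `C`, `L/K` finite Galois, `S : SSK k C K`, `P : Spl S L`,
`S' = P.SL hff`.  `ev_lvl_spl` : both structures are defined over all large levels, with a common
finite set of directions of `S`.  `ev_uniq` : finitely many places are fixed and rational over all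
large levels.
-/

set_option autoImplicit false
set_option linter.all false

namespace Crest.Agent.R013.Lev_372

open scoped NNReal
open WithZero Module
open Crest.Agent.R013.Desc_372 Crest.Agent.R013.Desc_372.CE
open Crest.Agent.R013.RR7_948 Crest.Agent.R013.RR8_948 Crest.Agent.R013.RR9_948
open Crest.Agent.R013.Red332 Crest.Agent.R013.SSK_332 Crest.Agent.R013.DEm_719
open Crest.Agent.R013.Cell_408 (DiscNorm)

section two

variable {k C K L : Type*} [NontriviallyNormedField k] [CompleteSpace k] [IsUltrametricDist k]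
    [LocallyCompactSpace k]
    [NormedField C] [IsUltrametricDist C] [NormedAlgebra k C] [Algebra.IsAlgebraic k C]
    [Field K] [Algebra C K] [Field L] [Algebra C L] {S : SSK k C K} {S' : SSK k C L}
variable {k₁ U M : Type*} [Field k₁] [Field U] [Field M] [Algebra k k₁] [Algebra k₁ C]
  [IsScalarTower k k₁ C]
  [Algebra k₁ U] [Algebra U K] [Algebra k₁ K] [IsScalarTower k₁ C K] [IsScalarTower k₁ U K]
  [Algebra k₁ M] [Algebra M L] [Algebra k₁ L] [IsScalarTower k₁ C L] [IsScalarTower k₁ M L]
  [CE k₁ C U K] [CE k₁ C M L]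

/-- two semistable structures, `pr` = direction below -/
theorem ev_lvl_two (hfgU : (⊤ : IntermediateField k₁ U).FG) (hfgM : (⊤ : IntermediateField k₁ M).FG)
    (pr : S'.Dir → S.Dir) (hfin : ∀ d, (pr ⁻¹' {d}).Finite)
    (he0 : ∀ e, ∃ e', pr (S'.e0 e) = S.e0 e') (he1 : ∀ e, ∃ e', pr (S'.e1 e) = S.e1 e')
    (D : Set S.Dir) (hD : D.Finite) : ∃ D' : Set S.Dir, D'.Finite ∧ D ⊆ D' ∧
      Ev k₁ C fun κ => Lvl S k₁ U κ D' ∧ Lvl S' k₁ M κ (pr ⁻¹' D') := by
  classical
  haveI := S'.fV
  choose dv hdv using exists_dir S'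
  obtain ⟨D', h1, h2, h3, h4, h5⟩ := exists_dirs S (D ∪ Set.range fun v => pr (dv v))
    (hD.union (Set.finite_range _))
  have hpre : (pr ⁻¹' D').Finite := by
    have e1 : pr ⁻¹' D' = ⋃ d ∈ D', pr ⁻¹' {d} := by
      ext y; simp
    rw [e1]
    exact h1.biUnion fun d _ => hfin d
  refine ⟨D', h1, Set.subset_union_left.trans h2, (ev_lvl S k₁ U hfgU D' h1 h3 h4 h5).and
    (ev_lvl S' k₁ M hfgM (pr ⁻¹' D') hpre ?_ ?_ ?_)⟩
  · intro e
    obtain ⟨e', he⟩ := he0 e
    exact Set.mem_preimage.mpr (he ▸ h3 e')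
  · intro e
    obtain ⟨e', he⟩ := he1 e
    exact Set.mem_preimage.mpr (he ▸ h4 e')
  · intro v
    exact ⟨dv v, h2 (Or.inr ⟨v, rfl⟩), hdv v⟩

end two

section spl

variable {k C K L : Type*} [NontriviallyNormedField k] [CompleteSpace k] [IsUltrametricDist k]
    [LocallyCompactSpace k]
    [NormedField C] [IsUltrametricDist C] [NormedAlgebra k C] [Algebra.IsAlgebraic k C]
    [IsAlgClosed C] [hk : Fact (DiscNorm k)]
    [Field K] [Algebra C K] [Field L] [Algebra C L] [Algebra K L] [IsScalarTower C K L]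
    [FiniteDimensional K L] [IsGalois K L]
    [Algebra (RatFunc C) K] [IsScalarTower C (RatFunc C) K]
    [FiniteDimensional (RatFunc C) K] [Algebra.IsSeparable (RatFunc C) K]
    {S : SSK k C K} (P : Inh_770.Spl S L) (hff : ∀ i, Inh_770.FFat (P.nmL i))
variable {k₁ U M : Type*} [Field k₁] [Field U] [Field M] [Algebra k k₁] [Algebra k₁ C]
  [IsScalarTower k k₁ C]
  [Algebra k₁ U] [Algebra U K] [Algebra k₁ K] [IsScalarTower k₁ C K] [IsScalarTower k₁ U K]
  [Algebra k₁ M] [Algebra M L] [Algebra k₁ L] [IsScalarTower k₁ C L] [IsScalarTower k₁ M L]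
  [CE k₁ C U K] [CE k₁ C M L]

/-- **(EV-SPL)** a semistable structure and an inherited one are defined over all large levels -/
theorem ev_lvl_spl (hfgU : (⊤ : IntermediateField k₁ U).FG)
    (hfgM : (⊤ : IntermediateField k₁ M).FG) (D : Set S.Dir) (hD : D.Finite) :
    ∃ D' : Set S.Dir, D'.Finite ∧ D ⊆ D' ∧
      Ev k₁ C fun κ => Lvl S k₁ U κ D' ∧
        Lvl (P.SL hff) k₁ M κ {y | (P.dirE hff y).1 ∈ D'} := by
  refine ev_lvl_two hfgU hfgM (fun y => (P.dirE hff y).1) (fun d => ?_) (fun e => ?_) (fun e => ?_)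
    D hD
  · have h1 : (fun y => (P.dirE hff y).1) ⁻¹' {d} ⊆
        (P.dirE hff).symm '' ((fun s : L ≃ₐ[K] L => (d, s)) '' Set.univ) := by
      intro y hy
      refine ⟨P.dirE hff y, ⟨(P.dirE hff y).2, trivial, ?_⟩, (P.dirE hff).symm_apply_apply y⟩
      rw [← (show (P.dirE hff y).1 = d from hy)]
    exact ((Set.finite_univ.image _).image _).subset h1
  · exact ⟨(P.edE hff e).1, by rw [P.e0_eq]⟩
  · exact ⟨(P.edE hff e).1, by rw [P.e1_eq]⟩

end spl

section places

variable {k C K₀ K : Type*} [Field k] [Field C] [Field K₀] [Field K]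
  [Algebra k C] [Algebra k K₀] [Algebra C K] [Algebra K₀ K] [Algebra k K] [IsScalarTower k C K]
  [IsScalarTower k K₀ K] [h : CE k C K₀ K] [CharZero k]
  [Algebra (RatFunc k) K₀] [IsScalarTower k (RatFunc k) K₀] [FiniteDimensional (RatFunc k) K₀]
  [Algebra.IsAlgebraic K₀ K]

/-- **(EV-PL)** finitely many places are isolated at all large levels -/
theorem ev_uniq (hc : algebraicClosure k K₀ = ⊥) (T : Set (Pl C K)) (hT : T.Finite) :
    Ev k C fun κ => ∀ P ∈ T, Uniq K₀ κ P := by
  obtain ⟨κ, h1, h2⟩ := exists_uniq hc T hT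
  exact ⟨κ, h1, fun κ' hκ P hP => (h2 P hP).mono hκ⟩

end places

end Crest.Agent.R013.Lev_372
end

-- ▼ part R013/Lev4_372
section

/-!
# R013 / LEV, part 4 (helper372): the levels as local fields; the level of the data of C-Y

* `nnf κ` : a level `κ` (finite over `k₁`, `k₁` finite over the locally compact `k`) is a
  nontrivially normed field, complete, ultrametric, with a uniformiser (946's `IsUnif`);
* `exists_level` : one level for all data of the tower `K ⊆ L`.
-/

set_option autoImplicit false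
set_option linter.all false

namespace Crest.Agent.R013.Lev_372

open scoped NNReal
open WithZero Module
open Crest.Agent.R013.Desc_372 Crest.Agent.R013.Desc_372.CE
open Crest.Agent.R013.RR7_948 Crest.Agent.R013.RR8_948 Crest.Agent.R013.RR9_948
open Crest.Agent.R013.Gl946 (IsUnif)
open Crest.Agent.R013.Cell_408 (DiscNorm)
open Crest.Agent.R013.Red332 Crest.Agent.R013.SSK_332 Crest.Agent.R013.DEm_719

section localfield

variable (k : Type*) {C k₁ : Type*} [NontriviallyNormedField k] [NormedField C] [NormedAlgebra k C]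
  [Field k₁] [Algebra k k₁] [Algebra k₁ C] [IsScalarTower k k₁ C]

/-- a level as a nontrivially normed field -/
@[reducible] noncomputable def nnf (κ : IntermediateField k₁ C) : NontriviallyNormedField κ :=
  { SubfieldClass.toNormedField κ with
    non_trivial := by
      obtain ⟨x, hx⟩ := NormedField.exists_one_lt_norm k
      refine ⟨algebraMap k κ x, ?_⟩
      show 1 < ‖((algebraMap k κ x : κ) : C)‖
      have h1 : ((algebraMap k κ x : κ) : C) = algebraMap k C x := rfl
      rw [h1, norm_algebraMap']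
      exact hx }


/-- `κ` as a normed algebra over `k` -/
@[reducible] noncomputable def nalgκ (κ : IntermediateField k₁ C) :
    letI := nnf k κ; NormedAlgebra k κ :=
  letI := nnf k κ
  { (inferInstance : Algebra k κ) with
    norm_smul_le := fun a x => by
      rw [Algebra.smul_def, norm_mul]
      refine le_of_eq ?_
      congr 1
      show ‖((algebraMap k κ a : κ) : C)‖ = ‖a‖
      have h1 : ((algebraMap k κ a : κ) : C) = algebraMap k C a := rfl
      rw [h1, norm_algebraMap'] }

/-- `C` as a normed algebra over `κ` -/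
@[reducible] noncomputable def nalgC (κ : IntermediateField k₁ C) :
    letI := nnf k κ; NormedAlgebra κ C :=
  letI := nnf k κ
  { (inferInstance : Algebra κ C) with
    norm_smul_le := fun a x => by
      rw [Algebra.smul_def, norm_mul]
      rfl }

include k in
theorem ultra_nnf [IsUltrametricDist C] (κ : IntermediateField k₁ C) :
    letI := nnf k κ; IsUltrametricDist κ := by
  letI := nnf k κ
  refine IsUltrametricDist.isUltrametricDist_of_forall_norm_add_le_max_norm fun x y => ?_
  exact IsUltrametricDist.norm_add_le_max (x : C) (y : C)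

include k in
theorem proper_nnf [LocallyCompactSpace k] (κ : IntermediateField k₁ C) [FiniteDimensional k k₁]
    [FiniteDimensional k₁ κ] : letI := nnf k κ; ProperSpace κ := by
  letI := nnf k κ
  letI := nalgκ k κ
  haveI : FiniteDimensional k κ := FiniteDimensional.trans k k₁ κ
  exact FiniteDimensional.proper k κ

include k in
theorem complete_nnf [LocallyCompactSpace k] (κ : IntermediateField k₁ C) [FiniteDimensional k k₁]
    [FiniteDimensional k₁ κ] : letI := nnf k κ; CompleteSpace κ := by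
  letI := nnf k κ
  haveI := proper_nnf k κ
  infer_instance

include k in
theorem exists_unif_nnf [LocallyCompactSpace k] [IsUltrametricDist C]
    (κ : IntermediateField k₁ C) [FiniteDimensional k k₁]
    [FiniteDimensional k₁ κ] : letI := nnf k κ; ∃ π : κ, IsUnif π := by
  letI := nnf k κ
  haveI := ultra_nnf k κ
  haveI := proper_nnf k κ
  have hcl : IsClosed (Metric.ball (0 : κ) 1) := IsUltrametricDist.isClosed_ball 0 1
  have hK : IsCompact (Metric.ball (0 : κ) 1) :=
    Metric.isCompact_of_isClosed_isBounded hcl Metric.isBounded_ball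
  obtain ⟨a, ha0, ha1⟩ := NormedField.exists_norm_lt_one κ
  obtain ⟨x, hx, hmax⟩ := hK.exists_isMaxOn ⟨a, by simpa using ha1⟩
    (continuous_norm (E := κ)).continuousOn
  have hx1 : ‖x‖ < 1 := by simpa using hx
  have hle : ∀ a : κ, ‖a‖ < 1 → ‖a‖ ≤ ‖x‖ := fun a ha => hmax (by simpa using ha)
  exact ⟨x, ha0.trans_le (hle _ ha1), hx1, hle⟩

end localfield

section fixed

variable {k C K₀ K : Type*} [Field k] [Field C] [Field K₀] [Field K]
  [Algebra k C] [Algebra k K₀] [Algebra C K] [Algebra K₀ K] [Algebra k K] [IsScalarTower k C K]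
  [IsScalarTower k K₀ K] [CE k C K₀ K]


omit [CE k C K₀ K] in
/-- an automorphism over the level `κ`, as an automorphism over `K₀`, is in `Gam κ` -/
theorem restrict_mem_Gam {κ : IntermediateField k C} (g : K ≃ₐ[lev K₀ K κ] K) :
    (g.restrictScalars K₀) ∈ Gam K₀ K κ := by
  rw [mem_Gam']
  intro f hf
  exact g.commutes ⟨f, hf⟩

variable [CharZero k] [Algebra (RatFunc k) K₀] [IsScalarTower k (RatFunc k) K₀]
  [FiniteDimensional (RatFunc k) K₀] [Algebra.IsAlgebraic K₀ K]

/-- an isolated place is fixed by all automorphisms over the level -/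
theorem uniq_v_eq_lev [Normal k C] {κ : IntermediateField k C} {P : Pl C K} (hP : Uniq K₀ κ P)
    (g : K ≃ₐ[lev K₀ K κ] K) (f : K) : P.v (g f) = P.v f :=
  hP.v_eq (s := g.restrictScalars K₀) (restrict_mem_Gam g) f

end fixed

section final

variable {k C K L : Type*} [NontriviallyNormedField k] [CompleteSpace k] [IsUltrametricDist k]
    [LocallyCompactSpace k]
    [NormedField C] [IsUltrametricDist C] [NormedAlgebra k C] [Algebra.IsAlgebraic k C]
    [IsAlgClosed C] [hk : Fact (DiscNorm k)]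
    [Field K] [Algebra C K] [Field L] [Algebra C L] [Algebra K L] [IsScalarTower C K L]
    [FiniteDimensional K L] [IsGalois K L]
    [Algebra (RatFunc C) K] [IsScalarTower C (RatFunc C) K]
    [FiniteDimensional (RatFunc C) K] [Algebra.IsSeparable (RatFunc C) K]
    {S : SSK k C K} (P : Inh_770.Spl S L) (hff : ∀ i, Inh_770.FFat (P.nmL i))
variable {k₁ U M : Type*} [Field k₁] [Field U] [Field M] [Algebra k k₁] [Algebra k₁ C]
  [IsScalarTower k k₁ C] [CharZero k₁]
  [Algebra k₁ U] [Algebra U K] [Algebra k₁ K] [IsScalarTower k₁ C K] [IsScalarTower k₁ U K]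
  [Algebra k₁ M] [Algebra M L] [Algebra k₁ L] [IsScalarTower k₁ C L] [IsScalarTower k₁ M L]
  [CE k₁ C U K] [CE k₁ C M L]
  [Algebra (RatFunc k₁) U] [IsScalarTower k₁ (RatFunc k₁) U] [FiniteDimensional (RatFunc k₁) U]
  [Algebra (RatFunc k₁) M] [IsScalarTower k₁ (RatFunc k₁) M] [FiniteDimensional (RatFunc k₁) M]

/-- **(LEVEL)** one finite level over which all data of the tower `K ⊆ L` are defined -/
theorem exists_level (hcM : algebraicClosure k₁ M = ⊥) (D : Set S.Dir) (hD : D.Finite)
    (T : Set K) (hT : T.Finite) (T' : Set L) (hT' : T'.Finite) (Pls : Set (Pl C L))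
    (hPls : Pls.Finite) {Φ : IntermediateField k₁ C → Prop} (hΦ : Ev k₁ C Φ) :
    ∃ (κ : IntermediateField k₁ C) (D' : Set S.Dir), FiniteDimensional k₁ κ ∧ D'.Finite ∧ D ⊆ D' ∧
      T ⊆ lev U K κ ∧ T' ⊆ lev M L κ ∧
      Lvl S κ (lev U K κ) (⊥ : IntermediateField κ C) D' ∧
      Lvl (P.SL hff) κ (lev M L κ) (⊥ : IntermediateField κ C)
        {y | (P.dirE hff y).1 ∈ D'} ∧
      (∀ Q ∈ Pls, Uniq M κ Q) ∧ Φ κ := by
  haveI : Algebra.IsAlgebraic M L := CE.isAlgebraic k₁ C M L
  obtain ⟨D', h1, h2, h3⟩ := ev_lvl_spl P hff (k₁ := k₁) (U := U) (M := M)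
    (fg_of_ratFunc k₁ U) (fg_of_ratFunc k₁ M) D hD
  obtain ⟨κ, hκ, ⟨h4, h5⟩, h6, h7, h8, h9⟩ := (h3.and ((ev_subset_lev (K₀ := U) hT).and
    ((ev_subset_lev (K₀ := M) hT').and ((ev_uniq hcM Pls hPls).and hΦ)))).exists
  exact ⟨κ, D', hκ, h1, h2, h6, h7, lvl_bot h4, lvl_bot h5, h8, h9⟩

end final

end Crest.Agent.R013.Lev_372
end

-- ▼ part R013/LevDefs_372
section

/-!
# R013 / LEV (helper372): the output structure of `exists_level`

`LevData S P hff T Pls` : a finite extension `κ` of `k` inside `C` (a local field with the norm of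
`C`), forms `U ⊆ M` over `κ` of `K ⊆ L`, `M/U` Galois, over which the semistable structures `S` and
`P.SL hff` are defined, with the elements of `T` in `U` and the places in `Pls` fixed by
`Gal(L/M)` and of degree one over `κ`.
-/

set_option autoImplicit false
set_option linter.all false

namespace Crest.Agent.R013.Lev_372

open scoped NNReal
open WithZero Module
open Crest.Agent.R013.Desc_372 Crest.Agent.R013.Desc_372.CE
open Crest.Agent.R013.RR7_948 Crest.Agent.R013.RR8_948 Crest.Agent.R013.RR9_948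
open Crest.Agent.R013.RR11_948
open Crest.Agent.R013.Red332 Crest.Agent.R013.SSK_332 Crest.Agent.R013.DEm_719
open Crest.Agent.R013.Gl946 (IsUnif)
open Crest.Agent.R013.Cell_408 (DiscNorm)

universe v u

section defs

variable {k : Type v} {C K L : Type u} [NontriviallyNormedField k] [CompleteSpace k]
    [IsUltrametricDist k] [LocallyCompactSpace k]
    [NormedField C] [IsUltrametricDist C] [NormedAlgebra k C] [Algebra.IsAlgebraic k C]
    [IsAlgClosed C] [hk : Fact (DiscNorm k)]
    [Field K] [Algebra C K] [Field L] [Algebra C L] [Algebra K L] [IsScalarTower C K L]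
    [FiniteDimensional K L] [IsGalois K L]
    [Algebra (RatFunc C) K] [IsScalarTower C (RatFunc C) K]
    [FiniteDimensional (RatFunc C) K] [Algebra.IsSeparable (RatFunc C) K]

/-- the data of `exists_level` -/
structure LevData {S : SSK k C K} (P : Inh_770.Spl S L) (hff : ∀ i, Inh_770.FFat (P.nmL i))
    (D : Set S.Dir) (T : Set K) (Pls : Set (Pl C L)) : Type (max v (u + 1)) where
  /-- the level -/
  κ : Type u
  [iκ : NontriviallyNormedField κ]
  [cκ : CompleteSpace κ]
  [uκ : IsUltrametricDist κ]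
  [zκ : CharZero κ]
  unif : ∃ π : κ, IsUnif π
  [kκ : Algebra k κ]
  [κC : Algebra κ C]
  [kκC : IsScalarTower k κ C]
  [fκ : FiniteDimensional k κ]
  norm_κ : ∀ c : κ, ‖algebraMap κ C c‖ = ‖c‖
  /-- the form of `K` -/
  U : Type u
  [iU : Field U]
  [κU : Algebra κ U]
  [UK : Algebra U K]
  [κK : Algebra κ K]
  [t1 : IsScalarTower κ C K]
  [t2 : IsScalarTower κ U K]
  [ceU : CE κ C U K]
  /-- the form of `L` -/
  M : Type u
  [iM : Field M]
  [κM : Algebra κ M]
  [ML : Algebra M L]
  [κL : Algebra κ L]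
  [t3 : IsScalarTower κ C L]
  [t4 : IsScalarTower κ M L]
  [ceM : CE κ C M L]
  [UM : Algebra U M]
  [UL : Algebra U L]
  [t5 : IsScalarTower κ K L]
  [t6 : IsScalarTower U K L]
  [t7 : IsScalarTower U M L]
  [t8 : IsScalarTower κ U M]
  [t9 : IsScalarTower κ U L]
  [fUM : FiniteDimensional U M]
  [gUM : IsGalois U M]
  [rU : Algebra (RatFunc κ) U]
  [rtU : IsScalarTower κ (RatFunc κ) U]
  [rfU : FiniteDimensional (RatFunc κ) U]
  [rM : Algebra (RatFunc κ) M]
  [rtM : IsScalarTower κ (RatFunc κ) M]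
  [rfM : FiniteDimensional (RatFunc κ) M]
  [rUM : IsScalarTower (RatFunc κ) U M]
  hU : algebraicClosure κ U = ⊥
  hM : algebraicClosure κ M = ⊥
  T_mem : ∀ t ∈ T, ∃ y : U, algebraMap U K y = t
  /-- the directions -/
  D' : Set S.Dir
  D'_fin : D'.Finite
  D_le : D ⊆ D'
  lvl : Lvl S κ U (⊥ : IntermediateField κ C) D'
  lvlL : Lvl (P.SL hff) κ M (⊥ : IntermediateField κ C) {y | (P.dirE hff y).1 ∈ D'}
  fixed : ∀ Q ∈ Pls, ∀ (g : L ≃ₐ[M] L) (f : L), Q.v (g f) = Q.v f
  rat : ∀ Q ∈ Pls, ∃ Q₀ : Pl κ M, degP Q₀ = 1 ∧ ∀ f : M, Q₀.v f = Q.v (algebraMap M L f)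

attribute [instance] LevData.iκ LevData.cκ LevData.uκ LevData.zκ LevData.kκ LevData.κC LevData.kκC
  LevData.fκ LevData.iU LevData.κU LevData.UK LevData.κK LevData.t1 LevData.t2 LevData.ceU
  LevData.iM LevData.κM LevData.ML LevData.κL LevData.t3 LevData.t4 LevData.ceM LevData.UM
  LevData.UL LevData.t5 LevData.t6 LevData.t7 LevData.t8 LevData.t9 LevData.fUM LevData.gUM
  LevData.rU LevData.rtU LevData.rfU LevData.rM LevData.rtM LevData.rfM LevData.rUM

end defs

end Crest.Agent.R013.Lev_372
end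

-- ▼ part R013/Lev5_372
section

/-!
# R013 / LEV, part 5 (helper372): `LevData` from forms of the tower
-/

set_option autoImplicit false
set_option linter.all false

namespace Crest.Agent.R013.Lev_372

open scoped NNReal
open WithZero Module Polynomial
open Crest.Agent.R013.Desc_372 Crest.Agent.R013.Desc_372.CE
open Crest.Agent.R013.RR7_948 Crest.Agent.R013.RR8_948 Crest.Agent.R013.RR9_948
open Crest.Agent.R013.RR11_948
open Crest.Agent.R013.Red332 Crest.Agent.R013.SSK_332 Crest.Agent.R013.DEm_719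
open Crest.Agent.R013.Gl946 (IsUnif)
open Crest.Agent.R013.Cell_408 (DiscNorm)

/-- a form of a function field over an algebraically closed field has no new constants -/
theorem hc_of_ce (k C K₀ K : Type*) [Field k] [Field C] [Field K₀] [Field K] [Algebra k C]
    [Algebra k K₀] [Algebra C K] [Algebra K₀ K] [Algebra k K] [IsScalarTower k C K]
    [IsScalarTower k K₀ K] [CE k C K₀ K] [IsAlgClosed C] : algebraicClosure k K₀ = ⊥ := by
  rw [eq_bot_iff]
  intro x hx
  have h1 : IsAlgebraic k x := mem_algebraicClosure_iff.mp hx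
  have h2 : IsAlgebraic C (algebraMap K₀ K x) := by
    have h3 : IsAlgebraic k (algebraMap K₀ K x) := h1.algebraMap
    exact h3.tower_top C
  have hbot : algebraicClosure C K = ⊥ := IntermediateField.eq_bot_of_isAlgClosed_of_isAlgebraic _
  have h3 : algebraMap K₀ K x ∈ algebraicClosure C K := mem_algebraicClosure_iff.mpr h2
  rw [hbot, IntermediateField.mem_bot] at h3
  obtain ⟨c, hc'⟩ := h3
  have h4 : algebraMap C K c ∈ lev K₀ K (⊥ : IntermediateField k C) := by
    rw [hc']
    exact (lev K₀ K (⊥ : IntermediateField k C)).algebraMap_mem x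
  obtain ⟨a, ha⟩ := IntermediateField.mem_bot.mp (mem_of_algebraMap_mem_lev K₀ K ⊥ h4)
  rw [IntermediateField.mem_bot]
  refine ⟨a, (algebraMap K₀ K).injective ?_⟩
  rw [← hc', ← ha, ← IsScalarTower.algebraMap_apply, ← IsScalarTower.algebraMap_apply]

/-- ring homomorphisms from the rational function field -/
theorem ratFunc_hom_ext {F A : Type*} [Field F] [Field A] {φ ψ : RatFunc F →+* A}
    (h1 : ∀ c : F, φ (algebraMap F (RatFunc F) c) = ψ (algebraMap F (RatFunc F) c))
    (h2 : φ RatFunc.X = ψ RatFunc.X) : φ = ψ := by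
  apply IsLocalization.ringHom_ext (nonZeroDivisors F[X])
  apply Polynomial.ringHom_ext
  · intro c
    have e1 : algebraMap F[X] (RatFunc F) (C c) = algebraMap F (RatFunc F) c := by
      rw [RatFunc.algebraMap_C]; rfl
    show φ (algebraMap F[X] (RatFunc F) (C c)) = ψ (algebraMap F[X] (RatFunc F) (C c))
    rw [e1, h1]
  · show φ (algebraMap F[X] (RatFunc F) X) = ψ (algebraMap F[X] (RatFunc F) X)
    rw [RatFunc.algebraMap_X, h2]

universe v u

section main

variable {k : Type v} {C K L : Type u} [NontriviallyNormedField k] [CompleteSpace k]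
    [IsUltrametricDist k] [LocallyCompactSpace k] [CharZero k]
    [NormedField C] [IsUltrametricDist C] [NormedAlgebra k C] [Algebra.IsAlgebraic k C]
    [IsAlgClosed C] [hk : Fact (DiscNorm k)]
    [Field K] [Algebra C K] [Field L] [Algebra C L] [Algebra K L] [IsScalarTower C K L]
    [FiniteDimensional K L] [IsGalois K L]
    [Algebra (RatFunc C) K] [IsScalarTower C (RatFunc C) K]
    [FiniteDimensional (RatFunc C) K] [Algebra.IsSeparable (RatFunc C) K]
    {S : SSK k C K} (P : Inh_770.Spl S L) (hff : ∀ i, Inh_770.FFat (P.nmL i))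
variable {k₁ U M : Type u} [Field k₁] [Field U] [Field M] [Algebra k k₁] [Algebra k₁ C]
  [IsScalarTower k k₁ C] [FiniteDimensional k k₁]
  [Algebra k₁ U] [Algebra U K] [Algebra k₁ K] [IsScalarTower k₁ C K] [IsScalarTower k₁ U K]
  [Algebra k₁ M] [Algebra M L] [Algebra k₁ L] [IsScalarTower k₁ C L] [IsScalarTower k₁ M L]
  [IsScalarTower k₁ K L] [Algebra U M] [Algebra U L] [IsScalarTower U K L] [IsScalarTower U M L]
  [IsScalarTower k₁ U M] [IsScalarTower k₁ U L]
  [CE k₁ C U K] [CE k₁ C M L] [FiniteDimensional U M] [IsGalois U M]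
  [Algebra (RatFunc k₁) U] [IsScalarTower k₁ (RatFunc k₁) U] [FiniteDimensional (RatFunc k₁) U]
  [Algebra (RatFunc k₁) M] [IsScalarTower k₁ (RatFunc k₁) M] [FiniteDimensional (RatFunc k₁) M]
  [IsScalarTower (RatFunc k₁) U M]

attribute [local instance] levRat levRat_tower levRat_finite levLev tower_levLev tower_κ_levLev
  tower_U_levLev

omit [FiniteDimensional (RatFunc k₁) U] [FiniteDimensional (RatFunc k₁) M] in
theorem rat_tower (κ : IntermediateField k₁ C) :
    IsScalarTower (RatFunc κ) (lev U K κ) (lev M L κ) := by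
  have h1 : algebraMap (RatFunc κ) (lev M L κ) =
      (algebraMap (lev U K κ) (lev M L κ)).comp (algebraMap (RatFunc κ) (lev U K κ)) := by
    apply ratFunc_hom_ext
    · intro c
      rw [RingHom.comp_apply, ← IsScalarTower.algebraMap_apply κ (RatFunc κ) (lev U K κ),
        ← IsScalarTower.algebraMap_apply κ (RatFunc κ) (lev M L κ),
        ← IsScalarTower.algebraMap_apply κ (lev U K κ) (lev M L κ)]
    · have e1 : algebraMap (RatFunc κ) (lev U K κ) RatFunc.X =
          algebraMap U (lev U K κ) (xK k₁ U) := levRat_xK κ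
      have e2 : algebraMap (RatFunc κ) (lev M L κ) RatFunc.X =
          algebraMap M (lev M L κ) (xK k₁ M) := levRat_xK κ
      have e3 : xK k₁ M = algebraMap U M (xK k₁ U) :=
        IsScalarTower.algebraMap_apply (RatFunc k₁) U M RatFunc.X
      rw [RingHom.comp_apply, e1, e2, e3]
      apply Subtype.ext
      show algebraMap M L (algebraMap U M (xK k₁ U)) = algebraMap K L (algebraMap U K (xK k₁ U))
      rw [← IsScalarTower.algebraMap_apply, ← IsScalarTower.algebraMap_apply]
  exact IsScalarTower.of_algebraMap_eq fun x => by rw [h1]; rfl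

variable (k₁ U M)

attribute [local instance] finite_lev sep_lev isAlg_lev

include k₁ U M in
/-- **(LEVEL, forms)** -/
theorem levData_of_forms (D : Set S.Dir) (hD : D.Finite)
    (T : Set K) (hT : T.Finite) (Pls : Set (Pl C L)) (hPls : Pls.Finite) :
    Nonempty (LevData.{v, u} P hff D T Pls) := by
  haveI : CharZero k₁ := charZero_of_injective_algebraMap (algebraMap k k₁).injective
  haveI : CharZero C := charZero_of_injective_algebraMap (algebraMap k C).injective
  haveI : Algebra.IsAlgebraic k₁ C := Algebra.IsAlgebraic.tower_top (K := k) k₁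
  haveI : Normal k₁ C := normal_iff.mpr fun x =>
      ⟨(Algebra.IsAlgebraic.isAlgebraic x).isIntegral, IsAlgClosed.splits _⟩
  haveI : IsGalois k₁ C := ⟨⟩
  haveI : Algebra.IsAlgebraic M L := CE.isAlgebraic k₁ C M L
  have hcM : algebraicClosure k₁ M = ⊥ := hc_of_ce k₁ C M L
  letI aL : Algebra (RatFunc C) L := ((algebraMap K L).comp (algebraMap (RatFunc C) K)).toAlgebra
  haveI tL : IsScalarTower (RatFunc C) K L := IsScalarTower.of_algebraMap_eq fun x => rfl
  haveI tL' : IsScalarTower C (RatFunc C) L := IsScalarTower.of_algebraMap_eq fun x => by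
    show algebraMap C L x = algebraMap K L (algebraMap (RatFunc C) K (algebraMap C (RatFunc C) x))
    rw [← IsScalarTower.algebraMap_apply C (RatFunc C) K, ← IsScalarTower.algebraMap_apply]
  haveI fL : FiniteDimensional (RatFunc C) L := FiniteDimensional.trans (RatFunc C) K L
  obtain ⟨κ, D', hκ, h1, h2, h3, -, h5, h6, h7, -⟩ := exists_level P hff (U := U) hcM D hD T hT
    (∅ : Set L) Set.finite_empty Pls hPls (Ev.all (k := k₁) (C := C) fun _ => trivial)
  have hgal := isGalois_lev (k := k₁) (C := C) (U := U) (K := K) (M := M) (L := L) κ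
  have hcU' : algebraicClosure κ (lev U K κ) = ⊥ := hc_of_ce κ C (lev U K κ) K
  have hcM' : algebraicClosure κ (lev M L κ) = ⊥ := hc_of_ce κ C (lev M L κ) L
  haveI : FiniteDimensional k κ := FiniteDimensional.trans k k₁ κ
  haveI : IsScalarTower k κ C := IsScalarTower.of_algebraMap_eq fun x => rfl
  exact ⟨{ κ := κ
           iκ := nnf k κ
           cκ := complete_nnf k κ
           uκ := ultra_nnf k κ
           zκ := charZero_of_injective_algebraMap (algebraMap k κ).injective
           unif := exists_unif_nnf k κ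
           kκ := inferInstance
           κC := inferInstance
           kκC := inferInstance
           fκ := inferInstance
           norm_κ := fun c => rfl
           U := lev U K κ
           iU := inferInstance
           κU := inferInstance
           UK := inferInstance
           κK := inferInstance
           t1 := inferInstance
           t2 := inferInstance
           ceU := inferInstance
           M := lev M L κ
           iM := inferInstance
           κM := inferInstance
           ML := inferInstance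
           κL := inferInstance
           t3 := inferInstance
           t4 := inferInstance
           ceM := inferInstance
           UM := levLev U M K L κ
           UL := inferInstance
           t5 := inferInstance
           t6 := inferInstance
           t7 := tower_levLev κ
           t8 := tower_κ_levLev κ
           t9 := inferInstance
           fUM := hgal.1
           gUM := hgal.2
           rU := levRat U K κ
           rtU := levRat_tower κ
           rfU := levRat_finite κ
           rM := levRat M L κ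
           rtM := levRat_tower κ
           rfM := levRat_finite κ
           rUM := rat_tower κ
           hU := hcU'
           hM := hcM'
           T_mem := fun t ht => ⟨⟨t, h3 ht⟩, rfl⟩
           D' := D'
           D'_fin := h1
           D_le := h2
           lvl := h5
           lvlL := h6
           fixed := fun Q hQ g f => uniq_v_eq_lev (h7 Q hQ) g f
           rat := fun Q hQ => ⟨resC κ (lev M L κ) Q, (h7 Q hQ).degP_eq_one hcM, fun f =>
             resC_lev_v hcM κ Q f⟩ }⟩

end main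

end Crest.Agent.R013.Lev_372
end

-- ▼ part R013/Lev6_372

/-!
# R013 / LEV, part 6 (helper372): `LevData` for a tower

`Form k C K` : a form of `K` over a finite extension of `k`.  `Form.of_finite` : a finite extension
of a field with a form has a form.  `exists_levData` : the level of stage C.
-/

set_option autoImplicit false
set_option linter.all false

namespace Crest.Agent.R013.Lev_372

open scoped NNReal
open WithZero Module Polynomial
open Crest.Agent.R013.Desc_372 Crest.Agent.R013.Desc_372.CE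
open Crest.Agent.R013.RR7_948 Crest.Agent.R013.RR8_948 Crest.Agent.R013.RR9_948
open Crest.Agent.R013.RR11_948
open Crest.Agent.R013.Red332 Crest.Agent.R013.SSK_332 Crest.Agent.R013.DEm_719
open Crest.Agent.R013.Gl946 (IsUnif)
open Crest.Agent.R013.Cell_408 (DiscNorm)

universe w v u

/-- a form of `K/C` over a finite extension `k₁` of `k` -/
structure Form (k : Type v) (C K : Type u) [Field k] [Field C] [Algebra k C] [Field K]
    [Algebra C K] : Type (max v (u + 1)) where
  k₁ : Type u
  [i1 : Field k₁]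
  [a1 : Algebra k k₁]
  [a2 : Algebra k₁ C]
  [t1 : IsScalarTower k k₁ C]
  [f1 : FiniteDimensional k k₁]
  U : Type u
  [i2 : Field U]
  [a3 : Algebra k₁ U]
  [a4 : Algebra U K]
  [a5 : Algebra k₁ K]
  [t2 : IsScalarTower k₁ C K]
  [t3 : IsScalarTower k₁ U K]
  [ce : CE k₁ C U K]
  [r1 : Algebra (RatFunc k₁) U]
  [r2 : IsScalarTower k₁ (RatFunc k₁) U]
  [r3 : FiniteDimensional (RatFunc k₁) U]

section one

variable {k : Type v} {k₀ : Type w} {C K₀ F K : Type u} [Field k] [Field k₀] [Field C] [Field K₀]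
  [Field F] [Field K] [Algebra k C] [Algebra k k₀] [Algebra k₀ C] [IsScalarTower k k₀ C]
  [FiniteDimensional k k₀] [Algebra k₀ K₀] [Algebra C F] [Algebra K₀ F] [Algebra k₀ F]
  [IsScalarTower k₀ C F] [IsScalarTower k₀ K₀ F] [CE k₀ C K₀ F]
  [Algebra C K] [Algebra F K] [IsScalarTower C F K] [FiniteDimensional F K]
  [Algebra (RatFunc k₀) K₀] [IsScalarTower k₀ (RatFunc k₀) K₀] [FiniteDimensional (RatFunc k₀) K₀]

attribute [local instance] levRat levRat_tower levRat_finite

variable (k k₀ C K₀ F K) in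
include k₀ K₀ F in
/-- a finite extension of a field with a form has a form -/
theorem exists_form : Nonempty (Form k C K) := by
  letI aK : Algebra K₀ K := ((algebraMap F K).comp (algebraMap K₀ F)).toAlgebra
  haveI tK : IsScalarTower K₀ F K := IsScalarTower.of_algebraMap_eq fun x => rfl
  obtain ⟨k', hk', h1⟩ := DescC_116.exists_model k₀ C K₀ F K ∅ Set.finite_empty
  obtain ⟨M, -, hM1, -, hM2⟩ := h1 k' le_rfl
  letI aR : Algebra (RatFunc k') M := ((algebraMap (lev K₀ F k') M).comp
    (algebraMap (RatFunc k') (lev K₀ F k'))).toAlgebra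
  haveI tR : IsScalarTower (RatFunc k') (lev K₀ F k') M :=
    IsScalarTower.of_algebraMap_eq fun x => rfl
  haveI tR' : IsScalarTower k' (RatFunc k') M := IsScalarTower.of_algebraMap_eq fun x => by
    show algebraMap k' M x = algebraMap (lev K₀ F k') M
      (algebraMap (RatFunc k') (lev K₀ F k') (algebraMap k' (RatFunc k') x))
    rw [← IsScalarTower.algebraMap_apply k' (RatFunc k') (lev K₀ F k'),
      ← IsScalarTower.algebraMap_apply]
  haveI fR : FiniteDimensional (RatFunc k') M := FiniteDimensional.trans _ (lev K₀ F k') M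
  haveI : IsScalarTower k k' C := IsScalarTower.of_algebraMap_eq fun x => rfl
  exact ⟨{ k₁ := k', U := M
           f1 := FiniteDimensional.trans k k₀ k' }⟩

end one

section two

variable {k : Type v} {C K L : Type u} [NontriviallyNormedField k] [CompleteSpace k]
    [IsUltrametricDist k] [LocallyCompactSpace k] [CharZero k]
    [NormedField C] [IsUltrametricDist C] [NormedAlgebra k C] [Algebra.IsAlgebraic k C]
    [IsAlgClosed C] [hk : Fact (DiscNorm k)]
    [Field K] [Algebra C K] [Field L] [Algebra C L] [Algebra K L] [IsScalarTower C K L]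
    [FiniteDimensional K L] [IsGalois K L]
    [Algebra (RatFunc C) K] [IsScalarTower C (RatFunc C) K]
    [FiniteDimensional (RatFunc C) K] [Algebra.IsSeparable (RatFunc C) K]
    {S : SSK k C K} (P : Inh_770.Spl S L) (hff : ∀ i, Inh_770.FFat (P.nmL i))

attribute [local instance] levRat levRat_tower levRat_finite

section lev1

variable (k₁ U : Type u) [Field k₁] [Field U] [Algebra k k₁] [Algebra k₁ C]
  [IsScalarTower k k₁ C] [FiniteDimensional k k₁]
  [Algebra k₁ U] [Algebra U K] [Algebra k₁ K] [IsScalarTower k₁ C K] [IsScalarTower k₁ U K]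
  [CE k₁ C U K]
  [Algebra (RatFunc k₁) U] [IsScalarTower k₁ (RatFunc k₁) U] [FiniteDimensional (RatFunc k₁) U]

include k₁ U in
/-- **(LEVEL)** from a form of `K` -/
theorem levData_of_form (D : Set S.Dir) (hD : D.Finite)
    (T : Set K) (hT : T.Finite) (Pls : Set (Pl C L)) (hPls : Pls.Finite) :
    Nonempty (LevData.{v, u} P hff D T Pls) := by
  letI aUL : Algebra U L := ((algebraMap K L).comp (algebraMap U K)).toAlgebra
  haveI tUL : IsScalarTower U K L := IsScalarTower.of_algebraMap_eq fun x => rfl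
  obtain ⟨k', hk', h1⟩ := DescC_116.exists_galois_model k₁ C U K L ∅ Set.finite_empty
  obtain ⟨M, -, hM1, -, hM2, hM3, -⟩ := h1 k' le_rfl
  letI aR : Algebra (RatFunc k') M := ((algebraMap (lev U K k') M).comp
    (algebraMap (RatFunc k') (lev U K k'))).toAlgebra
  haveI tR : IsScalarTower (RatFunc k') (lev U K k') M :=
    IsScalarTower.of_algebraMap_eq fun x => rfl
  haveI tR' : IsScalarTower k' (RatFunc k') M := IsScalarTower.of_algebraMap_eq fun x => by
    show algebraMap k' M x = algebraMap (lev U K k') M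
      (algebraMap (RatFunc k') (lev U K k') (algebraMap k' (RatFunc k') x))
    rw [← IsScalarTower.algebraMap_apply k' (RatFunc k') (lev U K k'),
      ← IsScalarTower.algebraMap_apply]
  haveI fR : FiniteDimensional (RatFunc k') M := FiniteDimensional.trans _ (lev U K k') M
  haveI : IsScalarTower k k' C := IsScalarTower.of_algebraMap_eq fun x => rfl
  haveI : FiniteDimensional k k' := FiniteDimensional.trans k k₁ k'
  exact levData_of_forms P hff (k₁ := k') (U := lev U K k') (M := M) D hD T hT Pls hPls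

end lev1

variable (k₀ : Type w) (K₀ F : Type u) [Field k₀] [Field K₀] [Field F] [Algebra k k₀]
  [Algebra k₀ C] [IsScalarTower k k₀ C] [FiniteDimensional k k₀]
  [Algebra k₀ K₀] [Algebra C F] [Algebra K₀ F] [Algebra k₀ F]
  [IsScalarTower k₀ C F] [IsScalarTower k₀ K₀ F] [CE k₀ C K₀ F]
  [Algebra F K] [IsScalarTower C F K] [FiniteDimensional F K]
  [Algebra (RatFunc k₀) K₀] [IsScalarTower k₀ (RatFunc k₀) K₀] [FiniteDimensional (RatFunc k₀) K₀]

include k₀ K₀ F in
/-- **(LEVEL)** the level of stage C -/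
theorem exists_levData (D : Set S.Dir) (hD : D.Finite)
    (T : Set K) (hT : T.Finite) (Pls : Set (Pl C L)) (hPls : Pls.Finite) :
    Nonempty (LevData.{v, u} P hff D T Pls) := by
  obtain ⟨Z⟩ := exists_form k k₀ C K₀ F K
  letI := Z.i1
  letI := Z.i2
  letI := Z.a1
  letI := Z.a2
  letI := Z.a3
  letI := Z.a4
  letI := Z.a5
  letI := Z.r1
  haveI := Z.t1
  haveI := Z.t2
  haveI := Z.t3
  haveI := Z.f1
  haveI := Z.ce
  haveI := Z.r2
  haveI := Z.r3
  exact levData_of_form P hff Z.k₁ Z.U D hD T hT Pls hPls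

end two

end Crest.Agent.R013.Lev_372
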