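import Crest.Agent.R013.SSG1_109
import Mathlib
import Crest.Agent.R013.Good4_408

-- ▼ part R013/SSG2_109
section

/-!
# R013 / SSG2_109 : the finite tree of closed discs, location of points and norms

`Tree v gD gA V E root`: finite set `V` of closed discs `(a, r)`, edges `E` (child, parent),
extracted from the inductive predicate `FD` of `SSZorn_315`.
-/

set_option autoImplicit false

open scoped NNReal

namespace Crest.Agent.R013.SSG_109

open Crest.Agent.R013.SSZorn_315 Crest.Agent.R013.PL_109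

variable {C : Type*} [Field C] (v : Valuation C ℝ≥0)

/-- finite tree of closed discs with good cells between them -/
structure Tree (gD : C → ℝ≥0 → Prop) (gA : C → ℝ≥0 → ℝ≥0 → Prop)
    (V : Finset (C × ℝ≥0)) (E : Finset ((C × ℝ≥0) × (C × ℝ≥0))) (root : C × ℝ≥0) : Prop where
  root_mem : root ∈ V
  sub : ∀ x ∈ V, v (x.1 - root.1) ≤ root.2 ∧ x.2 ≤ root.2
  val : ∀ x ∈ V, IsVal v x.2
  inj : ∀ x ∈ V, ∀ y ∈ V, v (x.1 - y.1) ≤ x.2 → x.2 = y.2 → x = y
  mem : ∀ e ∈ E, e.1 ∈ V ∧ e.2 ∈ V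
  edge : ∀ e ∈ E, v (e.1.1 - e.2.1) ≤ e.2.2 ∧ e.1.2 < e.2.2 ∧ gA e.1.1 e.1.2 e.2.2
  gap : ∀ e ∈ E, ∀ z ∈ V, v (z.1 - e.1.1) < e.2.2 → z.2 < e.2.2 →
    v (z.1 - e.1.1) ≤ e.1.2 ∧ z.2 ≤ e.1.2
  parent : ∀ x ∈ V, x ≠ root → ∃ y, (x, y) ∈ E
  dir : ∀ x ∈ V, ∀ c, v (c - x.1) ≤ x.2 → (∃ y, (y, x) ∈ E ∧ v (y.1 - c) < x.2) ∨
    (gD c x.2 ∧ ∀ z ∈ V, v (z.1 - c) < x.2 → x.2 ≤ z.2)

variable {v} {gD : C → ℝ≥0 → Prop} {gA : C → ℝ≥0 → ℝ≥0 → Prop}

theorem sub_lt {a b c : C} {r : ℝ≥0} (h1 : v (a - b) < r) (h2 : v (b - c) < r) : v (a - c) < r :=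
  (v_sub_le a b c).trans_lt (max_lt h1 h2)

theorem sub_lt_swap {a b : C} {r : ℝ≥0} (h : v (a - b) < r) : v (b - a) < r := by
  rwa [Valuation.map_sub_swap]

theorem sub_le_swap {a b : C} {r : ℝ≥0} (h : v (a - b) ≤ r) : v (b - a) ≤ r := by
  rwa [Valuation.map_sub_swap]

/-- **the finite tree** -/
theorem exists_tree {a : C} {r : ℝ≥0} (h : FD v gD gA a r) :
    ∃ V E, Tree v gD gA V E (a, r) := by
  classical
  induction h with
  | mk a r S s hr hS hSS hs hD hA hrec ih =>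
    choose! V E hT using ih
    -- facts about the subtrees
    have hroot : ∀ c ∈ S, (c, s c) ∈ V c := fun c hc => (hT c hc).root_mem
    have hclose : ∀ c ∈ S, ∀ z ∈ V c, v (z.1 - c) < r ∧ z.2 < r := fun c hc z hz =>
      ⟨((hT c hc).sub z hz).1.trans_lt (hs c hc), ((hT c hc).sub z hz).2.trans_lt (hs c hc)⟩
    have hsame : ∀ c ∈ S, ∀ d ∈ S, ∀ z ∈ V c, ∀ z' ∈ V d, v (z.1 - z'.1) < r → c = d := by
      intro c hc d hd z hz z' hz' hlt
      refine hSS c hc d hd ?_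
      exact sub_lt (sub_lt_swap (hclose c hc z hz).1) (sub_lt hlt (hclose d hd z' hz').1)
    have hmem : ∀ z, z ∈ insert (a, r) (S.biUnion V) ↔ z = (a, r) ∨ ∃ c ∈ S, z ∈ V c := by
      intro z; simp
    have hmemE : ∀ e, e ∈ S.image (fun c => ((c, s c), (a, r))) ∪ S.biUnion E ↔
        (∃ c ∈ S, e = ((c, s c), (a, r))) ∨ ∃ c ∈ S, e ∈ E c := by
      intro e
      simp [eq_comm]
    refine ⟨insert (a, r) (S.biUnion V),
      S.image (fun c => ((c, s c), (a, r))) ∪ S.biUnion E, ?_, ?_, ?_, ?_, ?_, ?_, ?_, ?_, ?_⟩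
    · simp
    · intro x hx
      rcases (hmem x).1 hx with rfl | ⟨c, hc, hx⟩
      · simp
      · obtain ⟨h1, h2⟩ := hclose c hc x hx
        exact ⟨(v_sub_le x.1 c a).trans (max_le h1.le (hS c hc)), h2.le⟩
    · intro x hx
      rcases (hmem x).1 hx with rfl | ⟨c, hc, hx⟩
      · exact hr
      · exact (hT c hc).val x hx
    · intro x hx y hy hxy h2
      rcases (hmem x).1 hx with rfl | ⟨c, hc, hx⟩
      · rcases (hmem y).1 hy with rfl | ⟨d, hd, hy⟩
        · rfl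
        · exact absurd h2 (hclose d hd y hy).2.ne'
      · rcases (hmem y).1 hy with rfl | ⟨d, hd, hy⟩
        · exact absurd h2 (hclose c hc x hx).2.ne
        · have hcd : c = d := hsame c hc d hd x hx y hy (hxy.trans_lt (hclose c hc x hx).2)
          subst hcd
          exact (hT c hc).inj x hx y hy hxy h2
    · intro e he
      rcases (hmemE e).1 he with ⟨c, hc, rfl⟩ | ⟨c, hc, he⟩
      · exact ⟨(hmem _).2 (Or.inr ⟨c, hc, hroot c hc⟩), (hmem _).2 (Or.inl rfl)⟩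
      · exact ⟨(hmem _).2 (Or.inr ⟨c, hc, ((hT c hc).mem e he).1⟩),
          (hmem _).2 (Or.inr ⟨c, hc, ((hT c hc).mem e he).2⟩)⟩
    · intro e he
      rcases (hmemE e).1 he with ⟨c, hc, rfl⟩ | ⟨c, hc, he⟩
      · exact ⟨hS c hc, hs c hc, hA c hc⟩
      · exact (hT c hc).edge e he
    · intro e he z hz h1 h2
      rcases (hmemE e).1 he with ⟨c, hc, rfl⟩ | ⟨c, hc, he⟩
      · rcases (hmem z).1 hz with rfl | ⟨d, hd, hz⟩
        · exact absurd h2 (lt_irrefl _)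
        · have hcd : d = c := hsame d hd c hc z hz _ (hroot c hc) h1
          subst hcd
          exact (hT d hd).sub z hz
      · obtain ⟨he1, he2⟩ := (hT c hc).mem e he
        have h3 := (hclose c hc _ he2).2
        rcases (hmem z).1 hz with rfl | ⟨d, hd, hz⟩
        · exact absurd (h2.trans h3) (lt_irrefl _)
        · have hcd : d = c := hsame d hd c hc z hz _ he1 (h1.trans h3)
          subst hcd
          exact (hT d hd).gap e he z hz h1 h2
    · intro x hx hne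
      rcases (hmem x).1 hx with rfl | ⟨c, hc, hx⟩
      · exact absurd rfl hne
      · by_cases hxc : x = (c, s c)
        · exact ⟨(a, r), (hmemE _).2 (Or.inl ⟨c, hc, by rw [hxc]⟩)⟩
        · obtain ⟨y, hy⟩ := (hT c hc).parent x hx hxc
          exact ⟨y, (hmemE _).2 (Or.inr ⟨c, hc, hy⟩)⟩
    · intro x hx c' hc'
      rcases (hmem x).1 hx with rfl | ⟨c, hc, hx⟩
      · by_cases hd : ∃ d ∈ S, v (c' - d) < r
        · obtain ⟨d, hd, hlt⟩ := hd
          exact Or.inl ⟨(d, s d), (hmemE _).2 (Or.inl ⟨d, hd, rfl⟩), sub_lt_swap hlt⟩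
        · push Not at hd
          refine Or.inr ⟨hD c' hc' hd, ?_⟩
          intro z hz hlt
          rcases (hmem z).1 hz with rfl | ⟨d, hd', hz⟩
          · exact le_rfl
          · exact absurd (hd d hd') (not_le.2 (sub_lt (sub_lt_swap hlt) (hclose d hd' z hz).1))
      · have hlt := hclose c hc x hx
        rcases (hT c hc).dir x hx c' hc' with ⟨y, hy, hyc⟩ | ⟨h1, h2⟩
        · exact Or.inl ⟨y, (hmemE _).2 (Or.inr ⟨c, hc, hy⟩), hyc⟩
        · refine Or.inr ⟨h1, ?_⟩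
          intro z hz hz2
          rcases (hmem z).1 hz with rfl | ⟨d, hd, hz⟩
          · exact hlt.2.le
          · have hcd : d = c := by
              refine hsame d hd c hc z hz x hx ?_
              exact sub_lt (hz2.trans hlt.2) (hc'.trans_lt hlt.2)
            subst hcd
            exact h2 z hz hz2

variable {V : Finset (C × ℝ≥0)} {E : Finset ((C × ℝ≥0) × (C × ℝ≥0))} {root : C × ℝ≥0}

theorem Tree.parent_unique (T : Tree v gD gA V E root) {x y y' : C × ℝ≥0} (h : (x, y) ∈ E)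
    (h' : (x, y') ∈ E) : y = y' := by
  have hy := (T.mem _ h).2
  have hy' := (T.mem _ h').2
  obtain ⟨h1, h2, -⟩ := T.edge _ h
  obtain ⟨h1', h2', -⟩ := T.edge _ h'
  simp only at h1 h2 h1' h2' hy hy'
  rcases lt_trichotomy y.2 y'.2 with hlt | heq | hlt
  · have := T.gap _ h' y hy ((sub_le_swap h1).trans_lt hlt) hlt
    exact absurd this.2 (not_le.2 h2)
  · refine T.inj y hy y' hy' ?_ heq
    refine (v_sub_le y.1 x.1 y'.1).trans (max_le (sub_le_swap h1) ?_)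
    rw [heq]; exact h1'
  · have := T.gap _ h y' hy' ((sub_le_swap h1').trans_lt hlt) hlt
    exact absurd this.2 (not_le.2 h2')

theorem Tree.child_unique (T : Tree v gD gA V E root) {x y y' : C × ℝ≥0} (h : (y, x) ∈ E)
    (h' : (y', x) ∈ E) (hlt : v (y.1 - y'.1) < x.2) : y = y' := by
  have hy := (T.mem _ h).1
  have hy' := (T.mem _ h').1
  obtain ⟨-, h2, -⟩ := T.edge _ h
  obtain ⟨-, h2', -⟩ := T.edge _ h'
  have h3 := T.gap _ h y' hy' (sub_lt_swap hlt) h2'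
  have h4 := T.gap _ h' y hy hlt h2
  exact T.inj y hy y' hy' (sub_le_swap h3.1) (le_antisymm h4.2 h3.2)

theorem Tree.root_no_parent (T : Tree v gD gA V E root) {y : C × ℝ≥0} (h : (root, y) ∈ E) :
    False := by
  have h1 := (T.edge _ h).2.1
  have h2 := (T.sub _ (T.mem _ h).2).2
  exact absurd h1 (not_lt.2 h2)

variable (v)

/-- a point of the line, given by its distances to the elements of `C`: a point `y` of `C`
(`d b = v (b - y)`) or a norm `w` (`d b = w (X - b)`) -/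
structure IsPtL (d : C → ℝ≥0) : Prop where
  le : ∀ b c, d b ≤ max (d c) (v (b - c))
  ge : ∀ b c, v (b - c) ≤ max (d b) (d c)

variable {v}

theorem isPtL_point (y : C) : IsPtL v (fun b => v (b - y)) where
  le b c := by
    rw [max_comm]
    exact v_sub_le b c y
  ge b c := by
    have h := v_sub_le (v := v) b y c
    rwa [Valuation.map_sub_swap v y c] at h


/-- `x` is the smallest closed disc of the tree containing the point `d` -/
structure IsMinV (V : Finset (C × ℝ≥0)) (d : C → ℝ≥0) (x : C × ℝ≥0) : Prop where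
  mem : x ∈ V
  le : d x.1 ≤ x.2
  min : ∀ z ∈ V, d z.1 ≤ z.2 → x.2 ≤ z.2

theorem IsMinV.unique (T : Tree v gD gA V E root) {d : C → ℝ≥0} (hd : IsPtL v d)
    {x x' : C × ℝ≥0} (h : IsMinV V d x) (h' : IsMinV V d x') : x = x' := by
  have h1 : x.2 = x'.2 := le_antisymm (h.min x' h'.mem h'.le) (h'.min x h.mem h.le)
  refine T.inj x h.mem x' h'.mem ((hd.ge _ _).trans (max_le h.le ?_)) h1
  rw [h1]; exact h'.le

theorem exists_isMinV (T : Tree v gD gA V E root) {d : C → ℝ≥0} (h : d root.1 ≤ root.2) :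
    ∃ x, IsMinV V d x := by
  classical
  obtain ⟨x, hx, hmin⟩ := Finset.exists_min_image (V.filter fun z => d z.1 ≤ z.2) Prod.snd
    ⟨root, Finset.mem_filter.2 ⟨T.root_mem, h⟩⟩
  rw [Finset.mem_filter] at hx
  exact ⟨x, hx.1, hx.2, fun z hz hz2 => hmin z (Finset.mem_filter.2 ⟨hz, hz2⟩)⟩

/-- **location** of a point inside the root disc: at a vertex, in a disc or in an annulus -/
theorem locate (T : Tree v gD gA V E root) {d : C → ℝ≥0} (hd : IsPtL v d) {x : C × ℝ≥0}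
    (hx : IsMinV V d x) :
    (∀ c, v (c - x.1) ≤ x.2 → x.2 ≤ d c) ∨
    (∃ c, v (c - x.1) ≤ x.2 ∧ d c < x.2 ∧ gD c x.2 ∧ ∀ z ∈ V, v (z.1 - c) < x.2 → x.2 ≤ z.2) ∨
    (∃ y, (y, x) ∈ E ∧ y.2 < d y.1 ∧ d y.1 < x.2) := by
  by_cases h1 : ∀ c, v (c - x.1) ≤ x.2 → x.2 ≤ d c
  · exact Or.inl h1
  right
  push Not at h1
  obtain ⟨c, hc, hlt⟩ := h1
  rcases T.dir x hx.mem c hc with ⟨y, hy, hyc⟩ | ⟨h1, h2⟩
  · right
    refine ⟨y, hy, ?_, ?_⟩
    · by_contra hcon
      push Not at hcon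
      have h3 := hx.min y (T.mem _ hy).1 hcon
      exact absurd (T.edge _ hy).2.1 (not_lt.2 h3)
    · exact (hd.le y.1 c).trans_lt (max_lt hlt hyc)
  · left
    exact ⟨c, hc, hlt, h1, h2⟩




end Crest.Agent.R013.SSG_109
end

-- ▼ part R013/SSG3_109
section

/-!
# R013 / SSG3_109 : good cells over a finite tree of discs (output of SS-GLOB, box L12)

`exists_lineTree`: from the local inputs `Inp` one gets a finite tree of closed discs of `C`, all
cells of which (open discs at the vertices, annuli between a vertex and its parent, the disc at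
infinity) are good; moreover finitely many prescribed closed discs can be taken as vertices.
-/

set_option autoImplicit false

open scoped NNReal

namespace Crest.Agent.R013.SSG_109

open Crest.Agent.R013.SSZorn_315 Crest.Agent.R013.PL_109

variable {C : Type*} [Field C] (v : Valuation C ℝ≥0)

/-- the open disc of centre `c` and radius `r` (a value) is good -/
def GDr (GD : C → C → Prop) (c : C) (r : ℝ≥0) : Prop := ∀ ρ, v ρ = r → GD c ρ

/-- the open annulus `s < v (x - c) < r` (`s`, `r` values) is good -/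
def GAr (GA : C → C → C → Prop) (c : C) (s r : ℝ≥0) : Prop :=
  ∀ σ ρ, v σ = s → v ρ = r → GA c σ ρ

variable (GD : C → C → Prop) (GA : C → C → C → Prop) (GI : C → Prop)

/-- decomposition of the line over a finite tree of closed discs with good cells; `ρ₀` is the
radius of the root disc, whose centre is `0`. -/
structure LineTree (V : Finset (C × ℝ≥0)) (E : Finset ((C × ℝ≥0) × (C × ℝ≥0))) (ρ₀ : C) : Prop where
  tree : Tree v (GDr v GD) (GAr v GA) V E (0, v ρ₀)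
  inf : ∀ ρ, v ρ = v ρ₀ → GI ρ

variable {v}

theorem Tree.map {gD gD' : C → ℝ≥0 → Prop} {gA gA' : C → ℝ≥0 → ℝ≥0 → Prop}
    {V : Finset (C × ℝ≥0)} {E : Finset ((C × ℝ≥0) × (C × ℝ≥0))} {root : C × ℝ≥0}
    (T : Tree v gD gA V E root)
    (hD : ∀ c r, IsVal v r → gD c r → gD' c r)
    (hA : ∀ c s r, IsVal v s → IsVal v r → s < r → gA c s r → gA' c s r) :
    Tree v gD' gA' V E root where
  root_mem := T.root_mem
  sub := T.sub
  val := T.val
  inj := T.inj
  mem := T.mem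
  edge e he := ⟨(T.edge e he).1, (T.edge e he).2.1,
    hA _ _ _ (T.val _ (T.mem e he).1) (T.val _ (T.mem e he).2) (T.edge e he).2.1 (T.edge e he).2.2⟩
  gap := T.gap
  parent := T.parent
  dir x hx c hc := (T.dir x hx c hc).imp id fun h => ⟨hD c x.2 (T.val x hx) h.1, h.2⟩

variable {GD GA GI}

theorem gDr_of_gD (S : SubIn v GD GA GI) {T : Finset (C × ℝ≥0)} {c : C} {r : ℝ≥0}
    (hr : IsVal v r) (h : gD (v := v) GD T c r) : GDr v GD c r := by
  obtain ⟨ρ, h1, h2, h3, -⟩ := h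
  intro ρ' hρ'
  have h0 : ρ' ≠ 0 := by
    rintro rfl
    rw [map_zero] at hρ'
    exact hr.1 hρ'.symm
  refine S.s1 c ρ c ρ' h3 ?_ h0 ?_
  · rw [sub_self, map_zero]
    exact pos_iff_ne_zero.2 ((Valuation.ne_zero_iff v).2 h1)
  · rw [hρ']; exact h2

theorem gAr_of_gA (S : SubIn v GD GA GI) {T : Finset (C × ℝ≥0)} {c : C} {s r : ℝ≥0}
    (hsr : s < r) (h : gA (v := v) GA T c s r) : GAr v GA c s r := by
  obtain ⟨σ, ρ, -, h1, h2, -, h4, -⟩ := h
  intro σ' ρ' hσ' hρ'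
  refine S.s3 c σ ρ σ' ρ' h4 ?_ ?_ ?_
  · rw [hσ']; exact h1
  · rw [hσ', hρ']; exact hsr
  · rw [hρ']; exact h2

/-- the type 2 point of a closed disc -/
theorem isPtL_dst (t : C × ℝ≥0) : IsPtL v (dst v t) where
  le b c := by
    rw [dst, dst]
    apply max_le
    · refine (v_sub_le t.1 c b).trans (max_le ?_ ?_)
      · exact (le_max_left _ _).trans (le_max_left _ _)
      · rw [Valuation.map_sub_swap]; exact le_max_right _ _
    · exact (le_max_right _ _).trans (le_max_left _ _)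
  ge b c := by
    refine (v_sub_le b t.1 c).trans (max_le ?_ ?_)
    · rw [Valuation.map_sub_swap]
      exact (le_max_left _ _).trans (le_max_left _ _)
    · exact (le_max_left _ _).trans (le_max_right _ _)

/-- a common bound which is a value -/
theorem exists_bound (T : Finset (C × ℝ≥0)) (hT : ∀ t ∈ T, IsVal v t.2) (ρ : C) (hρ : ρ ≠ 0) :
    ∃ ρ₀, ρ₀ ≠ 0 ∧ v ρ ≤ v ρ₀ ∧ ∀ t ∈ T, v t.1 ≤ v ρ₀ ∧ t.2 ≤ v ρ₀ := by
  classical
  induction T using Finset.induction_on with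
  | empty => exact ⟨ρ, hρ, le_rfl, by simp⟩
  | insert x T hx ih =>
    obtain ⟨ρ₀, h0, h1, h2⟩ := ih fun t ht => hT t (Finset.mem_insert_of_mem ht)
    obtain ⟨hx0, τ, hτ⟩ := hT x (Finset.mem_insert_self _ _)
    have key : ∀ a b : C, a ≠ 0 → ∃ c, c ≠ 0 ∧ v a ≤ v c ∧ v b ≤ v c := by
      intro a b ha
      rcases le_total (v a) (v b) with h | h
      · refine ⟨b, ?_, h, le_rfl⟩
        rintro rfl
        rw [map_zero] at h
        exact ha ((Valuation.zero_iff v).1 (le_antisymm h zero_le))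
      · exact ⟨a, ha, le_rfl, h⟩
    obtain ⟨ρ₁, g0, g1, g2⟩ := key ρ₀ x.1 h0
    obtain ⟨ρ₂, f0, f1, f2⟩ := key ρ₁ τ g0
    refine ⟨ρ₂, f0, h1.trans (g1.trans f1), ?_⟩
    intro t ht
    rcases Finset.mem_insert.1 ht with rfl | ht
    · exact ⟨g2.trans f1, by rw [← hτ]; exact f2⟩
    · exact ⟨(h2 t ht).1.trans (g1.trans f1), (h2 t ht).2.trans (g1.trans f1)⟩

/-- **SS-GLOB**: finite tree of closed discs with good cells. -/
theorem exists_lineTree [IsAlgClosed C] (I : Inp v GD GA GI) (T : Finset (C × ℝ≥0))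
    (hT : ∀ t ∈ T, IsVal v t.2) :
    ∃ V E ρ₀, ρ₀ ≠ 0 ∧ LineTree v GD GA GI V E ρ₀ ∧
      ∀ t ∈ T, ∃ x ∈ V, v (t.1 - x.1) ≤ t.2 ∧ x.2 = t.2 := by
  obtain ⟨ρ, hρ, hI⟩ := I.one.2
  obtain ⟨ρ₀, h0, h1, h2⟩ := exists_bound T hT ρ hρ
  have L := local_of I T hT
  have hr₀ : IsVal v (v ρ₀) := ⟨(Valuation.ne_zero_iff v).2 h0, ρ₀, rfl⟩
  obtain ⟨V, E, hVE⟩ := exists_tree (fd_of_local L 0 (v ρ₀) hr₀)
  refine ⟨V, E, ρ₀, h0, ⟨hVE.map (fun c r hr h => gDr_of_gD I.sub hr h)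
    (fun c s r _ _ hsr h => gAr_of_gA I.sub hsr h), fun ρ' hρ' => I.sub.sInf ρ ρ' hI ?_⟩, ?_⟩
  · rw [hρ']; exact h1
  intro t ht
  have hroot : dst v t (0, v ρ₀).1 ≤ (0, v ρ₀).2 := by
    rw [dst]
    simp only [sub_zero]
    exact max_le (h2 t ht).1 (h2 t ht).2
  obtain ⟨x, hx⟩ := exists_isMinV hVE hroot
  have hle := hx.le
  have h3 : v (t.1 - x.1) ≤ x.2 := (le_max_left _ _).trans hle
  have h4 : t.2 ≤ x.2 := (le_max_right _ _).trans hle
  rcases locate hVE (isPtL_dst t) hx with h | ⟨c, hc, hlt, hgd, -⟩ | ⟨y, hy, hlt1, hlt2⟩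
  · have h5 := h t.1 h3
    rw [dst, sub_self, map_zero, max_eq_right zero_le] at h5
    have h6 : x.2 = t.2 := le_antisymm h5 h4
    exact ⟨x, hx.mem, by rw [← h6]; exact h3, h6⟩
  · obtain ⟨_, _, _, _, h5⟩ := hgd
    exact absurd (h5 t ht) (not_le.2 hlt)
  · obtain ⟨_, _, _, _, _, _, _, h5⟩ := (hVE.edge _ hy).2.2
    rcases h5 t ht with h | h
    · exact absurd h (not_le.2 hlt1)
    · exact absurd h (not_le.2 hlt2)


end Crest.Agent.R013.SSG_109
end

-- ▼ part R013/LineDec_315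

/-!
# RED-PTS (row 13): choice of the base cells

`LineDec k C K` : finite tree of closed discs of the line, all other directions open discs; the
cells (open discs, open annuli, the disc at infinity) are good for `K`.
`exists_lineDec` : from 109's `LineTree`.
-/

set_option autoImplicit false
set_option linter.style.haveILetI false
set_option linter.unusedSectionVars false
set_option linter.unusedVariables false

open scoped NNReal

namespace Crest.Agent.R013.LineDec_315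

open Crest.Agent.R013.SSZorn_315 Crest.Agent.R013.PL_109 Crest.Agent.R013.SSG_109
open Crest.Agent.R013.Cell_408 (DiscNorm)
open Crest.Agent.R013.Good_408

universe u

/-- decomposition of the line: vertices `|x - a| ≤ |ρ|`, annuli (child, parent), good discs -/
structure LineDec (k : Type*) (C : Type u) (K : Type*) [NontriviallyNormedField k]
    [CompleteSpace k] [IsUltrametricDist k] [NormedField C] [IsUltrametricDist C] [NormedAlgebra k C]
    [Algebra.IsAlgebraic k C] [IsAlgClosed C] [hk : Fact (DiscNorm k)]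
    [Field K] [Algebra C K] [Algebra (RatFunc C) K] [IsScalarTower C (RatFunc C) K] where
  /-- vertices -/
  V : Type u
  V_fin : Finite V
  a : V → C
  ρ : V → C
  ρ_ne : ∀ x, ρ x ≠ 0
  V_inj : ∀ x y, ‖a x - a y‖₊ ≤ ‖ρ x‖₊ → ‖ρ x‖₊ = ‖ρ y‖₊ → x = y
  /-- root -/
  r : V
  a_r : a r = 0
  sub : ∀ x, ‖a x‖₊ ≤ ‖ρ r‖₊ ∧ ‖ρ x‖₊ ≤ ‖ρ r‖₊
  inf : GoodInf k C K (ρ r)
  /-- discs at the vertices -/
  U : Type u
  uv : U → V
  cU : U → C
  cU_le : ∀ u, ‖cU u - a (uv u)‖₊ ≤ ‖ρ (uv u)‖₊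
  goodU : ∀ u, GoodDisc k C K (cU u) (ρ (uv u))
  /-- annuli -/
  E : Type u
  E_fin : Finite E
  ch : E → V
  pa : E → V
  E_le : ∀ e, ‖a (ch e) - a (pa e)‖₊ ≤ ‖ρ (pa e)‖₊
  E_lt : ∀ e, ‖ρ (ch e)‖₊ < ‖ρ (pa e)‖₊
  goodE : ∀ e, GoodAnn k C K (a (ch e)) (ρ (ch e)) (ρ (pa e))
  gap : ∀ e z, ‖a z - a (ch e)‖₊ < ‖ρ (pa e)‖₊ → ‖ρ z‖₊ < ‖ρ (pa e)‖₊ →
    ‖a z - a (ch e)‖₊ ≤ ‖ρ (ch e)‖₊ ∧ ‖ρ z‖₊ ≤ ‖ρ (ch e)‖₊
  ch_inj : Function.Injective ch
  ch_range : ∀ x, x ≠ r ↔ ∃ e, ch e = x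
  /-- directions -/
  dir : ∀ x c, ‖c - a x‖₊ ≤ ‖ρ x‖₊ →
    (∃ e, pa e = x ∧ ‖a (ch e) - c‖₊ < ‖ρ x‖₊) ∨ (∃ u, uv u = x ∧ ‖cU u - c‖₊ < ‖ρ x‖₊)
  dirU : ∀ u u', uv u = uv u' → ‖cU u - cU u'‖₊ < ‖ρ (uv u)‖₊ → u = u'
  dirE : ∀ e e', pa e = pa e' → ‖a (ch e) - a (ch e')‖₊ < ‖ρ (pa e)‖₊ → e = e'
  dirV : ∀ u z, ‖a z - cU u‖₊ < ‖ρ (uv u)‖₊ → ‖ρ (uv u)‖₊ ≤ ‖ρ z‖₊

variable {k : Type*} {C : Type u} {K : Type*} [NontriviallyNormedField k] [CompleteSpace k]
    [IsUltrametricDist k] [NormedField C] [IsUltrametricDist C] [NormedAlgebra k C]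
    [Algebra.IsAlgebraic k C] [IsAlgClosed C] [hk : Fact (DiscNorm k)]
    [Field K] [Algebra C K] [Algebra (RatFunc C) K] [IsScalarTower C (RatFunc C) K]

/-- the norm of `C` as a valuation -/
noncomputable abbrev nv (C : Type*) [NormedField C] [IsUltrametricDist C] : Valuation C ℝ≥0 :=
  NormedField.valuation

theorem nv_apply (c : C) : nv C c = ‖c‖₊ := rfl

/-- representatives of the open discs of radius `r` -/
theorem exists_rep {F : Type*} [Field F] (v : Valuation F ℝ≥0) : ∃ rep : ℝ≥0 → F → F,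
    (∀ r, 0 < r → ∀ c, v (rep r c - c) < r) ∧
    ∀ r, 0 < r → ∀ c c', v (c - c') < r → rep r c = rep r c' := by
  classical
  let S : ∀ r : ℝ≥0, 0 < r → Setoid F := fun r hr =>
    { r := fun c c' => v (c - c') < r
      iseqv := ⟨fun c => by rw [sub_self, map_zero]; exact hr,
        fun h => sub_lt_swap h, fun h h' => SSG_109.sub_lt h h'⟩ }
  refine ⟨fun r c => if hr : 0 < r then (Quotient.mk (S r hr) c).out else c, ?_, ?_⟩
  · intro r hr c
    simp only [dif_pos hr]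
    have h := Quotient.mk_out (s := S r hr) c
    exact h
  · intro r hr c c' h
    simp only [dif_pos hr]
    have h1 : Quotient.mk (S r hr) c = Quotient.mk (S r hr) c' := Quotient.sound h
    rw [h1]

theorem exists_lineDec {V : Finset (C × ℝ≥0)} {E : Finset ((C × ℝ≥0) × (C × ℝ≥0))} {ρ₀ : C}
    (L : LineTree (nv C) (GoodDisc k C K) (GoodAnn k C K) (GoodInf k C K) V E ρ₀) :
    ∃ D : LineDec k C K, ∀ x ∈ V, ∃ x' : D.V, D.a x' = x.1 ∧ ‖D.ρ x'‖₊ = x.2 := by
  classical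
  have T := L.tree
  obtain ⟨rep, hrep, hrep'⟩ := exists_rep (nv C)
  have hpos : ∀ x ∈ V, 0 < x.2 := fun x hx => pos_iff_ne_zero.2 (T.val x hx).1
  -- radii
  have hρ : ∀ x : {x // x ∈ V}, ∃ c : C, ‖c‖₊ = x.1.2 := fun x => (T.val x.1 x.2).2
  choose ρ hρ using hρ
  let U : Type _ := {p : {x // x ∈ V} × C // nv C (p.2 - p.1.1.1) ≤ p.1.1.2 ∧
    rep p.1.1.2 p.2 = p.2 ∧ GDr (nv C) (GoodDisc k C K) p.2 p.1.1.2 ∧
    ∀ z ∈ V, nv C (z.1 - p.2) < p.1.1.2 → p.1.1.2 ≤ z.2}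
  have hdir : ∀ (x : {x // x ∈ V}) (c : C), nv C (c - x.1.1) ≤ x.1.2 →
      (∃ e : {e // e ∈ E}, e.1.2 = x.1 ∧ nv C (e.1.1.1 - c) < x.1.2) ∨
      (∃ u : U, u.1.1 = x ∧ nv C (u.1.2 - c) < x.1.2) := by
    intro x c hc
    have hx := hpos x.1 x.2
    rcases T.dir x.1 x.2 c hc with ⟨y, hy, hyc⟩ | ⟨h1, h2⟩
    · exact Or.inl ⟨⟨_, hy⟩, rfl, hyc⟩
    · right
      have hr := hrep x.1.2 hx c
      have hc' : nv C (rep x.1.2 c - x.1.1) ≤ x.1.2 :=
        (v_sub_le _ c _).trans (max_le hr.le hc)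
      have h2' : ∀ z ∈ V, nv C (z.1 - rep x.1.2 c) < x.1.2 → x.1.2 ≤ z.2 := by
        intro z hz hlt
        exact h2 z hz (SSG_109.sub_lt hlt hr)
      rcases T.dir x.1 x.2 _ hc' with ⟨y, hy, hyc⟩ | ⟨h3, h4⟩
      · exact absurd (T.edge _ hy).2.1 (not_lt.2 (h2' y (T.mem _ hy).1 hyc))
      · exact ⟨⟨⟨x, rep x.1.2 c⟩, hc', hrep' _ hx _ _ hr, h3, h4⟩, rfl, hr⟩
  let D : LineDec k C K :=
    { V := {x // x ∈ V}
      V_fin := inferInstance
      a := fun x => x.1.1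
      ρ := ρ
      ρ_ne := fun x h => by
        have h1 := hρ x
        rw [h, nnnorm_zero] at h1
        exact (hpos x.1 x.2).ne h1
      V_inj := fun x y h1 h2 => by
        rw [hρ x, hρ y] at h2
        rw [hρ x] at h1
        exact Subtype.ext (T.inj x.1 x.2 y.1 y.2 h1 h2)
      r := ⟨_, T.root_mem⟩
      a_r := rfl
      sub := fun x => by
        have h1 := T.sub x.1 x.2
        rw [hρ, hρ]
        simp only [sub_zero] at h1
        exact h1
      inf := L.inf _ (hρ ⟨_, T.root_mem⟩)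
      U := U
      uv := fun u => u.1.1
      cU := fun u => u.1.2
      cU_le := fun u => by rw [hρ]; exact u.2.1
      goodU := fun u => u.2.2.2.1 _ (hρ u.1.1)
      E := {e // e ∈ E}
      E_fin := inferInstance
      ch := fun e => ⟨e.1.1, (T.mem _ e.2).1⟩
      pa := fun e => ⟨e.1.2, (T.mem _ e.2).2⟩
      E_le := fun e => by rw [hρ]; exact (T.edge _ e.2).1
      E_lt := fun e => by rw [hρ, hρ]; exact (T.edge _ e.2).2.1
      goodE := fun e => (T.edge _ e.2).2.2 _ _ (hρ ⟨e.1.1, (T.mem _ e.2).1⟩)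
        (hρ ⟨e.1.2, (T.mem _ e.2).2⟩)
      gap := fun e z h1 h2 => by
        rw [hρ] at h1
        rw [hρ, hρ] at h2
        rw [hρ, hρ]
        exact T.gap _ e.2 z.1 z.2 h1 h2
      ch_inj := by
        rintro ⟨e, he⟩ ⟨e', he'⟩ h
        have h1 : e.1 = e'.1 := congrArg Subtype.val h
        obtain ⟨x, y⟩ := e
        obtain ⟨x', y'⟩ := e'
        simp only at h1
        subst h1
        have := T.parent_unique he he'
        subst this
        rfl
      ch_range := by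
        intro x
        constructor
        · intro hx
          obtain ⟨y, hy⟩ := T.parent x.1 x.2 fun h => hx (Subtype.ext h)
          exact ⟨⟨_, hy⟩, rfl⟩
        · rintro ⟨⟨⟨z, y⟩, he⟩, rfl⟩ h
          have h1 : z = (0, nv C ρ₀) := congrArg Subtype.val h
          subst h1
          exact T.root_no_parent he
      dir := fun x c hc => by
        rw [hρ] at hc
        rcases hdir x c hc with ⟨e, h1, h2⟩ | ⟨u, h1, h2⟩
        · refine Or.inl ⟨e, Subtype.ext h1, ?_⟩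
          rw [hρ]; exact h2
        · refine Or.inr ⟨u, h1, ?_⟩
          rw [hρ]; exact h2
      dirU := by
        rintro ⟨⟨x, c⟩, h1, h2, h3, h4⟩ ⟨⟨x', c'⟩, h1', h2', h3', h4'⟩ h h'
        simp only at h h'
        subst h
        rw [hρ] at h'
        have h5 : c = c' := by
          have e1 : rep x.1.2 c = c := h2
          have e2 : rep x.1.2 c' = c' := h2'
          rw [← e1, ← e2]
          exact hrep' _ (hpos x.1 x.2) _ _ h'
        subst h5
        rfl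
      dirE := by
        rintro ⟨⟨x, y⟩, he⟩ ⟨⟨x', y'⟩, he'⟩ h h'
        have h1 : y = y' := congrArg Subtype.val h
        subst h1
        rw [hρ] at h'
        have := T.child_unique he he' h'
        subst this
        rfl
      dirV := by
        rintro u z h
        rw [hρ] at h
        rw [hρ, hρ]
        exact u.2.2.2.2 z.1 z.2 h }
  exact ⟨D, fun x hx => ⟨⟨x, hx⟩, rfl, hρ _⟩⟩

namespace LineDec

variable (D : LineDec k C K)

/-! ### location of points and norms -/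

/-- the point `d` (see `IsPtL`) lies in the disc `u` -/
def inU (u : D.U) (d : C → ℝ≥0) : Prop := d (D.cU u) < ‖D.ρ (D.uv u)‖₊

/-- the point `d` lies in the annulus `e` -/
def inE (e : D.E) (d : C → ℝ≥0) : Prop :=
  ‖D.ρ (D.ch e)‖₊ < d (D.a (D.ch e)) ∧ d (D.a (D.ch e)) < ‖D.ρ (D.pa e)‖₊

/-- the point `d` lies in the disc at infinity -/
def inI (d : C → ℝ≥0) : Prop := ‖D.ρ D.r‖₊ < d 0

/-- the point `d` is the vertex `x` -/
def isV (x : D.V) (d : C → ℝ≥0) : Prop :=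
  d (D.a x) ≤ ‖D.ρ x‖₊ ∧ ∀ c, ‖c - D.a x‖₊ ≤ ‖D.ρ x‖₊ → ‖D.ρ x‖₊ ≤ d c

/-- minimal vertex above a point -/
structure MinV (d : C → ℝ≥0) (x : D.V) : Prop where
  le : d (D.a x) ≤ ‖D.ρ x‖₊
  min : ∀ z, d (D.a z) ≤ ‖D.ρ z‖₊ → ‖D.ρ x‖₊ ≤ ‖D.ρ z‖₊

variable {D} {d : C → ℝ≥0} (hd : IsPtL (nv C) d)
include hd

theorem MinV.unique {x x' : D.V} (h : D.MinV d x) (h' : D.MinV d x') : x = x' := by
  have h1 : ‖D.ρ x‖₊ = ‖D.ρ x'‖₊ := le_antisymm (h.min x' h'.le) (h'.min x h.le)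
  refine D.V_inj x x' ((hd.ge _ _).trans (max_le h.le ?_)) h1
  rw [h1]; exact h'.le

omit hd in
theorem exists_minV (h : ¬ D.inI d) : ∃ x, D.MinV d x := by
  classical
  haveI := D.V_fin
  have hne : ({z : D.V | d (D.a z) ≤ ‖D.ρ z‖₊} : Set D.V).Nonempty := by
    refine ⟨D.r, ?_⟩
    show d (D.a D.r) ≤ _
    rw [D.a_r]
    exact not_lt.1 h
  obtain ⟨x, hx, hmin⟩ := Set.exists_min_image _ (fun z => ‖D.ρ z‖₊) (Set.toFinite _) hne
  exact ⟨x, hx, fun z hz => hmin z hz⟩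

/-- **location** -/
theorem locate : (∃ x, D.isV x d) ∨ (∃ u, D.inU u d) ∨ (∃ e, D.inE e d) ∨ D.inI d := by
  by_cases hI : D.inI d
  · exact Or.inr (Or.inr (Or.inr hI))
  obtain ⟨x, hx⟩ := exists_minV hI
  by_cases h1 : ∀ c, ‖c - D.a x‖₊ ≤ ‖D.ρ x‖₊ → ‖D.ρ x‖₊ ≤ d c
  · exact Or.inl ⟨x, hx.le, h1⟩
  push Not at h1
  obtain ⟨c, hc, hlt⟩ := h1
  rcases D.dir x c hc with ⟨e, he, h2⟩ | ⟨u, hu, h2⟩
  · right; right; left
    refine ⟨e, ?_, ?_⟩
    · by_contra hcon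
      have h3 := hx.min (D.ch e) (not_lt.1 hcon)
      rw [← he] at h3
      exact absurd (D.E_lt e) (not_lt.2 h3)
    · rw [he]
      exact (hd.le _ c).trans_lt (max_lt hlt h2)
  · right; left
    refine ⟨u, ?_⟩
    show d _ < _
    rw [hu]
    exact (hd.le _ c).trans_lt (max_lt hlt h2)

theorem minV_of_inU {u : D.U} (h : D.inU u d) : D.MinV d (D.uv u) where
  le := (hd.le _ (D.cU u)).trans (max_le h.le (sub_le_swap (D.cU_le u)))
  min z hz := by
    by_contra hcon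
    push Not at hcon
    have h1 : nv C (D.a z - D.cU u) < ‖D.ρ (D.uv u)‖₊ :=
      (hd.ge _ _).trans_lt (max_lt (hz.trans_lt hcon) h)
    exact absurd (D.dirV u z h1) (not_le.2 hcon)

theorem minV_of_inE {e : D.E} (h : D.inE e d) : D.MinV d (D.pa e) where
  le := (hd.le _ (D.a (D.ch e))).trans (max_le h.2.le (sub_le_swap (D.E_le e)))
  min z hz := by
    by_contra hcon
    push Not at hcon
    have h3 : nv C (D.a z - D.a (D.ch e)) < ‖D.ρ (D.pa e)‖₊ :=
      (hd.ge _ _).trans_lt (max_lt (hz.trans_lt hcon) h.2)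
    obtain ⟨h4, h5⟩ := D.gap e z h3 hcon
    have h6 : d (D.a (D.ch e)) ≤ ‖D.ρ (D.ch e)‖₊ :=
      (hd.le _ (D.a z)).trans (max_le (hz.trans h5) (sub_le_swap h4))
    exact absurd h.1 (not_lt.2 h6)


theorem not_inI_of_minV {x : D.V} (h : D.MinV d x) : ¬ D.inI d := by
  intro hI
  have h1 : d 0 ≤ ‖D.ρ D.r‖₊ := by
    refine (hd.le 0 (D.a x)).trans (max_le (h.le.trans (D.sub x).2) ?_)
    rw [nv_apply, zero_sub, nnnorm_neg]
    exact (D.sub x).1
  exact absurd hI (not_lt.2 h1)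

theorem inU_unique {u u' : D.U} (h : D.inU u d) (h' : D.inU u' d) : u = u' := by
  have h1 := (minV_of_inU hd h).unique hd (minV_of_inU hd h')
  refine D.dirU u u' h1 ?_
  have h2 : d (D.cU u') < ‖D.ρ (D.uv u)‖₊ := by rw [h1]; exact h'
  exact (hd.ge _ _).trans_lt (max_lt h h2)

theorem inE_unique {e e' : D.E} (h : D.inE e d) (h' : D.inE e' d) : e = e' := by
  have h1 := (minV_of_inE hd h).unique hd (minV_of_inE hd h')
  refine D.dirE e e' h1 ?_
  have h2 : d (D.a (D.ch e')) < ‖D.ρ (D.pa e)‖₊ := by rw [h1]; exact h'.2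
  exact (hd.ge _ _).trans_lt (max_lt h.2 h2)

theorem not_inU_inE {u : D.U} {e : D.E} (h : D.inU u d) (h' : D.inE e d) : False := by
  have h1 := (minV_of_inU hd h).unique hd (minV_of_inE hd h')
  have h2 : d (D.a (D.ch e)) < ‖D.ρ (D.uv u)‖₊ := by rw [h1]; exact h'.2
  have h3 : nv C (D.a (D.ch e) - D.cU u) < ‖D.ρ (D.uv u)‖₊ :=
    (hd.ge _ _).trans_lt (max_lt h2 h)
  have h4 := D.dirV u _ h3
  rw [h1] at h4
  exact absurd (D.E_lt e) (not_lt.2 h4)

theorem not_inU_inI {u : D.U} (h : D.inU u d) (h' : D.inI d) : False :=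
  not_inI_of_minV hd (minV_of_inU hd h) h'

theorem not_inE_inI {e : D.E} (h : D.inE e d) (h' : D.inI d) : False :=
  not_inI_of_minV hd (minV_of_inE hd h) h'





omit hd in
/-- a point of `C` is no vertex -/
theorem not_isV_point (y : C) {x : D.V} (h : D.isV x (fun b => nv C (b - y))) : False := by
  have h1 : ‖y - D.a x‖₊ ≤ ‖D.ρ x‖₊ := by
    have : nv C (D.a x - y) ≤ ‖D.ρ x‖₊ := h.1
    rw [nv_apply, ← nnnorm_neg, neg_sub] at this
    exact this
  have h2 : ‖D.ρ x‖₊ ≤ nv C (y - y) := h.2 y h1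
  rw [sub_self, map_zero] at h2
  exact D.ρ_ne x (nnnorm_eq_zero.1 (le_antisymm h2 (zero_le)))

end LineDec

end Crest.Agent.R013.LineDec_315
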