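import Mathlib
import Crest.Agent.R013.RR20_948
import Crest.Agent.R013.Exp_863
import Crest.Agent.R013.Cell2_408
import Crest.Agent.R013.Eis_863
import Crest.Agent.R013.Comp4_267

-- ▼ part R013/PlX_863
section

/-!
# Row 13, leaf SS-ONE (helper863): Puiseux expansions at the places of a function field

`C` algebraically closed, `K/C` a function field of one variable, `Q` a place of `K`, `y ∈ K` with
`ord_Q y = e ≥ 1`, `e ≠ 0` in `C`.  There is a ring homomorphism `ψ : O_Q → C⟦X⟧` preserving the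
orders, with `ψ y = X ^ e` (`exists_expansion`).
-/

set_option autoImplicit false
set_option linter.unusedSectionVars false

open PowerSeries WithZero

namespace Crest.Agent.R013.PlX_863

open Crest.Agent.R013.RR7_948 Crest.Agent.R013.RR8_948 Crest.Agent.R013.RR11_948
open Crest.Agent.R013.RR12_948 Crest.Agent.R013.RR13_948
open Crest.Agent.R013.Exp_863

/-- `e`-th roots of power series -/
theorem exists_root {C : Type*} [Field C] [IsAlgClosed C] {e : ℕ} (he : (e : C) ≠ 0)
    (u : C⟦X⟧) (hu : constantCoeff u ≠ 0) : ∃ w : C⟦X⟧, w ^ e = u ∧ constantCoeff w ≠ 0 := by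
  have he0 : 0 < e := by
    rcases Nat.eq_zero_or_pos e with h | h
    · rw [h] at he; simp at he
    · exact h
  obtain ⟨c, hc⟩ := IsAlgClosed.exists_pow_nat_eq (constantCoeff u) he0
  have hc0 : c ≠ 0 := by
    rintro rfl
    rw [zero_pow he0.ne'] at hc
    exact hu hc.symm
  have hH : HenselianRing C⟦X⟧ (Ideal.span {X}) := inferInstance
  have hmem : ∀ f : C⟦X⟧, f ∈ Ideal.span {(X : C⟦X⟧)} ↔ constantCoeff f = 0 := by
    intro f
    rw [Ideal.mem_span_singleton, X_dvd_iff]
  obtain ⟨w, hw, hw'⟩ := hH.is_henselian (Polynomial.X ^ e - Polynomial.C u)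
    (Polynomial.monic_X_pow_sub_C u he0.ne') (PowerSeries.C c) (by
      rw [hmem]
      simp [hc]) (by
      have h1 : IsUnit ((Polynomial.derivative (Polynomial.X ^ e - Polynomial.C u)).eval
          (PowerSeries.C c)) := by
        rw [PowerSeries.isUnit_iff_constantCoeff, isUnit_iff_ne_zero]
        simp [Polynomial.derivative_X_pow, hc0, he]
      exact h1.map _)
  refine ⟨w, ?_, ?_⟩
  · have : w ^ e - u = 0 := by simpa [Polynomial.IsRoot.def] using hw
    exact sub_eq_zero.1 this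
  · rw [hmem, map_sub, constantCoeff_C, sub_eq_zero] at hw'
    rw [hw']
    exact hc0

section

variable {C : Type*} [Field C] {K : Type*} [Field K] [Algebra C K]

theorem const_le (Q : Pl C K) (c : C) : Q.v (algebraMap C K c) ≤ 1 := by
  by_cases hc : c = 0
  · simp [hc]
  · rw [Q.const c hc]

/-- the valuation ring of a place as a subalgebra -/
def OA (Q : Pl C K) : Subalgebra C K where
  carrier := {f | Q.v f ≤ 1}
  mul_mem' {a b} ha hb := by
    change Q.v _ ≤ 1
    rw [map_mul]; exact mul_le_one' ha hb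
  add_mem' {a b} ha hb := (Q.v.map_add a b).trans (max_le ha hb)
  algebraMap_mem' c := const_le Q c

theorem mem_OA {Q : Pl C K} {f : K} : f ∈ OA Q ↔ Q.v f ≤ 1 := Iff.rfl

theorem lt_one_iff_le {a : ℤᵐ⁰} : a < 1 ↔ a ≤ exp (-1) := RR2_948.lt_one_iff a

theorem dvd_iff {Q : Pl C K} {a b : OA Q} (hb : (b : K) ≠ 0) : b ∣ a ↔ Q.v (a : K) ≤ Q.v (b : K) := by
  constructor
  · rintro ⟨c, rfl⟩
    rw [MulMemClass.coe_mul, map_mul]
    calc Q.v (b : K) * Q.v (c : K) ≤ Q.v (b : K) * 1 := mul_le_mul_right c.2 _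
      _ = _ := mul_one _
  · intro h
    have hb' : Q.v (b : K) ≠ 0 := (Valuation.ne_zero_iff _).2 hb
    refine ⟨⟨(a : K) / b, ?_⟩, ?_⟩
    · rw [mem_OA, map_div₀]
      exact div_le_one_of_le₀ h zero_le
    · apply Subtype.ext
      rw [MulMemClass.coe_mul, mul_div_cancel₀ _ hb]

end

variable {C : Type*} [Field C] [IsAlgClosed C] {K : Type*} [Field K] [Algebra C K]
  [Algebra (RatFunc C) K] [IsScalarTower C (RatFunc C) K] [FiniteDimensional (RatFunc C) K]
  [Algebra.IsSeparable (RatFunc C) K]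

/-- the residue field of a place is `C` -/
theorem exists_const (Q : Pl C K) {f : K} (hf : Q.v f ≤ 1) :
    ∃ c : C, Q.v (f - algebraMap C K c) < 1 := by
  have hfin := (RR10_948.finite_of_length (k := C)
    (M := ball Q 0 ⧸ (ball Q (-1)).submoduleOf (ball Q 0)) (degE_eq Q))
  have := hfin.1
  have hpow : ∀ p : Polynomial C, Polynomial.aeval f p ∈ ball Q 0 := by
    intro p
    rw [mem_ball, exp_zero]
    have h1 : Polynomial.aeval f p = ((Polynomial.aeval (⟨f, hf⟩ : OA Q) p : OA Q) : K) := by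
      rw [← Subalgebra.coe_val, ← Polynomial.aeval_algHom_apply]
      rfl
    rw [h1]
    exact (Polynomial.aeval (⟨f, hf⟩ : OA Q) p : OA Q).2
  let φ : Polynomial C →ₗ[C] (ball Q 0 ⧸ (ball Q (-1)).submoduleOf (ball Q 0)) :=
    (Submodule.mkQ _).comp ((Polynomial.aeval f).toLinearMap.codRestrict (ball Q 0) hpow)
  have hnot : ¬ Function.Injective φ := by
    intro hinj
    exact Polynomial.not_finite (Module.Finite.of_injective φ hinj)
  obtain ⟨p, hp, hp0⟩ : ∃ p : Polynomial C, φ p = 0 ∧ p ≠ 0 := by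
    rw [injective_iff_map_eq_zero] at hnot
    push Not at hnot
    exact hnot
  have hp1 : Q.v (Polynomial.aeval f p) < 1 := by
    have h1 : φ p = Submodule.Quotient.mk ⟨Polynomial.aeval f p, hpow p⟩ := rfl
    rw [h1, Submodule.Quotient.mk_eq_zero, Submodule.submoduleOf, Submodule.mem_comap, mem_ball] at hp
    rw [lt_one_iff_le]
    exact hp
  have hsp := (IsAlgClosed.splits p).eq_prod_roots
  by_contra hcon
  push Not at hcon
  have h2 : ∀ c : C, Q.v (f - algebraMap C K c) = 1 := fun c =>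
    le_antisymm ((Q.v.map_sub f _).trans (max_le hf (const_le Q c))) (hcon c)
  have h3 : Q.v (Polynomial.aeval f p) = 1 := by
    rw [hsp, map_mul, map_mul, Polynomial.aeval_C, Q.const _ (Polynomial.leadingCoeff_ne_zero.2 hp0),
      one_mul, map_multiset_prod, Multiset.map_map, map_multiset_prod, Multiset.map_map]
    apply Multiset.prod_eq_one
    intro x hx
    obtain ⟨c, -, rfl⟩ := Multiset.mem_map.1 hx
    simp [h2 c]
  rw [h3] at hp1
  exact lt_irrefl _ hp1

theorem degP_eq_one (Q : Pl C K) : degP Q = 1 := by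
  rw [← isRationalPlace_iff (isPlace_vR Q) (isEquiv_vR Q)]
  refine ⟨isPlace_vR Q, fun a ha => ?_⟩
  obtain ⟨c, hc⟩ := exists_const Q ((isEquiv_vR Q).le_one_iff_le_one.2 ha)
  exact ⟨c, (isEquiv_vR Q).lt_one_iff_lt_one.1 hc⟩

theorem isUnif_place (Q : Pl C K) {π : K} (hπ : Q.v π = exp (-1)) :
    ∃ h : π ∈ OA Q, IsUnif C (⟨π, h⟩ : OA Q) := by
  have h1 : Q.v π ≤ 1 := by
    rw [hπ, ← exp_zero, exp_le_exp]; norm_num
  have hπ0 : π ≠ 0 := by
    rintro rfl
    rw [map_zero] at hπ
    exact exp_ne_zero hπ.symm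
  refine ⟨h1, ⟨fun a ha => ?_, fun f => ?_, fun c hc => ?_⟩⟩
  · rcases mul_eq_zero.1 ha with h | h
    · exact absurd (congrArg Subtype.val h) hπ0
    · exact h
  · obtain ⟨c, hc⟩ := exists_const Q f.2
    refine ⟨c, (dvd_iff hπ0).2 ?_⟩
    rw [hπ]
    exact lt_one_iff_le.1 hc
  · rw [dvd_iff hπ0, hπ] at hc
    by_contra hc0
    have h2 : Q.v (algebraMap C K c) ≤ exp (-1) := hc
    rw [Q.const c hc0, ← exp_zero, exp_le_exp] at h2
    norm_num at h2

/-- **Puiseux expansion at a place.** -/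
theorem exists_expansion (Q : Pl C K) {y : K} {e : ℕ} (hy : Q.v y = exp (-(e : ℤ)))
    (he : (e : C) ≠ 0) : ∃ (hyO : y ∈ OA Q) (ψ : OA Q →ₐ[C] C⟦X⟧), ψ ⟨y, hyO⟩ = X ^ e ∧
      ∀ (n : ℕ) (f : OA Q), X ^ n ∣ ψ f ↔ Q.v (f : K) ≤ exp (-(n : ℤ)) := by
  have hyO : Q.v y ≤ 1 := by
    rw [hy, ← exp_zero, exp_le_exp]; omega
  refine ⟨hyO, ?_⟩
  obtain ⟨π, hπ0, hπ⟩ := exists_v_eq Q (-1)
  obtain ⟨hπO, h⟩ := isUnif_place Q hπ
  have hord : ∀ (n : ℕ) (f : OA Q), X ^ n ∣ h.expand f ↔ Q.v (f : K) ≤ exp (-(n : ℤ)) := by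
    intro n f
    rw [← h.pow_dvd_iff, dvd_iff (by simpa using pow_ne_zero n hπ0)]
    rw [SubmonoidClass.coe_pow, map_pow, hπ, ← exp_nsmul]
    simp
  -- the unit part of `y`
  obtain ⟨u, hu⟩ : ∃ u, h.expand ⟨y, hyO⟩ = X ^ e * u :=
    (hord e ⟨y, hyO⟩).2 hy.le
  have hu0 : constantCoeff u ≠ 0 := by
    intro h0
    rw [← X_dvd_iff] at h0
    have h1 : X ^ (e + 1) ∣ h.expand ⟨y, hyO⟩ := by
      rw [hu, pow_succ]
      exact mul_dvd_mul_left _ h0
    rw [hord (e + 1)] at h1
    have h2 : Q.v y ≤ exp (-((e + 1 : ℕ) : ℤ)) := h1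
    rw [hy, exp_le_exp] at h2
    push_cast at h2
    omega
  obtain ⟨w, hw, hw0⟩ := exists_root he u hu0
  have h2 := isUnif_X_mul w hw0
  refine ⟨(h2.expand).comp h.expand, ?_, fun n f => ?_⟩
  · rw [AlgHom.comp_apply, hu, ← hw, ← mul_pow, map_pow, h2.expand_s]
  · rw [AlgHom.comp_apply, ← h2.pow_dvd_iff, ← hord]
    have hwu : IsUnit w := by
      rw [PowerSeries.isUnit_iff_constantCoeff]
      exact isUnit_iff_ne_zero.2 hw0
    rw [mul_pow]
    exact (hwu.pow n).mul_right_dvd

end Crest.Agent.R013.PlX_863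
end

-- ▼ part R013/Cvg_863
section

/-!
# Row 13, leaf SS-ONE (helper863): algebraic power series are in `BD k C` after a rescaling
-/

set_option autoImplicit false
set_option linter.unusedSectionVars false

open PowerSeries

namespace Crest.Agent.R013.Cvg_863

open Crest.Agent.R013.Cell_408 Crest.Agent.R013.Eis_863

variable {k C : Type*} [NontriviallyNormedField k] [NormedField C] [IsUltrametricDist C]
  [NormedAlgebra k C] [Algebra.IsAlgebraic k C]

/-- rescaling by an element of the closed unit disc -/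
theorem rescale_mem_BD {f : C⟦X⟧} (hf : f ∈ BD k C) {s : C} (hs : ‖s‖ ≤ 1) :
    rescale s f ∈ BD k C := by
  obtain ⟨h1, M, h2⟩ := mem_BD.1 hf
  obtain ⟨L, hL, h3, h4⟩ := h1.common (finDef_const (k := k) (ι := Unit) s)
  refine mem_BD.2 ⟨⟨L, hL, fun n => ?_⟩, M, fun n => ?_⟩
  · dsimp only
    rw [coeff_rescale]
    exact mul_mem (pow_mem (h4 ()) n) (h3 n)
  · rw [coeff_rescale, norm_mul, norm_pow]
    calc ‖s‖ ^ n * ‖coeff n f‖ ≤ 1 * ‖coeff n f‖ :=
          mul_le_mul_of_nonneg_right (pow_le_one₀ (norm_nonneg _) hs) (norm_nonneg _)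
      _ = ‖coeff n f‖ := one_mul _
      _ ≤ M := h2 n

theorem rescale_mem_of_le {f : C⟦X⟧} {r r' : C} (hf : rescale r f ∈ BD k C) (hr : r ≠ 0)
    (h : ‖r'‖ ≤ ‖r‖) : rescale r' f ∈ BD k C := by
  have h1 : rescale r' f = rescale (r' / r) (rescale r f) := by
    rw [rescale_rescale, mul_div_cancel₀ _ hr]
  rw [h1]
  refine rescale_mem_BD hf ?_
  rw [norm_div]
  exact div_le_one_of_le₀ h (norm_nonneg _)

variable (k) in
/-- **Eisenstein's lemma for `BD`**: a power series which is a simple root of a polynomial with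
coefficients in `C[X]` is in `BD` after rescaling. -/
theorem exists_rescale_mem_BD {P : Polynomial C⟦X⟧}
    (hP : ∀ i, ∃ p : Polynomial C, P.coeff i = (p : C⟦X⟧)) {f : C⟦X⟧}
    (hf : P.eval f = 0) (hf' : P.derivative.eval f ≠ 0) :
    ∃ r : C, r ≠ 0 ∧ rescale r f ∈ BD k C := by
  classical
  choose p hp using hP
  -- boundedness
  have hO : ∀ x : C, ∃ d ∈ Ob C, d ≠ 0 ∧ d * x ∈ Ob C := by
    intro x
    by_cases hx : ‖x‖ ≤ 1
    · exact ⟨1, (Ob C).one_mem, one_ne_zero, by rw [one_mul]; exact hx⟩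
    · push Not at hx
      have hx0 : x ≠ 0 := by
        rintro rfl
        rw [norm_zero] at hx
        linarith
      refine ⟨x⁻¹, ?_, inv_ne_zero hx0, by rw [inv_mul_cancel₀ hx0]; exact (Ob C).one_mem⟩
      rw [mem_Ob, norm_inv]
      exact inv_le_one_of_one_le₀ hx.le
  obtain ⟨b, hb, hb0, c, hc, hc0, H⟩ :=
    conv_of_root hO (fun i => by rw [hp i]; exact conv_coe hO _) hf hf'
  -- field of definition
  let S : Set C := (⋃ i ∈ Finset.range (P.natDegree + 1), ((p i).coeffs : Set C)) ∪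
    ((fun j => coeff j f) '' (Finset.range ((P.derivative.eval f).order.toNat + 1) : Set ℕ)) ∪ {b}
  have hSfin : S.Finite := by
    refine Set.Finite.union (Set.Finite.union ?_ ?_) (Set.finite_singleton _)
    · exact Set.Finite.biUnion (Finset.finite_toSet _) fun i _ => Finset.finite_toSet _
    · exact (Finset.finite_toSet _).image _
  let L := IntermediateField.adjoin k S
  have := hSfin.to_subtype
  have hL : FiniteDimensional k L := IntermediateField.finiteDimensional_adjoin
    fun x _ => (Algebra.IsAlgebraic.isAlgebraic x).isIntegral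
  have hSL : ∀ x ∈ S, x ∈ L := fun x hx => IntermediateField.subset_adjoin k S hx
  have hcoef : ∀ j, coeff j f ∈ L.toSubfield := by
    refine coeff_mem_of_root (P := P) (fun i j => ?_) hf hf' (fun j hj => ?_)
    · by_cases hi : i ≤ P.natDegree
      · rw [hp i, Polynomial.coeff_coe]
        by_cases h0 : (p i).coeff j = 0
        · rw [h0]; exact zero_mem _
        · refine hSL _ (Or.inl (Or.inl ?_))
          simp only [Set.mem_iUnion]
          exact ⟨i, by simp; omega, Polynomial.coeff_mem_coeffs h0⟩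
      · rw [Polynomial.coeff_eq_zero_of_natDegree_lt (by omega)]
        simp
    · exact hSL _ (Or.inl (Or.inr ⟨j, by simpa using hj, rfl⟩))
  have hbL : b ∈ L := hSL _ (Or.inr rfl)
  refine ⟨b, hb0, mem_BD.2 ⟨⟨L, hL, fun n => ?_⟩, ‖c‖⁻¹, fun n => ?_⟩⟩
  · dsimp only
    rw [coeff_rescale]
    exact mul_mem (pow_mem hbL n) (hcoef n)
  · have h1 := H n
    rw [coeff_C_mul, mem_Ob, norm_mul] at h1
    have hc1 : 0 < ‖c‖ := norm_pos_iff.2 hc0
    rw [← one_div, le_div_iff₀ hc1, mul_comm]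
    exact h1

end Crest.Agent.R013.Cvg_863
end

-- ▼ part R013/One1_863
section

/-!
# Row 13, leaf SS-ONE (helper863): uniform convergence of the expansions of the integral functions
-/

set_option autoImplicit false
set_option linter.unusedSectionVars false
set_option linter.style.haveILetI false

open PowerSeries WithZero

namespace Crest.Agent.R013.One_863

open Crest.Agent.R013.RR7_948 Crest.Agent.R013.RR8_948 Crest.Agent.R013.RR11_948
open Crest.Agent.R013.RR12_948
open Crest.Agent.R013.Cell_408 Crest.Agent.R013.PlX_863 Crest.Agent.R013.Cvg_863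

variable {k C : Type*} [NontriviallyNormedField k] [NormedField C] [IsUltrametricDist C]
  [NormedAlgebra k C] [Algebra.IsAlgebraic k C]
variable {K : Type*} [Field K] [Algebra C K]
  [Algebra (RatFunc C) K] [IsScalarTower C (RatFunc C) K] [FiniteDimensional (RatFunc C) K]
  [Algebra.IsSeparable (RatFunc C) K]

theorem algPoly_apply (p : Polynomial C) :
    letI := algPoly C K
    algebraMap (Polynomial C) K p = Polynomial.aeval (xK C K) p := by
  letI := algPoly C K
  have h : (Polynomial.aeval (xK C K) : Polynomial C →ₐ[C] K) =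
      (IsScalarTower.toAlgHom C (RatFunc C) K).comp (IsScalarTower.toAlgHom C (Polynomial C) (RatFunc C)) := by
    apply Polynomial.algHom_ext
    rw [Polynomial.aeval_X, AlgHom.comp_apply, IsScalarTower.coe_toAlgHom', IsScalarTower.coe_toAlgHom',
      RatFunc.algebraMap_X]
    rfl
  rw [h]
  rfl

/-- integral functions are in the valuation ring -/
theorem integral_mem_OA {Q : Pl C K} (hy : xK C K ∈ OA Q) {b : K}
    (hb : letI := algPoly C K; IsIntegral (Polynomial C) b) : b ∈ OA Q := by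
  letI := algPoly C K
  refine RR8_948.le_one_of_integral (S := Polynomial C) Q.v (fun p => ?_) hb
  rw [algPoly_apply]
  have h1 : Polynomial.aeval (xK C K) p =
      ((Polynomial.aeval (⟨xK C K, hy⟩ : OA Q) p : OA Q) : K) := by
    rw [← Subalgebra.coe_val, ← Polynomial.aeval_algHom_apply]
    rfl
  rw [h1]
  exact (Polynomial.aeval (⟨xK C K, hy⟩ : OA Q) p : OA Q).2

variable (k) in
/-- the expansion of an integral function is in `BD` after rescaling -/
theorem exists_rescale {Q : Pl C K} (hy : xK C K ∈ OA Q) (ψ : OA Q →ₐ[C] C⟦X⟧) {P1 : Polynomial C}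
    (hψ : ψ ⟨xK C K, hy⟩ = (P1 : C⟦X⟧)) (hinj : Function.Injective ψ) (b : OA Q)
    (hb : letI := algPoly C K; IsIntegral (Polynomial C) (b : K)) :
    ∃ r : C, r ≠ 0 ∧ rescale r (ψ b) ∈ BD k C := by
  letI := algPoly C K
  haveI := towerPoly C K
  let j : Polynomial C →ₐ[C] OA Q := Polynomial.aeval ⟨xK C K, hy⟩
  have hj : ∀ p, ((j p : OA Q) : K) = algebraMap (Polynomial C) K p := by
    intro p
    rw [algPoly_apply, ← Subalgebra.coe_val, ← Polynomial.aeval_algHom_apply]
    rfl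
  let P0 : Polynomial (Polynomial C) := minpoly (Polynomial C) (b : K)
  have hP0 : Polynomial.aeval (b : K) P0 = 0 := minpoly.aeval _ _
  have hP0' : Polynomial.aeval (b : K) (Polynomial.derivative P0) ≠ 0 := by
    have h1 : minpoly (RatFunc C) (b : K) = P0.map (algebraMap (Polynomial C) (RatFunc C)) :=
      minpoly.isIntegrallyClosed_eq_field_fractions' (RatFunc C) hb
    have h3 : Polynomial.aeval (b : K) (minpoly (RatFunc C) (b : K)) = 0 := minpoly.aeval _ _
    have h4 : (minpoly (RatFunc C) (b : K)).Separable :=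
      Algebra.IsSeparable.isSeparable (RatFunc C) (b : K)
    have h2 := h4.aeval_derivative_ne_zero h3
    rw [h1, Polynomial.derivative_map, Polynomial.aeval_map_algebraMap] at h2
    exact h2
  -- transport to `OA Q`
  have hev : ∀ R : Polynomial (Polynomial C),
      (((R.map (j : Polynomial C →+* OA Q)).eval b : OA Q) : K) = Polynomial.aeval (b : K) R := by
    intro R
    rw [Polynomial.eval_map, Polynomial.aeval_def]
    have h1 := Polynomial.hom_eval₂ R (j : Polynomial C →+* OA Q) (OA Q).val.toRingHom b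
    have h2 : ((OA Q).val.toRingHom).comp (j : Polynomial C →+* OA Q) =
        algebraMap (Polynomial C) K := RingHom.ext hj
    rw [h2] at h1
    exact h1
  let P : Polynomial C⟦X⟧ := (P0.map (j : Polynomial C →+* OA Q)).map (ψ : OA Q →+* C⟦X⟧)
  refine exists_rescale_mem_BD k (P := P) (fun i => ?_) ?_ ?_
  · refine ⟨Polynomial.aeval P1 (P0.coeff i), ?_⟩
    rw [Polynomial.coeff_map, Polynomial.coeff_map]
    have h1 : (ψ : OA Q →+* C⟦X⟧) ((j : Polynomial C →+* OA Q) (P0.coeff i)) =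
        Polynomial.aeval (P1 : C⟦X⟧) (P0.coeff i) := by
      show ψ (Polynomial.aeval (⟨xK C K, hy⟩ : OA Q) (P0.coeff i)) = _
      rw [← Polynomial.aeval_algHom_apply, hψ]
    rw [h1]
    have h2 := Polynomial.aeval_algHom_apply (Polynomial.coeToPowerSeries.algHom (R := C) C)
      P1 (P0.coeff i)
    simpa [Polynomial.coeToPowerSeries.algHom_apply] using h2
  · have h1 : (P0.map (j : Polynomial C →+* OA Q)).eval b = 0 := by
      apply Subtype.ext
      rw [hev, hP0]; rfl
    show Polynomial.eval (ψ b) _ = 0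
    have h2 := Polynomial.eval_map_apply (ψ : OA Q →+* C⟦X⟧) b
      (p := P0.map (j : Polynomial C →+* OA Q))
    rw [h1, map_zero] at h2
    exact h2
  · have h1 : ((Polynomial.derivative P0).map (j : Polynomial C →+* OA Q)).eval b ≠ 0 := by
      intro h0
      apply hP0'
      rw [← hev, h0]; rfl
    show Polynomial.eval (ψ b) (Polynomial.derivative P) ≠ 0
    have h2 := Polynomial.eval_map_apply (ψ : OA Q →+* C⟦X⟧) b
      (p := (Polynomial.derivative P0).map (j : Polynomial C →+* OA Q))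
    have h3 : Polynomial.derivative P = ((Polynomial.derivative P0).map
        (j : Polynomial C →+* OA Q)).map (ψ : OA Q →+* C⟦X⟧) := by
      rw [Polynomial.derivative_map, Polynomial.derivative_map]
    rw [h3]
    intro h4
    have h5 : (ψ : OA Q →+* C⟦X⟧) (((Polynomial.derivative P0).map
        (j : Polynomial C →+* OA Q)).eval b) = 0 := h2.symm.trans h4
    exact h1 (hinj (by simpa using h5))

theorem aeval_mem {R A : Type*} [CommRing R] [CommRing A] [Algebra R A] (S : Subalgebra R A) {a : A}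
    (ha : a ∈ S) (p : Polynomial R) : Polynomial.aeval a p ∈ S := by
  have h1 : Polynomial.aeval a p = ((Polynomial.aeval (⟨a, ha⟩ : S) p : S) : A) := by
    rw [← Subalgebra.coe_val, ← Polynomial.aeval_algHom_apply]
    rfl
  rw [h1]
  exact (Polynomial.aeval (⟨a, ha⟩ : S) p : S).2

/-- rescaling of polynomials -/
theorem rescale_coe_mem (r : C) (P : Polynomial C) : rescale r (P : C⟦X⟧) ∈ BD k C := by
  have h1 : rescale r (P : C⟦X⟧) = ((P.comp (Polynomial.C r * Polynomial.X) : Polynomial C) : C⟦X⟧) := by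
    ext n
    rw [coeff_rescale, Polynomial.coeff_coe, Polynomial.coeff_coe, Polynomial.comp_C_mul_X_coeff,
      mul_comm]
  rw [h1]
  exact coe_mem_BD _

variable (k) in
/-- uniform radius -/
theorem exists_uniform {Q : Pl C K} (hy : xK C K ∈ OA Q) (ψ : OA Q →ₐ[C] C⟦X⟧) {P1 : Polynomial C}
    (hψ : ψ ⟨xK C K, hy⟩ = (P1 : C⟦X⟧)) (hinj : Function.Injective ψ) :
    ∃ r : C, r ≠ 0 ∧ ∀ r' : C, ‖r'‖ ≤ ‖r‖ → ∀ b : OA Q,
      (letI := algPoly C K; IsIntegral (Polynomial C) (b : K)) → rescale r' (ψ b) ∈ BD k C := by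
  classical
  letI := algPoly C K
  haveI := towerPoly C K
  have hfin : Module.Finite (Polynomial C) (integralClosure (Polynomial C) K) :=
    IsIntegralClosure.finite (Polynomial C) (RatFunc C) K (integralClosure (Polynomial C) K)
  obtain ⟨S, hS⟩ := hfin.1
  have hmem : ∀ b : integralClosure (Polynomial C) K, (b : K) ∈ OA Q := fun b =>
    integral_mem_OA hy b.2
  choose r hr0 hr using fun b : integralClosure (Polynomial C) K =>
    exists_rescale k hy ψ hψ hinj ⟨(b : K), hmem b⟩ b.2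
  obtain ⟨s0, hs0, hmin⟩ := Finset.exists_min_image (insert 0 S) (fun s => ‖r s‖)
    (Finset.insert_nonempty _ _)
  refine ⟨r s0, hr0 s0, fun r' hr' b hb => ?_⟩
  have key : ∀ c : integralClosure (Polynomial C) K, c ∈ Submodule.span (Polynomial C) (S : Set _) →
      rescale r' (ψ ⟨(c : K), hmem c⟩) ∈ BD k C := by
    intro c hc
    induction hc using Submodule.span_induction with
    | mem x hx =>
      exact rescale_mem_of_le (hr x) (hr0 x)
        (hr'.trans (hmin x (Finset.mem_insert_of_mem hx)))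
    | zero =>
      have h1 : (⟨((0 : integralClosure (Polynomial C) K) : K), hmem 0⟩ : OA Q) = 0 := rfl
      rw [h1, map_zero, map_zero]
      exact zero_mem _
    | add x z _ _ hx hz =>
      have h1 : (⟨((x + z : integralClosure (Polynomial C) K) : K), hmem (x + z)⟩ : OA Q) =
        ⟨(x : K), hmem x⟩ + ⟨(z : K), hmem z⟩ := rfl
      rw [h1, map_add, map_add]
      exact add_mem hx hz
    | smul p x _ hx =>
      have h1 : (⟨((p • x : integralClosure (Polynomial C) K) : K), hmem (p • x)⟩ : OA Q) =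
          Polynomial.aeval (⟨xK C K, hy⟩ : OA Q) p * ⟨(x : K), hmem x⟩ := by
        apply Subtype.ext
        rw [MulMemClass.coe_mul, ← Subalgebra.coe_val, ← Polynomial.aeval_algHom_apply]
        show ((p • x : integralClosure (Polynomial C) K) : K) = _
        rw [Algebra.smul_def, MulMemClass.coe_mul]
        congr 1
        exact algPoly_apply p
      rw [h1, map_mul, map_mul]
      refine mul_mem ?_ hx
      rw [← Polynomial.aeval_algHom_apply, hψ]
      have h2 : rescale r' (Polynomial.aeval (P1 : C⟦X⟧) p) =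
          rescaleAlgHom r' (Polynomial.aeval (P1 : C⟦X⟧) p) := by
        rw [← coe_rescaleAlgHom]; rfl
      rw [h2, ← Polynomial.aeval_algHom_apply]
      refine aeval_mem _ ?_ p
      have h4 : rescaleAlgHom r' (P1 : C⟦X⟧) = rescale r' (P1 : C⟦X⟧) := by
        rw [← coe_rescaleAlgHom]; rfl
      rw [h4]
      exact rescale_coe_mem r' P1
  exact key ⟨(b : K), hb⟩ (by rw [hS]; trivial)

end Crest.Agent.R013.One_863
end

-- ▼ part R013/One2_863
section

/-!
# Row 13, leaf SS-ONE (helper863): the homomorphisms `K → FD` and the injectivity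
-/

set_option autoImplicit false
set_option linter.unusedSectionVars false
set_option linter.style.haveILetI false

open PowerSeries WithZero

namespace Crest.Agent.R013.One_863

open Crest.Agent.R013.RR7_948 Crest.Agent.R013.RR8_948 Crest.Agent.R013.RR11_948
open Crest.Agent.R013.RR12_948
open Crest.Agent.R013.Cell_408 Crest.Agent.R013.PlX_863 Crest.Agent.R013.Cvg_863

section Order

variable {C : Type*} [Field C]

theorem X_pow_dvd_rescale {r : C} (hr : r ≠ 0) (n : ℕ) (f : C⟦X⟧) :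
    X ^ n ∣ rescale r f ↔ X ^ n ∣ f := by
  rw [X_pow_dvd_iff, X_pow_dvd_iff]
  refine forall_congr' fun m => forall_congr' fun hm => ?_
  rw [coeff_rescale]
  exact ⟨fun h => (mul_eq_zero.1 h).resolve_left (pow_ne_zero _ hr), fun h => by rw [h, mul_zero]⟩

theorem rescale_injective {r : C} (hr : r ≠ 0) : Function.Injective (rescale r : C⟦X⟧ →+* C⟦X⟧) := by
  rw [injective_iff_map_eq_zero]
  intro f hf
  ext n
  have h := congrArg (coeff n) hf
  rw [coeff_rescale, map_zero] at h
  rw [map_zero]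
  exact (mul_eq_zero.1 h).resolve_left (pow_ne_zero _ hr)

end Order

variable {k C : Type*} [NontriviallyNormedField k] [NormedField C] [IsUltrametricDist C]
  [NormedAlgebra k C] [Algebra.IsAlgebraic k C]

section Iota

variable {K : Type*} [Field K] [Algebra C K]
  [Algebra (RatFunc C) K] [IsScalarTower C (RatFunc C) K] [FiniteDimensional (RatFunc C) K]
  [Algebra.IsSeparable (RatFunc C) K]

/-- the embedding of the function field in the fraction field of `BD` -/
theorem exists_iota {Q : Pl C K} (hy : xK C K ∈ OA Q) (ψ : OA Q →ₐ[C] C⟦X⟧)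
    (hinj : Function.Injective ψ) {r : C} (hr : r ≠ 0)
    (hu : ∀ b : OA Q, (letI := algPoly C K; IsIntegral (Polynomial C) (b : K)) →
      rescale r (ψ b) ∈ BD k C) :
    ∃ ι : K →+* FractionRing (BD k C), ∀ w : OA Q, ∃ u v : BD k C, v ≠ 0 ∧
      ι w = algebraMap _ _ u / algebraMap _ _ v ∧ (u : C⟦X⟧) = rescale r (ψ w) * v := by
  letI := algPoly C K
  haveI := towerPoly C K
  haveI : IsFractionRing (integralClosure (Polynomial C) K) K :=
    integralClosure.isFractionRing_of_finite_extension (RatFunc C) K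
  have hmem : ∀ b : integralClosure (Polynomial C) K, (b : K) ∈ OA Q := fun b =>
    integral_mem_OA hy b.2
  let g0 : integralClosure (Polynomial C) K →+* C⟦X⟧ :=
    ((rescale r).comp (ψ : OA Q →+* C⟦X⟧)).comp
      ((integralClosure (Polynomial C) K).val.toRingHom.codRestrict (OA Q) hmem)
  have hg0 : ∀ b, g0 b = rescale r (ψ ⟨(b : K), hmem b⟩) := fun b => rfl
  let g : integralClosure (Polynomial C) K →+* BD k C :=
    g0.codRestrict (BD k C) fun b => hu ⟨(b : K), hmem b⟩ b.2
  have hg : ∀ b, ((g b : BD k C) : C⟦X⟧) = rescale r (ψ ⟨(b : K), hmem b⟩) := fun b => rfl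
  have hginj : Function.Injective g := by
    intro a b hab
    have h1 : ((g a : BD k C) : C⟦X⟧) = ((g b : BD k C) : C⟦X⟧) := by rw [hab]
    rw [hg, hg] at h1
    have h2 := hinj (rescale_injective hr h1)
    exact Subtype.ext (congrArg (fun z : OA Q => (z : K)) h2)
  have hGinj : Function.Injective ((algebraMap (BD k C) (FractionRing (BD k C))).comp g) :=
    (IsFractionRing.injective (BD k C) (FractionRing (BD k C))).comp hginj
  let ι : K →+* FractionRing (BD k C) := IsFractionRing.lift hGinj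
  refine ⟨ι, fun w => ?_⟩
  obtain ⟨a, b, hb, hab⟩ := IsFractionRing.div_surjective (A := integralClosure (Polynomial C) K)
    (w : K)
  have hb0 : b ≠ 0 := nonZeroDivisors.ne_zero hb
  refine ⟨g a, g b, fun h => hb0 (hginj (by rw [h, map_zero])), ?_, ?_⟩
  · rw [← hab, map_div₀]
    have h1 : ∀ c, ι (algebraMap _ K c) = algebraMap (BD k C) _ (g c) := fun c =>
      IsFractionRing.lift_algebraMap hGinj c
    rw [h1, h1]
  · rw [hg, hg, ← map_mul (rescale r), ← map_mul ψ]
    congr 2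
    apply Subtype.ext
    rw [MulMemClass.coe_mul]
    show (a : K) = (w : K) * (b : K)
    have hbK : (b : K) ≠ 0 := fun h => hb0 (Subtype.ext h)
    rw [← hab]
    exact (div_mul_cancel₀ _ hbK).symm

/-- value of `ι` when the expansion is in `BD` -/
theorem iota_eq {Q : Pl C K} {ψ : OA Q →ₐ[C] C⟦X⟧} {r : C} {ι : K →+* FractionRing (BD k C)}
    (hι : ∀ w : OA Q, ∃ u v : BD k C, v ≠ 0 ∧
      ι w = algebraMap _ _ u / algebraMap _ _ v ∧ (u : C⟦X⟧) = rescale r (ψ w) * v)
    (w : OA Q) (g : BD k C) (hg : rescale r (ψ w) = g) : ι w = algebraMap _ _ g := by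
  obtain ⟨u, v, hv, h1, h2⟩ := hι w
  have h3 : u = g * v := by
    apply Subtype.ext
    rw [h2, hg]; rfl
  have hv' : algebraMap (BD k C) (FractionRing (BD k C)) v ≠ 0 := by
    rw [Ne, FaithfulSMul.algebraMap_eq_zero_iff]; exact hv
  rw [h1, h3, map_mul, mul_div_cancel_right₀ _ hv']

end Iota

end Crest.Agent.R013.One_863
end

-- ▼ part R013/One3_863
section

/-!
# Row 13, leaf SS-ONE (helper863): a family `w` of functions which is linearly independent modulo
`y` at the zeros of `y`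
-/

set_option autoImplicit false
set_option linter.unusedSectionVars false
set_option linter.style.haveILetI false

open PowerSeries WithZero

namespace Crest.Agent.R013.One_863

open Crest.Agent.R013.RR7_948 Crest.Agent.R013.RR8_948 Crest.Agent.R013.RR11_948
open Crest.Agent.R013.RR12_948
open Crest.Agent.R013.PlX_863

variable {C : Type*} [Field C] [IsAlgClosed C] {K : Type*} [Field K] [Algebra C K]
  [Algebra (RatFunc C) K] [IsScalarTower C (RatFunc C) K] [FiniteDimensional (RatFunc C) K]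
  [Algebra.IsSeparable (RatFunc C) K]

/-- polynomials of degree `< e` in a uniformizer -/
theorem coeff_eq_zero_of_le (Q : Pl C K) {π : K} (hπ : Q.v π = exp (-1)) {e : ℕ} (c : Fin e → C)
    (h : Q.v (∑ i, algebraMap C K (c i) * π ^ (i : ℕ)) ≤ exp (-(e : ℤ))) : c = 0 := by
  obtain ⟨hπO, hu⟩ := isUnif_place Q hπ
  have hπ0 : π ≠ 0 := by
    rintro rfl
    rw [map_zero] at hπ
    exact exp_ne_zero hπ.symm
  let z : OA Q := ∑ i, algebraMap C (OA Q) (c i) * (⟨π, hπO⟩ : OA Q) ^ (i : ℕ)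
  have hz : (z : K) = ∑ i, algebraMap C K (c i) * π ^ (i : ℕ) := by
    rw [AddSubmonoidClass.coe_finsetSum]
    rfl
  rw [← hz] at h
  have h1 : X ^ e ∣ hu.expand z := by
    rw [← hu.pow_dvd_iff, dvd_iff (by simpa using pow_ne_zero e hπ0)]
    rw [SubmonoidClass.coe_pow, map_pow, hπ, ← exp_nsmul]
    simpa using h
  have h2 : hu.expand z = ∑ i, PowerSeries.C (c i) * (X : C⟦X⟧) ^ (i : ℕ) := by
    rw [map_sum]
    refine Finset.sum_congr rfl fun i _ => ?_
    rw [map_mul, map_pow, hu.expand_s, AlgHom.commutes]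
    rfl
  rw [h2, X_pow_dvd_iff] at h1
  funext j
  have h3 := h1 j j.2
  rw [map_sum] at h3
  rw [Finset.sum_eq_single j] at h3
  · rw [coeff_C_mul, coeff_X_pow, if_pos rfl, mul_one] at h3
    exact h3
  · intro i _ hij
    rw [coeff_C_mul, coeff_X_pow, if_neg (fun h => hij (Fin.ext h.symm)), mul_zero]
  · intro hj
    exact absurd (Finset.mem_univ j) hj

/-- functions with prescribed first terms -/
theorem exists_family (J : Finset (Pl C K)) (e : Pl C K → ℕ) :
    ∃ w : (Σ Q : J, Fin (e Q)) → K, (∀ l, ∀ Q ∈ J, w l ∈ OA Q) ∧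
      ∀ c : (Σ Q : J, Fin (e Q)) → C,
        (∀ Q ∈ J, Q.v (∑ l, algebraMap C K (c l) * w l) ≤ exp (-(e Q : ℤ))) → c = 0 := by
  classical
  choose π hπ0 hπ using fun Q : Pl C K => exists_v_eq Q (-1)
  obtain ⟨N, hN⟩ : ∃ N : ℕ, ∀ Q ∈ J, e Q ≤ N := ⟨J.sup e, fun Q hQ => Finset.le_sup hQ⟩
  have hπO : ∀ Q : Pl C K, ∀ i : ℕ, Q.v (π Q ^ i) ≤ 1 := by
    intro Q i
    rw [map_pow]
    refine pow_le_one' ?_ i
    rw [hπ, ← exp_zero, exp_le_exp]; norm_num
  choose w hw using fun l : (Σ Q : J, Fin (e Q)) =>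
    weak_approx J (fun Q' => if Q' = (l.1 : Pl C K) then π Q' ^ (l.2 : ℕ) else 0) N
  have hNQ : ∀ Q ∈ J, exp (-(N : ℤ)) ≤ exp (-(e Q : ℤ)) := by
    intro Q hQ
    rw [exp_le_exp]
    have := hN Q hQ
    omega
  refine ⟨w, fun l Q hQ => ?_, fun c hc => ?_⟩
  · rw [mem_OA]
    have h1 := hw l Q hQ
    have h2 : w l = (w l - (if Q = (l.1 : Pl C K) then π Q ^ (l.2 : ℕ) else 0)) +
      (if Q = (l.1 : Pl C K) then π Q ^ (l.2 : ℕ) else 0) := by ring
    rw [h2]
    refine (Q.v.map_add _ _).trans (max_le (h1.trans ?_) ?_)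
    · rw [← exp_zero, exp_le_exp]; omega
    · split_ifs
      · exact hπO Q _
      · rw [map_zero]; exact zero_le
  · funext ⟨Q, i⟩
    have hQ := Q.2
    have key : Q.1.v (∑ i : Fin (e Q), algebraMap C K (c ⟨Q, i⟩) * π Q.1 ^ (i : ℕ)) ≤
        exp (-(e Q : ℤ)) := by
      have h1 : ∑ i : Fin (e Q), algebraMap C K (c ⟨Q, i⟩) * π Q.1 ^ (i : ℕ) =
          ∑ l : (Σ Q : J, Fin (e Q)), algebraMap C K (c l) *
            (if Q.1 = (l.1 : Pl C K) then π Q.1 ^ (l.2 : ℕ) else 0) := by
        rw [Fintype.sum_sigma]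
        rw [Finset.sum_eq_single Q]
        · refine Finset.sum_congr rfl fun i _ => ?_
          rw [if_pos rfl]
        · intro Q' _ hne
          refine Finset.sum_eq_zero fun i _ => ?_
          rw [if_neg (fun h => hne (Subtype.ext h.symm)), mul_zero]
        · intro h
          exact absurd (Finset.mem_univ _) h
      have h2 : ∑ l : (Σ Q : J, Fin (e Q)), algebraMap C K (c l) *
            (if Q.1 = (l.1 : Pl C K) then π Q.1 ^ (l.2 : ℕ) else 0) =
          (∑ l, algebraMap C K (c l) * w l) - ∑ l, algebraMap C K (c l) *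
            (w l - (if Q.1 = (l.1 : Pl C K) then π Q.1 ^ (l.2 : ℕ) else 0)) := by
        rw [← Finset.sum_sub_distrib]
        refine Finset.sum_congr rfl fun l _ => ?_
        ring
      rw [h1, h2]
      refine (Q.1.v.map_sub _ _).trans (max_le (hc Q hQ) ?_)
      refine Valuation.map_sum_le _ fun l _ => ?_
      rw [map_mul]
      calc Q.1.v (algebraMap C K (c l)) * _ ≤ 1 * exp (-(N : ℤ)) :=
            mul_le_mul' (const_le _ _) (hw l Q.1 hQ)
        _ = exp (-(N : ℤ)) := one_mul _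
        _ ≤ _ := hNQ Q.1 hQ
    have h3 := coeff_eq_zero_of_le Q.1 (hπ Q.1) (fun i => c ⟨Q, i⟩) key
    exact congrFun h3 i

end Crest.Agent.R013.One_863
end

-- ▼ part R013/One4_863
section

/-!
# Row 13, leaf SS-ONE (helper863): injectivity
-/

set_option autoImplicit false
set_option linter.unusedSectionVars false
set_option linter.style.haveILetI false

open PowerSeries WithZero

namespace Crest.Agent.R013.One_863

open Crest.Agent.R013.RR7_948 Crest.Agent.R013.RR8_948 Crest.Agent.R013.RR11_948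
open Crest.Agent.R013.RR12_948
open Crest.Agent.R013.Cell_408 Crest.Agent.R013.PlX_863 Crest.Agent.R013.Cvg_863

section BDlemmas

variable {k C : Type*} [NontriviallyNormedField k] [NormedField C] [IsUltrametricDist C]
  [NormedAlgebra k C] [Algebra.IsAlgebraic k C]

/-- the variable as an element of `BD` -/
noncomputable def XB (k C : Type*) [NontriviallyNormedField k] [NormedField C] [IsUltrametricDist C]
    [NormedAlgebra k C] [Algebra.IsAlgebraic k C] : BD k C := ⟨X, X_mem_BD⟩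

theorem BD_shift (g : BD k C) : ∃ g' : BD k C,
    g = algebraMap C (BD k C) (constantCoeff (g : C⟦X⟧)) + XB k C * g' := by
  obtain ⟨h1, M, h2⟩ := mem_BD.1 g.2
  refine ⟨⟨PowerSeries.mk fun n => coeff (n + 1) (g : C⟦X⟧), mem_BD.2 ⟨?_, M, fun n => ?_⟩⟩, ?_⟩
  · obtain ⟨L, hL, h3⟩ := h1
    refine ⟨L, hL, fun n => ?_⟩
    dsimp only
    rw [coeff_mk]
    exact h3 (n + 1)
  · rw [coeff_mk]; exact h2 _
  · apply Subtype.ext
    show (g : C⟦X⟧) = PowerSeries.C (constantCoeff (g : C⟦X⟧)) + X * _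
    ext n
    cases n with
    | zero => simp
    | succ n => simp [coeff_succ_X_mul]

variable (k C) in
/-- the embedding of `Frac BD` in `Frac C⟦X⟧` -/
noncomputable def toFr : FractionRing (BD k C) →+* FractionRing C⟦X⟧ :=
  IsFractionRing.lift (A := BD k C)
    (g := (algebraMap C⟦X⟧ (FractionRing C⟦X⟧)).comp (BD k C).val.toRingHom)
    ((IsFractionRing.injective C⟦X⟧ (FractionRing C⟦X⟧)).comp Subtype.val_injective)

theorem toFr_algebraMap (g : BD k C) :
    toFr k C (algebraMap _ _ g) = algebraMap C⟦X⟧ _ (g : C⟦X⟧) :=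
  IsFractionRing.lift_algebraMap _ g

end BDlemmas

variable {k C : Type*} [NontriviallyNormedField k] [NormedField C] [IsUltrametricDist C]
  [NormedAlgebra k C] [Algebra.IsAlgebraic k C] [IsAlgClosed C]
variable {K : Type*} [Field K] [Algebra C K]
  [Algebra (RatFunc C) K] [IsScalarTower C (RatFunc C) K] [FiniteDimensional (RatFunc C) K]
  [Algebra.IsSeparable (RatFunc C) K]

theorem toFr_iota {Q : Pl C K} {ψ : OA Q →ₐ[C] C⟦X⟧} {r : C} {ι : K →+* FractionRing (BD k C)}
    (hι : ∀ w : OA Q, ∃ u v : BD k C, v ≠ 0 ∧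
      ι w = algebraMap _ _ u / algebraMap _ _ v ∧ (u : C⟦X⟧) = rescale r (ψ w) * v)
    (w : OA Q) : toFr k C (ι w) = algebraMap C⟦X⟧ _ (rescale r (ψ w)) := by
  obtain ⟨u, v, hv, h1, h2⟩ := hι w
  have hv' : algebraMap C⟦X⟧ (FractionRing C⟦X⟧) (v : C⟦X⟧) ≠ 0 := by
    rw [Ne, FaithfulSMul.algebraMap_eq_zero_iff]
    exact fun h => hv (Subtype.ext h)
  rw [h1, map_div₀, toFr_algebraMap, toFr_algebraMap, h2, map_mul, mul_div_cancel_right₀ _ hv']

/-- the data at the places of `J` -/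
structure Data (k : Type*) {C : Type*} [NontriviallyNormedField k] [NormedField C]
    [IsUltrametricDist C] [NormedAlgebra k C] [Algebra.IsAlgebraic k C] [IsAlgClosed C]
    {K : Type*} [Field K] [Algebra C K] [Algebra (RatFunc C) K] [IsScalarTower C (RatFunc C) K]
    [FiniteDimensional (RatFunc C) K] [Algebra.IsSeparable (RatFunc C) K]
    (a ρ : C) (J : Finset (Pl C K)) (e : Pl C K → ℕ) where
  hx : ∀ Q ∈ J, xK C K ∈ OA Q
  ψ : ∀ Q : Pl C K, OA Q →ₐ[C] C⟦X⟧
  ord : ∀ Q ∈ J, ∀ (n : ℕ) (f : OA Q), X ^ n ∣ ψ Q f ↔ Q.v (f : K) ≤ exp (-(n : ℤ))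
  ψx : ∀ Q (hQ : Q ∈ J), ψ Q ⟨xK C K, hx Q hQ⟩ = PowerSeries.C a + X ^ (e Q)
  r : Pl C K → C
  r0 : ∀ Q ∈ J, r Q ≠ 0
  rpow : ∀ Q ∈ J, r Q ^ (e Q) = ρ
  ι : Pl C K → K →+* FractionRing (BD k C)
  hι : ∀ Q ∈ J, ∀ w : OA Q, ∃ u v : BD k C, v ≠ 0 ∧
    ι Q w = algebraMap _ _ u / algebraMap _ _ v ∧ (u : C⟦X⟧) = rescale (r Q) (ψ Q w) * v

variable {a ρ : C} {J : Finset (Pl C K)} {e : Pl C K → ℕ}

/-- the induction on the coefficients -/
theorem coeff_eq_zero_of_rel (D : Data k a ρ J e) {n : Type*} [Fintype n] (w : n → K)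
    (hw : ∀ l, ∀ Q ∈ J, w l ∈ OA Q)
    (hLIN : ∀ c : n → C, (∀ Q ∈ J, Q.v (∑ l, algebraMap C K (c l) * w l) ≤ exp (-(e Q : ℤ))) →
      c = 0)
    (σ : Pl C K → BD k C →ₐ[C] BD k C) (hσ : ∀ Q ∈ J, σ Q (XB k C) = XB k C ^ e Q)
    (N : ℕ) (g : n → BD k C)
    (hg : ∀ Q (hQ : Q ∈ J), ∑ l, ((σ Q (g l) : BD k C) : C⟦X⟧) *
      rescale (D.r Q) (D.ψ Q ⟨w l, hw l Q hQ⟩) = 0) (l : n) :
    coeff N (g l : C⟦X⟧) = 0 := by
  choose g' hg' using fun l => BD_shift (g l)
  have h0 : (fun l => constantCoeff (g l : C⟦X⟧)) = 0 := by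
    apply hLIN
    intro Q hQ
    set c : n → C := fun l => constantCoeff (g l : C⟦X⟧) with hc
    let z : OA Q := ∑ l, algebraMap C (OA Q) (c l) * ⟨w l, hw l Q hQ⟩
    have hz : (z : K) = ∑ l, algebraMap C K (c l) * w l := by
      rw [AddSubmonoidClass.coe_finsetSum]
      rfl
    rw [← hz, ← D.ord Q hQ, ← X_pow_dvd_rescale (D.r0 Q hQ)]
    have h1 : rescale (D.r Q) (D.ψ Q z) =
        ∑ l, PowerSeries.C (c l) * rescale (D.r Q) (D.ψ Q ⟨w l, hw l Q hQ⟩) := by
      rw [map_sum, map_sum]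
      refine Finset.sum_congr rfl fun l _ => ?_
      rw [map_mul, map_mul, AlgHom.commutes]
      congr 1
      ext m
      rw [coeff_rescale]
      show _ * coeff m (PowerSeries.C (c l)) = _
      rw [coeff_C]
      split_ifs with hm
      · subst hm; simp
      · simp
    have h2 : ∀ l, ((σ Q (g l) : BD k C) : C⟦X⟧) =
        PowerSeries.C (c l) + X ^ e Q * ((σ Q (g' l) : BD k C) : C⟦X⟧) := by
      intro l
      conv_lhs => rw [hg' l]
      rw [map_add, map_mul, hσ Q hQ, AlgHom.commutes]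
      rfl
    have h3 := hg Q hQ
    rw [h1]
    refine ⟨-∑ l, ((σ Q (g' l) : BD k C) : C⟦X⟧) * rescale (D.r Q) (D.ψ Q ⟨w l, hw l Q hQ⟩), ?_⟩
    have h4 : ∑ l, ((σ Q (g l) : BD k C) : C⟦X⟧) * rescale (D.r Q) (D.ψ Q ⟨w l, hw l Q hQ⟩) =
        (∑ l, PowerSeries.C (c l) * rescale (D.r Q) (D.ψ Q ⟨w l, hw l Q hQ⟩)) +
        X ^ e Q * ∑ l, ((σ Q (g' l) : BD k C) : C⟦X⟧) *
          rescale (D.r Q) (D.ψ Q ⟨w l, hw l Q hQ⟩) := by
      rw [Finset.mul_sum, ← Finset.sum_add_distrib]
      refine Finset.sum_congr rfl fun l _ => ?_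
      rw [h2 l]; ring
    rw [h4] at h3
    linear_combination h3
  have h0' : ∀ l, constantCoeff (g l : C⟦X⟧) = 0 := fun l => congrFun h0 l
  cases N with
  | zero => rw [coeff_zero_eq_constantCoeff_apply]; exact h0' l
  | succ N =>
    have hgl : ∀ l, g l = XB k C * g' l := by
      intro l
      conv_lhs => rw [hg' l, h0' l]
      simp
    have h5 : coeff (N + 1) (g l : C⟦X⟧) = coeff N (g' l : C⟦X⟧) := by
      rw [hgl l]
      show coeff (N + 1) (X * (g' l : C⟦X⟧)) = _
      rw [coeff_succ_X_mul]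
    rw [h5]
    refine coeff_eq_zero_of_rel D w hw hLIN σ hσ N g' (fun Q hQ => ?_) l
    have h6 := hg Q hQ
    have h7 : ∑ l, ((σ Q (g l) : BD k C) : C⟦X⟧) * rescale (D.r Q) (D.ψ Q ⟨w l, hw l Q hQ⟩) =
        X ^ e Q * ∑ l, ((σ Q (g' l) : BD k C) : C⟦X⟧) *
          rescale (D.r Q) (D.ψ Q ⟨w l, hw l Q hQ⟩) := by
      rw [Finset.mul_sum]
      refine Finset.sum_congr rfl fun l _ => ?_
      have h8 : ((σ Q (g l) : BD k C) : C⟦X⟧) = X ^ e Q * ((σ Q (g' l) : BD k C) : C⟦X⟧) := by
        rw [hgl l, map_mul, hσ Q hQ]; rfl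
      rw [h8]; ring
    rw [h7] at h6
    rcases mul_eq_zero.1 h6 with h | h
    · exact absurd h (pow_ne_zero _ X_ne_zero)
    · exact h

end Crest.Agent.R013.One_863
end

-- ▼ part R013/One5_863
section

/-!
# Row 13, leaf SS-ONE (helper863): injectivity, II
-/

set_option autoImplicit false
set_option linter.unusedSectionVars false
set_option linter.style.haveILetI false

open PowerSeries WithZero

namespace Crest.Agent.R013.One_863

open Crest.Agent.R013.RR7_948 Crest.Agent.R013.RR8_948 Crest.Agent.R013.RR11_948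
open Crest.Agent.R013.RR12_948
open Crest.Agent.R013.Cell_408 Crest.Agent.R013.PlX_863 Crest.Agent.R013.Cvg_863

variable {k C : Type*} [NontriviallyNormedField k] [NormedField C] [IsUltrametricDist C]
  [NormedAlgebra k C] [Algebra.IsAlgebraic k C] [IsAlgClosed C]
variable {K : Type*} [Field K] [Algebra C K]
  [Algebra (RatFunc C) K] [IsScalarTower C (RatFunc C) K] [FiniteDimensional (RatFunc C) K]
  [Algebra.IsSeparable (RatFunc C) K]
variable {a ρ : C} {J : Finset (Pl C K)} {e : Pl C K → ℕ}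

/-- relations with coefficients in `BD` -/
theorem eq_zero_of_rel_BD (D : Data k a ρ J e) {n : Type*} [Fintype n] (w : n → K)
    (hw : ∀ l, ∀ Q ∈ J, w l ∈ OA Q)
    (hLIN : ∀ c : n → C, (∀ Q ∈ J, Q.v (∑ l, algebraMap C K (c l) * w l) ≤ exp (-(e Q : ℤ))) →
      c = 0)
    (σ : Pl C K → BD k C →ₐ[C] BD k C) (hσ : ∀ Q ∈ J, σ Q (XB k C) = XB k C ^ e Q)
    (g : n → BD k C)
    (hg : ∀ Q ∈ J, ∑ l, algebraMap (BD k C) (FractionRing (BD k C)) (σ Q (g l)) * D.ι Q (w l) = 0) :
    g = 0 := by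
  funext l
  apply Subtype.ext
  ext N
  show coeff N (g l : C⟦X⟧) = _
  rw [coeff_eq_zero_of_rel D w hw hLIN σ hσ N g (fun Q hQ => ?_) l]
  · simp
  · have h1 := congrArg (toFr k C) (hg Q hQ)
    rw [map_sum, map_zero] at h1
    have h2 : ∀ l, toFr k C (algebraMap (BD k C) (FractionRing (BD k C)) (σ Q (g l)) * D.ι Q (w l)) =
        algebraMap C⟦X⟧ (FractionRing C⟦X⟧) (((σ Q (g l) : BD k C) : C⟦X⟧) *
          rescale (D.r Q) (D.ψ Q ⟨w l, hw l Q hQ⟩)) := by
      intro l
      rw [map_mul, map_mul, toFr_algebraMap]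
      congr 1
      exact toFr_iota (D.hι Q hQ) ⟨w l, hw l Q hQ⟩
    rw [Finset.sum_congr rfl fun l _ => h2 l, ← map_sum] at h1
    exact (FaithfulSMul.algebraMap_eq_zero_iff _ _).1 h1

/-- relations with coefficients in `Frac BD` -/
theorem eq_zero_of_rel (D : Data k a ρ J e) {n : Type*} [Fintype n] (w : n → K)
    (hw : ∀ l, ∀ Q ∈ J, w l ∈ OA Q)
    (hLIN : ∀ c : n → C, (∀ Q ∈ J, Q.v (∑ l, algebraMap C K (c l) * w l) ≤ exp (-(e Q : ℤ))) →
      c = 0)
    (σ : Pl C K → BD k C →ₐ[C] BD k C) (hσ : ∀ Q ∈ J, σ Q (XB k C) = XB k C ^ e Q)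
    (σF : Pl C K → FractionRing (BD k C) →+* FractionRing (BD k C))
    (hσF : ∀ Q ∈ J, ∀ g : BD k C, σF Q (algebraMap _ _ g) = algebraMap _ _ (σ Q g))
    (G : n → FractionRing (BD k C))
    (hG : ∀ Q ∈ J, ∑ l, σF Q (G l) * D.ι Q (w l) = 0) : G = 0 := by
  classical
  obtain ⟨h, hh⟩ := IsLocalization.exist_integer_multiples_of_finite (nonZeroDivisors (BD k C)) G
  choose g hg using hh
  have hg' : ∀ l, algebraMap (BD k C) (FractionRing (BD k C)) (g l) =
      algebraMap _ _ (h : BD k C) * G l := by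
    intro l
    have := hg l
    rw [Algebra.smul_def] at this
    exact this
  have hg0 : g = 0 := by
    refine eq_zero_of_rel_BD D w hw hLIN σ hσ g fun Q hQ => ?_
    have h1 : ∀ l, algebraMap (BD k C) (FractionRing (BD k C)) (σ Q (g l)) * D.ι Q (w l) =
        σF Q (algebraMap _ _ (h : BD k C)) * (σF Q (G l) * D.ι Q (w l)) := by
      intro l
      rw [← hσF Q hQ, hg' l, map_mul, mul_assoc]
    rw [Finset.sum_congr rfl fun l _ => h1 l, ← Finset.mul_sum, hG Q hQ, mul_zero]
  have hh0 : algebraMap (BD k C) (FractionRing (BD k C)) (h : BD k C) ≠ 0 := by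
    rw [Ne, FaithfulSMul.algebraMap_eq_zero_iff]
    exact nonZeroDivisors.ne_zero h.2
  funext l
  have h2 := hg' l
  rw [hg0, Pi.zero_apply, map_zero] at h2
  exact (mul_eq_zero.1 h2.symm).resolve_left hh0

/-- the embedding `C(X) → Frac BD`, `X ↦ a + ρ X` -/
theorem exists_tau (k : Type*) {C : Type*} [NontriviallyNormedField k] [NormedField C]
    [IsUltrametricDist C] [NormedAlgebra k C] [Algebra.IsAlgebraic k C] (a ρ : C) (hρ : ρ ≠ 0) :
    ∃ τ : RatFunc C →+* FractionRing (BD k C), ∀ p : Polynomial C,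
      τ (algebraMap _ _ p) = algebraMap _ _ (Polynomial.aeval
        (algebraMap C (BD k C) a + algebraMap C (BD k C) ρ * XB k C) p) := by
  let f : Polynomial C →+* BD k C := (Polynomial.aeval
        (algebraMap C (BD k C) a + algebraMap C (BD k C) ρ * XB k C)).toRingHom
  have hf : Function.Injective f := by
    rw [injective_iff_map_eq_zero]
    intro p hp
    have h1 : ((Polynomial.aeval (algebraMap C (BD k C) a + algebraMap C (BD k C) ρ * XB k C) p :
        BD k C) : C⟦X⟧) = ((p.comp (Polynomial.C a + Polynomial.C ρ * Polynomial.X) :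
          Polynomial C) : C⟦X⟧) := by
      rw [← Subalgebra.coe_val, ← Polynomial.aeval_algHom_apply]
      have h2 := Polynomial.aeval_algHom_apply (Polynomial.coeToPowerSeries.algHom (R := C) C)
        (Polynomial.C a + Polynomial.C ρ * Polynomial.X) p
      have h3 : (Polynomial.coeToPowerSeries.algHom (R := C) C)
          (Polynomial.C a + Polynomial.C ρ * Polynomial.X) =
          (BD k C).val (algebraMap C (BD k C) a + algebraMap C (BD k C) ρ * XB k C) := by
        rw [Polynomial.coeToPowerSeries.algHom_apply]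
        simp only [Polynomial.coe_add, Polynomial.coe_C, Polynomial.coe_mul, Polynomial.coe_X]
        rfl
      rw [h3] at h2
      rw [h2, Polynomial.coeToPowerSeries.algHom_apply]
      simp [Polynomial.comp, Polynomial.aeval_def, Polynomial.eval₂_eq_eval_map]
    have h4 : (p.comp (Polynomial.C a + Polynomial.C ρ * Polynomial.X)) = 0 := by
      rw [← Polynomial.coe_eq_zero_iff, ← h1]
      have : (Polynomial.aeval (algebraMap C (BD k C) a + algebraMap C (BD k C) ρ * XB k C) p :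
        BD k C) = 0 := hp
      rw [this]; rfl
    have h5 : (Polynomial.C a + Polynomial.C ρ * Polynomial.X).natDegree ≠ 0 := by
      rw [add_comm, Polynomial.natDegree_linear hρ]; norm_num
    rcases Polynomial.comp_eq_zero_iff.1 h4 with h | ⟨_, h⟩
    · exact h
    · exfalso
      apply h5
      rw [h]; simp
  have hF : Function.Injective ((algebraMap (BD k C) (FractionRing (BD k C))).comp f) :=
    (IsFractionRing.injective (BD k C) (FractionRing (BD k C))).comp hf
  exact ⟨IsFractionRing.lift hF, fun p => IsFractionRing.lift_algebraMap hF p⟩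

end Crest.Agent.R013.One_863
end

-- ▼ part R013/One6_863
section

/-!
# Row 13, leaf SS-ONE (helper863): existence of the data and general injectivity
-/

set_option autoImplicit false
set_option linter.unusedSectionVars false
set_option linter.style.haveILetI false

open PowerSeries WithZero

namespace Crest.Agent.R013.One_863

open Crest.Agent.R013.RR7_948 Crest.Agent.R013.RR8_948 Crest.Agent.R013.RR9_948
open Crest.Agent.R013.RR11_948
open Crest.Agent.R013.RR12_948 Crest.Agent.R013.RR20_948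
open Crest.Agent.R013.Cell_408 Crest.Agent.R013.PlX_863 Crest.Agent.R013.Cvg_863

section Zeros

variable {C : Type*} [Field C] [IsAlgClosed C]
variable {K : Type*} [Field K] [Algebra C K]
  [Algebra (RatFunc C) K] [IsScalarTower C (RatFunc C) K] [FiniteDimensional (RatFunc C) K]
  [Algebra.IsSeparable (RatFunc C) K]

variable (K) in
/-- `x - a` -/
noncomputable def yy (a : C) : K := xK C K - algebraMap C K a

theorem yy_ne_zero (a : C) : yy K a ≠ 0 := by
  intro h
  apply transcendental_xK (k := C) (K := K)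
  rw [yy, sub_eq_zero] at h
  rw [h]
  exact isAlgebraic_algebraMap a

theorem poles_yy (a : C) : poles (k := C) (yy K a) = poles (xK C K) := by
  have hx0 : xK C K ≠ 0 := by
    have := yy_ne_zero (K := K) (0 : C)
    rwa [yy, map_zero, sub_zero] at this
  ext Q
  rw [poles_apply, poles_apply]
  have h1 := v_eq (k := C) hx0 Q
  have h2 := v_eq (k := C) (yy_ne_zero (K := K) a) Q
  have hc := const_le Q a
  rcases lt_or_ge 1 (Q.v (xK C K)) with h | h
  · have h3 : Q.v (yy K a) = Q.v (xK C K) := by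
      rw [yy]
      exact Valuation.map_sub_eq_of_lt_left _ (hc.trans_lt h)
    rw [h1, h2, exp_inj] at h3
    rw [h3]
  · have h3 : Q.v (yy K a) ≤ 1 := (Q.v.map_sub _ _).trans (max_le h hc)
    rw [h1, ← exp_zero, exp_le_exp] at h
    rw [h2, ← exp_zero, exp_le_exp] at h3
    omega

/-- the zeros of `x - a` -/
theorem exists_zeros (a : C) : ∃ (J : Finset (Pl C K)) (e : Pl C K → ℕ),
    (∀ Q ∈ J, 1 ≤ e Q ∧ Q.v (yy K a) = exp (-(e Q : ℤ))) ∧
    (∀ Q : Pl C K, Q.v (yy K a) < 1 → Q ∈ J) ∧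
    ∑ Q ∈ J, e Q = Module.finrank (RatFunc C) K := by
  classical
  refine ⟨(zeros (k := C) (yy K a)).support, fun Q => (divf (k := C) (yy K a) Q).toNat,
    fun Q hQ => ?_, fun Q hQ => ?_, ?_⟩
  · rw [Finsupp.mem_support_iff, zeros_apply] at hQ
    have h1 : 0 < divf (k := C) (yy K a) Q := by
      by_contra h
      exact hQ (max_eq_right (not_lt.1 h))
    have h2 : (((divf (k := C) (yy K a) Q).toNat : ℕ) : ℤ) = divf (k := C) (yy K a) Q :=
      Int.toNat_of_nonneg h1.le
    refine ⟨?_, ?_⟩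
    · show 1 ≤ (divf (k := C) (yy K a) Q).toNat
      omega
    · rw [v_eq (k := C) (yy_ne_zero a) Q, exp_inj]
      show _ = -(((divf (k := C) (yy K a) Q).toNat : ℕ) : ℤ)
      rw [h2]
  · rw [v_eq (k := C) (yy_ne_zero a) Q, ← exp_zero, exp_lt_exp] at hQ
    rw [Finsupp.mem_support_iff, zeros_apply]
    omega
  · have h1 := degD_zeros_eq_poles (k := C) (yy_ne_zero (K := K) a)
    rw [poles_yy, degD_poles_xK] at h1
    have h2 : degD (zeros (k := C) (yy K a)) =
        ∑ Q ∈ (zeros (k := C) (yy K a)).support, ((divf (k := C) (yy K a) Q).toNat : ℤ) := by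
      unfold degD
      rw [Finsupp.sum]
      refine Finset.sum_congr rfl fun Q hQ => ?_
      rw [degP_eq_one, zeros_apply]
      rw [Finsupp.mem_support_iff, zeros_apply] at hQ
      simp only [Nat.cast_one, mul_one]
      omega
    rw [h2] at h1
    exact_mod_cast h1

end Zeros

variable {k C : Type*} [NontriviallyNormedField k] [NormedField C] [IsUltrametricDist C]
  [NormedAlgebra k C] [Algebra.IsAlgebraic k C] [IsAlgClosed C] [CharZero C]
variable {K : Type*} [Field K] [Algebra C K]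
  [Algebra (RatFunc C) K] [IsScalarTower C (RatFunc C) K] [FiniteDimensional (RatFunc C) K]
  [Algebra.IsSeparable (RatFunc C) K]

variable (k) in
/-- existence of the data for all small `ρ` -/
theorem exists_data (a : C) (J : Finset (Pl C K)) (hne : J.Nonempty) (e : Pl C K → ℕ)
    (hJ : ∀ Q ∈ J, 1 ≤ e Q ∧ Q.v (yy K a) = exp (-(e Q : ℤ))) :
    ∃ r0 : C, r0 ≠ 0 ∧ ∀ ρ : C, ρ ≠ 0 → ‖ρ‖ ≤ ‖r0‖ → Nonempty (Data k a ρ J e) := by
  classical
  have hx : ∀ Q ∈ J, xK C K ∈ OA Q := by
    intro Q hQ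
    have h1 : yy K a ∈ OA Q := by
      rw [mem_OA, (hJ Q hQ).2, ← exp_zero, exp_le_exp]; omega
    have h2 : xK C K = yy K a + algebraMap C K a := by rw [yy]; ring
    rw [h2]
    exact add_mem h1 ((OA Q).algebraMap_mem a)
  have main : ∀ Q : Pl C K, ∃ ψ : OA Q →ₐ[C] C⟦X⟧, Q ∈ J →
      (∀ (n : ℕ) (f : OA Q), X ^ n ∣ ψ f ↔ Q.v (f : K) ≤ exp (-(n : ℤ))) ∧
      ∀ h : xK C K ∈ OA Q, ψ ⟨xK C K, h⟩ = PowerSeries.C a + X ^ (e Q) := by
    intro Q
    by_cases hQ : Q ∈ J
    · obtain ⟨hy, ψ, h1, h2⟩ := exists_expansion Q (hJ Q hQ).2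
        (by have := (hJ Q hQ).1; exact_mod_cast (by omega : e Q ≠ 0))
      refine ⟨ψ, fun _ => ⟨h2, fun h => ?_⟩⟩
      have h3 : (⟨xK C K, h⟩ : OA Q) = algebraMap C (OA Q) a + ⟨yy K a, hy⟩ := by
        apply Subtype.ext
        show xK C K = algebraMap C K a + yy K a
        rw [yy]; ring
      rw [h3, map_add, h1, AlgHom.commutes]
      rfl
    · obtain ⟨π, hπ0, hπ⟩ := exists_v_eq Q (-1)
      exact ⟨(isUnif_place Q hπ).choose_spec.expand, fun h => absurd h hQ⟩
  choose ψ hψ using main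
  have hinj : ∀ Q ∈ J, Function.Injective (ψ Q) := by
    intro Q hQ
    rw [injective_iff_map_eq_zero]
    intro f hf
    by_contra hf0
    have hf0' : (f : K) ≠ 0 := fun h => hf0 (Subtype.ext h)
    have h1 := v_eq (k := C) hf0' Q
    have h2 := ((hψ Q hQ).1 ((divf (k := C) (f : K) Q).toNat + 1) f).1 (by rw [hf]; exact dvd_zero _)
    rw [h1, exp_le_exp] at h2
    push_cast at h2
    omega
  -- uniform radii
  have hβ : ∀ Q : Pl C K, ∃ β : C, β ≠ 0 ∧ (Q ∈ J → ∀ r' : C, ‖r'‖ ≤ ‖β‖ → ∀ b : OA Q,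
      (letI := algPoly C K; IsIntegral (Polynomial C) (b : K)) → rescale r' (ψ Q b) ∈ BD k C) := by
    intro Q
    by_cases hQ : Q ∈ J
    · have h1 : ψ Q ⟨xK C K, hx Q hQ⟩ =
          ((Polynomial.C a + Polynomial.X ^ (e Q) : Polynomial C) : C⟦X⟧) := by
        rw [(hψ Q hQ).2]
        simp
      obtain ⟨β, hβ0, hβ⟩ := exists_uniform k (hx Q hQ) (ψ Q) h1 (hinj Q hQ)
      exact ⟨β, hβ0, fun _ => hβ⟩
    · exact ⟨1, one_ne_zero, fun h => absurd h hQ⟩
  choose β hβ0 hβ using hβ
  obtain ⟨r0, hr0mem, hmin⟩ := Finset.exists_min_image (insert (1 : C) (J.image fun Q => β Q ^ e Q))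
    (fun z => ‖z‖) (Finset.insert_nonempty _ _)
  refine ⟨r0, ?_, fun ρ hρ hρr => ?_⟩
  · rcases Finset.mem_insert.1 hr0mem with h | h
    · rw [h]; exact one_ne_zero
    · obtain ⟨Q, _, hQ⟩ := Finset.mem_image.1 h
      rw [← hQ]
      exact pow_ne_zero _ (hβ0 Q)
  have hr : ∀ Q : Pl C K, ∃ r : C, Q ∈ J → r ^ e Q = ρ := by
    intro Q
    by_cases hQ : Q ∈ J
    · obtain ⟨r, hr⟩ := IsAlgClosed.exists_pow_nat_eq ρ (n := e Q) (hJ Q hQ).1
      exact ⟨r, fun _ => hr⟩
    · exact ⟨1, fun h => absurd h hQ⟩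
  choose r hr using hr
  have hr0 : ∀ Q ∈ J, r Q ≠ 0 := by
    intro Q hQ h0
    have h1 := hr Q hQ
    rw [h0, zero_pow (by have := (hJ Q hQ).1; omega)] at h1
    exact hρ h1.symm
  have hle : ∀ Q ∈ J, ‖r Q‖ ≤ ‖β Q‖ := by
    intro Q hQ
    have h1 : ‖r Q‖ ^ e Q ≤ ‖β Q‖ ^ e Q := by
      rw [← norm_pow, ← norm_pow, hr Q hQ]
      exact hρr.trans (hmin _ (Finset.mem_insert_of_mem (Finset.mem_image_of_mem _ hQ)))
    exact le_of_pow_le_pow_left₀ (by have := (hJ Q hQ).1; omega) (norm_nonneg _) h1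
  have hι : ∀ Q : Pl C K, ∃ ι : K →+* FractionRing (BD k C), Q ∈ J →
      ∀ w : OA Q, ∃ u v : BD k C, v ≠ 0 ∧
        ι w = algebraMap _ _ u / algebraMap _ _ v ∧ (u : C⟦X⟧) = rescale (r Q) (ψ Q w) * v := by
    intro Q
    by_cases hQ : Q ∈ J
    · obtain ⟨ι, hι⟩ := exists_iota (hx Q hQ) (ψ Q) (hinj Q hQ) (hr0 Q hQ)
        (hβ Q hQ (r Q) (hle Q hQ))
      exact ⟨ι, fun _ => hι⟩
    · obtain ⟨Q', hQ'⟩ := hne
      obtain ⟨ι, hι⟩ := exists_iota (hx Q' hQ') (ψ Q') (hinj Q' hQ') (hr0 Q' hQ')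
        (hβ Q' hQ' (r Q') (hle Q' hQ'))
      exact ⟨ι, fun h => absurd h hQ⟩
  choose ι hι using hι
  exact ⟨⟨hx, ψ, fun Q hQ => (hψ Q hQ).1, fun Q hQ => (hψ Q hQ).2 _, r, hr0, hr, ι, hι⟩⟩

end Crest.Agent.R013.One_863
end

-- ▼ part R013/One7_863
section

/-!
# Row 13, leaf SS-ONE (helper863): type 1 points, final form

`K/C(x)` finite separable, `C` algebraically closed of characteristic 0, algebraic over `k`.  For
every `a ∈ C` there is `r0 ≠ 0` such that for every `ρ ≠ 0` with `|ρ| ≤ |r0|`: the places `Q` of `K`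
with `|x - a|_Q < 1` (finite set `J`, multiplicities `e Q`, `∑ e Q = [K : C(x)]`) give ring
homomorphisms `ι Q : K → Frac BD`, `C`-linear, `ι Q x = a + ρ T ^ e Q`, and `K ⊗ Frac BD → ∏ Frac BD`
is injective (`one`).
-/

set_option autoImplicit false
set_option linter.unusedSectionVars false
set_option linter.style.haveILetI false

open PowerSeries WithZero

namespace Crest.Agent.R013.One_863

open Crest.Agent.R013.RR7_948 Crest.Agent.R013.RR8_948 Crest.Agent.R013.RR9_948
open Crest.Agent.R013.RR11_948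
open Crest.Agent.R013.RR12_948 Crest.Agent.R013.RR20_948
open Crest.Agent.R013.Cell_408 Crest.Agent.R013.PlX_863 Crest.Agent.R013.Cvg_863

variable {k C : Type*} [NontriviallyNormedField k] [NormedField C] [IsUltrametricDist C]
  [NormedAlgebra k C] [Algebra.IsAlgebraic k C] [IsAlgClosed C]
variable {K : Type*} [Field K] [Algebra C K]
  [Algebra (RatFunc C) K] [IsScalarTower C (RatFunc C) K] [FiniteDimensional (RatFunc C) K]
  [Algebra.IsSeparable (RatFunc C) K]
variable {a ρ : C} {J : Finset (Pl C K)} {e : Pl C K → ℕ}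

theorem Data.ι_const (D : Data k a ρ J e) {Q : Pl C K} (hQ : Q ∈ J) (c : C) :
    D.ι Q (algebraMap C K c) = algebraMap _ _ (algebraMap C (BD k C) c) := by
  refine iota_eq (D.hι Q hQ) (algebraMap C (OA Q) c) (algebraMap C (BD k C) c) ?_
  rw [AlgHom.commutes]
  show rescale (D.r Q) (PowerSeries.C c) = PowerSeries.C c
  ext m
  rw [coeff_rescale, coeff_C]
  split_ifs with hm
  · subst hm; simp
  · simp

theorem Data.ι_x (D : Data k a ρ J e) {Q : Pl C K} (hQ : Q ∈ J) :
    D.ι Q (xK C K) = algebraMap _ _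
      (algebraMap C (BD k C) a + algebraMap C (BD k C) ρ * XB k C ^ e Q) := by
  refine iota_eq (D.hι Q hQ) ⟨xK C K, D.hx Q hQ⟩ _ ?_
  rw [D.ψx Q hQ, map_add, map_pow]
  show rescale (D.r Q) (PowerSeries.C a) + rescale (D.r Q) X ^ e Q =
    PowerSeries.C a + PowerSeries.C ρ * X ^ e Q
  have h1 : rescale (D.r Q) (PowerSeries.C a) = PowerSeries.C a := by
    ext m
    rw [coeff_rescale, coeff_C]
    split_ifs with hm
    · subst hm; simp
    · simp
  have h2 : rescale (D.r Q) (X : C⟦X⟧) = PowerSeries.C (D.r Q) * X := by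
    ext n
    rw [coeff_rescale, coeff_C_mul, coeff_X]
    split_ifs with hn
    · subst hn; simp
    · simp
  rw [h1, h2, mul_pow, ← map_pow, D.rpow Q hQ]

/-- compatibility of the two ways around the square -/
theorem compat (D : Data k a ρ J e) {Q : Pl C K} (hQ : Q ∈ J)
    {τ : RatFunc C →+* FractionRing (BD k C)} (hτ : ∀ p : Polynomial C,
      τ (algebraMap _ _ p) = algebraMap _ _ (Polynomial.aeval
        (algebraMap C (BD k C) a + algebraMap C (BD k C) ρ * XB k C) p))
    (σ : BD k C →ₐ[C] BD k C) (hσ : σ (XB k C) = XB k C ^ e Q)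
    (σF : FractionRing (BD k C) →+* FractionRing (BD k C))
    (hσF : ∀ g : BD k C, σF (algebraMap _ _ g) = algebraMap _ _ (σ g)) (f : RatFunc C) :
    σF (τ f) = D.ι Q (algebraMap (RatFunc C) K f) := by
  have h : σF.comp τ = (D.ι Q).comp (algebraMap (RatFunc C) K) := by
    apply IsLocalization.ringHom_ext (nonZeroDivisors (Polynomial C))
    apply Polynomial.ringHom_ext
    · intro c
      rw [RingHom.comp_apply, RingHom.comp_apply, RingHom.comp_apply, RingHom.comp_apply, hτ,
        Polynomial.aeval_C, hσF, AlgHom.commutes, ← D.ι_const hQ, RatFunc.algebraMap_C]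
      congr 1
      rw [IsScalarTower.algebraMap_apply C (RatFunc C) K, RatFunc.algebraMap_eq_C]
    · rw [RingHom.comp_apply, RingHom.comp_apply, RingHom.comp_apply, RingHom.comp_apply, hτ,
        Polynomial.aeval_X, hσF, map_add, map_mul, AlgHom.commutes, AlgHom.commutes, hσ,
        RatFunc.algebraMap_X, ← D.ι_x hQ]
      rfl
  exact RingHom.congr_fun h f

/-- a basis of `K` over `C(x)` adapted to the zeros of `x - a` -/
theorem linearIndependent_family (D : Data k a ρ J e) (hρ : ρ ≠ 0) {n : Type*} [Fintype n]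
    (w : n → K) (hw : ∀ l, ∀ Q ∈ J, w l ∈ OA Q)
    (hLIN : ∀ c : n → C, (∀ Q ∈ J, Q.v (∑ l, algebraMap C K (c l) * w l) ≤ exp (-(e Q : ℤ))) →
      c = 0)
    (σ : Pl C K → BD k C →ₐ[C] BD k C) (hσ : ∀ Q ∈ J, σ Q (XB k C) = XB k C ^ e Q)
    (σF : Pl C K → FractionRing (BD k C) →+* FractionRing (BD k C))
    (hσF : ∀ Q ∈ J, ∀ g : BD k C, σF Q (algebraMap _ _ g) = algebraMap _ _ (σ Q g)) :
    LinearIndependent (RatFunc C) w := by
  obtain ⟨τ, hτ⟩ := exists_tau k a ρ hρ
  rw [Fintype.linearIndependent_iff]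
  intro c hc
  have h0 : (fun l => τ (c l)) = 0 := by
    refine eq_zero_of_rel D w hw hLIN σ hσ σF hσF _ fun Q hQ => ?_
    have h1 : ∀ l, σF Q (τ (c l)) * D.ι Q (w l) = D.ι Q (c l • w l) := by
      intro l
      rw [compat D hQ hτ (σ Q) (hσ Q hQ) (σF Q) (hσF Q hQ), ← map_mul, Algebra.smul_def]
    rw [Finset.sum_congr rfl fun l _ => h1 l, ← map_sum, hc, map_zero]
  intro l
  have h1 : τ (c l) = 0 := congrFun h0 l
  exact (map_eq_zero τ).1 h1

/-- **(INJ)** `K ⊗ Frac BD → ∏ Frac BD` is injective -/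
theorem inj (D : Data k a ρ J e) (hρ : ρ ≠ 0)
    (hsum : ∑ Q ∈ J, e Q = Module.finrank (RatFunc C) K)
    (σ : Pl C K → BD k C →ₐ[C] BD k C) (hσ : ∀ Q ∈ J, σ Q (XB k C) = XB k C ^ e Q)
    (σF : Pl C K → FractionRing (BD k C) →+* FractionRing (BD k C))
    (hσF : ∀ Q ∈ J, ∀ g : BD k C, σF Q (algebraMap _ _ g) = algebraMap _ _ (σ Q g))
    {m : Type*} [Fintype m] (b : m → K) (hb : LinearIndependent (RatFunc C) b)
    (G : m → FractionRing (BD k C)) (hG : ∀ Q ∈ J, ∑ i, σF Q (G i) * D.ι Q (b i) = 0) : G = 0 := by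
  classical
  obtain ⟨τ, hτ⟩ := exists_tau k a ρ hρ
  obtain ⟨w, hw, hLIN⟩ := exists_family J e
  have hli := linearIndependent_family D hρ w hw hLIN σ hσ σF hσF
  have hcard : Fintype.card (Σ Q : J, Fin (e Q)) = Module.finrank (RatFunc C) K := by
    rw [Fintype.card_sigma, ← hsum]
    simp only [Fintype.card_fin]
    exact Finset.sum_coe_sort J e
  have hne : Nonempty (Σ Q : J, Fin (e Q)) := by
    rw [← Fintype.card_pos_iff, hcard]
    exact Module.finrank_pos
  let bw := basisOfLinearIndependentOfCardEqFinrank hli hcard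
  have hbw : ∀ l, bw l = w l := fun l => by
    simp [bw]
  -- coordinates
  have h1 : (fun l => ∑ i, G i * τ (bw.repr (b i) l)) = 0 := by
    refine eq_zero_of_rel D w hw hLIN σ hσ σF hσF _ fun Q hQ => ?_
    have h2 := hG Q hQ
    have h3 : ∀ i, D.ι Q (b i) = ∑ l, σF Q (τ (bw.repr (b i) l)) * D.ι Q (w l) := by
      intro i
      conv_lhs => rw [← bw.sum_repr (b i)]
      rw [map_sum]
      refine Finset.sum_congr rfl fun l _ => ?_
      rw [compat D hQ hτ (σ Q) (hσ Q hQ) (σF Q) (hσF Q hQ), ← map_mul, ← Algebra.smul_def, hbw]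
    rw [Finset.sum_congr rfl fun i _ => by rw [h3 i, Finset.mul_sum]] at h2
    rw [Finset.sum_comm] at h2
    rw [← h2]
    refine Finset.sum_congr rfl fun l _ => ?_
    rw [map_sum, Finset.sum_mul]
    refine Finset.sum_congr rfl fun i _ => ?_
    rw [map_mul]; ring
  -- a left inverse
  have hinjL : Function.Injective (Fintype.linearCombination (RatFunc C) b) :=
    linearIndependent_iff_injective_fintypeLinearCombination.1 hb
  obtain ⟨β, hβ⟩ := LinearMap.exists_leftInverse_of_injective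
    (Fintype.linearCombination (RatFunc C) b) (LinearMap.ker_eq_bot.2 hinjL)
  have hβb : ∀ i j, ∑ l, bw.repr (b i) l * β (bw l) j = if i = j then 1 else 0 := by
    intro i j
    have h4 : β (b i) = Pi.single i 1 := by
      have h5 := LinearMap.congr_fun hβ (Pi.single i 1)
      rw [LinearMap.comp_apply, Fintype.linearCombination_apply_single, one_smul] at h5
      exact h5
    have h6 : β (b i) = ∑ l, bw.repr (b i) l • β (bw l) := by
      conv_lhs => rw [← bw.sum_repr (b i)]
      rw [map_sum]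
      refine Finset.sum_congr rfl fun l _ => ?_
      rw [map_smul]
    have h7 := congrFun (h6.symm.trans h4) j
    rw [Finset.sum_apply, Pi.single_apply] at h7
    simp only [Pi.smul_apply, smul_eq_mul] at h7
    rw [h7]
    by_cases hij : i = j
    · rw [if_pos hij, if_pos hij.symm]
    · rw [if_neg hij, if_neg (Ne.symm hij)]
  funext j
  have h8 : G j = ∑ l, (∑ i, G i * τ (bw.repr (b i) l)) * τ (β (bw l) j) := by
    have h9 : ∀ l, (∑ i, G i * τ (bw.repr (b i) l)) * τ (β (bw l) j) =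
        ∑ i, G i * τ (bw.repr (b i) l * β (bw l) j) := by
      intro l
      rw [Finset.sum_mul]
      refine Finset.sum_congr rfl fun i _ => ?_
      rw [map_mul]; ring
    rw [Finset.sum_congr rfl fun l _ => h9 l, Finset.sum_comm]
    have h10 : ∀ i, ∑ l, G i * τ (bw.repr (b i) l * β (bw l) j) = if i = j then G i else 0 := by
      intro i
      rw [← Finset.mul_sum, ← map_sum, hβb]
      split_ifs <;> simp
    rw [Finset.sum_congr rfl fun i _ => h10 i, Finset.sum_ite_eq' Finset.univ j G]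
    simp
  rw [h8]
  refine Finset.sum_eq_zero fun l _ => ?_
  rw [congrFun h1 l]
  simp

/-- **SS-ONE**, type 1 points. -/
theorem one (k : Type*) {C : Type*} [NontriviallyNormedField k] [NormedField C]
    [IsUltrametricDist C] [NormedAlgebra k C] [Algebra.IsAlgebraic k C] [IsAlgClosed C]
    [CharZero C] (K : Type*) [Field K] [Algebra C K] [Algebra (RatFunc C) K]
    [IsScalarTower C (RatFunc C) K] [FiniteDimensional (RatFunc C) K]
    [Algebra.IsSeparable (RatFunc C) K] (a : C) :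
    ∃ (J : Finset (Pl C K)) (e : Pl C K → ℕ),
      (∀ Q ∈ J, 1 ≤ e Q ∧ Q.v (xK C K - algebraMap C K a) = exp (-(e Q : ℤ))) ∧
      (∀ Q : Pl C K, Q.v (xK C K - algebraMap C K a) < 1 → Q ∈ J) ∧
      ∑ Q ∈ J, e Q = Module.finrank (RatFunc C) K ∧
      ∃ r0 : C, r0 ≠ 0 ∧ ∀ ρ : C, ρ ≠ 0 → ‖ρ‖ ≤ ‖r0‖ →
        ∃ ι : Pl C K → K →+* FractionRing (BD k C),
          (∀ Q ∈ J, ∀ c : C, ι Q (algebraMap C K c) = algebraMap _ _ (algebraMap C (BD k C) c)) ∧
          (∀ Q ∈ J, ι Q (xK C K) = algebraMap _ _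
            (algebraMap C (BD k C) a + algebraMap C (BD k C) ρ * XB k C ^ e Q)) ∧
          ∀ (σ : Pl C K → BD k C →ₐ[C] BD k C)
            (σF : Pl C K → FractionRing (BD k C) →+* FractionRing (BD k C)),
            (∀ Q ∈ J, σ Q (XB k C) = XB k C ^ e Q) →
            (∀ Q ∈ J, ∀ g : BD k C, σF Q (algebraMap _ _ g) = algebraMap _ _ (σ Q g)) →
            ∀ {m : ℕ} (b : Fin m → K), LinearIndependent (RatFunc C) b →
            ∀ G : Fin m → FractionRing (BD k C),
              (∀ Q ∈ J, ∑ i, σF Q (G i) * ι Q (b i) = 0) → G = 0 := by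
  obtain ⟨J, e, h1, h2, h3⟩ := exists_zeros (K := K) a
  have hne : J.Nonempty := by
    by_contra h
    rw [Finset.not_nonempty_iff_eq_empty] at h
    rw [h, Finset.sum_empty] at h3
    have : 0 < Module.finrank (RatFunc C) K := Module.finrank_pos
    omega
  obtain ⟨r0, hr0, H⟩ := exists_data k a J hne e h1
  refine ⟨J, e, h1, h2, h3, r0, hr0, fun ρ hρ hρr => ?_⟩
  obtain ⟨D⟩ := H ρ hρ hρr
  exact ⟨D.ι, fun Q hQ c => D.ι_const hQ c, fun Q hQ => D.ι_x hQ,
    fun σ σF hσ hσF m b hb G hG => inj D hρ h3 σ hσ σF hσF b hb G hG⟩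

end Crest.Agent.R013.One_863
end

-- ▼ part R013/One8_863
section

/-!
# Row 13, leaf SS-ONE (helper863): the point at infinity

Same statement as `One_863.one` for the coordinate `1 / x` (`one_inf`).
-/

set_option autoImplicit false
set_option linter.unusedSectionVars false
set_option linter.style.haveILetI false

open PowerSeries WithZero

namespace Crest.Agent.R013.One_863

open Crest.Agent.R013.RR7_948 Crest.Agent.R013.RR8_948 Crest.Agent.R013.RR9_948
open Crest.Agent.R013.RR11_948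
open Crest.Agent.R013.RR12_948 Crest.Agent.R013.RR20_948
open Crest.Agent.R013.Cell_408 Crest.Agent.R013.PlX_863 Crest.Agent.R013.Cvg_863

section Change

variable {C : Type*} [Field C] {K : Type*} [Field K] [Algebra C K]
  [i1 : Algebra (RatFunc C) K] [IsScalarTower C (RatFunc C) K]

theorem transcendental_inv {L : Type*} [Field L] [Algebra C L] {z : L} (hz : Transcendental C z) :
    Transcendental C z⁻¹ := by
  intro h
  exact hz (by simpa using h.inv)

/-- the structure `X ↦ x⁻¹` factors through the structure `X ↦ x` -/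
theorem ratAlg_inv_eq (f : RatFunc C) :
    ratHom (xK C K)⁻¹ (transcendental_inv transcendental_xK) f =
      algebraMap (RatFunc C) K (ratHom (RatFunc.X : RatFunc C)⁻¹
        (transcendental_inv RatFunc.transcendental_X) f) := by
  have h : (ratHom (xK C K)⁻¹ (transcendental_inv transcendental_xK)).toRingHom =
      (algebraMap (RatFunc C) K).comp (ratHom (RatFunc.X : RatFunc C)⁻¹
        (transcendental_inv RatFunc.transcendental_X)).toRingHom := by
    apply IsLocalization.ringHom_ext (nonZeroDivisors (Polynomial C))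
    apply Polynomial.ringHom_ext
    · intro c
      simp only [RingHom.comp_apply]
      rw [RatFunc.algebraMap_C, ← RatFunc.algebraMap_eq_C]
      show (ratHom (xK C K)⁻¹ (transcendental_inv transcendental_xK)) _ =
        algebraMap (RatFunc C) K ((ratHom (RatFunc.X : RatFunc C)⁻¹
          (transcendental_inv RatFunc.transcendental_X)) _)
      rw [AlgHom.commutes, AlgHom.commutes, ← IsScalarTower.algebraMap_apply]
    · simp only [RingHom.comp_apply]
      rw [RatFunc.algebraMap_X]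
      show (ratHom (xK C K)⁻¹ (transcendental_inv transcendental_xK)) _ =
        algebraMap (RatFunc C) K ((ratHom (RatFunc.X : RatFunc C)⁻¹
          (transcendental_inv RatFunc.transcendental_X)) _)
      rw [ratHom_X, ratHom_X, map_inv₀]
      rfl
  exact RingHom.congr_fun h f

theorem linearIndependent_ratAlg_inv {m : Type*} [Fintype m] {b : m → K}
    (hb : LinearIndependent (RatFunc C) b) :
    @LinearIndependent m (RatFunc C) K b _ _
      (ratAlg (xK C K)⁻¹ (transcendental_inv transcendental_xK)).toModule := by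
  rw [Fintype.linearIndependent_iff] at hb
  have hb' : ∀ g : m → RatFunc C, ∑ l, algebraMap (RatFunc C) K (g l) * b l = 0 → ∀ l, g l = 0 := by
    intro g hg
    refine hb g ?_
    rw [← hg]
    exact Finset.sum_congr rfl fun l _ => Algebra.smul_def _ _
  have key : ∀ g : m → RatFunc C,
      ∑ l, ratHom (xK C K)⁻¹ (transcendental_inv transcendental_xK) (g l) * b l = 0 →
      ∀ l, g l = 0 := by
    intro g hg l
    have h4 := hb' (fun l => ratHom (RatFunc.X : RatFunc C)⁻¹
      (transcendental_inv RatFunc.transcendental_X) (g l)) (by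
        rw [← hg]
        exact Finset.sum_congr rfl fun l _ => by rw [ratAlg_inv_eq]) l
    exact (_root_.map_eq_zero (ratHom (RatFunc.X : RatFunc C)⁻¹
      (transcendental_inv RatFunc.transcendental_X))).1 h4
  letI i2 : Algebra (RatFunc C) K := ratAlg (xK C K)⁻¹ (transcendental_inv transcendental_xK)
  exact Fintype.linearIndependent_iff.2 fun g hg l => key g hg l

end Change

/-- **SS-ONE**, the point at infinity. -/
theorem one_inf (k : Type*) {C : Type*} [NontriviallyNormedField k] [NormedField C]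
    [IsUltrametricDist C] [NormedAlgebra k C] [Algebra.IsAlgebraic k C] [IsAlgClosed C]
    [CharZero C] (K : Type*) [Field K] [Algebra C K] [Algebra (RatFunc C) K]
    [IsScalarTower C (RatFunc C) K] [FiniteDimensional (RatFunc C) K]
    [Algebra.IsSeparable (RatFunc C) K] :
    ∃ (J : Finset (Pl C K)) (e : Pl C K → ℕ),
      (∀ Q ∈ J, 1 ≤ e Q ∧ Q.v (xK C K)⁻¹ = exp (-(e Q : ℤ))) ∧
      (∀ Q : Pl C K, Q.v (xK C K)⁻¹ < 1 → Q ∈ J) ∧
      ∑ Q ∈ J, e Q = Module.finrank (RatFunc C) K ∧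
      ∃ r0 : C, r0 ≠ 0 ∧ ∀ ρ : C, ρ ≠ 0 → ‖ρ‖ ≤ ‖r0‖ →
        ∃ ι : Pl C K → K →+* FractionRing (BD k C),
          (∀ Q ∈ J, ∀ c : C, ι Q (algebraMap C K c) = algebraMap _ _ (algebraMap C (BD k C) c)) ∧
          (∀ Q ∈ J, ι Q (xK C K)⁻¹ = algebraMap _ _
            (algebraMap C (BD k C) ρ * XB k C ^ e Q)) ∧
          ∀ (σ : Pl C K → BD k C →ₐ[C] BD k C)
            (σF : Pl C K → FractionRing (BD k C) →+* FractionRing (BD k C)),
            (∀ Q ∈ J, σ Q (XB k C) = XB k C ^ e Q) →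
            (∀ Q ∈ J, ∀ g : BD k C, σF Q (algebraMap _ _ g) = algebraMap _ _ (σ Q g)) →
            ∀ {m : ℕ} (b : Fin m → K), LinearIndependent (RatFunc C) b →
            ∀ G : Fin m → FractionRing (BD k C),
              (∀ Q ∈ J, ∑ i, σF Q (G i) * ι Q (b i) = 0) → G = 0 := by
  have hy : Transcendental C (xK C K)⁻¹ := transcendental_inv transcendental_xK
  have hsep := ratAlg_isSeparable (xK C K)⁻¹ hy
  have hfin := ratAlg_finite (xK C K)⁻¹ hy
  have htow := ratAlg_tower (xK C K)⁻¹ hy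
  have hx0 : xK C K ≠ 0 := by
    have := yy_ne_zero (K := K) (0 : C)
    rwa [yy, map_zero, sub_zero] at this
  -- the degree
  have hdeg : @Module.finrank (RatFunc C) K _ _ (ratAlg (xK C K)⁻¹ hy).toModule =
      Module.finrank (RatFunc C) K := by
    have h1 := degD_poles_eq (xK C K)⁻¹ hy hsep
    rw [poles_inv hx0, degD_zeros_eq_poles hx0, degD_poles_xK] at h1
    exact_mod_cast h1.symm
  have hlin := fun {m : ℕ} (b : Fin m → K) (hb : LinearIndependent (RatFunc C) b) =>
    linearIndependent_ratAlg_inv hb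
  have hX := ratAlg_xK (xK C K)⁻¹ hy
  obtain ⟨J, e, h1, h2, h3, r0, hr0, H⟩ :=
    @one k C _ _ _ _ _ _ _ K _ _ (ratAlg (xK C K)⁻¹ hy) htow hfin hsep 0
  rw [hX, map_zero, sub_zero] at h1
  rw [hX, map_zero, sub_zero] at h2
  refine ⟨J, e, h1, h2, h3.trans hdeg, r0, hr0, fun ρ hρ hρr => ?_⟩
  obtain ⟨ι, h4, h5, h6⟩ := H ρ hρ hρr
  refine ⟨ι, h4, fun Q hQ => ?_, fun σ σF hσ hσF m b hb G hG =>
    h6 σ σF hσ hσF b (hlin b hb) G hG⟩
  have h7 := h5 Q hQ
  rw [hX, map_zero, zero_add] at h7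
  exact h7

end Crest.Agent.R013.One_863
end

-- ▼ part R013/One9_863

/-!
# Row 13, leaf SS-ONE (helper863): the form needed by `DCells`

`exists_cells`, `exists_cells_inf`: the discs over a small disc around `a`, resp. around infinity,
with the composition `compF` of helper267.
-/

set_option autoImplicit false
set_option linter.unusedSectionVars false
set_option linter.style.haveILetI false

open PowerSeries WithZero

namespace Crest.Agent.R013.One_863

open Crest.Agent.R013.RR7_948 Crest.Agent.R013.RR8_948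
open Crest.Agent.R013.Cell_408 Crest.Agent.R013.PlX_863 Crest.Agent.R013.Cvg_863
open Crest.Agent.R013.Comp_267

section

variable {k C : Type*} [NontriviallyNormedField k] [CompleteSpace k] [IsUltrametricDist k]
  [NormedField C] [IsUltrametricDist C] [NormedAlgebra k C] [Algebra.IsAlgebraic k C] [IsAlgClosed C]

variable (k C) in
theorem wd_X_pow (m : ℕ) : WD k (X ^ m : C⟦X⟧) m where
  fin := ((X_mem_BD (k := k) (C := C)) |> fun h => (mem_BD.1 (pow_mem h m)).1)
  le n := by
    rw [coeff_X_pow]; split_ifs <;> simp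
  eq := by simp
  lt n hn := by
    rw [coeff_X_pow, if_neg hn.ne]; simp

/-- the discs over a small disc -/
structure Cells (hk : DiscNorm k) (K : Type*) [Field K] [Algebra C K] [Algebra (RatFunc C) K]
    (y : FD k C) where
  N : ℕ
  m : Fin N → ℕ
  hm : ∀ j, m j ≠ 0
  ι : Fin N → K →ₐ[C] FD k C
  hx : ∀ j, ι j (algebraMap (RatFunc C) K RatFunc.X) = compF hk (wd_X_pow k C (m j)) (hm j) y
  sum : ∑ j, m j = Module.finrank (RatFunc C) K
  inj : ∀ {n : ℕ} (b : Fin n → K), LinearIndependent (RatFunc C) b → ∀ e : Fin n → FD k C,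
    (∀ j, ∑ i, compF hk (wd_X_pow k C (m j)) (hm j) (e i) * ι j (b i) = 0) → e = 0

end

variable {k C : Type*} [NontriviallyNormedField k] [CompleteSpace k] [IsUltrametricDist k]
  [NormedField C] [IsUltrametricDist C] [NormedAlgebra k C] [Algebra.IsAlgebraic k C] [IsAlgClosed C]
  [CharZero C]
variable {K : Type*} [Field K] [Algebra C K]
  [Algebra (RatFunc C) K] [IsScalarTower C (RatFunc C) K] [FiniteDimensional (RatFunc C) K]
  [Algebra.IsSeparable (RatFunc C) K]

/-- common last step -/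
theorem cells_of (hk : DiscNorm k) (J : Finset (Pl C K)) (e : Pl C K → ℕ)
    (he : ∀ Q ∈ J, 1 ≤ e Q) (hsum : ∑ Q ∈ J, e Q = Module.finrank (RatFunc C) K)
    (ι : Pl C K → K →+* FractionRing (BD k C))
    (hC : ∀ Q ∈ J, ∀ c : C, ι Q (algebraMap C K c) = algebraMap _ _ (algebraMap C (BD k C) c))
    (y : FD k C)
    (hx : ∀ Q ∈ J, ∀ hQ : e Q ≠ 0, ι Q (xK C K) = compF hk (wd_X_pow k C (e Q)) hQ y)
    (hinj : ∀ (σ : Pl C K → BD k C →ₐ[C] BD k C)
            (σF : Pl C K → FractionRing (BD k C) →+* FractionRing (BD k C)),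
            (∀ Q ∈ J, σ Q (XB k C) = XB k C ^ e Q) →
            (∀ Q ∈ J, ∀ g : BD k C, σF Q (algebraMap _ _ g) = algebraMap _ _ (σ Q g)) →
            ∀ {m : ℕ} (b : Fin m → K), LinearIndependent (RatFunc C) b →
            ∀ G : Fin m → FractionRing (BD k C),
              (∀ Q ∈ J, ∑ i, σF Q (G i) * ι Q (b i) = 0) → G = 0) :
    Nonempty (Cells hk K y) := by
  classical
  let ε := J.equivFin
  have hm : ∀ j, e (ε.symm j) ≠ 0 := fun j => by have := he _ (ε.symm j).2; omega
  refine ⟨⟨J.card, fun j => e (ε.symm j), hm, fun j =>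
    { (ι (ε.symm j) : K →+* FractionRing (BD k C)) with
      commutes' := fun c => by
        have h1 := hC _ (ε.symm j).2 c
        rw [← IsScalarTower.algebraMap_apply] at h1
        exact h1 }, fun j => hx _ (ε.symm j).2 _, ?_, ?_⟩⟩
  · rw [← hsum, ← Finset.sum_coe_sort J e]
    exact Fintype.sum_equiv ε.symm _ _ fun _ => rfl
  · intro n b hb G hG
    -- the compositions, extended by the identity outside `J`
    let σ : Pl C K → BD k C →ₐ[C] BD k C := fun Q =>
      if h : e Q ≠ 0 then comp (X ^ e Q) (WD.co (wd_X_pow k C (e Q)) h) else AlgHom.id C _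
    let σF : Pl C K → FractionRing (BD k C) →+* FractionRing (BD k C) := fun Q =>
      if h : e Q ≠ 0 then (compF hk (wd_X_pow k C (e Q)) h : FD k C →+* FD k C)
        else RingHom.id _
    have hσ : ∀ Q (h : e Q ≠ 0), σ Q = comp (X ^ e Q) (WD.co (wd_X_pow k C (e Q)) h) :=
      fun Q h => dif_pos h
    have hσF : ∀ Q (h : e Q ≠ 0), σF Q = (compF hk (wd_X_pow k C (e Q)) h : FD k C →+* FD k C) :=
      fun Q h => dif_pos h
    refine hinj σ σF (fun Q hQ => ?_) (fun Q hQ g => ?_) b hb G fun Q hQ => ?_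
    · have h0 : e Q ≠ 0 := by have := he Q hQ; omega
      rw [hσ Q h0]
      apply Subtype.ext
      have h1 := comp_X (k := k) (X ^ e Q : C⟦X⟧) (WD.co (wd_X_pow k C (e Q)) h0)
      have h2 := congrArg (fun z : BD k C => (z : C⟦X⟧)) h1
      exact h2
    · have h0 : e Q ≠ 0 := by have := he Q hQ; omega
      rw [hσ Q h0, hσF Q h0]
      exact compF_algebraMap hk (wd_X_pow k C (e Q)) h0 g
    · have h0 : e Q ≠ 0 := by have := he Q hQ; omega
      have h3 := hG (ε ⟨Q, hQ⟩)
      have h4 : ε.symm (ε ⟨Q, hQ⟩) = ⟨Q, hQ⟩ := ε.symm_apply_apply _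
      rw [← h3]
      refine Finset.sum_congr rfl fun i _ => ?_
      rw [hσF Q h0]
      have h5 : ∀ (q : J) (hq : q = ⟨Q, hQ⟩) (h : e q ≠ 0),
          (compF hk (wd_X_pow k C (e q)) h : FD k C →+* FD k C) (G i) * ι q (b i) =
          (compF hk (wd_X_pow k C (e Q)) h0 : FD k C →+* FD k C) (G i) * ι Q (b i) := by
        rintro q rfl h
        rfl
      exact (h5 _ h4 (hm _)).symm

/-- **SS-ONE**: the discs over a small disc around `a` -/
theorem exists_cells (hk : DiscNorm k) (K : Type*) [Field K] [Algebra C K]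
    [Algebra (RatFunc C) K] [IsScalarTower C (RatFunc C) K] [FiniteDimensional (RatFunc C) K]
    [Algebra.IsSeparable (RatFunc C) K] (a : C) :
    ∃ r0 : C, r0 ≠ 0 ∧ ∀ ρ : C, ρ ≠ 0 → ‖ρ‖ ≤ ‖r0‖ →
      Nonempty (Cells hk K (algebraMap C (FD k C) a + algebraMap C (FD k C) ρ * TF k C)) := by
  obtain ⟨J, e, h1, h2, h3, r0, hr0, H⟩ := one k K a
  refine ⟨r0, hr0, fun ρ hρ hρr => ?_⟩
  obtain ⟨ι, h4, h5, h6⟩ := H ρ hρ hρr
  refine cells_of hk J e (fun Q hQ => (h1 Q hQ).1) h3 ι h4 _ (fun Q hQ h0 => ?_) h6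
  have h7 : compF hk (wd_X_pow k C (e Q)) h0
      (algebraMap C (FD k C) a + algebraMap C (FD k C) ρ * TF k C) =
      algebraMap C (FD k C) a + algebraMap C (FD k C) ρ *
        algebraMap (BD k C) (FD k C) ⟨X ^ e Q, (wd_X_pow k C (e Q)).mem⟩ := by
    rw [map_add, map_mul, AlgHom.commutes, AlgHom.commutes, compF_TF]
  have h8 : (XB k C ^ e Q : BD k C) = ⟨X ^ e Q, (wd_X_pow k C (e Q)).mem⟩ := rfl
  rw [h7, h5 Q hQ, map_add, map_mul, h8, ← IsScalarTower.algebraMap_apply,
    ← IsScalarTower.algebraMap_apply]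

/-- **SS-ONE**: the discs over a small disc around infinity -/
theorem exists_cells_inf (hk : DiscNorm k) (K : Type*) [Field K] [Algebra C K]
    [Algebra (RatFunc C) K] [IsScalarTower C (RatFunc C) K] [FiniteDimensional (RatFunc C) K]
    [Algebra.IsSeparable (RatFunc C) K] :
    ∃ r0 : C, r0 ≠ 0 ∧ ∀ ρ : C, ‖r0‖ ≤ ‖ρ‖ →
      Nonempty (Cells hk K (algebraMap C (FD k C) ρ * (TF k C)⁻¹)) := by
  obtain ⟨J, e, h1, h2, h3, r0, hr0, H⟩ := one_inf k (C := C) K
  refine ⟨r0⁻¹, inv_ne_zero hr0, fun ρ hρr => ?_⟩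
  have hρ : ρ ≠ 0 := by
    rintro rfl
    rw [norm_zero] at hρr
    exact inv_ne_zero hr0 (norm_le_zero_iff.1 hρr)
  obtain ⟨ι, h4, h5, h6⟩ := H ρ⁻¹ (inv_ne_zero hρ) (by
    rw [norm_inv] at hρr ⊢
    exact inv_le_of_inv_le₀ (norm_pos_iff.2 hr0) hρr)
  refine cells_of hk J e (fun Q hQ => (h1 Q hQ).1) h3 ι h4 _ (fun Q hQ h0 => ?_) h6
  have h7 : compF hk (wd_X_pow k C (e Q)) h0 (algebraMap C (FD k C) ρ * (TF k C)⁻¹) =
      algebraMap C (FD k C) ρ *
        (algebraMap (BD k C) (FD k C) ⟨X ^ e Q, (wd_X_pow k C (e Q)).mem⟩)⁻¹ := by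
    rw [map_mul, map_inv₀, AlgHom.commutes, compF_TF]
  have h8 : (XB k C ^ e Q : BD k C) = ⟨X ^ e Q, (wd_X_pow k C (e Q)).mem⟩ := rfl
  have h9 := h5 Q hQ
  rw [map_inv₀, map_mul, h8, ← IsScalarTower.algebraMap_apply, map_inv₀] at h9
  rw [h7, ← inv_inv (ι Q (xK C K)), h9, mul_inv, inv_inv]

end Crest.Agent.R013.One_863
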