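import Mathlib
import Crest.Agent.R013.One9_863
import Crest.Agent.R013.Good1_408
import Crest.Agent.R013.LU3d_205
import Crest.Agent.R013.LU5_935
import Crest.Agent.R013.LU6_935
import Crest.Agent.R013.Good4_408
import Crest.Agent.R013.Good2_408
import Crest.Agent.R013.CAn4_243
import Crest.Agent.R013.Conn4_315
import Crest.Agent.R013.Red6_332
import Crest.Agent.R013.LineDec_315
import Crest.Agent.R013.Red11_332
import Crest.Agent.R013.CE1_280
import Crest.Agent.R013.CAnR2_109
import Crest.Agent.R013.Red16_332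

-- ▼ part R013/OneGood_863
section

/-!
# Row 13, leaf SS-ONE (helper863): small discs around the points of type 1 are good

`goodDisc`: for `a ∈ C` all small discs around `a` are good; `goodInf`: all small discs around
infinity are good.
-/

set_option autoImplicit false
set_option linter.unusedSectionVars false

namespace Crest.Agent.R013.One_863

open Crest.Agent.R013.Cell_408 Crest.Agent.R013.Comp_267 Crest.Agent.R013.Good_408

variable {k C : Type*} [NontriviallyNormedField k] [CompleteSpace k] [IsUltrametricDist k]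
  [NormedField C] [IsUltrametricDist C] [NormedAlgebra k C] [Algebra.IsAlgebraic k C] [IsAlgClosed C]
  [hk : Fact (DiscNorm k)]

/-- from `Cells` to `DCells` -/
noncomputable def Cells.toDCells {K : Type*} [Field K] [Algebra C K] [Algebra (RatFunc C) K]
    [IsScalarTower C (RatFunc C) K] {y : FD k C} (D : Cells hk.out K y) : DCells k C K y where
  J := Fin D.N
  fJ := inferInstance
  m := D.m
  f j := PowerSeries.X ^ D.m j
  wd j := wd_X_pow k C (D.m j)
  m_ne := D.hm
  io := D.ι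
  hx := D.hx
  sum_m := D.sum
  inj _ b hb := D.inj b hb

variable (k C) [CharZero C] (K : Type*) [Field K] [Algebra C K]
  [Algebra (RatFunc C) K] [IsScalarTower C (RatFunc C) K] [FiniteDimensional (RatFunc C) K]

/-- **SS-ONE**, finite points -/
theorem goodDisc (a : C) : ∃ r0 : C, r0 ≠ 0 ∧ ∀ ρ : C, ρ ≠ 0 → ‖ρ‖ ≤ ‖r0‖ →
    GoodDisc k C K a ρ := by
  obtain ⟨r0, hr0, H⟩ := exists_cells (C := C) hk.out K a
  exact ⟨r0, hr0, fun ρ hρ h => (H ρ hρ h).map Cells.toDCells⟩

/-- **SS-ONE**, the point at infinity -/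
theorem goodInf : ∃ r0 : C, r0 ≠ 0 ∧ ∀ ρ : C, ‖r0‖ ≤ ‖ρ‖ → GoodInf k C K ρ := by
  obtain ⟨r0, hr0, H⟩ := exists_cells_inf (C := C) hk.out K
  exact ⟨r0, hr0, fun ρ h => (H ρ h).map Cells.toDCells⟩

end Crest.Agent.R013.One_863
end

-- ▼ part R013/LU3e_205
section

/-!
R013 / SS-LU3 (helper205), part 5.  **Main theorem (type 3 local uniformisation, henselian level)**:
`F` henselian of mixed characteristic with algebraically closed constants `C`, Laurent polynomials in
a type 3 element dense in `F`, `L/F` finite: `e(L/F) = [L : F]` and any generator `z` of the value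
group of `L` is a coordinate: Laurent polynomials in `z` are dense in `L`.
-/

set_option autoImplicit false
set_option linter.unusedSectionVars false

namespace Crest.Agent.R013.LU3_205

open scoped NNReal
open Polynomial Crest.Agent.R013.Hens_899

section Aux

variable {C F Ω : Type*} [Field C] [Field F] [Field Ω] [Algebra C F] [Algebra F Ω] [Algebra C Ω]
  [IsScalarTower C F Ω] {W : Valuation Ω ℝ≥0}

theorem tower_top (K₁ : IntermediateField F Ω) : IsScalarTower C K₁ Ω :=
  IsScalarTower.of_algebraMap_eq fun _ => rfl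

theorem range_val (K₁ : IntermediateField F Ω) : Set.range (algebraMap K₁ Ω) = (K₁ : Set Ω) :=
  Subtype.range_coe

theorem inv_top (hW : Inv F W) (K₁ : IntermediateField F Ω) : Inv K₁ W :=
  fun σ x => hW (σ.restrictScalars F) x

/-- the conclusion: total ramification and a coordinate -/
def TR (C : Type*) {F Ω : Type*} [Field C] [Field F] [Field Ω] [Algebra F Ω] [Algebra C Ω]
    (W : Valuation Ω ℝ≥0) (t : Ω) (L : IntermediateField F Ω) : Prop :=
  ∃ z ∈ L, Dn C W (L : Set Ω) z ∧ ∃ c : C, c ≠ 0 ∧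
    W t = W (algebraMap C Ω c) * W z ^ Module.finrank F L

end Aux

section Tower

variable {C F Ω : Type*} [Field C] [Field F] [Field Ω] [Algebra C F] [Algebra F Ω] [Algebra C Ω]
  [IsScalarTower C F Ω] {W : Valuation Ω ℝ≥0} [IsAlgClosed C] [IsAlgClosed Ω] [IsGalois F Ω]

theorem tr_of (hW : Inv F W) {t : Ω} (hD : Dn C W (Set.range (algebraMap F Ω)) t)
    (L : IntermediateField F Ω) [FiniteDimensional F L]
    (h : ∀ z ∈ L, T3 C W z → VG C W (L : Set Ω) z → ∀ (e : ℕ) (c : C), c ≠ 0 →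
      W t = W (algebraMap C Ω c) * W z ^ e → Module.finrank F L ≤ e) : TR C W t L := by
  obtain ⟨z, hz, h3, hV, e, he1, c, hc, hc'⟩ := exists_vgen hD.t3 hD.vg hD.mem L
  have hle := h z hz h3 hV e c hc hc'
  have hge := Nat.le_of_dvd Module.finrank_pos (e_dvd hW hD.vg L hz h3 hc hc')
  have he : e = Module.finrank F L := le_antisymm hge hle
  subst he
  exact ⟨z, hz, gen_dense hD L hz h3 hc hc' hle, c, hc, hc'⟩

theorem tr_tame (hW : Inv F W) {t : Ω} (hD : Dn C W (Set.range (algebraMap F Ω)) t)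
    (L : IntermediateField F Ω) [FiniteDimensional F L] (hm : W (Module.finrank F L : Ω) = 1) :
    TR C W t L :=
  tr_of hW hD L fun _ hz h3 hV _ _ hc hc' => tame_le hW hD L hm hz h3 hV hc hc'

theorem tr_wild [CharZero Ω] (hW : Inv F W) {p : ℕ} (hp : p.Prime) (hWp : W (p : Ω) < 1) {t : Ω}
    (hD : Dn C W (Set.range (algebraMap F Ω)) t) (L : IntermediateField F Ω)
    [FiniteDimensional F L] [IsGalois F L] (hL : Module.finrank F L = p) : TR C W t L :=
  tr_of hW hD L fun _ hz h3 hV _ _ hc hc' => wild_le hW hp hWp hD L hL hz h3 hV hc hc'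

omit [IsAlgClosed C] [IsAlgClosed Ω] in
/-- transitivity -/
theorem TR.trans {t : Ω} {K₁ N : IntermediateField F Ω} (h : K₁ ≤ N) [FiniteDimensional F N]
    {z : Ω} {c : C} (hc : c ≠ 0)
    (hc' : W t = W (algebraMap C Ω c) * W z ^ Module.finrank F K₁)
    (h2 : TR C W z (IntermediateField.extendScalars h)) : TR C W t N := by
  obtain ⟨y, hy, hDy, d, hd, hd'⟩ := h2
  have hfin : Module.finrank F (IntermediateField.extendScalars h) = Module.finrank F N := by
    have := congrArg (fun X : IntermediateField F Ω => Module.finrank F X)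
      (IntermediateField.extendScalars_restrictScalars h)
    exact this
  have htower : Module.finrank F K₁ * Module.finrank K₁ (IntermediateField.extendScalars h) =
      Module.finrank F N := by
    rw [← hfin]
    exact Module.finrank_mul_finrank F K₁ (IntermediateField.extendScalars h)
  refine ⟨y, hy, hDy, c * d ^ Module.finrank F K₁, mul_ne_zero hc (pow_ne_zero _ hd), ?_⟩
  rw [hc', hd', mul_pow, ← pow_mul, map_mul, map_mul, map_pow, map_pow, mul_assoc, ← htower,
    mul_comm (Module.finrank F K₁)]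

end Tower

universe u v

section PTower

variable {C : Type v} {Ω : Type u} [Field C] [Field Ω] [Algebra C Ω] {W : Valuation Ω ℝ≥0}
  [IsAlgClosed C] [IsAlgClosed Ω] [CharZero Ω]

/-- `extendScalars` of a normal extension is normal -/
theorem isGalois_extendScalars {F : Type u} [Field F] [Algebra F Ω] [IsGalois F Ω]
    {K₁ N : IntermediateField F Ω} (h : K₁ ≤ N) [IsGalois F N] :
    IsGalois K₁ (IntermediateField.extendScalars h) := by
  have h1 : Normal K₁ (IntermediateField.extendScalars h) := by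
    rw [IntermediateField.normal_iff_forall_map_le]
    intro σ x hx
    obtain ⟨y, hy, rfl⟩ := hx
    have h2 := (IntermediateField.normal_iff_forall_map_le (K := N)).1
      (inferInstance : Normal F N) (σ.restrictScalars F)
    exact h2 ⟨y, hy, rfl⟩
  have h3 : Algebra.IsSeparable K₁ (IntermediateField.extendScalars h) :=
    Algebra.isSeparable_tower_bot_of_isSeparable K₁ _ Ω
  exact ⟨⟩

theorem finrank_extendScalars {F : Type u} [Field F] [Algebra F Ω]
    {K₁ N : IntermediateField F Ω} (h : K₁ ≤ N) [FiniteDimensional F N] :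
    Module.finrank F K₁ * Module.finrank K₁ (IntermediateField.extendScalars h) =
      Module.finrank F N := by
  have hfin : Module.finrank F (IntermediateField.extendScalars h) = Module.finrank F N := by
    have := congrArg (fun X : IntermediateField F Ω => Module.finrank F X)
      (IntermediateField.extendScalars_restrictScalars h)
    exact this
  rw [← hfin]
  exact Module.finrank_mul_finrank F K₁ (IntermediateField.extendScalars h)

theorem finiteDimensional_extendScalars {F : Type u} [Field F] [Algebra F Ω]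
    {K₁ N : IntermediateField F Ω} (h : K₁ ≤ N) [FiniteDimensional F N] :
    FiniteDimensional K₁ (IntermediateField.extendScalars h) := by
  have h1 : FiniteDimensional F (IntermediateField.extendScalars h) := by
    have h2 : FiniteDimensional F
        (IntermediateField.restrictScalars F (IntermediateField.extendScalars h)) := by
      rw [IntermediateField.extendScalars_restrictScalars]
      infer_instance
    exact h2
  exact Module.Finite.of_restrictScalars_finite F K₁ (IntermediateField.extendScalars h)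

/-- the subfield of a Galois extension attached to a subgroup, inside `Ω` -/
theorem exists_subfield {F : Type u} [Field F] [Algebra F Ω] (N : IntermediateField F Ω)
    [FiniteDimensional F N] [IsGalois F N] (H : Subgroup (N ≃ₐ[F] N)) :
    ∃ E : IntermediateField F Ω, E ≤ N ∧ Module.finrank F E = H.index ∧
      (H.Normal → IsGalois F E) := by
  refine ⟨IntermediateField.lift (IntermediateField.fixedField H), IntermediateField.lift_le _,
    ?_, ?_⟩
  · have h1 : Module.finrank F (IntermediateField.fixedField H) =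
        Module.finrank F (IntermediateField.lift (IntermediateField.fixedField H)) :=
      LinearEquiv.finrank_eq
        (IntermediateField.liftAlgEquiv (IntermediateField.fixedField H)).toLinearEquiv
    rw [← h1]
    have h2 := Module.finrank_mul_finrank F (IntermediateField.fixedField H) N
    rw [IntermediateField.finrank_fixedField_eq_card, ← IsGalois.card_aut_eq_finrank F N,
      ← H.card_mul_index, mul_comm] at h2
    exact Nat.eq_of_mul_eq_mul_left Nat.card_pos h2
  · intro hH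
    have : IsGalois F (IntermediateField.fixedField H) :=
      IsGalois.of_fixedField_normal_subgroup H
    exact IsGalois.of_algEquiv
      (IntermediateField.liftAlgEquiv (IntermediateField.fixedField H))

/-- **`p`-towers** -/
theorem tr_pgroup {p : ℕ} (hp : p.Prime) (hWp : W (p : Ω) < 1) (n : ℕ) :
    ∀ (F : Type u) [Field F] [Algebra C F] [Algebra F Ω] [IsScalarTower C F Ω] [IsGalois F Ω]
      (_ : Inv F W) (t : Ω) (_ : Dn C W (Set.range (algebraMap F Ω)) t)
      (N : IntermediateField F Ω) [FiniteDimensional F N] [IsGalois F N],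
      Module.finrank F N = p ^ n → TR C W t N := by
  have : Fact p.Prime := ⟨hp⟩
  induction n with
  | zero =>
    intro F _ _ _ _ _ hW t hD N _ _ hN
    refine tr_tame hW hD N ?_
    rw [hN, pow_zero, Nat.cast_one, map_one]
  | succ n ih =>
    intro F _ _ _ _ _ hW t hD N _ _ hN
    have hcard : Nat.card (N ≃ₐ[F] N) = p ^ (n + 1) := by
      rw [IsGalois.card_aut_eq_finrank, hN]
    obtain ⟨H, hH⟩ := Sylow.exists_subgroup_card_pow_prime (G := N ≃ₐ[F] N) p (n := n)
      (by rw [hcard]; exact pow_dvd_pow p n.le_succ)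
    have hidx : H.index = p := by
      have h1 := H.card_mul_index
      rw [hH, hcard, pow_succ] at h1
      exact Nat.eq_of_mul_eq_mul_left (pow_pos hp.pos n) h1
    have hnorm : H.Normal := by
      refine Subgroup.normal_of_index_eq_minFac_card ?_
      rw [hidx, hcard, hp.pow_minFac (Nat.succ_ne_zero n)]
    obtain ⟨E, hEN, hE1, hE2⟩ := exists_subfield N H
    have : IsGalois F E := hE2 hnorm
    have : FiniteDimensional F E := Module.finite_of_finrank_pos (by
      rw [hE1, hidx]; exact hp.pos)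
    rw [hidx] at hE1
    obtain ⟨z, hz, hDz, c, hc, hc'⟩ := tr_wild hW hp hWp hD E hE1
    refine TR.trans hEN hc hc' ?_
    have h1 := tower_top (C := C) E
    have h2 : FiniteDimensional E (IntermediateField.extendScalars hEN) :=
      finiteDimensional_extendScalars hEN
    have h3 : IsGalois E (IntermediateField.extendScalars hEN) := isGalois_extendScalars hEN
    refine ih E (inv_top hW E) z ?_ (IntermediateField.extendScalars hEN) ?_
    · rw [range_val]; exact hDz
    · have h4 := finrank_extendScalars hEN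
      rw [hE1, hN, pow_succ'] at h4
      exact Nat.eq_of_mul_eq_mul_left hp.pos h4

theorem W_coprime {p m : ℕ} (hWp : W (p : Ω) < 1) (h : p.Coprime m) : W (m : Ω) = 1 := by
  refine le_antisymm (W_natCast_le W m) ?_
  by_contra hcon
  rw [not_le] at hcon
  have h1 : ((p.gcdA m : ℤ) : Ω) * p + ((p.gcdB m : ℤ) : Ω) * m = 1 := by
    have h2 := Nat.gcd_eq_gcd_ab p m
    rw [h] at h2
    have h3 := congrArg (Int.cast (R := Ω)) h2
    push_cast at h3
    rw [h3]
    ring
  have hint : ∀ k : ℤ, W (k : Ω) ≤ 1 := by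
    intro k
    obtain ⟨m, rfl | rfl⟩ := k.eq_nat_or_neg
    · rw [Int.cast_natCast]; exact W_natCast_le W m
    · rw [Int.cast_neg, Valuation.map_neg, Int.cast_natCast]; exact W_natCast_le W m
  have h2 : W (1 : Ω) < 1 := by
    rw [← h1]
    refine Valuation.map_add_lt W ?_ ?_
    · rw [map_mul]
      calc _ ≤ 1 * W (p : Ω) := mul_le_mul' (hint _) le_rfl
        _ < 1 := by rw [one_mul]; exact hWp
    · rw [map_mul]
      calc _ ≤ 1 * W (m : Ω) := mul_le_mul' (hint _) le_rfl
        _ < 1 := by rw [one_mul]; exact hcon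
  rw [map_one] at h2
  exact lt_irrefl _ h2

variable {F : Type u} [Field F] [Algebra C F] [Algebra F Ω] [IsScalarTower C F Ω] [IsGalois F Ω]

/-- **finite Galois extensions** -/
theorem tr_galois {p : ℕ} (hp : p.Prime) (hWp : W (p : Ω) < 1) (hW : Inv F W) {t : Ω}
    (hD : Dn C W (Set.range (algebraMap F Ω)) t) (N : IntermediateField F Ω)
    [FiniteDimensional F N] [IsGalois F N] : TR C W t N := by
  have : Fact p.Prime := ⟨hp⟩
  obtain ⟨P⟩ : Nonempty (Sylow p (N ≃ₐ[F] N)) := inferInstance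
  obtain ⟨n, hn⟩ := IsPGroup.iff_card.1 P.isPGroup'
  obtain ⟨E, hEN, hE1, -⟩ := exists_subfield N (P : Subgroup (N ≃ₐ[F] N))
  have hidx : (P : Subgroup (N ≃ₐ[F] N)).index ≠ 0 := Subgroup.index_ne_zero_of_finite
  have : FiniteDimensional F E := Module.finite_of_finrank_pos (by
    rw [hE1]; exact Nat.pos_of_ne_zero hidx)
  have hcop : p.Coprime (P : Subgroup (N ≃ₐ[F] N)).index :=
    (Nat.Prime.coprime_iff_not_dvd hp).2 P.not_dvd_index
  obtain ⟨z, hz, hDz, c, hc, hc'⟩ := tr_tame hW hD E (by rw [hE1]; exact W_coprime hWp hcop)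
  refine TR.trans hEN hc hc' ?_
  have h1 := tower_top (C := C) E
  have h2 : FiniteDimensional E (IntermediateField.extendScalars hEN) :=
    finiteDimensional_extendScalars hEN
  have h3 : IsGalois E (IntermediateField.extendScalars hEN) := isGalois_extendScalars hEN
  refine tr_pgroup hp hWp n E (inv_top hW E) z ?_ (IntermediateField.extendScalars hEN) ?_
  · rw [range_val]; exact hDz
  · have h4 := finrank_extendScalars hEN
    have h5 := (P : Subgroup (N ≃ₐ[F] N)).card_mul_index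
    rw [IsGalois.card_aut_eq_finrank, ← h4, hE1, hn, mul_comm] at h5
    exact (Nat.eq_of_mul_eq_mul_left (Nat.pos_of_ne_zero hidx) h5).symm

/-- **total ramification of all finite extensions** -/
theorem finrank_le_e {p : ℕ} (hp : p.Prime) (hWp : W (p : Ω) < 1) (hW : Inv F W) {t : Ω}
    (hD : Dn C W (Set.range (algebraMap F Ω)) t) (L : IntermediateField F Ω)
    [FiniteDimensional F L] {z : Ω} (hz : z ∈ L) (h3 : T3 C W z) (hV : VG C W (L : Set Ω) z)
    {e : ℕ} {c : C} (hc' : W t = W (algebraMap C Ω c) * W z ^ e) :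
    Module.finrank F L ≤ e := by
  have he : e ≠ 0 := e_ne_zero hD.t3 hc'
  set N := IntermediateField.normalClosure F L Ω with hN
  have hLN : L ≤ N := IntermediateField.le_normalClosure L
  have : FiniteDimensional F N := normalClosure.is_finiteDimensional F L Ω
  have : Algebra.IsSeparable F N := Algebra.isSeparable_tower_bot_of_isSeparable F N Ω
  have : IsGalois F N := ⟨⟩
  obtain ⟨y, hy, hDy, d, hd, hd'⟩ := tr_galois hp hWp hW hD N
  have hWy := hDy.t3.W_ne
  -- the value of `z` in terms of `y`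
  obtain ⟨d₁, k, hd₁, hk⟩ := hDy.vg z (hLN hz) h3.ne
  have h1 : W (algebraMap C Ω (c * d₁ ^ e)) * W y ^ (k * e) =
      W (algebraMap C Ω d) * W y ^ ((Module.finrank F N : ℕ) : ℤ) := by
    rw [zpow_natCast, ← hd', hc', hk, mul_pow, ← zpow_natCast (W y ^ k), ← zpow_mul, map_mul,
      map_mul, map_pow, map_pow]
    ring
  have h2 := hDy.t3.eq_of ((_root_.map_ne_zero _).2 hd) h1
  have hNpos : 0 < Module.finrank F N := Module.finrank_pos
  have hkpos : 0 < k := by
    have h4 : 0 < k * (e : ℤ) := by rw [h2]; exact_mod_cast hNpos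
    exact pos_of_mul_pos_left h4 (by positivity)
  obtain ⟨k', rfl⟩ := Int.eq_ofNat_of_zero_le hkpos.le
  have hk' : W z = W (algebraMap C Ω d₁) * W y ^ k' := by rw [hk]; rfl
  have h5 := tower_top (C := C) L
  have h6 : FiniteDimensional L (IntermediateField.extendScalars hLN) :=
    finiteDimensional_extendScalars hLN
  have h7 := e_dvd (C := C) (F := L) (inv_top hW L) (t := z) (by rw [range_val]; exact hV)
    (IntermediateField.extendScalars hLN) (z := y) hy hDy.t3 hd₁ hk'
  have h8 : k' ≤ Module.finrank L (IntermediateField.extendScalars hLN) :=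
    Nat.le_of_dvd Module.finrank_pos h7
  have h9 := finrank_extendScalars hLN
  have h10 : k' * e = Module.finrank F N := by exact_mod_cast h2
  rw [← h10] at h9
  have hk0 : 0 < k' := by exact_mod_cast hkpos
  have h11 : Module.finrank F L * k' ≤ e * k' := by
    calc Module.finrank F L * k' ≤ Module.finrank F L *
          Module.finrank L (IntermediateField.extendScalars hLN) := Nat.mul_le_mul_left _ h8
      _ = e * k' := by rw [h9, mul_comm]
  exact Nat.le_of_mul_le_mul_right h11 hk0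

theorem ev_inv {C Ω : Type*} [Field C] [Field Ω] [Algebra C Ω] (t : Ω) (g : ℤ →₀ C) :
    ev t⁻¹ (g.mapDomain (fun n => -n)) = ev t g := by
  rw [ev, ev, Finsupp.linearCombination_mapDomain]
  congr 1
  congr 1
  funext n
  simp

theorem Dn.inv' {S : Set Ω} {z : Ω} (h : Dn C W S z) (hz : z⁻¹ ∈ S) : Dn C W S z⁻¹ := by
  refine ⟨⟨inv_ne_zero h.t3.ne, ?_⟩, hz, ?_⟩
  · intro n c hn
    rw [map_inv₀, inv_zpow', ] at hn
    have := h.t3.tor _ _ hn
    omega
  · intro f hf ε hε
    obtain ⟨g, hg⟩ := h.dense f hf ε hε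
    exact ⟨g.mapDomain (fun n => -n), by rwa [ev_inv]⟩

/-- **MAIN THEOREM.**  `F` henselian (`Inv F W`) of mixed characteristic, Laurent polynomials in the
type 3 element `t` dense in `F`, `L/F` finite.  Every type 3 element `z` of `L` whose powers (times
constants) exhaust the values of `L` is a coordinate. -/
theorem main {p : ℕ} (hp : p.Prime) (hWp : W (p : Ω) < 1) (hW : Inv F W) {t : Ω}
    (hD : Dn C W (Set.range (algebraMap F Ω)) t) (L : IntermediateField F Ω)
    [FiniteDimensional F L] {z : Ω} (hz : z ∈ L) (h3 : T3 C W z) (hV : VG C W (L : Set Ω) z) :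
    Dn C W (L : Set Ω) z := by
  have htL : t ∈ L := by
    obtain ⟨t', ht'⟩ := hD.mem
    rw [← ht']
    exact L.algebraMap_mem t'
  obtain ⟨c, n, hc, hn⟩ := hV t htL hD.t3.ne
  obtain ⟨e, rfl | rfl⟩ := n.eq_nat_or_neg
  · rw [zpow_natCast] at hn
    exact gen_dense hD L hz h3 hc hn (finrank_le_e hp hWp hW hD L hz h3 hV hn)
  · have h3' : T3 C W z⁻¹ := by
      refine ⟨inv_ne_zero h3.ne, ?_⟩
      intro n c hn
      rw [map_inv₀, inv_zpow'] at hn
      have := h3.tor _ _ hn
      omega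
    have hV' : VG C W (L : Set Ω) z⁻¹ := by
      intro y hy hy0
      obtain ⟨d, m, hd, hm⟩ := hV y hy hy0
      exact ⟨d, -m, hd, by rw [hm, map_inv₀, inv_zpow', neg_neg]⟩
    have hn' : W t = W (algebraMap C Ω c) * W z⁻¹ ^ e := by
      rw [hn, map_inv₀, zpow_neg, zpow_natCast, inv_pow]
    have h4 := gen_dense hD L (L.inv_mem hz) h3' hc hn'
      (finrank_le_e hp hWp hW hD L (L.inv_mem hz) h3' hV' hn')
    have h5 := h4.inv' (by rw [inv_inv]; exact hz)
    rwa [inv_inv] at h5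


end PTower

end Crest.Agent.R013.LU3_205
end

-- ▼ part R013/LU3f_205
section

/-!
R013 / SS-LU3 (helper205), part 6.  **Type 3 local uniformisation for a function field**: `K/k(x)`
finite, `k` algebraically closed of characteristic zero, `w` a rank one valuation of `K` with
`w p < 1` and `w(K^*) ≠ w(k^*)`.  There is `t ∈ K` generating `w(K^*)` over `w(k^*)`, and for every
such `t` the Laurent polynomials in `t` are dense in `(K, w)`.
-/

set_option autoImplicit false
set_option linter.unusedSectionVars false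

namespace Crest.Agent.R013.LU3_205

open scoped NNReal
open Polynomial Crest.Agent.R013.Hens_899 Crest.Agent.R013.LU1_935 Crest.Agent.R013.LU5_935

section LaurentDense

variable {C Ω : Type*} [Field C] [Field Ω] [Algebra C Ω] {W : Valuation Ω ℝ≥0}

/-- the closure of the Laurent polynomials -/
def LCl (C : Type*) {Ω : Type*} [Field C] [Field Ω] [Algebra C Ω] (W : Valuation Ω ℝ≥0) (t : Ω) :
    Set Ω := {f | ∀ ε : ℝ≥0, 0 < ε → ∃ g : ℤ →₀ C, W (f - ev t g) < ε}

theorem LCl.of_ev {t : Ω} (g : ℤ →₀ C) : ev t g ∈ LCl C W t :=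
  fun ε hε => ⟨g, by rw [sub_self, map_zero]; exact hε⟩

theorem LCl.add {t f g : Ω} (hf : f ∈ LCl C W t) (hg : g ∈ LCl C W t) : f + g ∈ LCl C W t := by
  intro ε hε
  obtain ⟨a, ha⟩ := hf ε hε
  obtain ⟨b, hb⟩ := hg ε hε
  refine ⟨a + b, ?_⟩
  rw [map_add, add_sub_add_comm]
  exact Valuation.map_add_lt W ha hb

theorem LCl.sum {t : Ω} {ι : Type*} (s : Finset ι) {f : ι → Ω} (hf : ∀ i ∈ s, f i ∈ LCl C W t) :
    ∑ i ∈ s, f i ∈ LCl C W t := by
  classical
  induction s using Finset.induction_on with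
  | empty => rw [Finset.sum_empty]; simpa using LCl.of_ev (W := W) (t := t) (0 : ℤ →₀ C)
  | insert a s ha ih =>
    rw [Finset.sum_insert ha]
    exact LCl.add (hf a (Finset.mem_insert_self _ _))
      (ih fun i hi => hf i (Finset.mem_insert_of_mem hi))

theorem LCl.lim {t f : Ω} (hf : ∀ ε : ℝ≥0, 0 < ε → ∃ g ∈ LCl C W t, W (f - g) < ε) :
    f ∈ LCl C W t := by
  intro ε hε
  obtain ⟨g, hg, h1⟩ := hf ε hε
  obtain ⟨a, ha⟩ := hg ε hε
  refine ⟨a, ?_⟩
  have e : f - ev t a = (f - g) + (g - ev t a) := by ring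
  rw [e]
  exact Valuation.map_add_lt W h1 ha

theorem ev_shift {t : Ω} (ht : t ≠ 0) (g : ℤ →₀ C) (c : C) (n : ℤ) :
    algebraMap C Ω c * t ^ n * ev t g = ev t ((c • g).mapDomain (fun m => n + m)) := by
  rw [ev, Finsupp.linearCombination_mapDomain, map_smul, Algebra.smul_def, mul_assoc]
  congr 1
  rw [Finsupp.linearCombination_apply, Finsupp.linearCombination_apply, Finsupp.sum, Finsupp.sum,
    Finset.mul_sum]
  refine Finset.sum_congr rfl fun m _ => ?_
  rw [Function.comp_apply, zpow_add₀ ht, mul_smul_comm]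

theorem LCl.mono_mul {t f : Ω} (ht : t ≠ 0) (hf : f ∈ LCl C W t) (c : C) (n : ℤ) :
    algebraMap C Ω c * t ^ n * f ∈ LCl C W t := by
  intro ε hε
  by_cases hc : c = 0
  · subst hc
    refine ⟨0, ?_⟩
    rw [map_zero, zero_mul, zero_mul, map_zero, sub_zero, map_zero]
    exact hε
  have hm : algebraMap C Ω c * t ^ n ≠ 0 :=
    mul_ne_zero ((_root_.map_ne_zero _).2 hc) (zpow_ne_zero _ ht)
  have hWm : 0 < W (algebraMap C Ω c * t ^ n) := zero_lt_iff.2 ((Valuation.ne_zero_iff W).2 hm)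
  obtain ⟨g, hg⟩ := hf (ε / W (algebraMap C Ω c * t ^ n)) (div_pos hε hWm)
  refine ⟨(c • g).mapDomain (fun m => n + m), ?_⟩
  rw [← ev_shift ht, ← mul_sub, map_mul, mul_comm]
  exact (lt_div_iff₀ hWm).1 hg

theorem LCl.mul {t f g : Ω} (ht : t ≠ 0) (hf : f ∈ LCl C W t) (hg : g ∈ LCl C W t) :
    f * g ∈ LCl C W t := by
  refine LCl.lim fun ε hε => ?_
  by_cases hg0 : g = 0
  · subst hg0
    refine ⟨0, by simpa using LCl.of_ev (W := W) (t := t) (0 : ℤ →₀ C), ?_⟩
    rw [mul_zero, sub_zero, map_zero]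
    exact hε
  have hWg : 0 < W g := zero_lt_iff.2 ((Valuation.ne_zero_iff W).2 hg0)
  obtain ⟨a, ha⟩ := hf (ε / W g) (div_pos hε hWg)
  refine ⟨ev t a * g, ?_, ?_⟩
  · rw [ev_apply, Finset.sum_mul]
    exact LCl.sum _ fun n _ => LCl.mono_mul ht hg _ _
  · rw [← sub_mul, map_mul]
    exact (lt_div_iff₀ hWg).1 ha

theorem LCl.const {t : Ω} (c : C) : algebraMap C Ω c ∈ LCl C W t := by
  have := LCl.of_ev (W := W) (t := t) (Finsupp.single 0 c)
  rwa [ev_single, zpow_zero, mul_one] at this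

theorem LCl.neg {t f : Ω} (hf : f ∈ LCl C W t) : -f ∈ LCl C W t := by
  intro ε hε
  obtain ⟨a, ha⟩ := hf ε hε
  refine ⟨-a, ?_⟩
  rw [map_neg, neg_sub_neg, Valuation.map_sub_swap]
  exact ha

theorem LCl.pow {t f : Ω} (ht : t ≠ 0) (hf : f ∈ LCl C W t) (n : ℕ) : f ^ n ∈ LCl C W t := by
  induction n with
  | zero => rw [pow_zero, ← map_one (algebraMap C Ω)]; exact LCl.const 1
  | succ n ih => rw [pow_succ]; exact LCl.mul ht ih hf

/-- a monomial of the same leading behaviour -/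
theorem LCl.lead {t f : Ω} (h3 : T3 C W t) (hf : f ∈ LCl C W t) (hf0 : f ≠ 0) :
    ∃ (c : C) (n : ℤ), c ≠ 0 ∧ W (f - algebraMap C Ω c * t ^ n) < W f := by
  classical
  have hWf : 0 < W f := zero_lt_iff.2 ((Valuation.ne_zero_iff W).2 hf0)
  obtain ⟨g, hg⟩ := hf (W f) hWf
  have h1 : W (ev t g) = W f :=
    Valuation.map_eq_of_sub_lt W (by rwa [Valuation.map_sub_swap])
  have h2 : ev t g ≠ 0 := by
    intro h0
    rw [h0, map_zero] at h1
    exact hWf.ne h1
  obtain ⟨n, hn, h4⟩ := h3.exists_term g h2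
  refine ⟨g n, n, hn, ?_⟩
  have h5 : W (ev t g - algebraMap C Ω (g n) * t ^ n) < W f := by
    rw [← ev_single, ← map_sub]
    rw [ev_apply]
    refine Valuation.map_sum_lt W hWf.ne' fun m hm => ?_
    have hmn : m ≠ n := by
      rintro rfl
      rw [Finsupp.mem_support_iff] at hm
      apply hm
      rw [Finsupp.sub_apply, Finsupp.single_eq_same, sub_self]
    have hgm : (g - Finsupp.single n (g n) : ℤ →₀ C) m = g m := by
      rw [Finsupp.sub_apply, Finsupp.single_apply, if_neg hmn.symm, sub_zero]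
    rw [hgm]
    refine lt_of_le_of_ne ((h3.term_le g m).trans h1.le) fun h6 => ?_
    rw [map_mul, map_zpow₀, ← h1, h4] at h6
    exact hmn (h3.eq_of ((_root_.map_ne_zero _).2 hn) h6)
  have e : f - algebraMap C Ω (g n) * t ^ n =
      (f - ev t g) + (ev t g - algebraMap C Ω (g n) * t ^ n) := by ring
  rw [e]
  exact Valuation.map_add_lt W hg h5

theorem LCl.inv {t f : Ω} (h3 : T3 C W t) (hf : f ∈ LCl C W t) : f⁻¹ ∈ LCl C W t := by
  by_cases hf0 : f = 0
  · subst hf0; rwa [inv_zero]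
  have hWf : 0 < W f := zero_lt_iff.2 ((Valuation.ne_zero_iff W).2 hf0)
  obtain ⟨c, n, hc, h⟩ := LCl.lead h3 hf hf0
  have hcΩ : algebraMap C Ω c ≠ 0 := (_root_.map_ne_zero _).2 hc
  set m := algebraMap C Ω c * t ^ n with hm
  have hm0 : m ≠ 0 := mul_ne_zero hcΩ (zpow_ne_zero _ h3.ne)
  have hWm : W m = W f := Valuation.map_eq_of_sub_lt W (by rwa [Valuation.map_sub_swap])
  have hminv : m⁻¹ = algebraMap C Ω c⁻¹ * t ^ (-n) := by
    rw [hm, mul_inv, map_inv₀, zpow_neg]
  set δ := 1 - m⁻¹ * f with hδ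
  have hδ1 : W δ < 1 := by
    have e : δ = -(m⁻¹ * (f - m)) := by
      rw [hδ, mul_sub, inv_mul_cancel₀ hm0]; ring
    rw [e, Valuation.map_neg, map_mul, map_inv₀, hWm]
    calc (W f)⁻¹ * W (f - m) < (W f)⁻¹ * W f := mul_lt_mul_of_pos_left h (inv_pos.2 hWf)
      _ = 1 := inv_mul_cancel₀ hWf.ne'
  have hone : (1 : Ω) ∈ LCl C W t := by
    rw [← map_one (algebraMap C Ω)]; exact LCl.const 1
  have hδS : δ ∈ LCl C W t := by
    rw [hδ, sub_eq_add_neg]
    refine LCl.add hone (LCl.neg ?_)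
    rw [hminv]
    exact LCl.mono_mul h3.ne hf _ _
  have hf' : f = m * (1 - δ) := by rw [hδ, sub_sub_cancel, mul_inv_cancel_left₀ hm0]
  have hinv : f⁻¹ = m⁻¹ * (1 - δ)⁻¹ := by rw [hf', mul_inv]
  rw [hinv, hminv]
  refine LCl.mono_mul h3.ne ?_ _ _
  have h1δ : (1 : Ω) - δ ≠ 0 := by
    intro h0
    rw [h0, mul_zero] at hf'
    exact hf0 hf'
  have hW1δ : W (1 - δ) = 1 := Valuation.map_one_sub_of_lt W hδ1
  refine LCl.lim fun ε hε => ?_
  obtain ⟨N, hN⟩ := NNReal.exists_pow_lt_of_lt_one hε hδ1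
  refine ⟨∑ i ∈ Finset.range N, δ ^ i, LCl.sum _ fun i _ => LCl.pow h3.ne hδS i, ?_⟩
  have e : (1 - δ)⁻¹ - ∑ i ∈ Finset.range N, δ ^ i = δ ^ N * (1 - δ)⁻¹ := by
    have h5 : (∑ i ∈ Finset.range N, δ ^ i) * (1 - δ) = 1 - δ ^ N := by
      have := geom_sum_mul_neg δ N
      rw [← this]
    rw [eq_comm, ← sub_eq_zero]
    field_simp
    linear_combination h5
  rw [e, map_mul, map_inv₀, hW1δ, inv_one, mul_one, map_pow]
  exact hN

/-- the closure of the Laurent polynomials is a field -/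
def LClF (C : Type*) {Ω : Type*} [Field C] [Field Ω] [Algebra C Ω] (W : Valuation Ω ℝ≥0) (t : Ω)
    (h3 : T3 C W t) : IntermediateField C Ω where
  carrier := LCl C W t
  mul_mem' := LCl.mul h3.ne
  add_mem' := LCl.add
  algebraMap_mem' := LCl.const
  inv_mem' _ := LCl.inv h3

theorem clo_le_LCl {t : Ω} (h3 : T3 C W t) :
    ∀ f ∈ clo W (IntermediateField.adjoin C {t}), f ∈ LCl C W t := by
  intro f hf
  refine LCl.lim fun ε hε => ?_
  obtain ⟨s, hs, h⟩ := hf ε hε
  refine ⟨s, ?_, h⟩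
  have h1 : IntermediateField.adjoin C {t} ≤ LClF C W t h3 := by
    rw [IntermediateField.adjoin_simple_le_iff]
    change t ∈ LCl C W t
    have := LCl.of_ev (W := W) (t := t) (Finsupp.single 1 (1 : C))
    rwa [ev_single, map_one, one_mul, zpow_one] at this
  exact h1 hs

end LaurentDense

section KLevel

universe u v

variable {k : Type v} {K : Type u} [Field k] [IsAlgClosed k] [Field K] [Algebra k K]

theorem T3.transcendental {w : Valuation K ℝ≥0} {t : K} (h3 : T3 k w t) : Transcendental k t := by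
  intro halg
  obtain ⟨c, hc⟩ := Crest.Agent.R013.LU6_935.mem_of_alg t halg
  have := h3.tor 1 c (by rw [zpow_one, hc])
  exact one_ne_zero this

/-- one value outside `w(k^*)` gives a type 3 element -/
theorem T3.of_ne {w : Valuation K ℝ≥0} {z : K} (hz0 : z ≠ 0)
    (hz : ∀ c : k, w z ≠ w (algebraMap k K c)) : T3 k w z := by
  refine ⟨hz0, ?_⟩
  have key : ∀ (n : ℕ) (c : k), w z ^ n = w (algebraMap k K c) → n = 0 := by
    intro n c hn
    by_contra hn0
    obtain ⟨d, hd⟩ := IsAlgClosed.exists_pow_nat_eq c (Nat.pos_of_ne_zero hn0)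
    rw [← hd, map_pow, map_pow] at hn
    exact hz d ((pow_left_inj₀ zero_le zero_le hn0).1 hn)
  intro n c hn
  obtain ⟨m, rfl | rfl⟩ := n.eq_nat_or_neg
  · rw [zpow_natCast] at hn
    rw [key m c hn]; rfl
  · rw [zpow_neg, zpow_natCast] at hn
    have h1 : w z ^ m = w (algebraMap k K c⁻¹) := by
      rw [map_inv₀, map_inv₀, ← hn, inv_inv]
    rw [key m _ h1]; rfl

variable [CharZero k]

/-- **TYPE 3: every generator of the value group is a coordinate.** -/
theorem dn_of_vg {p : ℕ} (hp : p.Prime) (w : Valuation K ℝ≥0) (hp1 : w (p : K) < 1) (x : K)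
    [FiniteDimensional (IntermediateField.adjoin k {x}) K] {t : K} (h3 : T3 k w t)
    (hV : VG k w Set.univ t) : Dn k w Set.univ t := by
  classical
  have hpK0 : w (p : K) ≠ 0 := by
    have : CharZero K := charZero_of_injective_algebraMap (algebraMap k K).injective
    simpa using hp.ne_zero
  have hfin := Crest.Agent.R013.LU6_935.finite_adjoin x t h3.transcendental
  obtain ⟨Ω, i1, i2, i3, i4, i5, W, L, hW, hKL, hdense, hF⟩ := package (k := k) w
    ⟨(p : k)⁻¹, by
      rw [map_inv₀, map_natCast, map_inv₀]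
      exact (one_lt_inv₀ (pos_iff_ne_zero.2 hpK0)).2 hp1⟩
  have hchar : CharZero Ω := charZero_of_injective_algebraMap (algebraMap k Ω).injective
  have hcK : ∀ c : k, algebraMap k Ω c = algebraMap K Ω (algebraMap k K c) := fun c =>
    IsScalarTower.algebraMap_apply k K Ω c
  obtain ⟨F, hFL, htF, hFt, -, halg, hinv, hrel⟩ := hF t hfin
  set j := algebraMap K Ω with hj
  have hp1' : W (p : Ω) < 1 := by
    have : (p : Ω) = j (p : K) := by rw [hj, map_natCast]
    rw [this, hW]; exact hp1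
  have hWc : ∀ c : k, W (algebraMap k Ω c) = w (algebraMap k K c) := fun c => by rw [hcK, hW]
  -- type 3 in `Ω`
  have h3' : T3 k W (j t) := by
    refine ⟨(_root_.map_ne_zero _).2 h3.ne, ?_⟩
    intro n c hn
    rw [hW, hWc] at hn
    exact h3.tor n c hn
  have hVL : VG k W (L : Set Ω) (j t) := by
    intro y hy hy0
    have hWy : 0 < W y := zero_lt_iff.2 ((Valuation.ne_zero_iff W).2 hy0)
    obtain ⟨s, hs⟩ := hdense y hy (W y) hWy
    have h1 : W (j s) = W y := Valuation.map_eq_of_sub_lt W (by rwa [Valuation.map_sub_swap])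
    have hs0 : s ≠ 0 := by
      rintro rfl
      rw [map_zero, map_zero] at h1
      exact hWy.ne h1
    obtain ⟨c, n, hc, hn⟩ := hV s (Set.mem_univ s) hs0
    refine ⟨c, n, hc, ?_⟩
    rw [← h1, hW, hn, hWc, hW]
  -- the base field
  have hrange : Set.range (algebraMap F Ω) = (F : Set Ω) := Subtype.range_coe
  have hD : Dn k W (Set.range (algebraMap F Ω)) (j t) := by
    rw [hrange]
    exact ⟨h3', htF, fun f hf => clo_le_LCl h3' f (hFt hf)⟩
  have hsep : Algebra.IsSeparable F Ω := Algebra.IsAlgebraic.isSeparable_of_perfectField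
  have hnor : Normal F Ω := by
    have : IsAlgClosure F Ω := ⟨inferInstance, halg⟩
    exact IsAlgClosure.normal F Ω
  have hgal : IsGalois F Ω := ⟨⟩
  have hfin' : FiniteDimensional F (IntermediateField.extendScalars hFL) := by
    rw [IntermediateField.relfinrank_eq_finrank_of_le hFL] at hrel
    exact Module.finite_of_finrank_pos (Nat.pos_of_ne_zero hrel)
  have hmain := main (C := k) hp hp1' hinv hD (IntermediateField.extendScalars hFL)
    (z := j t) (hKL t) h3' hVL
  refine ⟨h3, Set.mem_univ t, ?_⟩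
  intro f _ ε hε
  obtain ⟨g, hg⟩ := hmain.dense (j f) (hKL f) ε hε
  refine ⟨g, ?_⟩
  have h5 : ev (j t) g = j (ev t g) := by
    rw [ev_apply, ev_apply, map_sum]
    refine Finset.sum_congr rfl fun n _ => ?_
    rw [map_mul, map_zpow₀, hcK]
  rw [h5, ← map_sub, hW] at hg
  exact hg

/-- **TYPE 3 LOCAL UNIFORMISATION (LU3).** -/
theorem LU3 {p : ℕ} (hp : p.Prime) (w : Valuation K ℝ≥0) (hp1 : w (p : K) < 1) (x : K)
    [FiniteDimensional (IntermediateField.adjoin k {x}) K]
    (hx : ∃ z : K, z ≠ 0 ∧ ∀ c : k, w z ≠ w (algebraMap k K c)) :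
    ∃ t : K, T3 k w t ∧ VG k w Set.univ t ∧ Dn k w Set.univ t ∧
      FiniteDimensional (IntermediateField.adjoin k {t}) K ∧
      ∀ z : K, ∀ e : ℝ≥0, 0 < e → ∃ s ∈ IntermediateField.adjoin k {t}, w (z - s) < e := by
  classical
  obtain ⟨z₀, hz₀, hz₀'⟩ := hx
  have h3₀ : T3 k w z₀ := T3.of_ne hz₀ hz₀'
  have hfin₀ := Crest.Agent.R013.LU6_935.finite_adjoin x z₀ h3₀.transcendental
  set F₀ := IntermediateField.adjoin k {z₀} with hF₀
  have hrange : Set.range (algebraMap F₀ K) = (F₀ : Set K) := Subtype.range_coe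
  have hD₀ : Dn k w (Set.range (algebraMap F₀ K)) z₀ := by
    rw [hrange]
    exact ⟨h3₀, IntermediateField.mem_adjoin_simple_self k z₀,
      fun f hf => clo_le_LCl h3₀ f (le_clo w _ hf)⟩
  have htop : FiniteDimensional F₀ (⊤ : IntermediateField F₀ K) :=
    Module.Finite.of_surjective
      (IntermediateField.topEquiv (F := F₀) (E := K)).symm.toLinearMap
      (IntermediateField.topEquiv (F := F₀) (E := K)).symm.surjective
  obtain ⟨t, -, h3, hV, -⟩ := exists_vgen (C := k) hD₀.t3 hD₀.vg hD₀.mem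
    (⊤ : IntermediateField F₀ K)
  have hV' : VG k w Set.univ t := fun f _ hf0 => hV f trivial hf0
  have hD := dn_of_vg hp w hp1 x h3 hV'
  refine ⟨t, h3, hV', hD, Crest.Agent.R013.LU6_935.finite_adjoin x t h3.transcendental, ?_⟩
  intro z e he
  obtain ⟨g, hg⟩ := hD.dense z (Set.mem_univ z) e he
  refine ⟨ev t g, ?_, hg⟩
  rw [ev_apply]
  refine sum_mem fun n _ => mul_mem (algebraMap_mem _ _) ?_
  exact IntermediateField.pow_mem _ (IntermediateField.mem_adjoin_simple_self k t) n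

end KLevel

end Crest.Agent.R013.LU3_205
end

-- ▼ part R013/GoodA2_315
section

/-!
# Good annuli (row 13): the product decomposition in the form of `Pts1_315`, `Pts3_315`

The analogue of `Good2_408` for annuli.
-/

set_option autoImplicit false
set_option linter.style.haveILetI false
set_option linter.unusedSectionVars false
set_option linter.unusedVariables false

noncomputable section

namespace Crest.Agent.R013.Good_408

open Module TensorProduct
open Crest.Agent.R013.Cell_408 Crest.Agent.R013.Comp_267 Crest.Agent.R013.EE809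
open Crest.Agent.R013.CAn_243
open Crest.Agent.R013.Pts1_315 Crest.Agent.R013.Pts2_315 Crest.Agent.R013.Pts3_315

variable {k C : Type*} [NontriviallyNormedField k] [CompleteSpace k] [IsUltrametricDist k]
  [NormedField C] [IsUltrametricDist C] [NormedAlgebra k C] [Algebra.IsAlgebraic k C]
  [IsAlgClosed C] [hk : Fact (DiscNorm k)]

/-- the coordinate of the annulus `|c| < |T| < 1` -/
def TA (c : C) : AN k c := ⟨T 1, T_mem_AN c 1⟩

/-- the annulus ring of 243 is a cell ring -/
theorem cellRing_TA {c : C} (hc : c ≠ 0) (hc1 : ‖c‖ < 1) :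
    CellRing (TA (k := k) c) {τ : C | ‖c‖ < ‖τ‖ ∧ ‖τ‖ < 1} :=
  Conn_315.cellRing_AN hk.out hc hc1 (AN k c) (fun _ => Iff.rfl)

namespace ACells

variable {K : Type*} [Field K] [Algebra C K] [Algebra (RatFunc C) K]
    [IsScalarTower C (RatFunc C) K] {c : C} {y : EE k C} (D : ACells k C K c y)

theorem WA' (j : D.J) : WA (D.c' j) (D.f j) (D.m j : ℤ) :=
  WA.of_we (D.we j) (fun n => D.wa j n)

/-- composition on the annulus rings -/
def φA (j : D.J) : AN k c →ₐ[C] AN k (D.c' j) :=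
  compA (D.c'_ne j) (D.c'_lt j) (D.WA' j) (D.m_ne j) (D.hc' j)

/-- composition on their fields of fractions -/
def φFA (j : D.J) : FA k c →ₐ[C] FA k (D.c' j) :=
  compFA (D.c'_ne j) (D.c'_lt j) (D.WA' j) (D.m_ne j) (D.hc' j)



theorem φFA_algebraMap (j : D.J) (x : AN k c) :
    D.φFA j (algebraMap (AN k c) (FA k c) x) =
      algebraMap (AN k (D.c' j)) (FA k (D.c' j)) (D.φA j x) := rfl

/-- the expansion of the elements of `K`, with values in `FA` -/
def ioF (j : D.J) : K →ₐ[C] FA k (D.c' j) :=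
  (D.io j).codRestrict (FA k (D.c' j)).toSubalgebra (D.io_mem j)


/-- `AN (c' j)` is spanned by `1, T, …, T^(m-1)` over the base (243) -/
def SpanAN : Prop := ∀ j, ∀ b ∈ AN k (D.c' j), ∃ A : Fin (D.m j) → EE k C,
  (∀ i, A i ∈ AN k c) ∧ b = ∑ i, D.φ j (A i) * T ((i : ℕ) : ℤ)

variable {D}

theorem TA_pow (c : C) (i : ℕ) : (((TA (k := k) c) ^ i : AN k c) : EE k C) = T (i : ℤ) := by
  induction i with
  | zero => rw [pow_zero]; rfl
  | succ i ih =>
    rw [pow_succ, MulMemClass.coe_mul, ih]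
    change T (i : ℤ) * T 1 = T ((i + 1 : ℕ) : ℤ)
    rw [T_mul_T]
    congr 1

theorem span' (hs : D.SpanAN) (j : D.J) (b : AN k (D.c' j)) :
    ∃ A : Fin (D.m j) → AN k c, b = ∑ i, D.φA j (A i) * TA (D.c' j) ^ (i : ℕ) := by
  obtain ⟨A, hA, e⟩ := hs j b.1 b.2
  refine ⟨fun i => ⟨A i, hA i⟩, ?_⟩
  apply Subtype.ext
  rw [e, AddSubmonoidClass.coe_finsetSum]
  refine Finset.sum_congr rfl fun i _ => ?_
  rw [MulMemClass.coe_mul, TA_pow]
  rfl

/-- the annulus rings are integral over the base -/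
theorem integralA (hs : D.SpanAN) (j : D.J) (b : AN k (D.c' j)) :
    (D.φA j).toRingHom.IsIntegralElem b := by
  set ψ := (D.φA j).toRingHom with hψ
  have hX : ψ.IsIntegralElem (TA (k := k) (D.c' j)) := by
    obtain ⟨A, hA⟩ := span' hs j (TA (D.c' j) ^ D.m j)
    refine ⟨Polynomial.X ^ D.m j - ∑ i : Fin (D.m j), Polynomial.C (A i) * Polynomial.X ^ (i : ℕ),
      ?_, ?_⟩
    · exact Polynomial.monic_X_pow_sub (Polynomial.degree_sum_fin_lt A)
    · rw [Polynomial.eval₂_sub, Polynomial.eval₂_pow, Polynomial.eval₂_X,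
        Polynomial.eval₂_finsetSum, hA, sub_eq_zero]
      refine Finset.sum_congr rfl fun i _ => ?_
      rw [Polynomial.eval₂_mul, Polynomial.eval₂_C, Polynomial.eval₂_pow, Polynomial.eval₂_X]
      rfl
  obtain ⟨A, hA⟩ := span' hs j b
  rw [hA]
  have hpow : ∀ i : ℕ, ψ.IsIntegralElem ((TA (k := k) (D.c' j)) ^ i) := by
    intro i
    induction i with
    | zero =>
      rw [pow_zero, ← map_one ψ]
      exact RingHom.isIntegralElem_map ψ
    | succ n ih' =>
      rw [pow_succ]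
      exact RingHom.IsIntegralElem.mul ψ ih' hX
  have hsum : ∀ s : Finset (Fin (D.m j)), ψ.IsIntegralElem
      (∑ i ∈ s, D.φA j (A i) * TA (k := k) (D.c' j) ^ (i : ℕ)) := by
    intro s
    classical
    induction s using Finset.induction_on with
    | empty => rw [Finset.sum_empty]; exact RingHom.isIntegralElem_zero ψ
    | insert i s hi ih =>
      rw [Finset.sum_insert hi]
      refine RingHom.IsIntegralElem.add ψ (RingHom.IsIntegralElem.mul ψ ?_ ?_) ih
      · exact RingHom.isIntegralElem_map ψ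
      · exact hpow i
  exact hsum _

/-- the fields `FA (c' j)` are spanned by `1, T, …, T^(m-1)` over the base -/
theorem spanFA (hs : D.SpanAN) (j : D.J) (z : FA k (D.c' j)) :
    ∃ A : Fin (D.m j) → FA k c, z = ∑ i, D.φFA j (A i) *
      algebraMap (AN k (D.c' j)) (FA k (D.c' j)) (TA (D.c' j)) ^ (i : ℕ) := by
  obtain ⟨a, b, hb, rfl⟩ := FA_div_surj z
  -- a nonzero multiple of `b` in the base
  obtain ⟨b', s, hs0, e⟩ : ∃ (b' : AN k (D.c' j)) (s : AN k c), s ≠ 0 ∧ b * b' = D.φA j s := by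
    obtain ⟨p, hp, hpb⟩ := integralA hs j b
    have hφ : Function.Injective (D.φA j) := by
      intro x y h
      apply Subtype.ext
      have h1 : D.φ j x = D.φ j y := congrArg Subtype.val h
      exact (D.φ j).toRingHom.injective h1
    -- minimal degree
    have hex : ∃ n, ∃ p : Polynomial (AN k c), p.natDegree = n ∧ p ≠ 0 ∧
        Polynomial.eval₂ (D.φA j).toRingHom b p = 0 :=
      ⟨_, p, rfl, hp.ne_zero, hpb⟩
    classical
    obtain ⟨q, hqn, hq0, hqb⟩ := Nat.find_spec hex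
    refine ⟨-(Polynomial.eval₂ (D.φA j).toRingHom b q.divX), q.coeff 0, ?_, ?_⟩
    · intro h0
      have h1 : q = q.divX * Polynomial.X := by
        conv_lhs => rw [← Polynomial.divX_mul_X_add q, h0, map_zero, add_zero]
      have h2 : Polynomial.eval₂ (D.φA j).toRingHom b q.divX = 0 := by
        rw [h1, Polynomial.eval₂_mul, Polynomial.eval₂_X] at hqb
        exact (mul_eq_zero.1 hqb).resolve_right hb
      have h3 : q.divX ≠ 0 := by
        intro h3
        rw [h3, zero_mul] at h1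
        exact hq0 h1
      have h4 : q.divX.natDegree < q.natDegree := by
        conv_rhs => rw [h1]
        rw [Polynomial.natDegree_mul_X h3]
        exact Nat.lt_succ_self _
      rw [hqn] at h4
      exact Nat.find_min hex h4 ⟨q.divX, rfl, h3, h2⟩
    · have h1 := hqb
      rw [← Polynomial.divX_mul_X_add q, Polynomial.eval₂_add, Polynomial.eval₂_mul,
        Polynomial.eval₂_X, Polynomial.eval₂_C] at h1
      rw [mul_neg, mul_comm b]
      exact (eq_neg_of_add_eq_zero_right h1).symm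
  obtain ⟨A, hA⟩ := span' hs j (a * b')
  have hb0 : algebraMap (AN k (D.c' j)) (FA k (D.c' j)) b ≠ 0 := by
    rw [Ne, map_eq_zero_iff _ (algebraMap_FA_injective _)]; exact hb
  have hs0' : algebraMap (AN k c) (FA k c) s ≠ 0 := by
    rw [Ne, map_eq_zero_iff _ (algebraMap_FA_injective _)]; exact hs0
  have hφs : D.φFA j (algebraMap (AN k c) (FA k c) s) ≠ 0 := by
    rw [Ne, map_eq_zero]; exact hs0'
  refine ⟨fun i => algebraMap (AN k c) (FA k c) (A i) / algebraMap (AN k c) (FA k c) s, ?_⟩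
  have h1 : algebraMap (AN k (D.c' j)) (FA k (D.c' j)) a / algebraMap _ (FA k (D.c' j)) b =
      algebraMap _ (FA k (D.c' j)) (a * b') / D.φFA j (algebraMap (AN k c) (FA k c) s) := by
    rw [φFA_algebraMap, ← e, map_mul, map_mul]
    have hb' : algebraMap (AN k (D.c' j)) (FA k (D.c' j)) b' ≠ 0 := by
      intro h0
      apply hφs
      rw [φFA_algebraMap, ← e, map_mul, h0, mul_zero]
    rw [mul_div_mul_right _ _ hb']
  rw [h1, hA, map_sum, Finset.sum_div]
  refine Finset.sum_congr rfl fun i _ => ?_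
  rw [map_mul, map_pow, map_div₀, ← φFA_algebraMap]
  ring

variable [FiniteDimensional (RatFunc C) K] (D)

/-- the expansion on the base, with values in `FA c` -/
def iF : RatFunc C →ₐ[C] FA k c :=
  (D.i).codRestrict (FA k c).toSubalgebra D.i_mem


theorem commF (j : D.J) (r : RatFunc C) : D.φFA j (D.iF r) = D.ioF j (algebraMap (RatFunc C) K r) :=
  Subtype.ext (D.comm j r)

theorem injF {I : Type*} [Fintype I] (b : I → K) (hb : LinearIndependent (RatFunc C) b) :
    Inj (fun j => (D.φFA j).toRingHom) (fun j => (D.ioF j).toRingHom) b := by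
  intro e he
  have h1 := D.inj' b hb (fun i => (e i : EE k C)) (fun i => (e i).2) (fun j => by
    have h2 := congrArg (fun z : FA k (D.c' j) => (z : EE k C)) (he j)
    simp only [AddSubmonoidClass.coe_finsetSum] at h2
    exact h2)
  funext i
  exact Subtype.ext (congrFun h1 i)

variable {D}

/-- the product decomposition of `K ⊗ FA c` -/
theorem pd (hs : D.SpanAN) : PD (algebraMap (RatFunc C) K) D.iF.toRingHom
    (fun j => (D.ioF j).toRingHom) (fun j => (D.φFA j).toRingHom) := by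
  let _ : Algebra (RatFunc C) (FA k c) := D.iF.toRingHom.toAlgebra
  let b := Module.finBasis (RatFunc C) K
  refine pd_of_inj (F0 := RatFunc C) (Fc := FA k c) (E := fun j => FA k (D.c' j))
    (φ := fun j => (D.φFA j).toRingHom) (ι := fun j => (D.ioF j).toRingHom)
    (fun j r => D.commF j r) b (D.injF b b.linearIndependent) (fun z => ?_)
  refine (D.injF b b.linearIndependent).surj D.m ?_ (fun j => ?_) z
  · rw [D.sum_m, Fintype.card_fin]
  · refine ⟨fun l => algebraMap (AN k (D.c' j)) (FA k (D.c' j)) (TA (D.c' j)) ^ (l : ℕ),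
      fun z => ?_⟩
    obtain ⟨A, hA⟩ := spanFA hs j z
    exact ⟨A, hA⟩

/-- the cells of `K` over the annulus, in the form of `Pts3_315` -/
theorem cover (hs : D.SpanAN) (t₀ : RatFunc C)
    (ht : (RatFunc.X : RatFunc C) ∈ IntermediateField.adjoin C {t₀}) (h : D.i t₀ = T 1) :
    CellCover (C := C) (F₀ := RatFunc C) (K := K) (Bc := AN k c) (Fc := FA k c)
      (TA c) {τ : C | ‖c‖ < ‖τ‖ ∧ ‖τ‖ < 1} D.iF.toRingHom t₀ (J := D.J)
      (B := fun j => AN k (D.c' j)) (F := fun j => FA k (D.c' j)) (fun j => TA (D.c' j))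
      (fun j => {τ : C | ‖D.c' j‖ < ‖τ‖ ∧ ‖τ‖ < 1})
      (fun j => (D.ioF j).toRingHom) (fun j => (D.φFA j).toRingHom)
      (fun j => D.φA j) where
  base := cellRing_TA D.c_ne D.c_lt
  up := fun j => cellRing_TA (D.c'_ne j) (D.c'_lt j)
  gen := gen_of_mem ht
  i_C := fun c => D.iF.commutes c
  i_t := Subtype.ext h
  io_C := fun j c => (D.ioF j).commutes c
  sg_alg := fun j b => D.φFA_algebraMap j b
  pd := pd hs
  int := fun j b => integralA hs j b

end ACells

end Crest.Agent.R013.Good_408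
end
end

-- ▼ part R013/Pts5_315
section

/-!
# RED-PTS, part 5 (row 13): the order at a point of a cell, in the language of `SSK`

* `CellRing.exists_ord` : `f ≠ 0` is `(T - τ) ^ a g / (T - τ) ^ b h` with `g, h` nonzero at `τ`;
* `ordD`, `ordA` : the fields `ptD_ord`, `ptA_ord` of `SSK` for the places of `Pts3_315`.
-/

set_option autoImplicit false
set_option linter.style.haveILetI false
set_option linter.unusedSectionVars false
set_option linter.unusedVariables false

open scoped NNReal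
open WithZero

namespace Crest.Agent.R013.Pts5_315

open Crest.Agent.R013.Pts2_315 Crest.Agent.R013.Pts3_315 Crest.Agent.R013.Conn_315
open Crest.Agent.R013.Cell_408 (BD DiscNorm evp ev FinDef)
open Crest.Agent.R013.Comp_267 (FD)
open Crest.Agent.R013.EE809 Crest.Agent.R013.SSK_332 Crest.Agent.R013.Red332
open Crest.Agent.R013.RR7_948

section abs

variable {C B : Type*} [Field C] [CommRing B] [IsDomain B] [Algebra C B] {T : B} {S : Set C}
  (H : CellRing T S) (F : Type*) [Field F] [Algebra B F] [IsFractionRing B F]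
include H

/-- a nonzero element is a power of `T - τ` times an element which does not vanish at `τ` -/
theorem exists_pow_mul {τ : C} (hτ : τ ∈ S) {b : B} (hb : b ≠ 0) :
    ∃ (n : ℕ) (g : B), b = (T - algebraMap C B τ) ^ n * g ∧ ¬ (T - algebraMap C B τ) ∣ g := by
  haveI := H.isPID
  have hp : Prime (T - algebraMap C B τ) := by
    rw [← Ideal.span_singleton_prime (H.sub_ne_zero τ)]
    exact (H.isMaximal hτ).isPrime
  obtain ⟨n, g, hg, e⟩ := WfDvdMonoid.max_power_factor hb hp.irreducible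
  exact ⟨n, g, e, hg⟩

theorem exists_ord {τ : C} (hτ : τ ∈ S) {f : F} (hf : f ≠ 0) : ∃ (a b : ℕ) (g h : B),
    ¬ (T - algebraMap C B τ) ∣ g ∧ ¬ (T - algebraMap C B τ) ∣ h ∧
    f * algebraMap B F ((T - algebraMap C B τ) ^ b * h) =
      algebraMap B F ((T - algebraMap C B τ) ^ a * g) ∧
    H.vp F hτ f = exp ((b : ℤ) - a) := by
  obtain ⟨x, y, hy, rfl⟩ := IsFractionRing.div_surjective (A := B) f
  have hy0 : y ≠ 0 := nonZeroDivisors.ne_zero hy
  have hx0 : x ≠ 0 := by
    rintro rfl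
    rw [map_zero, zero_div] at hf
    exact hf rfl
  obtain ⟨a, g, ex, hg⟩ := exists_pow_mul H hτ hx0
  obtain ⟨b, h, ey, hh⟩ := exists_pow_mul H hτ hy0
  have hyF : algebraMap B F y ≠ 0 := by
    rw [Ne, map_eq_zero_iff _ (IsFractionRing.injective B F)]; exact hy0
  have hval : ∀ (n : ℕ) (g : B), ¬ (T - algebraMap C B τ) ∣ g →
      H.vp F hτ (algebraMap B F ((T - algebraMap C B τ) ^ n * g)) = exp (-(n : ℤ)) := by
    intro n g hg
    rw [map_mul, map_pow, map_mul, map_pow, H.vp_T, (H.vp_eq_one_iff F hτ g).2 hg, mul_one,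
      ← exp_nsmul]
    simp
  refine ⟨a, b, g, h, hg, hh, ?_, ?_⟩
  · rw [← ey, ← ex, div_mul_cancel₀ _ hyF]
  · rw [map_div₀, ex, ey, hval a g hg, hval b h hh, ← exp_sub]
    congr 1
    omega

end abs

variable {k C : Type*} [NontriviallyNormedField k] [CompleteSpace k] [IsUltrametricDist k]
  [NormedField C] [IsUltrametricDist C] [NormedAlgebra k C] [Algebra.IsAlgebraic k C]
  [IsAlgClosed C] [hk : Fact (DiscNorm k)]

/-- order at a point of an open disc, in `EE k C` -/
theorem ordD {XB : BD k C} (H : CellRing XB {τ : C | ‖τ‖ < 1}) (hX : ofBD XB = (T 1 : EE k C))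
    {τ : C} (hτ : ‖τ‖ < 1) {f : FD k C} (hf : f ≠ 0) :
    ∃ (a b : ℕ) (g h : EE k C), InD g ∧ InD h ∧ evE τ g ≠ 0 ∧ evE τ h ≠ 0 ∧
      toEE k C f * (lin τ ^ b * h) = lin τ ^ a * g ∧
      H.vp (FD k C) hτ f = exp ((b : ℤ) - a) := by
  obtain ⟨a, b, g, h, hg, hh, e, hv⟩ := exists_ord H (FD k C) hτ hf
  have hlin : (lin τ : EE k C) = ofBD (XB - algebraMap C (BD k C) τ) := by
    rw [lin_eq_T, map_sub, hX, ofBD_algebraMap]
  have hX' : XB = Crest.Agent.R013.Pts4_315.XD k C := by
    apply ofBD_injective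
    have h1 := lin_eq (k := k) (0 : C)
    rw [map_zero, sub_zero] at h1
    rw [hX, ← h1, lin_eq_T, map_zero, sub_zero]
  refine ⟨a, b, ofBD g, ofBD h, inD_iff.2 ⟨g, rfl⟩, inD_iff.2 ⟨h, rfl⟩, ?_, ?_, ?_, hv⟩
  · rw [evE_ofBD, Ne, ← ev_dvd_iff hk.out hτ, ← hX']; exact hg
  · rw [evE_ofBD, Ne, ← ev_dvd_iff hk.out hτ, ← hX']; exact hh
  · have h1 := congrArg (toEE k C) e
    rw [map_mul, toEE_algebraMap, toEE_algebraMap, map_mul, map_mul, map_pow, map_pow,
      ← hlin] at h1
    exact h1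

/-- order at a point of an open annulus, in `EE k C` -/
theorem ordA {c : C} (hc : c ≠ 0) (hc1 : ‖c‖ < 1) {A : Subalgebra C (EE k C)}
    (hA : ∀ a, a ∈ A ↔ SSK_332.InA c a) {F : Type*} [Field F] [Algebra A F] [IsFractionRing A F]
    (Φ : F →+* EE k C) (hΦ : ∀ a : A, Φ (algebraMap A F a) = a.1)
    (H : CellRing (⟨T 1, T_mem_AN hA 1⟩ : A) {τ : C | ‖c‖ < ‖τ‖ ∧ ‖τ‖ < 1})
    {τ : C} (hτ : ‖c‖ < ‖τ‖ ∧ ‖τ‖ < 1) {f : F} (hf : f ≠ 0) :
    ∃ (a b : ℕ) (g h : EE k C), InA c g ∧ InA c h ∧ evE τ g ≠ 0 ∧ evE τ h ≠ 0 ∧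
      Φ f * (lin τ ^ b * h) = lin τ ^ a * g ∧
      H.vp F hτ f = exp ((b : ℤ) - a) := by
  obtain ⟨a, b, g, h, hg, hh, e, hv⟩ := exists_ord H F hτ hf
  refine ⟨a, b, g.1, h.1, (hA _).1 g.2, (hA _).1 h.2, ?_, ?_, ?_, hv⟩
  · rw [Ne, ← dvd_AN_iff hc hc1 hA hτ.1 hτ.2]; exact hg
  · rw [Ne, ← dvd_AN_iff hc hc1 hA hτ.1 hτ.2]; exact hh
  · have h1 := congrArg Φ e
    rw [map_mul, hΦ, hΦ] at h1
    have h2 : ∀ (n : ℕ) (x : A), ((((⟨T 1, T_mem_AN hA 1⟩ : A) - algebraMap C A τ) ^ n * x : A) :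
        EE k C) = lin τ ^ n * x.1 := by
      intro n x
      rw [lin_eq_T]
      rfl
    rw [h2, h2] at h1
    exact h1

end Crest.Agent.R013.Pts5_315
end

-- ▼ part R013/PtsK_315
section

/-!
# RED-PTS (row 13): the cells of `K` over a `LineDec` and their points

All fields of `KCells` (Red11_332) which concern the cells and their points:
`KD, ioD, ioD_disc, KA, cA, io0, io1, io_ann, ptD, ptA, ptD_ord, ptA_ord, pt_surj, …`.
-/

set_option autoImplicit false
set_option linter.style.haveILetI false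
set_option linter.unusedSectionVars false
set_option linter.unusedVariables false
set_option linter.defProp false

open scoped NNReal
open WithZero

noncomputable section

namespace Crest.Agent.R013.LineDec_315

open Crest.Agent.R013.SSG_109
open Crest.Agent.R013.Cell_408 (BD DiscNorm)
open Crest.Agent.R013.Comp_267 (FD TF)
open Crest.Agent.R013.Good_408 Crest.Agent.R013.EE809 Crest.Agent.R013.SSK_332
open Crest.Agent.R013.CAn_243
open Crest.Agent.R013.Red332 (toEE toEE_algebraMap)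
open Crest.Agent.R013.Pts2_315 Crest.Agent.R013.Pts3_315 Crest.Agent.R013.Pts5_315
open Crest.Agent.R013.RR7_948

universe u

namespace LineDec

variable {k : Type*} {C : Type u} {K : Type*} [NontriviallyNormedField k] [CompleteSpace k]
    [IsUltrametricDist k] [NormedField C] [IsUltrametricDist C] [NormedAlgebra k C]
    [Algebra.IsAlgebraic k C] [IsAlgClosed C] [hk : Fact (DiscNorm k)]
    [Field K] [Algebra C K] [Algebra (RatFunc C) K] [IsScalarTower C (RatFunc C) K]
    [FiniteDimensional (RatFunc C) K]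
    (D : LineDec k C K)

/-! ### the cells over a base cell -/

/-- cells over the disc `u` -/
def cd (u : D.U) : DCells k C K (discY k C (D.cU u) (D.ρ (D.uv u))) := (D.goodU u).some

/-- cells over the disc at infinity -/
def ci : DCells k C K (infY k C (D.ρ D.r)) := D.inf.some

/-- cells over the annulus `e` -/
def ce (e : D.E) : ACells k C K (D.ρ (D.ch e) / D.ρ (D.pa e))
    (annY k C (D.a (D.ch e)) (D.ρ (D.pa e))) := (D.goodE e).some

/-- affine coordinate -/
def tx (C : Type*) [Field C] (a ρ : C) : RatFunc C :=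
  (RatFunc.X - algebraMap C (RatFunc C) a) * (algebraMap C (RatFunc C) ρ)⁻¹

/-- coordinate at infinity -/
def ti (C : Type*) [Field C] (ρ : C) : RatFunc C := algebraMap C (RatFunc C) ρ * RatFunc.X⁻¹

theorem X_mem_tx (a : C) {ρ : C} (hρ : ρ ≠ 0) :
    (RatFunc.X : RatFunc C) ∈ IntermediateField.adjoin C {tx C a ρ} := by
  have h : (RatFunc.X : RatFunc C) = algebraMap C _ a + algebraMap C _ ρ * tx C a ρ := by
    rw [tx, mul_comm (algebraMap C (RatFunc C) ρ), mul_assoc, inv_mul_cancel₀, mul_one]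
    · ring
    · rwa [Ne, map_eq_zero]
  rw [h]
  exact add_mem (algebraMap_mem _ a) (mul_mem (algebraMap_mem _ ρ)
    (IntermediateField.mem_adjoin_simple_self C _))

theorem X_mem_ti {ρ : C} (hρ : ρ ≠ 0) :
    (RatFunc.X : RatFunc C) ∈ IntermediateField.adjoin C {ti C ρ} := by
  have h : (RatFunc.X : RatFunc C) = algebraMap C _ ρ * (ti C ρ)⁻¹ := by
    rw [ti, mul_inv, inv_inv, ← mul_assoc, mul_inv_cancel₀, one_mul]
    rwa [Ne, map_eq_zero]
  rw [h]
  exact mul_mem (algebraMap_mem _ ρ) (inv_mem (IntermediateField.mem_adjoin_simple_self C _))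

theorem cd_i (u : D.U) : (D.cd u).i (tx C (D.cU u) (D.ρ (D.uv u))) = TF k C := by
  have hρ : algebraMap C (FD k C) (D.ρ (D.uv u)) ≠ 0 := by
    rw [Ne, map_eq_zero]; exact D.ρ_ne _
  rw [tx, map_mul, map_sub, map_inv₀, AlgHom.commutes, AlgHom.commutes, DCells.i_X, discY,
    add_sub_cancel_left, mul_comm, ← mul_assoc, inv_mul_cancel₀ hρ, one_mul]

theorem ci_i : D.ci.i (ti C (D.ρ D.r)) = TF k C := by
  have hρ : algebraMap C (FD k C) (D.ρ D.r) ≠ 0 := by
    rw [Ne, map_eq_zero]; exact D.ρ_ne _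
  rw [ti, map_mul, map_inv₀, AlgHom.commutes, DCells.i_X, infY, mul_inv, inv_inv, ← mul_assoc,
    mul_inv_cancel₀ hρ, one_mul]

theorem ce_i (e : D.E) : (D.ce e).i (tx C (D.a (D.ch e)) (D.ρ (D.pa e))) = T 1 := by
  have hρ : algebraMap C (EE k C) (D.ρ (D.pa e)) ≠ 0 := by
    rw [Ne, map_eq_zero]; exact D.ρ_ne _
  rw [tx, map_mul, map_sub, map_inv₀, AlgHom.commutes, AlgHom.commutes, ACells.i_X, annY,
    add_sub_cancel_left, mul_comm, ← mul_assoc, inv_mul_cancel₀ hρ, one_mul]

def coverU (u : D.U) := (D.cd u).cover (tx C (D.cU u) (D.ρ (D.uv u)))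
  (X_mem_tx _ (D.ρ_ne _)) (D.cd_i u)

def coverI := D.ci.cover (ti C (D.ρ D.r)) (X_mem_ti (D.ρ_ne _)) D.ci_i

/-- 243's representation on the annuli -/
def Span : Prop := ∀ e, (D.ce e).SpanAN

variable {D} in
def coverE (hs : D.Span) (e : D.E) := ACells.cover (hs e)
  (tx C (D.a (D.ch e)) (D.ρ (D.pa e))) (X_mem_tx _ (D.ρ_ne _)) (D.ce_i e)

/-! ### location of places -/

/-- the function `x` in `K` -/
abbrev xx (C K : Type*) [Field C] [Field K] [Algebra (RatFunc C) K] : K :=
  algebraMap (RatFunc C) K RatFunc.X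

/-- the point `y` of the line -/
def dp (y : C) : C → ℝ≥0 := fun b => nv C (b - y)

theorem isPtL_dp (y : C) : IsPtL (nv C) (dp y) := isPtL_point y

/-- the place lies over the disc `u` -/
def PU (u : D.U) (P : Pl C K) : Prop := ∃ y : C, D.inU u (dp y) ∧
  P.v (xx C K - algebraMap C K y) < 1

/-- the place lies over the annulus `e` -/
def PE (e : D.E) (P : Pl C K) : Prop := ∃ y : C, D.inE e (dp y) ∧
  P.v (xx C K - algebraMap C K y) < 1

/-- the place lies over the disc at infinity -/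
def PI (P : Pl C K) : Prop := 1 < P.v (xx C K) ∨ ∃ y : C, D.inI (dp y) ∧
  P.v (xx C K - algebraMap C K y) < 1

theorem algebraMap_tx (a ρ y : C) (hρ : ρ ≠ 0) :
    algebraMap (RatFunc C) K (tx C a ρ) - algebraMap C K ((y - a) / ρ) =
      (xx C K - algebraMap C K y) * (algebraMap C K ρ)⁻¹ := by
  have hρ' : algebraMap C K ρ ≠ 0 := by rwa [Ne, map_eq_zero]
  rw [tx, map_mul, map_sub, map_inv₀, ← IsScalarTower.algebraMap_apply,
    ← IsScalarTower.algebraMap_apply, map_div₀, map_sub]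
  field_simp
  ring

theorem v_tx (P : Pl C K) (a ρ y : C) (hρ : ρ ≠ 0) :
    P.v (algebraMap (RatFunc C) K (tx C a ρ) - algebraMap C K ((y - a) / ρ)) =
      P.v (xx C K - algebraMap C K y) := by
  rw [algebraMap_tx a ρ y hρ, map_mul, map_inv₀, P.const ρ hρ, inv_one, mul_one]

theorem v_const_le (P : Pl C K) (c : C) : P.v (algebraMap C K c) ≤ 1 := by
  by_cases h : c = 0
  · rw [h, map_zero, map_zero]; exact zero_le_one
  · exact (P.const c h).le

theorem v_unique {P : Pl C K} {f : K} {c c' : C} (h : P.v (f - algebraMap C K c) < 1)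
    (h' : P.v (f - algebraMap C K c') < 1) : c = c' :=
  CellCover.base_unique h h'

theorem v_x_le {P : Pl C K} {f : K} {c : C} (h : P.v (f - algebraMap C K c) < 1) : P.v f ≤ 1 := by
  have : f = (f - algebraMap C K c) + algebraMap C K c := by ring
  rw [this]
  exact (Valuation.map_add _ _ _).trans (max_le h.le (v_const_le P c))

theorem PU_iff (u : D.U) (P : Pl C K) : D.PU u P ↔ ∃ τ₀ : C, ‖τ₀‖ < 1 ∧
    P.v (algebraMap (RatFunc C) K (tx C (D.cU u) (D.ρ (D.uv u))) - algebraMap C K τ₀) < 1 := by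
  have hρ := D.ρ_ne (D.uv u)
  have hρ' : 0 < ‖D.ρ (D.uv u)‖ := norm_pos_iff.2 hρ
  constructor
  · rintro ⟨y, hy, hP⟩
    refine ⟨(y - D.cU u) / D.ρ (D.uv u), ?_, ?_⟩
    · rw [norm_div, div_lt_one hρ']
      have h1 : ‖D.cU u - y‖₊ < ‖D.ρ (D.uv u)‖₊ := hy
      rw [← nnnorm_neg, neg_sub] at h1
      exact h1
    · rw [v_tx P _ _ _ hρ]; exact hP
  · rintro ⟨τ₀, hτ₀, hP⟩
    refine ⟨D.cU u + D.ρ (D.uv u) * τ₀, ?_, ?_⟩
    · show ‖D.cU u - (D.cU u + D.ρ (D.uv u) * τ₀)‖₊ < ‖D.ρ (D.uv u)‖₊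
      rw [show D.cU u - (D.cU u + D.ρ (D.uv u) * τ₀) = -(D.ρ (D.uv u) * τ₀) by ring, nnnorm_neg]
      show ‖D.ρ (D.uv u) * τ₀‖ < ‖D.ρ (D.uv u)‖
      rw [norm_mul]
      exact mul_lt_of_lt_one_right hρ' hτ₀
    · rw [← v_tx P (D.cU u) _ _ hρ]
      have h1 : (D.cU u + D.ρ (D.uv u) * τ₀ - D.cU u) / D.ρ (D.uv u) = τ₀ := by
        field_simp
        ring
      rw [h1]
      exact hP

theorem PE_iff (e : D.E) (P : Pl C K) : D.PE e P ↔ ∃ τ₀ : C,
    (‖D.ρ (D.ch e) / D.ρ (D.pa e)‖ < ‖τ₀‖ ∧ ‖τ₀‖ < 1) ∧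
    P.v (algebraMap (RatFunc C) K (tx C (D.a (D.ch e)) (D.ρ (D.pa e))) - algebraMap C K τ₀) < 1 := by
  have hρ := D.ρ_ne (D.pa e)
  have hρ' : 0 < ‖D.ρ (D.pa e)‖ := norm_pos_iff.2 hρ
  constructor
  · rintro ⟨y, ⟨hy1, hy2⟩, hP⟩
    have h1 : ‖D.ρ (D.ch e)‖₊ < ‖D.a (D.ch e) - y‖₊ := hy1
    have h2 : ‖D.a (D.ch e) - y‖₊ < ‖D.ρ (D.pa e)‖₊ := hy2
    rw [← nnnorm_neg, neg_sub] at h2
    rw [← nnnorm_neg (D.a (D.ch e) - y), neg_sub] at h1
    refine ⟨(y - D.a (D.ch e)) / D.ρ (D.pa e), ⟨?_, ?_⟩, ?_⟩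
    · rw [norm_div, norm_div]
      exact div_lt_div_of_pos_right h1 hρ'
    · rw [norm_div, div_lt_one hρ']
      exact h2
    · rw [v_tx P _ _ _ hρ]; exact hP
  · rintro ⟨τ₀, ⟨h1, h2⟩, hP⟩
    have h3 : ‖D.a (D.ch e) - (D.a (D.ch e) + D.ρ (D.pa e) * τ₀)‖ = ‖D.ρ (D.pa e)‖ * ‖τ₀‖ := by
      rw [show D.a (D.ch e) - (D.a (D.ch e) + D.ρ (D.pa e) * τ₀) = -(D.ρ (D.pa e) * τ₀) by ring,
        norm_neg, norm_mul]
    refine ⟨D.a (D.ch e) + D.ρ (D.pa e) * τ₀, ⟨?_, ?_⟩, ?_⟩
    · show ‖D.ρ (D.ch e)‖ < ‖D.a (D.ch e) - (D.a (D.ch e) + D.ρ (D.pa e) * τ₀)‖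
      rw [h3]
      rw [norm_div, div_lt_iff₀ hρ'] at h1
      rw [mul_comm]
      exact h1
    · show ‖D.a (D.ch e) - (D.a (D.ch e) + D.ρ (D.pa e) * τ₀)‖ < ‖D.ρ (D.pa e)‖
      rw [h3]
      exact mul_lt_of_lt_one_right hρ' h2
    · rw [← v_tx P (D.a (D.ch e)) _ _ hρ]
      have h1 : (D.a (D.ch e) + D.ρ (D.pa e) * τ₀ - D.a (D.ch e)) / D.ρ (D.pa e) = τ₀ := by
        field_simp
        ring
      rw [h1]
      exact hP

theorem PI_iff (P : Pl C K) : D.PI P ↔ ∃ τ₀ : C, ‖τ₀‖ < 1 ∧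
    P.v (algebraMap (RatFunc C) K (ti C (D.ρ D.r)) - algebraMap C K τ₀) < 1 := by
  have hρ := D.ρ_ne D.r
  have hρ' : 0 < ‖D.ρ D.r‖ := norm_pos_iff.2 hρ
  have hx0 : xx C K ≠ 0 := by
    rw [xx, Ne, map_eq_zero]; exact RatFunc.X_ne_zero
  have hti : algebraMap (RatFunc C) K (ti C (D.ρ D.r)) = algebraMap C K (D.ρ D.r) * (xx C K)⁻¹ := by
    rw [ti, map_mul, map_inv₀, ← IsScalarTower.algebraMap_apply]
  rw [hti]
  constructor
  · rintro (h | ⟨y, hy, hP⟩)
    · refine ⟨0, by rw [norm_zero]; exact one_pos, ?_⟩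
      rw [map_zero, sub_zero, map_mul, P.const _ hρ, one_mul, map_inv₀]
      exact inv_lt_one_of_one_lt₀ h
    · have hy' : ‖D.ρ D.r‖ < ‖y‖ := by
        have h1 : ‖D.ρ D.r‖₊ < ‖0 - y‖₊ := hy
        rw [zero_sub, nnnorm_neg] at h1
        exact h1
      have hy0 : y ≠ 0 := by
        rintro rfl
        rw [norm_zero] at hy'
        exact absurd hy' (not_lt.2 hρ'.le)
      have hyK : algebraMap C K y ≠ 0 := by rwa [Ne, map_eq_zero]
      have hvx : P.v (xx C K) = 1 := by
        have h1 : xx C K = (xx C K - algebraMap C K y) + algebraMap C K y := by ring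
        rw [h1, Valuation.map_add_eq_of_lt_right _ (by rw [P.const y hy0]; exact hP), P.const y hy0]
      refine ⟨D.ρ D.r / y, ?_, ?_⟩
      · rw [norm_div, div_lt_one (hρ'.trans hy')]
        exact hy'
      · have h1 : algebraMap C K (D.ρ D.r) * (xx C K)⁻¹ - algebraMap C K (D.ρ D.r / y) =
            -(algebraMap C K (D.ρ D.r) * (xx C K)⁻¹ * (algebraMap C K y)⁻¹ *
              (xx C K - algebraMap C K y)) := by
          rw [map_div₀]
          field_simp
          ring
        rw [h1, Valuation.map_neg, map_mul, map_mul, map_mul, map_inv₀, map_inv₀, P.const _ hρ,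
          P.const y hy0, hvx, inv_one, mul_one, mul_one, one_mul]
        exact hP
  · rintro ⟨τ₀, hτ₀, hP⟩
    by_cases h0 : τ₀ = 0
    · left
      rw [h0, map_zero, sub_zero, map_mul, P.const _ hρ, one_mul, map_inv₀] at hP
      by_contra hcon
      exact absurd hP (not_lt.2 ((one_le_inv₀ (zero_lt_iff.2
        ((Valuation.ne_zero_iff _).2 hx0))).2 (not_lt.1 hcon)))
    · right
      have hτK : algebraMap C K τ₀ ≠ 0 := by rwa [Ne, map_eq_zero]
      have hvx : P.v (algebraMap C K (D.ρ D.r) * (xx C K)⁻¹) = 1 := by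
        have h1 : algebraMap C K (D.ρ D.r) * (xx C K)⁻¹ =
          (algebraMap C K (D.ρ D.r) * (xx C K)⁻¹ - algebraMap C K τ₀) + algebraMap C K τ₀ := by ring
        rw [h1, Valuation.map_add_eq_of_lt_right _ (by rw [P.const _ h0]; exact hP), P.const _ h0]
      have hvx' : P.v (xx C K) = 1 := by
        rw [map_mul, P.const _ hρ, one_mul, map_inv₀, inv_eq_one] at hvx
        exact hvx
      refine ⟨D.ρ D.r / τ₀, ?_, ?_⟩
      · show ‖D.ρ D.r‖₊ < ‖0 - D.ρ D.r / τ₀‖₊
        rw [zero_sub, nnnorm_neg]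
        show ‖D.ρ D.r‖ < ‖D.ρ D.r / τ₀‖
        rw [norm_div, lt_div_iff₀ (norm_pos_iff.2 h0)]
        exact mul_lt_of_lt_one_right hρ' hτ₀
      · have h1 : xx C K - algebraMap C K (D.ρ D.r / τ₀) =
            -((algebraMap C K τ₀)⁻¹ * xx C K *
              (algebraMap C K (D.ρ D.r) * (xx C K)⁻¹ - algebraMap C K τ₀)) := by
          rw [map_div₀]
          field_simp
          ring
        rw [h1, Valuation.map_neg, map_mul, map_mul, map_inv₀, P.const _ h0, hvx', inv_one,
          one_mul, one_mul]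
        exact hP

/-- every place lies over exactly one base cell: existence -/
theorem exists_cell [Algebra.IsSeparable (RatFunc C) K] (P : Pl C K) :
    (∃ u, D.PU u P) ∨ (∃ e, D.PE e P) ∨ D.PI P := by
  by_cases h : P.v (xx C K) ≤ 1
  · obtain ⟨y, hy⟩ := CE1_280.exists_residue P h
    rcases locate (D := D) (isPtL_dp y) with ⟨x, hx⟩ | ⟨u, hu⟩ | ⟨e, he⟩ | hI
    · exact (not_isV_point y hx).elim
    · exact Or.inl ⟨u, y, hu, hy⟩
    · exact Or.inr (Or.inl ⟨e, y, he, hy⟩)
    · exact Or.inr (Or.inr (Or.inr ⟨y, hI, hy⟩))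
  · exact Or.inr (Or.inr (Or.inl (not_le.1 h)))

variable {D}

theorem PU_unique {u u' : D.U} {P : Pl C K} (h : D.PU u P) (h' : D.PU u' P) : u = u' := by
  obtain ⟨y, hy, hP⟩ := h
  obtain ⟨y', hy', hP'⟩ := h'
  obtain rfl := v_unique hP hP'
  exact inU_unique (isPtL_dp y) hy hy'

theorem PE_unique {e e' : D.E} {P : Pl C K} (h : D.PE e P) (h' : D.PE e' P) : e = e' := by
  obtain ⟨y, hy, hP⟩ := h
  obtain ⟨y', hy', hP'⟩ := h'
  obtain rfl := v_unique hP hP'
  exact inE_unique (isPtL_dp y) hy hy'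

theorem not_PU_PE {u : D.U} {e : D.E} {P : Pl C K} (h : D.PU u P) (h' : D.PE e P) : False := by
  obtain ⟨y, hy, hP⟩ := h
  obtain ⟨y', hy', hP'⟩ := h'
  obtain rfl := v_unique hP hP'
  exact not_inU_inE (isPtL_dp y) hy hy'

theorem not_PU_PI {u : D.U} {P : Pl C K} (h : D.PU u P) (h' : D.PI P) : False := by
  obtain ⟨y, hy, hP⟩ := h
  rcases h' with h' | ⟨y', hy', hP'⟩
  · exact absurd h' (not_lt.2 (v_x_le hP))
  · obtain rfl := v_unique hP hP'
    exact not_inU_inI (isPtL_dp y) hy hy'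

theorem not_PE_PI {e : D.E} {P : Pl C K} (h : D.PE e P) (h' : D.PI P) : False := by
  obtain ⟨y, hy, hP⟩ := h
  rcases h' with h' | ⟨y', hy', hP'⟩
  · exact absurd h' (not_lt.2 (v_x_le hP))
  · obtain rfl := v_unique hP hP'
    exact not_inE_inI (isPtL_dp y) hy hy'

end LineDec

end Crest.Agent.R013.LineDec_315
end
end

-- ▼ part R013/PtsK2_315
section

/-!
# RED-PTS (row 13), part 2: the cells of `K` over a `LineDec`

`KD, ioD, ioD_disc, KA, cA, io0, io1, io_ann, ptD, ptA, ptD_ord, ptA_ord, pt_surj, ptD_inj, ptA_inj,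
ptDA` in the shape of `KCells` (Red11_332).
-/

set_option autoImplicit false
set_option linter.style.haveILetI false
set_option linter.unusedSectionVars false
set_option linter.unusedVariables false
set_option linter.defProp false

open scoped NNReal
open WithZero

noncomputable section

namespace Crest.Agent.R013.LineDec_315

open Crest.Agent.R013.SSG_109
open Crest.Agent.R013.Cell_408 (BD DiscNorm)
open Crest.Agent.R013.Comp_267 (FD TF)
open Crest.Agent.R013.Good_408 Crest.Agent.R013.EE809 Crest.Agent.R013.SSK_332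
open Crest.Agent.R013.CAn_243
open Crest.Agent.R013.Red332 (toEE toEE_algebraMap)
open Crest.Agent.R013.Pts2_315 Crest.Agent.R013.Pts3_315 Crest.Agent.R013.Pts5_315
open Crest.Agent.R013.RR7_948

universe u

namespace LineDec

variable {k : Type*} {C : Type u} {K : Type*} [NontriviallyNormedField k] [CompleteSpace k]
    [IsUltrametricDist k] [NormedField C] [IsUltrametricDist C] [NormedAlgebra k C]
    [Algebra.IsAlgebraic k C] [IsAlgClosed C] [hk : Fact (DiscNorm k)]
    [Field K] [Algebra C K] [Algebra (RatFunc C) K] [IsScalarTower C (RatFunc C) K]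
    [FiniteDimensional (RatFunc C) K]
    (D : LineDec k C K)

/-! ### cells of `K` -/

/-- the discs of `K` -/
abbrev KD : Type u := (Σ u : D.U, (D.cd u).J) ⊕ D.ci.J

/-- the annuli of `K` -/
abbrev KA : Type u := Σ e : D.E, (D.ce e).J

instance : Finite D.KA := by
  haveI := D.E_fin
  exact inferInstanceAs (Finite (Σ e : D.E, (D.ce e).J))

/-- expansion on the discs, with values in `FD` -/
def ioDF : D.KD → K →ₐ[C] FD k C :=
  Sum.elim (fun p => (D.cd p.1).io p.2) (fun j => D.ci.io j)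

/-- expansion on the discs -/
def ioD (a : D.KD) : K →ₐ[C] EE k C := (toEE k C).comp (D.ioDF a)




/-- the modulus of an annulus -/
def cA (a : D.KA) : C := (D.ce a.1).c' a.2

theorem cA_ne (a : D.KA) : D.cA a ≠ 0 := (D.ce a.1).c'_ne a.2

theorem cA_lt (a : D.KA) : ‖D.cA a‖ < 1 := (D.ce a.1).c'_lt a.2

/-- expansion on the annuli with values in `FA` -/
def ioAF (a : D.KA) : K →ₐ[C] FA k (D.cA a) := (D.ce a.1).ioF a.2

/-- expansion at the outer end -/
def io0 (a : D.KA) : K →ₐ[C] EE k C := (FA k (D.cA a)).val.comp (D.ioAF a)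




/-! ### points -/

/-- points of the discs -/
def ptD (a : D.KD) (τ : C) (hτ : ‖τ‖ < 1) : Pl C K :=
  match a with
  | Sum.inl p => (D.coverU p.1).plc p.2 (τ := τ) hτ
  | Sum.inr j => D.coverI.plc j (τ := τ) hτ

variable {D}
variable (hs : D.Span)

/-- points of the annuli -/
def ptA (a : D.KA) (τ : C) (h0 : ‖D.cA a‖ < ‖τ‖) (h1 : ‖τ‖ < 1) : Pl C K :=
  (coverE hs a.1).plc a.2 (τ := τ) ⟨h0, h1⟩

theorem XB_eq : (ofBD (Crest.Agent.R013.Comp_267.XB : BD k C) : EE k C) = T 1 := Pow2_931.ofBD_X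

theorem ptD_inl (u : D.U) (j : (D.cd u).J) (τ : C) (hτ : ‖τ‖ < 1) :
    D.ptD (Sum.inl ⟨u, j⟩) τ hτ = (D.coverU u).plc j (τ := τ) hτ := rfl

theorem ptD_inr (j : D.ci.J) (τ : C) (hτ : ‖τ‖ < 1) :
    D.ptD (Sum.inr j) τ hτ = D.coverI.plc j (τ := τ) hτ := rfl

theorem ptD_ord (a : D.KD) (τ : C) (hτ : ‖τ‖ < 1) (f : K) (hf : f ≠ 0) :
    ∃ (n m : ℕ) (g h : EE k C), InD g ∧ InD h ∧
    evE τ g ≠ 0 ∧ evE τ h ≠ 0 ∧ D.ioD a f * (lin τ ^ m * h) = lin τ ^ n * g ∧
    (D.ptD a τ hτ).v f = exp ((m : ℤ) - n) := by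
  rcases a with ⟨u, j⟩ | j
  · exact ordD ((D.coverU u).up j) XB_eq hτ
      (f := (D.cd u).io j f) ((map_ne_zero _).2 hf)
  · exact ordD (D.coverI.up j) XB_eq hτ
      (f := D.ci.io j f) ((map_ne_zero _).2 hf)

theorem ptA_ord (a : D.KA) (τ : C) (h0 : ‖D.cA a‖ < ‖τ‖) (h1 : ‖τ‖ < 1) (f : K) (hf : f ≠ 0) :
    ∃ (n m : ℕ) (g h : EE k C), InA (D.cA a) g ∧ InA (D.cA a) h ∧
    evE τ g ≠ 0 ∧ evE τ h ≠ 0 ∧ D.io0 a f * (lin τ ^ m * h) = lin τ ^ n * g ∧
    (ptA hs a τ h0 h1).v f = exp ((m : ℤ) - n) := by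
  obtain ⟨e, j⟩ := a
  exact ordA (D.cA_ne ⟨e, j⟩) (D.cA_lt ⟨e, j⟩) (A := AN k (D.cA ⟨e, j⟩)) (fun _ => Iff.rfl)
    (F := FA k (D.cA ⟨e, j⟩)) ((FA k (D.cA ⟨e, j⟩)).val : _ →+* EE k C) (fun _ => rfl)
    ((coverE hs e).up j) ⟨h0, h1⟩ (f := (D.ce e).ioF j f) ((map_ne_zero _).2 hf)

theorem PU_plc (u : D.U) (j : (D.cd u).J) (τ : C) (hτ : ‖τ‖ < 1) :
    D.PU u (D.ptD (Sum.inl ⟨u, j⟩) τ hτ) := by
  rw [PU_iff, ptD_inl]
  obtain ⟨τ₀, h1, h2⟩ := (D.coverU u).plc_lt_one j (τ := τ) hτ
  exact ⟨τ₀, h1, h2⟩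

theorem PI_plc (j : D.ci.J) (τ : C) (hτ : ‖τ‖ < 1) :
    D.PI (D.ptD (Sum.inr j) τ hτ) := by
  rw [PI_iff, ptD_inr]
  obtain ⟨τ₀, h1, h2⟩ := D.coverI.plc_lt_one j (τ := τ) hτ
  exact ⟨τ₀, h1, h2⟩

theorem PE_plc (a : D.KA) (τ : C) (h0 : ‖D.cA a‖ < ‖τ‖) (h1 : ‖τ‖ < 1) :
    D.PE a.1 (ptA hs a τ h0 h1) := by
  rw [PE_iff]
  obtain ⟨τ₀, h2, h3⟩ := (coverE hs a.1).plc_lt_one a.2 (τ := τ) ⟨h0, h1⟩
  exact ⟨τ₀, h2, h3⟩

theorem pt_surj [Algebra.IsSeparable (RatFunc C) K] (P : Pl C K) :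
    (∃ a τ hτ, P = D.ptD a τ hτ) ∨ ∃ a τ h0 h1, P = ptA hs a τ h0 h1 := by
  rcases D.exists_cell P with ⟨u, h⟩ | ⟨e, h⟩ | h
  · rw [PU_iff] at h
    obtain ⟨τ₀, h1, h2⟩ := h
    obtain ⟨j, τ, hτ, hP⟩ := (D.coverU u).exists_plc (τ₀ := τ₀) h1 h2
    exact Or.inl ⟨Sum.inl ⟨u, j⟩, τ, hτ, hP⟩
  · rw [PE_iff] at h
    obtain ⟨τ₀, h1, h2⟩ := h
    obtain ⟨j, τ, hτ, hP⟩ := (coverE hs e).exists_plc (τ₀ := τ₀) h1 h2
    exact Or.inr ⟨⟨e, j⟩, τ, hτ.1, hτ.2, hP⟩
  · rw [PI_iff] at h
    obtain ⟨τ₀, h1, h2⟩ := h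
    obtain ⟨j, τ, hτ, hP⟩ := D.coverI.exists_plc (τ₀ := τ₀) h1 h2
    exact Or.inl ⟨Sum.inr j, τ, hτ, hP⟩

theorem ptD_inj (a : D.KD) (τ : C) (hτ : ‖τ‖ < 1) (a' : D.KD) (τ' : C) (hτ' : ‖τ'‖ < 1)
    (h : D.ptD a τ hτ = D.ptD a' τ' hτ') : a = a' ∧ τ = τ' := by
  rcases a with ⟨u, j⟩ | j <;> rcases a' with ⟨u', j'⟩ | j'
  · have h1 : u = u' := PU_unique (PU_plc u j τ hτ) (by rw [h]; exact PU_plc u' j' τ' hτ')
    subst h1
    obtain ⟨h2, h3⟩ := (D.coverU u).plc_injective (hτ := hτ) (hτ' := hτ') h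
    have h4 : j = j' := h2
    subst h4
    exact ⟨rfl, h3⟩
  · exact (not_PU_PI (PU_plc u j τ hτ) (by rw [h]; exact PI_plc j' τ' hτ')).elim
  · exact (not_PU_PI (PU_plc u' j' τ' hτ') (by rw [← h]; exact PI_plc j τ hτ)).elim
  · obtain ⟨h2, h3⟩ := D.coverI.plc_injective (hτ := hτ) (hτ' := hτ') h
    exact ⟨by rw [h2], h3⟩

theorem ptA_inj (a : D.KA) (τ : C) (h0 : ‖D.cA a‖ < ‖τ‖) (h1 : ‖τ‖ < 1) (a' : D.KA) (τ' : C)
    (h0' : ‖D.cA a'‖ < ‖τ'‖) (h1' : ‖τ'‖ < 1)
    (h : ptA hs a τ h0 h1 = ptA hs a' τ' h0' h1') : a = a' ∧ τ = τ' := by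
  have h2 : a.1 = a'.1 := PE_unique (PE_plc hs a τ h0 h1) (by rw [h]; exact PE_plc hs a' τ' h0' h1')
  obtain ⟨e, j⟩ := a
  obtain ⟨e', j'⟩ := a'
  simp only at h2
  subst h2
  obtain ⟨h2, h3⟩ := (coverE hs e).plc_injective (hτ := ⟨h0, h1⟩) (hτ' := ⟨h0', h1'⟩) h
  have h4 : j = j' := h2
  subst h4
  exact ⟨rfl, h3⟩

theorem ptDA (a : D.KD) (τ : C) (hτ : ‖τ‖ < 1) (a' : D.KA) (τ' : C)
    (h0' : ‖D.cA a'‖ < ‖τ'‖) (h1' : ‖τ'‖ < 1) : D.ptD a τ hτ ≠ ptA hs a' τ' h0' h1' := by
  intro h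
  have h1 := PE_plc hs a' τ' h0' h1'
  rw [← h] at h1
  rcases a with ⟨u, j⟩ | j
  · exact not_PU_PE (PU_plc u j τ hτ) h1
  · exact not_PE_PI h1 (PI_plc j τ hτ)

end LineDec

end Crest.Agent.R013.LineDec_315
end
end

-- ▼ part R013/GoodA3_109
section

/-!
# Good annuli (helper109): `ACells.SpanAN` of `GoodA2_315` holds; `PD` and `CellCover` without
hypothesis; the coordinate of the annulus
-/

set_option autoImplicit false
set_option linter.unusedSectionVars false

noncomputable section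

namespace Crest.Agent.R013.Good_408

open Module
open Crest.Agent.R013.Cell_408 Crest.Agent.R013.Comp_267
open Crest.Agent.R013.EE809 Crest.Agent.R013.CAn_243 Crest.Agent.R013.CAnR_109
open Crest.Agent.R013.Pts1_315 Crest.Agent.R013.Pts2_315 Crest.Agent.R013.Pts3_315

variable {k C : Type*} [NontriviallyNormedField k] [CompleteSpace k] [IsUltrametricDist k]
  [NormedField C] [IsUltrametricDist C] [NormedAlgebra k C] [Algebra.IsAlgebraic k C]
  [IsAlgClosed C] [hk : Fact (DiscNorm k)]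

namespace ACells

variable {K : Type*} [Field K] [Algebra C K] [Algebra (RatFunc C) K]
    [IsScalarTower C (RatFunc C) K] {c : C} {y : EE k C}

/-- the hypothesis `SpanAN` of `GoodA2_315` is a theorem -/
theorem spanAN (D : ACells k C K c y) : D.SpanAN := by
  intro j b hb
  obtain ⟨e, he, h⟩ := repr_AN (D.c'_ne j) (D.c'_lt j) (D.we j) (WA.of_we (D.we j) (D.wa j))
    (D.m_ne j) (D.hc' j) hb
  refine ⟨e, he, ?_⟩
  rw [h]
  exact Finset.sum_congr rfl fun i _ => mul_comm _ _

variable [FiniteDimensional (RatFunc C) K]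



end ACells

end Crest.Agent.R013.Good_408
end
end

-- ▼ part R013/PtsK3_315

/-!
# RED-PTS (row 13), part 3: `PtCells` of Red16_332
-/

set_option autoImplicit false
set_option linter.style.haveILetI false
set_option linter.unusedSectionVars false
set_option linter.unusedVariables false

noncomputable section

namespace Crest.Agent.R013.PtsK_315

open Crest.Agent.R013.LineDec_315 Crest.Agent.R013.Red332
open Crest.Agent.R013.Cell_408 (DiscNorm)

universe u

variable {k : Type*} {C : Type u} {K : Type*} [NontriviallyNormedField k] [CompleteSpace k]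
    [IsUltrametricDist k] [NormedField C] [IsUltrametricDist C] [NormedAlgebra k C]
    [Algebra.IsAlgebraic k C] [IsAlgClosed C] [hk : Fact (DiscNorm k)]
    [Field K] [Algebra C K] [Algebra (RatFunc C) K] [IsScalarTower C (RatFunc C) K]
    [FiniteDimensional (RatFunc C) K]

theorem span_lineDec (D : LineDec k C K) : D.Span := fun e => (D.ce e).spanAN

theorem kioD_eq (D : LineDec k C K) (a : KD D) : kioD a = D.ioD a := by
  rcases a with p | j <;> rfl

/-- **the points of the cells of `K` over a decomposition of the line** -/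
def ptCells [Algebra.IsSeparable (RatFunc C) K] (D : LineDec k C K) : PtCells D where
  ptD := fun a τ hτ => D.ptD a τ hτ
  ptA := fun a τ h0 h1 => LineDec.ptA (span_lineDec D) a τ h0 h1
  ptD_ord := fun a τ hτ f hf => by rw [kioD_eq]; exact LineDec.ptD_ord a τ hτ f hf
  ptA_ord := fun a τ h0 h1 f hf => LineDec.ptA_ord (span_lineDec D) a τ h0 h1 f hf
  pt_surj := fun P => LineDec.pt_surj (span_lineDec D) P
  ptD_inj := fun a τ hτ a' τ' hτ' h => LineDec.ptD_inj a τ hτ a' τ' hτ' h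
  ptA_inj := fun a τ h0 h1 a' τ' h0' h1' h =>
    LineDec.ptA_inj (span_lineDec D) a τ h0 h1 a' τ' h0' h1' h
  ptDA := fun a τ hτ a' τ' h0' h1' => LineDec.ptDA (span_lineDec D) a τ hτ a' τ' h0' h1'

end Crest.Agent.R013.PtsK_315
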