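import Mathlib
import Crest.Agent.R013.RR7_948

-- ▼ part R013/RR8_948
section

/-!
# R013 / RR8: the two charts of the places of a function field, divisors (helper948)
-/

set_option autoImplicit false
set_option linter.unusedSectionVars false

namespace Crest.Agent.R013.RR8_948

open Polynomial WithZero Module IsDedekindDomain nonZeroDivisors
open Crest.Agent.R013.RR1_948 Crest.Agent.R013.RR2_948 Crest.Agent.R013.RR3_948
open Crest.Agent.R013.RR4_948 Crest.Agent.R013.RR5_948 Crest.Agent.R013.RR6_948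
open Crest.Agent.R013.RR7_948

section Chart

variable {k : Type*} [Field k] {K : Type*} [Field K] [Algebra k K]
  {A : Type*} [CommRing A] [IsDedekindDomain A] [Algebra k A] [Algebra A K] [IsScalarTower k A K]
  [IsFractionRing A K]

/-- the place of a maximal ideal of a chart -/
noncomputable def ofH (w : HeightOneSpectrum A) : Pl k K where
  v := w.valuation K
  const := by
    intro c hc
    have key : ∀ c : k, w.valuation K (algebraMap k K c) ≤ 1 := by
      intro c
      rw [IsScalarTower.algebraMap_apply k A K]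
      exact w.valuation_le_one _
    refine le_antisymm (key c) ?_
    have h1 := key c⁻¹
    rw [map_inv₀, map_inv₀] at h1
    have h2 : 0 < w.valuation K (algebraMap k K c) := by
      rw [Valuation.pos_iff]; simpa using hc
    exact (inv_le_one₀ h2).mp h1
  surj := w.valuation_surjective K


theorem ofH_injective : Function.Injective (ofH : HeightOneSpectrum A → Pl k K) := by
  intro w w' h
  apply heightOne_injective (K := K)
  exact congrArg Pl.v h

theorem exists_ofH {P : Pl k K} (h : ∀ a : A, P.v (algebraMap A K a) ≤ 1) :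
    ∃ w : HeightOneSpectrum A, ofH w = P := by
  obtain ⟨w, hw⟩ := exists_heightOne_eq (A := A) P.v h P.surj
  exact ⟨w, Pl.ext hw⟩

/-- the ball `{v ≤ exp n}` -/
noncomputable def ball (P : Pl k K) (n : ℤ) : Submodule k K where
  carrier := {f | P.v f ≤ exp n}
  add_mem' {a b} ha hb := by
    simp only [Set.mem_ofPred_eq] at ha hb ⊢
    exact (Valuation.map_add _ _ _).trans (max_le ha hb)
  zero_mem' := by simp
  smul_mem' c x hx := by
    simp only [Set.mem_ofPred_eq] at hx ⊢
    rw [Algebra.smul_def, map_mul]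
    have h : P.v (algebraMap k K c) ≤ 1 := by
      by_cases hc : c = 0
      · simp [hc]
      · rw [P.const c hc]
    calc _ ≤ 1 * exp n := mul_le_mul' h hx
      _ = exp n := one_mul _

theorem mem_ball {P : Pl k K} {n : ℤ} {f : K} : f ∈ ball P n ↔ P.v f ≤ exp n := by
  rw [← SetLike.mem_coe]; simp [ball]

/-- length of the residue field, in `ℕ∞` -/
noncomputable def degE (P : Pl k K) : ℕ∞ := ri (ball P (-1)) (ball P 0)

/-- the degree of a place -/
noncomputable def degP (P : Pl k K) : ℕ := (degE P).toNat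

theorem degE_ofH (w : HeightOneSpectrum A) :
    degE (ofH w : Pl k K) = Module.length k (A ⧸ w.asIdeal) := by
  unfold degE ri
  symm
  let f : A →ₗ[k] ball (ofH w : Pl k K) 0 :=
    LinearMap.codRestrict _ (IsScalarTower.toAlgHom k A K).toLinearMap (fun a => by
      rw [mem_ball, exp_zero]
      exact w.valuation_le_one a)
  let g := ((ball (ofH w : Pl k K) (-1)).submoduleOf (ball (ofH w : Pl k K) 0)).mkQ.comp f
  have hg : Function.Surjective g := by
    intro y
    obtain ⟨⟨y, hy⟩, rfl⟩ := Submodule.Quotient.mk_surjective _ y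
    rw [mem_ball, exp_zero] at hy
    obtain ⟨a, ha⟩ := w.exists_valuation_sub_lt_of_integer (K := K) hy 1
    refine ⟨a, ?_⟩
    simp only [g, LinearMap.comp_apply, Submodule.mkQ_apply]
    rw [Submodule.Quotient.eq, Submodule.submoduleOf, Submodule.mem_comap, mem_ball,
      ← lt_one_iff]
    exact ha
  have hker : LinearMap.ker g = (w.asIdeal).restrictScalars k := by
    ext a
    rw [LinearMap.mem_ker]
    simp only [g, LinearMap.comp_apply, Submodule.mkQ_apply]
    rw [Submodule.Quotient.mk_eq_zero, Submodule.submoduleOf, Submodule.mem_comap, mem_ball,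
      ← lt_one_iff, Submodule.restrictScalars_mem]
    exact w.valuation_lt_one_iff_mem a
  have e1 := g.quotKerEquivOfSurjective hg
  have e2 : (A ⧸ w.asIdeal) ≃ₗ[k] (A ⧸ LinearMap.ker g) := by
    rw [hker]
    exact LinearEquiv.refl k _
  exact LinearEquiv.length_eq (e2.trans e1)

theorem degE_pos (P : Pl k K) : degE P ≠ 0 := by
  unfold degE ri
  rw [ne_eq, Module.length_eq_zero_iff, Submodule.Quotient.subsingleton_iff]
  intro h
  have h1 : (⟨1, by rw [mem_ball]; simp⟩ : ball P 0) ∈ (ball P (-1)).submoduleOf (ball P 0) := by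
    rw [h]; trivial
  rw [Submodule.submoduleOf, Submodule.mem_comap, mem_ball, ← lt_one_iff] at h1
  simp at h1

end Chart

section Bounded

variable {k : Type*} [Field k] {K : Type*} [Field K] {Γ : Type*}
  [LinearOrderedCommGroupWithZero Γ]

theorem le_one_of_integral {S : Type*} [CommRing S] [Algebra S K] (v : Valuation K Γ)
    (hS : ∀ s : S, v (algebraMap S K s) ≤ 1) {a : K} (ha : IsIntegral S a) : v a ≤ 1 := by
  obtain ⟨p, hp, hpa⟩ := ha
  let φ : S →+* v.integer := (algebraMap S K).codRestrict v.integer hS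
  have h1 : IsIntegral v.integer a := by
    refine ⟨p.map φ, hp.map φ, ?_⟩
    rw [Polynomial.eval₂_map]
    exact hpa
  exact (Valuation.integer.integers v).mem_of_integral h1

theorem le_one_poly [Algebra k[X] K] (v : Valuation K Γ)
    (hk : ∀ c : k, v (algebraMap k[X] K (Polynomial.C c)) ≤ 1)
    (hx : v (algebraMap k[X] K Polynomial.X) ≤ 1) (p : k[X]) :
    v (algebraMap k[X] K p) ≤ 1 := by
  induction p using Polynomial.induction_on' with
  | add p q hp hq =>
    rw [map_add]
    exact (Valuation.map_add _ _ _).trans (max_le hp hq)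
  | monomial n c =>
    rw [← Polynomial.C_mul_X_pow_eq_monomial, map_mul, map_mul, map_pow, map_pow]
    exact mul_le_one' (hk c) (pow_le_one' hx n)

theorem isEquiv_vinf (v : Valuation (RatFunc k) Γ)
    (hk : ∀ c : k, c ≠ 0 → v (algebraMap k (RatFunc k) c) = 1) (hx : 1 < v RatFunc.X) :
    v.IsEquiv (vinf k) := by
  classical
  have : v.IsTrivialOn k := ⟨hk⟩
  exact RatFunc.valuation_isEquiv_inftyValuation_of_one_lt_valuation_X hx

end Bounded

section Global

variable {k : Type*} [Field k] {K : Type*} [Field K] [Algebra k K] [Algebra (RatFunc k) K]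
  [IsScalarTower k (RatFunc k) K]
  {A₀ : Type*} [CommRing A₀] [IsDedekindDomain A₀] [Algebra k A₀] [Algebra A₀ K]
  [IsScalarTower k A₀ K] [IsFractionRing A₀ K]
  {A₁ : Type*} [CommRing A₁] [IsDedekindDomain A₁] [Algebra k A₁] [Algebra A₁ K]
  [IsScalarTower k A₁ K] [IsFractionRing A₁ K]

variable (k K) in
/-- the function `x` in `K` -/
noncomputable def xK : K := algebraMap (RatFunc k) K RatFunc.X

section chart0

variable [Algebra k[X] K] [IsScalarTower k[X] (RatFunc k) K] [Algebra k[X] A₀]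
  [IsScalarTower k[X] A₀ K] [IsIntegralClosure A₀ k[X] K]

omit [Algebra k K] [IsScalarTower k (RatFunc k) K] in
theorem xK_eq_poly : xK k K = algebraMap k[X] K Polynomial.X := by
  rw [IsScalarTower.algebraMap_apply k[X] (RatFunc k) K, RatFunc.algebraMap_X]
  rfl

theorem exists_ofH₀ (P : Pl k K) (h : P.v (xK k K) ≤ 1) :
    ∃ w : HeightOneSpectrum A₀, ofH w = P := by
  apply exists_ofH
  intro a
  apply le_one_of_integral (S := k[X]) P.v
  · apply le_one_poly
    · intro c
      have h1 : algebraMap k[X] K (Polynomial.C c) = algebraMap k K c := by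
        rw [IsScalarTower.algebraMap_apply k[X] (RatFunc k) K, RatFunc.algebraMap_C,
          ← algebraMap_eq_C, ← IsScalarTower.algebraMap_apply]
      rw [h1]
      by_cases hc : c = 0
      · simp [hc]
      · rw [P.const c hc]
    · rw [← xK_eq_poly]
      exact h
  · exact (IsIntegralClosure.isIntegral_iff (A := A₀)).mpr ⟨a, rfl⟩

theorem ofH₀_le (w : HeightOneSpectrum A₀) : (ofH w : Pl k K).v (xK k K) ≤ 1 := by
  rw [xK_eq_poly, IsScalarTower.algebraMap_apply k[X] A₀ K]
  exact w.valuation_le_one _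

end chart0

section chart1

variable [FiniteDimensional (RatFunc k) K] [Algebra (Rinf k) A₁] [IsScalarTower (Rinf k) A₁ K]
  [IsIntegralClosure A₁ (Rinf k) K]

omit [FiniteDimensional (RatFunc k) K] in
theorem exists_ofH₁ (P : Pl k K) (h : 1 < P.v (xK k K)) :
    ∃ w : HeightOneSpectrum A₁, ofH w = P := by
  apply exists_ofH
  intro a
  apply le_one_of_integral (S := Rinf k) P.v
  · intro s
    have h1 : (P.v.comap (algebraMap (RatFunc k) K)).IsEquiv (vinf k) := by
      apply isEquiv_vinf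
      · intro c hc
        rw [Valuation.comap_apply, ← IsScalarTower.algebraMap_apply]
        exact P.const c hc
      · exact h
    exact h1.le_one_iff_le_one.mpr s.2
  · exact (IsIntegralClosure.isIntegral_iff (A := A₁)).mpr ⟨a, rfl⟩

theorem ofH₁_lt (w : HeightOneSpectrum A₁) : 1 < (ofH w : Pl k K).v (xK k K) := by
  by_contra hcon
  rw [not_lt] at hcon
  have hX : (RatFunc.X : RatFunc k) ≠ 0 := RatFunc.X_ne_zero
  -- all of `Rinf` has value `≤ 1`
  have h1 : ∀ s : Rinf k, (ofH w : Pl k K).v (algebraMap (RatFunc k) K (s : RatFunc k)) ≤ 1 := by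
    intro s
    have : algebraMap (RatFunc k) K (s : RatFunc k) = algebraMap A₁ K (algebraMap (Rinf k) A₁ s) := by
      rw [← IsScalarTower.algebraMap_apply (Rinf k) A₁ K]; rfl
    rw [this]
    exact w.valuation_le_one _
  -- hence all of `RatFunc k`
  have h2 : ∀ f : RatFunc k, (ofH w : Pl k K).v (algebraMap (RatFunc k) K f) ≤ 1 := by
    intro f
    by_cases hf : f = 0
    · simp [hf]
    · obtain ⟨n, hn⟩ := vinf_exp k hf
      have h3 : f * RatFunc.X ^ (-n) ∈ Rinf k := by
        rw [mem_Rinf, map_mul, hn, vinf_X_zpow, ← exp_add]; simp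
      have hxv : (ofH w : Pl k K).v (xK k K) = 1 := by
        refine le_antisymm hcon ?_
        have h4 : (RatFunc.X : RatFunc k)⁻¹ ∈ Rinf k := by
          rw [mem_Rinf, ← zpow_neg_one, vinf_X_zpow, ← exp_zero, exp_le_exp]; norm_num
        have h5 := h1 ⟨_, h4⟩
        simp only [map_inv₀] at h5
        have h6 : 0 < (ofH w : Pl k K).v (xK k K) := by
          rw [Valuation.pos_iff]; simpa [xK] using hX
        exact (inv_le_one₀ h6).mp h5
      have h4 := h1 ⟨_, h3⟩
      simp only [map_mul, map_zpow₀] at h4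
      have hxv' : (ofH w : Pl k K).v (algebraMap (RatFunc k) K RatFunc.X) = 1 := hxv
      rwa [hxv', one_zpow, mul_one] at h4
  have h3 : ∀ a : K, (ofH w : Pl k K).v a ≤ 1 := by
    intro a
    exact le_one_of_integral (S := RatFunc k) _ h2 (Algebra.IsIntegral.isIntegral a)
  obtain ⟨y, hy⟩ := (ofH w : Pl k K).surj (exp 1)
  have h4 := h3 y
  rw [hy, ← exp_zero, exp_le_exp] at h4
  norm_num at h4

end chart1

end Global

end Crest.Agent.R013.RR8_948
end

-- ▼ part R013/RR9_948
section

/-!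
# R013 / RR9: divisors, Riemann-Roch with two charts (helper948)
-/

set_option autoImplicit false
set_option linter.unusedSectionVars false

namespace Crest.Agent.R013.RR9_948

open Polynomial WithZero Module IsDedekindDomain nonZeroDivisors
open Crest.Agent.R013.RR1_948 Crest.Agent.R013.RR2_948 Crest.Agent.R013.RR3_948
open Crest.Agent.R013.RR4_948 Crest.Agent.R013.RR5_948 Crest.Agent.R013.RR6_948
open Crest.Agent.R013.RR7_948 Crest.Agent.R013.RR8_948

section Defs

variable {k : Type*} [Field k] {K : Type*} [Field K] [Algebra k K]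

/-- the Riemann-Roch space: `f` with `ord_P f ≥ -D P` for all `P` -/
noncomputable def LD (D : Pl k K →₀ ℤ) : Submodule k K := ⨅ P, ball P (D P)

theorem mem_LD {D : Pl k K →₀ ℤ} {f : K} : f ∈ LD D ↔ ∀ P : Pl k K, P.v f ≤ exp (D P) := by
  simp [LD, Submodule.mem_iInf, mem_ball]

/-- degree of a divisor -/
noncomputable def degD (D : Pl k K →₀ ℤ) : ℤ := D.sum fun P n => n * (degP P : ℤ)

/-- dimension of the Riemann-Roch space -/
noncomputable def ell (D : Pl k K →₀ ℤ) : ℕ := Module.finrank k (LD D)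

theorem degD_zero : degD (0 : Pl k K →₀ ℤ) = 0 := by simp [degD]

theorem degD_add (D D' : Pl k K →₀ ℤ) : degD (D + D') = degD D + degD D' := by
  classical
  unfold degD
  exact Finsupp.sum_add_index' (fun P => by simp) (fun P a b => by ring)

theorem degD_single (P : Pl k K) (n : ℤ) : degD (Finsupp.single P n) = n * degP P := by
  unfold degD
  rw [Finsupp.sum_single_index]; simp

theorem degD_neg (D : Pl k K →₀ ℤ) : degD (-D) = -degD D := by
  have := degD_add D (-D)
  rw [add_neg_cancel, degD_zero] at this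
  omega

theorem degD_sub (D D' : Pl k K →₀ ℤ) : degD (D - D') = degD D - degD D' := by
  rw [sub_eq_add_neg, degD_add, degD_neg]; ring

variable {A : Type*} [CommRing A] [IsDedekindDomain A] [Algebra k A] [Algebra A K]
  [IsScalarTower k A K] [IsFractionRing A K]

variable (A) in
/-- restriction of a divisor to a chart -/
noncomputable def cut (D : Pl k K →₀ ℤ) : HeightOneSpectrum A →₀ ℤ :=
  D.comapDomain ofH (ofH_injective.injOn)

theorem cut_apply (D : Pl k K →₀ ℤ) (w : HeightOneSpectrum A) : cut A D w = D (ofH w) := rfl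

variable (A) in
/-- the chart lattice of a divisor -/
noncomputable def NA (D : Pl k K →₀ ℤ) : Submodule k K := fidS K k (cut A D)

theorem mem_NA {D : Pl k K →₀ ℤ} {f : K} :
    f ∈ NA A D ↔ ∀ w : HeightOneSpectrum A, (ofH w : Pl k K).v f ≤ exp (D (ofH w)) := by
  unfold NA
  rw [mem_fidS]
  rfl

theorem cut_add_single_ofH (D : Pl k K →₀ ℤ) (w : HeightOneSpectrum A) :
    cut A (D + Finsupp.single (ofH w) 1) = cut A D + Finsupp.single w 1 := by
  classical
  ext w'
  rw [cut_apply, Finsupp.add_apply, Finsupp.add_apply, cut_apply, Finsupp.single_apply,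
    Finsupp.single_apply]
  congr 1
  by_cases h : w = w'
  · simp [h]
  · rw [if_neg h, if_neg (fun h' => h (ofH_injective h'))]

theorem cut_add_single_of_ne (D : Pl k K →₀ ℤ) (P : Pl k K)
    (hP : ∀ w : HeightOneSpectrum A, ofH w ≠ P) :
    cut A (D + Finsupp.single P 1) = cut A D := by
  classical
  ext w'
  rw [cut_apply, Finsupp.add_apply, cut_apply, Finsupp.single_apply, if_neg (hP w').symm, add_zero]

end Defs

theorem xK_ne_zero {k : Type*} [Field k] {K : Type*} [Field K] [Algebra (RatFunc k) K] :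
    xK k K ≠ 0 := by
  unfold xK
  rw [ne_eq, FaithfulSMul.algebraMap_eq_zero_iff]
  exact RatFunc.X_ne_zero

section Global

variable {k : Type*} [Field k] {K : Type*} [Field K] [Algebra k K] [Algebra (RatFunc k) K]
  [IsScalarTower k (RatFunc k) K] [FiniteDimensional (RatFunc k) K]
  [Algebra.IsSeparable (RatFunc k) K]
  [Algebra k[X] K] [IsScalarTower k[X] (RatFunc k) K]
  (A₀ : Type*) [CommRing A₀] [IsDedekindDomain A₀] [Algebra k A₀] [Algebra A₀ K]
  [IsScalarTower k A₀ K] [IsFractionRing A₀ K] [Algebra k[X] A₀]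
  [IsScalarTower k[X] A₀ K] [IsIntegralClosure A₀ k[X] K]
  (A₁ : Type*) [CommRing A₁] [IsDedekindDomain A₁] [Algebra k A₁] [Algebra A₁ K]
  [IsScalarTower k A₁ K] [IsFractionRing A₁ K] [Algebra (Rinf k) A₁]
  [IsScalarTower (Rinf k) A₁ K] [IsIntegralClosure A₁ (Rinf k) K]

include A₀ A₁ in
theorem chart_cases (P : Pl k K) :
    (∃ w : HeightOneSpectrum A₀, ofH w = P) ∨ (∃ w : HeightOneSpectrum A₁, ofH w = P) := by
  rcases le_or_gt (P.v (xK k K)) 1 with h | h
  · exact Or.inl (exists_ofH₀ P h)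
  · exact Or.inr (exists_ofH₁ P h)

theorem ofH₀_ne_ofH₁ (w : HeightOneSpectrum A₀) (w' : HeightOneSpectrum A₁) :
    (ofH w : Pl k K) ≠ ofH w' := by
  intro h
  have h1 := ofH₀_le (k := k) (K := K) w
  have h2 := ofH₁_lt (k := k) (K := K) w'
  rw [h] at h1
  exact absurd h2 (not_lt.mpr h1)

theorem LD_eq (D : Pl k K →₀ ℤ) : LD D = NA A₀ D ⊓ NA A₁ D := by
  ext f
  rw [mem_LD, Submodule.mem_inf, mem_NA, mem_NA]
  constructor
  · intro h
    exact ⟨fun w => h _, fun w => h _⟩
  · rintro ⟨h0, h1⟩ P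
    rcases chart_cases A₀ A₁ P with ⟨w, rfl⟩ | ⟨w, rfl⟩
    · exact h0 w
    · exact h1 w

include A₀ A₁ in
/-- functions have finitely many zeros and poles -/
theorem finite_ne_one {f : K} (hf : f ≠ 0) : {P : Pl k K | P.v f ≠ 1}.Finite := by
  have h0 := finite_valuation_ne_one (O := A₀) K hf
  have h1 := finite_valuation_ne_one (O := A₁) K hf
  refine ((h0.image (ofH : HeightOneSpectrum A₀ → Pl k K)).union
    (h1.image (ofH : HeightOneSpectrum A₁ → Pl k K))).subset ?_
  intro P hP
  simp only [Set.mem_ofPred_eq] at hP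
  rcases chart_cases A₀ A₁ P with ⟨w, rfl⟩ | ⟨w, rfl⟩
  · exact Or.inl ⟨w, hP, rfl⟩
  · exact Or.inr ⟨w, hP, rfl⟩

variable (k K) in
/-- the pole divisor of `x` on the infinite chart -/
noncomputable def poleX : HeightOneSpectrum A₁ →₀ ℤ :=
  Finsupp.ofSupportFinite (fun w => log (w.valuation K (xK k K))) (by
    have hx : xK k K ≠ 0 := xK_ne_zero
    refine (finite_valuation_ne_one (O := A₁) K hx).subset ?_
    intro w hw
    simp only [Function.mem_support] at hw
    simp only [Set.mem_ofPred_eq]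
    intro h
    rw [h] at hw
    simp at hw)

theorem poleX_spec (w : HeightOneSpectrum A₁) :
    (ofH w : Pl k K).v (xK k K) = exp (poleX k K A₁ w) := by
  have hx : xK k K ≠ 0 := xK_ne_zero
  show w.valuation K (xK k K) = exp (log (w.valuation K (xK k K)))
  rw [exp_log]
  exact (Valuation.ne_zero_iff _).mpr hx

variable (k K) in
/-- the canonical divisor, the divisor of `dx` -/
noncomputable def WD : Pl k K →₀ ℤ :=
  (diffD k[X] (RatFunc k) K A₀).mapDomain ofH +
    (diffD (Rinf k) (RatFunc k) K A₁ - 2 • poleX k K A₁).mapDomain ofH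

theorem WD_ofH₀ (w : HeightOneSpectrum A₀) :
    WD k K A₀ A₁ (ofH w) = diffD k[X] (RatFunc k) K A₀ w := by
  unfold WD
  rw [Finsupp.add_apply, Finsupp.mapDomain_apply ofH_injective, Finsupp.mapDomain_of_notMem_range,
    add_zero]
  rintro ⟨w', hw'⟩
  exact ofH₀_ne_ofH₁ A₀ A₁ w w' hw'.symm

theorem WD_ofH₁ (w : HeightOneSpectrum A₁) :
    WD k K A₀ A₁ (ofH w) = diffD (Rinf k) (RatFunc k) K A₁ w - 2 * poleX k K A₁ w := by
  unfold WD
  rw [Finsupp.add_apply, Finsupp.mapDomain_apply ofH_injective, Finsupp.mapDomain_of_notMem_range,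
    zero_add]
  · simp
  · rintro ⟨w', hw'⟩
    exact ofH₀_ne_ofH₁ A₀ A₁ w' w hw'

theorem cut₀_WD_sub (D : Pl k K →₀ ℤ) :
    cut A₀ (WD k K A₀ A₁ - D) = diffD k[X] (RatFunc k) K A₀ - cut A₀ D := by
  ext w
  rw [cut_apply, Finsupp.sub_apply, WD_ofH₀, Finsupp.sub_apply, cut_apply]

theorem dualP_NA (D : Pl k K →₀ ℤ) : dualP (NA A₀ D) = NA A₀ (WD k K A₀ A₁ - D) := by
  ext y
  rw [mem_dualP]
  have h1 : y ∈ NA A₀ (WD k K A₀ A₁ - D) ↔
      y ∈ fid K (diffD k[X] (RatFunc k) K A₀ - cut A₀ D) := by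
    unfold NA
    rw [cut₀_WD_sub]
    rfl
  rw [h1, mem_fid_diff_sub]
  refine forall₂_congr fun x _ => ?_
  rw [mem_polyS]

theorem dualI_NA (D : Pl k K →₀ ℤ) : dualI (NA A₁ D) = NA A₁ (WD k K A₀ A₁ - D) := by
  ext y
  have hx : xK k K ≠ 0 := xK_ne_zero
  have h1 : y ∈ NA A₁ (WD k K A₀ A₁ - D) ↔
      y * xK k K ^ 2 ∈ fid K (diffD (Rinf k) (RatFunc k) K A₁ - cut A₁ D) := by
    rw [mem_NA, mem_fid]
    refine forall_congr' fun w => ?_
    rw [Finsupp.sub_apply, WD_ofH₁, Finsupp.sub_apply, cut_apply, map_mul, map_pow]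
    have h2 : w.valuation K (xK k K) = exp (poleX k K A₁ w) := poleX_spec A₁ w
    rw [h2, ← exp_nsmul]
    show w.valuation K y ≤ _ ↔ _
    have h3 : exp (diffD (Rinf k) (RatFunc k) K A₁ w - D (ofH w))
        = exp (diffD (Rinf k) (RatFunc k) K A₁ w - 2 * poleX k K A₁ w - D (ofH w)) *
          exp (2 • poleX k K A₁ w) := by
      rw [← exp_add]; congr 1; rw [two_nsmul]; ring
    rw [h3]
    exact (mul_le_mul_iff_left₀ (by simp)).symm
  rw [h1, mem_fid_diff_sub, mem_dualI]
  refine forall₂_congr fun x _ => ?_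
  have h4 : Algebra.trace (RatFunc k) K (y * xK k K ^ 2 * x)
      = RatFunc.X ^ 2 * Algebra.trace (RatFunc k) K (y * x) := by
    have : y * xK k K ^ 2 * x = (RatFunc.X ^ 2 : RatFunc k) • (y * x) := by
      rw [Algebra.smul_def, map_pow]
      unfold xK
      ring
    rw [this, map_smul, smul_eq_mul]
  rw [h4, mem_infS]
  have h5 : ∀ f : RatFunc k, f ∈ Set.range (algebraMap (Rinf k) (RatFunc k)) ↔ vinf k f ≤ 1 := by
    intro f
    constructor
    · rintro ⟨s, rfl⟩; exact s.2
    · intro h; exact ⟨⟨f, h⟩, rfl⟩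
  generalize Algebra.trace (RatFunc k) K (y * x) = t
  rw [h5, map_mul, map_pow, vinf_X, ← exp_nsmul]
  have h6 : (1 : ℤᵐ⁰) = exp (2 • 1) * exp (-2) := by rw [← exp_add]; simp
  conv_rhs => rw [h6]
  exact (mul_le_mul_iff_right₀ (by simp)).symm

theorem duality_NA (D : Pl k K →₀ ℤ) :
    (∃ n : ℕ, h0 (NA A₀ D) (NA A₁ D) = n) ∧ (∃ n : ℕ, h1 (NA A₀ D) (NA A₁ D) = n) ∧
    h1 (NA A₀ D) (NA A₁ D) = h0 (NA A₀ (WD k K A₀ A₁ - D)) (NA A₁ (WD k K A₀ A₁ - D)) := by
  obtain ⟨b0, hb0⟩ := exists_basis_fid k[X] (RatFunc k) K (cut A₀ D)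
  obtain ⟨c, hc⟩ := exists_basis_fid (Rinf k) (RatFunc k) K (cut A₁ D)
  have h := duality b0 c (NA A₀ D) (NA A₁ D) (by
    intro x
    have h1 : x ∈ NA A₀ D ↔ x ∈ Submodule.span k[X] (Set.range b0) := by
      rw [hb0]; rfl
    rw [h1, b0.mem_span_iff_repr_mem k[X]]
    refine forall_congr' fun j => ?_
    rw [mem_polyS]) (by
    intro x
    have h1 : x ∈ NA A₁ D ↔ x ∈ Submodule.span (Rinf k) (Set.range c) := by
      rw [hc]; rfl
    rw [h1, c.mem_span_iff_repr_mem (Rinf k)]
    refine forall_congr' fun j => ?_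
    constructor
    · rintro ⟨s, hs⟩; rw [← hs]; exact s.2
    · intro h; exact ⟨⟨_, h⟩, rfl⟩)
  rw [dualP_NA A₀ A₁, dualI_NA A₀ A₁] at h
  exact ⟨h.1, h.2.1, h.2.2.1⟩

end Global

end Crest.Agent.R013.RR9_948
end

-- ▼ part R013/RR10_948

/-!
# R013 / RR10: Riemann-Roch (two charts form) (helper948)
-/

set_option autoImplicit false
set_option linter.unusedSectionVars false

namespace Crest.Agent.R013.RR10_948

open Polynomial WithZero Module IsDedekindDomain nonZeroDivisors
open Crest.Agent.R013.RR1_948 Crest.Agent.R013.RR2_948 Crest.Agent.R013.RR3_948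
open Crest.Agent.R013.RR4_948 Crest.Agent.R013.RR5_948 Crest.Agent.R013.RR6_948
open Crest.Agent.R013.RR7_948 Crest.Agent.R013.RR8_948 Crest.Agent.R013.RR9_948

theorem finite_of_length {k M : Type*} [Field k] [AddCommGroup M] [Module k M] {n : ℕ}
    (h : Module.length k M = n) : Module.Finite k M ∧ Module.finrank k M = n := by
  have h1 : Module.length k M ≠ ⊤ := by rw [h]; exact ENat.natCast_ne_top n
  have h2 : IsFiniteLength k M := Module.length_ne_top_iff.mp h1
  have h3 := isFiniteLength_iff_isNoetherian_isArtinian.mp h2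
  have h4 : Module.Finite k M := by
    have := h3.1
    infer_instance
  refine ⟨h4, ?_⟩
  have h5 := Module.length_eq_finrank k M
  rw [h] at h5
  exact_mod_cast h5.symm

section Global

variable {k : Type*} [Field k] {K : Type*} [Field K] [Algebra k K] [Algebra (RatFunc k) K]
  [IsScalarTower k (RatFunc k) K] [FiniteDimensional (RatFunc k) K]
  [Algebra.IsSeparable (RatFunc k) K]
  [Algebra k[X] K] [IsScalarTower k[X] (RatFunc k) K]
  (A₀ : Type*) [CommRing A₀] [IsDedekindDomain A₀] [Algebra k A₀] [Algebra A₀ K]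
  [IsScalarTower k A₀ K] [IsFractionRing A₀ K] [Algebra k[X] A₀]
  [IsScalarTower k[X] A₀ K] [IsIntegralClosure A₀ k[X] K]
  (A₁ : Type*) [CommRing A₁] [IsDedekindDomain A₁] [Algebra k A₁] [Algebra A₁ K]
  [IsScalarTower k A₁ K] [IsFractionRing A₁ K] [Algebra (Rinf k) A₁]
  [IsScalarTower (Rinf k) A₁ K] [IsIntegralClosure A₁ (Rinf k) K]

/-- dimension of `H^1` -/
noncomputable def hh1 (D : Pl k K →₀ ℤ) : ℕ := (h1 (NA A₀ D) (NA A₁ D)).toNat

theorem hh1_eq (D : Pl k K →₀ ℤ) : h1 (NA A₀ D) (NA A₁ D) = hh1 A₀ A₁ D := by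
  obtain ⟨_, ⟨n, hn⟩, _⟩ := duality_NA A₀ A₁ D
  unfold hh1
  rw [hn]; rfl

include A₀ A₁ in
theorem LD_finite (D : Pl k K →₀ ℤ) : Module.Finite k (LD D) := by
  obtain ⟨⟨n, hn⟩, _, _⟩ := duality_NA A₀ A₁ D
  rw [LD_eq A₀ A₁]
  exact (finite_of_length hn).1

theorem ell_eq (D : Pl k K →₀ ℤ) : h0 (NA A₀ D) (NA A₁ D) = ell D := by
  obtain ⟨⟨n, hn⟩, _, _⟩ := duality_NA A₀ A₁ D
  unfold ell
  rw [LD_eq A₀ A₁, (finite_of_length hn).2, hn]

theorem hh1_eq_ell (D : Pl k K →₀ ℤ) : hh1 A₀ A₁ D = ell (WD k K A₀ A₁ - D) := by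
  have h := (duality_NA A₀ A₁ D).2.2
  rw [hh1_eq, ell_eq] at h
  exact_mod_cast h

theorem chi_step_aux (a b c d : ℕ) (r : ℕ∞) (h : (a : ℕ∞) + b = c + d + r) :
    ∃ n : ℕ, r = n ∧ (a : ℤ) - d = c - b + n := by
  have hr : r ≠ ⊤ := by
    rintro rfl
    rw [add_top] at h
    exact ENat.natCast_ne_top (a + b) (by push_cast; exact h)
  obtain ⟨n, rfl⟩ := ENat.ne_top_iff_exists.mp hr
  refine ⟨n, rfl, ?_⟩
  have h' : a + b = c + d + n := by exact_mod_cast h
  omega

theorem chi_step (D : Pl k K →₀ ℤ) (P : Pl k K) :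
    degE P = degP P ∧
    (ell (D + Finsupp.single P 1) : ℤ) - hh1 A₀ A₁ (D + Finsupp.single P 1)
      = ell D - hh1 A₀ A₁ D + degP P := by
  have key : ∃ n : ℕ, degE P = n ∧
    (ell (D + Finsupp.single P 1) : ℤ) - hh1 A₀ A₁ (D + Finsupp.single P 1)
      = ell D - hh1 A₀ A₁ D + n := by
    rcases chart_cases A₀ A₁ P with ⟨w, rfl⟩ | ⟨w, rfl⟩
    · have e1 : NA A₁ (D + Finsupp.single (ofH w) 1) = NA A₁ D := by
        unfold NA
        rw [cut_add_single_of_ne]
        intro w'
        exact (ofH₀_ne_ofH₁ A₀ A₁ w w').symm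
      have e2 : NA A₀ (D + Finsupp.single (ofH w) 1)
          = fidS K k (cut A₀ D + Finsupp.single w 1) := by
        unfold NA
        rw [cut_add_single_ofH]
      have hle : fidS K k (cut A₀ D) ≤ fidS K k (cut A₀ D + Finsupp.single w 1) := by
        apply fidS_mono
        intro w'
        classical
        rw [Finsupp.add_apply, Finsupp.single_apply]
        split_ifs <;> omega
      have h := chi_index (NA A₁ D) hle
      rw [ri_fidS, ← degE_ofH (K := K) w, ← e2] at h
      have e3 : h0 (NA A₁ D) (NA A₀ (D + Finsupp.single (ofH w) 1))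
          = ell (D + Finsupp.single (ofH w) 1) := by
        rw [h0_comm, ← ell_eq A₀ A₁, e1]
      have e4 : h1 (NA A₁ D) (NA A₀ (D + Finsupp.single (ofH w) 1))
          = hh1 A₀ A₁ (D + Finsupp.single (ofH w) 1) := by
        rw [h1_comm, ← hh1_eq A₀ A₁, e1]
      have e5 : h0 (NA A₁ D) (fidS K k (cut A₀ D)) = ell D := by
        rw [h0_comm, ← ell_eq A₀ A₁]; rfl
      have e6 : h1 (NA A₁ D) (fidS K k (cut A₀ D)) = hh1 A₀ A₁ D := by
        rw [h1_comm, ← hh1_eq A₀ A₁]; rfl
      rw [e3, e4, e5, e6] at h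
      exact chi_step_aux _ _ _ _ _ h
    · have e1 : NA A₀ (D + Finsupp.single (ofH w) 1) = NA A₀ D := by
        unfold NA
        rw [cut_add_single_of_ne]
        intro w'
        exact (ofH₀_ne_ofH₁ A₀ A₁ w' w)
      have e2 : NA A₁ (D + Finsupp.single (ofH w) 1)
          = fidS K k (cut A₁ D + Finsupp.single w 1) := by
        unfold NA
        rw [cut_add_single_ofH]
      have hle : fidS K k (cut A₁ D) ≤ fidS K k (cut A₁ D + Finsupp.single w 1) := by
        apply fidS_mono
        intro w'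
        classical
        rw [Finsupp.add_apply, Finsupp.single_apply]
        split_ifs <;> omega
      have h := chi_index (NA A₀ D) hle
      rw [ri_fidS, ← degE_ofH (K := K) w, ← e2] at h
      have e3 : h0 (NA A₀ D) (NA A₁ (D + Finsupp.single (ofH w) 1))
          = ell (D + Finsupp.single (ofH w) 1) := by
        rw [← ell_eq A₀ A₁, e1]
      have e4 : h1 (NA A₀ D) (NA A₁ (D + Finsupp.single (ofH w) 1))
          = hh1 A₀ A₁ (D + Finsupp.single (ofH w) 1) := by
        rw [← hh1_eq A₀ A₁, e1]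
      have e5 : h0 (NA A₀ D) (fidS K k (cut A₁ D)) = ell D := by
        rw [← ell_eq A₀ A₁]; rfl
      have e6 : h1 (NA A₀ D) (fidS K k (cut A₁ D)) = hh1 A₀ A₁ D := by
        rw [← hh1_eq A₀ A₁]; rfl
      rw [e3, e4, e5, e6] at h
      exact chi_step_aux _ _ _ _ _ h
  obtain ⟨n, hn, h⟩ := key
  have hd : degP P = n := by
    unfold degP; rw [hn]; rfl
  exact ⟨by rw [hn, hd], by rw [h, hd]⟩

include A₀ A₁ in
theorem degE_eq (P : Pl k K) : degE P = degP P := (chi_step A₀ A₁ 0 P).1

include A₀ A₁ in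
theorem degP_pos (P : Pl k K) : 0 < degP P := by
  have h1 := degE_eq A₀ A₁ P
  have h2 := degE_pos P
  rw [h1] at h2
  have h3 : degP P ≠ 0 := by exact_mod_cast h2
  omega

theorem chi_eq (D : Pl k K →₀ ℤ) :
    (ell D : ℤ) - hh1 A₀ A₁ D = degD D + (ell (0 : Pl k K →₀ ℤ) - hh1 A₀ A₁ (0 : Pl k K →₀ ℤ)) := by
  classical
  -- general shift
  have hstep : ∀ (P : Pl k K) (n : ℤ) (D : Pl k K →₀ ℤ),
      (ell (D + Finsupp.single P n) : ℤ) - hh1 A₀ A₁ (D + Finsupp.single P n)
      = ell D - hh1 A₀ A₁ D + n * degP P := by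
    intro P n
    induction n using Int.induction_on with
    | zero => intro D; simp
    | succ i ih =>
      intro D
      have e : D + Finsupp.single P ((i : ℤ) + 1)
          = (D + Finsupp.single P (i : ℤ)) + Finsupp.single P 1 := by
        rw [add_assoc, ← Finsupp.single_add]
      rw [e, (chi_step A₀ A₁ _ P).2, ih D]
      ring
    | pred i ih =>
      intro D
      have e : D + Finsupp.single P (-(i : ℤ))
          = (D + Finsupp.single P (-(i : ℤ) - 1)) + Finsupp.single P 1 := by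
        rw [add_assoc, ← Finsupp.single_add]; simp
      have h1 := ih D
      rw [e, (chi_step A₀ A₁ _ P).2] at h1
      linarith
  induction D using Finsupp.induction with
  | zero => rw [degD_zero]; ring
  | single_add P n D _ _ ih =>
    rw [add_comm, hstep, ih, degD_add, degD_single]
    ring

/-- Riemann-Roch, Euler characteristic form -/
theorem rr_charts (D : Pl k K →₀ ℤ) :
    (ell D : ℤ) - ell (WD k K A₀ A₁ - D) =
      degD D + (ell (0 : Pl k K →₀ ℤ) - ell (WD k K A₀ A₁)) := by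
  have h := chi_eq A₀ A₁ D
  rw [hh1_eq_ell, hh1_eq_ell, sub_zero] at h
  exact h

end Global

end Crest.Agent.R013.RR10_948
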