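import Mathlib
import Crest.Agent.R013.RR1_948

-- ▼ part R013/RR2_948
section

/-!
# R013 / RR2: the projective line (helper948)

`vinf k` the valuation of `k(X)` at infinity, `Rinf k` its valuation ring, `polyS`, `infS m` the
`k`-subspaces `k[X]`, `X^m R` of `k(X)`; `h0 polyS (infS m) = (m+1)⁺`, `h1 polyS (infS m) = (-1-m)⁺`.
-/

set_option autoImplicit false

namespace Crest.Agent.R013.RR2_948

open Polynomial WithZero
open Crest.Agent.R013.RR1_948

section

theorem lt_exp_iff (a : ℤ) (x : ℤᵐ⁰) : x < exp a ↔ x ≤ exp (a - 1) := by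
  induction x using WithZero.expRecOn with
  | zero => simp
  | exp b =>
    rw [exp_lt_exp, exp_le_exp]; omega

theorem lt_one_iff (x : ℤᵐ⁰) : x < 1 ↔ x ≤ exp (-1) := by
  have := lt_exp_iff 0 x
  simpa using this

variable (k : Type*) [Field k]

/-- the valuation at infinity -/
noncomputable def vinf : Valuation (RatFunc k) ℤᵐ⁰ := by
  classical exact RatFunc.inftyValuation k

/-- the valuation ring at infinity -/
noncomputable def Rinf : ValuationSubring (RatFunc k) := (vinf k).valuationSubring

@[simp] theorem vinf_X : vinf k RatFunc.X = exp 1 := by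
  classical exact RatFunc.inftyValuation.X k

@[simp] theorem vinf_X_zpow (m : ℤ) : vinf k (RatFunc.X ^ m) = exp m := by
  classical exact RatFunc.inftyValuation.X_zpow k m

@[simp] theorem vinf_C {c : k} (hc : c ≠ 0) : vinf k (RatFunc.C c) = 1 := by
  classical exact RatFunc.inftyValuation.C k hc

theorem vinf_C_le (c : k) : vinf k (RatFunc.C c) ≤ 1 := by
  by_cases hc : c = 0
  · simp [hc]
  · rw [vinf_C k hc]

theorem vinf_poly {p : k[X]} (hp : p ≠ 0) :
    vinf k (algebraMap k[X] (RatFunc k) p) = exp (p.natDegree : ℤ) := by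
  classical exact RatFunc.inftyValuation.polynomial k hp

theorem vinf_poly_one_le {p : k[X]} (hp : p ≠ 0) :
    1 ≤ vinf k (algebraMap k[X] (RatFunc k) p) := by
  rw [vinf_poly k hp, ← exp_zero, exp_le_exp]; positivity

theorem vinf_exp {f : RatFunc k} (hf : f ≠ 0) : ∃ n : ℤ, vinf k f = exp n :=
  ⟨log (vinf k f), (exp_log ((_root_.map_ne_zero _).mpr hf)).symm⟩

instance : (vinf k).IsNontrivial := by
  classical exact (inferInstance : (RatFunc.inftyValuation k).IsNontrivial)

instance : IsDiscreteValuationRing (Rinf k) :=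
  (inferInstance : IsDiscreteValuationRing (vinf k).valuationSubring)

theorem mem_Rinf {f : RatFunc k} : f ∈ Rinf k ↔ vinf k f ≤ 1 := Iff.rfl

/-- polynomial part -/
theorem exists_poly_sub (f : RatFunc k) :
    ∃ p : k[X], vinf k (f - algebraMap k[X] (RatFunc k) p) < 1 := by
  refine ⟨f.num / f.denom, ?_⟩
  have hq : algebraMap k[X] (RatFunc k) f.denom ≠ 0 := by
    simpa using f.denom_ne_zero
  have h := EuclideanDomain.div_add_mod f.num f.denom
  have h2 : f - algebraMap k[X] (RatFunc k) (f.num / f.denom)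
      = algebraMap k[X] (RatFunc k) (f.num % f.denom) / algebraMap k[X] (RatFunc k) f.denom := by
    have h3 : algebraMap k[X] (RatFunc k) f.num / algebraMap k[X] (RatFunc k) f.denom = f :=
      RatFunc.num_div_denom f
    have h4 : f * algebraMap k[X] (RatFunc k) f.denom = algebraMap k[X] (RatFunc k) f.num :=
      ((div_eq_iff hq).mp h3).symm
    rw [eq_div_iff hq, sub_mul, h4]
    have h5 := congrArg (algebraMap k[X] (RatFunc k)) h
    simp only [map_add, map_mul] at h5
    rw [← h5]
    ring
  rw [h2, map_div₀]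
  by_cases h0 : f.num % f.denom = 0
  · rw [h0]; simp
  · have hd : (f.num % f.denom).degree < f.denom.degree := EuclideanDomain.mod_lt _ f.denom_ne_zero
    have hd' : (f.num % f.denom).natDegree < f.denom.natDegree :=
      Polynomial.natDegree_lt_natDegree h0 hd
    rw [vinf_poly k h0, vinf_poly k f.denom_ne_zero, ← exp_sub, ← exp_zero, exp_lt_exp]
    omega

theorem exists_C_sub {f : RatFunc k} (hf : vinf k f ≤ 1) :
    ∃ c : k, vinf k (f - RatFunc.C c) < 1 := by
  obtain ⟨p, hp⟩ := exists_poly_sub k f
  by_cases h0 : p = 0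
  · refine ⟨0, ?_⟩
    simpa [h0] using hp
  · have h1 : vinf k (algebraMap k[X] (RatFunc k) p) ≤ 1 := by
      have : algebraMap k[X] (RatFunc k) p = f - (f - algebraMap k[X] (RatFunc k) p) := by ring
      rw [this]
      exact (Valuation.map_sub _ _ _).trans (max_le hf hp.le)
    rw [vinf_poly k h0, ← exp_zero, exp_le_exp] at h1
    have h2 : p.natDegree = 0 := by omega
    refine ⟨p.coeff 0, ?_⟩
    rw [Polynomial.eq_C_of_natDegree_eq_zero h2, RatFunc.algebraMap_C] at hp
    exact hp

/-- `k[X]` as a `k`-subspace of `k(X)` -/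
noncomputable def polyS : Submodule k (RatFunc k) :=
  LinearMap.range (IsScalarTower.toAlgHom k k[X] (RatFunc k)).toLinearMap

theorem mem_polyS {f : RatFunc k} : f ∈ polyS k ↔ f ∈ Set.range (algebraMap k[X] (RatFunc k)) := by
  simp [polyS]

theorem algebraMap_eq_C (c : k) : algebraMap k (RatFunc k) c = RatFunc.C c := by
  rw [← RatFunc.algebraMap_C, IsScalarTower.algebraMap_apply k k[X] (RatFunc k)]
  rfl

/-- `X^m R` as a `k`-subspace of `k(X)` -/
noncomputable def infS (m : ℤ) : Submodule k (RatFunc k) where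
  carrier := {f | vinf k f ≤ exp m}
  add_mem' {a b} ha hb := by
    simp only [Set.mem_ofPred_eq] at ha hb ⊢
    exact (Valuation.map_add _ _ _).trans (max_le ha hb)
  zero_mem' := by simp
  smul_mem' c x hx := by
    simp only [Set.mem_ofPred_eq] at hx ⊢
    rw [Algebra.smul_def, map_mul, algebraMap_eq_C]
    calc vinf k (RatFunc.C c) * vinf k x ≤ 1 * exp m := mul_le_mul' (vinf_C_le k c) hx
      _ = exp m := one_mul _

theorem mem_infS {m : ℤ} {f : RatFunc k} : f ∈ infS k m ↔ vinf k f ≤ exp m := by
  rw [← SetLike.mem_coe]; simp [infS]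

theorem infS_mono {m n : ℤ} (h : m ≤ n) : infS k m ≤ infS k n := fun _ hf =>
  (mem_infS k).mpr (le_trans ((mem_infS k).mp hf) (exp_le_exp.mpr h))

theorem ri_infS (m : ℤ) : ri (infS k (m - 1)) (infS k m) = 1 := by
  unfold ri
  rw [← Module.length_eq_one k k]
  symm
  let f : k →ₗ[k] (infS k m ⧸ (infS k (m - 1)).submoduleOf (infS k m)) :=
    LinearMap.toSpanSingleton k _
      (Submodule.Quotient.mk ⟨RatFunc.X ^ m, by rw [mem_infS, vinf_X_zpow]⟩)
  refine LinearEquiv.length_eq (LinearEquiv.ofBijective f ⟨?_, ?_⟩)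
  · rw [← LinearMap.ker_eq_bot, LinearMap.ker_eq_bot']
    intro c hc
    by_contra hc0
    rw [LinearMap.toSpanSingleton_apply, ← Submodule.Quotient.mk_smul,
      Submodule.Quotient.mk_eq_zero, Submodule.submoduleOf, Submodule.mem_comap] at hc
    have hc' : vinf k (c • RatFunc.X ^ m) ≤ exp (m - 1) := (mem_infS k).mp hc
    rw [Algebra.smul_def, map_mul, algebraMap_eq_C, vinf_C k hc0, vinf_X_zpow, one_mul,
      exp_le_exp] at hc'
    omega
  · intro y
    obtain ⟨⟨y, hy⟩, rfl⟩ := Submodule.Quotient.mk_surjective _ y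
    have hX : (RatFunc.X : RatFunc k) ≠ 0 := RatFunc.X_ne_zero
    have h1 : vinf k (y * RatFunc.X ^ (-m)) ≤ 1 := by
      rw [map_mul, vinf_X_zpow]
      calc vinf k y * exp (-m) ≤ exp m * exp (-m) := mul_le_mul_left ((mem_infS k).mp hy) _
        _ = 1 := by rw [← exp_add]; simp
    obtain ⟨c, hc⟩ := exists_C_sub k h1
    refine ⟨c, ?_⟩
    simp only [f, LinearMap.toSpanSingleton_apply, ← Submodule.Quotient.mk_smul]
    rw [eq_comm, Submodule.Quotient.eq, Submodule.submoduleOf, Submodule.mem_comap]
    have goal : vinf k (y - c • RatFunc.X ^ m) ≤ exp (m - 1) := ?_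
    · exact (mem_infS k).mpr goal
    rw [← lt_exp_iff]
    have : y - c • RatFunc.X ^ m = (y * RatFunc.X ^ (-m) - RatFunc.C c) * RatFunc.X ^ m := by
      rw [Algebra.smul_def, algebraMap_eq_C, sub_mul, mul_assoc, ← zpow_add₀ hX]
      simp
    rw [this, map_mul, vinf_X_zpow]
    calc _ < 1 * exp m := mul_lt_mul_of_pos_right hc (by simp)
      _ = exp m := one_mul _

theorem h0_base : h0 (polyS k) (infS k (-1)) = 0 := by
  unfold h0
  rw [Module.length_eq_zero_iff]
  have : polyS k ⊓ infS k (-1) = ⊥ := by
    rw [eq_bot_iff]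
    rintro f ⟨hf, hf'⟩
    obtain ⟨p, rfl⟩ := (mem_polyS k).mp hf
    by_contra hp
    have hp0 : p ≠ 0 := by
      rintro rfl; apply hp; simp
    have h1 := vinf_poly_one_le k hp0
    have h2 := (lt_one_iff _).mpr ((mem_infS k).mp hf')
    exact absurd h1 (not_le.mpr h2)
  rw [this]
  infer_instance

theorem h1_base : h1 (polyS k) (infS k (-1)) = 0 := by
  unfold h1
  rw [Module.length_eq_zero_iff]
  have : polyS k ⊔ infS k (-1) = ⊤ := by
    rw [eq_top_iff]
    intro f _
    obtain ⟨p, hp⟩ := exists_poly_sub k f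
    have : f = algebraMap k[X] (RatFunc k) p + (f - algebraMap k[X] (RatFunc k) p) := by ring
    rw [this]
    exact Submodule.add_mem_sup ((mem_polyS k).mpr ⟨p, rfl⟩)
      ((mem_infS k).mpr ((lt_one_iff _).mp hp))
  rw [this]
  exact Submodule.Quotient.subsingleton_iff.mpr rfl

theorem h1_ge (m : ℤ) (hm : -1 ≤ m) : h1 (polyS k) (infS k m) = 0 := by
  have := h1_anti (polyS k) (infS_mono k hm)
  rw [h1_base] at this
  exact le_antisymm this bot_le

theorem h0_le (m : ℤ) (hm : m ≤ -1) : h0 (polyS k) (infS k m) = 0 := by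
  have := h0_mono (polyS k) (infS_mono k hm)
  rw [h0_base] at this
  exact le_antisymm this bot_le

theorem h0_infS (m : ℤ) : h0 (polyS k) (infS k m) = ((m + 1).toNat : ℕ∞) := by
  rcases le_total m (-1) with hm | hm
  · rw [h0_le k m hm]
    have : (m + 1).toNat = 0 := by omega
    rw [this]; rfl
  · induction m, hm using Int.leInduction with
    | base => rw [h0_base]; rfl
    | succ m hm ih =>
      have h := chi_index (polyS k) (infS_mono k (show m ≤ m + 1 by omega))
      have h2 := ri_infS k (m + 1)
      rw [add_sub_cancel_right] at h2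
      rw [h1_ge k m hm, h1_ge k (m+1) (by omega), h2, ih, add_zero, add_zero] at h
      rw [h]
      have : (m + 1 + 1).toNat = (m + 1).toNat + 1 := by omega
      rw [this]; push_cast; rfl

theorem h1_infS (m : ℤ) : h1 (polyS k) (infS k m) = ((-1 - m).toNat : ℕ∞) := by
  rcases le_total (-1) m with hm | hm
  · rw [h1_ge k m hm]
    have : (-1 - m).toNat = 0 := by omega
    rw [this]; rfl
  · induction m, hm using Int.leInductionDown with
    | base => rw [h1_base]; rfl
    | pred m hm ih =>
      have h := chi_index (polyS k) (infS_mono k (show m - 1 ≤ m by omega))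
      have h2 := ri_infS k m
      rw [h0_le k m hm, h0_le k (m-1) (by omega), h2, ih, zero_add, zero_add] at h
      rw [h]
      have : (-1 - (m - 1)).toNat = (-1 - m).toNat + 1 := by omega
      rw [this]; push_cast; rfl

end

end Crest.Agent.R013.RR2_948
end

-- ▼ part R013/RR3_948
section

/-!
# R013 / RR3: Birkhoff-Grothendieck reduced bases (helper948)
-/

set_option autoImplicit false

namespace Crest.Agent.R013.RR3_948

open Polynomial WithZero Module
open Crest.Agent.R013.RR1_948 Crest.Agent.R013.RR2_948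

section Pi

variable {k : Type*} [Field k] {ι : Type*} [Fintype ι] [DecidableEq ι]
  {Ms : ι → Type*} [∀ i, AddCommGroup (Ms i)] [∀ i, Module k (Ms i)]

theorem h1_pi (P Q : ∀ i, Submodule k (Ms i)) :
    h1 (Submodule.pi Set.univ P) (Submodule.pi Set.univ Q) = ∑ i, h1 (P i) (Q i) := by
  unfold h1
  have : Submodule.pi Set.univ P ⊔ Submodule.pi Set.univ Q
      = Submodule.pi Set.univ (fun i => P i ⊔ Q i) := by
    ext x
    simp only [Submodule.mem_sup, Submodule.mem_pi, Set.mem_univ, true_implies]
    constructor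
    · rintro ⟨y, hy, z, hz, rfl⟩ i
      exact ⟨y i, hy i, z i, hz i, rfl⟩
    · intro h
      choose y hy z hz hyz using h
      exact ⟨y, hy, z, hz, funext hyz⟩
  rw [this, ← Module.length_pi_of_fintype]
  exact LinearEquiv.length_eq (Submodule.quotientPi _)

theorem h0_pi (P Q : ∀ i, Submodule k (Ms i)) :
    h0 (Submodule.pi Set.univ P) (Submodule.pi Set.univ Q) = ∑ i, h0 (P i) (Q i) := by
  unfold h0
  rw [← Module.length_pi_of_fintype]
  symm
  let f : (∀ i, (P i ⊓ Q i : Submodule k (Ms i))) →ₗ[k] (∀ i, Ms i) :=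
    LinearMap.pi fun i => (Submodule.subtype _).comp (LinearMap.proj i)
  have hf : Function.Injective f := by
    intro x y hxy
    funext i
    apply Subtype.ext
    exact congrFun hxy i
  have hr : LinearMap.range f = (Submodule.pi Set.univ P ⊓ Submodule.pi Set.univ Q) := by
    ext x
    simp only [LinearMap.mem_range, Submodule.mem_inf, Submodule.mem_pi, Set.mem_univ, true_implies]
    constructor
    · rintro ⟨y, rfl⟩
      exact ⟨fun i => (y i).2.1, fun i => (y i).2.2⟩
    · rintro ⟨h1, h2⟩
      exact ⟨fun i => ⟨x i, h1 i, h2 i⟩, rfl⟩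
  rw [← hr]
  exact LinearEquiv.length_eq (LinearEquiv.ofInjective f hf)

end Pi

section BG

variable {k : Type*} [Field k] {ι : Type*} [Fintype ι] [DecidableEq ι]

theorem det_bound (B : Matrix ι ι (RatFunc k)) (d : ι → ℤ)
    (h : ∀ i j, vinf k (B i j) ≤ exp (d j)) : vinf k B.det ≤ exp (∑ j, d j) := by
  rw [Matrix.det_apply]
  refine Valuation.map_sum_le _ fun σ _ => ?_
  have h1 : vinf k ((Equiv.Perm.sign σ) • ∏ i, B (σ i) i) = vinf k (∏ i, B (σ i) i) := by
    rcases Int.units_eq_one_or (Equiv.Perm.sign σ) with h | h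
    · rw [h, one_smul]
    · rw [h, Units.neg_smul, one_smul, Valuation.map_neg]
  rw [h1, map_prod]
  have h2 : exp (∑ j, d j) = ∏ j, exp (d j) := by
    induction (Finset.univ : Finset ι) using Finset.induction_on with
    | empty => simp
    | insert a s ha ih => rw [Finset.sum_insert ha, Finset.prod_insert ha, exp_add, ih]
  rw [h2]
  exact Finset.prod_le_prod' fun i _ => h (σ i) i

/-- a family spanning the same `k[X]`-module as a basis is a basis -/
theorem exists_basis_of_span {V : Type*} [AddCommGroup V] [Module (RatFunc k) V] [Module k[X] V]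
    [IsScalarTower k[X] (RatFunc k) V] (b0 : Basis ι (RatFunc k) V) (b : ι → V)
    (h : Submodule.span k[X] (Set.range b) = Submodule.span k[X] (Set.range b0)) :
    ∃ b' : Basis ι (RatFunc k) V, ⇑b' = b := by
  have h1 : ⊤ ≤ Submodule.span (RatFunc k) (Set.range b) := by
    rw [← b0.span_eq, Submodule.span_le]
    rintro _ ⟨i, rfl⟩
    have : b0 i ∈ Submodule.span k[X] (Set.range b) := by
      rw [h]; exact Submodule.subset_span ⟨i, rfl⟩
    exact Submodule.span_le_restrictScalars k[X] (RatFunc k) _ this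
  exact ⟨basisOfTopLeSpanOfCardEqFinrank b h1 (Module.finrank_eq_card_basis b0).symm, by simp⟩

theorem exists_reduced {V : Type*} [AddCommGroup V] [Module (RatFunc k) V] [Module k[X] V]
    [IsScalarTower k[X] (RatFunc k) V] (b0 c : Basis ι (RatFunc k) V) :
    ∃ (b : Basis ι (RatFunc k) V) (d : ι → ℤ),
      Submodule.span k[X] (Set.range b) = Submodule.span k[X] (Set.range b0) ∧
      (∀ j i, vinf k (c.repr (b j) i) ≤ exp (d j)) ∧
      vinf k (c.toMatrix b).det = exp (∑ j, d j) := by
  classical
  have : Module.IsTorsionFree k[X] (RatFunc k) := inferInstance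
  let P : ℤ → Prop := fun s => ∃ (b : ι → V) (d : ι → ℤ),
      Submodule.span k[X] (Set.range b) = Submodule.span k[X] (Set.range b0) ∧
      (∀ j i, vinf k (c.repr (b j) i) ≤ exp (d j)) ∧ s = ∑ j, d j
  -- det of a basis
  have hdet : ∀ b : Basis ι (RatFunc k) V, (c.toMatrix b).det ≠ 0 := by
    intro b
    have h := c.toMatrix_mul_toMatrix_flip b
    intro h0
    have h1 := congrArg Matrix.det h
    rw [Matrix.det_mul, h0, zero_mul, Matrix.det_one] at h1
    exact zero_ne_one h1
  have hbdd : ∃ b, ∀ z, P z → b ≤ z := by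
    obtain ⟨D, hD⟩ := vinf_exp k (hdet b0)
    refine ⟨D, ?_⟩
    rintro _ ⟨b, d, hb, hd, rfl⟩
    obtain ⟨b, rfl⟩ := exists_basis_of_span b0 b hb
    have h1 : vinf k (c.toMatrix b).det ≤ exp (∑ j, d j) :=
      det_bound _ d (fun i j => hd j i)
    have h2 : c.toMatrix b = c.toMatrix b0 * b0.toMatrix b :=
      (c.toMatrix_mul_toMatrix b0 b).symm
    have h3 : ∀ i j, ∃ p : k[X], algebraMap k[X] (RatFunc k) p = b0.toMatrix b i j := by
      intro i j
      have : b j ∈ Submodule.span k[X] (Set.range b0) := by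
        rw [← hb]; exact Submodule.subset_span ⟨j, rfl⟩
      exact (b0.mem_span_iff_repr_mem k[X] _).mp this i
    choose p hp using h3
    have h4 : b0.toMatrix b = (algebraMap k[X] (RatFunc k)).mapMatrix (Matrix.of p) := by
      ext i j; simp [hp]
    have h5 : (b0.toMatrix b).det = algebraMap k[X] (RatFunc k) (Matrix.of p).det := by
      rw [h4, ← RingHom.map_det]
    have h6 : (Matrix.of p).det ≠ 0 := by
      intro h0
      rw [h0, map_zero] at h5
      apply hdet b
      rw [h2, Matrix.det_mul, h5, mul_zero]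
    have h7 : exp D ≤ vinf k (c.toMatrix b).det := by
      rw [h2, Matrix.det_mul, h5, map_mul, hD]
      calc exp D = exp D * 1 := (mul_one _).symm
        _ ≤ _ := mul_le_mul_right (vinf_poly_one_le k h6) _
    exact exp_le_exp.mp (h7.trans h1)
  have hne : ∃ z, P z := by
    have h1 : ∀ j, ∃ n : ℤ, ∀ i, vinf k (c.repr (b0 j) i) ≤ exp n := by
      intro j
      have h2 : ∀ i, ∃ n : ℤ, vinf k (c.repr (b0 j) i) ≤ exp n := by
        intro i
        exact ⟨_, le_exp_log⟩
      choose n hn using h2
      refine ⟨∑ i, |n i|, fun i => (hn i).trans (exp_le_exp.mpr ?_)⟩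
      exact (le_abs_self _).trans
        (Finset.single_le_sum (f := fun i => |n i|) (fun i _ => abs_nonneg _) (Finset.mem_univ i))
    choose d hd using h1
    exact ⟨_, b0, d, rfl, hd, rfl⟩
  obtain ⟨s, ⟨b, d, hb, hd, rfl⟩, hmin⟩ := Int.exists_least_of_bdd hbdd hne
  obtain ⟨b, rfl⟩ := exists_basis_of_span b0 b hb
  refine ⟨b, d, hb, hd, ?_⟩
  have hle : vinf k (c.toMatrix b).det ≤ exp (∑ j, d j) :=
      det_bound _ d (fun i j => hd j i)
  refine le_antisymm hle (not_lt.mp fun hlt => ?_)
  -- the scaled matrix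
  have hX : (RatFunc.X : RatFunc k) ≠ 0 := RatFunc.X_ne_zero
  have hC : ∀ i j, c.repr (b j) i * RatFunc.X ^ (-d j) ∈ Rinf k := by
    intro i j
    rw [mem_Rinf, map_mul, vinf_X_zpow]
    calc _ ≤ exp (d j) * exp (-d j) := mul_le_mul_left (hd j i) _
      _ = 1 := by rw [← exp_add]; simp
  let C : Matrix ι ι (Rinf k) := Matrix.of fun i j => ⟨_, hC i j⟩
  have hCmap : (algebraMap (Rinf k) (RatFunc k)).mapMatrix C
      = c.toMatrix b * Matrix.diagonal (fun j => (RatFunc.X : RatFunc k) ^ (-d j)) := by
    ext i j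
    rw [Matrix.mul_diagonal]
    rfl
  have hdetC : vinf k (C.det : RatFunc k) < 1 := by
    have h1 : (C.det : RatFunc k) = (c.toMatrix b).det * ∏ j, (RatFunc.X : RatFunc k) ^ (-d j) := by
      rw [← Matrix.det_diagonal, ← Matrix.det_mul, ← hCmap, ← RingHom.map_det]
      rfl
    rw [h1, map_mul, map_prod]
    have h2 : ∀ s : Finset ι, ∏ j ∈ s, vinf k ((RatFunc.X : RatFunc k) ^ (-d j))
        = exp (-∑ j ∈ s, d j) := by
      intro s
      induction s using Finset.induction_on with
      | empty => simp
      | insert a s ha ih =>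
        rw [Finset.sum_insert ha, Finset.prod_insert ha, neg_add, exp_add, ih, vinf_X_zpow]
    rw [h2]
    calc _ < exp (∑ j, d j) * exp (-∑ j, d j) := mul_lt_mul_of_pos_right hlt (by simp)
      _ = 1 := by rw [← exp_add]; simp
  have hmem : C.det ∈ IsLocalRing.maximalIdeal (Rinf k) := by
    rw [IsLocalRing.mem_maximalIdeal, mem_nonunits_iff]
    intro hu
    obtain ⟨u, hu⟩ := hu
    have h1 : vinf k ((C.det : Rinf k) : RatFunc k) * vinf k ((↑(u⁻¹) : Rinf k) : RatFunc k) = 1 := by
      rw [← map_mul, ← hu]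
      have h2 : ((u : Rinf k) : RatFunc k) * ((↑(u⁻¹) : Rinf k) : RatFunc k) = 1 := by
        have := congrArg (Subtype.val) (u.mul_inv)
        exact this
      rw [h2, map_one]
    have h3 : vinf k ((↑(u⁻¹) : Rinf k) : RatFunc k) ≤ 1 := (↑(u⁻¹) : Rinf k).2
    have h4 : vinf k ((C.det : Rinf k) : RatFunc k) * vinf k ((↑(u⁻¹) : Rinf k) : RatFunc k) < 1 := by
      calc _ ≤ vinf k ((C.det : Rinf k) : RatFunc k) * 1 := mul_le_mul_right h3 _
        _ < 1 := by rwa [mul_one]
    exact absurd h1 h4.ne
  let κ := IsLocalRing.ResidueField (Rinf k)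
  have hdet0 : ((IsLocalRing.residue (Rinf k)).mapMatrix C).det = 0 := by
    rw [← RingHom.map_det]
    exact (IsLocalRing.residue_eq_zero_iff _).mpr hmem
  obtain ⟨w, hw0, hw⟩ := Matrix.exists_mulVec_eq_zero_iff.mpr hdet0
  -- lift w to constants
  have hCmemR : ∀ a : k, RatFunc.C a ∈ Rinf k := fun a => (mem_Rinf k).mpr (vinf_C_le k a)
  have hlift : ∀ x : κ, ∃ a : k, IsLocalRing.residue (Rinf k) ⟨RatFunc.C a, hCmemR a⟩ = x ∧
      (x = 0 → a = 0) := by
    intro x
    by_cases hx : x = 0
    · refine ⟨0, ?_, fun _ => rfl⟩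
      rw [hx, IsLocalRing.residue_eq_zero_iff]
      have : (⟨RatFunc.C 0, hCmemR 0⟩ : Rinf k) = 0 := Subtype.ext (by simp)
      rw [this]
      exact Submodule.zero_mem _
    · obtain ⟨r, rfl⟩ := IsLocalRing.residue_surjective x
      obtain ⟨a, ha⟩ := exists_C_sub k (f := (r : RatFunc k)) r.2
      refine ⟨a, ?_, fun h => absurd h hx⟩
      rw [eq_comm, ← sub_eq_zero, ← map_sub, IsLocalRing.residue_eq_zero_iff]
      have key : ∀ s : Rinf k, vinf k (s : RatFunc k) < 1 → s ∈ IsLocalRing.maximalIdeal (Rinf k) := by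
        intro s hs
        rw [IsLocalRing.mem_maximalIdeal, mem_nonunits_iff]
        rintro ⟨u, hu⟩
        have h1 : vinf k (s : RatFunc k) * vinf k ((↑(u⁻¹) : Rinf k) : RatFunc k) = 1 := by
          rw [← map_mul, ← hu]
          have h2 : ((u : Rinf k) : RatFunc k) * ((↑(u⁻¹) : Rinf k) : RatFunc k) = 1 := by
            have := congrArg (Subtype.val) (u.mul_inv)
            exact this
          rw [h2, map_one]
        have h3 : vinf k ((↑(u⁻¹) : Rinf k) : RatFunc k) ≤ 1 := (↑(u⁻¹) : Rinf k).2
        have h4 : vinf k (s : RatFunc k) * vinf k ((↑(u⁻¹) : Rinf k) : RatFunc k) < 1 := by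
          calc _ ≤ vinf k (s : RatFunc k) * 1 := mul_le_mul_right h3 _
            _ < 1 := by rwa [mul_one]
        exact absurd h1 h4.ne
      apply key
      exact ha
  choose lam hlam hlam0 using hlift
  let a : ι → k := fun j => lam (w j)
  have ha0 : ∃ j, a j ≠ 0 := by
    by_contra hcon
    push Not at hcon
    apply hw0
    funext j
    have h1 := hlam (w j)
    have h2 : lam (w j) = 0 := hcon j
    rw [← h1, Pi.zero_apply, IsLocalRing.residue_eq_zero_iff]
    have : (⟨RatFunc.C (lam (w j)), hCmemR _⟩ : Rinf k) = 0 := Subtype.ext (by simp [h2])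
    rw [this]
    exact Submodule.zero_mem _
  -- the relation
  have hrel : ∀ i, vinf k (∑ j, c.repr (b j) i * RatFunc.X ^ (-d j) * RatFunc.C (a j)) < 1 := by
    intro i
    have h1 := congrFun hw i
    simp only [Matrix.mulVec, dotProduct, RingHom.mapMatrix_apply, Matrix.map_apply,
      Pi.zero_apply] at h1
    have h2 : IsLocalRing.residue (Rinf k) (∑ j, C i j * ⟨RatFunc.C (a j), hCmemR _⟩) = 0 := by
      rw [map_sum, ← h1]
      refine Finset.sum_congr rfl fun j _ => ?_
      rw [map_mul, hlam]
    rw [IsLocalRing.residue_eq_zero_iff, IsLocalRing.mem_maximalIdeal, mem_nonunits_iff] at h2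
    have h3 : ((∑ j, C i j * ⟨RatFunc.C (a j), hCmemR _⟩ : Rinf k) : RatFunc k)
        = ∑ j, c.repr (b j) i * RatFunc.X ^ (-d j) * RatFunc.C (a j) := by
      push_cast
      rfl
    rw [← h3]
    rcases lt_or_eq_of_le ((mem_Rinf k).mp (∑ j, C i j * ⟨RatFunc.C (a j), hCmemR _⟩ : Rinf k).2) with h4 | h4
    · exact h4
    · exfalso
      apply h2
      set S := (∑ j, C i j * ⟨RatFunc.C (a j), hCmemR _⟩ : Rinf k)
      have h5 : vinf k (S : RatFunc k) = 1 := h4
      have h6 : (S : RatFunc k) ≠ 0 := by
        intro h0; rw [h0, map_zero] at h5; exact zero_ne_one h5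
      have h7 : (S : RatFunc k)⁻¹ ∈ Rinf k := by
        rw [mem_Rinf, map_inv₀, h5, inv_one]
      exact IsUnit.of_mul_eq_one ⟨(S : RatFunc k)⁻¹, h7⟩ (Subtype.ext (mul_inv_cancel₀ h6))
  -- the maximal degree among the support
  have hTne : (Finset.univ.filter fun j => a j ≠ 0).Nonempty := by
    obtain ⟨j, hj⟩ := ha0
    exact ⟨j, by simp [hj]⟩
  obtain ⟨j0, hj0, hmax⟩ := Finset.exists_max_image (Finset.univ.filter fun j => a j ≠ 0) d hTne
  simp only [Finset.mem_filter, Finset.mem_univ, true_and] at hj0 hmax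
  let coef : ι → k[X] := fun j => Polynomial.C (a j) * Polynomial.X ^ (d j0 - d j).toNat
  have hcoef : ∀ j, algebraMap k[X] (RatFunc k) (coef j)
      = RatFunc.C (a j) * RatFunc.X ^ (d j0 - d j) := by
    intro j
    by_cases haj : a j = 0
    · simp [coef, haj]
    · have h1 : ((d j0 - d j).toNat : ℤ) = d j0 - d j := Int.toNat_of_nonneg (by
        have := hmax j haj; omega)
      simp only [coef, map_mul, map_pow, RatFunc.algebraMap_C, RatFunc.algebraMap_X]
      conv_rhs => rw [← h1, zpow_natCast]
  let v' : V := ∑ j, coef j • b j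
  let b' : ι → V := Function.update b j0 v'
  let d' : ι → ℤ := Function.update d j0 (d j0 - 1)
  have hcj0 : coef j0 = Polynomial.C (a j0) := by simp [coef]
  have hspan : Submodule.span k[X] (Set.range b') = Submodule.span k[X] (Set.range b) := by
    apply le_antisymm
    · rw [Submodule.span_le]
      rintro _ ⟨j, rfl⟩
      by_cases hj : j = j0
      · subst hj
        simp only [b', Function.update_self, v']
        exact Submodule.sum_mem _ fun i _ => Submodule.smul_mem _ _ (Submodule.subset_span ⟨i, rfl⟩)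
      · simp only [b', Function.update_of_ne hj]
        exact Submodule.subset_span ⟨j, rfl⟩
    · rw [Submodule.span_le]
      have hne : ∀ j, j ≠ j0 → b j ∈ Submodule.span k[X] (Set.range b') := by
        intro j hj
        have : b j = b' j := by simp only [b', Function.update_of_ne hj]
        rw [this]
        exact Submodule.subset_span ⟨j, rfl⟩
      rintro _ ⟨j, rfl⟩
      by_cases hj : j = j0
      · subst hj
        have h1 : v' ∈ Submodule.span k[X] (Set.range b') := by
          have : v' = b' j := by simp only [b', Function.update_self]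
          rw [this]
          exact Submodule.subset_span ⟨j, rfl⟩
        have h2 : v' = coef j • b j + ∑ i ∈ Finset.univ.erase j, coef i • b i := by
          simp only [v']
          exact (Finset.add_sum_erase _ (fun i => coef i • b i) (Finset.mem_univ j)).symm
        have h3 : b j = Polynomial.C (a j)⁻¹ • (v' - ∑ i ∈ Finset.univ.erase j, coef i • b i) := by
          rw [h2, add_sub_cancel_right, hcj0, smul_smul, ← Polynomial.C_mul, inv_mul_cancel₀ hj0,
            Polynomial.C_1, one_smul]
        show b j ∈ _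
        rw [h3]
        refine Submodule.smul_mem _ _ (Submodule.sub_mem _ h1 (Submodule.sum_mem _ fun i hi => ?_))
        exact Submodule.smul_mem _ _ (hne i (Finset.ne_of_mem_erase hi))
      · exact hne j hj
  have hbound : ∀ j i, vinf k (c.repr (b' j) i) ≤ exp (d' j) := by
    intro j i
    by_cases hj : j = j0
    · subst hj
      simp only [b', d', Function.update_self]
      rw [← lt_exp_iff]
      have h1 : c.repr v' i
          = (∑ l, c.repr (b l) i * RatFunc.X ^ (-d l) * RatFunc.C (a l)) * RatFunc.X ^ (d j) := by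
        simp only [v']
        rw [map_sum, Finsupp.finsetSum_apply, Finset.sum_mul]
        refine Finset.sum_congr rfl fun l _ => ?_
        rw [← algebraMap_smul (RatFunc k) (coef l) (b l), map_smul, Finsupp.smul_apply, hcoef,
          smul_eq_mul, sub_eq_add_neg, zpow_add₀ hX]
        ring
      rw [h1, map_mul, vinf_X_zpow]
      calc _ < 1 * exp (d j) := mul_lt_mul_of_pos_right (hrel i) (by simp)
        _ = exp (d j) := one_mul _
    · simp only [b', d', Function.update_of_ne hj]
      exact hd j i
  have hsum : ∑ j, d' j = ∑ j, d j - 1 := by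
    simp only [d']
    rw [Finset.sum_update_of_mem (Finset.mem_univ j0)]
    rw [← Finset.add_sum_erase Finset.univ d (Finset.mem_univ j0), Finset.sdiff_singleton_eq_erase]
    ring
  have := hmin _ ⟨b', d', hspan.trans hb, hbound, rfl⟩
  omega

end BG

end Crest.Agent.R013.RR3_948
end

-- ▼ part R013/RR4_948
section

/-!
# R013 / RR4: Dedekind pieces (helper948)

`O` a Dedekind domain with fraction field `K`; `fid D = ∏ v^(-D v)`;
`x ∈ fid D ↔ ∀ v, v(x) ≤ exp (D v)`; `fid (D + v) / fid D ≃ O / v`; trace dual.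
-/

set_option autoImplicit false

namespace Crest.Agent.R013.RR4_948

open WithZero Module IsDedekindDomain nonZeroDivisors
open Crest.Agent.R013.RR1_948 Crest.Agent.R013.RR2_948 Crest.Agent.R013.RR3_948

section Dedekind

variable {O : Type*} [CommRing O] [IsDedekindDomain O] (K : Type*) [Field K] [Algebra O K]
  [IsFractionRing O K]

/-- the fractional ideal of a divisor: functions with poles bounded by `D` -/
noncomputable def fid (D : HeightOneSpectrum O →₀ ℤ) : FractionalIdeal O⁰ K :=
  (-D).prod fun v n => (v.asIdeal : FractionalIdeal O⁰ K) ^ n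

theorem count_fid (D : HeightOneSpectrum O →₀ ℤ) (v : HeightOneSpectrum O) :
    FractionalIdeal.count K v (fid K D) = -D v := by
  unfold fid
  rw [FractionalIdeal.count_finsuppProd]
  rfl

theorem fid_ne_zero (D : HeightOneSpectrum O →₀ ℤ) : fid K D ≠ 0 := by
  unfold fid Finsupp.prod
  refine Finset.prod_ne_zero_iff.mpr fun v _ => zpow_ne_zero _ ?_
  exact FractionalIdeal.coeIdeal_ne_zero.mpr v.ne_bot

theorem le_one_of_count_nonneg {I : FractionalIdeal O⁰ K} (hI : I ≠ 0)
    (h : ∀ v, 0 ≤ FractionalIdeal.count K v I) : I ≤ 1 := by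
  rw [← FractionalIdeal.finprod_heightOneSpectrum_factorization' K hI]
  apply finprod_induction (p := fun J : FractionalIdeal O⁰ K => J ≤ 1)
  · exact le_refl _
  · intro x y hx hy
    calc x * y ≤ 1 * 1 := mul_le_mul' hx hy
      _ = 1 := one_mul 1
  · intro v
    obtain ⟨n, hn⟩ := Int.eq_ofNat_of_zero_le (h v)
    rw [hn, zpow_natCast, ← FractionalIdeal.coeIdeal_pow]
    exact FractionalIdeal.coeIdeal_le_one

theorem le_iff_count {I J : FractionalIdeal O⁰ K} (hI : I ≠ 0) (hJ : J ≠ 0) :
    I ≤ J ↔ ∀ v, FractionalIdeal.count K v J ≤ FractionalIdeal.count K v I := by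
  constructor
  · intro h v
    exact FractionalIdeal.count_mono K v hI h
  · intro h
    have h1 : I * J⁻¹ ≤ 1 := by
      refine le_one_of_count_nonneg K (mul_ne_zero hI (inv_ne_zero hJ)) fun v => ?_
      rw [FractionalIdeal.count_mul K v hI (inv_ne_zero hJ), FractionalIdeal.count_inv]
      have := h v
      omega
    have h2 := mul_le_mul_left h1 J
    rwa [mul_assoc, inv_mul_cancel₀ hJ, mul_one, one_mul] at h2

theorem eq_of_count {I J : FractionalIdeal O⁰ K} (hI : I ≠ 0) (hJ : J ≠ 0)
    (h : ∀ v, FractionalIdeal.count K v I = FractionalIdeal.count K v J) : I = J :=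
  le_antisymm ((le_iff_count K hI hJ).mpr fun v => (h v).ge)
    ((le_iff_count K hJ hI).mpr fun v => (h v).le)

theorem valuation_eq_count {x : K} (hx : x ≠ 0) (v : HeightOneSpectrum O) :
    v.valuation K x = exp (-FractionalIdeal.count K v (FractionalIdeal.spanSingleton O⁰ x)) := by
  classical
  obtain ⟨a, b, hb, rfl⟩ := IsFractionRing.div_surjective (A := O) x
  have hb0 : b ≠ 0 := nonZeroDivisors.ne_zero hb
  have hb1 : algebraMap O K b ≠ 0 := by
    simpa using hb0
  have ha0 : a ≠ 0 := by
    rintro rfl; simp at hx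
  have ha1 : algebraMap O K a ≠ 0 := by
    simpa using ha0
  have key : ∀ c : O, c ≠ 0 → v.valuation K (algebraMap O K c)
      = exp (-FractionalIdeal.count K v (FractionalIdeal.spanSingleton O⁰ (algebraMap O K c))) := by
    intro c hc
    rw [HeightOneSpectrum.valuation_of_algebraMap, HeightOneSpectrum.intValuation_if_neg v hc,
      ← FractionalIdeal.coeIdeal_span_singleton, FractionalIdeal.count_coe]
    simpa using hc
  have h1 : FractionalIdeal.spanSingleton O⁰ (algebraMap O K a / algebraMap O K b)
      = FractionalIdeal.spanSingleton O⁰ (algebraMap O K a) *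
        (FractionalIdeal.spanSingleton O⁰ (algebraMap O K b))⁻¹ := by
    rw [FractionalIdeal.spanSingleton_inv, FractionalIdeal.spanSingleton_mul_spanSingleton,
      div_eq_mul_inv]
  rw [map_div₀, key a ha0, key b hb0, h1, FractionalIdeal.count_mul, FractionalIdeal.count_inv,
    ← exp_sub]
  · congr 1; ring
  · exact FractionalIdeal.spanSingleton_ne_zero_iff.mpr ha1
  · exact inv_ne_zero (FractionalIdeal.spanSingleton_ne_zero_iff.mpr hb1)

theorem mem_fid {D : HeightOneSpectrum O →₀ ℤ} {x : K} :
    x ∈ fid K D ↔ ∀ v : HeightOneSpectrum O, v.valuation K x ≤ exp (D v) := by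
  by_cases hx : x = 0
  · subst hx
    simp [(fid K D).zero_mem]
  · have hx' : FractionalIdeal.spanSingleton O⁰ x ≠ 0 :=
      FractionalIdeal.spanSingleton_ne_zero_iff.mpr hx
    rw [← FractionalIdeal.spanSingleton_le_iff_mem, le_iff_count K hx' (fid_ne_zero K D)]
    refine forall_congr' fun v => ?_
    rw [valuation_eq_count K hx, exp_le_exp, count_fid]
    constructor <;> intro h <;> omega

theorem fid_zero : fid K (0 : HeightOneSpectrum O →₀ ℤ) = 1 := by
  simp [fid]

theorem fid_mono {D D' : HeightOneSpectrum O →₀ ℤ} (h : D ≤ D') : fid K D ≤ fid K D' := by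
  rw [le_iff_count K (fid_ne_zero K D) (fid_ne_zero K D')]
  intro v
  rw [count_fid, count_fid]
  have := h v
  omega

/-- finite support of the divisor of a function -/
theorem finite_valuation_ne_one {x : K} (hx : x ≠ 0) :
    {v : HeightOneSpectrum O | v.valuation K x ≠ 1}.Finite := by
  have h := FractionalIdeal.finite_factors (K := K) (FractionalIdeal.spanSingleton O⁰ x)
  rw [Filter.eventually_cofinite] at h
  refine h.subset ?_
  intro v hv
  simp only [Set.mem_ofPred_eq] at hv ⊢
  intro h0
  apply hv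
  rw [valuation_eq_count K hx, h0]
  simp

variable (k : Type*) [Field k] [Algebra k O] [Algebra k K] [IsScalarTower k O K]

/-- as a `k`-subspace -/
noncomputable def fidS (D : HeightOneSpectrum O →₀ ℤ) : Submodule k K :=
  (fid K D : Submodule O K).restrictScalars k

theorem mem_fidS {D : HeightOneSpectrum O →₀ ℤ} {x : K} :
    x ∈ fidS K k D ↔ ∀ v : HeightOneSpectrum O, v.valuation K x ≤ exp (D v) := by
  rw [← mem_fid]; rfl

theorem fidS_mono {D D' : HeightOneSpectrum O →₀ ℤ} (h : D ≤ D') : fidS K k D ≤ fidS K k D' :=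
  fun _ hx => fid_mono K h hx

theorem ri_fidS (D : HeightOneSpectrum O →₀ ℤ) (v : HeightOneSpectrum O) :
    ri (fidS K k D) (fidS K k (D + Finsupp.single v 1)) = Module.length k (O ⧸ v.asIdeal) := by
  have hle : D ≤ D + Finsupp.single v 1 := by
    intro w
    rw [Finsupp.add_apply]
    have : (0 : ℤ) ≤ (Finsupp.single v 1 : HeightOneSpectrum O →₀ ℤ) w := by
      classical
      rw [Finsupp.single_apply]; split_ifs <;> norm_num
    omega
  have hv0 : (v.asIdeal : FractionalIdeal O⁰ K) ≠ 0 := FractionalIdeal.coeIdeal_ne_zero.mpr v.ne_bot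
  have H : fid K (D + Finsupp.single v 1) * (v.asIdeal : FractionalIdeal O⁰ K)
      = 1 * fid K D := by
    rw [one_mul]
    refine eq_of_count K (mul_ne_zero (fid_ne_zero K _) hv0) (fid_ne_zero K D) fun w => ?_
    classical
    rw [FractionalIdeal.count_mul K w (fid_ne_zero K _) hv0, count_fid, count_fid,
      Finsupp.add_apply, Finsupp.single_apply, FractionalIdeal.count_maximal]
    by_cases hwv : v = w
    · simp [hwv]
    · simp [hwv]
  have e := FractionalIdeal.quotientEquiv (fid K (D + Finsupp.single v 1)) (fid K D) 1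
    (v.asIdeal : FractionalIdeal O⁰ K) H (fid_mono K hle) FractionalIdeal.coeIdeal_le_one
    hv0 (fid_ne_zero K _)
  -- `O / v ≃ 1 / v`
  let f : O →ₗ[O] ((1 : FractionalIdeal O⁰ K) : Submodule O K) :=
    LinearMap.codRestrict _ (Algebra.linearMap O K) (fun a => by
      rw [FractionalIdeal.mem_coe, FractionalIdeal.mem_one_iff]; exact ⟨a, rfl⟩)
  have hf : Function.Surjective f := by
    rintro ⟨x, hx⟩
    rw [FractionalIdeal.mem_coe, FractionalIdeal.mem_one_iff] at hx
    obtain ⟨a, rfl⟩ := hx
    exact ⟨a, rfl⟩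
  let P : Submodule O ((1 : FractionalIdeal O⁰ K) : Submodule O K) :=
    (v.asIdeal : FractionalIdeal O⁰ K).coeToSubmodule.comap
      ((1 : FractionalIdeal O⁰ K) : Submodule O K).subtype
  have hker : LinearMap.ker (P.mkQ.comp f) = v.asIdeal := by
    ext a
    rw [LinearMap.mem_ker, LinearMap.comp_apply, Submodule.mkQ_apply, Submodule.Quotient.mk_eq_zero]
    show algebraMap O K a ∈ (v.asIdeal : FractionalIdeal O⁰ K).coeToSubmodule ↔ _
    rw [FractionalIdeal.mem_coe, FractionalIdeal.mem_coeIdeal]
    constructor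
    · rintro ⟨b, hb, hab⟩
      have : b = a := IsFractionRing.injective O K hab
      rwa [← this]
    · intro h; exact ⟨a, h, rfl⟩
  have e2 : (O ⧸ v.asIdeal) ≃ₗ[O] (_ ⧸ P) :=
    (Submodule.quotEquivOfEq _ _ hker.symm).trans
      ((P.mkQ.comp f).quotKerEquivOfSurjective ((Submodule.mkQ_surjective P).comp hf))
  have e3 := (e.trans e2.symm).restrictScalars k
  exact LinearEquiv.length_eq e3

end Dedekind

end Crest.Agent.R013.RR4_948
end

-- ▼ part R013/RR5_948
section

/-!
# R013 / RR5: trace duality and lattices for Dedekind pieces (helper948)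
-/

set_option autoImplicit false

namespace Crest.Agent.R013.RR5_948

open WithZero Module IsDedekindDomain nonZeroDivisors
open Crest.Agent.R013.RR1_948 Crest.Agent.R013.RR2_948 Crest.Agent.R013.RR3_948
open Crest.Agent.R013.RR4_948

section Trace

variable (S F K : Type*) {O : Type*} [CommRing S] [IsDomain S] [IsPrincipalIdealRing S] [Field F]
  [Algebra S F] [IsFractionRing S F] [Field K] [Algebra F K] [FiniteDimensional F K]
  [Algebra.IsSeparable F K] [Algebra S K] [IsScalarTower S F K]
  [CommRing O] [IsDedekindDomain O] [Algebra S O] [Algebra O K] [IsScalarTower S O K]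
  [IsIntegralClosure O S K] [IsFractionRing O K]

theorem dual_one_ne_zero : (FractionalIdeal.dual S F (1 : FractionalIdeal O⁰ K)) ≠ 0 :=
  FractionalIdeal.dual_ne_zero S F one_ne_zero

variable (O) in
/-- the different divisor -/
noncomputable def diffD : HeightOneSpectrum O →₀ ℤ :=
  Finsupp.ofSupportFinite
    (fun v => -FractionalIdeal.count K v (FractionalIdeal.dual S F (1 : FractionalIdeal O⁰ K)))
    (by
      have h := FractionalIdeal.finite_factors (K := K)
        (FractionalIdeal.dual S F (1 : FractionalIdeal O⁰ K))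
      rw [Filter.eventually_cofinite] at h
      refine h.subset ?_
      intro v hv
      simpa [Function.mem_support] using hv)

theorem diffD_apply (v : HeightOneSpectrum O) : diffD S F K O v =
    -FractionalIdeal.count K v (FractionalIdeal.dual S F (1 : FractionalIdeal O⁰ K)) := rfl


theorem dual_fid (D : HeightOneSpectrum O →₀ ℤ) :
    FractionalIdeal.dual S F (fid K D) = fid K (diffD S F K O - D) := by
  rw [FractionalIdeal.dual_eq_mul_inv]
  refine eq_of_count K (mul_ne_zero (dual_one_ne_zero S F K) (inv_ne_zero (fid_ne_zero K D)))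
    (fid_ne_zero K _) fun v => ?_
  rw [FractionalIdeal.count_mul K v (dual_one_ne_zero S F K) (inv_ne_zero (fid_ne_zero K D)),
    FractionalIdeal.count_inv, count_fid, count_fid, Finsupp.sub_apply, diffD_apply]
  ring

theorem mem_fid_diff_sub {D : HeightOneSpectrum O →₀ ℤ} {x : K} :
    x ∈ fid K (diffD S F K O - D) ↔
      ∀ y ∈ fid K D, Algebra.trace F K (x * y) ∈ Set.range (algebraMap S F) := by
  rw [← dual_fid, FractionalIdeal.mem_dual (fid_ne_zero K D)]
  refine forall₂_congr fun y _ => ?_
  rw [Algebra.traceForm_apply, RingHom.mem_range]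
  rfl

theorem exists_basis_fid (D : HeightOneSpectrum O →₀ ℤ) :
    ∃ b : Basis (Fin (finrank F K)) F K,
      Submodule.span S (Set.range b) = (fid K D : Submodule O K).restrictScalars S := by
  have hfin : Module.Finite S O := IsIntegralClosure.finite S F K O
  let M : Submodule S K := (fid K D : Submodule O K).restrictScalars S
  have hfin2 : Module.Finite O (fid K D : Submodule O K) := by
    rw [Module.Finite.iff_fg]
    exact FractionalIdeal.fg_of_isNoetherianRing (le_refl _) _
  have hfin3 : Module.Finite S (fid K D : Submodule O K) := Module.Finite.trans O _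
  have hM : M.FG := by
    rw [← Module.Finite.iff_fg]
    exact hfin3
  have hspan : Submodule.span F (M : Set K) = ⊤ := by
    rw [eq_top_iff]
    intro z _
    obtain ⟨y, hy0, hy⟩ : ∃ y : K, y ≠ 0 ∧ y ∈ fid K D := by
      by_contra hcon
      push Not at hcon
      apply fid_ne_zero K D
      rw [FractionalIdeal.eq_zero_iff]
      intro x hx
      by_contra hx0
      exact hcon x hx0 hx
    have : Algebra.IsAlgebraic S K := by
      have : Algebra.IsAlgebraic F K := inferInstance
      exact (IsFractionRing.comap_isAlgebraic_iff (A := S) (K := F) (C := K)).mpr this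
    obtain ⟨s, hs0, hs⟩ := (this.isAlgebraic (z / y)).exists_integral_multiple
    obtain ⟨t, ht⟩ := (IsIntegralClosure.isIntegral_iff (A := O) (R := S) (B := K)).mp hs
    have h1 : s • z = t • y := by
      rw [Algebra.smul_def t y, ht, smul_mul_assoc, div_mul_cancel₀ _ hy0]
    have h2 : s • z ∈ M := by
      rw [h1]
      exact Submodule.smul_mem _ t hy
    have hs1 : algebraMap S F s ≠ 0 := by
      intro h; apply hs0; exact IsFractionRing.injective S F (by rw [h, map_zero])
    have h3 : z = (algebraMap S F s)⁻¹ • (s • z) := by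
      rw [← algebraMap_smul F s z, smul_smul, inv_mul_cancel₀ hs1, one_smul]
    rw [h3]
    exact Submodule.smul_mem _ _ (Submodule.subset_span h2)
  have hlat : Submodule.IsLattice F M := ⟨hM, hspan⟩
  have hfree : Module.Free S M := Submodule.IsLattice.free F M
  have hrank : finrank S M = finrank F K := by
    unfold Module.finrank
    rw [Submodule.IsLattice.rank' F M]
  let b0 : Basis (Fin (finrank F K)) S M := (Module.finBasisOfFinrankEq S M hrank)
  refine ⟨b0.extendOfIsLattice F, ?_⟩
  have : (b0.extendOfIsLattice F : Fin (finrank F K) → K) = fun j => ((b0 j : M) : K) := by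
    funext j; simp
  rw [this]
  have h2 : Set.range (fun j => ((b0 j : M) : K)) = M.subtype '' Set.range b0 := by
    rw [← Set.range_comp]; rfl
  rw [h2, ← Submodule.map_span, b0.span_eq, Submodule.map_top, Submodule.range_subtype]

end Trace

end Crest.Agent.R013.RR5_948
end

-- ▼ part R013/RR6_948

/-!
# R013 / RR6: dimension formulas and duality for pairs of lattices over `P^1` (helper948)
-/

set_option autoImplicit false

namespace Crest.Agent.R013.RR6_948

open Polynomial WithZero Module
open Crest.Agent.R013.RR1_948 Crest.Agent.R013.RR2_948 Crest.Agent.R013.RR3_948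

section

variable {k : Type*} [Field k] {ι : Type*} [Fintype ι] [DecidableEq ι]
  {V : Type*} [AddCommGroup V] [Module (RatFunc k) V]

/-- the reduced basis: coordinates version of the second lattice -/
theorem reduced_iff (b c : Basis ι (RatFunc k) V) (d : ι → ℤ)
    (hd : ∀ j i, vinf k (c.repr (b j) i) ≤ exp (d j))
    (hdet : vinf k (c.toMatrix b).det = exp (∑ j, d j)) (x : V) :
    (∀ i, vinf k (c.repr x i) ≤ 1) ↔ ∀ j, vinf k (b.repr x j) ≤ exp (-d j) := by
  have hmul : (c.toMatrix b).mulVec (b.repr x) = c.repr x := Basis.toMatrix_mulVec_repr b c x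
  constructor
  · intro h j
    have hcr : (c.toMatrix b).cramer (c.repr x) = (c.toMatrix b).det • (b.repr x : ι → RatFunc k) := by
      rw [← hmul, Matrix.cramer_eq_adjugate_mulVec, Matrix.mulVec_mulVec, Matrix.adjugate_mul,
        Matrix.smul_mulVec, Matrix.one_mulVec]
    have h1 := congrFun hcr j
    rw [Matrix.cramer_apply, Pi.smul_apply, smul_eq_mul] at h1
    have h2 : vinf k ((c.toMatrix b).updateCol j (c.repr x)).det
        ≤ exp (∑ l, Function.update d j 0 l) := by
      apply det_bound
      intro i l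
      by_cases hl : l = j
      · subst hl
        rw [Matrix.updateCol_self, Function.update_self, exp_zero]
        exact h i
      · rw [Matrix.updateCol_ne hl, Function.update_of_ne hl]
        exact hd l i
    rw [h1, map_mul, hdet] at h2
    have h3 : ∑ l, Function.update d j 0 l = ∑ l, d l - d j := by
      rw [Finset.sum_update_of_mem (Finset.mem_univ j), Finset.sdiff_singleton_eq_erase,
        ← Finset.add_sum_erase Finset.univ d (Finset.mem_univ j)]
      ring
    rw [h3, sub_eq_add_neg, exp_add] at h2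
    exact (mul_le_mul_iff_right₀ (by simp)).mp h2
  · intro h i
    rw [← hmul]
    simp only [Matrix.mulVec, dotProduct]
    refine Valuation.map_sum_le _ fun j _ => ?_
    rw [map_mul]
    calc _ ≤ exp (d j) * exp (-d j) := mul_le_mul' (hd j i) (h j)
      _ = 1 := by rw [← exp_add]; simp

variable [Module k V] [IsScalarTower k (RatFunc k) V]

/-- coordinates polynomial -/
noncomputable def polyL (b : Basis ι (RatFunc k) V) : Submodule k V :=
  (Submodule.pi Set.univ fun _ : ι => polyS k).comap
    (b.equivFun.restrictScalars k : V →ₗ[k] (ι → RatFunc k))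

/-- coordinates of bounded degree -/
noncomputable def infL (b : Basis ι (RatFunc k) V) (d : ι → ℤ) : Submodule k V :=
  (Submodule.pi Set.univ fun j : ι => infS k (d j)).comap
    (b.equivFun.restrictScalars k : V →ₗ[k] (ι → RatFunc k))

omit [DecidableEq ι] in
theorem mem_polyL {b : Basis ι (RatFunc k) V} {x : V} :
    x ∈ polyL b ↔ ∀ j, b.repr x j ∈ polyS k := by
  simp [polyL, Submodule.mem_pi]

omit [DecidableEq ι] in
theorem mem_infL {b : Basis ι (RatFunc k) V} {d : ι → ℤ} {x : V} :
    x ∈ infL b d ↔ ∀ j, vinf k (b.repr x j) ≤ exp (d j) := by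
  simp [infL, Submodule.mem_pi, mem_infS]

theorem h0_std (b : Basis ι (RatFunc k) V) (d : ι → ℤ) :
    h0 (polyL b) (infL b d) = ((∑ j, (d j + 1).toNat : ℕ) : ℕ∞) := by
  rw [← h0_map (b.equivFun.restrictScalars k)]
  unfold polyL infL
  rw [Submodule.map_comap_eq_of_surjective (LinearEquiv.surjective _),
    Submodule.map_comap_eq_of_surjective (LinearEquiv.surjective _), h0_pi]
  push_cast
  exact Finset.sum_congr rfl fun j _ => h0_infS k (d j)

theorem h1_std (b : Basis ι (RatFunc k) V) (d : ι → ℤ) :
    h1 (polyL b) (infL b d) = ((∑ j, (-1 - d j).toNat : ℕ) : ℕ∞) := by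
  rw [← h1_map (b.equivFun.restrictScalars k)]
  unfold polyL infL
  rw [Submodule.map_comap_eq_of_surjective (LinearEquiv.surjective _),
    Submodule.map_comap_eq_of_surjective (LinearEquiv.surjective _), h1_pi]
  push_cast
  exact Finset.sum_congr rfl fun j _ => h1_infS k (d j)

/-- Birkhoff-Grothendieck: a pair of lattices has a common reduced basis -/
theorem exists_common_basis [Module k[X] V] [IsScalarTower k[X] (RatFunc k) V]
    (b0 c : Basis ι (RatFunc k) V) :
    ∃ (b : Basis ι (RatFunc k) V) (d : ι → ℤ),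
      (∀ x : V, (∀ j, b0.repr x j ∈ polyS k) ↔ ∀ j, b.repr x j ∈ polyS k) ∧
      (∀ x : V, (∀ i, vinf k (c.repr x i) ≤ 1) ↔ ∀ j, vinf k (b.repr x j) ≤ exp (d j)) := by
  obtain ⟨b, d, hb, hd, hdet⟩ := exists_reduced b0 c
  refine ⟨b, fun j => -d j, fun x => ?_, fun x => reduced_iff b c d hd hdet x⟩
  simp only [mem_polyS]
  rw [← b0.mem_span_iff_repr_mem k[X], ← b.mem_span_iff_repr_mem k[X], hb]

end

section Dual

variable {k : Type*} [Field k] {K : Type*} [Field K] [Algebra k K] [Algebra (RatFunc k) K]
  [IsScalarTower k (RatFunc k) K] [FiniteDimensional (RatFunc k) K]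
  [Algebra.IsSeparable (RatFunc k) K]

/-- the dual of a `k`-subspace at the finite places -/
noncomputable def dualP (M : Submodule k K) : Submodule k K where
  carrier := {y | ∀ x ∈ M, Algebra.trace (RatFunc k) K (y * x) ∈ polyS k}
  add_mem' {a b} ha hb := by
    simp only [Set.mem_ofPred_eq] at ha hb ⊢
    intro x hx
    rw [add_mul, map_add]
    exact add_mem (ha x hx) (hb x hx)
  zero_mem' := by simp
  smul_mem' c y hy := by
    simp only [Set.mem_ofPred_eq] at hy ⊢
    intro x hx
    rw [smul_mul_assoc, LinearMap.map_smul_of_tower]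
    exact Submodule.smul_mem _ _ (hy x hx)

/-- the dual of a `k`-subspace at infinity (with the twist by `dX`) -/
noncomputable def dualI (N : Submodule k K) : Submodule k K where
  carrier := {y | ∀ x ∈ N, Algebra.trace (RatFunc k) K (y * x) ∈ infS k (-2)}
  add_mem' {a b} ha hb := by
    simp only [Set.mem_ofPred_eq] at ha hb ⊢
    intro x hx
    rw [add_mul, map_add]
    exact add_mem (ha x hx) (hb x hx)
  zero_mem' := by simp
  smul_mem' c y hy := by
    simp only [Set.mem_ofPred_eq] at hy ⊢
    intro x hx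
    rw [smul_mul_assoc, LinearMap.map_smul_of_tower]
    exact Submodule.smul_mem _ _ (hy x hx)

omit [FiniteDimensional (RatFunc k) K] [Algebra.IsSeparable (RatFunc k) K] in
theorem mem_dualP {M : Submodule k K} {y : K} :
    y ∈ dualP M ↔ ∀ x ∈ M, Algebra.trace (RatFunc k) K (y * x) ∈ polyS k := by
  rw [← SetLike.mem_coe]; simp [dualP]

omit [FiniteDimensional (RatFunc k) K] [Algebra.IsSeparable (RatFunc k) K] in
theorem mem_dualI {N : Submodule k K} {y : K} :
    y ∈ dualI N ↔ ∀ x ∈ N, Algebra.trace (RatFunc k) K (y * x) ∈ infS k (-2) := by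
  rw [← SetLike.mem_coe]; simp [dualI]

theorem polyS_mul {f g : RatFunc k} (hf : f ∈ polyS k) (hg : g ∈ polyS k) : f * g ∈ polyS k := by
  rw [mem_polyS] at *
  obtain ⟨p, rfl⟩ := hf
  obtain ⟨q, rfl⟩ := hg
  exact ⟨p * q, map_mul _ _ _⟩

theorem one_mem_polyS : (1 : RatFunc k) ∈ polyS k := by
  rw [mem_polyS]; exact ⟨1, map_one _⟩

variable {ι : Type*} [Fintype ι] [DecidableEq ι]

theorem dualP_polyL (b : Basis ι (RatFunc k) K) :
    dualP (polyL b) = polyL ((Algebra.traceForm (RatFunc k) K).dualBasis
      (traceForm_nondegenerate (RatFunc k) K) b) := by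
  ext y
  rw [mem_dualP, mem_polyL]
  constructor
  · intro h j
    rw [LinearMap.BilinForm.dualBasis_repr_apply, Algebra.traceForm_apply]
    apply h
    rw [mem_polyL]
    intro i
    rw [b.repr_self, Finsupp.single_apply]
    split_ifs
    · exact one_mem_polyS
    · exact Submodule.zero_mem _
  · intro h x hx
    rw [mem_polyL] at hx
    have h1 : Algebra.trace (RatFunc k) K (y * x)
        = ∑ j, b.repr x j * Algebra.trace (RatFunc k) K (y * b j) := by
      conv_lhs => rw [← b.sum_repr x]
      rw [Finset.mul_sum, map_sum]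
      refine Finset.sum_congr rfl fun j _ => ?_
      rw [mul_smul_comm, map_smul, smul_eq_mul]
    rw [h1]
    refine Submodule.sum_mem _ fun j _ => polyS_mul (hx j) ?_
    have := h j
    rwa [LinearMap.BilinForm.dualBasis_repr_apply, Algebra.traceForm_apply] at this

theorem dualI_infL (b : Basis ι (RatFunc k) K) (d : ι → ℤ) :
    dualI (infL b d) = infL ((Algebra.traceForm (RatFunc k) K).dualBasis
      (traceForm_nondegenerate (RatFunc k) K) b) (fun j => -2 - d j) := by
  ext y
  rw [mem_dualI, mem_infL]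
  constructor
  · intro h j
    rw [LinearMap.BilinForm.dualBasis_repr_apply, Algebra.traceForm_apply]
    have h1 : (RatFunc.X ^ (d j) : RatFunc k) • b j ∈ infL b d := by
      rw [mem_infL]
      intro i
      rw [map_smul, Finsupp.smul_apply, b.repr_self, Finsupp.single_apply]
      split_ifs with hij
      · subst hij
        rw [smul_eq_mul, mul_one, vinf_X_zpow]
      · simp
    have h2 := (mem_infS k).mp (h _ h1)
    rw [mul_smul_comm, map_smul, smul_eq_mul, map_mul, vinf_X_zpow] at h2
    have h3 : exp (-2 : ℤ) = exp (d j) * exp (-2 - d j) := by rw [← exp_add]; congr 1; ring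
    rw [h3] at h2
    exact (mul_le_mul_iff_right₀ (by simp)).mp h2
  · intro h x hx
    rw [mem_infL] at hx
    have h1 : Algebra.trace (RatFunc k) K (y * x)
        = ∑ j, b.repr x j * Algebra.trace (RatFunc k) K (y * b j) := by
      conv_lhs => rw [← b.sum_repr x]
      rw [Finset.mul_sum, map_sum]
      refine Finset.sum_congr rfl fun j _ => ?_
      rw [mul_smul_comm, map_smul, smul_eq_mul]
    rw [h1, mem_infS]
    refine Valuation.map_sum_le _ fun j _ => ?_
    have h2 := h j
    rw [LinearMap.BilinForm.dualBasis_repr_apply, Algebra.traceForm_apply] at h2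
    rw [map_mul]
    calc _ ≤ exp (d j) * exp (-2 - d j) := mul_le_mul' (hx j) h2
      _ = exp (-2) := by rw [← exp_add]; congr 1; ring

/-- **Duality** for pairs of lattices. -/
theorem duality (b0 c : Basis ι (RatFunc k) K) (M N : Submodule k K)
    (hM : ∀ x, x ∈ M ↔ ∀ j, b0.repr x j ∈ polyS k)
    (hN : ∀ x, x ∈ N ↔ ∀ j, vinf k (c.repr x j) ≤ 1) :
    (∃ n : ℕ, h0 M N = n) ∧ (∃ n : ℕ, h1 M N = n) ∧
    h1 M N = h0 (dualP M) (dualI N) ∧ h0 M N = h1 (dualP M) (dualI N) := by
  letI : Algebra k[X] K := ((algebraMap (RatFunc k) K).comp (algebraMap k[X] (RatFunc k))).toAlgebra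
  haveI : IsScalarTower k[X] (RatFunc k) K := IsScalarTower.of_algebraMap_eq fun x => rfl
  obtain ⟨b, d, hb, hc⟩ := exists_common_basis b0 c
  have hM' : M = polyL b := by
    ext x; rw [hM, mem_polyL, hb]
  have hN' : N = infL b d := by
    ext x; rw [hN, mem_infL, hc]
  subst hM' hN'
  refine ⟨⟨_, h0_std b d⟩, ⟨_, h1_std b d⟩, ?_, ?_⟩
  · rw [dualP_polyL, dualI_infL, h0_std, h1_std]
    congr 1
    refine Finset.sum_congr rfl fun j _ => ?_
    congr 1; ring
  · rw [dualP_polyL, dualI_infL, h0_std, h1_std]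
    congr 1
    refine Finset.sum_congr rfl fun j _ => ?_
    congr 1; ring

end Dual

end Crest.Agent.R013.RR6_948
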