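import Mathlib
import Crest.Agent.R013.Red6_332
import Crest.Agent.R013.Red9_332
import Crest.Agent.R013.Good1_408
import Crest.Agent.R013.Good4_408
import Crest.Agent.R013.CAn4_243

-- ▼ part R013/Red10_332
section

/-!
# R013 / Red10: good ends; the ends of good discs (helper332)
-/

set_option autoImplicit false
set_option linter.all false

namespace Crest.Agent.R013.Red332

open scoped NNReal
open WithZero IsLocalRing Polynomial Module
open Crest.Agent.R013.RR7_948
open Crest.Agent.R013.EE809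
open Crest.Agent.R013.Cell_408 Crest.Agent.R013.Comp_267 Crest.Agent.R013.Good_408

section GEnd

variable {k C : Type*} [NontriviallyNormedField k] [CompleteSpace k] [IsUltrametricDist k]
  [NormedField C] [IsUltrametricDist C] [NormedAlgebra k C] [Algebra.IsAlgebraic k C]
  [IsAlgClosed C] [hk : Fact (DiscNorm k)]
variable {F0 K : Type*} [Field F0] [Algebra C F0] [Field K] [Algebra C K] [Algebra F0 K]
  [IsScalarTower C F0 K]

/-- a family of embeddings of `K` which describes all ends over `E0` -/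
structure GEnd (E0 : End2 C F0) {J : Type*} (m : J → ℕ) (io : J → K →ₐ[C] EE k C) : Prop where
  ov : ∀ j, Over E0 ((EEend k C).comap (io j)) (m j)
  surj : ∀ (E : End2 C K) (e : ℕ), Over E0 E e →
    ∃ j, (∀ z, E.nm z = (EEend k C).nm (io j z)) ∧
      ∀ z, z ≠ 0 → m j * E.od z = e * (EEend k C).od (io j z)

/-- **bijection** between the embeddings and the ends over `E0` -/
theorem GEnd.bij {E0 : End2 C F0} {t : F0} (ht : E0.nm t = 1) (ht' : E0.od t = 1)
    {J : Type*} [Fintype J] {m : J → ℕ} {io : J → K →ₐ[C] EE k C} (G : GEnd E0 m io)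
    (S : Finset (End C K)) (e : End C K → ℕ) (he : ∀ s ∈ S, Over E0 (ofPl s.1 s.2) (e s))
    (hall : ∀ (s : End C K) (e' : ℕ), Over E0 (ofPl s.1 s.2) e' → s ∈ S)
    (hsum : ∑ j, m j ≤ ∑ s ∈ S, e s) :
    ∃ π : J → End C K, Function.Injective π ∧ (∀ s, s ∈ S ↔ ∃ j, s = π j) ∧
      ∀ j, m j = e (π j) ∧ (∀ z, (π j).1.v z = (EEend k C).nm (io j z)) ∧
      ∀ z, z ≠ 0 → od (π j).1 (π j).2 z = EE809.od (io j z) := by
  classical
  choose σ d e' hd hm hov hnm hod using fun j => exists_end (G.ov j) ht ht'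
  have hσ : ∀ j, σ j ∈ S := fun j => hall (σ j) (e' j) (hov j)
  have hee : ∀ j, e' j = e (σ j) := fun j => (hov j).unique (he _ (hσ j)) ht ht'
  let π : J → {s // s ∈ S} := fun j => ⟨σ j, hσ j⟩
  have hsurj : Function.Surjective π := by
    rintro ⟨s, hs⟩
    obtain ⟨j, h1, h2⟩ := G.surj (ofPl s.1 s.2) (e s) (he s hs)
    refine ⟨j, Subtype.ext ?_⟩
    refine (end_eq (s := s) (s' := σ j) (a := m j) (b := e s * d j) (G.ov j).pos
      (Nat.mul_pos (he s hs).pos (hd j)) (fun z => ?_) (fun z hz => ?_)).1.symm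
    · rw [hnm j z]
      exact h1 z
    · have h3 := h2 z hz
      have h4 := hod j z hz
      push_cast
      rw [mul_assoc, ← h4]
      exact h3
  obtain ⟨hbij, hd1⟩ := count_aux π hsurj (fun s => e s.1) (fun s => (he s.1 s.2).pos) m d hd
    (fun j => by rw [hm j, hee j]) (by rw [← Finset.sum_coe_sort S] at hsum; exact hsum)
  refine ⟨σ, fun a b hab => hbij.1 (Subtype.ext hab), fun s => ⟨fun hs => ?_, ?_⟩, fun j => ?_⟩
  · obtain ⟨j, hj⟩ := hbij.2 ⟨s, hs⟩
    exact ⟨j, (congrArg Subtype.val hj).symm⟩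
  · rintro ⟨j, rfl⟩
    exact hσ j
  · refine ⟨?_, fun z => hnm j z, fun z hz => ?_⟩
    · rw [hm j, hd1 j, one_mul, hee j]
    · have h4 := hod j z hz
      rw [hd1 j, Nat.cast_one, one_mul] at h4
      exact h4.symm

end GEnd

section disc

variable {k C : Type*} [NontriviallyNormedField k] [CompleteSpace k] [IsUltrametricDist k]
  [NormedField C] [IsUltrametricDist C] [NormedAlgebra k C] [Algebra.IsAlgebraic k C]
  [IsAlgClosed C] [hk : Fact (DiscNorm k)]

/-- Gauss norm and first index of an element of `BD` in `EE` -/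
theorem gn_od_of_hasW {g : BD k C} {r : ℝ} {n : ℕ} (h : HasW g.1 r n) (hr : 0 < r) :
    gn (ofBD g : EE k C) = r ∧ EE809.od (ofBD g : EE k C) = n := by
  have h1 : gn (ofBD g : EE k C) = r := by
    refine le_antisymm (gn_le fun i => ?_) ?_
    · rcases lt_or_ge i 0 with hi | hi
      · rw [co_ofBD_neg _ hi, norm_zero]; exact hr.le
      · obtain ⟨i, rfl⟩ := Int.eq_ofNat_of_zero_le hi
        rw [co_ofBD_nat]
        exact h.le i
    · have := le_gn (ofBD g : EE k C) n
      rw [co_ofBD_nat, h.eq] at this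
      exact this
  refine ⟨h1, EE809.od_eq_of ?_ fun i hi => ?_⟩
  · rw [co_ofBD_nat, h.eq, h1]
  · rw [h1]
    rcases lt_or_ge i 0 with hi' | hi'
    · rw [co_ofBD_neg _ hi', norm_zero]; exact hr
    · obtain ⟨i, rfl⟩ := Int.eq_ofNat_of_zero_le hi'
      rw [co_ofBD_nat]
      exact h.lt i (by exact_mod_cast hi)

theorem FDend_nm (a : FD k C) : (FDend k C).nm a = (EEend k C).nm (toEE k C a) := rfl

theorem FDend_od (a : FD k C) : (FDend k C).od a = EE809.od (toEE k C a) := rfl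

theorem FDend_BD {g : BD k C} {r : ℝ} {n : ℕ} (h : HasW g.1 r n) (hr : 0 < r) :
    ((FDend k C).nm (algebraMap (BD k C) (FD k C) g) : ℝ) = r ∧
      (FDend k C).od (algebraMap (BD k C) (FD k C) g) = n := by
  rw [FDend_nm, FDend_od, toEE_algebraMap, EEend_nm]
  exact gn_od_of_hasW h hr

theorem FDend_TF : (FDend k C).nm (TF k C) = 1 ∧ (FDend k C).od (TF k C) = 1 := by
  have h := FDend_BD (k := k) (C := C) (g := XB) (r := 1) (n := 1) hasW_X one_pos
  refine ⟨?_, h.2⟩
  ext
  exact h.1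

theorem compF_val {f : PowerSeries C} {m : ℕ} (hf : WD k f m) (hm : m ≠ 0) (a : FD k C)
    (ha : a ≠ 0) : (FDend k C).nm (compF hk.out hf hm a) = (FDend k C).nm a ∧
      (FDend k C).od (compF hk.out hf hm a) = m * (FDend k C).od a := by
  have key : ∀ g : BD k C, g ≠ 0 → algebraMap (BD k C) (FD k C) g ≠ 0 ∧
      compF hk.out hf hm (algebraMap (BD k C) (FD k C) g) ≠ 0 ∧
      (FDend k C).nm (compF hk.out hf hm (algebraMap (BD k C) (FD k C) g)) =
        (FDend k C).nm (algebraMap (BD k C) (FD k C) g) ∧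
      (FDend k C).od (compF hk.out hf hm (algebraMap (BD k C) (FD k C) g)) =
        m * (FDend k C).od (algebraMap (BD k C) (FD k C) g) := by
    intro g hg
    have hg0 : algebraMap (BD k C) (FD k C) g ≠ 0 := by
      intro h
      exact hg (IsFractionRing.injective (BD k C) (FD k C) (by rw [h, map_zero]))
    have hg1 : (g : PowerSeries C) ≠ 0 := fun h => hg (Subtype.ext h)
    obtain ⟨r, n, hr, hW⟩ := exists_hasW hk.out g.2 hg1
    have hW' := HasW.comp hf hm hW g.2 hr
    have h1 := FDend_BD hW hr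
    have h2 := FDend_BD (g := comp f (WD.co hf hm) g) (r := r) (n := n * m) hW' hr
    rw [compF_algebraMap]
    refine ⟨hg0, ?_, ?_, ?_⟩
    · intro h
      rw [← compF_algebraMap hk.out hf hm, map_eq_zero] at h
      exact hg0 h
    · ext
      rw [h2.1, h1.1]
    · rw [h2.2, h1.2]
      push_cast
      ring
  obtain ⟨g, h, hh, rfl⟩ := IsFractionRing.div_surjective (A := BD k C) a
  have hh0 : h ≠ 0 := nonZeroDivisors.ne_zero hh
  have hg0 : g ≠ 0 := by
    rintro rfl
    exact ha (by rw [map_zero, zero_div])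
  obtain ⟨a1, a2, a3, a4⟩ := key g hg0
  obtain ⟨b1, b2, b3, b4⟩ := key h hh0
  rw [map_div₀, map_div₀, map_div₀, a3, b3]
  refine ⟨rfl, ?_⟩
  rw [div_eq_mul_inv, div_eq_mul_inv, (FDend k C).od_mul _ _ a2 (inv_ne_zero b2),
    (FDend k C).od_mul _ _ a1 (inv_ne_zero b1), (FDend k C).od_inv b2, (FDend k C).od_inv b1, a4, b4]
  ring

variable {K : Type*} [Field K] [Algebra C K] [Algebra (RatFunc C) K]
    [IsScalarTower C (RatFunc C) K] [FiniteDimensional (RatFunc C) K] {y : FD k C}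

/-- the end of `C(x)` given by the disc -/
noncomputable def baseD (D : DCells k C K y) : End2 C (RatFunc C) := (FDend k C).comap D.i

/-- **the ends of a good disc** -/
theorem gEnd_disc (D : DCells k C K y) {t : RatFunc C} (ht : (baseD D).nm t = 1)
    (ht' : (baseD D).od t = 1) :
    GEnd (baseD D) D.m (fun j => (toEE k C).comp (D.io j)) := by
  haveI := D.nonempty
  have hov : ∀ j, Over (baseD D) ((FDend k C).comap (D.io j)) (D.m j) := by
    intro j
    refine ⟨Nat.one_le_iff_ne_zero.2 (D.m_ne j), fun f => ?_, fun f hf => ?_⟩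
    · show (FDend k C).nm (D.io j (algebraMap (RatFunc C) K f)) = (FDend k C).nm (D.i f)
      rw [← D.comm]
      by_cases hf : f = 0
      · rw [hf, map_zero, map_zero]
      · exact (compF_val (D.wd j) (D.m_ne j) (D.i f) (by rw [Ne, map_eq_zero]; exact hf)).1
    · show (FDend k C).od (D.io j (algebraMap (RatFunc C) K f)) = _ * (FDend k C).od (D.i f)
      rw [← D.comm]
      exact (compF_val (D.wd j) (D.m_ne j) (D.i f) (by rw [Ne, map_eq_zero]; exact hf)).2
  refine ⟨fun j => ⟨(hov j).pos, (hov j).nm, (hov j).od⟩, fun E e hE => ?_⟩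
  refine exists_factor (baseD D) (FDend k C) (D.i : RatFunc C →+* FD k C) (fun f hf => hf) ht ht'
    (fun _ => FDend k C) (fun j => (D.φ j).toRingHom) D.io (fun j f => (D.comm j f).symm) D.m hov
    (fun j u hu => ?_) (fun n b hb l hl => D.inj n b hb l hl) E e hE
  have hT : ∀ i : ℕ, (FDend k C).nm (TF k C ^ i) = 1 ∧ (FDend k C).od (TF k C ^ i) = i := by
    intro i
    have h0 : TF k C ≠ 0 := (FDend k C).ne_zero_of_one FDend_TF.1
    rw [map_pow, FDend_TF.1, one_pow, (FDend k C).od_pow h0, FDend_TF.2, mul_one]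
    exact ⟨rfl, rfl⟩
  refine End2.int_of_span (FDend k C) (FDend k C) (D.φ j).toRingHom
    (Nat.one_le_iff_ne_zero.2 (D.m_ne j)) (fun a => ?_)
    (fun a ha => (compF_val (D.wd j) (D.m_ne j) a ha).2) (fun i => TF k C ^ (i : ℕ))
    (fun i => (hT i).1) (fun i l => ?_) (fun i l h => ?_)
    (fun z => compF_repr hk.out (D.wd j) (D.m_ne j) z) u hu
  · by_cases ha : a = 0
    · rw [ha, map_zero]
    · exact (compF_val (D.wd j) (D.m_ne j) a ha).1
  · rw [(hT i).2, (hT l).2]
    have := i.2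
    omega
  · rw [(hT i).2, (hT l).2] at h
    exact Fin.ext (by exact_mod_cast h)

end disc

end Crest.Agent.R013.Red332
end

-- ▼ part R013/Red13_332

/-!
# R013 / Red13: the two ends of good annuli (helper332)
-/

set_option autoImplicit false
set_option linter.all false

namespace Crest.Agent.R013.Red332

open scoped NNReal
open WithZero IsLocalRing Polynomial Module
open Crest.Agent.R013.RR7_948
open Crest.Agent.R013.EE809 Crest.Agent.R013.CAn_243
open Crest.Agent.R013.Cell_408 Crest.Agent.R013.Good_408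

variable {k C : Type*} [NontriviallyNormedField k] [CompleteSpace k] [IsUltrametricDist k]
  [NormedField C] [IsUltrametricDist C] [NormedAlgebra k C] [Algebra.IsAlgebraic k C]
  [IsAlgClosed C] [hk : Fact (DiscNorm k)]

variable (k) in
/-- the outer end of an annulus -/
noncomputable def outF (c : C) : End2 C (FA k c) := (EEend k C).comap (FA k c).val

variable (k) in
/-- the inner end of an annulus -/
noncomputable def inF {c : C} (hc0 : c ≠ 0) (hc1 : ‖c‖ < 1) : End2 C (FA k c) :=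
  (EEend k C).comap ((FA k c).val.comp (flipF c hc0 hc1))

theorem EEend_nm_eq {a b : EE k C} (h : gn a = gn b) : (EEend k C).nm a = (EEend k C).nm b := by
  apply NNReal.coe_injective
  rw [EEend_nm, EEend_nm, h]

theorem EEend_nm_one {a : EE k C} (h : gn a = 1) : (EEend k C).nm a = 1 := by
  apply NNReal.coe_injective
  rw [EEend_nm, h, NNReal.coe_one]

variable (k) in
/-- `T ^ n` in `FA c` -/
noncomputable def TA (c : C) (n : ℤ) : FA k c := algebraMap (AN k c) (FA k c) ⟨T n, T_mem_AN c n⟩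

theorem coe_TA (c : C) (n : ℤ) : (TA k c n : EE k C) = T n := rfl

theorem flipF_TA {c : C} (hc0 : c ≠ 0) (hc1 : ‖c‖ < 1) (n : ℤ) :
    (flipF c hc0 hc1 (TA k c n) : EE k C) = mo (-n) (c ^ n) := by
  rw [TA, flipF_algebraMap, coe_algebraMap_FA]
  have h := congrArg Subtype.val (flip_mo (k := k) c hc0 hc1 n (1 : C))
  rw [one_mul] at h
  exact h

variable {K : Type*} [Field K] [Algebra C K] [Algebra (RatFunc C) K]
    [IsScalarTower C (RatFunc C) K] [FiniteDimensional (RatFunc C) K] {c : C} {y : EE k C}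

section

variable (D : ACells k C K c y)

/-- `f j` has the form `T ^ m u` -/
theorem wa_of (j : D.J) : WA (D.c' j) (D.f j) (D.m j : ℤ) := WA.of_we (D.we j) (D.wa j)

/-- the map `FA c → FA (c' j)` -/
noncomputable def phA (j : D.J) : FA k c →ₐ[C] FA k (D.c' j) :=
  compFA (D.c'_ne j) (D.c'_lt j) (wa_of D j) (D.m_ne j) (D.hc' j)

theorem coe_phA (j : D.J) (x : FA k c) : (phA D j x : EE k C) = D.φ j x := rfl

/-- the embedding of `K` in `FA (c' j)` -/
noncomputable def ioA (j : D.J) : K →ₐ[C] FA k (D.c' j) :=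
  (D.io j).codRestrict (FA k (D.c' j)).toSubalgebra (D.io_mem j)

theorem coe_ioA (j : D.J) (x : K) : (ioA D j x : EE k C) = D.io j x := rfl

/-- the expansion of `C(x)` in `FA c` -/
noncomputable def iA : RatFunc C →ₐ[C] FA k c :=
  D.i.codRestrict (FA k c).toSubalgebra D.i_mem

theorem coe_iA (x : RatFunc C) : (iA D x : EE k C) = D.i x := rfl

theorem commA (j : D.J) (f : RatFunc C) : ioA D j (algebraMap (RatFunc C) K f) = phA D j (iA D f) := by
  apply Subtype.ext
  rw [coe_ioA, coe_phA, coe_iA]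
  exact (D.comm j f).symm

/-- the inner embedding -/
noncomputable def io1A (j : D.J) : K →ₐ[C] EE k C :=
  (FA k (D.c' j)).val.comp ((flipF (D.c' j) (D.c'_ne j) (D.c'_lt j)).comp (ioA D j))

/-- the base end, outer side -/
noncomputable def baseO : End2 C (RatFunc C) := (EEend k C).comap D.i

/-- the base end, inner side -/
noncomputable def baseI : End2 C (RatFunc C) := (inF k D.c_ne D.c_lt).comap (iA D)

/-- spanning of `FA (c' j)` by `1, T, .., T ^ (m j - 1)` -/
def SpanA : Prop := ∀ (j : D.J) (z : EE k C), z ∈ FA k (D.c' j) → ∃ A : Fin (D.m j) → EE k C,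
  (∀ i, A i ∈ FA k c) ∧ z = ∑ i, D.φ j (A i) * T ((i : ℕ) : ℤ)

theorem injA (n : ℕ) (b : Fin n → K) (hb : LinearIndependent (RatFunc C) b) (l : Fin n → FA k c)
    (h : ∀ j, ∑ i, phA D j (l i) * ioA D j (b i) = 0) : l = 0 := by
  have h1 := D.inj n b hb (fun i => (l i : EE k C)) (fun i => (l i).2) (fun j => by
    have h2 := congrArg (FA k (D.c' j)).val (h j)
    rw [map_sum, map_zero] at h2
    rw [← h2]
    exact Finset.sum_congr rfl fun i _ => rfl)
  funext i
  exact Subtype.ext (congrFun h1 i)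

/-- outer end of the annulus `j` over the outer base end -/
theorem overO (j : D.J) : Over (baseO D) ((EEend k C).comap (D.io j)) (D.m j) := by
  refine ⟨Nat.one_le_iff_ne_zero.2 (D.m_ne j), fun f => ?_, fun f hf => ?_⟩
  · show (EEend k C).nm (D.io j (algebraMap (RatFunc C) K f)) = (EEend k C).nm (D.i f)
    rw [← D.comm]
    exact EEend_nm_eq (D.gn_φ j _)
  · show EE809.od (D.io j (algebraMap (RatFunc C) K f)) = _ * EE809.od (D.i f)
    rw [← D.comm]
    exact D.od_φ j _

theorem flipF_phA (j : D.J) (x : FA k c) :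
    (flipF (D.c' j) (D.c'_ne j) (D.c'_lt j) (phA D j x) : EE k C) =
      compE (inn c (D.c' j) (D.f j)) (((wa_of D j).inn (D.c'_ne j) (D.c'_lt j) (D.hc' j)).we
        (D.c'_ne j) (D.c'_lt j)) (D.m_ne j) (flipF c D.c_ne D.c_lt x : EE k C) := by
  rw [phA, flipF_compFA (D.c'_ne j) (D.c'_lt j) (wa_of D j) (D.m_ne j) (D.hc' j) D.c_ne D.c_lt]
  rfl

/-- the norm and the order at the inner end of `FA (c' j)` of elements of `FA c` -/
theorem in_phA (j : D.J) (x : FA k c) :
    (inF k (D.c'_ne j) (D.c'_lt j)).nm (phA D j x) = (inF k D.c_ne D.c_lt).nm x ∧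
      (inF k (D.c'_ne j) (D.c'_lt j)).od (phA D j x) = D.m j * (inF k D.c_ne D.c_lt).od x := by
  constructor
  · show (EEend k C).nm (flipF (D.c' j) (D.c'_ne j) (D.c'_lt j) (phA D j x) : EE k C) =
      (EEend k C).nm (flipF c D.c_ne D.c_lt x : EE k C)
    rw [flipF_phA]
    exact EEend_nm_eq (gn_compE _ _ _)
  · show EE809.od (flipF (D.c' j) (D.c'_ne j) (D.c'_lt j) (phA D j x) : EE k C) =
      D.m j * EE809.od (flipF c D.c_ne D.c_lt x : EE k C)
    rw [flipF_phA]
    exact od_compE _ _ _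

theorem overI (j : D.J) : Over (baseI D) ((EEend k C).comap (io1A D j)) (D.m j) := by
  refine ⟨Nat.one_le_iff_ne_zero.2 (D.m_ne j), fun f => ?_, fun f hf => ?_⟩
  · show (inF k (D.c'_ne j) (D.c'_lt j)).nm (ioA D j (algebraMap (RatFunc C) K f)) =
      (inF k D.c_ne D.c_lt).nm (iA D f)
    rw [commA]
    exact (in_phA D j _).1
  · show (inF k (D.c'_ne j) (D.c'_lt j)).od (ioA D j (algebraMap (RatFunc C) K f)) =
      D.m j * (inF k D.c_ne D.c_lt).od (iA D f)
    rw [commA]
    exact (in_phA D j _).2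

theorem spanA' (hs : SpanA D) (j : D.J) (z : FA k (D.c' j)) : ∃ A : Fin (D.m j) → FA k c,
    z = ∑ i, phA D j (A i) * TA k (D.c' j) ((i : ℕ) : ℤ) := by
  obtain ⟨A, hA, h⟩ := hs j z z.2
  refine ⟨fun i => ⟨A i, hA i⟩, ?_⟩
  apply Subtype.ext
  have h2 : ((∑ i, phA D j ⟨A i, hA i⟩ * TA k (D.c' j) ((i : ℕ) : ℤ) : FA k (D.c' j)) : EE k C) =
      ∑ i, D.φ j (A i) * T ((i : ℕ) : ℤ) := by
    have := map_sum (FA k (D.c' j)).val (fun i => phA D j ⟨A i, hA i⟩ * TA k (D.c' j) ((i : ℕ) : ℤ))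
      Finset.univ
    exact this
  rw [h2]
  exact h

/-- **the outer ends of a good annulus** -/
theorem gEnd_out (hs : SpanA D) {t : RatFunc C} (ht : (baseO D).nm t = 1) (ht' : (baseO D).od t = 1) :
    GEnd (baseO D) D.m D.io := by
  haveI := D.nonempty
  refine ⟨overO D, fun E e hE => ?_⟩
  refine exists_factor (baseO D) (outF k c) (iA D : RatFunc C →+* FA k c) (fun f hf => hf) ht ht'
    (fun j => outF k (D.c' j)) (fun j => (phA D j).toRingHom) (ioA D) (fun j f => commA D j f) D.m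
    (overO D) (fun j u hu => ?_) (fun n b hb l hl => injA D n b hb l hl) E e hE
  refine End2.int_of_span (outF k (D.c' j)) (outF k c) (phA D j).toRingHom
    (Nat.one_le_iff_ne_zero.2 (D.m_ne j)) (fun a => EEend_nm_eq (D.gn_φ j _))
    (fun a ha => D.od_φ j _) (fun i => TA k (D.c' j) ((i : ℕ) : ℤ))
    (fun i => EEend_nm_one (by
      show gn (T ((i : ℕ) : ℤ) : EE k C) = 1
      rw [T, gn_mo, norm_one])) (fun i l => ?_) (fun i l h => ?_)
    (spanA' D hs j) u hu
  · show EE809.od (T ((i : ℕ) : ℤ) : EE k C) < EE809.od (T ((l : ℕ) : ℤ) : EE k C) + D.m j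
    rw [T, T, mo, mo, od_mono _ _ one_ne_zero, od_mono _ _ one_ne_zero]
    have := i.2
    omega
  · have h' : EE809.od (T ((i : ℕ) : ℤ) : EE k C) = EE809.od (T ((l : ℕ) : ℤ) : EE k C) := h
    rw [T, T, mo, mo, od_mono _ _ one_ne_zero, od_mono _ _ one_ne_zero] at h'
    exact Fin.ext (by exact_mod_cast h')

/-- **the inner ends of a good annulus** -/
theorem gEnd_in (hs : SpanA D) {t : RatFunc C} (ht : (baseI D).nm t = 1) (ht' : (baseI D).od t = 1) :
    GEnd (baseI D) D.m (io1A D) := by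
  haveI := D.nonempty
  refine ⟨overI D, fun E e hE => ?_⟩
  refine exists_factor (baseI D) (inF k D.c_ne D.c_lt) (iA D : RatFunc C →+* FA k c)
    (fun f hf => hf) ht ht'
    (fun j => inF k (D.c'_ne j) (D.c'_lt j)) (fun j => (phA D j).toRingHom) (ioA D)
    (fun j f => commA D j f) D.m
    (overI D) (fun j u hu => ?_) (fun n b hb l hl => injA D n b hb l hl) E e hE
  have hfl : ∀ i : ℕ, (flipF (D.c' j) (D.c'_ne j) (D.c'_lt j)
      (algebraMap C (FA k (D.c' j)) (((D.c' j) ^ (i : ℤ))⁻¹) * TA k (D.c' j) (i : ℤ)) : EE k C) =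
      T (-(i : ℤ)) := by
    intro i
    have h1 : (flipF (D.c' j) (D.c'_ne j) (D.c'_lt j)
      (algebraMap C (FA k (D.c' j)) (((D.c' j) ^ (i : ℤ))⁻¹) * TA k (D.c' j) (i : ℤ)) : EE k C) =
      algebraMap C (EE k C) (((D.c' j) ^ (i : ℤ))⁻¹) *
        (flipF (D.c' j) (D.c'_ne j) (D.c'_lt j) (TA k (D.c' j) (i : ℤ)) : EE k C) := by
      rw [map_mul, AlgHom.commutes]
      rfl
    rw [h1, flipF_TA]
    have hne : (D.c' j) ^ (i : ℤ) ≠ 0 := zpow_ne_zero _ (D.c'_ne j)
    ext n
    rw [EE809.algebraMap_eq, co_mo_mul, T, co_mo, co_mo, sub_zero]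
    split_ifs
    · rw [inv_mul_cancel₀ hne]
    · rw [mul_zero]
  have hod : ∀ i : ℕ, (inF k (D.c'_ne j) (D.c'_lt j)).od
      (algebraMap C (FA k (D.c' j)) (((D.c' j) ^ (i : ℤ))⁻¹) * TA k (D.c' j) (i : ℤ)) = -(i : ℤ) := by
    intro i
    have h1 : (inF k (D.c'_ne j) (D.c'_lt j)).od
      (algebraMap C (FA k (D.c' j)) (((D.c' j) ^ (i : ℤ))⁻¹) * TA k (D.c' j) (i : ℤ)) =
      EE809.od (T (-(i : ℤ)) : EE k C) := by
      rw [← hfl i]
      rfl
    rw [h1, T, mo, od_mono _ _ one_ne_zero]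
  have hnm : ∀ i : ℕ, (inF k (D.c'_ne j) (D.c'_lt j)).nm
      (algebraMap C (FA k (D.c' j)) (((D.c' j) ^ (i : ℤ))⁻¹) * TA k (D.c' j) (i : ℤ)) = 1 := by
    intro i
    have h1 : (inF k (D.c'_ne j) (D.c'_lt j)).nm
      (algebraMap C (FA k (D.c' j)) (((D.c' j) ^ (i : ℤ))⁻¹) * TA k (D.c' j) (i : ℤ)) =
      (EEend k C).nm (T (-(i : ℤ)) : EE k C) := by
      rw [← hfl i]
      rfl
    rw [h1]
    exact EEend_nm_one (by rw [T, gn_mo, norm_one])
  refine End2.int_of_span (inF k (D.c'_ne j) (D.c'_lt j)) (inF k D.c_ne D.c_lt) (phA D j).toRingHom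
    (Nat.one_le_iff_ne_zero.2 (D.m_ne j)) (fun a => (in_phA D j a).1)
    (fun a ha => (in_phA D j a).2)
    (fun i => algebraMap C (FA k (D.c' j)) (((D.c' j) ^ ((i : ℕ) : ℤ))⁻¹) *
      TA k (D.c' j) ((i : ℕ) : ℤ))
    (fun i => ?_) (fun i l => ?_) (fun i l h => ?_) (fun z => ?_) u hu
  · exact hnm i
  · rw [hod, hod]
    have := l.2
    omega
  · rw [hod, hod] at h
    exact Fin.ext (by omega)
  · obtain ⟨A, hA⟩ := spanA' D hs j z
    refine ⟨fun i => algebraMap C (FA k c) ((D.c' j) ^ ((i : ℕ) : ℤ)) * A i, ?_⟩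
    rw [hA]
    refine Finset.sum_congr rfl fun i _ => ?_
    have hne : (D.c' j) ^ ((i : ℕ) : ℤ) ≠ 0 := zpow_ne_zero _ (D.c'_ne j)
    have h1 : (phA D j).toRingHom (algebraMap C (FA k c) ((D.c' j) ^ ((i : ℕ) : ℤ)) * A i) =
        algebraMap C (FA k (D.c' j)) ((D.c' j) ^ ((i : ℕ) : ℤ)) * phA D j (A i) := by
      show phA D j (algebraMap C (FA k c) ((D.c' j) ^ ((i : ℕ) : ℤ)) * A i) = _
      rw [map_mul, AlgHom.commutes]
    rw [h1]
    have h2 : algebraMap C (FA k (D.c' j)) ((D.c' j) ^ ((i : ℕ) : ℤ)) *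
        algebraMap C (FA k (D.c' j)) (((D.c' j) ^ ((i : ℕ) : ℤ))⁻¹) = 1 := by
      rw [← map_mul, mul_inv_cancel₀ hne, map_one]
    linear_combination (-(phA D j (A i)) * TA k (D.c' j) ((i : ℕ) : ℤ)) * h2

/-- the two embeddings of an annulus are glued by the flip -/
theorem io_annA (j : D.J) (f : K) : ∃ g h g' h' : EE k C, h ≠ 0 ∧ g ∈ AN k (D.c' j) ∧
    h ∈ AN k (D.c' j) ∧ (∀ n, g'.co n = g.co (-n) * (D.c' j) ^ (-n)) ∧
    (∀ n, h'.co n = h.co (-n) * (D.c' j) ^ (-n)) ∧ D.io j f * h = g ∧ io1A D j f * h' = g' := by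
  obtain ⟨a, b, hb, e⟩ := FA_div_surj (ioA D j f)
  have hbF : algebraMap (AN k (D.c' j)) (FA k (D.c' j)) b ≠ 0 := by
    intro h0
    exact hb (algebraMap_FA_injective _ (by rw [h0, map_zero]))
  have e1 : ioA D j f * algebraMap (AN k (D.c' j)) (FA k (D.c' j)) b =
      algebraMap (AN k (D.c' j)) (FA k (D.c' j)) a := by
    rw [← e, div_mul_cancel₀ _ hbF]
  refine ⟨a, b, flip (D.c' j) (D.c'_ne j) (D.c'_lt j) a, flip (D.c' j) (D.c'_ne j) (D.c'_lt j) b,
    fun h0 => hb (Subtype.ext h0), a.2, b.2, fun n => co_flip _ _ _ _ _, fun n => co_flip _ _ _ _ _,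
    congrArg (fun z : FA k (D.c' j) => (z : EE k C)) e1, ?_⟩
  have e2 := congrArg (flipF (D.c' j) (D.c'_ne j) (D.c'_lt j)) e1
  rw [map_mul, flipF_algebraMap, flipF_algebraMap] at e2
  exact congrArg (fun z : FA k (D.c' j) => (z : EE k C)) e2

end

end Crest.Agent.R013.Red332
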