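import Mathlib
import Crest.Agent.R013.Red12_332
import Crest.Agent.R013.Red13_332
import Crest.Agent.R013.Good2_408
import Crest.Agent.R013.PL1_109
import Crest.Agent.R013.CAnR2_109
import Crest.Agent.R013.LineDec_315
import Crest.Agent.R013.Red11_332
import Crest.Agent.R013.StabR_460

-- ▼ part R013/Red14_332
section

/-!
# R013 / Red14: the ends over a good cell; directions on the line (helper332)
-/

set_option autoImplicit false
set_option linter.all false

namespace Crest.Agent.R013.Red332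

open scoped NNReal
open WithZero IsLocalRing Polynomial Module
open Crest.Agent.R013.RR7_948
open Crest.Agent.R013.EE809 Crest.Agent.R013.CAn_243
open Crest.Agent.R013.Cell_408 Crest.Agent.R013.Comp_267 Crest.Agent.R013.Good_408
open Crest.Agent.R013.PL_109

section pi

variable {k C : Type*} [NontriviallyNormedField k] [CompleteSpace k] [IsUltrametricDist k]
  [NormedField C] [IsUltrametricDist C] [NormedAlgebra k C] [Algebra.IsAlgebraic k C]
  [IsAlgClosed C] [hk : Fact (DiscNorm k)]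
variable {F0 K : Type*} [Field F0] [Algebra C F0] [Field K] [Algebra C K] [Algebra F0 K]
  [IsScalarTower C F0 K]

/-- the ends over `E0` are given by the good embeddings -/
theorem GEnd.exists_pi {E0 : End2 C F0} {t : F0} (hg : Gen C t) (ht : E0.nm t = 1)
    (ht' : E0.od t = 1) (S : SAt F0 K E0.nm) {J : Type*} [Fintype J] {m : J → ℕ}
    {io : J → K →ₐ[C] EE k C} (G : GEnd E0 m io) (hsum : ∑ j, m j = finrank F0 K) :
    ∃ π : J → End C K, Function.Injective π ∧
      (∀ j, Over E0 (ofPl (π j).1 (π j).2) (m j)) ∧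
      (∀ (s : End C K) (e : ℕ), Over E0 (ofPl s.1 s.2) e → ∃ j, s = π j) ∧
      (∀ j z, gn (io j z) = (π j).1.v z) ∧
      ∀ j z, z ≠ 0 → EE809.od (io j z) = od (π j).1 (π j).2 z := by
  obtain ⟨T, e, h1, h2, h3⟩ := S.exists_ends E0 hg ht ht'
  obtain ⟨π, a1, a2, a3⟩ := G.bij ht ht' T e h1 h2 (by rw [hsum]; exact h3)
  refine ⟨π, a1, fun j => ?_, fun s e' h => (a2 s).1 (h2 s e' h), fun j z => ?_, fun j z hz => ?_⟩
  · rw [(a3 j).1]
    exact h1 _ ((a2 _).2 ⟨j, rfl⟩)
  · rw [(a3 j).2.1 z, EEend_nm]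
  · exact ((a3 j).2.2 z hz).symm

end pi

section dir

variable {C : Type*} [NormedField C] [IsUltrametricDist C] [IsAlgClosed C]
variable {K : Type*} [Field K] [Algebra C K]

/-- every place of the residue field at a coordinate is either at infinity or at a constant -/
theorem exists_dir (w : Nm C K) (hff : FF w) (x : Pl (Ct C) (kap w)) {t : K} (ht : w.v t = 1)
    (htr : ∀ c : C, 1 ≤ w.v (t - algebraMap C K c)) :
    od w x t < 0 ∨ ∃ c : C, ‖c‖₊ ≤ 1 ∧ w.v (t - algebraMap C K c) = 1 ∧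
      0 < od w x (t - algebraMap C K c) := by
  by_cases h : od w x t < 0
  · exact Or.inl h
  right
  push Not at h
  obtain ⟨i1, i2, i3, i4⟩ := hff
  have h1 : x.v (red w t) ≤ 1 := by
    rw [v_red_of_one x ht, ← exp_zero, exp_le_exp]
    omega
  obtain ⟨c, hc⟩ := GR2_921.exists_const x h1
  obtain ⟨c', hc', rfl⟩ := rc_surj c
  have hle : w.v (t - algebraMap C K c') ≤ 1 :=
    (w.v.map_sub _ _).trans (max_le ht.le (by rw [w.hC]; exact hc'))
  have h2 : w.v (t - algebraMap C K c') = 1 := le_antisymm hle (htr c')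
  refine ⟨c', hc', h2, ?_⟩
  have h3 := v_red_of_one x h2
  rw [red_sub w ht.le (by rw [w.hC]; exact hc'), red_C w c' hc'] at h3
  rw [h3, ← exp_zero, exp_lt_exp] at hc
  omega

variable (E : End2 C K)

/-- `t ↦ t + d`, `|d| < 1` -/
theorem End2.dir_congr {t : K} (ht : E.nm t = 1) {d : C} (hd : ‖d‖₊ < 1) :
    E.nm (t + algebraMap C K d) = 1 ∧ E.od (t + algebraMap C K d) = E.od t := by
  have h : E.nm (algebraMap C K d) < E.nm t := by rw [E.hC, ht]; exact hd
  exact ⟨by rw [Valuation.map_add_eq_of_lt_left _ h, ht], E.od_lt _ _ h⟩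

/-- two coordinates at a direction differ by a small constant -/
theorem End2.dir_unique {t : K} (ht : E.nm t = 1) (ht' : 0 < E.od t) {d : C}
    (h : E.nm (t + algebraMap C K d) = 1) (h' : 0 < E.od (t + algebraMap C K d)) : ‖d‖₊ < 1 := by
  by_contra hd
  push Not at hd
  have h1 := (E.lin_val ht ht' (-d)).2
  rw [map_neg, sub_neg_eq_add, nnnorm_neg, if_neg (not_lt.2 hd)] at h1
  omega

end dir

section line

variable {C : Type*} [NormedField C] [IsUltrametricDist C] [IsAlgClosed C]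

/-- the coordinate of a disc or of the outer side of an annulus -/
noncomputable def fT (a ρ : C) : RatFunc C := (RatFunc.X - RatFunc.C a) / RatFunc.C ρ

/-- the coordinate at infinity -/
noncomputable def fI (a ρ : C) : RatFunc C := RatFunc.C ρ / (RatFunc.X - RatFunc.C a)

theorem fI_eq (a ρ : C) : fI a ρ = (fT a ρ)⁻¹ := by
  rw [fI, fT, inv_div]

theorem algC (c : C) : algebraMap C (RatFunc C) c = RatFunc.C c := rfl

theorem ratC_ne {ρ : C} (hρ : ρ ≠ 0) : (RatFunc.C ρ : RatFunc C) ≠ 0 := by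
  rw [Ne, map_eq_zero]; exact hρ

theorem fT_ne {a ρ : C} (hρ : ρ ≠ 0) : fT a ρ ≠ 0 :=
  div_ne_zero (X_sub_C_ne_zero a) (ratC_ne hρ)

theorem gen_fT (a : C) {ρ : C} (hρ : ρ ≠ 0) : Gen C (fT a ρ) := by
  refine gen_of_mem ?_
  have h1 : fT a ρ ∈ IntermediateField.adjoin C {fT a ρ} := IntermediateField.mem_adjoin_simple_self _ _
  have h2 : (RatFunc.X : RatFunc C) = algebraMap C (RatFunc C) ρ * fT a ρ + algebraMap C _ a := by
    rw [algC, algC, fT, mul_div_cancel₀ _ (ratC_ne hρ), sub_add_cancel]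
  rw [h2]
  exact add_mem (mul_mem (algebraMap_mem _ ρ) h1) (algebraMap_mem _ a)

theorem gen_fI (a : C) {ρ : C} (hρ : ρ ≠ 0) : Gen C (fI a ρ) := by
  refine gen_of_mem ?_
  have h1 : fI a ρ ∈ IntermediateField.adjoin C {fI a ρ} := IntermediateField.mem_adjoin_simple_self _ _
  have h2 : (RatFunc.X : RatFunc C) = algebraMap C (RatFunc C) ρ * (fI a ρ)⁻¹ + algebraMap C _ a := by
    rw [algC, algC, fI_eq, inv_inv, fT, mul_div_cancel₀ _ (ratC_ne hρ), sub_add_cancel]
  rw [h2]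
  exact add_mem (mul_mem (algebraMap_mem _ ρ) (inv_mem h1)) (algebraMap_mem _ a)

/-- change of the centre -/
theorem fT_change (a b ρ : C) (hρ : ρ ≠ 0) : fT a ρ = fT b ρ + algebraMap C (RatFunc C) ((b - a) / ρ) := by
  rw [algC, fT, fT, map_div₀, map_sub, ← add_div]
  congr 1
  ring

variable {E : End2 C (RatFunc C)}

theorem nm_X_sub {a ρ : C} (hρ : ρ ≠ 0) (h : ∀ c : C, E.nm (fT a ρ - algebraMap C _ c) = max 1 ‖c‖₊)
    (b : C) : E.nm (RatFunc.X - RatFunc.C b) = max ‖ρ‖₊ ‖a - b‖₊ := by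
  have h1 : (RatFunc.X - RatFunc.C b : RatFunc C) =
      algebraMap C _ ρ * (fT a ρ - algebraMap C _ ((b - a) / ρ)) := by
    have h2 := fT_change a b ρ hρ
    rw [h2, add_sub_cancel_right, algC, fT, mul_div_cancel₀ _ (ratC_ne hρ)]
  rw [h1, map_mul, h, E.hC, mul_max_of_nonneg _ _ zero_le, mul_one, nnnorm_div,
    mul_div_cancel₀ _ (by rwa [Ne, nnnorm_eq_zero]), ← nnnorm_neg (b - a), neg_sub]

/-- the norm of an end at the coordinate of a disc is the Gauss norm of the disc -/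
theorem nm_eq_gauss {a ρ : C} (hρ : ρ ≠ 0)
    (h : ∀ c : C, E.nm (fT a ρ - algebraMap C _ c) = max 1 ‖c‖₊)
    (hr : ‖ρ‖₊ ≠ 0) : E.nm = gaussR (NormedField.valuation (K := C)) a ‖ρ‖₊ hr := by
  apply ext_of_linear
  · intro c
    rw [gaussR_C]
    exact E.hC c
  · intro b
    rw [gaussR_X_sub, nm_X_sub hρ h]
    rfl

theorem nm_fT {a ρ : C} (h1 : E.nm (fT a ρ) = 1) (h2 : 0 < E.od (fT a ρ)) (c : C) :
    E.nm (fT a ρ - algebraMap C _ c) = max 1 ‖c‖₊ := (E.lin_val h1 h2 c).1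

theorem nm_fI {a ρ : C} (hρ : ρ ≠ 0) (h1 : E.nm (fI a ρ) = 1) (h2 : 0 < E.od (fI a ρ)) (c : C) :
    E.nm (fT a ρ - algebraMap C _ c) = max 1 ‖c‖₊ := by
  have ht : E.nm (fT a ρ) = 1 := by
    have h3 : E.nm (fI a ρ) = (E.nm (fT a ρ))⁻¹ := by rw [fI_eq, map_inv₀]
    rw [h3] at h1
    exact inv_eq_one.1 h1
  by_cases hc : c = 0
  · rw [hc, map_zero, sub_zero, ht, nnnorm_zero, max_eq_left zero_le_one]
  have hcR : algebraMap C (RatFunc C) c ≠ 0 := by rw [Ne, map_eq_zero]; exact hc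
  have hfT := fT_ne (a := a) hρ
  have e : fT a ρ - algebraMap C _ c =
      -(fT a ρ * algebraMap C _ c) * (fI a ρ - algebraMap C _ c⁻¹) := by
    rw [fI_eq, map_inv₀]
    field_simp
    ring
  rw [e, map_mul, Valuation.map_neg, map_mul, ht, one_mul, (E.lin_val h1 h2 _).1, E.hC, nnnorm_inv,
    mul_max_of_nonneg _ _ zero_le, mul_one, mul_inv_cancel₀ (by rwa [Ne, nnnorm_eq_zero]),
    max_comm]

end line

section cells

variable {k C : Type*} [NontriviallyNormedField k] [CompleteSpace k] [IsUltrametricDist k]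
  [NormedField C] [IsUltrametricDist C] [NormedAlgebra k C] [Algebra.IsAlgebraic k C]
  [IsAlgClosed C] [hk : Fact (DiscNorm k)]
variable {K : Type*} [Field K] [Algebra C K] [Algebra (RatFunc C) K]
    [IsScalarTower C (RatFunc C) K] [FiniteDimensional (RatFunc C) K]

theorem baseD_one {y : FD k C} (D : DCells k C K y) {t : RatFunc C} (h : D.i t = TF k C) :
    (baseD D).nm t = 1 ∧ (baseD D).od t = 1 := by
  constructor
  · show (FDend k C).nm (D.i t) = 1
    rw [h]; exact FDend_TF.1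
  · show (FDend k C).od (D.i t) = 1
    rw [h]; exact FDend_TF.2

theorem baseO_one {c : C} {y : EE k C} (D : ACells k C K c y) {t : RatFunc C} (h : D.i t = T 1) :
    (baseO D).nm t = 1 ∧ (baseO D).od t = 1 := by
  constructor
  · show (EEend k C).nm (D.i t) = 1
    rw [h]; exact EEend_nm_one (by rw [T, gn_mo, norm_one])
  · show EE809.od (D.i t) = 1
    rw [h, T, mo, od_mono _ _ one_ne_zero]

theorem baseI_one {c : C} {y : EE k C} (D : ACells k C K c y) {t : RatFunc C} (h : D.i t = T 1) :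
    (baseI D).nm (algebraMap C _ c / t) = 1 ∧ (baseI D).od (algebraMap C _ c / t) = 1 := by
  have e0 : iA D t = TA k c 1 := Subtype.ext (by rw [coe_iA, h, coe_TA])
  have hc := D.c_ne
  have e1 : (flipF c D.c_ne D.c_lt (iA D (algebraMap C _ c / t)) : EE k C) = T 1 := by
    rw [map_div₀, map_div₀, AlgHom.commutes, AlgHom.commutes, e0]
    have e2 : ((algebraMap C (FA k c) c / flipF c D.c_ne D.c_lt (TA k c 1) : FA k c) : EE k C) =
      algebraMap C (EE k C) c / (flipF c D.c_ne D.c_lt (TA k c 1) : EE k C) := rfl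
    rw [e2, flipF_TA, zpow_one]
    have h3 : (mo (-1) c : EE k C) ≠ 0 := by
      intro h0
      have := congrArg (fun z : EE k C => z.co (-1)) h0
      simp only [co_mo, if_pos, co_zero] at this
      exact hc this
    rw [div_eq_iff h3, T, mo_mul_mo, EE809.algebraMap_eq]
    congr 1
    rw [one_mul]
  constructor
  · show (EEend k C).nm (flipF c D.c_ne D.c_lt (iA D (algebraMap C _ c / t)) : EE k C) = 1
    rw [e1]; exact EEend_nm_one (by rw [T, gn_mo, norm_one])
  · show EE809.od (flipF c D.c_ne D.c_lt (iA D (algebraMap C _ c / t)) : EE k C) = 1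
    rw [e1, T, mo, od_mono _ _ one_ne_zero]

end cells

end Crest.Agent.R013.Red332
end

-- ▼ part R013/Red15_332
section

/-!
# R013 / Red15: the ends over the base cells of a decomposition of the line (helper332)
-/

set_option autoImplicit false
set_option linter.all false

universe u

namespace Crest.Agent.R013.Red332

open scoped NNReal
open WithZero IsLocalRing Polynomial Module
open Crest.Agent.R013.RR7_948
open Crest.Agent.R013.EE809 Crest.Agent.R013.CAn_243
open Crest.Agent.R013.Cell_408 Crest.Agent.R013.Comp_267 Crest.Agent.R013.Good_408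
open Crest.Agent.R013.PL_109 Crest.Agent.R013.LineDec_315

section gauss

variable {C : Type*} [NormedField C] [IsUltrametricDist C] [IsAlgClosed C]

theorem gaussR_congr {a b : C} {r s : ℝ≥0} (hr : r ≠ 0) (hs : s ≠ 0) (hrs : r = s)
    (h : ‖a - b‖₊ ≤ r) : gaussR (nv C) a r hr = gaussR (nv C) b s hs := by
  subst hrs
  apply ext_of_linear
  · intro c
    rw [gaussR_C, gaussR_C]
  · intro c
    rw [gaussR_X_sub, gaussR_X_sub]
    have h1 : nv C (a - b) ≤ r := h
    have h2 : nv C (b - a) ≤ r := by rw [Valuation.map_sub_swap]; exact h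
    apply le_antisymm
    · refine max_le (le_max_left _ _) ?_
      have h3 : a - c = (a - b) + (b - c) := by ring
      rw [h3]
      refine ((nv C).map_add _ _).trans (max_le (h1.trans (le_max_left _ _)) (le_max_right _ _))
    · refine max_le (le_max_left _ _) ?_
      have h3 : b - c = (b - a) + (a - c) := by ring
      rw [h3]
      refine ((nv C).map_add _ _).trans (max_le (h2.trans (le_max_left _ _)) (le_max_right _ _))

theorem gaussR_inj {a b : C} {r s : ℝ≥0} (hr : r ≠ 0) (hs : s ≠ 0)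
    (h : gaussR (nv C) a r hr = gaussR (nv C) b s hs) : ‖a - b‖₊ ≤ r ∧ r = s := by
  have h1 : gaussR (nv C) a r hr (RatFunc.X - RatFunc.C a) = gaussR (nv C) b s hs (RatFunc.X - RatFunc.C a) := by
    rw [h]
  have h2 : gaussR (nv C) a r hr (RatFunc.X - RatFunc.C b) = gaussR (nv C) b s hs (RatFunc.X - RatFunc.C b) := by
    rw [h]
  rw [gaussR_X_sub, gaussR_X_sub, sub_self, map_zero, max_eq_left zero_le] at h1
  rw [gaussR_X_sub, gaussR_X_sub, sub_self, map_zero, max_eq_left zero_le] at h2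
  have h3 : r = s := le_antisymm (by rw [← h2]; exact le_max_left _ _) (by rw [h1]; exact le_max_left _ _)
  refine ⟨?_, h3⟩
  have h4 : nv C (a - b) ≤ s := by rw [← h2]; exact le_max_right _ _
  rw [h3]
  exact h4

end gauss

variable {k : Type*} {C : Type u} {K : Type*} [NontriviallyNormedField k]
    [CompleteSpace k] [IsUltrametricDist k] [NormedField C] [IsUltrametricDist C] [NormedAlgebra k C]
    [Algebra.IsAlgebraic k C] [IsAlgClosed C] [hk : Fact (DiscNorm k)]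
    [Field K] [Algebra C K] [Algebra (RatFunc C) K] [IsScalarTower C (RatFunc C) K]

variable [FiniteDimensional (RatFunc C) K]

/-- **spanning**: from 109's representation theorem -/
theorem spanA {c : C} {y : EE k C} (D : ACells k C K c y) : SpanA D := by
  intro j z hz
  obtain ⟨e, he, h⟩ := CAnR_109.repr_FA (D.c'_ne j) (D.c'_lt j) (D.we j) (wa_of D j) (D.m_ne j)
    (D.hc' j) hz
  refine ⟨e, he, ?_⟩
  rw [h]
  exact Finset.sum_congr rfl fun i _ => mul_comm _ _

theorem i_fT {a ρ : C} (hρ : ρ ≠ 0) (D : DCells k C K (discY k C a ρ)) : D.i (fT a ρ) = TF k C := by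
  have h1 : D.i (fT a ρ) = (D.i RatFunc.X - algebraMap C _ a) / algebraMap C _ ρ := by
    rw [fT, map_div₀, map_sub]
    congr 1
    · congr 1
      exact D.i.commutes a
    · exact D.i.commutes ρ
  rw [h1, D.i_X, discY, add_sub_cancel_left, mul_div_cancel_left₀]
  rw [Ne, map_eq_zero]
  exact hρ

theorem i_fI {ρ : C} (hρ : ρ ≠ 0) (D : DCells k C K (infY k C ρ)) : D.i (fI 0 ρ) = TF k C := by
  have h0 : TF k C ≠ 0 := (FDend k C).ne_zero_of_one FDend_TF.1
  have h2 : algebraMap C (FD k C) ρ ≠ 0 := by rw [Ne, map_eq_zero]; exact hρ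
  have h1 : D.i (fI 0 ρ) = algebraMap C _ ρ / D.i RatFunc.X := by
    rw [fI, map_div₀, map_zero, sub_zero]
    congr 1
    exact D.i.commutes ρ
  rw [h1, D.i_X, infY]
  field_simp

theorem i_annT {c a ρ : C} (hρ : ρ ≠ 0) (D : ACells k C K c (annY k C a ρ)) :
    D.i (fT a ρ) = T 1 := by
  have h1 : D.i (fT a ρ) = (D.i RatFunc.X - algebraMap C _ a) / algebraMap C _ ρ := by
    rw [fT, map_div₀, map_sub]
    congr 1
    · congr 1
      exact D.i.commutes a
    · exact D.i.commutes ρ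
  rw [h1, D.i_X, annY, add_sub_cancel_left, mul_div_cancel_left₀]
  rw [Ne, map_eq_zero]
  exact hρ

variable (D : LineDec k C K)

/-- the Gauss norm of a vertex -/
noncomputable def gvx (x : D.V) : Valuation (RatFunc C) ℝ≥0 :=
  gaussR (nv C) (D.a x) ‖D.ρ x‖₊ (by rw [Ne, nnnorm_eq_zero]; exact D.ρ_ne x)

theorem gvx_inj {x y : D.V} (h : gvx D x = gvx D y) : x = y := by
  obtain ⟨h1, h2⟩ := gaussR_inj _ _ h
  exact D.V_inj x y h1 h2

/-- the cells over the discs, the disc at infinity and the annuli -/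
noncomputable def cellU (u : D.U) : DCells k C K (discY k C (D.cU u) (D.ρ (D.uv u))) := (D.goodU u).some
noncomputable def cellI : DCells k C K (infY k C (D.ρ D.r)) := D.inf.some
noncomputable def cellE (e : D.E) : ACells k C K (D.ρ (D.ch e) / D.ρ (D.pa e))
    (annY k C (D.a (D.ch e)) (D.ρ (D.pa e))) := (D.goodE e).some

/-- the ends of the base cells -/
inductive Bs : Type _
  | u (u : D.U) : Bs
  | i : Bs
  | o (e : D.E) : Bs
  | j (e : D.E) : Bs

namespace Bs

variable {D}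

/-- the vertex -/
def vx : Bs D → D.V
  | u x => D.uv x
  | i => D.r
  | o e => D.pa e
  | j e => D.ch e

/-- the coordinate -/
noncomputable def t : Bs D → RatFunc C
  | u x => fT (D.cU x) (D.ρ (D.uv x))
  | i => fI 0 (D.ρ D.r)
  | o e => fT (D.a (D.ch e)) (D.ρ (D.pa e))
  | j e => fI (D.a (D.ch e)) (D.ρ (D.ch e))

/-- the end of `C(x)` -/
noncomputable def E : Bs D → End2 C (RatFunc C)
  | u x => baseD (cellU D x)
  | i => baseD (cellI D)
  | o e => baseO (cellE D e)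
  | j e => baseI (cellE D e)

/-- the cells of `K` over the base cell -/
def J : Bs D → Type
  | u x => (cellU D x).J
  | i => (cellI D).J
  | o e => (cellE D e).J
  | j e => (cellE D e).J

noncomputable instance (b : Bs D) : Fintype b.J := by
  cases b
  · exact (cellU D _).fJ
  · exact (cellI D).fJ
  · exact (cellE D _).fJ
  · exact (cellE D _).fJ

noncomputable def m : ∀ b : Bs D, b.J → ℕ
  | u x => (cellU D x).m
  | i => (cellI D).m
  | o e => (cellE D e).m
  | j e => (cellE D e).m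

noncomputable def io : ∀ b : Bs D, b.J → K →ₐ[C] EE k C
  | u x => fun l => (toEE k C).comp ((cellU D x).io l)
  | i => fun l => (toEE k C).comp ((cellI D).io l)
  | o e => fun l => (cellE D e).io l
  | j e => fun l => io1A (cellE D e) l

theorem t_j (e : D.E) : algebraMap C (RatFunc C) (D.ρ (D.ch e) / D.ρ (D.pa e)) /
    fT (D.a (D.ch e)) (D.ρ (D.pa e)) = fI (D.a (D.ch e)) (D.ρ (D.ch e)) := by
  have h1 := ratC_ne (D.ρ_ne (D.pa e))
  have h2 := PL_109.X_sub_C_ne_zero (D.a (D.ch e))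
  rw [algC, map_div₀, fT, fI]
  field_simp

theorem one (b : Bs D) : b.E.nm b.t = 1 ∧ b.E.od b.t = 1 := by
  cases b with
  | u x => exact baseD_one (cellU D x) (i_fT (D.ρ_ne _) _)
  | i => exact baseD_one (cellI D) (i_fI (D.ρ_ne _) _)
  | o e => exact baseO_one (cellE D e) (i_annT (D.ρ_ne _) _)
  | j e =>
    have := baseI_one (cellE D e) (i_annT (D.ρ_ne _) _)
    rw [t_j] at this
    exact this

theorem gen (b : Bs D) : Gen C b.t := by
  cases b with
  | u x => exact gen_fT _ (D.ρ_ne _)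
  | i => exact gen_fI _ (D.ρ_ne _)
  | o e => exact gen_fT _ (D.ρ_ne _)
  | j e => exact gen_fI _ (D.ρ_ne _)

theorem gEnd (b : Bs D) : GEnd b.E b.m b.io := by
  cases b with
  | u x => exact gEnd_disc (cellU D x) (one (u x)).1 (one (u x)).2
  | i => exact gEnd_disc (cellI D) (one i).1 (one i).2
  | o e => exact gEnd_out (cellE D e) (spanA _) (one (o e)).1 (one (o e)).2
  | j e => exact gEnd_in (cellE D e) (spanA _) (one (j e)).1 (one (j e)).2

theorem sum_m (b : Bs D) : ∑ l, b.m l = finrank (RatFunc C) K := by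
  cases b with
  | u x => exact (cellU D x).sum_m
  | i => exact (cellI D).sum_m
  | o e => exact (cellE D e).sum_m
  | j e => exact (cellE D e).sum_m

/-- an end at which `t b` is a coordinate has the Gauss norm of the vertex of `b` -/
theorem nm_eq (b : Bs D) {F : End2 C (RatFunc C)} (h1 : F.nm b.t = 1) (h2 : 0 < F.od b.t) :
    F.nm = gvx D b.vx := by
  cases b with
  | u x =>
    have h := nm_eq_gauss (D.ρ_ne _) (nm_fT h1 h2) (by rw [Ne, nnnorm_eq_zero]; exact D.ρ_ne _)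
    rw [h]
    exact gaussR_congr _ _ rfl (D.cU_le x)
  | i =>
    have h := nm_eq_gauss (D.ρ_ne _) (nm_fI (D.ρ_ne _) h1 h2) (by rw [Ne, nnnorm_eq_zero]; exact D.ρ_ne _)
    rw [h]
    refine gaussR_congr _ _ rfl ?_
    show ‖(0 : C) - D.a D.r‖₊ ≤ _
    rw [D.a_r, sub_self, nnnorm_zero]
    exact zero_le
  | o e =>
    have h := nm_eq_gauss (D.ρ_ne _) (nm_fT h1 h2) (by rw [Ne, nnnorm_eq_zero]; exact D.ρ_ne _)
    rw [h]
    exact gaussR_congr _ _ rfl (D.E_le e)
  | j e =>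
    have h := nm_eq_gauss (D.ρ_ne _) (nm_fI (D.ρ_ne _) h1 h2) (by rw [Ne, nnnorm_eq_zero]; exact D.ρ_ne _)
    rw [h]
    rfl

theorem nm_E (b : Bs D) : b.E.nm = gvx D b.vx :=
  nm_eq b (one b).1 (by rw [(one b).2]; exact one_pos)

/-- **existence of the direction** -/
theorem exists_dir (x : D.V) (w : Nm C K) (hff : FF w)
    (hw : ∀ f, w.v (algebraMap (RatFunc C) K f) = gvx D x f) (y : Pl (Ct C) (kap w)) :
    ∃ b : Bs D, b.vx = x ∧ w.v (algebraMap (RatFunc C) K b.t) = 1 ∧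
      0 < Red332.od w y (algebraMap (RatFunc C) K b.t) := by
  set T0 : RatFunc C := fT (D.a x) (D.ρ x) with hT0
  have hρ := D.ρ_ne x
  have hρn : ‖D.ρ x‖₊ ≠ 0 := by rwa [Ne, nnnorm_eq_zero]
  -- values of `T0 - c`
  have hlin : ∀ c : C, w.v (algebraMap (RatFunc C) K T0 - algebraMap C K c) = max 1 ‖c‖₊ := by
    intro c
    have e1 : T0 - algebraMap C (RatFunc C) c = fT (D.a x + D.ρ x * c) (D.ρ x) := by
      rw [fT_change (D.a x + D.ρ x * c) (D.a x) _ hρ, sub_eq_add_neg, ← map_neg]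
      congr 2
      field_simp
      ring
    rw [IsScalarTower.algebraMap_apply C (RatFunc C) K, ← map_sub, e1, hw, fT, map_div₀, gvx,
      gaussR_X_sub, gaussR_C]
    have e2 : D.a x - (D.a x + D.ρ x * c) = -(D.ρ x * c) := by ring
    rw [e2, Valuation.map_neg, map_mul]
    show max ‖D.ρ x‖₊ (‖D.ρ x‖₊ * ‖c‖₊) / ‖D.ρ x‖₊ = _
    rw [← mul_one (‖D.ρ x‖₊), mul_assoc, ← mul_max_of_nonneg _ _ zero_le, one_mul,
      mul_one (‖D.ρ x‖₊), mul_div_cancel_left₀ _ hρn]
  have h1 : w.v (algebraMap (RatFunc C) K T0) = 1 := by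
    have := hlin 0
    rw [map_zero, sub_zero, nnnorm_zero, max_eq_left zero_le_one] at this
    exact this
  have hT1 : algebraMap (RatFunc C) K T0 ≠ 0 := by
    intro h0
    rw [h0, map_zero] at h1
    exact zero_ne_one h1
  rcases Red332.exists_dir w hff y h1 (fun c => by rw [hlin]; exact le_max_left _ _) with h2 | ⟨c, hc, h2, h3⟩
  · -- infinity
    have hI : w.v (algebraMap (RatFunc C) K (fI (D.a x) (D.ρ x))) = 1 ∧
        0 < Red332.od w y (algebraMap (RatFunc C) K (fI (D.a x) (D.ρ x))) := by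
      rw [fI_eq, map_inv₀, map_inv₀, h1, inv_one]
      refine ⟨rfl, ?_⟩
      rw [Red332.od_inv y hT1]
      omega
    by_cases hx : x = D.r
    · subst hx
      refine ⟨i, rfl, ?_, ?_⟩
      · show w.v (algebraMap (RatFunc C) K (fI 0 (D.ρ D.r))) = 1
        rw [← D.a_r]; exact hI.1
      · show 0 < Red332.od w y (algebraMap (RatFunc C) K (fI 0 (D.ρ D.r)))
        rw [← D.a_r]; exact hI.2
    · obtain ⟨e, rfl⟩ := (D.ch_range x).1 hx
      exact ⟨j e, rfl, hI.1, hI.2⟩
  · -- the direction of a constant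
    set c' : C := D.a x + D.ρ x * c with hc'
    have hle : ‖c' - D.a x‖₊ ≤ ‖D.ρ x‖₊ := by
      rw [hc', add_sub_cancel_left, nnnorm_mul]
      exact mul_le_of_le_one_right zero_le hc
    have e1 : algebraMap (RatFunc C) K T0 - algebraMap C K c =
        algebraMap (RatFunc C) K (fT c' (D.ρ x)) := by
      rw [fT_change c' (D.a x) _ hρ, map_add, ← IsScalarTower.algebraMap_apply, sub_eq_add_neg,
        ← map_neg]
      congr 2
      rw [hc']
      field_simp
      ring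
    rw [e1] at h2 h3
    have key : ∀ b : C, ‖b - c'‖₊ < ‖D.ρ x‖₊ →
        w.v (algebraMap (RatFunc C) K (fT b (D.ρ x))) = 1 ∧
        0 < Red332.od w y (algebraMap (RatFunc C) K (fT b (D.ρ x))) := by
      intro b hb
      have e2 : algebraMap (RatFunc C) K (fT b (D.ρ x)) =
          algebraMap (RatFunc C) K (fT c' (D.ρ x)) + algebraMap C K ((c' - b) / D.ρ x) := by
        rw [fT_change b c' _ hρ, map_add, ← IsScalarTower.algebraMap_apply]
      have hlt : ‖(c' - b) / D.ρ x‖₊ < 1 := by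
        rw [nnnorm_div, ← nnnorm_neg (c' - b), neg_sub]
        exact (div_lt_one (pos_iff_ne_zero.2 hρn)).2 hb
      have h4 := (ofPl w y).dir_congr (t := algebraMap (RatFunc C) K (fT c' (D.ρ x))) h2 hlt
      rw [e2]
      refine ⟨h4.1, ?_⟩
      have h5 : Red332.od w y (algebraMap (RatFunc C) K (fT c' (D.ρ x)) +
        algebraMap C K ((c' - b) / D.ρ x)) = Red332.od w y (algebraMap (RatFunc C) K (fT c' (D.ρ x))) := h4.2
      rw [h5]
      exact h3
    rcases D.dir x c' hle with ⟨e, he, h4⟩ | ⟨v, hv, h4⟩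
    · refine ⟨o e, he, ?_⟩
      show w.v (algebraMap (RatFunc C) K (fT (D.a (D.ch e)) (D.ρ (D.pa e)))) = 1 ∧
        0 < Red332.od w y (algebraMap (RatFunc C) K (fT (D.a (D.ch e)) (D.ρ (D.pa e))))
      rw [he]
      exact key _ h4
    · refine ⟨u v, hv, ?_⟩
      show w.v (algebraMap (RatFunc C) K (fT (D.cU v) (D.ρ (D.uv v)))) = 1 ∧
        0 < Red332.od w y (algebraMap (RatFunc C) K (fT (D.cU v) (D.ρ (D.uv v))))
      rw [hv]
      exact key _ h4

/-- the centre of a finite direction -/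
theorem fin_unique {F : End2 C (RatFunc C)} {a b ρ : C} (hρ : ρ ≠ 0) (h1 : F.nm (fT a ρ) = 1)
    (h2 : 0 < F.od (fT a ρ)) (h3 : F.nm (fT b ρ) = 1) (h4 : 0 < F.od (fT b ρ)) :
    ‖a - b‖₊ < ‖ρ‖₊ := by
  rw [fT_change b a ρ hρ] at h3 h4
  have h5 := F.dir_unique h1 h2 h3 h4
  rw [nnnorm_div, div_lt_one (pos_iff_ne_zero.2 (by rwa [Ne, nnnorm_eq_zero]))] at h5
  exact h5

/-- a finite direction is not infinity -/
theorem fin_inf {F : End2 C (RatFunc C)} {a b ρ : C} (hρ : ρ ≠ 0) (h1 : F.nm (fT a ρ) = 1)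
    (h2 : 0 < F.od (fT a ρ)) (h4 : 0 < F.od (fI b ρ)) (hab : ‖a - b‖₊ ≤ ‖ρ‖₊) : False := by
  rw [fI_eq, F.od_inv (fT_ne hρ)] at h4
  have h5 : fT b ρ = fT a ρ - algebraMap C _ (-((a - b) / ρ)) := by
    rw [map_neg, sub_neg_eq_add]
    exact fT_change b a ρ hρ
  have h6 := (F.lin_val h1 h2 (-((a - b) / ρ))).2
  rw [← h5] at h6
  split_ifs at h6 <;> omega

/-- **uniqueness of the direction** -/
theorem dir_unique {b b' : Bs D} {F : End2 C (RatFunc C)} (h1 : F.nm b.t = 1) (h2 : 0 < F.od b.t)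
    (h1' : F.nm b'.t = 1) (h2' : 0 < F.od b'.t) : b = b' := by
  have hv : b.vx = b'.vx := gvx_inj D (by rw [← nm_eq b h1 h2, nm_eq b' h1' h2'])
  have hne : ∀ e : D.E, D.ch e ≠ D.r := fun e => (D.ch_range _).2 ⟨e, rfl⟩
  have key : ∀ (c1 c2 : C) (x1 x2 : D.V), x1 = x2 → F.nm (fT c1 (D.ρ x1)) = 1 →
      0 < F.od (fT c1 (D.ρ x1)) → F.nm (fT c2 (D.ρ x2)) = 1 → 0 < F.od (fT c2 (D.ρ x2)) →
      ‖c1 - c2‖₊ < ‖D.ρ x1‖₊ := by
    rintro c1 c2 x1 _ rfl a1 a2 a3 a4
    exact fin_unique (D.ρ_ne _) a1 a2 a3 a4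
  have keyI : ∀ (c1 c2 : C) (x1 x2 : D.V), x1 = x2 → F.nm (fT c1 (D.ρ x1)) = 1 →
      0 < F.od (fT c1 (D.ρ x1)) → 0 < F.od (fI c2 (D.ρ x2)) → ‖c1 - c2‖₊ ≤ ‖D.ρ x1‖₊ → False := by
    rintro c1 c2 x1 _ rfl a1 a2 a3 a4
    exact fin_inf (D.ρ_ne _) a1 a2 a3 a4
  have rootle : ∀ (c : C) (x : D.V), x = D.r → ‖c - D.a x‖₊ ≤ ‖D.ρ x‖₊ → ‖c - 0‖₊ ≤ ‖D.ρ x‖₊ := by
    rintro c _ rfl h
    rwa [D.a_r] at h
  have chle : ∀ (c : C) (x : D.V) (e : D.E), x = D.ch e → ‖c - D.a x‖₊ ≤ ‖D.ρ x‖₊ →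
      ‖c - D.a (D.ch e)‖₊ ≤ ‖D.ρ x‖₊ := by
    rintro c _ e rfl h
    exact h
  have hUO : ∀ (x : D.U) (e : D.E), D.uv x = D.pa e → F.nm (fT (D.cU x) (D.ρ (D.uv x))) = 1 →
      0 < F.od (fT (D.cU x) (D.ρ (D.uv x))) → F.nm (fT (D.a (D.ch e)) (D.ρ (D.pa e))) = 1 →
      0 < F.od (fT (D.a (D.ch e)) (D.ρ (D.pa e))) → False := by
    intro x e hx a1 a2 a3 a4
    have h5 := key _ _ _ _ hx.symm a3 a4 a1 a2
    have h6 := D.dirV x (D.ch e) (by rw [hx]; exact h5)
    rw [hx] at h6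
    exact absurd (D.E_lt e) (not_lt.2 h6)
  cases b with
  | u x =>
    cases b' with
    | u x' => rw [D.dirU x x' hv (key _ _ _ _ hv h1 h2 h1' h2')]
    | i => exact (keyI _ _ _ _ hv h1 h2 h2' (rootle _ _ hv (D.cU_le x))).elim
    | o e => exact (hUO x e hv h1 h2 h1' h2').elim
    | j e => exact (keyI _ _ _ _ hv h1 h2 h2' (chle _ _ e hv (D.cU_le x))).elim
  | i =>
    cases b' with
    | u x' => exact (keyI _ _ _ _ hv.symm h1' h2' h2 (rootle _ _ hv.symm (D.cU_le x'))).elim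
    | i => rfl
    | o e => exact (keyI _ _ _ _ hv.symm h1' h2' h2 (rootle _ _ hv.symm (D.E_le e))).elim
    | j e => exact (hne e hv.symm).elim
  | o e =>
    cases b' with
    | u x' => exact (hUO x' e hv.symm h1' h2' h1 h2).elim
    | i => exact (keyI _ _ _ _ hv h1 h2 h2' (rootle _ _ hv (D.E_le e))).elim
    | o e' => rw [D.dirE e e' hv (key _ _ _ _ hv h1 h2 h1' h2')]
    | j e' => exact (keyI _ _ _ _ hv h1 h2 h2' (chle _ _ e' hv (D.E_le e))).elim
  | j e =>
    cases b' with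
    | u x' => exact (keyI _ _ _ _ hv.symm h1' h2' h2 (chle _ _ e hv.symm (D.cU_le x'))).elim
    | i => exact (hne e hv).elim
    | o e' => exact (keyI _ _ _ _ hv.symm h1' h2' h2 (chle _ _ e hv.symm (D.E_le e'))).elim
    | j e' => rw [D.ch_inj hv]

end Bs

/-- the vertex norms of `K` -/
def NK : Set (Nm C K) := {w | ∃ x : D.V, ∀ f, w.v (algebraMap (RatFunc C) K f) = gvx D x f}

/-- **the ends over all base cells** -/
theorem exists_pi (S : ∀ x : D.V, Nonempty (SAt (RatFunc C) K (gvx D x))) :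
    ∃ π : ∀ b : Bs D, b.J → End C K,
      (∀ b l z, gn (b.io l z) = (π b l).1.v z) ∧
      (∀ b l z, z ≠ 0 → EE809.od (b.io l z) = Red332.od (π b l).1 (π b l).2 z) ∧
      (∀ b l b' l', π b l = π b' l' → (⟨b, l⟩ : Σ b : Bs D, b.J) = ⟨b', l'⟩) ∧
      (∀ s : End C K, s.1 ∈ NK D ↔ ∃ b l, s = π b l) ∧
      (∀ b l f, (π b l).1.v (algebraMap (RatFunc C) K f) = gvx D b.vx f) := by
  classical
  have key := fun b : Bs D => (b.gEnd).exists_pi b.gen b.one.1 b.one.2 (by
    rw [b.nm_E]; exact (S b.vx).some) b.sum_m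
  choose π h1 h2 h3 h4 h5 using key
  have hnm : ∀ b l f, (π b l).1.v (algebraMap (RatFunc C) K f) = gvx D b.vx f := by
    intro b l f
    rw [← b.nm_E]
    exact (h2 b l).nm f
  have ht : ∀ b l, (π b l).1.v (algebraMap (RatFunc C) K b.t) = 1 ∧
      0 < Red332.od (π b l).1 (π b l).2 (algebraMap (RatFunc C) K b.t) := by
    intro b l
    have e1 := (h2 b l).nm b.t
    have e2 := (h2 b l).od b.t (b.E.ne_zero_of_one b.one.1)
    have e3 := (h2 b l).pos
    rw [b.one.1] at e1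
    rw [b.one.2, mul_one] at e2
    refine ⟨e1, ?_⟩
    have e4 : Red332.od (π b l).1 (π b l).2 (algebraMap (RatFunc C) K b.t) = b.m l := e2
    rw [e4]
    exact_mod_cast e3
  refine ⟨π, h4, h5, ?_, fun s => ⟨?_, ?_⟩, hnm⟩
  · intro b l b' l' h
    obtain ⟨a1, a2⟩ := ht b l
    obtain ⟨a3, a4⟩ := ht b' l'
    rw [← h] at a3 a4
    let F : End2 C (RatFunc C) := (ofPl (π b l).1 (π b l).2).comap
      (IsScalarTower.toAlgHom C (RatFunc C) K)
    have hb : b = b' := Bs.dir_unique (F := F) a1 a2 a3 a4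
    subst hb
    rw [h1 b h]
  · obtain ⟨w, y⟩ := s
    rintro ⟨x, hx⟩
    have hx' : ∀ f, w.v (algebraMap (RatFunc C) K f) = gvx D x f := hx
    have hff : FF w := by
      obtain ⟨S'⟩ := S x
      refine S'.ff (t := fT (D.a x) (D.ρ x)) (gen_fT _ (D.ρ_ne x)) ?_ ?_ w hx'
      · have h6 := gaussR_X_sub (v := nv C) (D.a x) (r := ‖D.ρ x‖₊)
          (by rw [Ne, nnnorm_eq_zero]; exact D.ρ_ne x) (D.a x)
        rw [fT, map_div₀, gvx, h6, gaussR_C, sub_self, map_zero, max_eq_left zero_le]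
        exact div_self (by rw [Ne, nnnorm_eq_zero]; exact D.ρ_ne x)
      · intro c
        have e1 : fT (D.a x) (D.ρ x) - algebraMap C (RatFunc C) c =
            fT (D.a x + D.ρ x * c) (D.ρ x) := by
          have hρ := D.ρ_ne x
          rw [fT_change (D.a x + D.ρ x * c) (D.a x) _ hρ, sub_eq_add_neg, ← map_neg]
          congr 2
          field_simp
          ring
        rw [e1, fT, map_div₀, gvx, gaussR_X_sub, gaussR_C]
        rw [le_div_iff₀ (pos_iff_ne_zero.2 (by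
          rw [Valuation.ne_zero_iff]; exact D.ρ_ne x)), one_mul]
        exact le_max_left _ _
    obtain ⟨b, hb, a1, a2⟩ := Bs.exists_dir x w hff hx' y
    have hov : Over b.E (ofPl w y) (Red332.od w y (algebraMap (RatFunc C) K b.t)).toNat :=
      over_of b.E b.gen b.one.1 b.one.2 _ a1 (by omega) (Int.toNat_of_nonneg a2.le).symm
    obtain ⟨l, hl⟩ := h3 b ⟨w, y⟩ _ hov
    exact ⟨b, l, hl⟩
  · rintro ⟨b, l, rfl⟩
    exact ⟨b.vx, hnm b l⟩

theorem NK_ff (S : ∀ x : D.V, Nonempty (SAt (RatFunc C) K (gvx D x))) (w : Nm C K) (hw : w ∈ NK D) :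
    FF w := by
  obtain ⟨x, hx'⟩ := hw
  obtain ⟨S'⟩ := S x
  refine S'.ff (t := fT (D.a x) (D.ρ x)) (gen_fT _ (D.ρ_ne x)) ?_ ?_ w hx'
  · have h6 := gaussR_X_sub (v := nv C) (D.a x) (r := ‖D.ρ x‖₊)
      (by rw [Ne, nnnorm_eq_zero]; exact D.ρ_ne x) (D.a x)
    rw [fT, map_div₀, gvx, h6, gaussR_C, sub_self, map_zero, max_eq_left zero_le]
    exact div_self (by rw [Ne, nnnorm_eq_zero]; exact D.ρ_ne x)
  · intro c
    have e1 : fT (D.a x) (D.ρ x) - algebraMap C (RatFunc C) c =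
        fT (D.a x + D.ρ x * c) (D.ρ x) := by
      have hρ := D.ρ_ne x
      rw [fT_change (D.a x + D.ρ x * c) (D.a x) _ hρ, sub_eq_add_neg, ← map_neg]
      congr 2
      field_simp
      ring
    rw [e1, fT, map_div₀, gvx, gaussR_X_sub, gaussR_C]
    rw [le_div_iff₀ (pos_iff_ne_zero.2 (by
      rw [Valuation.ne_zero_iff]; exact D.ρ_ne x)), one_mul]
    exact le_max_left _ _

theorem NK_finite (S : ∀ x : D.V, Nonempty (SAt (RatFunc C) K (gvx D x))) : (NK D).Finite := by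
  haveI := D.V_fin
  have h : NK D = ⋃ x : D.V, {w : Nm C K | ∀ f, w.v (algebraMap (RatFunc C) K f) = gvx D x f} := by
    ext w
    simp only [NK, Set.mem_setOf_eq, Set.mem_iUnion]
  rw [h]
  exact Set.finite_iUnion fun x => (S x).some.finite

end Crest.Agent.R013.Red332
end

-- ▼ part R013/Red16_332

/-!
# R013 / Red16: the semistable structure of a decomposition of the line, from the point data
(helper332)
-/

set_option autoImplicit false
set_option linter.all false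

universe u v w

namespace Crest.Agent.R013.Red332

open scoped NNReal
open WithZero IsLocalRing Polynomial Module
open Crest.Agent.R013.RR7_948
open Crest.Agent.R013.EE809 Crest.Agent.R013.CAn_243
open Crest.Agent.R013.Cell_408 Crest.Agent.R013.Comp_267 Crest.Agent.R013.Good_408
open Crest.Agent.R013.PL_109 Crest.Agent.R013.LineDec_315 Crest.Agent.R013.SSK_332

variable {k : Type v} {C : Type u} {K : Type w} [NontriviallyNormedField k]
    [CompleteSpace k] [IsUltrametricDist k] [NormedField C] [IsUltrametricDist C] [NormedAlgebra k C]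
    [Algebra.IsAlgebraic k C] [IsAlgClosed C] [hk : Fact (DiscNorm k)]
    [Field K] [Algebra C K] [Algebra (RatFunc C) K] [IsScalarTower C (RatFunc C) K]
    [FiniteDimensional (RatFunc C) K]

variable (D : LineDec k C K)

/-- the discs of `K` -/
abbrev KD : Type _ := (Σ u : D.U, (cellU D u).J) ⊕ (cellI D).J

/-- the annuli of `K` -/
abbrev KA : Type _ := Σ e : D.E, (cellE D e).J

variable {D}

noncomputable def kioD : KD D → K →ₐ[C] EE k C :=
  Sum.elim (fun q => (toEE k C).comp ((cellU D q.1).io q.2))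
    (fun l => (toEE k C).comp ((cellI D).io l))

noncomputable def kcA (a : KA D) : C := (cellE D a.1).c' a.2

noncomputable def kio0 (a : KA D) : K →ₐ[C] EE k C := (cellE D a.1).io a.2

noncomputable def kio1 (a : KA D) : K →ₐ[C] EE k C := io1A (cellE D a.1) a.2

variable (D)

/-- the point data of `KCells` -/
structure PtCells where
  ptD : KD D → ∀ τ : C, ‖τ‖ < 1 → Pl C K
  ptA : ∀ a : KA D, ∀ τ : C, ‖kcA a‖ < ‖τ‖ → ‖τ‖ < 1 → Pl C K
  ptD_ord : ∀ a τ hτ (f : K), f ≠ 0 → ∃ (n m : ℕ) (g h : EE k C), InD g ∧ InD h ∧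
    evE τ g ≠ 0 ∧ evE τ h ≠ 0 ∧ kioD a f * (lin τ ^ m * h) = lin τ ^ n * g ∧
    (ptD a τ hτ).v f = exp ((m : ℤ) - n)
  ptA_ord : ∀ a τ h0 h1 (f : K), f ≠ 0 → ∃ (n m : ℕ) (g h : EE k C), InA (kcA a) g ∧ InA (kcA a) h ∧
    evE τ g ≠ 0 ∧ evE τ h ≠ 0 ∧ kio0 a f * (lin τ ^ m * h) = lin τ ^ n * g ∧
    (ptA a τ h0 h1).v f = exp ((m : ℤ) - n)
  pt_surj : ∀ P : Pl C K, (∃ a τ hτ, P = ptD a τ hτ) ∨ ∃ a τ h0 h1, P = ptA a τ h0 h1
  ptD_inj : ∀ a τ hτ a' τ' hτ', ptD a τ hτ = ptD a' τ' hτ' → a = a' ∧ τ = τ'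
  ptA_inj : ∀ a τ h0 h1 a' τ' h0' h1', ptA a τ h0 h1 = ptA a' τ' h0' h1' → a = a' ∧ τ = τ'
  ptDA : ∀ a τ hτ a' τ' h0' h1', ptD a τ hτ ≠ ptA a' τ' h0' h1'

variable {D}

theorem kioD_disc (a : KD D) (f : K) :
    ∃ g h : EE k C, h ≠ 0 ∧ InD g ∧ InD h ∧ kioD a f * h = g := by
  have key : ∀ z : FD k C, ∃ g h : EE k C, h ≠ 0 ∧ InD g ∧ InD h ∧ toEE k C z * h = g := by
    intro z
    obtain ⟨g, h, hh, rfl⟩ := IsFractionRing.div_surjective (A := BD k C) z
    have hh0 : h ≠ 0 := nonZeroDivisors.ne_zero hh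
    have h1 : algebraMap (BD k C) (FD k C) h ≠ 0 := by
      intro h0
      exact hh0 (IsFractionRing.injective (BD k C) (FD k C) (by rw [h0, map_zero]))
    have h2 : toEE k C (algebraMap (BD k C) (FD k C) h) ≠ 0 := by rw [Ne, map_eq_zero]; exact h1
    refine ⟨ofBD g, ofBD h, ?_, fun n hn => co_ofBD_neg _ hn, fun n hn => co_ofBD_neg _ hn, ?_⟩
    · rw [← toEE_algebraMap]; exact h2
    · rw [map_div₀, ← toEE_algebraMap, ← toEE_algebraMap, div_mul_cancel₀ _ h2]
  rcases a with q | l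
  · exact key _
  · exact key _

/-- from the ends to the cells -/
def invF : (Σ b : Bs D, b.J) → KD D ⊕ (KA D ⊕ KA D)
  | ⟨Bs.u x, l⟩ => Sum.inl (Sum.inl ⟨x, l⟩)
  | ⟨Bs.i, l⟩ => Sum.inl (Sum.inr l)
  | ⟨Bs.o e, l⟩ => Sum.inr (Sum.inl ⟨e, l⟩)
  | ⟨Bs.j e, l⟩ => Sum.inr (Sum.inr ⟨e, l⟩)

/-- **the cells of `K`** -/
theorem exists_kcells (S : ∀ x : D.V, Nonempty (SAt (RatFunc C) K (gvx D x))) (P : PtCells D) :
    ∃ Z : KCells.{v, u, w, u, u} k C K, Z.N = NK D := by
  classical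
  obtain ⟨π, h1, h2, h3, h4, h5⟩ := exists_pi D S
  haveI := D.E_fin
  haveI : ∀ e : D.E, Finite (cellE D e).J := fun e => Finite.of_fintype _
  haveI hfin : Finite (KA D) := inferInstance
  let F : KD D ⊕ (KA D ⊕ KA D) → Σ b : Bs D, b.J :=
    Sum.elim (Sum.elim (fun q => (⟨Bs.u q.1, q.2⟩ : Σ b : Bs D, b.J))
      (fun l => (⟨Bs.i, l⟩ : Σ b : Bs D, b.J)))
      (Sum.elim (fun a => (⟨Bs.o a.1, a.2⟩ : Σ b : Bs D, b.J))
        (fun a => (⟨Bs.j a.1, a.2⟩ : Σ b : Bs D, b.J)))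
  have hF : Function.Injective F := by
    refine Function.LeftInverse.injective (g := invF) ?_
    rintro ((q | l) | (a | a)) <;> rfl
  let eD : KD D → End C K := fun a => π (F (Sum.inl a)).1 (F (Sum.inl a)).2
  let e0 : KA D → End C K := fun a => π (F (Sum.inr (Sum.inl a))).1 (F (Sum.inr (Sum.inl a))).2
  let e1 : KA D → End C K := fun a => π (F (Sum.inr (Sum.inr a))).1 (F (Sum.inr (Sum.inr a))).2
  have hval : ∀ z, Sum.elim eD (Sum.elim e0 e1) z = π (F z).1 (F z).2 := by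
    rintro (a | (a | a)) <;> rfl
  have a1 : ∀ (a : KD D) (f : K), gn (kioD a f) = (eD a).1.v f := by
    rintro (q | l) f
    · exact h1 (Bs.u q.1) q.2 f
    · exact h1 Bs.i l f
  have a2 : ∀ (a : KD D) (f : K), f ≠ 0 → EE809.od (kioD a f) = Red332.od (eD a).1 (eD a).2 f := by
    rintro (q | l) f hf
    · exact h2 (Bs.u q.1) q.2 f hf
    · exact h2 Bs.i l f hf
  have a3 : ∀ (a : KA D) (f : K), gn (kio0 a f) = (e0 a).1.v f :=
    fun a f => h1 (Bs.o a.1) a.2 f
  have a4 : ∀ (a : KA D) (f : K), f ≠ 0 → EE809.od (kio0 a f) = Red332.od (e0 a).1 (e0 a).2 f :=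
    fun a f hf => h2 (Bs.o a.1) a.2 f hf
  have a5 : ∀ (a : KA D) (f : K), gn (kio1 a f) = (e1 a).1.v f :=
    fun a f => h1 (Bs.j a.1) a.2 f
  have a6 : ∀ (a : KA D) (f : K), f ≠ 0 → EE809.od (kio1 a f) = Red332.od (e1 a).1 (e1 a).2 f :=
    fun a f hf => h2 (Bs.j a.1) a.2 f hf
  have a7 : ∀ (a : KA D) (f : K), ∃ g h g' h' : EE k C, h ≠ 0 ∧ InA (kcA a) g ∧ InA (kcA a) h ∧
      Flip (kcA a) g g' ∧ Flip (kcA a) h h' ∧ kio0 a f * h = g ∧ kio1 a f * h' = g' :=
    fun a f => io_annA (cellE D a.1) a.2 f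
  have a8 : Function.Injective (Sum.elim eD (Sum.elim e0 e1)) := by
    intro z z' h
    rw [hval, hval] at h
    exact hF (h3 _ _ _ _ h)
  have a9 : ∀ s : End C K, s.1 ∈ NK D ↔ ∃ a, s = Sum.elim eD (Sum.elim e0 e1) a := by
    intro s
    rw [h4 s]
    constructor
    · rintro ⟨b, l, rfl⟩
      cases b with
      | u x => exact ⟨Sum.inl (Sum.inl ⟨x, l⟩), rfl⟩
      | i => exact ⟨Sum.inl (Sum.inr l), rfl⟩
      | o e => exact ⟨Sum.inr (Sum.inl ⟨e, l⟩), rfl⟩
      | j e => exact ⟨Sum.inr (Sum.inr ⟨e, l⟩), rfl⟩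
    · rintro ⟨z, rfl⟩
      exact ⟨_, _, hval z⟩
  exact ⟨{
    N := NK D
    N_fin := NK_finite D S
    N_ff := fun w hw => NK_ff D S w hw
    KD := KD D
    ioD := kioD
    ioD_disc := kioD_disc
    endD := eD
    endD_gn := a1
    endD_od := a2
    KA := KA D
    KA_fin := hfin
    cA := kcA
    cA_ne := fun a => (cellE D a.1).c'_ne a.2
    cA_lt := fun a => (cellE D a.1).c'_lt a.2
    io0 := kio0
    io1 := kio1
    io_ann := a7
    end0 := e0
    end0_gn := a3
    end0_od := a4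
    end1 := e1
    end1_gn := a5
    end1_od := a6
    inj := a8
    surj := a9
    ptD := P.ptD
    ptA := P.ptA
    ptD_ord := P.ptD_ord
    ptA_ord := P.ptA_ord
    pt_surj := P.pt_surj
    ptD_inj := P.ptD_inj
    ptA_inj := P.ptA_inj
    ptDA := P.ptDA }, rfl⟩

/-- **the semistable structure of a decomposition of the line** -/
theorem exists_SSK_of_lineDec (S : ∀ x : D.V, Nonempty (SAt (RatFunc C) K (gvx D x)))
    (P : PtCells D) : ∃ T : SSK k C K, (∀ w : Nm C K, w ∈ NK D ↔ ∃ v, T.nm v = w) ∧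
      T.Base (Set.range (gvx D)) := by
  classical
  obtain ⟨Z, hZ⟩ := exists_kcells S P
  obtain ⟨T, hT, -⟩ := Z.exists_SSK
  rw [hZ] at hT
  refine ⟨T, hT, ?_, ?_⟩
  · haveI := D.V_fin
    exact Set.finite_range _
  · intro w
    constructor
    · rintro ⟨v, rfl⟩
      obtain ⟨x, hx⟩ := (hT _).2 ⟨v, rfl⟩
      refine ⟨x, ?_⟩
      ext f
      rw [Valuation.comap_apply, hx f]
    · rintro ⟨x, hx⟩
      have hx' : ∀ f, w (algebraMap (RatFunc C) K f) = gvx D x f := by
        intro f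
        rw [hx]
        rfl
      obtain ⟨S'⟩ := S x
      obtain ⟨i, hi⟩ := S'.complete w hx'
      have hC : ∀ c : C, gvx D x (algebraMap C _ c) = ‖c‖₊ := fun c => gaussR_C _ _ _ c
      have hval : ∀ f : RatFunc C, f ≠ 0 → ∃ c : C, gvx D x f = ‖c‖₊ := by
        intro f hf
        have hpol : ∀ q : C[X], q ≠ 0 → ∃ c : C, gvx D x (algebraMap C[X] (RatFunc C) q) = ‖c‖₊ := by
          intro q hq
          obtain ⟨l, hl, h⟩ := exists_gf_eq (nv C) ‖D.ρ x‖₊ (f := taylor (D.a x) q)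
            (fun h => hq ((taylor_eq_zero _ q).1 h))
          refine ⟨(taylor (D.a x) q).coeff l * D.ρ x ^ l, ?_⟩
          rw [gvx, gaussR_algebraMap, h, nnnorm_mul, nnnorm_pow]
          rfl
        obtain ⟨p, q, hq, rfl⟩ := IsFractionRing.div_surjective (A := C[X]) f
        have hq0 : q ≠ 0 := nonZeroDivisors.ne_zero hq
        have hp0 : p ≠ 0 := by
          rintro rfl
          exact hf (by rw [map_zero, zero_div])
        obtain ⟨a, ha⟩ := hpol p hp0
        obtain ⟨b, hb⟩ := hpol q hq0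
        exact ⟨a / b, by rw [map_div₀, ha, hb, nnnorm_div]⟩
      let w' : Nm C K := S'.nm hC hval i
      have hw' : w'.v = w := hi.symm
      obtain ⟨v, hv⟩ := (hT w').1 ⟨x, fun f => by rw [hw']; exact hx' f⟩
      exact ⟨v, by rw [hv, hw']⟩

end Crest.Agent.R013.Red332
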