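import Crest.Agent.R013.Cell3_408
import Mathlib
import Crest.Agent.R013.Comp3_267

-- ▼ part R013/Spr1_607
section

/-! # R013 / Spr1_607 : evaluation of bounded finitely defined power series at an element of norm `< 1`
of a complete ultrametric field over `C`. -/

set_option autoImplicit false
set_option linter.unusedSectionVars false

noncomputable section

namespace Crest.Agent.R013.Spread_607

open Topology Crest.Agent.R013.Cell_408

section Ev

variable {k C E : Type*} [NontriviallyNormedField k]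
  [NormedField C] [IsUltrametricDist C] [NormedAlgebra k C] [Algebra.IsAlgebraic k C]
  [NormedField E] [IsUltrametricDist E] [CompleteSpace E]
  (j : C →+* E) (hj : ∀ c, ‖j c‖ = ‖c‖)

include hj

theorem summable_norm_ev {f : PowerSeries C} {M : ℝ} (hf : ∀ n, ‖PowerSeries.coeff n f‖ ≤ M)
    {z : E} (hz : ‖z‖ < 1) : Summable fun n => ‖j (PowerSeries.coeff n f) * z ^ n‖ := by
  refine Summable.of_nonneg_of_le (fun n => norm_nonneg _) (fun n => ?_)
    ((summable_geometric_of_lt_one (norm_nonneg z) hz).mul_left M)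
  rw [norm_mul, norm_pow, hj]
  exact mul_le_mul_of_nonneg_right (hf n) (pow_nonneg (norm_nonneg _) _)

theorem summable_ev {f : PowerSeries C} {M : ℝ} (hf : ∀ n, ‖PowerSeries.coeff n f‖ ≤ M)
    {z : E} (hz : ‖z‖ < 1) : Summable fun n => j (PowerSeries.coeff n f) * z ^ n :=
  (summable_norm_ev j hj hf hz).of_norm

/-- evaluation -/
def ev {z : E} (hz : ‖z‖ < 1) : BD k C →+* E where
  toFun f := ∑' n, j (PowerSeries.coeff n (f : PowerSeries C)) * z ^ n
  map_one' := by
    rw [tsum_eq_single 0]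
    · simp
    · intro n hn
      simp [PowerSeries.coeff_one, hn]
  map_zero' := by simp
  map_add' f g := by
    obtain ⟨-, M, hM⟩ := mem_BD.1 f.2
    obtain ⟨-, N, hN⟩ := mem_BD.1 g.2
    rw [← (summable_ev j hj hM hz).tsum_add (summable_ev j hj hN hz)]
    refine tsum_congr fun n => ?_
    rw [Subalgebra.coe_add, map_add, map_add, add_mul]
  map_mul' f g := by
    obtain ⟨-, M, hM⟩ := mem_BD.1 f.2
    obtain ⟨-, N, hN⟩ := mem_BD.1 g.2
    rw [tsum_mul_tsum_eq_tsum_sum_antidiagonal_of_summable_norm (summable_norm_ev j hj hM hz)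
      (summable_norm_ev j hj hN hz)]
    refine tsum_congr fun n => ?_
    rw [Subalgebra.coe_mul, PowerSeries.coeff_mul, map_sum, Finset.sum_mul]
    refine Finset.sum_congr rfl fun p hp => ?_
    rw [Finset.HasAntidiagonal.mem_antidiagonal] at hp
    rw [map_mul, ← hp, pow_add]
    ring

theorem ev_apply {z : E} (hz : ‖z‖ < 1) (f : BD k C) :
    ev j hj hz f = ∑' n, j (PowerSeries.coeff n (f : PowerSeries C)) * z ^ n := rfl

theorem hasSum_ev {z : E} (hz : ‖z‖ < 1) (f : BD k C) :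
    HasSum (fun n => j (PowerSeries.coeff n (f : PowerSeries C)) * z ^ n) (ev j hj hz f) := by
  obtain ⟨-, M, hM⟩ := mem_BD.1 f.2
  exact (summable_ev j hj hM hz).hasSum

theorem ev_C {z : E} (hz : ‖z‖ < 1) (c : C) : ev j hj hz ⟨PowerSeries.C c, C_mem_BD (k := k) c⟩ = j c := by
  rw [ev_apply, tsum_eq_single 0]
  · simp
  · intro n hn
    simp [PowerSeries.coeff_C, hn]

theorem ev_X {z : E} (hz : ‖z‖ < 1) : ev j hj hz ⟨PowerSeries.X, X_mem_BD (k := k)⟩ = z := by
  rw [ev_apply, tsum_eq_single 1]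
  · simp
  · intro n hn
    simp [PowerSeries.coeff_X, hn]

theorem norm_ev_le {z : E} (hz : ‖z‖ < 1) (f : BD k C) {M : ℝ} (hM0 : 0 ≤ M)
    (hM : ∀ n, ‖PowerSeries.coeff n (f : PowerSeries C)‖ * ‖z‖ ^ n ≤ M) : ‖ev j hj hz f‖ ≤ M := by
  rw [ev_apply]
  refine IsUltrametricDist.norm_tsum_le_of_forall_le_of_nonneg hM0 fun n => ?_
  rw [norm_mul, norm_pow, hj]
  exact hM n

theorem norm_ev_le' {z : E} (hz : ‖z‖ < 1) (f : BD k C) {M : ℝ} (hM0 : 0 ≤ M)
    (hM : ∀ n, ‖PowerSeries.coeff n (f : PowerSeries C)‖ ≤ M) : ‖ev j hj hz f‖ ≤ M := by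
  refine norm_ev_le j hj hz f hM0 fun n => ?_
  calc _ ≤ M * 1 := mul_le_mul (hM n) (pow_le_one₀ (norm_nonneg _) hz.le)
        (pow_nonneg (norm_nonneg _) _) hM0
    _ = M := mul_one M


theorem ev_pow_smul {z : E} (hz : ‖z‖ < 1) (c : C) (n : ℕ) :
    ev j hj hz ⟨PowerSeries.C c * PowerSeries.X ^ n,
      mul_mem (C_mem_BD (k := k) c) (pow_mem X_mem_BD n)⟩ = j c * z ^ n := by
  have : (⟨PowerSeries.C c * PowerSeries.X ^ n,
      mul_mem (C_mem_BD (k := k) c) (pow_mem X_mem_BD n)⟩ : BD k C) =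
      ⟨PowerSeries.C c, C_mem_BD c⟩ * ⟨PowerSeries.X, X_mem_BD⟩ ^ n := rfl
  rw [this, map_mul, map_pow, ev_C, ev_X]

theorem ev_poly {z : E} (hz : ‖z‖ < 1) (P : Polynomial C) :
    ev j hj hz ⟨(P : PowerSeries C), coe_mem_BD (k := k) P⟩ = P.eval₂ j z := by
  induction P using Polynomial.induction_on' with
  | add p q hp hq =>
    have : (⟨((p + q : Polynomial C) : PowerSeries C), coe_mem_BD (k := k) _⟩ : BD k C) =
      ⟨(p : PowerSeries C), coe_mem_BD p⟩ + ⟨(q : PowerSeries C), coe_mem_BD q⟩ := by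
        apply Subtype.ext; simp
    rw [this, map_add, hp, hq, Polynomial.eval₂_add]
  | monomial n c =>
    have : (⟨((Polynomial.monomial n c : Polynomial C) : PowerSeries C), coe_mem_BD (k := k) _⟩ :
        BD k C) = ⟨PowerSeries.C c * PowerSeries.X ^ n,
      mul_mem (C_mem_BD (k := k) c) (pow_mem X_mem_BD n)⟩ := by
        apply Subtype.ext
        simp [← Polynomial.C_mul_X_pow_eq_monomial]
    rw [this, ev_pow_smul, Polynomial.eval₂_monomial]

/-- the polynomial truncations approximate -/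
theorem norm_ev_sub_trunc {z : E} (hz : ‖z‖ < 1) (f : BD k C) {M : ℝ} (hM0 : 0 ≤ M)
    (hM : ∀ n, ‖PowerSeries.coeff n (f : PowerSeries C)‖ ≤ M) (N : ℕ) :
    ‖ev j hj hz f - (PowerSeries.trunc N (f : PowerSeries C)).eval₂ j z‖ ≤ M * ‖z‖ ^ N := by
  rw [← ev_poly (k := k) j hj hz, ← map_sub]
  refine norm_ev_le j hj hz _ (mul_nonneg hM0 (pow_nonneg (norm_nonneg _) _)) fun n => ?_
  rw [Subalgebra.coe_sub, map_sub, Polynomial.coeff_coe, PowerSeries.coeff_trunc]
  split_ifs with h
  · rw [sub_self, norm_zero, zero_mul]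
    exact mul_nonneg hM0 (pow_nonneg (norm_nonneg _) _)
  · rw [sub_zero]
    exact mul_le_mul (hM n) (pow_le_pow_of_le_one (norm_nonneg _) hz.le (not_lt.1 h))
      (pow_nonneg (norm_nonneg _) _) hM0

end Ev

end Crest.Agent.R013.Spread_607
end
end

-- ▼ part R013/Spr2_607
section

/-! # R013 / Spr2_607 : Newton's method in an abstract complete ultrametric ring (sup norm given by a
predicate `Bd M a`). -/

set_option autoImplicit false
set_option linter.unusedSectionVars false

noncomputable section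

namespace Crest.Agent.R013.Spread_607

/-- a complete ultrametric ring, the norm given by a predicate -/
structure UBall (A : Type*) [CommRing A] (Bd : ℝ → A → Prop) : Prop where
  zero : ∀ M, 0 ≤ M → Bd M 0
  one : Bd 1 1
  add : ∀ M a b, Bd M a → Bd M b → Bd M (a + b)
  neg : ∀ M a, Bd M a → Bd M (-a)
  mul : ∀ M N a b, 0 ≤ M → 0 ≤ N → Bd M a → Bd N b → Bd (M * N) (a * b)
  mono : ∀ M N a, M ≤ N → Bd M a → Bd N a
  sep : ∀ a, (∀ M, 0 < M → Bd M a) → a = 0
  complete : ∀ (θ c : ℝ), 0 ≤ θ → θ < 1 → 0 ≤ c → ∀ Z : ℕ → A,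
    (∀ n, Bd (c * θ ^ n) (Z (n + 1) - Z n)) → ∃ z, ∀ n, Bd (c * θ ^ n) (z - Z n)

namespace UBall

variable {A : Type*} [CommRing A] {Bd : ℝ → A → Prop} (h : UBall A Bd)

include h

theorem sub {M : ℝ} {a b : A} (ha : Bd M a) (hb : Bd M b) : Bd M (a - b) := by
  rw [sub_eq_add_neg]; exact h.add _ _ _ ha (h.neg _ _ hb)

theorem sum {ι : Type*} {M : ℝ} (hM : 0 ≤ M) (s : Finset ι) (f : ι → A) (hf : ∀ i ∈ s, Bd M (f i)) :
    Bd M (∑ i ∈ s, f i) := by
  classical
  induction s using Finset.induction_on with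
  | empty => simpa using h.zero M hM
  | insert i s hi ih =>
    rw [Finset.sum_insert hi]
    exact h.add _ _ _ (hf i (Finset.mem_insert_self _ _))
      (ih fun j hj => hf j (Finset.mem_insert_of_mem hj))

theorem pow {M : ℝ} (hM : 0 ≤ M) {a : A} (ha : Bd M a) (n : ℕ) : Bd (M ^ n) (a ^ n) := by
  induction n with
  | zero => simpa using h.one
  | succ n ih =>
    rw [pow_succ, pow_succ]
    exact h.mul _ _ _ _ (pow_nonneg hM n) hM ih ha

theorem eq_of_forall {a b : A} (hab : ∀ M, 0 < M → Bd M (a - b)) : a = b :=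
  sub_eq_zero.1 (h.sep _ hab)

/-- difference of powers -/
theorem pow_sub_pow {θ δ : ℝ} (hθ : 0 ≤ θ) (hδ : 0 ≤ δ) {a b : A} (ha : Bd θ a) (hb : Bd θ b)
    (hab : Bd δ (a - b)) (n : ℕ) : Bd (θ ^ n * δ) (a ^ (n + 1) - b ^ (n + 1)) := by
  have e : a ^ (n + 1) - b ^ (n + 1) =
      (∑ i ∈ Finset.range (n + 1), a ^ i * b ^ (n + 1 - 1 - i)) * (a - b) :=
    (Commute.all a b).geom_sum₂_mul (n + 1) |>.symm
  rw [e]
  refine h.mul _ _ _ _ (pow_nonneg hθ n) hδ (h.sum (pow_nonneg hθ n) _ _ fun i hi => ?_) hab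
  have hi' : i ≤ n := Nat.lt_succ_iff.1 (Finset.mem_range.1 hi)
  have := h.mul _ _ _ _ (pow_nonneg hθ i) (pow_nonneg hθ (n + 1 - 1 - i)) (h.pow hθ ha i)
    (h.pow hθ hb (n + 1 - 1 - i))
  rwa [← pow_add, show i + (n + 1 - 1 - i) = n by omega] at this

variable (P : Polynomial A) {θ M : ℝ} (hθ : 0 ≤ θ) (hM : 1 ≤ M) (hθM : M * θ < 1)
  (h0 : Bd θ (P.coeff 0)) (h1 : P.coeff 1 = 1) (hj : ∀ j, 2 ≤ j → Bd M (P.coeff j))

include hθ hM hθM h1 hj

theorem contraction {δ : ℝ} (hδ : 0 ≤ δ) {a b : A} (ha : Bd θ a) (hb : Bd θ b)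
    (hab : Bd δ (a - b)) : Bd (M * θ * δ) (P.eval a - P.eval b - (a - b)) := by
  have hM0 : 0 ≤ M := zero_le_one.trans hM
  have hθ1 : θ ≤ 1 := by nlinarith
  set N := P.natDegree + 2 with hN
  have e1 : ∀ z : A, P.eval z = P.coeff 0 + P.coeff 1 * z +
      ∑ i ∈ Finset.range P.natDegree, P.coeff (i + 2) * z ^ (i + 2) := by
    intro z
    rw [Polynomial.eval_eq_sum_range' (n := N) (by omega), hN, Finset.sum_range_succ',
      Finset.sum_range_succ']
    simp only [pow_zero, mul_one, zero_add, pow_one]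
    ring
  have e2 : P.eval a - P.eval b - (a - b) =
      ∑ i ∈ Finset.range P.natDegree, P.coeff (i + 2) * (a ^ (i + 2) - b ^ (i + 2)) := by
    rw [e1 a, e1 b, h1]
    simp only [mul_sub, Finset.sum_sub_distrib]
    ring
  rw [e2]
  refine h.sum (by positivity) _ _ fun i _ => ?_
  have h3 := h.mul _ _ _ _ hM0 (mul_nonneg (pow_nonneg hθ _) hδ) (hj (i + 2) (by omega))
    (h.pow_sub_pow hθ hδ ha hb hab (i + 1))
  refine h.mono _ _ _ ?_ h3
  have h4 : θ ^ (i + 1) ≤ θ := by
    rw [pow_succ]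
    exact mul_le_of_le_one_left hθ (pow_le_one₀ hθ hθ1)
  calc M * (θ ^ (i + 1) * δ) ≤ M * (θ * δ) := by
        gcongr
    _ = M * θ * δ := by ring

include h0

theorem stable {a : A} (ha : Bd θ a) : Bd θ (a - P.eval a) := by
  have hM0 : 0 ≤ M := zero_le_one.trans hM
  have h2 : Bd θ (a - 0) := by simpa using ha
  have h3 := h.contraction P hθ hM hθM h1 hj hθ ha (h.zero θ hθ) h2
  have h5 : Bd θ (P.eval a - P.eval 0 - (a - 0)) := h.mono _ _ _ (by nlinarith) h3
  have e : a - P.eval a = -(P.eval a - P.eval 0 - (a - 0)) - P.coeff 0 := by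
    rw [← Polynomial.coeff_zero_eq_eval_zero]; ring
  rw [e]
  exact h.sub (h.neg _ _ h5) h0

/-- **Newton's method**. -/
theorem newton : ∃ z, Bd θ z ∧ P.eval z = 0 := by
  have hM0 : 0 ≤ M := zero_le_one.trans hM
  have hMθ : 0 ≤ M * θ := mul_nonneg hM0 hθ
  let Z : ℕ → A := fun n => Nat.rec 0 (fun _ a => a - P.eval a) n
  have hZ0 : Z 0 = 0 := rfl
  have hZs : ∀ n, Z (n + 1) = Z n - P.eval (Z n) := fun n => rfl
  have hZb : ∀ n, Bd θ (Z n) := by
    intro n
    induction n with
    | zero => rw [hZ0]; exact h.zero θ hθ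
    | succ n ih => rw [hZs]; exact h.stable P hθ hM hθM h0 h1 hj ih
  have hZd : ∀ n, Bd (θ * (M * θ) ^ n) (Z (n + 1) - Z n) := by
    intro n
    induction n with
    | zero =>
      rw [pow_zero, mul_one]
      exact h.sub (hZb 1) (hZb 0)
    | succ n ih =>
      have h3 := h.contraction P hθ hM hθM h1 hj (by positivity) (hZb (n + 1)) (hZb n) ih
      have e : Z (n + 1 + 1) - Z (n + 1) = -(P.eval (Z (n + 1)) - P.eval (Z n) -
          (Z (n + 1) - Z n)) := by
        rw [hZs (n + 1), hZs n]; ring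
      rw [e]
      have h4 := h.neg _ _ h3
      rwa [show M * θ * (θ * (M * θ) ^ n) = θ * (M * θ) ^ (n + 1) by ring] at h4
  obtain ⟨z, hz⟩ := h.complete (M * θ) θ hMθ hθM hθ Z hZd
  have hzb : Bd θ z := by
    have := hz 0
    rw [pow_zero, mul_one, hZ0, sub_zero] at this
    exact this
  refine ⟨z, hzb, ?_⟩
  refine h.sep _ fun ε hε => ?_
  have hlim : Filter.Tendsto (fun n : ℕ => θ * (M * θ) ^ n) Filter.atTop (nhds (θ * 0)) :=
    (tendsto_pow_atTop_nhds_zero_of_lt_one hMθ hθM).const_mul θ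
  rw [mul_zero] at hlim
  obtain ⟨n, hn⟩ := (hlim.eventually (gt_mem_nhds hε)).exists
  have h3 := h.contraction P hθ hM hθM h1 hj (by positivity) hzb (hZb n) (hz n)
  have h4 : Bd ε (P.eval z - P.eval (Z n) - (z - Z n)) := by
    refine h.mono _ _ _ ?_ h3
    nlinarith
  have h5 : Bd ε (P.eval (Z n)) := by
    have := h.neg _ _ (hZd n)
    have e : -(Z (n + 1) - Z n) = P.eval (Z n) := by rw [hZs]; ring
    rw [e] at this
    exact h.mono _ _ _ hn.le this
  have e : P.eval z = (P.eval z - P.eval (Z n) - (z - Z n)) + (P.eval (Z n) + (z - Z n)) := by ring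
  rw [e]
  exact h.add _ _ _ h4 (h.add _ _ _ h5 (h.mono _ _ _ hn.le (hz n)))

end UBall

end Crest.Agent.R013.Spread_607
end
end

-- ▼ part R013/Spr3_607
section

/-! # R013 / Spr3_607 : (1) the level `L` of bounded power series is a complete ball;
(2) SP1: elements of `E` algebraic over the dense subfield `FT` lie in all small cells. -/

set_option autoImplicit false
set_option linter.unusedSectionVars false

noncomputable section

namespace Crest.Agent.R013.Spread_607

open Topology Crest.Agent.R013.Cell_408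

section Level

variable {k C : Type*} [NontriviallyNormedField k] [CompleteSpace k]
  [NormedField C] [IsUltrametricDist C] [NormedAlgebra k C] [Algebra.IsAlgebraic k C]

/-- bound on the coefficients -/
def BdS (M : ℝ) (f : BD k C) : Prop := ∀ n, ‖PowerSeries.coeff n (f : PowerSeries C)‖ ≤ M

/-- the subring of `BD` of series with coefficients in `L` -/
def lev (L : IntermediateField k C) : Subring (BD k C) where
  carrier := {f | ∀ n, PowerSeries.coeff n (f : PowerSeries C) ∈ L}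
  mul_mem' {f g} hf hg n := by
    change PowerSeries.coeff n ((f : PowerSeries C) * (g : PowerSeries C)) ∈ L
    rw [PowerSeries.coeff_mul]
    exact sum_mem fun p _ => mul_mem (hf _) (hg _)
  one_mem' n := by
    change PowerSeries.coeff n (1 : PowerSeries C) ∈ L
    rw [PowerSeries.coeff_one]; split_ifs
    · exact one_mem _
    · exact zero_mem _
  add_mem' {f g} hf hg n := by
    change PowerSeries.coeff n ((f : PowerSeries C) + (g : PowerSeries C)) ∈ L
    rw [map_add]; exact add_mem (hf n) (hg n)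
  zero_mem' n := by
    change PowerSeries.coeff n (0 : PowerSeries C) ∈ L
    rw [map_zero]; exact zero_mem _
  neg_mem' {f} hf n := by
    change PowerSeries.coeff n (-(f : PowerSeries C)) ∈ L
    rw [map_neg]; exact neg_mem (hf n)

theorem exists_lev (T : Finset (BD k C)) :
    ∃ L : IntermediateField k C, FiniteDimensional k L ∧ ∀ f ∈ T, f ∈ lev L := by
  classical
  induction T using Finset.induction_on with
  | empty => exact ⟨⊥, inferInstance, by simp⟩
  | insert f T _ ih =>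
    obtain ⟨L, hL, h1⟩ := ih
    obtain ⟨M, hM, h2⟩ := (mem_BD.1 f.2).1
    refine ⟨L ⊔ M, IntermediateField.finiteDimensional_sup L M, fun g hg n => ?_⟩
    rcases Finset.mem_insert.1 hg with rfl | hg
    · exact (le_sup_right : M ≤ L ⊔ M) (h2 n)
    · exact (le_sup_left : L ≤ L ⊔ M) (h1 g hg n)

theorem bdS_mul {M N : ℝ} {f g : BD k C} (hM : 0 ≤ M) (hN : 0 ≤ N) (hf : BdS M f) (hg : BdS N g) :
    BdS (M * N) (f * g) := by
  intro n
  change ‖PowerSeries.coeff n ((f : PowerSeries C) * (g : PowerSeries C))‖ ≤ _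
  rw [PowerSeries.coeff_mul]
  refine IsUltrametricDist.norm_sum_le_of_forall_le_of_nonneg (mul_nonneg hM hN) fun p _ => ?_
  rw [norm_mul]
  exact mul_le_mul (hf _) (hg _) (norm_nonneg _) hM

theorem bdS_add {M : ℝ} {f g : BD k C} (hf : BdS M f) (hg : BdS M g) : BdS M (f + g) := by
  intro n
  change ‖PowerSeries.coeff n ((f : PowerSeries C) + (g : PowerSeries C))‖ ≤ _
  rw [map_add]
  exact (IsUltrametricDist.norm_add_le_max _ _).trans (max_le (hf n) (hg n))

theorem bdS_neg {M : ℝ} {f : BD k C} (hf : BdS M f) : BdS M (-f) := by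
  intro n
  change ‖PowerSeries.coeff n (-(f : PowerSeries C))‖ ≤ _
  rw [map_neg, norm_neg]
  exact hf n

theorem uball_lev (L : IntermediateField k C) [FiniteDimensional k L] :
    UBall (lev L) (fun M f => BdS M (f : BD k C)) where
  zero M hM n := by
    change ‖PowerSeries.coeff n (0 : PowerSeries C)‖ ≤ M
    rw [map_zero, norm_zero]; exact hM
  one n := by
    change ‖PowerSeries.coeff n (1 : PowerSeries C)‖ ≤ 1
    rw [PowerSeries.coeff_one]; split_ifs <;> simp
  add M a b ha hb := bdS_add ha hb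
  neg M a ha := bdS_neg ha
  mul M N a b hM hN ha hb := bdS_mul hM hN ha hb
  mono M N a hMN ha n := (ha n).trans hMN
  sep a ha := by
    apply Subtype.ext
    apply Subtype.ext
    ext n
    change PowerSeries.coeff n ((a : BD k C) : PowerSeries C) = PowerSeries.coeff n (0 : PowerSeries C)
    rw [map_zero, ← norm_le_zero_iff]
    refine le_of_forall_pos_le_add fun ε hε => ?_
    rw [zero_add]
    exact ha ε hε n
  complete θ c hθ0 hθ1 hc Z hZ := by
    have : CompleteSpace L := FiniteDimensional.complete k L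
    -- coefficient sequences
    let a : ℕ → ℕ → L := fun m n => ⟨PowerSeries.coeff n (((Z m : lev L) : BD k C) : PowerSeries C),
      (Z m).2 n⟩
    have had : ∀ m n, ‖a (m + 1) n - a m n‖ ≤ c * θ ^ m := by
      intro m n
      have h1 := hZ m n
      have e : PowerSeries.coeff n ((((Z (m + 1) - Z m : lev L)) : BD k C) : PowerSeries C) =
          ((a (m + 1) n - a m n : L) : C) := by
        change PowerSeries.coeff n ((((Z (m + 1) : lev L)) : BD k C) : PowerSeries C) -
          PowerSeries.coeff n (((Z m : lev L) : BD k C) : PowerSeries C) = _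
        rfl
      rw [e] at h1
      exact h1
    have hcau : ∀ n, CauchySeq (fun m => a m n) := fun n =>
      cauchySeq_of_le_geometric θ c hθ1 fun m => by
        rw [dist_comm, dist_eq_norm]; exact had m n
    choose b hb using fun n => cauchySeq_tendsto_of_complete (hcau n)
    have hfar : ∀ m n p, ‖a (m + p) n - a m n‖ ≤ c * θ ^ m := by
      intro m n p
      induction p with
      | zero => rw [add_zero, sub_self, norm_zero]; positivity
      | succ p ih =>
        have e : a (m + (p + 1)) n - a m n = (a (m + p + 1) n - a (m + p) n) + (a (m + p) n - a m n) := by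
          rw [← add_assoc]; ring
        rw [e]
        refine (IsUltrametricDist.norm_add_le_max _ _).trans (max_le ?_ ih)
        refine (had _ _).trans ?_
        exact mul_le_mul_of_nonneg_left (pow_le_pow_of_le_one hθ0 hθ1.le (Nat.le_add_right _ _)) hc
    have hlim : ∀ m n, ‖b n - a m n‖ ≤ c * θ ^ m := by
      intro m n
      have h1 : Filter.Tendsto (fun p => ‖a (m + p) n - a m n‖) Filter.atTop
          (𝓝 ‖b n - a m n‖) := by
        have h2 : Filter.Tendsto (fun p => a (m + p) n) Filter.atTop (𝓝 (b n)) := by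
          have := (hb n).comp (Filter.tendsto_add_atTop_nat m)
          refine this.congr fun p => ?_
          simp only [Function.comp]
          rw [add_comm]
        exact (h2.sub tendsto_const_nhds).norm
      exact le_of_tendsto' h1 (hfar m n)
    obtain ⟨-, M0, hM0⟩ := mem_BD.1 ((Z 0 : lev L) : BD k C).2
    have hmem : (PowerSeries.mk fun n => ((b n : L) : C)) ∈ BD k C := by
      refine mem_BD.2 ⟨⟨L, inferInstance, fun n => ?_⟩, max M0 c, fun n => ?_⟩
      · dsimp only
        rw [PowerSeries.coeff_mk]; exact (b n).2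
      · rw [PowerSeries.coeff_mk]
        have h1 := hlim 0 n
        rw [pow_zero, mul_one] at h1
        have e : ((b n : L) : C) = ((b n - a 0 n : L) : C) + ((a 0 n : L) : C) := by
          push_cast; ring
        rw [e]
        refine (IsUltrametricDist.norm_add_le_max _ _).trans (max_le ?_ ?_)
        · exact le_trans h1 (le_max_right _ _)
        · exact (hM0 n).trans (le_max_left _ _)
    refine ⟨⟨⟨PowerSeries.mk fun n => ((b n : L) : C), hmem⟩, fun n => ?_⟩, fun m n => ?_⟩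
    · change PowerSeries.coeff n (PowerSeries.mk fun n => ((b n : L) : C)) ∈ L
      rw [PowerSeries.coeff_mk]; exact (b n).2
    · change ‖PowerSeries.coeff n ((PowerSeries.mk fun n => ((b n : L) : C)) -
        (((Z m : lev L) : BD k C) : PowerSeries C))‖ ≤ _
      rw [map_sub, PowerSeries.coeff_mk]
      exact hlim m n

end Level

section SP1

variable {E : Type*} [NormedField E] [IsUltrametricDist E] [CharZero E]

omit [IsUltrametricDist E] [CharZero E] in
theorem hasseDeriv_map' (FT : Subfield E) (m : ℕ) (F : Polynomial FT) :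
    Polynomial.hasseDeriv m (F.map (algebraMap FT E)) =
      (Polynomial.hasseDeriv m F).map (algebraMap FT E) := by
  ext n
  rw [Polynomial.hasseDeriv_coeff, Polynomial.coeff_map, Polynomial.coeff_map,
    Polynomial.hasseDeriv_coeff, map_mul, map_natCast]

/-- Elements of `E` which are algebraic over the subfield `FT` and limits of elements of `FT` lie in
every small cell. -/
theorem sp1 (FT : Subfield E) {ι : Type*} (l : Filter ι) (A : ι → Type*) [∀ i, CommRing (A i)]
    (Bd : ∀ i, ℝ → A i → Prop)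
    (hA : ∀ i, ∀ T : Finset (A i), ∃ B : Subring (A i), (∀ a ∈ T, a ∈ B) ∧
      UBall B (fun M b => Bd i M (b : A i)))
    (φ : ∀ i, A i →+* E) (hφ : ∀ i M a, Bd i M a → ‖φ i a‖ ≤ M)
    (hFT : ∀ e ∈ FT, ∀ η : ℝ, 1 < η → ∀ᶠ i in l, ∃ a : A i, φ i a = e ∧ Bd i (η * ‖e‖) a)
    {s : E} (hs : IsAlgebraic FT s) (hcl : s ∈ closure (FT : Set E)) {η : ℝ} (hη : 1 < η) :
    ∀ᶠ i in l, ∃ a : A i, φ i a = s ∧ Bd i (η * ‖s‖) a := by
  classical
  rcases eq_or_ne s 0 with h0 | h0
  · rw [h0]; exact hFT 0 FT.zero_mem η hη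
  set F : Polynomial FT := minpoly FT s with hF
  have hint : IsIntegral FT s := hs.isIntegral
  have hirr : Irreducible F := minpoly.irreducible hint
  have hsep : F.Separable := hirr.separable
  have hFs : Polynomial.aeval s F = 0 := minpoly.aeval _ _
  have hF's : Polynomial.aeval s (Polynomial.derivative F) ≠ 0 := hsep.aeval_derivative_ne_zero hFs
  set N := F.natDegree + 2 with hN
  -- the functions of the base point
  let q : ℕ → E → E := fun i y => Polynomial.aeval y (Polynomial.hasseDeriv i F)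
  have hqc : ∀ i, Continuous (q i) := fun i => by
    have : q i = fun y => Polynomial.eval₂ (algebraMap FT E) y (Polynomial.hasseDeriv i F) := rfl
    rw [this]
    have h2 : (fun y => Polynomial.eval₂ (algebraMap FT E) y (Polynomial.hasseDeriv i F)) =
        fun y => Polynomial.eval y ((Polynomial.hasseDeriv i F).map (algebraMap FT E)) := by
      funext y; rw [Polynomial.eval_map]
    rw [h2]
    exact Polynomial.continuous _
  let D : E → E := q 1
  have hDs : D s ≠ 0 := by
    change Polynomial.aeval s (Polynomial.hasseDeriv 1 F) ≠ 0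
    rw [Polynomial.hasseDeriv_one]; exact hF's
  let c : ℕ → E → E := fun i y => q i y * D y ^ i / D y ^ 2
  have hcc : ∀ i, ContinuousAt (c i) s := fun i =>
    (((hqc i).continuousAt).mul (((hqc 1).continuousAt).pow i)).div (((hqc 1).continuousAt).pow 2)
      (pow_ne_zero 2 hDs)
  obtain ⟨M0, hM0, hM0'⟩ : ∃ M0 : ℝ, 1 ≤ M0 ∧ ∀ i ∈ Finset.range N, ‖c i s‖ < M0 := by
    refine ⟨1 + ∑ i ∈ Finset.range N, ‖c i s‖, ?_, fun i hi => ?_⟩
    · have : 0 ≤ ∑ i ∈ Finset.range N, ‖c i s‖ := Finset.sum_nonneg fun i _ => norm_nonneg _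
      linarith
    · have : ‖c i s‖ ≤ ∑ i ∈ Finset.range N, ‖c i s‖ :=
        Finset.single_le_sum (f := fun i => ‖c i s‖) (fun i _ => norm_nonneg _) hi
      linarith
  -- the contraction constant
  have hη0 : 0 < η := one_pos.trans hη
  obtain ⟨θ, hθ0, hθ1, hθ2⟩ : ∃ θ : ℝ, 0 < θ ∧ η * M0 * θ < 1 ∧ (‖D s‖) * θ < ‖s‖ := by
    have hs0 : 0 < ‖s‖ := norm_pos_iff.2 h0
    have hD0 : 0 < ‖D s‖ := norm_pos_iff.2 hDs
    refine ⟨min (1 / (2 * (η * M0))) (‖s‖ / (2 * ‖D s‖)), ?_, ?_, ?_⟩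
    · have : 0 < η * M0 := by positivity
      positivity
    · have h1 : 0 < η * M0 := by positivity
      calc η * M0 * min (1 / (2 * (η * M0))) (‖s‖ / (2 * ‖D s‖))
          ≤ η * M0 * (1 / (2 * (η * M0))) := by gcongr; exact min_le_left _ _
        _ = 1 / 2 := by field_simp
        _ < 1 := by norm_num
    · calc ‖D s‖ * min (1 / (2 * (η * M0))) (‖s‖ / (2 * ‖D s‖))
          ≤ ‖D s‖ * (‖s‖ / (2 * ‖D s‖)) := by gcongr; exact min_le_right _ _
        _ = ‖s‖ / 2 := by field_simp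
        _ < ‖s‖ := by linarith
  -- choice of the base point
  have hev : ∀ᶠ y in 𝓝 s, D y ≠ 0 ∧ (∀ i ∈ Finset.range N, ‖c i y‖ < M0) ∧ ‖c 0 y‖ < θ / η ∧
      ‖(s - y) / D y‖ < θ ∧ ‖D y‖ * θ < ‖s‖ ∧ ‖s - y‖ < ‖s‖ := by
    refine Filter.Eventually.and ?_ (Filter.Eventually.and ?_ (Filter.Eventually.and ?_
      (Filter.Eventually.and ?_ (Filter.Eventually.and ?_ ?_))))
    · exact (hqc 1).continuousAt.eventually_ne hDs
    · rw [Filter.eventually_all_finset]
      intro i hi
      exact ((hcc i).norm).eventually (gt_mem_nhds (hM0' i hi))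
    · have h1 : c 0 s = 0 := by
        change q 0 s * D s ^ 0 / D s ^ 2 = 0
        have : q 0 s = 0 := by
          change Polynomial.aeval s (Polynomial.hasseDeriv 0 F) = 0
          rw [Polynomial.hasseDeriv_zero']; exact hFs
        rw [this]; simp
      refine ((hcc 0).norm).eventually (gt_mem_nhds ?_)
      change ‖c 0 s‖ < θ / η
      rw [h1, norm_zero]; positivity
    · have h1 : ContinuousAt (fun y => (s - y) / D y) s :=
        (continuousAt_const.sub continuousAt_id).div (hqc 1).continuousAt hDs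
      refine h1.norm.eventually (gt_mem_nhds ?_)
      change ‖(s - s) / D s‖ < θ
      rw [sub_self, zero_div, norm_zero]
      exact hθ0
    · have h1 : ContinuousAt (fun y => ‖D y‖ * θ) s :=
        ((hqc 1).continuousAt.norm).mul continuousAt_const
      exact h1.eventually (gt_mem_nhds hθ2)
    · have h1 : ContinuousAt (fun y => s - y) s := continuousAt_const.sub continuousAt_id
      refine h1.norm.eventually (gt_mem_nhds ?_)
      change ‖s - s‖ < ‖s‖
      rw [sub_self, norm_zero]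
      exact norm_pos_iff.2 h0
  obtain ⟨y, hyFT, hDy, hcM, hc0, hu, hDθ, hsy⟩ :=
    ((mem_closure_iff_frequently.1 hcl).and_eventually hev).exists
  -- everything is in FT
  have hyFT' : y ∈ FT := hyFT
  have hqFT : ∀ i, q i y ∈ FT := fun i => by
    have e : q i y = ((Polynomial.eval (⟨y, hyFT'⟩ : FT) (Polynomial.hasseDeriv i F) : FT) : E) := by
      change Polynomial.aeval y (Polynomial.hasseDeriv i F) = _
      exact Polynomial.aeval_algebraMap_apply_eq_algebraMap_eval (A := E)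
        (⟨y, hyFT'⟩ : FT) (Polynomial.hasseDeriv i F)
    rw [e]; exact Subtype.mem _
  have hcFT : ∀ i, c i y ∈ FT := fun i =>
    FT.div_mem (FT.mul_mem (hqFT i) (FT.pow_mem (hqFT 1) i)) (FT.pow_mem (hqFT 1) 2)
  have hny : ‖y‖ = ‖s‖ := by
    have e : y = s + -(s - y) := by ring
    rw [e, IsUltrametricDist.norm_add_eq_max_of_norm_ne_norm (by rw [norm_neg]; exact hsy.ne'),
      norm_neg, max_eq_left hsy.le]
  -- eventually in the cells
  have hall : ∀ᶠ i in l, (∀ m ∈ Finset.range N, ∃ a : A i, φ i a = c m y ∧ Bd i (η * ‖c m y‖) a) ∧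
      (∃ a : A i, φ i a = y ∧ Bd i (η * ‖y‖) a) ∧ ∃ a : A i, φ i a = D y ∧ Bd i (η * ‖D y‖) a := by
    refine Filter.Eventually.and ?_ (Filter.Eventually.and (hFT y hyFT' η hη) (hFT _ (hqFT 1) η hη))
    rw [Filter.eventually_all_finset]
    intro m _
    exact hFT _ (hcFT m) η hη
  filter_upwards [hall] with i hi
  obtain ⟨h1, ⟨ay, hay1, hay2⟩, aD, haD1, haD2⟩ := hi
  choose! g hg1 hg2 using h1
  let T : Finset (A i) := (Finset.range N).image g ∪ {ay, aD}
  obtain ⟨B, hTB, hB⟩ := hA i T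
  have hgB : ∀ m ∈ Finset.range N, g m ∈ B := fun m hm =>
    hTB _ (Finset.mem_union_left _ (Finset.mem_image_of_mem g hm))
  have hayB : ay ∈ B := hTB _ (Finset.mem_union_right _ (by simp))
  have haDB : aD ∈ B := hTB _ (Finset.mem_union_right _ (by simp))
  -- the polynomial over B
  let G : Polynomial B := ∑ m ∈ (Finset.range N).attach,
    Polynomial.monomial m.1 (if m.1 = 1 then (1 : B) else ⟨g m.1, hgB m.1 m.2⟩)
  have hGc : ∀ m (hm : m ∈ Finset.range N), G.coeff m = if m = 1 then (1 : B) else ⟨g m, hgB m hm⟩ := by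
    intro m hm
    rw [Polynomial.finsetSum_coeff]
    rw [Finset.sum_eq_single ⟨m, hm⟩]
    · rw [Polynomial.coeff_monomial]; simp
    · rintro ⟨b, hb⟩ _ hne
      rw [Polynomial.coeff_monomial, if_neg]
      intro h; exact hne (Subtype.ext h)
    · intro h; exact absurd (Finset.mem_attach _ _) h
  have hGc' : ∀ m, m ∉ Finset.range N → G.coeff m = 0 := by
    intro m hm
    rw [Polynomial.finsetSum_coeff]
    refine Finset.sum_eq_zero fun b _ => ?_
    rw [Polynomial.coeff_monomial, if_neg]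
    intro h; exact hm (h ▸ b.2)
  have hN1 : 1 ∈ Finset.range N := Finset.mem_range.2 (by omega)
  have hN0 : 0 ∈ Finset.range N := Finset.mem_range.2 (by omega)
  have hM0' : (0 : ℝ) ≤ M0 := zero_le_one.trans hM0
  have hM1 : 1 ≤ η * M0 := by nlinarith
  have hG0 : Bd i θ ((G.coeff 0 : B) : A i) := by
    rw [hGc 0 hN0, if_neg zero_ne_one]
    refine hB.mono _ _ ⟨g 0, hgB 0 hN0⟩ ?_ (hg2 0 hN0)
    rw [lt_div_iff₀ hη0] at hc0
    nlinarith
  have hG1 : G.coeff 1 = 1 := by rw [hGc 1 hN1, if_pos rfl]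
  have hGj : ∀ m, 2 ≤ m → Bd i (η * M0) ((G.coeff m : B) : A i) := by
    intro m hm
    by_cases hmN : m ∈ Finset.range N
    · rw [hGc m hmN, if_neg (by omega)]
      refine hB.mono _ _ ⟨g m, hgB m hmN⟩ ?_ (hg2 m hmN)
      exact mul_le_mul_of_nonneg_left (hcM m hmN).le hη0.le
    · rw [hGc' m hmN]
      exact hB.zero _ (by positivity)
  obtain ⟨z, hz1, hz2⟩ := hB.newton G hθ0.le hM1 hθ1 hG0 hG1 hGj
  -- compare with the root in E
  let GE : Polynomial E := G.map ((φ i).comp B.subtype)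
  have hc1 : c 1 y = 1 := by
    change q 1 y * D y ^ 1 / D y ^ 2 = 1
    change D y * D y ^ 1 / D y ^ 2 = 1
    field_simp
  have hGE : ∀ m, GE.coeff m = if m ∈ Finset.range N then c m y else 0 := by
    intro m
    rw [Polynomial.coeff_map]
    split_ifs with hm
    · rw [hGc m hm]
      split_ifs with h1
      · rw [map_one, h1, hc1]
      · exact hg1 m hm
    · rw [hGc' m hm, map_zero]
  set u := (s - y) / D y with hudef
  have hGEu : GE.eval u = 0 := by
    have hdegGE : GE.natDegree < N := by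
      have : GE.natDegree ≤ N - 1 := by
        rw [Polynomial.natDegree_le_iff_coeff_eq_zero]
        intro m hm
        rw [hGE, if_neg]
        rw [Finset.mem_range]; omega
      omega
    rw [Polynomial.eval_eq_sum_range' hdegGE]
    have e1 : ∀ m ∈ Finset.range N, GE.coeff m * u ^ m = (q m y * (s - y) ^ m) / D y ^ 2 := by
      intro m hm
      rw [hGE, if_pos hm, hudef]
      change q m y * D y ^ m / D y ^ 2 * ((s - y) / D y) ^ m = _
      rw [div_pow]
      field_simp
    rw [Finset.sum_congr rfl e1, ← Finset.sum_div]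
    have e2 : ∑ m ∈ Finset.range N, q m y * (s - y) ^ m = Polynomial.aeval s F := by
      have h1 : Polynomial.aeval s F = (Polynomial.taylor y (F.map (algebraMap FT E))).eval (s - y) := by
        rw [Polynomial.taylor_eval_sub, Polynomial.eval_map_algebraMap]
      rw [h1, Polynomial.eval_eq_sum_range' (n := N)]
      · refine Finset.sum_congr rfl fun m _ => ?_
        rw [Polynomial.taylor_coeff]
        congr 1
        change Polynomial.aeval y (Polynomial.hasseDeriv m F) = _
        rw [hasseDeriv_map', Polynomial.eval_map_algebraMap]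
      · rw [Polynomial.natDegree_taylor, Polynomial.natDegree_map]
        omega
    rw [e2, hFs, zero_div]
  -- uniqueness
  have huz : (φ i).comp B.subtype z = u := by
    by_contra hne
    set v := (φ i).comp B.subtype z with hv
    have hv1 : ‖v‖ ≤ θ := hφ i θ _ hz1
    have hGEv : GE.eval v = 0 := by
      rw [hv, Polynomial.eval_map, Polynomial.eval₂_at_apply, hz2, map_zero]
    have hdiff : v - u ≠ 0 := sub_ne_zero.2 hne
    have hu1 : ‖u‖ ≤ θ := hu.le
    have key : ‖GE.eval v - GE.eval u - (v - u)‖ ≤ (η * M0) * θ * ‖v - u‖ := by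
      have e1 : ∀ x : E, GE.eval x = GE.coeff 0 + x +
          ∑ m ∈ Finset.range GE.natDegree, GE.coeff (m + 2) * x ^ (m + 2) := by
        intro x
        rw [Polynomial.eval_eq_sum_range' (n := GE.natDegree + 2) (by omega), Finset.sum_range_succ',
          Finset.sum_range_succ']
        have : GE.coeff (0 + 1) = 1 := by rw [zero_add, hGE, if_pos hN1, hc1]
        rw [this]
        simp only [pow_zero, mul_one, zero_add, pow_one, one_mul]
        ring
      have e2 : GE.eval v - GE.eval u - (v - u) =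
          ∑ m ∈ Finset.range GE.natDegree, GE.coeff (m + 2) * (v ^ (m + 2) - u ^ (m + 2)) := by
        rw [e1 v, e1 u]
        simp only [mul_sub, Finset.sum_sub_distrib]
        ring
      rw [e2]
      refine IsUltrametricDist.norm_sum_le_of_forall_le_of_nonneg (by positivity) fun m _ => ?_
      have hcoef : ‖GE.coeff (m + 2)‖ ≤ η * M0 := by
        rw [hGE]
        split_ifs with hm
        · refine (hcM _ hm).le.trans ?_
          nlinarith
        · rw [norm_zero]; positivity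
      have hp : ‖v ^ (m + 2) - u ^ (m + 2)‖ ≤ θ ^ (m + 1) * ‖v - u‖ := by
        have e : v ^ (m + 2) - u ^ (m + 2) =
            (∑ a ∈ Finset.range (m + 2), v ^ a * u ^ (m + 2 - 1 - a)) * (v - u) :=
          ((Commute.all v u).geom_sum₂_mul (m + 2)).symm
        rw [e, norm_mul]
        refine mul_le_mul_of_nonneg_right ?_ (norm_nonneg _)
        refine IsUltrametricDist.norm_sum_le_of_forall_le_of_nonneg (by positivity) fun a ha => ?_
        rw [norm_mul, norm_pow, norm_pow]
        have ha' : a ≤ m + 1 := Nat.lt_succ_iff.1 (Finset.mem_range.1 ha)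
        calc ‖v‖ ^ a * ‖u‖ ^ (m + 2 - 1 - a) ≤ θ ^ a * θ ^ (m + 2 - 1 - a) := by gcongr
          _ = θ ^ (m + 1) := by rw [← pow_add]; congr 1; omega
      rw [norm_mul]
      have hθle : θ ≤ 1 := by nlinarith
      calc ‖GE.coeff (m + 2)‖ * ‖v ^ (m + 2) - u ^ (m + 2)‖
          ≤ (η * M0) * (θ ^ (m + 1) * ‖v - u‖) := by gcongr
        _ ≤ (η * M0) * (θ * ‖v - u‖) := by
            have : θ ^ (m + 1) ≤ θ := by
              rw [pow_succ]; exact mul_le_of_le_one_left hθ0.le (pow_le_one₀ hθ0.le hθle)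
            gcongr
        _ = (η * M0) * θ * ‖v - u‖ := by ring
    rw [hGEv, hGEu, sub_self, zero_sub, norm_neg] at key
    have : 0 < ‖v - u‖ := norm_pos_iff.2 hdiff
    nlinarith
  -- conclusion
  refine ⟨ay + aD * (z : A i), ?_, ?_⟩
  · have h2 : φ i (z : A i) = u := huz
    rw [map_add, map_mul, hay1, haD1, h2, hudef]
    field_simp
    ring
  · have h2 := hB.mul _ _ (⟨aD, haDB⟩ : B) z (by positivity) hθ0.le haD2 hz1
    have h3 : Bd i (η * ‖s‖) ((⟨aD, haDB⟩ * z : B) : A i) := by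
      refine hB.mono _ _ _ ?_ h2
      calc η * ‖D y‖ * θ = η * (‖D y‖ * θ) := by ring
        _ ≤ η * ‖s‖ := by gcongr
    have h4 := hB.add _ (⟨ay, hayB⟩ : B) _ (by rw [← hny]; exact hay2) h3
    exact h4

end SP1

end Crest.Agent.R013.Spread_607
end
end

-- ▼ part R013/Spr4_607

/-! # R013 / Spr4_607 : discs around a point of type 4.

`E` complete ultrametric field over `C` (isometric `j : C → E`), `t : E` with
`∀ c, ∃ c', ‖t - c'‖ < ‖t - c‖`. `Dc j t` = open discs `D(τ, ‖σ‖)` containing `t`, `U.ev : BD → E`,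
`T ↦ (t - τ)/σ`; `l4` = filter of small discs. -/

set_option autoImplicit false
set_option linter.unusedSectionVars false

noncomputable section

namespace Crest.Agent.R013.Spread_607

open Topology Crest.Agent.R013.Cell_408 Crest.Agent.R013.Comp_267

variable {k C E : Type*} [NontriviallyNormedField k] [CompleteSpace k] [IsUltrametricDist k]
  [NormedField C] [IsUltrametricDist C] [NormedAlgebra k C] [Algebra.IsAlgebraic k C] [IsAlgClosed C]
  [NormedField E] [IsUltrametricDist E] [CompleteSpace E]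

/-- open discs containing `t` -/
structure Dc (j : C →+* E) (t : E) where
  τ : C
  σ : C
  lt : ‖t - j τ‖ < ‖σ‖

/-- type 4 -/
def Ty4 (j : C →+* E) (t : E) : Prop := ∀ c, ∃ c', ‖t - j c'‖ < ‖t - j c‖

section Basic

variable {j : C →+* E} {t : E}

theorem Dc.σ_ne (U : Dc j t) : U.σ ≠ 0 := by
  have := (norm_nonneg _).trans_lt U.lt
  exact norm_pos_iff.1 this

theorem Dc.σ_pos (U : Dc j t) : 0 < ‖U.σ‖ := norm_pos_iff.2 U.σ_ne

/-- the filter of small discs -/
def l4 (j : C →+* E) (t : E) : Filter (Dc j t) where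
  sets := {S | ∃ c, ∀ U : Dc j t, ‖U.σ‖ ≤ ‖t - j c‖ → U ∈ S}
  univ_sets := ⟨0, fun _ _ => trivial⟩
  sets_of_superset := by
    rintro S S' ⟨c, h⟩ hSS
    exact ⟨c, fun U hU => hSS (h U hU)⟩
  inter_sets := by
    rintro S S' ⟨c, h⟩ ⟨c', h'⟩
    rcases le_total ‖t - j c‖ ‖t - j c'‖ with hc | hc
    · exact ⟨c, fun U hU => ⟨h U hU, h' U (hU.trans hc)⟩⟩
    · exact ⟨c', fun U hU => ⟨h U (hU.trans hc), h' U hU⟩⟩

theorem eventually_l4 {P : Dc j t → Prop} :
    (∀ᶠ U in l4 j t, P U) ↔ ∃ c, ∀ U : Dc j t, ‖U.σ‖ ≤ ‖t - j c‖ → P U := Iff.rfl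

theorem Ty4.pos (ht : Ty4 j t) (c : C) : 0 < ‖t - j c‖ := by
  obtain ⟨c', hc'⟩ := ht c
  exact (norm_nonneg _).trans_lt hc'

theorem Ty4.ne (ht : Ty4 j t) (c : C) : t ≠ j c := fun h => by
  have := ht.pos c
  rw [h, sub_self, norm_zero] at this
  exact lt_irrefl _ this

variable (hj : ∀ c, ‖j c‖ = ‖c‖)

include hj

theorem Dc.norm_lt (U : Dc j t) : ‖(t - j U.τ) / j U.σ‖ < 1 := by
  rw [norm_div, hj, div_lt_one U.σ_pos]; exact U.lt

/-- evaluation at `t` of functions on the disc -/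
def Dc.ev (U : Dc j t) : BD k C →+* E := Spread_607.ev (k := k) j hj (U.norm_lt hj)

theorem Dc.ev_C (U : Dc j t) (c : C) : U.ev (k := k) hj ⟨PowerSeries.C c, C_mem_BD c⟩ = j c :=
  Spread_607.ev_C j hj _ c

theorem Dc.ev_algebraMap (U : Dc j t) (c : C) : U.ev (k := k) hj (algebraMap C (BD k C) c) = j c :=
  Spread_607.ev_C j hj _ c

theorem Dc.ev_XB (U : Dc j t) : U.ev (k := k) hj XB = (t - j U.τ) / j U.σ :=
  Spread_607.ev_X j hj _

theorem Dc.norm_ev_le (U : Dc j t) {M : ℝ} {a : BD k C} (ha : BdS M a) :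
    ‖U.ev (k := k) hj a‖ ≤ M := by
  have hM : 0 ≤ M := (norm_nonneg _).trans (ha 0)
  exact Spread_607.norm_ev_le' j hj _ a hM ha

/-- a disc around `t` of given radius -/
theorem exists_dc (ht : Ty4 j t) (c : C) : ∃ U : Dc j t, ‖U.σ‖ = ‖t - j c‖ := by
  obtain ⟨c', hc'⟩ := ht c
  have e : ‖c' - c‖ = ‖t - j c‖ := by
    rw [← hj, map_sub]
    have : j c' - j c = (t - j c) + -(t - j c') := by ring
    rw [this, IsUltrametricDist.norm_add_eq_max_of_norm_ne_norm (by rw [norm_neg]; exact hc'.ne'),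
      norm_neg, max_eq_left hc'.le]
  exact ⟨⟨c', c' - c, by rw [e]; exact hc'⟩, e⟩

theorem l4_neBot (ht : Ty4 j t) : (l4 j t).NeBot := by
  rw [Filter.neBot_iff]
  intro h
  have h1 : (∅ : Set (Dc j t)) ∈ l4 j t := by rw [h]; exact Filter.mem_bot
  obtain ⟨c, hc⟩ := h1
  obtain ⟨U, hU⟩ := exists_dc hj ht c
  exact hc U hU.le

/-- the element `t - α` on small discs: a dominated unit -/
theorem lin_cell (ht : Ty4 j t) (α : C) : ∀ᶠ U in l4 j t,
    (∃ a : BD k C, U.ev (k := k) hj a = t - j α ∧ BdS ‖t - j α‖ a) ∧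
    (∃ a : BD k C, U.ev (k := k) hj a = (t - j α)⁻¹ ∧ BdS ‖(t - j α)⁻¹‖ a) := by
  obtain ⟨c, hc⟩ := ht α
  refine eventually_l4.2 ⟨c, fun U hU => ?_⟩
  have h1 : ‖U.σ‖ < ‖t - j α‖ := hU.trans_lt hc
  have h2 : ‖t - j U.τ‖ < ‖t - j α‖ := U.lt.trans h1
  have e : ‖U.τ - α‖ = ‖t - j α‖ := by
    rw [← hj, map_sub]
    have : j U.τ - j α = (t - j α) + -(t - j U.τ) := by ring
    rw [this, IsUltrametricDist.norm_add_eq_max_of_norm_ne_norm (by rw [norm_neg]; exact h2.ne'),
      norm_neg, max_eq_left h2.le]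
  have hne : U.τ - α ≠ 0 := norm_pos_iff.1 (by rw [e]; exact ht.pos α)
  have hjne : j (U.τ - α) ≠ 0 := by
    rw [← norm_pos_iff, hj]; exact norm_pos_iff.2 hne
  have hjσ : j U.σ ≠ 0 := by rw [← norm_pos_iff, hj]; exact U.σ_pos
  set β := U.σ / (U.τ - α) with hβ
  have hβ1 : ‖β‖ < 1 := by
    rw [hβ, norm_div, e, div_lt_one (ht.pos α)]; exact h1
  -- the unit 1 + β T
  let u : PowerSeries C := PowerSeries.C 1 + PowerSeries.C β * PowerSeries.X
  have hu0 : PowerSeries.coeff 0 u = 1 := by simp [u]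
  have hu1 : PowerSeries.coeff 1 u = β := by simp [u, PowerSeries.coeff_one]
  have hun : ∀ n, 2 ≤ n → PowerSeries.coeff n u = 0 := by
    intro n hn
    obtain ⟨m, rfl⟩ : ∃ m, n = m + 1 := ⟨n - 1, by omega⟩
    have : m ≠ 0 := by omega
    simp [u, PowerSeries.coeff_one, PowerSeries.coeff_succ_mul_X, PowerSeries.coeff_C, this]
  have hmemu : u ∈ BD k C :=
    add_mem (C_mem_BD 1) (mul_mem (C_mem_BD β) X_mem_BD)
  have hule : ∀ n, ‖PowerSeries.coeff n u‖ ≤ 1 := by
    intro n
    rcases Nat.lt_or_ge n 2 with h | h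
    · interval_cases n
      · rw [hu0, norm_one]
      · rw [hu1]; exact hβ1.le
    · rw [hun n h, norm_zero]; exact zero_le_one
  have hU1 : IsU k u := ⟨hmemu.1, hule, by rw [hu0, norm_one]⟩
  obtain ⟨v, hv, huv⟩ := hU1.inv
  have hevu : U.ev (k := k) hj ⟨u, hmemu⟩ = 1 + j β * ((t - j U.τ) / j U.σ) := by
    have e1 : (⟨u, hmemu⟩ : BD k C) = ⟨PowerSeries.C 1, C_mem_BD 1⟩ +
        ⟨PowerSeries.C β, C_mem_BD β⟩ * XB := rfl
    rw [e1, map_add, map_mul, U.ev_C, U.ev_C, U.ev_XB, map_one]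
  have hevu' : j (U.τ - α) * U.ev (k := k) hj ⟨u, hmemu⟩ = t - j α := by
    rw [hevu, hβ, map_div₀]
    field_simp
    rw [map_sub]; ring
  have hevuv : U.ev (k := k) hj ⟨u, hmemu⟩ * U.ev (k := k) hj ⟨v, hv.mem⟩ = 1 := by
    rw [← map_mul, show (⟨u, hmemu⟩ : BD k C) * ⟨v, hv.mem⟩ = 1 from Subtype.ext huv, map_one]
  constructor
  · refine ⟨algebraMap C (BD k C) (U.τ - α) * ⟨u, hmemu⟩, ?_, ?_⟩
    · rw [map_mul, U.ev_algebraMap]; exact hevu'
    · rw [← e]
      have h3 : BdS ‖U.τ - α‖ (algebraMap C (BD k C) (U.τ - α)) := by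
        intro n
        change ‖PowerSeries.coeff n (PowerSeries.C (U.τ - α))‖ ≤ _
        rw [PowerSeries.coeff_C]; split_ifs <;> simp
      have := bdS_mul (norm_nonneg _) zero_le_one h3 (show BdS 1 (⟨u, hmemu⟩ : BD k C) from hule)
      rwa [mul_one] at this
  · refine ⟨algebraMap C (BD k C) (U.τ - α)⁻¹ * ⟨v, hv.mem⟩, ?_, ?_⟩
    · rw [map_mul, U.ev_algebraMap, map_inv₀]
      rw [← hevu', mul_inv]
      congr 1
      exact eq_inv_of_mul_eq_one_right hevuv
    · rw [norm_inv, ← e, ← norm_inv]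
      have h3 : BdS ‖(U.τ - α)⁻¹‖ (algebraMap C (BD k C) (U.τ - α)⁻¹) := by
        intro n
        change ‖PowerSeries.coeff n (PowerSeries.C (U.τ - α)⁻¹)‖ ≤ _
        rw [PowerSeries.coeff_C]; split_ifs
        · exact le_rfl
        · rw [norm_zero]; exact norm_nonneg _
      have := bdS_mul (norm_nonneg _) zero_le_one h3 (show BdS 1 (⟨v, hv.mem⟩ : BD k C) from hv.le)
      rwa [mul_one] at this

omit hj in
theorem cell_mul (U : Dc j t) (hj : ∀ c, ‖j c‖ = ‖c‖) {e e' : E}
    (h : ∃ a : BD k C, U.ev (k := k) hj a = e ∧ BdS ‖e‖ a)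
    (h' : ∃ a : BD k C, U.ev (k := k) hj a = e' ∧ BdS ‖e'‖ a) :
    ∃ a : BD k C, U.ev (k := k) hj a = e * e' ∧ BdS ‖e * e'‖ a := by
  obtain ⟨a, ha, hb⟩ := h
  obtain ⟨a', ha', hb'⟩ := h'
  refine ⟨a * a', by rw [map_mul, ha, ha'], ?_⟩
  rw [norm_mul]
  exact bdS_mul (norm_nonneg _) (norm_nonneg _) hb hb'

theorem const_cell (U : Dc j t) (c : C) : ∃ a : BD k C, U.ev (k := k) hj a = j c ∧ BdS ‖j c‖ a := by
  refine ⟨algebraMap C (BD k C) c, U.ev_algebraMap hj c, fun n => ?_⟩
  change ‖PowerSeries.coeff n (PowerSeries.C c)‖ ≤ _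
  rw [hj, PowerSeries.coeff_C]; split_ifs
  · exact le_rfl
  · rw [norm_zero]; exact norm_nonneg _

/-- polynomials in `t` and their inverses on small discs -/
theorem poly_cell (ht : Ty4 j t) (P : Polynomial C) : ∀ᶠ U in l4 j t,
    (∃ a : BD k C, U.ev (k := k) hj a = P.eval₂ j t ∧ BdS ‖P.eval₂ j t‖ a) ∧
    (∃ a : BD k C, U.ev (k := k) hj a = (P.eval₂ j t)⁻¹ ∧ BdS ‖(P.eval₂ j t)⁻¹‖ a) := by
  have hP : P = Polynomial.C P.leadingCoeff * (P.roots.map fun a => Polynomial.X - Polynomial.C a).prod :=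
    (IsAlgClosed.splits P).eq_prod_roots
  have hprod : ∀ S : Multiset C, ∀ᶠ U in l4 j t,
      (∃ a : BD k C, U.ev (k := k) hj a = (S.map fun a => t - j a).prod ∧
        BdS ‖(S.map fun a => t - j a).prod‖ a) ∧
      (∃ a : BD k C, U.ev (k := k) hj a = ((S.map fun a => t - j a).prod)⁻¹ ∧
        BdS ‖((S.map fun a => t - j a).prod)⁻¹‖ a) := by
    intro S
    induction S using Multiset.induction_on with
    | empty =>
      refine Filter.Eventually.of_forall fun U => ?_
      have h1 := const_cell (k := k) hj U 1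
      rw [map_one] at h1
      simp only [Multiset.map_zero, Multiset.prod_zero, inv_one]
      exact ⟨h1, h1⟩
    | cons a S ih =>
      filter_upwards [ih, lin_cell (k := k) hj ht a] with U h1 h2
      simp only [Multiset.map_cons, Multiset.prod_cons, mul_inv]
      exact ⟨cell_mul U hj h2.1 h1.1, cell_mul U hj h2.2 h1.2⟩
  have heval : P.eval₂ j t = j P.leadingCoeff * (P.roots.map fun a => t - j a).prod := by
    conv_lhs => rw [hP]
    rw [Polynomial.eval₂_mul, Polynomial.eval₂_C, Polynomial.eval₂_multiset_prod, Multiset.map_map]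
    congr 2
    refine Multiset.map_congr rfl fun a _ => ?_
    simp
  filter_upwards [hprod P.roots] with U h
  rw [heval]
  refine ⟨cell_mul U hj (const_cell hj U _) h.1, ?_⟩
  rw [mul_inv, ← map_inv₀]
  exact cell_mul U hj (const_cell hj U _) h.2


end Basic

section FT

variable (j : C →+* E) (t : E)

/-- the subfield `C(t)` of `E` -/
def FT : Subfield E := Subfield.closure (Set.range j ∪ {t})

variable {j t}

theorem mem_FT_iff {e : E} : e ∈ FT j t ↔ ∃ f g : Polynomial C, e = f.eval₂ j t / g.eval₂ j t := by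
  constructor
  · intro h
    refine Subfield.closure_induction (p := fun e _ => ∃ f g : Polynomial C,
      e = f.eval₂ j t / g.eval₂ j t) ?_ ?_ ?_ ?_ ?_ ?_ h
    · rintro x (⟨c, rfl⟩ | hx)
      · exact ⟨Polynomial.C c, 1, by simp⟩
      · rw [Set.mem_singleton_iff] at hx
        exact ⟨Polynomial.X, 1, by simp [hx]⟩
    · exact ⟨1, 1, by simp⟩
    · rintro x y _ _ ⟨f, g, rfl⟩ ⟨f', g', rfl⟩
      by_cases hg : g.eval₂ j t = 0
      · exact ⟨f', g', by rw [hg]; simp⟩
      by_cases hg' : g'.eval₂ j t = 0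
      · exact ⟨f, g, by rw [hg']; simp⟩
      refine ⟨f * g' + g * f', g * g', ?_⟩
      rw [Polynomial.eval₂_add, Polynomial.eval₂_mul, Polynomial.eval₂_mul, Polynomial.eval₂_mul,
        div_add_div _ _ hg hg']
    · rintro x _ ⟨f, g, rfl⟩
      exact ⟨-f, g, by rw [Polynomial.eval₂_neg, neg_div]⟩
    · rintro x _ ⟨f, g, rfl⟩
      exact ⟨g, f, by rw [inv_div]⟩
    · rintro x y _ _ ⟨f, g, rfl⟩ ⟨f', g', rfl⟩
      exact ⟨f * f', g * g', by rw [Polynomial.eval₂_mul, Polynomial.eval₂_mul, div_mul_div_comm]⟩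
  · rintro ⟨f, g, rfl⟩
    have hmem : ∀ P : Polynomial C, P.eval₂ j t ∈ FT j t := by
      intro P
      rw [Polynomial.eval₂_eq_sum_range]
      refine sum_mem fun i _ => mul_mem ?_ (pow_mem ?_ i)
      · exact Subfield.subset_closure (Or.inl ⟨_, rfl⟩)
      · exact Subfield.subset_closure (Or.inr rfl)
    exact div_mem (hmem f) (hmem g)

/-- elements of `C(t)` on small discs -/
theorem FT_cell (hj : ∀ c, ‖j c‖ = ‖c‖) (ht : Ty4 j t) {e : E} (he : e ∈ FT j t) :
    ∀ᶠ U in l4 j t, ∃ a : BD k C, U.ev (k := k) hj a = e ∧ BdS ‖e‖ a := by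
  obtain ⟨f, g, rfl⟩ := mem_FT_iff.1 he
  filter_upwards [poly_cell (k := k) hj ht f, poly_cell (k := k) hj ht g] with U h1 h2
  rw [div_eq_mul_inv]
  exact cell_mul U hj h1.1 h2.2

/-- **SP1** for type 4 -/
theorem alg_cell [CharZero E] (hj : ∀ c, ‖j c‖ = ‖c‖) (ht : Ty4 j t) {s : E}
    (hs : IsAlgebraic (FT j t) s) (hcl : s ∈ closure (FT j t : Set E)) {η : ℝ} (hη : 1 < η) :
    ∀ᶠ U in l4 j t, ∃ a : BD k C, U.ev (k := k) hj a = s ∧ BdS (η * ‖s‖) a := by
  refine sp1 (FT j t) (l4 j t) (fun _ => BD k C) (fun _ M a => BdS M a) ?_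
    (fun U => U.ev (k := k) hj) (fun U M a ha => U.norm_ev_le hj ha) ?_ hs hcl hη
  · intro U T
    obtain ⟨L, hL, hT⟩ := exists_lev T
    exact ⟨lev L, hT, uball_lev L⟩
  · intro e he η hη
    filter_upwards [FT_cell (k := k) hj ht he] with U ⟨a, ha, hb⟩
    refine ⟨a, ha, fun n => (hb n).trans ?_⟩
    exact le_mul_of_one_le_left (norm_nonneg _) hη.le

end FT

section Inj

variable {j : C →+* E} {t : E}

/-- evaluation is injective -/
theorem Dc.ev_injective (hk : DiscNorm k) (hj : ∀ c, ‖j c‖ = ‖c‖) (ht : Ty4 j t) (U : Dc j t) :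
    Function.Injective (U.ev (k := k) hj) := by
  rw [injective_iff_map_eq_zero]
  intro f hf
  by_contra h0
  have h1 : (f : PowerSeries C) ≠ 0 := fun h => h0 (Subtype.ext h)
  obtain ⟨c, g, m, hc, hg, hfg, -, -⟩ := exists_normalise hk f.2 h1
  obtain ⟨u, S, hu, -, hS, hgu⟩ := hg.exists_roots
  have e : f = algebraMap C (BD k C) c * (⟨u, hu.mem⟩ * ⟨(rootPoly S : PowerSeries C), coe_mem_BD _⟩) := by
    apply Subtype.ext
    rw [hfg, hgu]; rfl
  rw [e, map_mul, map_mul, U.ev_algebraMap] at hf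
  have h2 : U.ev (k := k) hj ⟨u, hu.mem⟩ ≠ 0 := by
    obtain ⟨v, hv, huv⟩ := hu.inv
    intro h
    have h3 : U.ev (k := k) hj ⟨u, hu.mem⟩ * U.ev (k := k) hj ⟨v, hv.mem⟩ = 1 := by
      rw [← map_mul, show (⟨u, hu.mem⟩ : BD k C) * ⟨v, hv.mem⟩ = 1 from Subtype.ext huv, map_one]
    rw [h, zero_mul] at h3
    exact zero_ne_one h3
  have h4 : U.ev (k := k) hj ⟨(rootPoly S : PowerSeries C), coe_mem_BD _⟩ ≠ 0 := by
    rw [Dc.ev, ev_poly]
    have : (rootPoly S).eval₂ j ((t - j U.τ) / j U.σ) =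
        (S.map fun τ => (t - j U.τ) / j U.σ - j τ).prod := by
      rw [rootPoly, Polynomial.eval₂_multiset_prod, Multiset.map_map]
      congr 1
      refine Multiset.map_congr rfl fun a _ => ?_
      simp
    rw [this]
    intro h
    rw [Multiset.prod_eq_zero_iff, Multiset.mem_map] at h
    obtain ⟨a, -, ha⟩ := h
    have hjσ : j U.σ ≠ 0 := by rw [← norm_pos_iff, hj]; exact U.σ_pos
    refine ht.ne (U.τ + U.σ * a) ?_
    rw [map_add, map_mul]
    field_simp at ha
    linear_combination ha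
  rcases mul_eq_zero.1 hf with h | h
  · rw [map_eq_zero] at h; exact hc h
  · rcases mul_eq_zero.1 h with h | h
    · exact h2 h
    · exact h4 h

end Inj

end Crest.Agent.R013.Spread_607
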