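import Crest.Agent.R013.A2a_275
import Crest.Agent.R013.StabD_83
import Crest.Agent.R013.Spr7_607_Mg
import Crest.Agent.R013.Good1_408
import Crest.Agent.R013.SSG1_109
import Crest.Agent.R013.LU6_935
import Crest.Agent.R013.AN1_243
import Crest.Agent.R013.Spr4_607
import Crest.Agent.R013.CAn2_243
import Crest.Agent.R013.Good6_408

-- ▼ part R013/Spr6_607
section

/-! # R013 / Spr6_607 : the family of norms of `K` over a norm `w0` of `F`. -/

set_option autoImplicit false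
set_option linter.unusedSectionVars false
set_option linter.style.haveILetI false

noncomputable section

namespace Crest.Agent.R013.Spread_607

open scoped NNReal
open Crest.Agent.R013.A2a_275 Crest.Agent.R013.StabF_83

universe u

/-- the norms of `K` over the norm `w0` of `F` -/
structure Fam (F K : Type u) [Field F] [Field K] [Algebra F K] (w0 : Valuation F ℝ≥0) where
  N : ℕ
  w : Fin N → Valuation K ℝ≥0
  ov : ∀ i f, w i (algebraMap F K f) = w0 f
  approx : ∀ (a : Fin N → K) (ε : ℝ≥0), 0 < ε → ∃ y : K, ∀ i, w i (y - a i) < ε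
  coord : ∀ {n : ℕ} (b : Module.Basis (Fin n) F K), ∃ A : ℝ≥0, ∀ (y : K) (M : ℝ≥0),
    (∀ i, w i y ≤ M) → ∀ l, w0 (b.repr y l) ≤ M * A

theorem exists_fam (F K : Type u) [Field F] [Field K] [Algebra F K] [FiniteDimensional F K]
    [Algebra.IsSeparable F K] (w0 : Valuation F ℝ≥0) (hnt : ∃ a, 1 < w0 a) :
    Nonempty (Fam F K w0) := by
  classical
  letI : NontriviallyNormedField (Cpl w0) := nnf w0 hnt
  letI : Algebra F (Cpl w0) := (toCpl w0).toAlgebra
  have hn : ∀ f : F, ‖algebraMap F (Cpl w0) f‖₊ = w0 f := by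
    intro f
    have h1 : ‖toCpl w0 f‖ = w0 f := norm_toCpl w0 f
    exact NNReal.coe_injective h1
  have hd : DenseRange (algebraMap F (Cpl w0)) := denseRange_toCpl w0
  obtain ⟨I, hI, L, i1, i2, i3, ⟨e⟩⟩ := exists_dec F (Cpl w0) K
  let ε := Fintype.equivFin I
  refine ⟨⟨Fintype.card I, fun i => wv e (ε.symm i), fun i f => ?_, fun a δ hδ => ?_, fun b => ?_⟩⟩
  · rw [wv_algebraMap, hn]
  · obtain ⟨y, hy⟩ := approx e hd (fun i => a (ε i)) δ hδ
    refine ⟨y, fun i => ?_⟩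
    have := hy (ε.symm i)
    rwa [Equiv.apply_symm_apply] at this
  · obtain ⟨A, hA⟩ := coord_bound e b
    refine ⟨A, fun y M hM l => ?_⟩
    rw [← hn]
    refine hA y M (fun i => ?_) l
    have := hM (ε i)
    rwa [Equiv.symm_apply_apply] at this

variable {F K : Type u} [Field F] [Field K] [Algebra F K] {w0 : Valuation F ℝ≥0}

theorem Fam.nonempty (D : Fam F K w0) [FiniteDimensional F K] : Nonempty (Fin D.N) := by
  by_contra h
  rw [not_nonempty_iff] at h
  have : Nontrivial K := inferInstance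
  obtain ⟨A, hA⟩ := D.coord (Module.finBasis F K)
  have h1 : ∀ l, (Module.finBasis F K).repr 1 l = 0 := by
    intro l
    have := hA 1 0 (fun i => h.elim i) l
    rw [zero_mul] at this
    exact (Valuation.zero_iff _).1 (le_antisymm this zero_le)
  have h2 : (Module.finBasis F K).repr (1 : K) = 0 := by
    ext l; exact h1 l
  have h3 : (1 : K) = 0 := (LinearEquiv.map_eq_zero_iff _).1 h2
  exact one_ne_zero h3

/-- separation -/
theorem Fam.sep (D : Fam F K w0) (hnt : ∃ a, 1 < w0 a) {i j : Fin D.N} (hij : i ≠ j) :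
    ∃ z : K, D.w i z < 1 ∧ 1 < D.w j z := by
  classical
  obtain ⟨a, ha⟩ := hnt
  obtain ⟨y, hy⟩ := D.approx (fun l => if l = j then algebraMap F K a else 0) 1 one_pos
  refine ⟨y, ?_, ?_⟩
  · have := hy i
    simpa [hij] using this
  · have h1 := hy j
    simp only [if_true] at h1
    have h2 : D.w j (algebraMap F K a) = w0 a := D.ov j a
    have h3 : y = algebraMap F K a + (y - algebraMap F K a) := by ring
    rw [h3, Valuation.map_add_eq_of_lt_left _ (by rw [h2]; exact h1.trans ha), h2]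
    exact ha

/-- strong separation -/
theorem Fam.sep' (D : Fam F K w0) (hnt : ∃ a, 1 < w0 a) {i j : Fin D.N} (hij : i ≠ j) {δ : ℝ≥0}
    (hδ : 0 < δ) : ∃ z : K, z ≠ 0 ∧ D.w i z < δ ∧ D.w j z⁻¹ < δ := by
  obtain ⟨z, h1, h2⟩ := D.sep hnt hij
  have hz : z ≠ 0 := by
    rintro rfl
    rw [map_zero] at h2
    exact absurd h2 (not_lt.2 zero_le)
  have h3 : D.w j z⁻¹ < 1 := by
    rw [map_inv₀]
    exact inv_lt_one_of_one_lt₀ h2
  have e1 := (tendsto_pow_atTop_nhds_zero_of_lt_one (r := (D.w i z : ℝ)) NNReal.zero_le_coe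
    (by exact_mod_cast h1)).eventually (gt_mem_nhds (show (0:ℝ) < δ from by exact_mod_cast hδ))
  have e2 := (tendsto_pow_atTop_nhds_zero_of_lt_one (r := (D.w j z⁻¹ : ℝ)) NNReal.zero_le_coe
    (by exact_mod_cast h3)).eventually (gt_mem_nhds (show (0:ℝ) < δ from by exact_mod_cast hδ))
  obtain ⟨N, hN1, hN2⟩ := (e1.and e2).exists
  refine ⟨z ^ N, pow_ne_zero N hz, ?_, ?_⟩
  · rw [map_pow]; exact_mod_cast hN1
  · rw [← inv_pow, map_pow]; exact_mod_cast hN2

end Crest.Agent.R013.Spread_607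
end
end

-- ▼ part R013/Spr8_607
section

/-! # R013 / Spr8_607 : local embeddings `K → FD` at a norm `w` of `K` with a coordinate of type 4. -/

set_option autoImplicit false
set_option linter.unusedSectionVars false
set_option linter.style.haveILetI false

noncomputable section

namespace Crest.Agent.R013.Spread_607

open Topology Crest.Agent.R013.Cell_408 Crest.Agent.R013.Comp_267 Crest.Agent.R013.Sub_270
open Crest.Agent.R013.A2a_275
open scoped NNReal

universe u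

section Fin

variable {k C E : Type*} [NontriviallyNormedField k] [CompleteSpace k] [IsUltrametricDist k]
  [NormedField C] [IsUltrametricDist C] [NormedAlgebra k C] [Algebra.IsAlgebraic k C] [IsAlgClosed C]
  [NormedField E] [IsUltrametricDist E] [CompleteSpace E]
  {j : C →+* E} {t : E}

/-- evaluation at `t` of meromorphic functions on the disc -/
def Dc.evF (hk : DiscNorm k) (hj : ∀ c, ‖j c‖ = ‖c‖) (ht : Ty4 j t) (U : Dc j t) : FD k C →+* E :=
  IsFractionRing.lift (U.ev_injective hk hj ht)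

theorem Dc.evF_algebraMap (hk : DiscNorm k) (hj : ∀ c, ‖j c‖ = ‖c‖) (ht : Ty4 j t) (U : Dc j t)
    (f : BD k C) : U.evF hk hj ht (algebraMap (BD k C) (FD k C) f) = U.ev hj f :=
  IsFractionRing.lift_algebraMap _ _

theorem Dc.evF_C (hk : DiscNorm k) (hj : ∀ c, ‖j c‖ = ‖c‖) (ht : Ty4 j t) (U : Dc j t)
    (c : C) : U.evF hk hj ht (algebraMap C (FD k C) c) = j c := by
  rw [IsScalarTower.algebraMap_apply C (BD k C) (FD k C), U.evF_algebraMap, U.ev_algebraMap]

theorem Dc.evF_TF (hk : DiscNorm k) (hj : ∀ c, ‖j c‖ = ‖c‖) (ht : Ty4 j t) (U : Dc j t) :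
    U.evF hk hj ht (TF k C) = (t - j U.τ) / j U.σ := by
  rw [TF, U.evF_algebraMap, U.ev_XB]

end Fin

section Emb

variable {k C E : Type*} [NontriviallyNormedField k] [CompleteSpace k] [IsUltrametricDist k]
  [NormedField C] [IsUltrametricDist C] [NormedAlgebra k C] [Algebra.IsAlgebraic k C] [IsAlgClosed C]
  [NormedField E] [IsUltrametricDist E] [CompleteSpace E]
  {K : Type*} [Field K] [Algebra C K] [Algebra (RatFunc C) K] [IsScalarTower C (RatFunc C) K]
  [FiniteDimensional (RatFunc C) K]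

/-- a subfield of `K` containing `C`, `X` and a basis is everything -/
theorem subfield_top (R : Subfield K) (hC : ∀ c : C, algebraMap C K c ∈ R)
    (hX : algebraMap (RatFunc C) K RatFunc.X ∈ R) {n : ℕ} (b : Module.Basis (Fin n) (RatFunc C) K)
    (hb : ∀ i, b i ∈ R) (z : K) : z ∈ R := by
  have hP : ∀ P : Polynomial C, algebraMap (RatFunc C) K (algebraMap (Polynomial C) (RatFunc C) P) ∈ R := by
    intro P
    induction P using Polynomial.induction_on' with
    | add p q hp hq => rw [map_add, map_add]; exact R.add_mem hp hq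
    | monomial m a =>
      rw [← Polynomial.C_mul_X_pow_eq_monomial, map_mul, map_pow, map_mul, map_pow,
        RatFunc.algebraMap_X, RatFunc.algebraMap_C, ← RatFunc.algebraMap_eq_C,
        ← IsScalarTower.algebraMap_apply]
      exact R.mul_mem (hC a) (R.pow_mem hX m)
  have hr : ∀ r : RatFunc C, algebraMap (RatFunc C) K r ∈ R := by
    intro r
    rw [← RatFunc.num_div_denom r, map_div₀]
    exact R.div_mem (hP _) (hP _)
  rw [← b.sum_repr z]
  refine R.sum_mem fun i _ => ?_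
  rw [Algebra.smul_def]
  exact R.mul_mem (hr _) (hb i)

theorem exists_iota (hk : DiscNorm k) (φ : K →+* E) {j : C →+* E} (hjφ : j = φ.comp (algebraMap C K))
    (hj : ∀ c, ‖j c‖ = ‖c‖) {t : E} (ht : Ty4 j t) (U : Dc j t)
    (hX : ∃ f : BD k C, U.ev hj f = φ (algebraMap (RatFunc C) K RatFunc.X))
    {n : ℕ} (b : Module.Basis (Fin n) (RatFunc C) K) (hb : ∀ i, ∃ f : BD k C, U.ev hj f = φ (b i)) :
    ∃ ι : K →ₐ[C] FD k C, ∀ z, U.evF hk hj ht (ι z) = φ z := by
  let ψ := U.evF hk hj ht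
  have hinj : Function.Injective ψ := ψ.injective
  have hmem : ∀ z, φ z ∈ ψ.fieldRange := by
    intro z
    have h1 := subfield_top (ψ.fieldRange.comap φ) (C := C) (K := K) ?_ ?_ b ?_ z
    · exact h1
    · intro c
      refine ⟨algebraMap C (FD k C) c, ?_⟩
      change U.evF hk hj ht _ = _
      rw [U.evF_C, hjφ]; rfl
    · obtain ⟨f, hf⟩ := hX
      refine ⟨algebraMap (BD k C) (FD k C) f, ?_⟩
      change U.evF hk hj ht _ = _
      rw [U.evF_algebraMap, hf]
    · intro i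
      obtain ⟨f, hf⟩ := hb i
      refine ⟨algebraMap (BD k C) (FD k C) f, ?_⟩
      change U.evF hk hj ht _ = _
      rw [U.evF_algebraMap, hf]
  choose g hg using hmem
  have hg' : ∀ z, U.evF hk hj ht (g z) = φ z := hg
  refine ⟨{ toFun := g
            map_one' := hinj (by change U.evF hk hj ht _ = U.evF hk hj ht _; rw [hg', map_one, map_one])
            map_mul' := fun x y => hinj (by
              change U.evF hk hj ht _ = U.evF hk hj ht _; rw [map_mul, hg', hg', hg', map_mul])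
            map_zero' := hinj (by change U.evF hk hj ht _ = U.evF hk hj ht _; rw [hg', map_zero, map_zero])
            map_add' := fun x y => hinj (by
              change U.evF hk hj ht _ = U.evF hk hj ht _; rw [map_add, hg', hg', hg', map_add])
            commutes' := fun c => hinj (by
              change U.evF hk hj ht _ = U.evF hk hj ht _; rw [hg', U.evF_C, hjφ]; rfl) }, hg'⟩

end Emb

section Loc

variable {k : Type*} {C : Type*} [NontriviallyNormedField k] [CompleteSpace k] [IsUltrametricDist k]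
  [NormedField C] [IsUltrametricDist C] [NormedAlgebra k C] [Algebra.IsAlgebraic k C] [IsAlgClosed C]
  {K : Type*} [Field K] [Algebra C K]

/-- the map `C → Cpl w` -/
def jw (C : Type*) [Field C] {K : Type*} [Field K] [Algebra C K] (w : Valuation K ℝ≥0) :
    C →+* Cpl w := (toCpl w).comp (algebraMap C K)

theorem norm_jw {w : Valuation K ℝ≥0} (hw : ∀ c : C, w (algebraMap C K c) = ‖c‖₊) (c : C) :
    ‖jw C w c‖ = ‖c‖ := by
  change ‖toCpl w (algebraMap C K c)‖ = ‖c‖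
  rw [norm_toCpl, hw]; rfl

theorem norm_sub_jw (w : Valuation K ℝ≥0) (t : K) (c : C) :
    ‖toCpl w t - jw C w c‖ = w (t - algebraMap C K c) := by
  change ‖toCpl w t - toCpl w (algebraMap C K c)‖ = _
  rw [← map_sub, norm_toCpl]

theorem ty4_of {w : Valuation K ℝ≥0} {t : K}
    (ht : ∀ c : C, ∃ c', w (t - algebraMap C K c') < w (t - algebraMap C K c)) :
    Ty4 (jw C w) (toCpl w t) := by
  intro c
  obtain ⟨c', hc'⟩ := ht c
  refine ⟨c', ?_⟩
  rw [norm_sub_jw, norm_sub_jw]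
  exact_mod_cast hc'

/-- every element of `K` on small discs -/
theorem cell_of_mem [CharZero K] {w : Valuation K ℝ≥0} (hw : ∀ c : C, w (algebraMap C K c) = ‖c‖₊)
    {t : K} (ht : ∀ c : C, ∃ c', w (t - algebraMap C K c') < w (t - algebraMap C K c))
    (hfd : FiniteDimensional (IntermediateField.adjoin C {t}) K)
    (hd : ∀ z : K, ∀ e : ℝ≥0, 0 < e → ∃ s ∈ IntermediateField.adjoin C {t}, w (z - s) < e)
    (z : K) {η : ℝ} (hη : 1 < η) :
    ∀ᶠ U in l4 (jw C w) (toCpl w t), ∃ a : BD k C, U.ev (norm_jw hw) a = toCpl w z ∧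
      BdS (η * ‖toCpl w z‖) a := by
  haveI : CharZero (Cpl w) := charZero_of_injective_ringHom (toCpl w).injective
  have hmem : ∀ s ∈ IntermediateField.adjoin C {t}, toCpl w s ∈ FT (jw C w) (toCpl w t) := by
    intro s hs
    have h1 : IntermediateField.adjoin C {t} ≤
        { (FT (jw C w) (toCpl w t)).comap (toCpl w) with
          algebraMap_mem' := fun c => by
            change toCpl w (algebraMap C K c) ∈ FT (jw C w) (toCpl w t)
            exact Subfield.subset_closure (Or.inl ⟨c, rfl⟩) } := by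
      rw [IntermediateField.adjoin_le_iff]
      intro x hx
      rw [Set.mem_singleton_iff] at hx
      rw [hx]
      change toCpl w t ∈ FT (jw C w) (toCpl w t)
      exact Subfield.subset_closure (Or.inr rfl)
    exact h1 hs
  refine alg_cell (norm_jw hw) (ty4_of ht) ?_ ?_ hη
  · -- algebraic
    let g : IntermediateField.adjoin C {t} →+* FT (jw C w) (toCpl w t) :=
      ((toCpl w).comp (algebraMap (IntermediateField.adjoin C {t}) K)).codRestrict _
        (fun s => hmem s s.2)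
    have hz : IsIntegral (IntermediateField.adjoin C {t}) z := Algebra.IsIntegral.isIntegral z
    have h2 : IsIntegral (FT (jw C w) (toCpl w t)) (toCpl w z) := by
      obtain ⟨P, hP, hP0⟩ := hz
      refine ⟨P.map g, hP.map g, ?_⟩
      rw [Polynomial.eval₂_map]
      have h3 : (algebraMap (FT (jw C w) (toCpl w t)) (Cpl w)).comp g =
          (toCpl w).comp (algebraMap (IntermediateField.adjoin C {t}) K) := rfl
      rw [h3, ← Polynomial.hom_eval₂, hP0, map_zero]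
    exact h2.isAlgebraic
  · rw [Metric.mem_closure_iff]
    intro ε hε
    obtain ⟨s, hs, hs'⟩ := hd z ⟨ε, hε.le⟩ hε
    refine ⟨toCpl w s, hmem s hs, ?_⟩
    rw [dist_eq_norm, ← map_sub, norm_toCpl]
    exact hs'

end Loc

end Crest.Agent.R013.Spread_607
end
end

-- ▼ part R013/Spr9_607
section

/-! # R013 / Spr9_607 : integrality of `FD` over the ball of `FD` through `compF`; injectivity. -/

set_option autoImplicit false
set_option linter.unusedSectionVars false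
set_option linter.style.haveILetI false

noncomputable section

namespace Crest.Agent.R013.Spread_607

open Topology Crest.Agent.R013.Cell_408 Crest.Agent.R013.Comp_267 Crest.Agent.R013.Sub_270
open Crest.Agent.R013.A2a_275 Crest.Agent.R013.Good_408
open scoped NNReal

/-- finite generation gives integrality -/
theorem integralElem_of_gen {A B : Type*} [CommRing A] [CommRing B] (f : A →+* B) (m : ℕ)
    (x : ℕ → B) (h : ∀ b, ∃ a : ℕ → A, b = ∑ i ∈ Finset.range m, f (a i) * x i) (b : B) :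
    f.IsIntegralElem b := by
  classical
  letI := f.toAlgebra
  have hfin : Module.Finite A B := ⟨⟨(Finset.range m).image x, by
    rw [eq_top_iff]
    intro b _
    obtain ⟨a, ha⟩ := h b
    rw [ha]
    refine Submodule.sum_mem _ fun i hi => ?_
    exact Submodule.smul_mem _ (a i) (Submodule.subset_span
      (Finset.mem_coe.2 (Finset.mem_image_of_mem x hi)))⟩⟩
  exact (Algebra.IsIntegral.isIntegral b : IsIntegral A b)

variable {k C : Type*} [NontriviallyNormedField k] [CompleteSpace k] [IsUltrametricDist k]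
  [NormedField C] [IsUltrametricDist C] [NormedAlgebra k C] [Algebra.IsAlgebraic k C] [IsAlgClosed C]

/-- the unit ball of `BD` -/
def OB (k C : Type*) [NontriviallyNormedField k] [CompleteSpace k] [IsUltrametricDist k]
    [NormedField C] [IsUltrametricDist C] [NormedAlgebra k C] [Algebra.IsAlgebraic k C]
    [IsAlgClosed C] : Subring (BD k C) where
  carrier := {f | BdS 1 f}
  mul_mem' {f g} hf hg := by
    have := bdS_mul zero_le_one zero_le_one hf hg
    rwa [mul_one] at this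
  one_mem' n := by
    change ‖PowerSeries.coeff n (1 : PowerSeries C)‖ ≤ 1
    rw [PowerSeries.coeff_one]; split_ifs <;> simp
  add_mem' {f g} hf hg := bdS_add hf hg
  zero_mem' n := by
    change ‖PowerSeries.coeff n (0 : PowerSeries C)‖ ≤ 1
    rw [map_zero, norm_zero]; exact zero_le_one
  neg_mem' {f} hf := bdS_neg hf


/-- the inclusion of the ball in `FD` -/
def oB (k C : Type*) [NontriviallyNormedField k] [CompleteSpace k] [IsUltrametricDist k]
    [NormedField C] [IsUltrametricDist C] [NormedAlgebra k C] [Algebra.IsAlgebraic k C]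
    [IsAlgClosed C] : OB k C →+* FD k C := (algebraMap (BD k C) (FD k C)).comp (OB k C).subtype

theorem bdS_comp {f : PowerSeries C} (hf : Co k f) {M : ℝ} {a : BD k C} (ha : BdS M a) :
    BdS M (comp f hf a) := fun n => compS_le hf a.2 ha n

/-- elements of the ball are integral over the ball, through a normalised map -/
theorem integral_of_bdS (hk : DiscNorm k) {f : PowerSeries C} {m : ℕ} (hf : WD k f m) (hm : m ≠ 0)
    {a : BD k C} (ha : BdS 1 a) :
    ((compF hk hf hm).toRingHom.comp (oB k C)).IsIntegralElem (algebraMap (BD k C) (FD k C) a) := by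
  let cO : OB k C →+* OB k C :=
    ((comp f (WD.co hf hm)).toRingHom.comp (OB k C).subtype).codRestrict (OB k C)
      (fun x => bdS_comp (WD.co hf hm) x.2)
  have hXB : (XB : BD k C) ∈ OB k C := by
    intro n
    change ‖PowerSeries.coeff n (PowerSeries.X : PowerSeries C)‖ ≤ 1
    rw [PowerSeries.coeff_X]; split_ifs <;> simp
  have h1 : cO.IsIntegralElem (⟨a, ha⟩ : OB k C) := by
    refine integralElem_of_gen cO m (fun i => (⟨XB, hXB⟩ : OB k C) ^ i) (fun b => ?_) _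
    obtain ⟨A, hA, hA1, hA2⟩ := exists_repr_le hf hm (mem_BD.1 (b : BD k C).2).1 b.2
    refine ⟨fun i => ⟨⟨A i, hA i⟩, hA1 i⟩, ?_⟩
    apply Subtype.ext
    apply Subtype.ext
    rw [hA2]
    push_cast
    refine Finset.sum_congr rfl fun i _ => ?_
    rw [mul_comm]
    rfl
  obtain ⟨P, hP, hP0⟩ := h1
  refine ⟨P, hP, ?_⟩
  have h2 : (compF hk hf hm).toRingHom.comp (oB k C) = (oB k C).comp cO := by
    ext x
    change compF hk hf hm (algebraMap (BD k C) (FD k C) (x : BD k C)) = _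
    rw [compF_algebraMap]
    rfl
  have h3 : algebraMap (BD k C) (FD k C) a = oB k C ⟨a, ha⟩ := rfl
  rw [h2, h3, ← Polynomial.hom_eval₂, hP0, map_zero]

omit [NormedField C] [IsUltrametricDist C] [NormedAlgebra k C] [Algebra.IsAlgebraic k C] [IsAlgClosed C] in
theorem norm_root_le [NormedField C] [IsUltrametricDist C] {P : Polynomial C} (hP : P.Monic)
    (h : ∀ i, ‖P.coeff i‖ ≤ 1) {x : C} (hx : P.eval x = 0) : ‖x‖ ≤ 1 := by
  by_contra hc
  push Not at hc
  rcases Nat.eq_zero_or_pos P.natDegree with h0 | h0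
  · rw [(Polynomial.Monic.natDegree_eq_zero hP).1 h0, Polynomial.eval_one] at hx
    exact one_ne_zero hx
  · rw [Polynomial.eval_eq_sum_range, Finset.sum_range_succ, hP.coeff_natDegree, one_mul] at hx
    have h1 : x ^ P.natDegree = -∑ i ∈ Finset.range P.natDegree, P.coeff i * x ^ i := by
      linear_combination hx
    have h2 : ‖x ^ P.natDegree‖ ≤ ‖x‖ ^ (P.natDegree - 1) := by
      rw [h1, norm_neg]
      refine IsUltrametricDist.norm_sum_le_of_forall_le_of_nonneg (pow_nonneg (norm_nonneg _) _)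
        fun i hi => ?_
      rw [norm_mul, norm_pow]
      calc _ ≤ 1 * ‖x‖ ^ i := mul_le_mul_of_nonneg_right (h i) (pow_nonneg (norm_nonneg _) _)
        _ ≤ ‖x‖ ^ (P.natDegree - 1) := by
          rw [one_mul]
          exact pow_le_pow_right₀ hc.le (by have := Finset.mem_range.1 hi; omega)
    rw [norm_pow] at h2
    have h3 : ‖x‖ ^ (P.natDegree - 1) < ‖x‖ ^ P.natDegree :=
      pow_lt_pow_right₀ hc (by omega)
    linarith

theorem not_integral {x : C} (hx : 1 < ‖x‖) : ¬ (oB k C).IsIntegralElem (algebraMap C (FD k C) x) := by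
  rintro ⟨P, hP, hP0⟩
  have h1 : algebraMap C (FD k C) x = algebraMap (BD k C) (FD k C) (algebraMap C (BD k C) x) :=
    IsScalarTower.algebraMap_apply C (BD k C) (FD k C) x
  rw [h1, oB, ← Polynomial.hom_eval₂] at hP0
  have h2 : P.eval₂ (OB k C).subtype (algebraMap C (BD k C) x) = 0 :=
    IsFractionRing.injective (BD k C) (FD k C) (hP0.trans (map_zero _).symm)
  let c0 : BD k C →+* C := (PowerSeries.constantCoeff (R := C)).comp (BD k C).val.toRingHom
  have h3 := congrArg c0 h2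
  rw [Polynomial.hom_eval₂, map_zero] at h3
  have h4 : c0 (algebraMap C (BD k C) x) = x := by
    change PowerSeries.constantCoeff (PowerSeries.C x) = x
    simp
  rw [h4] at h3
  have h5 := norm_root_le (hP.map (c0.comp (OB k C).subtype)) (fun i => ?_)
    (by rw [Polynomial.eval_map]; exact h3)
  · exact absurd h5 (not_le.2 hx)
  · rw [Polynomial.coeff_map]
    have := (P.coeff i).2 0
    rw [PowerSeries.coeff_zero_eq_constantCoeff_apply] at this
    exact this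

/-- `T` is transcendental -/
theorem transcendental_discY (a : C) {ρ : C} (hρ : ρ ≠ 0) : Transcendental C (discY k C a ρ) := by
  intro h
  have h1 : (minpoly C (discY k C a ρ)).degree = 1 :=
    IsAlgClosed.degree_eq_one_of_irreducible C (minpoly.irreducible h.isIntegral)
  obtain ⟨c, hc⟩ := minpoly.mem_range_of_degree_eq_one C _ h1
  have h2 : algebraMap (BD k C) (FD k C) (algebraMap C (BD k C) c) =
      algebraMap (BD k C) (FD k C) (algebraMap C (BD k C) a + algebraMap C (BD k C) ρ * XB) := by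
    rw [map_add, map_mul, ← IsScalarTower.algebraMap_apply, ← IsScalarTower.algebraMap_apply,
      ← IsScalarTower.algebraMap_apply, hc]
    rfl
  have h3 := congrArg (fun f : BD k C => PowerSeries.coeff 1 (f : PowerSeries C))
    (IsFractionRing.injective (BD k C) (FD k C) h2)
  change PowerSeries.coeff 1 (PowerSeries.C c) =
    PowerSeries.coeff 1 (PowerSeries.C a + PowerSeries.C ρ * PowerSeries.X) at h3
  rw [map_add, PowerSeries.coeff_C, PowerSeries.coeff_C, PowerSeries.coeff_C_mul,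
    PowerSeries.coeff_one_X, if_neg one_ne_zero, if_neg one_ne_zero, zero_add, mul_one] at h3
  exact hρ h3.symm

end Crest.Agent.R013.Spread_607
end
end

-- ▼ part R013/Spr10_607
section

/-! # R013 / Spr10_607 : (SPR4) small discs around a point of type 4 are good. -/

set_option autoImplicit false
set_option linter.unusedSectionVars false
set_option linter.style.haveILetI false

noncomputable section

namespace Crest.Agent.R013.Spread_607

open Topology Crest.Agent.R013.Cell_408 Crest.Agent.R013.Comp_267 Crest.Agent.R013.Sub_270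
open Crest.Agent.R013.A2a_275 Crest.Agent.R013.Good_408
open scoped NNReal

universe u

variable {k : Type*} {C : Type u} [NontriviallyNormedField k] [CompleteSpace k] [IsUltrametricDist k]
  [NormedField C] [IsUltrametricDist C] [NormedAlgebra k C] [Algebra.IsAlgebraic k C] [IsAlgClosed C]
  {K : Type u} [Field K] [Algebra C K] [Algebra (RatFunc C) K] [IsScalarTower C (RatFunc C) K]

omit [NontriviallyNormedField k] [CompleteSpace k] [IsUltrametricDist k] [IsUltrametricDist C]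
  [NormedAlgebra k C] [Algebra.IsAlgebraic k C] [IsAlgClosed C] in
theorem fam_norm {w0 : Valuation (RatFunc C) ℝ≥0} (hw0 : ∀ c, w0 (RatFunc.C c) = ‖c‖₊)
    (D : Fam (RatFunc C) K w0) (i : Fin D.N) (c : C) : D.w i (algebraMap C K c) = ‖c‖₊ := by
  rw [IsScalarTower.algebraMap_apply C (RatFunc C) K, D.ov, RatFunc.algebraMap_eq_C, hw0]

omit [NontriviallyNormedField k] [CompleteSpace k] [IsUltrametricDist k]
  [NormedAlgebra k C] [Algebra.IsAlgebraic k C] [IsAlgClosed C] in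
theorem ev_congr {k : Type*} [NontriviallyNormedField k] [NormedAlgebra k C] [Algebra.IsAlgebraic k C]
    {E : Type*} [NormedField E] [IsUltrametricDist E] [CompleteSpace E] {j : C →+* E}
    (hj : ∀ c, ‖j c‖ = ‖c‖) {z z' : E} (hz : ‖z‖ < 1) (hz' : ‖z'‖ < 1) (h : z = z') (f : BD k C) :
    Spread_607.ev j hj hz f = Spread_607.ev j hj hz' f := by
  subst h; rfl

/-- **INJ** for type 4 -/
theorem inj4 (hk : DiscNorm k) {w0 : Valuation (RatFunc C) ℝ≥0} (hw0 : ∀ c, w0 (RatFunc.C c) = ‖c‖₊)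
    [FiniteDimensional (RatFunc C) K]
    (D : Fam (RatFunc C) K w0) (a ρ : C) (haρ : w0 (RatFunc.X - RatFunc.C a) < ‖ρ‖₊)
    {n : ℕ} (b : Module.Basis (Fin n) (RatFunc C) K)
    (t : Fin D.N → K)
    (ht : ∀ i, Ty4 (jw C (D.w i)) (toCpl (D.w i) (t i)))
    (V : ∀ i, Dc (jw C (D.w i)) (toCpl (D.w i) (t i)))
    (g : Fin D.N → PowerSeries C) (m : Fin D.N → ℕ) (hg : ∀ i, WD k (g i) (m i)) (hm : ∀ i, m i ≠ 0)
    (hev : ∀ i, (V i).ev (norm_jw (fam_norm hw0 D i)) ⟨g i, (hg i).mem⟩ =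
      (toCpl (D.w i) (algebraMap (RatFunc C) K RatFunc.X) - jw C (D.w i) a) / jw C (D.w i) ρ)
    (ι : Fin D.N → K →ₐ[C] FD k C)
    (hι : ∀ i z, (V i).evF hk (norm_jw (fam_norm hw0 D i)) (ht i) (ι i z) = toCpl (D.w i) z) :
    Inj (fun i => (compF hk (hg i) (hm i)).toRingHom) (fun i => (ι i).toRingHom) b := by
  classical
  have hρ : 0 < ‖ρ‖₊ := lt_of_le_of_lt zero_le haρ
  have hρ0 : ρ ≠ 0 := nnnorm_pos.1 hρ
  set XK : K := algebraMap (RatFunc C) K RatFunc.X with hXK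
  let u : RatFunc C := (RatFunc.X - RatFunc.C a) / RatFunc.C ρ
  let r : ℝ≥0 := w0 u
  have hr1 : r < 1 := by
    change w0 ((RatFunc.X - RatFunc.C a) / RatFunc.C ρ) < 1
    rw [map_div₀, hw0]
    exact (div_lt_one hρ).2 haρ
  let z : ∀ i, Cpl (D.w i) := fun i => (toCpl (D.w i) XK - jw C (D.w i) a) / jw C (D.w i) ρ
  have hzu : ∀ i, z i = toCpl (D.w i) (algebraMap (RatFunc C) K u) := by
    intro i
    have h1 : ∀ c : C, jw C (D.w i) c = toCpl (D.w i) (algebraMap (RatFunc C) K (RatFunc.C c)) := by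
      intro c
      rw [← RatFunc.algebraMap_eq_C, ← IsScalarTower.algebraMap_apply]; rfl
    change (toCpl (D.w i) XK - jw C (D.w i) a) / jw C (D.w i) ρ =
      toCpl (D.w i) (algebraMap (RatFunc C) K ((RatFunc.X - RatFunc.C a) / RatFunc.C ρ))
    rw [h1, h1, map_div₀, map_div₀, map_sub, map_sub]
  have hnz : ∀ i, ‖z i‖ = r := by
    intro i
    rw [hzu, norm_toCpl, D.ov]
  have hz1 : ∀ i, ‖z i‖ < 1 := fun i => by
    rw [hnz]; exact_mod_cast hr1
  intro e he
  obtain ⟨s, hs⟩ := IsLocalization.exist_integer_multiples_of_finite (nonZeroDivisors (BD k C)) e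
  choose A hA using hs
  have hinj := IsFractionRing.injective (BD k C) (FD k C)
  have hs0 : (s : BD k C) ≠ 0 := nonZeroDivisors.ne_zero s.2
  have hs1 : algebraMap (BD k C) (FD k C) (s : BD k C) ≠ 0 := fun h =>
    hs0 (hinj (h.trans (map_zero _).symm))
  have hA' : ∀ l, algebraMap (BD k C) (FD k C) (A l) =
      algebraMap (BD k C) (FD k C) (s : BD k C) * e l := by
    intro l
    rw [hA l, Algebra.smul_def]
  -- the relation in `Cpl (w i)`
  have hrel : ∀ i, ∑ l, Spread_607.ev (jw C (D.w i)) (norm_jw (fam_norm hw0 D i)) (hz1 i) (A l) *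
      toCpl (D.w i) (b l) = 0 := by
    intro i
    have h1 : ∑ l, compF hk (hg i) (hm i) (algebraMap (BD k C) (FD k C) (A l)) * ι i (b l) = 0 := by
      have h2 : ∀ l, compF hk (hg i) (hm i) (algebraMap (BD k C) (FD k C) (A l)) * ι i (b l) =
          compF hk (hg i) (hm i) (algebraMap (BD k C) (FD k C) (s : BD k C)) *
          (compF hk (hg i) (hm i) (e l) * ι i (b l)) := by
        intro l
        rw [hA', map_mul]; ring
      simp only [h2]
      rw [← Finset.mul_sum]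
      have h3 : ∑ l, compF hk (hg i) (hm i) (e l) * ι i (b l) = 0 := he i
      rw [h3, mul_zero]
    have h4 := congrArg ((V i).evF hk (norm_jw (fam_norm hw0 D i)) (ht i)) h1
    rw [map_sum, map_zero] at h4
    rw [← h4]
    refine Finset.sum_congr rfl fun l _ => ?_
    rw [map_mul, hι, compF_algebraMap, Dc.evF_algebraMap, Dc.ev, ev_compE]
    congr 1
    exact ev_congr _ _ _ (hev i).symm _
  -- uniform bounds
  obtain ⟨M, hM0, hM⟩ : ∃ M : ℝ≥0, 0 ≤ M ∧ ∀ l n, ‖PowerSeries.coeff n (A l : PowerSeries C)‖ ≤ M := by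
    have h1 : ∀ l, ∃ M : ℝ≥0, ∀ n, ‖PowerSeries.coeff n (A l : PowerSeries C)‖ ≤ M := by
      intro l
      obtain ⟨-, M, hM⟩ := mem_BD.1 (A l).2
      exact ⟨⟨M, (norm_nonneg _).trans (hM 0)⟩, hM⟩
    choose Ml hMl using h1
    refine ⟨∑ l, Ml l, zero_le, fun l n => (hMl l n).trans ?_⟩
    exact_mod_cast Finset.single_le_sum (f := Ml) (fun _ _ => zero_le) (Finset.mem_univ l)
  obtain ⟨β, hβ⟩ : ∃ β : ℝ≥0, ∀ i l, D.w i (b l) ≤ β := by
    refine ⟨∑ i, ∑ l, D.w i (b l), fun i l => ?_⟩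
    exact (Finset.single_le_sum (f := fun l => D.w i (b l)) (fun _ _ => zero_le)
      (Finset.mem_univ l)).trans (Finset.single_le_sum (f := fun i => ∑ l, D.w i (b l))
        (fun _ _ => zero_le) (Finset.mem_univ i))
  obtain ⟨A0, hA0⟩ := D.coord b
  obtain ⟨i0⟩ := D.nonempty
  -- main estimate
  have key : ∀ l N, ‖Spread_607.ev (jw C (D.w i0)) (norm_jw (fam_norm hw0 D i0)) (hz1 i0) (A l)‖ ≤
      (M * (1 + β * A0) : ℝ≥0) * (r : ℝ) ^ N := by
    intro l N
    let P : Fin n → Polynomial C := fun l => PowerSeries.trunc N (A l : PowerSeries C)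
    let q : Fin n → RatFunc C := fun l => (P l).eval₂ (algebraMap C (RatFunc C)) u
    have hq : ∀ i l, toCpl (D.w i) (algebraMap (RatFunc C) K (q l)) =
        (P l).eval₂ (jw C (D.w i)) (z i) := by
      intro i l
      change toCpl (D.w i) (algebraMap (RatFunc C) K ((P l).eval₂ (algebraMap C (RatFunc C)) u)) = _
      rw [Polynomial.hom_eval₂, Polynomial.hom_eval₂, hzu]
      congr 1
      ext c
      change toCpl (D.w i) (algebraMap (RatFunc C) K (algebraMap C (RatFunc C) c)) = _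
      rw [← IsScalarTower.algebraMap_apply]; rfl
    have htr : ∀ i l, ‖Spread_607.ev (jw C (D.w i)) (norm_jw (fam_norm hw0 D i)) (hz1 i) (A l) -
        (P l).eval₂ (jw C (D.w i)) (z i)‖ ≤ M * (r : ℝ) ^ N := by
      intro i l
      have := norm_ev_sub_trunc (jw C (D.w i)) (norm_jw (fam_norm hw0 D i)) (hz1 i) (A l)
        (M := M) M.2 (hM l) N
      rwa [hnz] at this
    let y : K := ∑ l, q l • b l
    have hy : ∀ i, D.w i y ≤ M * r ^ N * β := by
      intro i
      have h1 : toCpl (D.w i) y = ∑ l, ((P l).eval₂ (jw C (D.w i)) (z i) -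
          Spread_607.ev (jw C (D.w i)) (norm_jw (fam_norm hw0 D i)) (hz1 i) (A l)) *
          toCpl (D.w i) (b l) := by
        change toCpl (D.w i) (∑ l, q l • b l) = _
        simp only [sub_mul]
        rw [Finset.sum_sub_distrib, hrel i, sub_zero, map_sum]
        refine Finset.sum_congr rfl fun l _ => ?_
        rw [Algebra.smul_def, map_mul, hq]
      have h2 : ‖toCpl (D.w i) y‖ ≤ M * (r : ℝ) ^ N * β := by
        rw [h1]
        refine IsUltrametricDist.norm_sum_le_of_forall_le_of_nonneg (by positivity) fun l _ => ?_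
        rw [norm_mul, norm_toCpl, norm_sub_rev]
        exact mul_le_mul (htr i l) (by exact_mod_cast hβ i l) NNReal.zero_le_coe (by positivity)
      rw [norm_toCpl] at h2
      exact_mod_cast h2
    have h3 : w0 (q l) ≤ M * r ^ N * β * A0 := by
      have h4 := hA0 y (M * r ^ N * β) hy l
      have h5 : b.repr y l = q l := by
        change b.repr (∑ l, q l • b l) l = q l
        rw [b.repr_sum_self]
      rwa [h5] at h4
    have h6 : ‖(P l).eval₂ (jw C (D.w i0)) (z i0)‖ ≤ M * (r : ℝ) ^ N * β * A0 := by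
      rw [← hq, norm_toCpl, D.ov]
      exact_mod_cast h3
    have h7 : Spread_607.ev (jw C (D.w i0)) (norm_jw (fam_norm hw0 D i0)) (hz1 i0) (A l) =
        (Spread_607.ev (jw C (D.w i0)) (norm_jw (fam_norm hw0 D i0)) (hz1 i0) (A l) -
        (P l).eval₂ (jw C (D.w i0)) (z i0)) + (P l).eval₂ (jw C (D.w i0)) (z i0) := by ring
    rw [h7]
    refine (norm_add_le _ _).trans ((add_le_add (htr i0 l) h6).trans ?_)
    push_cast
    apply le_of_eq
    ring
  have hzero : ∀ l, Spread_607.ev (jw C (D.w i0)) (norm_jw (fam_norm hw0 D i0)) (hz1 i0) (A l) = 0 := by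
    intro l
    have h1 : Filter.Tendsto (fun N : ℕ => ((M * (1 + β * A0) : ℝ≥0) : ℝ) * (r : ℝ) ^ N) Filter.atTop
        (𝓝 (((M * (1 + β * A0) : ℝ≥0) : ℝ) * 0)) :=
      (tendsto_pow_atTop_nhds_zero_of_lt_one NNReal.zero_le_coe (by exact_mod_cast hr1)).const_mul _
    rw [mul_zero] at h1
    have h2 := ge_of_tendsto' h1 (key l)
    exact norm_le_zero_iff.1 h2
  funext l
  have h1 : (V i0).ev (norm_jw (fam_norm hw0 D i0)) (comp (g i0) (WD.co (hg i0) (hm i0)) (A l)) = 0 := by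
    rw [Dc.ev, ev_compE, ← hzero l]
    exact ev_congr _ _ _ (hev i0) _
  have h2 : comp (g i0) (WD.co (hg i0) (hm i0)) (A l) = 0 :=
    (V i0).ev_injective hk _ (ht i0) (h1.trans (map_zero _).symm)
  have h3 : A l = 0 := comp_injective hk (hg i0) (hm i0) (h2.trans (map_zero _).symm)
  have h4 := hA' l
  rw [h3, map_zero] at h4
  exact (mul_eq_zero.1 h4.symm).resolve_left hs1

end Crest.Agent.R013.Spread_607
end
end

-- ▼ part R013/Spr11_607
section

/-! # R013 / Spr11_607 : (SPR4) small discs around a point of type 4 are good. -/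

set_option autoImplicit false
set_option linter.unusedSectionVars false
set_option linter.style.haveILetI false

noncomputable section

namespace Crest.Agent.R013.Spread_607

open Topology Crest.Agent.R013.Cell_408 Crest.Agent.R013.Comp_267 Crest.Agent.R013.Sub_270
open Crest.Agent.R013.A2a_275 Crest.Agent.R013.Good_408
open scoped NNReal

universe u

variable {k : Type*} {C : Type u} [NontriviallyNormedField k] [CompleteSpace k] [IsUltrametricDist k]
  [NormedField C] [IsUltrametricDist C] [NormedAlgebra k C] [Algebra.IsAlgebraic k C] [IsAlgClosed C]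
  {K : Type u} [Field K] [Algebra C K] [Algebra (RatFunc C) K] [IsScalarTower C (RatFunc C) K]

/-- the assembly, once the discs are chosen -/
theorem good4 [hk : Fact (DiscNorm k)] {w0 : Valuation (RatFunc C) ℝ≥0}
    (hw0 : ∀ c, w0 (RatFunc.C c) = ‖c‖₊)
    [FiniteDimensional (RatFunc C) K]
    (D : Fam (RatFunc C) K w0) (a ρ : C) (haρ : w0 (RatFunc.X - RatFunc.C a) < ‖ρ‖₊)
    {n : ℕ} (b : Module.Basis (Fin n) (RatFunc C) K)
    (t : Fin D.N → K)
    (ht : ∀ i, Ty4 (jw C (D.w i)) (toCpl (D.w i) (t i)))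
    (V : ∀ i, Dc (jw C (D.w i)) (toCpl (D.w i) (t i)))
    (g : Fin D.N → PowerSeries C) (m : Fin D.N → ℕ) (hg : ∀ i, WD k (g i) (m i)) (hm : ∀ i, m i ≠ 0)
    (hev : ∀ i, (V i).ev (norm_jw (fam_norm hw0 D i)) ⟨g i, (hg i).mem⟩ =
      (toCpl (D.w i) (algebraMap (RatFunc C) K RatFunc.X) - jw C (D.w i) a) / jw C (D.w i) ρ)
    (ι : Fin D.N → K →ₐ[C] FD k C)
    (hι : ∀ i z, (V i).evF hk.out (norm_jw (fam_norm hw0 D i)) (ht i) (ι i z) = toCpl (D.w i) z)
    (π : C) (hπ0 : π ≠ 0) (hπ1 : ‖π‖ < 1)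
    (hsep : ∀ i l, i ≠ l → ∃ z : K, z ≠ 0 ∧
      (∃ f : BD k C, (V i).ev (norm_jw (fam_norm hw0 D i)) f = toCpl (D.w i) z ∧ BdS ‖π‖ f) ∧
      ∃ f : BD k C, (V l).ev (norm_jw (fam_norm hw0 D l)) f = toCpl (D.w l) z⁻¹ ∧ BdS ‖π‖ f) :
    GoodDisc k C K a ρ := by
  classical
  have hρ : 0 < ‖ρ‖₊ := lt_of_le_of_lt zero_le haρ
  have hρ0 : ρ ≠ 0 := nnnorm_pos.1 hρ
  have htr := transcendental_discY (k := k) a hρ0
  have hinjF : ∀ i, Function.Injective ((V i).evF hk.out (norm_jw (fam_norm hw0 D i)) (ht i)) :=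
    fun i => RingHom.injective _
  have hx : ∀ i, ι i (algebraMap (RatFunc C) K RatFunc.X) =
      compF hk.out (hg i) (hm i) (discY k C a ρ) := by
    intro i
    apply hinjF i
    rw [hι, discY, map_add, map_mul, AlgHom.commutes, AlgHom.commutes, map_add, map_mul,
      Dc.evF_C, Dc.evF_C, compF_TF, Dc.evF_algebraMap, hev i]
    have hjρ : jw C (D.w i) ρ ≠ 0 := (map_ne_zero_iff _ (jw C (D.w i)).injective).2 hρ0
    field_simp
    ring
  have hcard : Fintype.card (Fin n) = Module.finrank (RatFunc C) K :=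
    (Module.finrank_eq_card_basis b).symm
  have hinj := inj4 hk.out hw0 D a ρ haρ b t ht V g m hg hm hev ι hι
  refine GoodD.mk' (discY k C a ρ) htr (Fin D.N) m g hg hm ι hx ?_ b b.linearIndependent hcard hinj
  -- the count
  rw [← hcard, Fintype.card_fin]
  let α : RatFunc C →+* FD k C := (ratHom (discY k C a ρ) htr).toRingHom
  have hα : ∀ i f, (ι i).toRingHom (algebraMap (RatFunc C) K f) =
      (compF hk.out (hg i) (hm i)).toRingHom (α f) := by
    intro i f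
    have h : (compF hk.out (hg i) (hm i)).toRingHom.comp α =
        (ι i).toRingHom.comp (algebraMap (RatFunc C) K) := by
      refine rat_ext (fun c => ?_) ?_
      · change compF hk.out (hg i) (hm i) (ratHom (discY k C a ρ) htr (algebraMap C _ c)) =
          ι i (algebraMap (RatFunc C) K (algebraMap C _ c))
        rw [AlgHom.commutes, AlgHom.commutes, ← IsScalarTower.algebraMap_apply, AlgHom.commutes]
      · change compF hk.out (hg i) (hm i) (ratHom (discY k C a ρ) htr RatFunc.X) =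
          ι i (algebraMap (RatFunc C) K RatFunc.X)
        rw [ratHom_X, hx]
    exact (DFunLike.congr_fun h f).symm
  have hspan := span_all (F := RatFunc C) (K := K) (L := FD k C) (α := α) (o := oB k C)
    (M := fun _ : Fin D.N => FD k C) (φ := fun i => (compF hk.out (hg i) (hm i)).toRingHom)
    (ι := fun i => (ι i).toRingHom) (b := b) (m := m) (T := fun _ => TF k C) hα
    (fun i u => compF_repr hk.out (hg i) (hm i) u) ?_ ?_
  · exact count_le (F := RatFunc C) (K := K) (L := FD k C)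
      (M := fun _ : Fin D.N => FD k C) (φ := fun i => (compF hk.out (hg i) (hm i)).toRingHom)
      (ι := fun i => (ι i).toRingHom) (b := b) (m := m) (T := fun _ => TF k C) hspan
      (fun i e he => compF_indep hk.out (hg i) (hm i) e he)
  · -- the coordinate is in the span
    intro i
    let z : K := (t i - algebraMap C K (V i).τ) / algebraMap C K (V i).σ
    have hz : ι i z = TF k C := by
      apply hinjF i
      rw [hι, Dc.evF_TF, map_div₀, map_sub]
      rfl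
    refine ⟨fun l => α (b.repr z l), ?_⟩
    rw [← hz]
    conv_lhs => rw [← b.sum_repr z, map_sum]
    refine Finset.sum_congr rfl fun l _ => ?_
    rw [Algebra.smul_def, map_mul]
    congr 1
    exact hα i _
  · -- separation
    intro i l hil
    obtain ⟨z, hz0, ⟨f, hf1, hf2⟩, ⟨f', hf1', hf2'⟩⟩ := hsep i l hil
    have hBC : BdS ‖π⁻¹‖ (algebraMap C (BD k C) π⁻¹) := by
      intro n
      change ‖PowerSeries.coeff n (PowerSeries.C π⁻¹)‖ ≤ _
      rw [PowerSeries.coeff_C]; split_ifs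
      · exact le_rfl
      · rw [norm_zero]; exact norm_nonneg _
    have hππ : ‖π⁻¹‖ * ‖π‖ = 1 := by
      rw [← norm_mul, inv_mul_cancel₀ hπ0, norm_one]
    have e1 : ι i z = algebraMap (BD k C) (FD k C) f := by
      apply hinjF i
      rw [hι, Dc.evF_algebraMap, hf1]
    have e2 : ι l z⁻¹ = algebraMap (BD k C) (FD k C) f' := by
      apply hinjF l
      rw [hι, Dc.evF_algebraMap, hf1']
    refine ⟨z, algebraMap C (FD k C) π⁻¹, algebraMap C (FD k C) π⁻¹, hz0, ?_, ?_, ?_⟩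
    · have h1 := integral_of_bdS hk.out (hg i) (hm i)
        (a := algebraMap C (BD k C) π⁻¹ * f) (by
          have := bdS_mul (norm_nonneg _) (norm_nonneg _) hBC hf2
          rwa [hππ] at this)
      have h2 : algebraMap (BD k C) (FD k C) (algebraMap C (BD k C) π⁻¹ * f) =
          (compF hk.out (hg i) (hm i)).toRingHom (algebraMap C (FD k C) π⁻¹) *
            (ι i).toRingHom z := by
        change _ = compF hk.out (hg i) (hm i) (algebraMap C (FD k C) π⁻¹) * ι i z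
        rw [e1, AlgHom.commutes, map_mul, ← IsScalarTower.algebraMap_apply]
      rw [h2] at h1
      exact h1
    · have h1 := integral_of_bdS hk.out (hg l) (hm l)
        (a := algebraMap C (BD k C) π⁻¹ * f') (by
          have := bdS_mul (norm_nonneg _) (norm_nonneg _) hBC hf2'
          rwa [hππ] at this)
      have h2 : algebraMap (BD k C) (FD k C) (algebraMap C (BD k C) π⁻¹ * f') =
          (compF hk.out (hg l) (hm l)).toRingHom (algebraMap C (FD k C) π⁻¹) *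
            ((ι l).toRingHom z)⁻¹ := by
        change _ = compF hk.out (hg l) (hm l) (algebraMap C (FD k C) π⁻¹) * (ι l z)⁻¹
        rw [← map_inv₀, e2, AlgHom.commutes, map_mul, ← IsScalarTower.algebraMap_apply]
      rw [h2] at h1
      exact h1
    · rw [← map_mul]
      apply not_integral
      rw [norm_mul, norm_inv]
      have h3 : 1 < ‖π‖⁻¹ := by
        rw [one_lt_inv₀ (norm_pos_iff.2 hπ0)]; exact hπ1
      nlinarith

theorem finite_adjoin_X [FiniteDimensional (RatFunc C) K] : FiniteDimensional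
    (IntermediateField.adjoin C {algebraMap (RatFunc C) K RatFunc.X}) K := by
  set A := IntermediateField.adjoin C {algebraMap (RatFunc C) K RatFunc.X} with hA
  have hX : algebraMap (RatFunc C) K RatFunc.X ∈ A := IntermediateField.mem_adjoin_simple_self C _
  have hP : ∀ P : Polynomial C, algebraMap (RatFunc C) K (algebraMap (Polynomial C) (RatFunc C) P) ∈ A := by
    intro P
    induction P using Polynomial.induction_on' with
    | add p q hp hq => rw [map_add, map_add]; exact add_mem hp hq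
    | monomial m a =>
      rw [← Polynomial.C_mul_X_pow_eq_monomial, map_mul, map_pow, map_mul, map_pow,
        RatFunc.algebraMap_X, RatFunc.algebraMap_C, ← RatFunc.algebraMap_eq_C,
        ← IsScalarTower.algebraMap_apply]
      exact mul_mem (A.algebraMap_mem a) (pow_mem hX m)
  have hr : ∀ r : RatFunc C, algebraMap (RatFunc C) K r ∈ A := by
    intro r
    rw [← RatFunc.num_div_denom r, map_div₀]
    exact div_mem (hP _) (hP _)
  let φ : RatFunc C →+* A := (algebraMap (RatFunc C) K).codRestrict A hr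
  letI : Algebra (RatFunc C) A := φ.toAlgebra
  haveI : IsScalarTower (RatFunc C) A K := IsScalarTower.of_algebraMap_eq fun _ => rfl
  exact Module.Finite.of_restrictScalars_finite (RatFunc C) A K

/-- **(SPR4)** -/
theorem spr4 [hk : Fact (DiscNorm k)] [CharZero C] [FiniteDimensional (RatFunc C) K]
    {p : ℕ} (hp : p.Prime) (hp1 : ‖(p : C)‖ < 1) (v : Valuation C ℝ≥0) (hv : ∀ c, v c = ‖c‖₊) :
    Crest.Agent.R013.SSG_109.Spr4 v (GoodDisc k C K) := by
  classical
  intro w0 hw0v h4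
  have hw0 : ∀ c, w0 (RatFunc.C c) = ‖c‖₊ := fun c => by rw [hw0v, hv]
  have hcastR : CharZero (RatFunc C) :=
    charZero_of_injective_ringHom (algebraMap C (RatFunc C)).injective
  haveI : Algebra.IsSeparable (RatFunc C) K := inferInstance
  haveI : CharZero K := charZero_of_injective_algebraMap (algebraMap C K).injective
  -- nontriviality
  obtain ⟨x1, hx1⟩ := NormedField.exists_one_lt_norm k
  have hnt : ∃ a, 1 < w0 a := ⟨RatFunc.C (algebraMap k C x1), by
    rw [hw0]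
    have : ‖algebraMap k C x1‖ = ‖x1‖ := norm_algebraMap' C x1
    exact_mod_cast (this.symm ▸ hx1 : 1 < ‖algebraMap k C x1‖)⟩
  set π : C := (algebraMap k C x1)⁻¹ with hπ
  have hx1C : ‖algebraMap k C x1‖ = ‖x1‖ := norm_algebraMap' C x1
  have hπ0 : π ≠ 0 := by
    rw [hπ]; apply inv_ne_zero
    rw [← norm_pos_iff, hx1C]; linarith
  have hπ1 : ‖π‖ < 1 := by
    rw [hπ, norm_inv, hx1C]; exact inv_lt_one_of_one_lt₀ hx1
  have hπpos : 0 < ‖π‖ := norm_pos_iff.2 hπ0
  obtain ⟨D⟩ := exists_fam (RatFunc C) K w0 hnt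
  have hwC : ∀ i (c : C), D.w i (algebraMap C K c) = ‖c‖₊ := fam_norm hw0 D
  set XK : K := algebraMap (RatFunc C) K RatFunc.X with hXK
  have hwX : ∀ i (c : C), D.w i (XK - algebraMap C K c) = w0 (RatFunc.X - RatFunc.C c) := by
    intro i c
    have e : algebraMap (RatFunc C) K (RatFunc.X - RatFunc.C c) = XK - algebraMap C K c := by
      rw [map_sub, ← RatFunc.algebraMap_eq_C, ← IsScalarTower.algebraMap_apply]
    rw [← D.ov i, e]
  haveI := finite_adjoin_X (C := C) (K := K)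
  -- local uniformisation
  have hLU : ∀ i, ∃ t : K, (∀ c : C, ∃ c' : C, D.w i (t - algebraMap C K c') <
      D.w i (t - algebraMap C K c)) ∧ FiniteDimensional (IntermediateField.adjoin C {t}) K ∧
      ∀ z : K, ∀ e : ℝ≥0, 0 < e → ∃ s ∈ IntermediateField.adjoin C {t}, D.w i (z - s) < e := by
    intro i
    refine Crest.Agent.R013.LU6_935.LU4 hp (D.w i) ?_ XK ?_
    · have h2 : D.w i ((p : ℕ) : K) = ‖(p : C)‖₊ := by
        rw [← hwC i (p : C)]
        congr 1
        exact (map_natCast (algebraMap C K) p).symm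
      rw [h2]
      exact_mod_cast hp1
    · intro c
      obtain ⟨c', hc'⟩ := h4 c
      exact ⟨c', by rw [hwX, hwX]; exact hc'⟩
  choose t ht hfd hd using hLU
  let b := Module.finBasis (RatFunc C) K
  have hty : ∀ i, Ty4 (jw C (D.w i)) (toCpl (D.w i) (t i)) := fun i => ty4_of (ht i)
  -- separating elements
  have hsep0 : ∀ i l, i ≠ l → ∃ z : K, z ≠ 0 ∧ D.w i z < ‖π‖₊ / 2 ∧ D.w l z⁻¹ < ‖π‖₊ / 2 := by
    intro i l hil
    refine D.sep' hnt hil ?_
    have : 0 < ‖π‖₊ := nnnorm_pos.2 hπ0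
    positivity
  choose! zs hzs0 hzs1 hzs2 using hsep0
  -- the base discs
  have hU : ∀ i, ∃ U : Dc (jw C (D.w i)) (toCpl (D.w i) (t i)),
      (∃ f : BD k C, U.ev (norm_jw (hwC i)) f = toCpl (D.w i) XK) ∧
      (∀ l, ∃ f : BD k C, U.ev (norm_jw (hwC i)) f = toCpl (D.w i) (b l)) ∧
      (∀ l, i ≠ l → ∃ f : BD k C, U.ev (norm_jw (hwC i)) f = toCpl (D.w i) (zs i l) ∧ BdS ‖π‖ f) ∧
      (∀ l, l ≠ i → ∃ f : BD k C, U.ev (norm_jw (hwC i)) f = toCpl (D.w i) (zs l i)⁻¹ ∧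
        BdS ‖π‖ f) := by
    intro i
    haveI := l4_neBot (norm_jw (hwC i)) (hty i)
    have hcell : ∀ z : K, ∀ᶠ U in l4 (jw C (D.w i)) (toCpl (D.w i) (t i)),
        ∃ f : BD k C, U.ev (norm_jw (hwC i)) f = toCpl (D.w i) z ∧ BdS (2 * ‖toCpl (D.w i) z‖) f :=
      fun z => cell_of_mem (hwC i) (ht i) (hfd i) (hd i) z one_lt_two
    have h1 : ∀ᶠ U in l4 (jw C (D.w i)) (toCpl (D.w i) (t i)),
        ∃ f : BD k C, U.ev (norm_jw (hwC i)) f = toCpl (D.w i) XK := by
      filter_upwards [hcell XK] with U ⟨f, hf, _⟩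
      exact ⟨f, hf⟩
    have h2 : ∀ᶠ U in l4 (jw C (D.w i)) (toCpl (D.w i) (t i)),
        ∀ l, ∃ f : BD k C, U.ev (norm_jw (hwC i)) f = toCpl (D.w i) (b l) := by
      rw [Filter.eventually_all]
      intro l
      filter_upwards [hcell (b l)] with U ⟨f, hf, _⟩
      exact ⟨f, hf⟩
    have h3 : ∀ᶠ U in l4 (jw C (D.w i)) (toCpl (D.w i) (t i)), ∀ l, i ≠ l →
        ∃ f : BD k C, U.ev (norm_jw (hwC i)) f = toCpl (D.w i) (zs i l) ∧ BdS ‖π‖ f := by
      rw [Filter.eventually_all]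
      intro l
      filter_upwards [hcell (zs i l)] with U ⟨f, hf, hf'⟩ hil
      refine ⟨f, hf, fun n => (hf' n).trans ?_⟩
      have h5 := hzs1 i l hil
      rw [norm_toCpl]
      have h6 : (D.w i (zs i l) : ℝ) < ‖π‖ / 2 := by exact_mod_cast h5
      linarith
    have h4 : ∀ᶠ U in l4 (jw C (D.w i)) (toCpl (D.w i) (t i)), ∀ l, l ≠ i →
        ∃ f : BD k C, U.ev (norm_jw (hwC i)) f = toCpl (D.w i) (zs l i)⁻¹ ∧ BdS ‖π‖ f := by
      rw [Filter.eventually_all]
      intro l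
      filter_upwards [hcell (zs l i)⁻¹] with U ⟨f, hf, hf'⟩ hil
      refine ⟨f, hf, fun n => (hf' n).trans ?_⟩
      have h5 := hzs2 l i hil
      rw [norm_toCpl]
      have h6 : (D.w i (zs l i)⁻¹ : ℝ) < ‖π‖ / 2 := by exact_mod_cast h5
      linarith
    exact (h1.and (h2.and (h3.and h4))).exists
  choose U hU1 hU2 hU3 hU4 using hU
  -- SP2
  have hSP2 : ∀ i, ∃ B : ℝ, (∃ c, ‖toCpl (D.w i) XK - jw C (D.w i) c‖ < B) ∧ ∀ a ρ : C,
      ‖toCpl (D.w i) XK - jw C (D.w i) a‖ < ‖ρ‖ → ‖ρ‖ < B →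
      ∃ (V : Dc (jw C (D.w i)) (toCpl (D.w i) (t i))) (g : PowerSeries C) (m : ℕ) (hg : WD k g m),
        m ≠ 0 ∧ ‖V.σ‖ ≤ ‖(U i).σ‖ ∧ V.ev (norm_jw (hwC i)) ⟨g, hg.mem⟩ =
          (toCpl (D.w i) XK - jw C (D.w i) a) / jw C (D.w i) ρ := by
    intro i
    obtain ⟨f, hf⟩ := hU1 i
    refine sp2 hk.out (norm_jw (hwC i)) (hty i) (U i) f hf ?_ ?_
    · intro c h
      obtain ⟨c', hc'⟩ := h4 c
      have h5 : ‖toCpl (D.w i) XK - jw C (D.w i) c‖ = 0 := by rw [h, sub_self, norm_zero]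
      rw [norm_sub_jw, hwX] at h5
      have h6 : w0 (RatFunc.X - RatFunc.C c) = 0 := by exact_mod_cast h5
      rw [h6] at hc'
      exact absurd hc' (not_lt.2 zero_le)
    · intro a η hη
      have := cell_of_mem (k := k) (hwC i) (ht i) (hfd i) (hd i) (XK - algebraMap C K a) hη
      have h5 : toCpl (D.w i) (XK - algebraMap C K a) = toCpl (D.w i) XK - jw C (D.w i) a := by
        rw [map_sub]; rfl
      rw [h5] at this
      exact this
  choose B hB1 hB2 using hSP2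
  choose c0 hc0 using hB1
  haveI : Nonempty (Fin D.N) := D.nonempty
  obtain ⟨i1, -, hi1⟩ := (Finset.univ : Finset (Fin D.N)).exists_min_image B Finset.univ_nonempty
  have hB1pos : 0 ≤ B i1 := (norm_nonneg _).trans (hc0 i1).le
  refine ⟨⟨B i1, hB1pos⟩, ⟨c0 i1, ?_⟩, fun a ρ h1 h2 => ?_⟩
  · have h5 := hc0 i1
    rw [norm_sub_jw, hwX] at h5
    exact h5
  rw [hv] at h1 h2
  have h2' : ‖ρ‖ < B i1 := h2
  have hV : ∀ i, ∃ (V : Dc (jw C (D.w i)) (toCpl (D.w i) (t i))) (g : PowerSeries C) (m : ℕ)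
      (hg : WD k g m), m ≠ 0 ∧ ‖V.σ‖ ≤ ‖(U i).σ‖ ∧ V.ev (norm_jw (hwC i)) ⟨g, hg.mem⟩ =
          (toCpl (D.w i) XK - jw C (D.w i) a) / jw C (D.w i) ρ := by
    intro i
    refine hB2 i a ρ ?_ (h2'.trans_le (hi1 i (Finset.mem_univ i)))
    rw [norm_sub_jw, hwX]
    exact h1
  choose V g m hg hm hVU hVev using hV
  have hι : ∀ i, ∃ ι : K →ₐ[C] FD k C, ∀ z,
      (V i).evF hk.out (norm_jw (hwC i)) (hty i) (ι z) = toCpl (D.w i) z := by
    intro i
    refine exists_iota hk.out (toCpl (D.w i)) rfl (norm_jw (hwC i)) (hty i) (V i) ?_ b ?_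
    · obtain ⟨f, hf⟩ := hU1 i
      exact ⟨_, (Dc.ev_res (norm_jw (hwC i)) (hVU i) f).trans hf⟩
    · intro l
      obtain ⟨f, hf⟩ := hU2 i l
      exact ⟨_, (Dc.ev_res (norm_jw (hwC i)) (hVU i) f).trans hf⟩
  choose ι hι using hι
  refine good4 hw0 D a ρ h1 b t hty V g m hg hm hVev ι hι π hπ0 hπ1 fun i l hil => ?_
  exact ⟨zs i l, hzs0 i l hil, Dc.res (norm_jw (hwC i)) (hVU i) (hU3 i l hil),
    Dc.res (norm_jw (hwC l)) (hVU l) (hU4 l i hil)⟩

end Crest.Agent.R013.Spread_607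
end
end

-- ▼ part R013/Spt1_260
section

/-! # R013 / Spt1_260 : evaluation of bounded series on an annulus at a point of a complete
ultrametric field; points of type 3.

`evA j hj hc hz1 hz2 : AN k c →+* E`, `a ↦ ∑ j (a n) z ^ n` for `‖c‖ < ‖z‖ < 1`. If `‖z‖` is not in
the value group of the algebraically closed field `C`, one monomial dominates strictly and `evA` is
injective. -/

set_option autoImplicit false
set_option linter.unusedSectionVars false

noncomputable section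

namespace Crest.Agent.R013.Spread3_260

open Filter Topology
open Crest.Agent.R013.Cell_408 (FinDef DiscNorm BD)
open Crest.Agent.R013.EE809 Crest.Agent.R013.CAn_243

section Real

/-- a family tending to `0` which is pointwise `< r` is uniformly `< r` -/
theorem exists_lt_unif {ι : Type*} {f : ι → ℝ} {r : ℝ} (hr : 0 < r)
    (h0 : Tendsto f cofinite (𝓝 0)) (h : ∀ i, f i < r) :
    ∃ r', 0 ≤ r' ∧ r' < r ∧ ∀ i, f i ≤ r' := by
  classical
  have h1 : {i | ¬ f i < r / 2}.Finite := by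
    have := h0.eventually (gt_mem_nhds (show (0 : ℝ) < r / 2 by linarith))
    rwa [eventually_cofinite] at this
  have key : ∀ S : Finset ι, ∃ r', 0 ≤ r' ∧ r' < r ∧ ∀ i ∈ S, f i ≤ r' := by
    intro S
    induction S using Finset.induction_on with
    | empty => exact ⟨0, le_rfl, hr, by simp⟩
    | insert i S _ ih =>
      obtain ⟨r', h2, h3, h4⟩ := ih
      refine ⟨max r' (f i), le_max_of_le_left h2, max_lt h3 (h i), fun n hn => ?_⟩
      rcases Finset.mem_insert.1 hn with rfl | hn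
      · exact le_max_right _ _
      · exact (h4 n hn).trans (le_max_left _ _)
  obtain ⟨r', h2, h3, h4⟩ := key h1.toFinset
  refine ⟨max r' (r / 2), le_max_of_le_left h2, max_lt h3 (by linarith), fun i => ?_⟩
  by_cases hi : f i < r / 2
  · exact hi.le.trans (le_max_right _ _)
  · exact (h4 i (h1.mem_toFinset.2 hi)).trans (le_max_left _ _)

/-- a family of nonnegative numbers tending to `0` has a maximum -/
theorem exists_max_of_tendsto {ι : Type*} {f : ι → ℝ} (h0 : Tendsto f cofinite (𝓝 0))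
    {n : ι} (hn : 0 < f n) : ∃ m, f n ≤ f m ∧ ∀ i, f i ≤ f m := by
  classical
  have h1 : {i | ¬ f i < f n}.Finite := by
    have := h0.eventually (gt_mem_nhds hn)
    rwa [eventually_cofinite] at this
  have hne : h1.toFinset.Nonempty := ⟨n, h1.mem_toFinset.2 (lt_irrefl _)⟩
  obtain ⟨m, hm, h2⟩ := h1.toFinset.exists_max_image f hne
  have hmn : f n ≤ f m := not_lt.1 (h1.mem_toFinset.1 hm)
  refine ⟨m, hmn, fun i => ?_⟩
  by_cases hi : f i < f n
  · exact hi.le.trans hmn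
  · exact h2 i (h1.mem_toFinset.2 hi)

end Real

section Ev

variable {k C E : Type*} [NontriviallyNormedField k] [CompleteSpace k]
  [NormedField C] [IsUltrametricDist C] [NormedAlgebra k C] [Algebra.IsAlgebraic k C]
  [NormedField E] [IsUltrametricDist E] [CompleteSpace E]
  (j : C →+* E) (hj : ∀ c, ‖j c‖ = ‖c‖)

include hj

omit [IsUltrametricDist C] [IsUltrametricDist E] [CompleteSpace E] in
theorem continuous_of_norm : Continuous j :=
  (AddMonoidHomClass.isometry_of_norm j hj).continuous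

theorem summable_norm_tm {ρ : ℝ} (hρ : 0 < ρ) {a : EE k C} {M : ℝ} (h1 : Bdd 1 M a)
    (h2 : Bdd ρ M a) {z : E} (hz1 : ρ < ‖z‖) (hz2 : ‖z‖ < 1) :
    Summable fun n : ℤ => ‖j (a.co n) * z ^ n‖ := by
  have hz0 : 0 < ‖z‖ := hρ.trans hz1
  refine Summable.of_nat_of_neg ?_ ?_
  · refine Summable.of_nonneg_of_le (fun n => norm_nonneg _) (fun n => ?_)
      ((summable_geometric_of_lt_one (norm_nonneg z) hz2).mul_left M)
    rw [norm_mul, norm_zpow, hj, zpow_natCast]
    have := h1 n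
    rw [one_zpow, mul_one] at this
    exact mul_le_mul_of_nonneg_right this (pow_nonneg hz0.le _)
  · have hq : ρ / ‖z‖ < 1 := (div_lt_one hz0).2 hz1
    refine Summable.of_nonneg_of_le (fun n => norm_nonneg _) (fun n => ?_)
      ((summable_geometric_of_lt_one (by positivity) hq).mul_left M)
    rw [norm_mul, norm_zpow, hj]
    have h3 := h2 (-(n : ℤ))
    have e : ‖a.co (-(n : ℤ))‖ * ‖z‖ ^ (-(n : ℤ)) =
        ‖a.co (-(n : ℤ))‖ * ρ ^ (-(n : ℤ)) * (ρ / ‖z‖) ^ n := by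
      rw [zpow_neg, zpow_neg, zpow_natCast, zpow_natCast, div_pow]
      field_simp
    rw [e]
    exact mul_le_mul_of_nonneg_right h3 (by positivity)

theorem summable_norm_ev {c : C} (hc : c ≠ 0) {z : E} (hz1 : ‖c‖ < ‖z‖) (hz2 : ‖z‖ < 1)
    (a : AN k c) : Summable fun n : ℤ => ‖j (a.1.co n) * z ^ n‖ := by
  obtain ⟨M, hM, h1, h2⟩ := AN.bd2 a.2
  exact summable_norm_tm j hj (norm_pos_iff.2 hc)
    (show Bdd 1 M a.1 from fun n => by rw [one_zpow, mul_one]; exact h1 n) h2 hz1 hz2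

theorem summable_ev {c : C} (hc : c ≠ 0) {z : E} (hz1 : ‖c‖ < ‖z‖) (hz2 : ‖z‖ < 1)
    (a : AN k c) : Summable fun n : ℤ => j (a.1.co n) * z ^ n :=
  (summable_norm_ev j hj hc hz1 hz2 a).of_norm

/-- **evaluation** of functions on the annulus `‖c‖ < |T| < 1` at `z` -/
def evA {c : C} (hc : c ≠ 0) {z : E} (hz1 : ‖c‖ < ‖z‖) (hz2 : ‖z‖ < 1) : AN k c →+* E where
  toFun a := ∑' n : ℤ, j (a.1.co n) * z ^ n
  map_one' := by
    rw [tsum_eq_single 0]
    · change j ((1 : EE k C).co 0) * z ^ (0 : ℤ) = 1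
      rw [co_one, if_pos rfl, map_one, zpow_zero, one_mul]
    · intro n hn
      change j ((1 : EE k C).co n) * z ^ n = 0
      rw [co_one, if_neg hn, map_zero, zero_mul]
  map_zero' := by
    have : ∀ n : ℤ, j ((0 : AN k c).1.co n) * z ^ n = 0 := fun n => by
      change j ((0 : EE k C).co n) * z ^ n = 0
      rw [co_zero, map_zero, zero_mul]
    rw [tsum_congr this, tsum_zero]
  map_add' a b := by
    rw [← (summable_ev j hj hc hz1 hz2 a).tsum_add (summable_ev j hj hc hz1 hz2 b)]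
    refine tsum_congr fun n => ?_
    change j ((a.1 + b.1 : EE k C).co n) * z ^ n = _
    rw [co_add, map_add, add_mul]
  map_mul' a b := by
    have hz0 : z ≠ 0 := norm_pos_iff.1 ((norm_nonneg _).trans_lt hz1)
    have ha := summable_norm_ev j hj hc hz1 hz2 a
    have hb := summable_norm_ev j hj hc hz1 hz2 b
    rw [tsum_mul_tsum_of_summable_norm ha hb]
    have hs := summable_mul_of_summable_norm ha hb
    have h1 : ∑' p : ℤ × ℤ, (j (a.1.co p.1) * z ^ p.1) * (j (b.1.co p.2) * z ^ p.2) =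
        ∑' q : ℤ × ℤ, (j (a.1.co q.2) * z ^ q.2) * (j (b.1.co (q.1 - q.2)) * z ^ (q.1 - q.2)) := by
      rw [← shearEquiv.symm.tsum_eq]
      rfl
    have hs2 : Summable fun q : ℤ × ℤ =>
        (j (a.1.co q.2) * z ^ q.2) * (j (b.1.co (q.1 - q.2)) * z ^ (q.1 - q.2)) := by
      have := (shearEquiv.symm.summable_iff (f := fun p : ℤ × ℤ =>
        (j (a.1.co p.1) * z ^ p.1) * (j (b.1.co p.2) * z ^ p.2))).2 hs
      exact this
    rw [h1, hs2.tsum_prod]
    refine tsum_congr fun n => ?_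
    change j ((a.1 * b.1 : EE k C).co n) * z ^ n = _
    rw [co_mul, (summable_conv a.1 b.1 n).map_tsum j (continuous_of_norm j hj), ← tsum_mul_right]
    refine tsum_congr fun i => ?_
    rw [map_mul]
    have : z ^ n = z ^ i * z ^ (n - i) := by rw [← zpow_add₀ hz0]; congr 1; ring
    rw [this]
    ring

theorem evA_apply {c : C} (hc : c ≠ 0) {z : E} (hz1 : ‖c‖ < ‖z‖) (hz2 : ‖z‖ < 1) (a : AN k c) :
    evA j hj hc hz1 hz2 a = ∑' n : ℤ, j (a.1.co n) * z ^ n := rfl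

theorem hasSum_evA {c : C} (hc : c ≠ 0) {z : E} (hz1 : ‖c‖ < ‖z‖) (hz2 : ‖z‖ < 1) (a : AN k c) :
    HasSum (fun n : ℤ => j (a.1.co n) * z ^ n) (evA j hj hc hz1 hz2 a) :=
  (summable_ev j hj hc hz1 hz2 a).hasSum

theorem evA_mo {c : C} (hc : c ≠ 0) {z : E} (hz1 : ‖c‖ < ‖z‖) (hz2 : ‖z‖ < 1) (n : ℤ) (x : C) :
    evA j hj hc hz1 hz2 (⟨mo n x, mo_mem_AN c n x⟩ : AN k c) = j x * z ^ n := by
  rw [evA_apply, tsum_eq_single n]
  · change j ((mo n x : EE k C).co n) * z ^ n = _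
    rw [co_mo, if_pos rfl]
  · intro m hm
    change j ((mo n x : EE k C).co m) * z ^ m = _
    rw [co_mo, if_neg hm, map_zero, zero_mul]

theorem evA_T {c : C} (hc : c ≠ 0) {z : E} (hz1 : ‖c‖ < ‖z‖) (hz2 : ‖z‖ < 1) (n : ℤ) :
    evA j hj hc hz1 hz2 (⟨T n, T_mem_AN c n⟩ : AN k c) = z ^ n := by
  have := evA_mo (k := k) j hj hc hz1 hz2 n 1
  rw [map_one, one_mul] at this
  exact this

theorem evA_algebraMap {c : C} (hc : c ≠ 0) {z : E} (hz1 : ‖c‖ < ‖z‖) (hz2 : ‖z‖ < 1) (x : C) :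
    evA j hj hc hz1 hz2 (algebraMap C (AN k c) x) = j x := by
  have := evA_mo (k := k) j hj hc hz1 hz2 0 x
  rw [zpow_zero, mul_one] at this
  exact this

theorem norm_evA_le {c : C} (hc : c ≠ 0) {z : E} (hz1 : ‖c‖ < ‖z‖) (hz2 : ‖z‖ < 1) (a : AN k c)
    {M : ℝ} (hM : ∀ n : ℤ, ‖a.1.co n‖ * ‖z‖ ^ n ≤ M) : ‖evA j hj hc hz1 hz2 a‖ ≤ M := by
  have hM0 : 0 ≤ M := le_trans (mul_nonneg (norm_nonneg _) (zpow_nonneg (norm_nonneg z) 0)) (hM 0)
  rw [evA_apply]
  refine IsUltrametricDist.norm_tsum_le_of_forall_le_of_nonneg hM0 fun n => ?_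
  rw [norm_mul, norm_zpow, hj]
  exact hM n

theorem tendsto_norm_evA {c : C} (hc : c ≠ 0) {z : E} (hz1 : ‖c‖ < ‖z‖) (hz2 : ‖z‖ < 1)
    (a : AN k c) : Tendsto (fun n : ℤ => ‖a.1.co n‖ * ‖z‖ ^ n) cofinite (𝓝 0) := by
  have := (summable_norm_ev j hj hc hz1 hz2 a).tendsto_cofinite_zero
  refine this.congr fun n => ?_
  rw [norm_mul, norm_zpow, hj]

/-- a strictly dominating monomial gives the norm -/
theorem norm_evA_eq {c : C} (hc : c ≠ 0) {z : E} (hz1 : ‖c‖ < ‖z‖) (hz2 : ‖z‖ < 1) (a : AN k c)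
    {m : ℤ} (hm : ∀ n, n ≠ m → ‖a.1.co n‖ * ‖z‖ ^ n < ‖a.1.co m‖ * ‖z‖ ^ m) :
    ‖evA j hj hc hz1 hz2 a‖ = ‖a.1.co m‖ * ‖z‖ ^ m := by
  have hnm : ∀ n : ℤ, ‖j (a.1.co n) * z ^ n‖ = ‖a.1.co n‖ * ‖z‖ ^ n := fun n => by
    rw [norm_mul, norm_zpow, hj]
  have hpos : 0 < ‖a.1.co m‖ * ‖z‖ ^ m :=
    lt_of_le_of_lt (mul_nonneg (norm_nonneg _) (zpow_nonneg (norm_nonneg z) _))
      (hm (m + 1) (by omega))
  rw [evA_apply, (summable_ev j hj hc hz1 hz2 a).tsum_eq_add_tsum_ite m]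
  have h0 : Tendsto (fun n : ℤ => if n = m then 0 else ‖a.1.co n‖ * ‖z‖ ^ n) cofinite (𝓝 0) := by
    refine squeeze_zero (fun n => ?_) (fun n => ?_) (tendsto_norm_evA j hj hc hz1 hz2 a)
    · split_ifs
      · exact le_rfl
      · exact mul_nonneg (norm_nonneg _) (zpow_nonneg (norm_nonneg z) _)
    · split_ifs
      · exact mul_nonneg (norm_nonneg _) (zpow_nonneg (norm_nonneg z) _)
      · exact le_rfl
  obtain ⟨r', h1, h2, h3⟩ := exists_lt_unif hpos h0 (fun n => by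
    split_ifs with h
    · exact hpos
    · exact hm n h)
  have h4 : ‖∑' n : ℤ, ite (n = m) 0 (j (a.1.co n) * z ^ n)‖ < ‖j (a.1.co m) * z ^ m‖ := by
    rw [hnm]
    refine lt_of_le_of_lt ?_ h2
    refine IsUltrametricDist.norm_tsum_le_of_forall_le_of_nonneg h1 fun n => ?_
    have h5 := h3 n
    split_ifs at h5 ⊢ with h
    · rw [norm_zero]; exact h1
    · rw [hnm]; exact h5
  rw [IsUltrametricDist.norm_add_eq_max_of_norm_ne_norm h4.ne', max_eq_left h4.le, hnm]

end Ev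

section Ty3

variable {C : Type*} [NormedField C] [IsAlgClosed C]

/-- powers of a real number outside the value group are outside the value group -/
theorem zpow_ne_norm {r : ℝ} (hr : 0 ≤ r) (h : ∀ c : C, r ≠ ‖c‖) {n : ℤ} (hn : n ≠ 0) (c : C) :
    r ^ n ≠ ‖c‖ := by
  have key : ∀ m : ℕ, m ≠ 0 → ∀ c : C, r ^ m ≠ ‖c‖ := by
    intro m hm c hc
    obtain ⟨x, hx⟩ := IsAlgClosed.exists_pow_nat_eq c (Nat.pos_of_ne_zero hm)
    rw [← hx, norm_pow] at hc
    exact h x (pow_left_injective₀' hm hr (norm_nonneg x) hc)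
  rcases lt_or_gt_of_ne hn with h1 | h1
  · obtain ⟨m, hm⟩ := Int.exists_eq_neg_ofNat h1.le
    rw [hm, zpow_neg, zpow_natCast]
    intro h2
    refine key m (by omega) c⁻¹ ?_
    rw [norm_inv, ← h2, inv_inv]
  · obtain ⟨m, hm⟩ := Int.eq_ofNat_of_zero_le h1.le
    rw [hm, zpow_natCast]
    exact key m (by omega) c
where
  pow_left_injective₀' {m : ℕ} (hm : m ≠ 0) {x y : ℝ} (hx : 0 ≤ x) (hy : 0 ≤ y)
      (h : x ^ m = y ^ m) : x = y := (pow_left_inj₀ hx hy hm).1 h

/-- distinct monomials have distinct norms at a point of type 3 -/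
theorem mono_norm_ne {r : ℝ} (hr : 0 < r) (h : ∀ c : C, r ≠ ‖c‖) {x y : C} (hy : y ≠ 0)
    {n m : ℤ} (hnm : n ≠ m) : ‖x‖ * r ^ n ≠ ‖y‖ * r ^ m := by
  intro h1
  have hx : x ≠ 0 := by
    rintro rfl
    rw [norm_zero, zero_mul] at h1
    exact (mul_pos (norm_pos_iff.2 hy) (zpow_pos hr m)).ne h1
  refine zpow_ne_norm (C := C) hr.le h (n := n - m) (sub_ne_zero.2 hnm) (y / x) ?_
  rw [zpow_sub₀ hr.ne', norm_div, div_eq_div_iff (zpow_pos hr m).ne' (norm_pos_iff.2 hx).ne']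
  rw [mul_comm] at h1
  rw [h1]

end Ty3

section Dom

variable {k C E : Type*} [NontriviallyNormedField k] [CompleteSpace k]
  [NormedField C] [IsUltrametricDist C] [NormedAlgebra k C] [Algebra.IsAlgebraic k C]
  [IsAlgClosed C]
  [NormedField E] [IsUltrametricDist E] [CompleteSpace E]
  (j : C →+* E) (hj : ∀ c, ‖j c‖ = ‖c‖)

include hj

/-- **one monomial dominates** (uniformly) at a point of type 3 -/
theorem exists_dom {c : C} (hc : c ≠ 0) {z : E} (hz1 : ‖c‖ < ‖z‖) (hz2 : ‖z‖ < 1)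
    (hz : ∀ x : C, ‖z‖ ≠ ‖x‖) {a : AN k c} (ha : a ≠ 0) :
    ∃ (m : ℤ) (θ : ℝ), a.1.co m ≠ 0 ∧ 0 ≤ θ ∧ θ < 1 ∧
      (∀ n, n ≠ m → ‖a.1.co n‖ * ‖z‖ ^ n ≤ θ * (‖a.1.co m‖ * ‖z‖ ^ m)) ∧
      ‖evA j hj hc hz1 hz2 a‖ = ‖a.1.co m‖ * ‖z‖ ^ m := by
  have hz0 : 0 < ‖z‖ := (norm_nonneg _).trans_lt hz1
  have h0 := tendsto_norm_evA (k := k) j hj hc hz1 hz2 a
  obtain ⟨n, hn⟩ : ∃ n, a.1.co n ≠ 0 := by
    by_contra h
    push Not at h
    exact ha (Subtype.ext (EE.ext h))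
  have hn' : 0 < ‖a.1.co n‖ * ‖z‖ ^ n := mul_pos (norm_pos_iff.2 hn) (zpow_pos hz0 n)
  obtain ⟨m, hm1, hm2⟩ := exists_max_of_tendsto h0 hn'
  have hm0 : a.1.co m ≠ 0 := by
    intro h
    rw [h, norm_zero, zero_mul] at hm1
    exact absurd hn' (not_lt.2 hm1)
  have hm' : 0 < ‖a.1.co m‖ * ‖z‖ ^ m := mul_pos (norm_pos_iff.2 hm0) (zpow_pos hz0 m)
  have hlt : ∀ i, i ≠ m → ‖a.1.co i‖ * ‖z‖ ^ i < ‖a.1.co m‖ * ‖z‖ ^ m := fun i hi =>
    lt_of_le_of_ne (hm2 i) (mono_norm_ne hz0 hz hm0 hi)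
  have h5 : Tendsto (fun n : ℤ => if n = m then 0 else ‖a.1.co n‖ * ‖z‖ ^ n) cofinite (𝓝 0) := by
    refine squeeze_zero (fun n => ?_) (fun n => ?_) h0
    · split_ifs
      · exact le_rfl
      · exact mul_nonneg (norm_nonneg _) (zpow_nonneg (norm_nonneg z) _)
    · split_ifs
      · exact mul_nonneg (norm_nonneg _) (zpow_nonneg (norm_nonneg z) _)
      · exact le_rfl
  obtain ⟨r', h1, h2, h3⟩ := exists_lt_unif hm' h5 (fun n => by
    split_ifs with h
    · exact hm'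
    · exact hlt n h)
  refine ⟨m, r' / (‖a.1.co m‖ * ‖z‖ ^ m), hm0, by positivity, (div_lt_one hm').2 h2,
    fun n hn => ?_, norm_evA_eq j hj hc hz1 hz2 a hlt⟩
  rw [div_mul_cancel₀ _ hm'.ne']
  have := h3 n
  rwa [if_neg hn] at this

/-- evaluation at a point of type 3 is injective -/
theorem evA_injective {c : C} (hc : c ≠ 0) {z : E} (hz1 : ‖c‖ < ‖z‖) (hz2 : ‖z‖ < 1)
    (hz : ∀ x : C, ‖z‖ ≠ ‖x‖) : Function.Injective (evA (k := k) j hj hc hz1 hz2) := by
  rw [injective_iff_map_eq_zero]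
  intro a h
  by_contra ha
  obtain ⟨m, θ, h1, -, -, -, h2⟩ := exists_dom j hj hc hz1 hz2 hz ha
  rw [h, norm_zero] at h2
  exact (mul_pos (norm_pos_iff.2 h1) (zpow_pos ((norm_nonneg _).trans_lt hz1) m)).ne h2

end Dom

end Crest.Agent.R013.Spread3_260
end
end

-- ▼ part R013/Spt2_260
section

/-! # R013 / Spt2_260 : annuli around a point of type 3.

`E` complete ultrametric field over `C` (isometric `j : C → E`), `t : E`, `t ≠ 0`, `‖t‖` not in the
value group of `C`. `Ac j t` = open annuli `‖c σ‖ < |x| < ‖σ‖` containing `t` (coordinate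
`T = x / σ`), `U.ev : AN U.c → E`, `l3` = filter of small annuli; restriction to smaller annuli; the
dominating monomial of a function at `t` dominates at both ends of all small annuli. -/

set_option autoImplicit false
set_option linter.unusedSectionVars false

noncomputable section

namespace Crest.Agent.R013.Spread3_260

open Filter Topology
open Crest.Agent.R013.Cell_408 (FinDef DiscNorm BD)
open Crest.Agent.R013.EE809 Crest.Agent.R013.CAn_243

section Real

/-- a monomial which dominates at `r0` dominates near `r0`, uniformly -/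
theorem ev_dom {x : ℤ → ℝ} {M ρ r0 θ0 θ : ℝ} (hx : ∀ n, 0 ≤ x n) (h1 : ∀ n, x n ≤ M) (hρ : 0 < ρ)
    (h2 : ∀ n, x n * ρ ^ n ≤ M) (hr1 : ρ < r0) (hr2 : r0 < 1) {m : ℤ} (hm : 0 < x m)
    (h3 : ∀ n, n ≠ m → x n * r0 ^ n ≤ θ0 * (x m * r0 ^ m)) (hθ0 : 0 ≤ θ0) (hθ : θ0 < θ) :
    ∀ᶠ r in 𝓝 r0, ∀ n, n ≠ m → x n * r ^ n ≤ θ * (x m * r ^ m) := by
  have hr0 : 0 < r0 := hρ.trans hr1
  have hθp : 0 < θ := hθ0.trans_lt hθ
  have hM : 0 ≤ M := (hx 0).trans (h1 0)
  obtain ⟨s1, hs1, hs1'⟩ := exists_between hr1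
  obtain ⟨s2, hs2, hs2'⟩ := exists_between hr2
  have hs10 : 0 < s1 := hρ.trans hs1
  have hs20 : 0 < s2 := hr0.trans hs2
  -- a lower bound for the dominating monomial
  set δ : ℝ := θ * (x m * min (s1 ^ m) (s2 ^ m)) with hδ
  have hδ0 : 0 < δ := mul_pos hθp (mul_pos hm (lt_min (zpow_pos hs10 m) (zpow_pos hs20 m)))
  have hlow : ∀ r, s1 ≤ r → r ≤ s2 → δ ≤ θ * (x m * r ^ m) := by
    intro r hr hr'
    have hr0' : 0 < r := hs10.trans_le hr
    refine mul_le_mul_of_nonneg_left (mul_le_mul_of_nonneg_left ?_ hm.le) hθp.le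
    rcases le_or_gt 0 m with h | h
    · exact (min_le_left _ _).trans (zpow_le_zpow_left₀ h hs10.le hr)
    · refine (min_le_right _ _).trans ?_
      obtain ⟨l, hl⟩ := Int.exists_eq_neg_ofNat h.le
      rw [hl, zpow_neg, zpow_neg, zpow_natCast, zpow_natCast]
      exact inv_anti₀ (pow_pos hr0' l) (pow_le_pow_left₀ hr0'.le hr' l)
  -- large exponents
  obtain ⟨N1, hN1⟩ : ∃ N1 : ℕ, ∀ n : ℕ, N1 ≤ n → M * s2 ^ n < δ := by
    have h : Tendsto (fun n : ℕ => M * s2 ^ n) atTop (𝓝 (M * 0)) :=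
      (tendsto_pow_atTop_nhds_zero_of_lt_one hs20.le hs2').const_mul M
    rw [mul_zero] at h
    exact eventually_atTop.1 (h.eventually (gt_mem_nhds hδ0))
  obtain ⟨N2, hN2⟩ : ∃ N2 : ℕ, ∀ n : ℕ, N2 ≤ n → M * (ρ / s1) ^ n < δ := by
    have h : Tendsto (fun n : ℕ => M * (ρ / s1) ^ n) atTop (𝓝 (M * 0)) :=
      (tendsto_pow_atTop_nhds_zero_of_lt_one (by positivity) ((div_lt_one hs10).2 hs1)).const_mul M
    rw [mul_zero] at h
    exact eventually_atTop.1 (h.eventually (gt_mem_nhds hδ0))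
  have hfin : ∀ᶠ r in 𝓝 r0, ∀ n ∈ Finset.Icc (-(N2 : ℤ)) N1, n ≠ m →
      x n * r ^ n ≤ θ * (x m * r ^ m) := by
    rw [Filter.eventually_all_finset]
    intro n _
    by_cases hn : n = m
    · exact Eventually.of_forall fun r h => absurd hn h
    · have hc1 : ContinuousAt (fun r : ℝ => x n * r ^ n) r0 :=
        continuousAt_const.mul (continuousAt_zpow₀ r0 n (Or.inl hr0.ne'))
      have hc2 : ContinuousAt (fun r : ℝ => θ * (x m * r ^ m)) r0 :=
        continuousAt_const.mul (continuousAt_const.mul (continuousAt_zpow₀ r0 m (Or.inl hr0.ne')))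
      have hlt : x n * r0 ^ n < θ * (x m * r0 ^ m) :=
        (h3 n hn).trans_lt (mul_lt_mul_of_pos_right hθ (mul_pos hm (zpow_pos hr0 m)))
      filter_upwards [hc1.eventually_lt hc2 hlt] with r hr _
      exact hr.le
  filter_upwards [hfin, Ioo_mem_nhds hs1' hs2] with r hr hrI n hn
  have hr0' : 0 < r := hs10.trans hrI.1
  by_cases h4 : n ∈ Finset.Icc (-(N2 : ℤ)) N1
  · exact hr n h4 hn
  · refine le_trans ?_ (hlow r hrI.1.le hrI.2.le)
    rw [Finset.mem_Icc, not_and_or, not_le, not_le] at h4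
    rcases h4 with h4 | h4
    · obtain ⟨l, hl⟩ : ∃ l : ℕ, n = -(l : ℤ) := Int.exists_eq_neg_ofNat (by omega)
      have h5 := hN2 l (by omega)
      refine le_trans ?_ h5.le
      have h6 := h2 n
      have e : x n * r ^ n = x n * ρ ^ n * (ρ / r) ^ l := by
        rw [hl, zpow_neg, zpow_neg, zpow_natCast, zpow_natCast, div_pow]
        field_simp
      rw [e]
      have h7 : (ρ / r) ^ l ≤ (ρ / s1) ^ l :=
        pow_le_pow_left₀ (by positivity) (div_le_div_of_nonneg_left hρ.le hs10 hrI.1.le) l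
      exact mul_le_mul h6 h7 (by positivity) hM
    · obtain ⟨l, hl⟩ := Int.eq_ofNat_of_zero_le (show 0 ≤ n by omega)
      have h5 := hN1 l (by omega)
      refine le_trans ?_ h5.le
      rw [hl, zpow_natCast]
      exact mul_le_mul (h1 _) (pow_le_pow_left₀ hr0'.le hrI.2.le l) (by positivity) hM

end Real

section Dense

/-- the value group of an algebraically closed field is dense -/
theorem exists_norm_between (k : Type*) {C : Type*} [NontriviallyNormedField k] [NormedField C]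
    [NormedAlgebra k C] [IsAlgClosed C] {r1 r2 : ℝ} (h : r1 < r2) (h2 : 0 < r2) :
    ∃ c : C, c ≠ 0 ∧ r1 < ‖c‖ ∧ ‖c‖ < r2 := by
  -- a small step
  set R : ℝ := r2 / max r1 (r2 / 2) with hR
  have hmax : 0 < max r1 (r2 / 2) := lt_max_of_lt_right (by linarith)
  have hR1 : 1 < R := (one_lt_div hmax).2 (max_lt h (by linarith))
  obtain ⟨π, hπ⟩ := NormedField.exists_one_lt_norm k
  obtain ⟨n, hn⟩ := pow_unbounded_of_one_lt ‖π‖ hR1
  have hn0 : n ≠ 0 := by
    rintro rfl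
    rw [pow_zero] at hn
    exact absurd hπ (not_lt.2 hn.le)
  obtain ⟨y, hy⟩ := IsAlgClosed.exists_pow_nat_eq (algebraMap k C π) (Nat.pos_of_ne_zero hn0)
  have hy1 : ‖y‖ ^ n = ‖π‖ := by rw [← norm_pow, hy, norm_algebraMap']
  have hy2 : 1 < ‖y‖ := by
    by_contra hlt
    exact absurd hπ (not_lt.2 (hy1 ▸ pow_le_one₀ (norm_nonneg _) (not_lt.1 hlt)))
  have hy3 : ‖y‖ < R := lt_of_pow_lt_pow_left₀ n (by linarith) (hy1 ▸ hn)
  obtain ⟨l, hl1, hl2⟩ := exists_mem_Ioc_zpow h2 hy2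
  have hy0 : 0 < ‖y‖ := zero_lt_one.trans hy2
  refine ⟨y ^ l, zpow_ne_zero _ (norm_pos_iff.1 hy0), ?_, ?_⟩
  · rw [norm_zpow]
    rw [zpow_add_one₀ hy0.ne'] at hl2
    have h3 : ‖y‖ * max r1 (r2 / 2) < r2 := by
      rw [hR, lt_div_iff₀ hmax] at hy3; exact hy3
    have h4 : ‖y‖ * max r1 (r2 / 2) < ‖y‖ * ‖y‖ ^ l := by
      rw [mul_comm ‖y‖ (‖y‖ ^ l)]; exact h3.trans_le hl2
    exact (le_max_left _ _).trans_lt (lt_of_mul_lt_mul_left h4 hy0.le)
  · rw [norm_zpow]; exact hl1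

end Dense

section Scale

variable {k C : Type*} [NontriviallyNormedField k] [CompleteSpace k]
  [NormedField C] [IsUltrametricDist C] [NormedAlgebra k C] [Algebra.IsAlgebraic k C]

/-- `T ↦ β T`, from the annulus of `c` to the annulus of `c'` -/
def scl {c c' β : C} (hc : c ≠ 0) (h1 : ‖c‖ ≤ ‖c'‖ * ‖β‖) (h2 : ‖β‖ ≤ 1) (h3 : ‖c'‖ < 1)
    (a : AN k c) : AN k c' :=
  have hc0 : 0 < ‖c‖ := norm_pos_iff.2 hc
  have hβ0 : 0 < ‖β‖ := by
    by_contra h
    have : ‖β‖ = 0 := le_antisymm (not_lt.1 h) (norm_nonneg _)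
    rw [this, mul_zero] at h1
    exact absurd hc0 (not_lt.2 h1)
  have hcβ : ‖c‖ < ‖β‖ := lt_of_le_of_lt h1 (mul_lt_of_lt_one_left hβ0 h3)
  ⟨mk' (fun n => a.1.co n * β ^ n)
    (by
      obtain ⟨L, hL, h4, h5⟩ := a.1.fd.common (finDef_const (k := k) β)
      exact ⟨L, hL, fun n => mul_mem (h4 _) (zpow_mem (h5 ()) _)⟩)
    (by
      obtain ⟨M, -, h4, h5⟩ := AN.bd2 a.2
      refine ⟨M, fun n => ?_⟩
      rw [norm_mul, norm_zpow]
      exact Bdd.interp hc0 hcβ.le h2 h5 (fun n => by rw [one_zpow, mul_one]; exact h4 n) n)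
    (by
      obtain ⟨M, hM, h4, h5⟩ := AN.bd2 a.2
      have h6 : Tendsto (fun n : ℤ => M * (‖c‖ / ‖β‖) ^ (-n)) atBot (𝓝 0) := by
        have h7 : Tendsto (fun n : ℕ => M * (‖c‖ / ‖β‖) ^ n) atTop (𝓝 (M * 0)) :=
          (tendsto_pow_atTop_nhds_zero_of_lt_one (by positivity)
            ((div_lt_one hβ0).2 hcβ)).const_mul M
        rw [mul_zero] at h7
        rw [Metric.tendsto_nhds] at h7 ⊢
        intro ε hε
        obtain ⟨N, hN⟩ := eventually_atTop.1 (h7 ε hε)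
        rw [eventually_atBot]
        refine ⟨-N, fun n hn => ?_⟩
        have h8 := hN (-n).toNat (by omega)
        have h9 : (((-n).toNat : ℕ) : ℤ) = -n := Int.toNat_of_nonneg (by omega)
        rw [← zpow_natCast, h9] at h8
        exact h8
      refine squeeze_zero_norm (fun n => ?_) h6
      rw [norm_mul, norm_zpow]
      have e : ‖a.1.co n‖ * ‖β‖ ^ n = ‖a.1.co n‖ * ‖c‖ ^ n * (‖c‖ / ‖β‖) ^ (-n) := by
        rw [div_zpow, zpow_neg, zpow_neg]
        have := (zpow_pos hc0 n).ne'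
        have := (zpow_pos hβ0 n).ne'
        field_simp
      rw [e]
      exact mul_le_mul_of_nonneg_right (h5 n) (zpow_nonneg (by positivity) _)),
   by
    obtain ⟨M, -, h4, h5⟩ := AN.bd2 a.2
    refine ⟨M, fun n => ?_⟩
    rw [co_mk', norm_mul, norm_zpow, mul_assoc, ← mul_zpow]
    refine Bdd.interp hc0 (h1.trans_eq (mul_comm _ _)) ?_ h5
      (fun n => by rw [one_zpow, mul_one]; exact h4 n) n
    exact mul_le_one₀ h2 (norm_nonneg _) h3.le⟩

theorem co_scl {c c' β : C} (hc : c ≠ 0) (h1 : ‖c‖ ≤ ‖c'‖ * ‖β‖) (h2 : ‖β‖ ≤ 1) (h3 : ‖c'‖ < 1)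
    (a : AN k c) (n : ℤ) : (scl hc h1 h2 h3 a).1.co n = a.1.co n * β ^ n := rfl

/-- bound at both ends -/
def BdA {c : C} (M : ℝ) (a : AN k c) : Prop := Bdd 1 M a.1 ∧ Bdd ‖c‖ M a.1


theorem BdA.mono {c : C} {M N : ℝ} {a : AN k c} (h : BdA M a) (hMN : M ≤ N) : BdA N a :=
  ⟨h.1.le hMN, h.2.le hMN⟩

theorem bdA_iff {c : C} {M : ℝ} {a : AN k c} :
    BdA M a ↔ (∀ n, ‖a.1.co n‖ ≤ M) ∧ ∀ n, ‖a.1.co n‖ * ‖c‖ ^ n ≤ M := by
  refine and_congr ⟨fun h n => ?_, fun h n => ?_⟩ Iff.rfl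
  · have := h n
    rwa [one_zpow, mul_one] at this
  · rw [one_zpow, mul_one]; exact h n


end Scale

section Annuli

variable {k C E : Type*} [NontriviallyNormedField k] [CompleteSpace k]
  [NormedField C] [IsUltrametricDist C] [NormedAlgebra k C] [Algebra.IsAlgebraic k C]
  [IsAlgClosed C]
  [NormedField E] [IsUltrametricDist E] [CompleteSpace E]

/-- type 3 -/
def Ty3 (_j : C →+* E) (t : E) : Prop := t ≠ 0 ∧ ∀ c : C, ‖t‖ ≠ ‖c‖

/-- open annuli `‖c σ‖ < |x| < ‖σ‖` containing `t` -/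
structure Ac (j : C →+* E) (t : E) where
  c : C
  σ : C
  c_ne : c ≠ 0
  lt_in : ‖c‖ * ‖σ‖ < ‖t‖
  lt_out : ‖t‖ < ‖σ‖

variable {j : C →+* E} {t : E}

theorem Ac.σ_pos (U : Ac j t) : 0 < ‖U.σ‖ := (norm_nonneg _).trans_lt U.lt_out

theorem Ac.σ_ne (U : Ac j t) : U.σ ≠ 0 := norm_pos_iff.1 U.σ_pos

theorem Ac.c_pos (U : Ac j t) : 0 < ‖U.c‖ := norm_pos_iff.2 U.c_ne

theorem Ac.c_lt (U : Ac j t) : ‖U.c‖ < 1 := by
  by_contra h
  have h1 := U.lt_in.trans U.lt_out
  have h2 := U.σ_pos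
  nlinarith [not_lt.1 h]

theorem Ac.t_pos (U : Ac j t) : 0 < ‖t‖ := (mul_pos U.c_pos U.σ_pos).trans U.lt_in

/-- the filter of small annuli -/
def l3 (j : C →+* E) (t : E) : Filter (Ac j t) where
  sets := {S | ∃ r1 r2 : ℝ, r1 < ‖t‖ ∧ ‖t‖ < r2 ∧
    ∀ U : Ac j t, r1 < ‖U.c‖ * ‖U.σ‖ → ‖U.σ‖ < r2 → U ∈ S}
  univ_sets := ⟨‖t‖ - 1, ‖t‖ + 1, by linarith, by linarith, fun _ _ _ => trivial⟩
  sets_of_superset := by
    rintro S S' ⟨r1, r2, h1, h2, h⟩ hSS
    exact ⟨r1, r2, h1, h2, fun U hU hU' => hSS (h U hU hU')⟩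
  inter_sets := by
    rintro S S' ⟨r1, r2, h1, h2, h⟩ ⟨s1, s2, h3, h4, h'⟩
    exact ⟨max r1 s1, min r2 s2, max_lt h1 h3, lt_min h2 h4, fun U hU hU' =>
      ⟨h U ((le_max_left _ _).trans_lt hU) (hU'.trans_le (min_le_left _ _)),
        h' U ((le_max_right _ _).trans_lt hU) (hU'.trans_le (min_le_right _ _))⟩⟩

theorem eventually_l3 {P : Ac j t → Prop} :
    (∀ᶠ U in l3 j t, P U) ↔ ∃ r1 r2 : ℝ, r1 < ‖t‖ ∧ ‖t‖ < r2 ∧
      ∀ U : Ac j t, r1 < ‖U.c‖ * ‖U.σ‖ → ‖U.σ‖ < r2 → P U := Iff.rfl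

theorem tendsto_out : Tendsto (fun U : Ac j t => ‖U.σ‖) (l3 j t) (𝓝 ‖t‖) := by
  refine tendsto_order.2 ⟨fun r hr => Eventually.of_forall fun U => hr.trans U.lt_out,
    fun r hr => ?_⟩
  exact eventually_l3.2 ⟨‖t‖ - 1, r, by linarith, hr, fun U _ h => h⟩

theorem tendsto_in : Tendsto (fun U : Ac j t => ‖U.c‖ * ‖U.σ‖) (l3 j t) (𝓝 ‖t‖) := by
  refine tendsto_order.2 ⟨fun r hr => ?_, fun r hr => Eventually.of_forall fun U => U.lt_in.trans hr⟩
  exact eventually_l3.2 ⟨r, ‖t‖ + 1, hr, by linarith, fun U h _ => h⟩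

/-- there are small annuli -/
theorem exists_ac (k : Type*) {C E : Type*} [NontriviallyNormedField k] [NormedField C]
    [NormedAlgebra k C] [IsAlgClosed C] [NormedField E] {j : C →+* E} {t : E} (ht : Ty3 j t)
    {r1 r2 : ℝ} (h1 : r1 < ‖t‖) (h2 : ‖t‖ < r2) :
    ∃ U : Ac j t, r1 < ‖U.c‖ * ‖U.σ‖ ∧ ‖U.σ‖ < r2 := by
  have ht0 : 0 < ‖t‖ := norm_pos_iff.2 ht.1
  obtain ⟨σ, hσ, hσ1, hσ2⟩ := exists_norm_between k (C := C) h2 (ht0.trans h2)
  obtain ⟨τ, hτ, hτ1, hτ2⟩ := exists_norm_between k (C := C) h1 ht0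
  have e : ‖τ / σ‖ * ‖σ‖ = ‖τ‖ := by
    rw [norm_div, div_mul_cancel₀ _ (norm_ne_zero_iff.2 hσ)]
  exact ⟨⟨τ / σ, σ, div_ne_zero hτ hσ, by rw [e]; exact hτ2, hσ1⟩, by
    change r1 < ‖τ / σ‖ * ‖σ‖
    rw [e]; exact hτ1, hσ2⟩

theorem l3_neBot (k : Type*) {C E : Type*} [NontriviallyNormedField k] [NormedField C]
    [NormedAlgebra k C] [IsAlgClosed C] [NormedField E] {j : C →+* E} {t : E} (ht : Ty3 j t) : (l3 j t).NeBot := by
  rw [Filter.neBot_iff]
  intro h
  have h1 : (∅ : Set (Ac j t)) ∈ l3 j t := by rw [h]; exact Filter.mem_bot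
  obtain ⟨r1, r2, h2, h3, h4⟩ := h1
  obtain ⟨U, hU1, hU2⟩ := exists_ac k ht h2 h3
  exact h4 U hU1 hU2

/-- smaller annuli -/
def Ac.Le (U' U : Ac j t) : Prop := ‖U.c‖ * ‖U.σ‖ ≤ ‖U'.c‖ * ‖U'.σ‖ ∧ ‖U'.σ‖ ≤ ‖U.σ‖

theorem eventually_le (U : Ac j t) : ∀ᶠ U' in l3 j t, U'.Le U :=
  eventually_l3.2 ⟨_, _, U.lt_in, U.lt_out, fun _ h h' => ⟨h.le, h'.le⟩⟩

variable (hj : ∀ c, ‖j c‖ = ‖c‖)

include hj

theorem Ac.lt_norm (U : Ac j t) : ‖U.c‖ < ‖t / j U.σ‖ := by
  rw [norm_div, hj, lt_div_iff₀ U.σ_pos]; exact U.lt_in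

theorem Ac.norm_lt (U : Ac j t) : ‖t / j U.σ‖ < 1 := by
  rw [norm_div, hj, div_lt_one U.σ_pos]; exact U.lt_out

theorem Ty3.div (ht : Ty3 j t) {σ : C} (hσ : σ ≠ 0) (x : C) : ‖t / j σ‖ ≠ ‖x‖ := by
  rw [norm_div, hj, Ne, div_eq_iff (norm_ne_zero_iff.2 hσ), ← norm_mul]
  exact ht.2 _

/-- evaluation at `t` of functions on the annulus -/
def Ac.ev (U : Ac j t) : AN k U.c →+* E := evA j hj U.c_ne (U.lt_norm hj) (U.norm_lt hj)

theorem Ac.ev_algebraMap (U : Ac j t) (x : C) : U.ev (k := k) hj (algebraMap C _ x) = j x :=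
  evA_algebraMap j hj _ _ _ x

theorem Ac.ev_mo (U : Ac j t) (n : ℤ) (x : C) :
    U.ev (k := k) hj ⟨mo n x, mo_mem_AN U.c n x⟩ = j x * (t / j U.σ) ^ n :=
  evA_mo j hj _ _ _ n x

theorem Ac.ev_T (U : Ac j t) (n : ℤ) :
    U.ev (k := k) hj ⟨T n, T_mem_AN U.c n⟩ = (t / j U.σ) ^ n :=
  evA_T j hj _ _ _ n

theorem Ac.hasSum_ev (U : Ac j t) (a : AN k U.c) :
    HasSum (fun n : ℤ => j (a.1.co n) * (t / j U.σ) ^ n) (U.ev hj a) :=
  hasSum_evA j hj _ _ _ a

theorem Ac.norm_ev_le (U : Ac j t) {M : ℝ} {a : AN k U.c} (ha : BdA M a) :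
    ‖U.ev hj a‖ ≤ M :=
  norm_evA_le j hj _ _ _ a (Bdd.interp U.c_pos (U.lt_norm hj).le (U.norm_lt hj).le ha.2 ha.1)

theorem Ac.ev_injective (ht : Ty3 j t) (U : Ac j t) : Function.Injective (U.ev (k := k) hj) :=
  evA_injective j hj _ _ _ (ht.div hj U.σ_ne)

/-- restriction -/
theorem Ac.exists_res {U U' : Ac j t} (h : U'.Le U) (a : AN k U.c) :
    ∃ a' : AN k U'.c, U'.ev hj a' = U.ev hj a ∧ ∀ n, a'.1.co n = a.1.co n * (U'.σ / U.σ) ^ n := by
  have h1 : ‖U.c‖ ≤ ‖U'.c‖ * ‖U'.σ / U.σ‖ := by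
    rw [norm_div, ← mul_div_assoc, le_div_iff₀ U.σ_pos]; exact h.1
  have h2 : ‖U'.σ / U.σ‖ ≤ 1 := by
    rw [norm_div, div_le_one U.σ_pos]; exact h.2
  refine ⟨scl U.c_ne h1 h2 U'.c_lt a, ?_, fun n => co_scl _ _ _ _ _ n⟩
  change ∑' n : ℤ, j ((scl U.c_ne h1 h2 U'.c_lt a).1.co n) * (t / j U'.σ) ^ n =
    ∑' n : ℤ, j (a.1.co n) * (t / j U.σ) ^ n
  refine tsum_congr fun n => ?_
  have hs : j U.σ ≠ 0 := by rw [← norm_pos_iff, hj]; exact U.σ_pos
  have hs' : j U'.σ ≠ 0 := by rw [← norm_pos_iff, hj]; exact U'.σ_pos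
  rw [co_scl, map_mul, map_zpow₀, map_div₀, mul_assoc, ← mul_zpow]
  congr 2
  field_simp

/-- **the dominating monomial at `t` dominates at both ends of all small annuli** -/
theorem Ac.dom_cell (ht : Ty3 j t) (U : Ac j t) {a : AN k U.c} (ha : a ≠ 0) {η : ℝ} (hη : 1 < η) :
    ∃ (m : ℤ) (θ : ℝ), a.1.co m ≠ 0 ∧ 0 ≤ θ ∧ θ < 1 ∧ ∀ᶠ U' in l3 j t, U'.Le U ∧
      ∀ a' : AN k U'.c, (∀ n, a'.1.co n = a.1.co n * (U'.σ / U.σ) ^ n) →
        (∀ n, n ≠ m → ‖a'.1.co n‖ ≤ θ * ‖a'.1.co m‖) ∧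
        (∀ n, n ≠ m → ‖a'.1.co n‖ * ‖U'.c‖ ^ n ≤ θ * (‖a'.1.co m‖ * ‖U'.c‖ ^ m)) ∧
        ‖a'.1.co m‖ ≤ η * ‖U.ev hj a‖ ∧ ‖a'.1.co m‖ * ‖U'.c‖ ^ m ≤ η * ‖U.ev hj a‖ := by
  obtain ⟨m, θ0, hm, hθ0, hθ1, hdom, hnorm⟩ := exists_dom j hj U.c_ne (U.lt_norm hj) (U.norm_lt hj)
    (ht.div hj U.σ_ne) ha
  obtain ⟨θ, hθ2, hθ3⟩ := exists_between hθ1
  set r0 : ℝ := ‖t / j U.σ‖ with hr0
  have hr0' : r0 = ‖t‖ / ‖U.σ‖ := by rw [hr0, norm_div, hj]
  have hr0pos : 0 < r0 := U.c_pos.trans (U.lt_norm hj)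
  obtain ⟨M, -, hM1, hM2⟩ := AN.bd2 a.2
  have h1 := ev_dom (x := fun n => ‖a.1.co n‖) (fun n => norm_nonneg _) hM1 U.c_pos hM2
    (U.lt_norm hj) (U.norm_lt hj) (norm_pos_iff.2 hm) hdom hθ0 hθ2
  have hev : ‖U.ev hj a‖ = ‖a.1.co m‖ * r0 ^ m := hnorm
  have hevpos : 0 < ‖U.ev hj a‖ := by
    rw [hev]; exact mul_pos (norm_pos_iff.2 hm) (zpow_pos hr0pos m)
  have h2 : ∀ᶠ r in 𝓝 r0, ‖a.1.co m‖ * r ^ m < η * ‖U.ev hj a‖ := by
    have hc : ContinuousAt (fun r : ℝ => ‖a.1.co m‖ * r ^ m) r0 :=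
      continuousAt_const.mul (continuousAt_zpow₀ r0 m (Or.inl hr0pos.ne'))
    refine hc.eventually (gt_mem_nhds ?_)
    change ‖a.1.co m‖ * r0 ^ m < η * ‖U.ev hj a‖
    rw [← hev]
    exact lt_mul_of_one_lt_left hevpos hη
  have hout : Tendsto (fun U' : Ac j t => ‖U'.σ‖ / ‖U.σ‖) (l3 j t) (𝓝 r0) := by
    rw [hr0']; exact tendsto_out.div_const _
  have hin : Tendsto (fun U' : Ac j t => ‖U'.c‖ * ‖U'.σ‖ / ‖U.σ‖) (l3 j t) (𝓝 r0) := by
    rw [hr0']; exact tendsto_in.div_const _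
  refine ⟨m, θ, hm, hθ0.trans hθ2.le, hθ3, ?_⟩
  filter_upwards [hout.eventually h1, hin.eventually h1, hout.eventually h2, hin.eventually h2,
    eventually_le U] with U' e1 e2 e3 e4 e5
  refine ⟨e5, fun a' ha' => ?_⟩
  have f1 : ∀ n, ‖a'.1.co n‖ = ‖a.1.co n‖ * (‖U'.σ‖ / ‖U.σ‖) ^ n := fun n => by
    rw [ha', norm_mul, norm_zpow, norm_div]
  have f2 : ∀ n, ‖a'.1.co n‖ * ‖U'.c‖ ^ n = ‖a.1.co n‖ * (‖U'.c‖ * ‖U'.σ‖ / ‖U.σ‖) ^ n := fun n => by
    rw [f1, mul_assoc, ← mul_zpow]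
    congr 2
    ring
  refine ⟨fun n hn => ?_, fun n hn => ?_, ?_, ?_⟩
  · rw [f1, f1]; exact e1 n hn
  · rw [f2, f2]; exact e2 n hn
  · rw [f1]; exact e3.le
  · rw [f2]; exact e4.le

/-- norms on small annuli are close to the norm at `t` -/
theorem Ac.bd_cell (ht : Ty3 j t) (U : Ac j t) (a : AN k U.c) {η : ℝ} (hη : 1 < η) :
    ∀ᶠ U' in l3 j t, ∃ a' : AN k U'.c, U'.ev hj a' = U.ev hj a ∧ BdA (η * ‖U.ev hj a‖) a' := by
  by_cases ha : a = 0
  · refine Eventually.of_forall fun U' => ⟨0, ?_, ?_⟩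
    · rw [ha, map_zero, map_zero]
    · rw [ha, map_zero, norm_zero, mul_zero]
      exact ⟨Bdd.zero le_rfl, Bdd.zero le_rfl⟩
  · obtain ⟨m, θ, hm, hθ0, hθ1, h⟩ := U.dom_cell (k := k) hj ht ha hη
    filter_upwards [h] with U' h'
    obtain ⟨a', h1, h2⟩ := Ac.exists_res hj h'.1 a
    obtain ⟨h3, h4, h5, h6⟩ := h'.2 a' h2
    refine ⟨a', h1, bdA_iff.2 ⟨fun n => ?_, fun n => ?_⟩⟩
    · by_cases hn : n = m
      · rw [hn]; exact h5
      · exact (h3 n hn).trans ((mul_le_of_le_one_left (norm_nonneg _) hθ1.le).trans h5)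
    · by_cases hn : n = m
      · rw [hn]; exact h6
      · refine (h4 n hn).trans ((mul_le_of_le_one_left ?_ hθ1.le).trans h6)
        exact mul_nonneg (norm_nonneg _) (zpow_nonneg (norm_nonneg _) _)

end Annuli

end Crest.Agent.R013.Spread3_260
end
end

-- ▼ part R013/Spt3_260
section

/-! # R013 / Spt3_260 : SP1 for points of type 3 (annuli).

* `uball_levA` : the level `L` of `AN c` is a complete ultrametric ring (`UBall` of Spr2_607);
* `Rep` : the elements of `E` represented on small annuli around `t` form a subfield;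
* `FT_cell3`, `alg_cell3` (= SP1 at type 3), `unit_cell3` (a nonzero element is `α T^m u`, `u` a
  dominated unit, on all small annuli). -/

set_option autoImplicit false
set_option linter.unusedSectionVars false

noncomputable section

namespace Crest.Agent.R013.Spread3_260

open Filter Topology
open Crest.Agent.R013.Cell_408 (FinDef DiscNorm BD)
open Crest.Agent.R013.EE809 Crest.Agent.R013.CAn_243
open Crest.Agent.R013.Spread_607 (UBall FT sp1)

section UB

/-- geometric series in a complete ultrametric ring -/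
theorem uball_inv {A : Type*} [CommRing A] {Bd : ℝ → A → Prop} (h : UBall A Bd) {θ : ℝ}
    (hθ0 : 0 ≤ θ) (hθ1 : θ < 1) {x : A} (hx : Bd θ (1 - x)) : ∃ y, x * y = 1 ∧ Bd 1 y := by
  set Z : ℕ → A := fun n => ∑ i ∈ Finset.range n, (1 - x) ^ i with hZ
  have hp : ∀ n, Bd (1 * θ ^ n) ((1 - x) ^ n) := fun n => by
    rw [one_mul]; exact h.pow hθ0 hx n
  obtain ⟨z, hz⟩ := h.complete θ 1 hθ0 hθ1 zero_le_one Z fun n => by
    have : Z (n + 1) - Z n = (1 - x) ^ n := by
      rw [hZ]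
      simp only [Finset.sum_range_succ]
      ring
    rw [this]; exact hp n
  have hx1 : Bd 1 x := by
    have := h.sub h.one (h.mono _ 1 _ hθ1.le hx)
    rwa [sub_sub_cancel] at this
  have hxZ : ∀ n, x * Z n = 1 - (1 - x) ^ n := by
    intro n
    calc x * Z n = -(((1 - x) - 1) * ∑ i ∈ Finset.range n, (1 - x) ^ i) := by
          rw [hZ]; ring
      _ = 1 - (1 - x) ^ n := by rw [mul_geom_sum]; ring
  refine ⟨z, ?_, ?_⟩
  · refine h.eq_of_forall fun M hM => ?_
    have hlim := tendsto_pow_atTop_nhds_zero_of_lt_one hθ0 hθ1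
    obtain ⟨n, hn⟩ := (hlim.eventually (gt_mem_nhds hM)).exists
    have e : x * z - 1 = x * (z - Z n) - (1 - x) ^ n := by
      rw [mul_sub, hxZ]; ring
    rw [e]
    have h1 := h.mul 1 (1 * θ ^ n) x (z - Z n) zero_le_one (by positivity) hx1 (hz n)
    refine h.sub (h.mono _ _ _ ?_ h1) (h.mono _ _ _ ?_ (hp n))
    · rw [one_mul, one_mul]; exact hn.le
    · rw [one_mul]; exact hn.le
  · have := hz 0
    rw [pow_zero, mul_one] at this
    simpa [hZ] using this

end UB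

section Lev

variable {k C : Type*} [NontriviallyNormedField k] [CompleteSpace k]
  [NormedField C] [IsUltrametricDist C] [NormedAlgebra k C] [Algebra.IsAlgebraic k C]

/-- elements of `AN c` defined over the finite level `L` -/
def levA (c : C) (L : IntermediateField k C) [FiniteDimensional k L] : Subring (AN k c) where
  carrier := {a | InL L a.1}
  mul_mem' := fun ha hb => InL.mul ha hb
  one_mem' := InL.one L
  add_mem' := fun ha hb => InL.add ha hb
  zero_mem' := InL.zero L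
  neg_mem' := fun ha => InL.neg ha

theorem exists_levA {c : C} (S : Finset (AN k c)) : ∃ (L : IntermediateField k C)
    (_ : FiniteDimensional k L), ∀ a ∈ S, a ∈ levA c L := by
  obtain ⟨L, hL, h⟩ := exists_inL_finset (k := k) S (fun a => a.1)
  exact ⟨L, hL, h⟩

theorem uball_levA {c : C} (hc : c ≠ 0) (L : IntermediateField k C) [FiniteDimensional k L] :
    UBall (levA c L) (fun M b => BdA M (b : AN k c)) where
  zero M hM := ⟨Bdd.zero hM, Bdd.zero hM⟩
  one := ⟨Bdd.one, Bdd.one⟩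
  add M a b ha hb := ⟨ha.1.add one_pos hb.1, ha.2.add (norm_pos_iff.2 hc) hb.2⟩
  neg M a ha := ⟨ha.1.neg, ha.2.neg⟩
  mul M N a b _ _ ha hb := ⟨ha.1.mul one_pos hb.1, ha.2.mul (norm_pos_iff.2 hc) hb.2⟩
  mono M N a hMN ha := ha.mono hMN
  sep a ha := by
    apply Subtype.ext
    apply Subtype.ext
    ext n
    change ((a : AN k c).1).co n = (0 : EE k C).co n
    rw [co_zero, ← norm_le_zero_iff]
    refine le_of_forall_pos_le_add fun ε hε => ?_
    rw [zero_add]
    exact (bdA_iff.1 (ha ε hε)).1 n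
  complete θ c0 hθ0 hθ1 hc0 Z hZ := by
    have hρ : 0 < ‖c‖ := norm_pos_iff.2 hc
    set s : ℕ → EE k C := fun m => ((Z m : levA c L) : AN k c).1 with hs
    have hsub : ∀ m, ((Z (m + 1) - Z m : levA c L) : AN k c).1 = s (m + 1) - s m := fun m => rfl
    have hfar : ∀ ρ : ℝ, 0 < ρ → (∀ m, Bdd ρ (c0 * θ ^ m) (s (m + 1) - s m)) →
        ∀ m p, Bdd ρ (c0 * θ ^ m) (s (m + p) - s m) := by
      intro ρ hρ h m p
      induction p with
      | zero => rw [add_zero, sub_self]; exact Bdd.zero (by positivity)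
      | succ p ih =>
        have e : s (m + (p + 1)) - s m = (s (m + p + 1) - s (m + p)) + (s (m + p) - s m) := by
          rw [← add_assoc]; ring
        rw [e]
        refine ((h _).le ?_).add hρ ih
        exact mul_le_mul_of_nonneg_left
          (pow_le_pow_of_le_one hθ0 hθ1.le (Nat.le_add_right _ _)) hc0
    have hfar1 := hfar 1 one_pos fun m => (hZ m).1
    have hfarc := hfar ‖c‖ hρ fun m => (hZ m).2
    have hr : ∀ q : ℕ, Tendsto (fun m : ℕ => c0 * θ ^ (q + m)) atTop (𝓝 0) := by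
      intro q
      have h1 : Tendsto (fun m : ℕ => c0 * θ ^ m) atTop (𝓝 (c0 * 0)) :=
        (tendsto_pow_atTop_nhds_zero_of_lt_one hθ0 hθ1).const_mul c0
      rw [mul_zero] at h1
      refine (h1.comp (tendsto_add_atTop_nat q)).congr fun m => ?_
      simp only [Function.comp]
      rw [add_comm]
    obtain ⟨S, hS, h1⟩ := complete_of L s (fun m => (Z m).2) (fun m => c0 * θ ^ m)
      (by simpa using hr 0) (fun m n hmn => by
        obtain ⟨p, rfl⟩ := Nat.exists_eq_add_of_le hmn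
        exact bdd_one_iff.1 (hfar1 m p))
    have h2 : ∀ m, Bdd ‖c‖ (c0 * θ ^ m) (S - s m) := by
      intro m
      refine Bdd.limit hρ (s := fun p => s (m + p) - s m) (hr m) (fun p => ?_) (hfarc m)
      rw [sub_sub_sub_cancel_right]
      exact h1 (m + p)
    have hmem : S ∈ AN k c := by
      have h3 : S - s 0 ∈ AN k c := ⟨_, h2 0⟩
      have h4 := add_mem h3 ((Z 0 : levA c L) : AN k c).2
      rwa [show S - s 0 + ((Z 0 : levA c L) : AN k c).1 = S from sub_add_cancel _ _] at h4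
    exact ⟨⟨⟨S, hmem⟩, hS⟩, fun m => ⟨bdd_one_iff.2 (h1 m), h2 m⟩⟩

end Lev

section Rep

variable {k C E : Type*} [NontriviallyNormedField k] [CompleteSpace k]
  [NormedField C] [IsUltrametricDist C] [NormedAlgebra k C] [Algebra.IsAlgebraic k C]
  [IsAlgClosed C]
  [NormedField E] [IsUltrametricDist E] [CompleteSpace E]
  {j : C →+* E} {t : E} (hj : ∀ c, ‖j c‖ = ‖c‖)

/-- dominated units: `u 0 = 1`, `‖u n‖ ≤ θ`, `‖u n‖ ‖c‖ ^ n ≤ θ` for `n ≠ 0` -/
structure DU {c : C} (θ : ℝ) (u : AN k c) : Prop where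
  zero : u.1.co 0 = 1
  out : ∀ n, n ≠ 0 → ‖u.1.co n‖ ≤ θ
  inn : ∀ n, n ≠ 0 → ‖u.1.co n‖ * ‖c‖ ^ n ≤ θ

theorem DU.sub {c : C} {θ : ℝ} (hθ : 0 ≤ θ) {u : AN k c} (h : DU θ u) : BdA θ (1 - u) := by
  have e : ∀ n, (1 - u).1.co n = if n = 0 then 0 else -u.1.co n := by
    intro n
    change ((1 : EE k C) - u.1).co n = _
    rw [co_sub, co_one]
    split_ifs with hn
    · rw [hn, h.zero, sub_self]
    · rw [zero_sub]
  refine bdA_iff.2 ⟨fun n => ?_, fun n => ?_⟩
  · rw [e]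
    split_ifs with hn
    · rw [norm_zero]; exact hθ
    · rw [norm_neg]; exact h.out n hn
  · rw [e]
    split_ifs with hn
    · rw [norm_zero, zero_mul]; exact hθ
    · rw [norm_neg]; exact h.inn n hn

/-- dominated units are units -/
theorem DU.inv {c : C} (hc : c ≠ 0) {θ : ℝ} (hθ0 : 0 ≤ θ) (hθ1 : θ < 1) {u : AN k c}
    (h : DU θ u) : ∃ v : AN k c, u * v = 1 ∧ BdA 1 v := by
  obtain ⟨L, hL, h1⟩ := exists_levA ({u} : Finset (AN k c))
  have hu : u ∈ levA c L := h1 u (Finset.mem_singleton_self u)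
  obtain ⟨y, hy, hy1⟩ := uball_inv (uball_levA hc L) hθ0 hθ1 (x := (⟨u, hu⟩ : levA c L))
    (h.sub hθ0)
  exact ⟨y.1, congrArg Subtype.val hy, hy1⟩

include hj

/-- **(T4)** for an element represented on some annulus -/
theorem Ac.unit_cell (ht : Ty3 j t) (U : Ac j t) {a : AN k U.c} (ha : a ≠ 0) :
    ∃ (m : ℤ) (θ : ℝ), a.1.co m ≠ 0 ∧ 0 ≤ θ ∧ θ < 1 ∧ ∀ᶠ U' in l3 j t, U'.Le U ∧
      ∃ u v : AN k U'.c, u * v = 1 ∧ BdA 1 v ∧ DU θ u ∧
        U'.ev hj (algebraMap C _ (a.1.co m * (U'.σ / U.σ) ^ m) * ⟨T m, T_mem_AN U'.c m⟩ * u) =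
          U.ev hj a := by
  obtain ⟨m, θ, hm, hθ0, hθ1, h⟩ := U.dom_cell hj ht ha (η := 2) one_lt_two
  refine ⟨m, θ, hm, hθ0, hθ1, ?_⟩
  filter_upwards [h] with U' h'
  obtain ⟨a', h1, h2⟩ := Ac.exists_res hj h'.1 a
  obtain ⟨h3, h4, -, -⟩ := h'.2 a' h2
  have hal : a'.1.co m ≠ 0 := by
    rw [h2]
    exact mul_ne_zero hm (zpow_ne_zero _ (div_ne_zero U'.σ_ne U.σ_ne))
  have hal' : 0 < ‖a'.1.co m‖ := norm_pos_iff.2 hal
  set u : AN k U'.c := ⟨mo (-m) (a'.1.co m)⁻¹, mo_mem_AN _ _ _⟩ * a' with hu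
  have hco : ∀ n, u.1.co n = (a'.1.co m)⁻¹ * a'.1.co (n + m) := by
    intro n
    change (mo (-m) (a'.1.co m)⁻¹ * a'.1 : EE k C).co n = _
    rw [co_mo_mul, sub_neg_eq_add]
  have hDU : DU θ u := by
    refine ⟨?_, fun n hn => ?_, fun n hn => ?_⟩
    · rw [hco, zero_add, inv_mul_cancel₀ hal]
    · have h5 := h3 (n + m) (by omega)
      rw [hco, norm_mul, norm_inv, ← div_eq_inv_mul, div_le_iff₀ hal']
      exact h5
    · have h5 := h4 (n + m) (by omega)
      rw [hco, norm_mul, norm_inv, mul_assoc, ← div_eq_inv_mul, div_le_iff₀ hal']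
      rw [zpow_add₀ U'.c_pos.ne', ← mul_assoc, ← mul_assoc] at h5
      exact le_of_mul_le_mul_right h5 (zpow_pos U'.c_pos m)
  obtain ⟨v, hv, hv1⟩ := hDU.inv U'.c_ne hθ0 hθ1
  refine ⟨h'.1, u, v, hv, hv1, hDU, ?_⟩
  rw [← h1]
  congr 1
  rw [← h2, hu]
  apply Subtype.ext
  change algebraMap C (EE k C) (a'.1.co m) * T m * (mo (-m) (a'.1.co m)⁻¹ * a'.1) = a'.1
  rw [← mo_eq, ← mul_assoc, mo_mul_mo, add_neg_cancel, mul_inv_cancel₀ hal, mo_zero_one, one_mul]

variable (k) in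
/-- represented on all small annuli -/
def IsRep (e : E) : Prop := ∀ᶠ U in l3 j t, ∃ a : AN k U.c, U.ev hj a = e

theorem IsRep.all {e : E} (h : ∀ U : Ac j t, ∃ a : AN k U.c, U.ev hj a = e) :
    IsRep k (t := t) hj e := Eventually.of_forall h

theorem IsRep.zero : IsRep k (t := t) hj 0 := IsRep.all hj fun _ => ⟨0, map_zero _⟩

theorem IsRep.one : IsRep k (t := t) hj 1 := IsRep.all hj fun _ => ⟨1, map_one _⟩

theorem IsRep.mul {e e' : E} (h : IsRep k (t := t) hj e) (h' : IsRep k (t := t) hj e') :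
    IsRep k (t := t) hj (e * e') := by
  unfold IsRep at *
  filter_upwards [h, h'] with U h1 h2
  obtain ⟨a, ha⟩ := h1
  obtain ⟨b, hb⟩ := h2
  exact ⟨a * b, by rw [map_mul, ha, hb]⟩

theorem IsRep.add {e e' : E} (h : IsRep k (t := t) hj e) (h' : IsRep k (t := t) hj e') :
    IsRep k (t := t) hj (e + e') := by
  unfold IsRep at *
  filter_upwards [h, h'] with U h1 h2
  obtain ⟨a, ha⟩ := h1
  obtain ⟨b, hb⟩ := h2
  exact ⟨a + b, by rw [map_add, ha, hb]⟩

theorem IsRep.neg {e : E} (h : IsRep k (t := t) hj e) : IsRep k (t := t) hj (-e) := by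
  unfold IsRep at *
  filter_upwards [h] with U h1
  obtain ⟨a, ha⟩ := h1
  exact ⟨-a, by rw [map_neg, ha]⟩

theorem IsRep.inv (ht : Ty3 j t) {e : E} (h : IsRep k (t := t) hj e) :
    IsRep k (t := t) hj e⁻¹ := by
  by_cases he : e = 0
  · rw [he, inv_zero]
    exact IsRep.zero hj
  · have := l3_neBot k ht
    unfold IsRep at *
    obtain ⟨U, a, ha⟩ := h.exists
    have ha0 : a ≠ 0 := by
      rintro rfl
      rw [map_zero] at ha
      exact he ha.symm
    obtain ⟨m, θ, hm, hθ0, hθ1, h2⟩ := U.unit_cell hj ht ha0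
    filter_upwards [h2] with U' h3
    obtain ⟨-, u, v, huv, -, -, h4⟩ := h3
    set al : C := a.1.co m * (U'.σ / U.σ) ^ m with hal
    have hal0 : al ≠ 0 := mul_ne_zero hm (zpow_ne_zero _ (div_ne_zero U'.σ_ne U.σ_ne))
    refine ⟨algebraMap C _ al⁻¹ * ⟨T (-m), T_mem_AN U'.c (-m)⟩ * v, ?_⟩
    refine eq_inv_of_mul_eq_one_right ?_
    rw [← ha, ← h4, ← map_mul, ← map_one (U'.ev (k := k) hj)]
    congr 1
    have e1 : (⟨T m, T_mem_AN U'.c m⟩ : AN k U'.c) * ⟨T (-m), T_mem_AN U'.c (-m)⟩ = 1 := by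
      apply Subtype.ext
      change (T m * T (-m) : EE k C) = 1
      rw [T_mul_T, add_neg_cancel, T_zero]
    have e2 : algebraMap C (AN k U'.c) al * algebraMap C (AN k U'.c) al⁻¹ = 1 := by
      rw [← map_mul, mul_inv_cancel₀ hal0, map_one]
    calc algebraMap C (AN k U'.c) al * ⟨T m, T_mem_AN U'.c m⟩ * u *
          (algebraMap C (AN k U'.c) al⁻¹ * ⟨T (-m), T_mem_AN U'.c (-m)⟩ * v)
        = (algebraMap C (AN k U'.c) al * algebraMap C (AN k U'.c) al⁻¹) *
          ((⟨T m, T_mem_AN U'.c m⟩ : AN k U'.c) * ⟨T (-m), T_mem_AN U'.c (-m)⟩) * (u * v) := by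
            ring
      _ = 1 := by rw [e1, e2, huv, one_mul, one_mul]

variable (k) in
/-- **the field of elements represented on all small annuli** -/
def Rep (ht : Ty3 j t) : Subfield E where
  carrier := {e | IsRep k (t := t) hj e}
  mul_mem' := fun h h' => IsRep.mul hj h h'
  one_mem' := IsRep.one hj
  add_mem' := fun h h' => IsRep.add hj h h'
  zero_mem' := IsRep.zero hj
  neg_mem' := fun h => IsRep.neg hj h
  inv_mem' := fun _ h => IsRep.inv hj ht h

theorem mem_Rep {ht : Ty3 j t} {e : E} :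
    e ∈ Rep k hj ht ↔ ∀ᶠ U in l3 j t, ∃ a : AN k U.c, U.ev hj a = e := Iff.rfl

theorem FT_le_Rep (ht : Ty3 j t) : FT j t ≤ Rep k hj ht := by
  rw [FT, Subfield.closure_le]
  rintro e (⟨c, rfl⟩ | he)
  · exact IsRep.all hj fun U => ⟨algebraMap C _ c, U.ev_algebraMap hj c⟩
  · rw [Set.mem_singleton_iff] at he
    rw [he]
    refine IsRep.all hj fun U => ⟨⟨mo 1 U.σ, mo_mem_AN U.c 1 U.σ⟩, ?_⟩
    rw [U.ev_mo hj, zpow_one]
    have : j U.σ ≠ 0 := by rw [← norm_pos_iff, hj]; exact U.σ_pos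
    field_simp

/-- a represented element is represented with good bounds -/
theorem Rep_cell (ht : Ty3 j t) {e : E} (he : e ∈ Rep k hj ht) {η : ℝ} (hη : 1 < η) :
    ∀ᶠ U in l3 j t, ∃ a : AN k U.c, U.ev hj a = e ∧ BdA (η * ‖e‖) a := by
  have := l3_neBot k ht
  obtain ⟨U, a, rfl⟩ := ((mem_Rep (k := k) hj).1 he).exists
  exact U.bd_cell hj ht a hη

/-- **(T2)** elements of `C(t)` on small annuli -/
theorem FT_cell3 (ht : Ty3 j t) {e : E} (he : e ∈ FT j t) {η : ℝ} (hη : 1 < η) :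
    ∀ᶠ U in l3 j t, ∃ a : AN k U.c, U.ev hj a = e ∧ BdA (η * ‖e‖) a :=
  Rep_cell hj ht (FT_le_Rep hj ht he) hη

/-- **(T3) = SP1 for type 3** -/
theorem alg_cell3 [CharZero E] (ht : Ty3 j t) {s : E}
    (hs : IsAlgebraic (FT j t) s) (hcl : s ∈ closure (FT j t : Set E)) {η : ℝ} (hη : 1 < η) :
    ∀ᶠ U in l3 j t, ∃ a : AN k U.c, U.ev hj a = s ∧ BdA (η * ‖s‖) a := by
  refine sp1 (FT j t) (l3 j t) (fun U => AN k U.c) (fun _ M a => BdA M a) ?_
    (fun U => U.ev (k := k) hj) (fun U M a ha => U.norm_ev_le hj ha)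
    (fun e he η hη => FT_cell3 hj ht he hη) hs hcl hη
  intro U S
  obtain ⟨L, hL, hS⟩ := exists_levA S
  exact ⟨levA U.c L, hS, uball_levA U.c_ne L⟩

theorem alg_mem_Rep [CharZero E] (ht : Ty3 j t) {s : E}
    (hs : IsAlgebraic (FT j t) s) (hcl : s ∈ closure (FT j t : Set E)) : s ∈ Rep k hj ht := by
  refine (mem_Rep hj).2 ?_
  filter_upwards [alg_cell3 (k := k) hj ht hs hcl (η := 2) one_lt_two] with U h
  obtain ⟨a, h1, -⟩ := h
  exact ⟨a, h1⟩


end Rep

end Crest.Agent.R013.Spread3_260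
end
end

-- ▼ part R013/Spt4_260
section

/-! # R013 / Spt4_260 : expansions and the local degree at a point of type 3.

* `exp3` : a nonzero represented element is `α t ^ m (1 + small)`, at `t` and on small annuli;
* `finrank_le3` : if `ξ ∈ E` is `α t ^ m (1 + small)` (`m ≥ 1`) and `C(t)` is dense in the finite
  extension `L` of the complete field `E`, then `[L : E] ≤ m`. -/

set_option autoImplicit false
set_option linter.unusedSectionVars false

noncomputable section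

namespace Crest.Agent.R013.Spread3_260

open Filter Topology
open Crest.Agent.R013.Cell_408 (FinDef DiscNorm BD)
open Crest.Agent.R013.EE809 Crest.Agent.R013.CAn_243
open Crest.Agent.R013.Spread_607 (UBall FT sp1)

section Top

/-- a subspace which approximates every vector up to a factor `θ < 1` is everything -/
theorem submodule_eq_top {E L : Type*} [NontriviallyNormedField E] [CompleteSpace E]
    [NormedField L] [NormedAlgebra E L] [FiniteDimensional E L] (V : Submodule E L) {θ : ℝ}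
    (hθ0 : 0 ≤ θ) (hθ : θ < 1) (h : ∀ y : L, ∃ v ∈ V, ‖y - v‖ ≤ θ * ‖y‖) : V = ⊤ := by
  have hc : IsClosed (V : Set L) := V.closed_of_finiteDimensional
  rw [eq_top_iff]
  rintro y -
  have h1 : ∀ n : ℕ, ∃ v ∈ V, ‖y - v‖ ≤ θ ^ n * ‖y‖ := by
    intro n
    induction n with
    | zero => exact ⟨0, V.zero_mem, by simp⟩
    | succ n ih =>
      obtain ⟨v, hv, h2⟩ := ih
      obtain ⟨v', hv', h3⟩ := h (y - v)
      refine ⟨v + v', V.add_mem hv hv', ?_⟩
      rw [← sub_sub, pow_succ, mul_comm (θ ^ n) θ, mul_assoc]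
      exact h3.trans (mul_le_mul_of_nonneg_left h2 hθ0)
  have h2 : y ∈ closure (V : Set L) := by
    rw [Metric.mem_closure_iff]
    intro ε hε
    have hlim : Tendsto (fun n : ℕ => θ ^ n * ‖y‖) atTop (𝓝 (0 * ‖y‖)) :=
      (tendsto_pow_atTop_nhds_zero_of_lt_one hθ0 hθ).mul_const _
    rw [zero_mul] at hlim
    obtain ⟨n, hn⟩ := (hlim.eventually (gt_mem_nhds hε)).exists
    obtain ⟨v, hv, h3⟩ := h1 n
    exact ⟨v, hv, by rw [dist_eq_norm]; exact h3.trans_lt hn⟩
  rw [hc.closure_eq] at h2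
  exact h2

end Top

section Units

variable {L : Type*} [NormedField L] [IsUltrametricDist L]

theorem norm_eq_one_of_sub {θ : ℝ} (hθ : θ < 1) {x : L} (h : ‖x - 1‖ ≤ θ) : ‖x‖ = 1 := by
  have e : x = (x - 1) + 1 := by ring
  rw [e, IsUltrametricDist.norm_add_eq_max_of_norm_ne_norm
    (by rw [norm_one]; exact (h.trans_lt hθ).ne), norm_one, max_eq_right (h.trans hθ.le)]

/-- the 1-units of level `θ` form a group -/
theorem zpow_sub_one_le {θ : ℝ} (hθ : θ < 1) {x : L} (h : ‖x - 1‖ ≤ θ) (q : ℤ) :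
    ‖x ^ q - 1‖ ≤ θ := by
  have hθ0 : 0 ≤ θ := (norm_nonneg _).trans h
  have hp : ∀ (y : L), ‖y - 1‖ ≤ θ → ∀ n : ℕ, ‖y ^ n - 1‖ ≤ θ := by
    intro y hy n
    induction n with
    | zero => rw [pow_zero, sub_self, norm_zero]; exact hθ0
    | succ n ih =>
      have e : y ^ (n + 1) - 1 = (y ^ n - 1) * y + (y - 1) := by ring
      rw [e]
      refine (IsUltrametricDist.norm_add_le_max _ _).trans (max_le ?_ hy)
      rw [norm_mul, norm_eq_one_of_sub hθ hy, mul_one]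
      exact ih
  have hx0 : x ≠ 0 := by
    rintro rfl
    have := norm_eq_one_of_sub hθ h
    rw [norm_zero] at this
    exact zero_ne_one this
  cases q with
  | ofNat n => rw [Int.ofNat_eq_natCast, zpow_natCast]; exact hp x h n
  | negSucc n =>
    rw [zpow_negSucc, ← inv_pow]
    refine hp _ ?_ _
    have e : x⁻¹ - 1 = -((x - 1) * x⁻¹) := by
      rw [sub_mul, mul_inv_cancel₀ hx0]; ring
    rw [e, norm_neg, norm_mul, norm_inv, norm_eq_one_of_sub hθ h, inv_one, mul_one]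
    exact h

end Units

section Exp

variable {k C L : Type*} [NontriviallyNormedField k] [CompleteSpace k]
  [NormedField C] [IsUltrametricDist C] [NormedAlgebra k C] [Algebra.IsAlgebraic k C]
  [IsAlgClosed C]
  [NormedField L] [IsUltrametricDist L] [CompleteSpace L]
  {j : C →+* L} {t : L} (hj : ∀ c, ‖j c‖ = ‖c‖)

include hj

/-- the norm at `t` is the maximum of the norms of the monomials -/
theorem Ac.norm_term_le (ht : Ty3 j t) (U : Ac j t) (a : AN k U.c) (n : ℤ) :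
    ‖j (a.1.co n) * (t / j U.σ) ^ n‖ ≤ ‖U.ev hj a‖ := by
  rw [norm_mul, norm_zpow, hj]
  by_cases ha : a = 0
  · rw [ha, map_zero, norm_zero]
    change ‖(0 : EE k C).co n‖ * _ ≤ 0
    rw [co_zero, norm_zero, zero_mul]
  · obtain ⟨m, θ, -, h0, h1, h2, h3⟩ := exists_dom j hj U.c_ne (U.lt_norm hj) (U.norm_lt hj)
      (ht.div hj U.σ_ne) ha
    have h3' : ‖U.ev hj a‖ = ‖a.1.co m‖ * ‖t / j U.σ‖ ^ m := h3
    rw [h3']
    by_cases hn : n = m
    · rw [hn]
    · exact (h2 n hn).trans (mul_le_of_le_one_left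
        (mul_nonneg (norm_nonneg _) (zpow_nonneg (norm_nonneg _) _)) h1.le)

/-- **expansion** of a nonzero represented element: `α t ^ m (1 + small)` -/
theorem exp3 (ht : Ty3 j t) {s : L} (hs0 : s ≠ 0) (hs : s ∈ Rep k hj ht) :
    ∃ (m : ℤ) (al : C) (θ : ℝ), al ≠ 0 ∧ 0 ≤ θ ∧ θ < 1 ∧ ‖s / (j al * t ^ m) - 1‖ ≤ θ ∧
      ∀ᶠ U in l3 j t, ∃ u v : AN k U.c, u * v = 1 ∧ BdA 1 v ∧ DU θ u ∧
        U.ev hj (algebraMap C _ (al * U.σ ^ m) * ⟨T m, T_mem_AN U.c m⟩ * u) = s := by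
  have := l3_neBot k ht
  obtain ⟨U, a, rfl⟩ := ((mem_Rep (k := k) hj).1 hs).exists
  have ha0 : a ≠ 0 := by
    rintro rfl
    exact hs0 (map_zero _)
  obtain ⟨m, θ, hm, hθ0, hθ1, h2⟩ := U.unit_cell hj ht ha0
  have hal : a.1.co m * (U.σ ^ m)⁻¹ ≠ 0 := mul_ne_zero hm (inv_ne_zero (zpow_ne_zero _ U.σ_ne))
  have hall : ∀ᶠ U' in l3 j t, ∃ u v : AN k U'.c, u * v = 1 ∧ BdA 1 v ∧ DU θ u ∧
      U'.ev hj (algebraMap C _ (a.1.co m * (U.σ ^ m)⁻¹ * U'.σ ^ m) * ⟨T m, T_mem_AN U'.c m⟩ * u) =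
        U.ev hj a := by
    filter_upwards [h2] with U' h3
    obtain ⟨-, u, v, huv, hv, hDU, h4⟩ := h3
    refine ⟨u, v, huv, hv, hDU, ?_⟩
    rw [← h4]
    congr 4
    rw [div_zpow]
    ring
  refine ⟨m, a.1.co m * (U.σ ^ m)⁻¹, θ, hal, hθ0, hθ1, ?_, hall⟩
  obtain ⟨U', u, v, -, -, hDU, h4⟩ := hall.exists
  have hjσ : j U'.σ ≠ 0 := by rw [← norm_pos_iff, hj]; exact U'.σ_pos
  have hjal : j (a.1.co m * (U.σ ^ m)⁻¹) ≠ 0 := by
    rw [← norm_pos_iff, hj]; exact norm_pos_iff.2 hal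
  rw [← h4, map_mul, map_mul, U'.ev_algebraMap hj, U'.ev_T hj]
  have e : j (a.1.co m * (U.σ ^ m)⁻¹ * U'.σ ^ m) * (t / j U'.σ) ^ m * U'.ev hj u /
      (j (a.1.co m * (U.σ ^ m)⁻¹) * t ^ m) = U'.ev hj u := by
    rw [map_mul, map_zpow₀, div_zpow]
    have h5 : (j U'.σ) ^ m ≠ 0 := zpow_ne_zero _ hjσ
    have h6 : t ^ m ≠ 0 := zpow_ne_zero _ ht.1
    generalize j (a.1.co m * (U.σ ^ m)⁻¹) = A at hjal ⊢
    field_simp
  rw [e]
  have h7 := U'.norm_ev_le hj (hDU.sub hθ0)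
  rw [map_sub, map_one] at h7
  rw [norm_sub_rev]
  exact h7

end Exp

section Degree

variable {k C E L : Type*} [NontriviallyNormedField k] [CompleteSpace k]
  [NormedField C] [IsUltrametricDist C] [NormedAlgebra k C] [Algebra.IsAlgebraic k C]
  [IsAlgClosed C]
  [NontriviallyNormedField E] [CompleteSpace E]
  [NormedField L] [IsUltrametricDist L] [CompleteSpace L] [NormedAlgebra E L]
  [FiniteDimensional E L]

/-- **the local degree** -/
theorem finrank_le3 (k : Type*) [NontriviallyNormedField k] [CompleteSpace k] [NormedAlgebra k C]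
    [Algebra.IsAlgebraic k C] (jE : C →+* E) {j : C →+* L}
    (hjE : ∀ c, j c = algebraMap E L (jE c)) (hj : ∀ c, ‖j c‖ = ‖c‖) {t : L}
    (ht : Ty3 j t) (hd : ∀ y : L, y ∈ closure (FT j t : Set L)) (ξ : E) {al : C} (hal : al ≠ 0)
    {m : ℕ} (hm : m ≠ 0) {θ : ℝ} (hθ : θ < 1)
    (hξ : ‖algebraMap E L ξ / (j al * t ^ m) - 1‖ ≤ θ) : Module.finrank E L ≤ m := by
  classical
  have hθ0 : 0 ≤ θ := (norm_nonneg _).trans hξ
  obtain ⟨θ', h1, h2⟩ := exists_between hθ
  have hθ' : 0 < θ' := hθ0.trans_lt h1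
  have ht0 : t ≠ 0 := ht.1
  have hjal : j al ≠ 0 := by rw [← norm_pos_iff, hj]; exact norm_pos_iff.2 hal
  set x : L := algebraMap E L ξ / (j al * t ^ m) with hx
  -- the span of `1, t, ..., t ^ (m - 1)`
  set V : Submodule E L := Submodule.span E (Set.range fun l : Fin m => t ^ (l : ℕ)) with hV
  -- every monomial is close to `V`
  have hmono : ∀ (c : C) (n : ℤ), ∃ v ∈ V, ‖j c * t ^ n - v‖ ≤ θ * ‖j c * t ^ n‖ := by
    intro c n
    have hm' : (0 : ℤ) < m := by exact_mod_cast Nat.pos_of_ne_zero hm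
    set q : ℤ := n / m with hq
    set l : ℤ := n % m with hl
    have hl0 : 0 ≤ l := Int.emod_nonneg _ hm'.ne'
    have hl1 : l < m := Int.emod_lt_of_pos _ hm'
    obtain ⟨l', hl'⟩ := Int.eq_ofNat_of_zero_le hl0
    have hl2 : l' < m := by omega
    have hn : n = l + m * q := (Int.emod_add_mul_ediv n m).symm
    refine ⟨(jE c * (ξ / jE al) ^ q) • t ^ l', V.smul_mem _ (Submodule.subset_span
      ⟨⟨l', hl2⟩, rfl⟩), ?_⟩
    have e : (jE c * (ξ / jE al) ^ q) • t ^ l' = j c * t ^ n * x ^ q := by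
      rw [Algebra.smul_def, map_mul, map_zpow₀, map_div₀, ← hjE, ← hjE, hn, hl', zpow_add₀ ht0,
        zpow_mul, zpow_natCast, zpow_natCast, hx]
      have e2 : algebraMap E L ξ / j al = t ^ m * (algebraMap E L ξ / (j al * t ^ m)) := by
        have h6 : t ^ m ≠ 0 := pow_ne_zero _ ht0
        field_simp
      rw [e2, mul_zpow]
      ring
    rw [e]
    have e3 : j c * t ^ n - j c * t ^ n * x ^ q = -(j c * t ^ n * (x ^ q - 1)) := by ring
    rw [e3, norm_neg, norm_mul, mul_comm]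
    exact mul_le_mul_of_nonneg_right (zpow_sub_one_le hθ hξ q) (norm_nonneg _)
  have htop : V = ⊤ := by
    refine submodule_eq_top V hθ'.le h2 fun y => ?_
    by_cases hy : y = 0
    · exact ⟨0, V.zero_mem, by rw [hy]; simp⟩
    have hy0 : 0 < ‖y‖ := norm_pos_iff.2 hy
    -- approximate by an element of `C(t)`
    obtain ⟨e, he, hye⟩ := Metric.mem_closure_iff.1 (hd y) (θ' * ‖y‖) (by positivity)
    rw [dist_eq_norm] at hye
    have hne : ‖e‖ = ‖y‖ := by
      have e1 : e = y + -(y - e) := by ring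
      have h3 : ‖y - e‖ < ‖y‖ := hye.trans (mul_lt_of_lt_one_left hy0 h2)
      rw [e1, IsUltrametricDist.norm_add_eq_max_of_norm_ne_norm (by rw [norm_neg]; exact h3.ne'),
        norm_neg, max_eq_left h3.le]
    have := l3_neBot k ht
    obtain ⟨U, a, ha⟩ := ((mem_Rep (k := k) hj).1 (FT_le_Rep hj ht he)).exists
    -- a finite partial sum
    have hs := U.hasSum_ev hj a
    rw [ha] at hs
    have h4 : ∀ᶠ S in atTop, ‖(∑ n ∈ S, j (a.1.co n) * (t / j U.σ) ^ n) - e‖ < θ' * ‖y‖ := by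
      have := (Metric.tendsto_nhds.1 hs) (θ' * ‖y‖) (by positivity)
      filter_upwards [this] with S hS
      rwa [dist_eq_norm] at hS
    obtain ⟨S, hS⟩ := h4.exists
    have h5 : ∀ n : ℤ, ∃ v ∈ V, ‖j (a.1.co n) * (t / j U.σ) ^ n - v‖ ≤ θ * ‖y‖ := by
      intro n
      have e1 : j (a.1.co n) * (t / j U.σ) ^ n = j (a.1.co n * (U.σ ^ n)⁻¹) * t ^ n := by
        rw [map_mul, map_inv₀, map_zpow₀, div_zpow]
        ring
      obtain ⟨v, hv, h6⟩ := hmono (a.1.co n * (U.σ ^ n)⁻¹) n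
      rw [← e1] at h6
      refine ⟨v, hv, h6.trans (mul_le_mul_of_nonneg_left ?_ hθ0)⟩
      have h7 := U.norm_term_le hj ht a n
      rw [ha, hne] at h7
      exact h7
    choose v hv hv' using h5
    refine ⟨∑ n ∈ S, v n, V.sum_mem fun n _ => hv n, ?_⟩
    have e1 : y - ∑ n ∈ S, v n = (y - e) + (-((∑ n ∈ S, j (a.1.co n) * (t / j U.σ) ^ n) - e) +
        ∑ n ∈ S, (j (a.1.co n) * (t / j U.σ) ^ n - v n)) := by
      rw [Finset.sum_sub_distrib]; ring
    rw [e1]
    refine (IsUltrametricDist.norm_add_le_max _ _).trans (max_le hye.le ?_)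
    refine (IsUltrametricDist.norm_add_le_max _ _).trans (max_le ?_ ?_)
    · rw [norm_neg]; exact hS.le
    · refine IsUltrametricDist.norm_sum_le_of_forall_le_of_nonneg (by positivity) fun n _ => ?_
      exact (hv' n).trans (mul_le_mul_of_nonneg_right h1.le hy0.le)
  have h3 := finrank_range_le_card (R := E) (b := fun l : Fin m => t ^ (l : ℕ))
  rw [Fintype.card_fin] at h3
  have h4 : Module.finrank E V = Module.finrank E L := by rw [htop, finrank_top]
  rw [← h4]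
  exact h3

end Degree

end Crest.Agent.R013.Spread3_260
end
end

-- ▼ part R013/Spt5_260
section

/-! # R013 / Spt5_260 : the embedding of `K` into the field of functions of a small annulus around a
point of type 3.

`evF : FA k U.c →+* L`; `exists_emb` : if `K` is generated by elements represented on `U` then
`K → FA k U.c`; `cell3` : all data of a good annulus at one norm of `K`. -/

set_option autoImplicit false
set_option linter.unusedSectionVars false

noncomputable section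

namespace Crest.Agent.R013.Spread3_260

open Filter Topology
open Crest.Agent.R013.Cell_408 (FinDef DiscNorm BD)
open Crest.Agent.R013.EE809 Crest.Agent.R013.CAn_243
open Crest.Agent.R013.Spread_607 (UBall FT sp1)

section Lead

variable {k C : Type*} [NontriviallyNormedField k] [CompleteSpace k]
  [NormedField C] [IsUltrametricDist C] [NormedAlgebra k C] [Algebra.IsAlgebraic k C]

/-- a monomial plus something smaller -/
theorem lead_of {c : C} (l : ℤ) {b : EE k C} (h : gn b < ‖c‖) :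
    gn (mo l c + b) = ‖c‖ ∧ od (mo l c + b) = l := by
  have hc : 0 < ‖c‖ := (gn_nonneg b).trans_lt h
  have h1 : ‖(mo l c + b : EE k C).co l‖ = ‖c‖ := by
    rw [co_add, co_mo, if_pos rfl, IsUltrametricDist.norm_add_eq_max_of_norm_ne_norm
      ((le_gn b l).trans_lt h).ne', max_eq_left ((le_gn b l).trans_lt h).le]
  have h2 : ∀ n, n ≠ l → ‖(mo l c + b : EE k C).co n‖ < ‖c‖ := by
    intro n hn
    rw [co_add, co_mo, if_neg hn, zero_add]
    exact (le_gn b n).trans_lt h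
  have h3 : gn (mo l c + b) = ‖c‖ := by
    rw [← h1]
    refine gn_eq_of fun n => ?_
    by_cases hn : n = l
    · rw [hn]
    · rw [h1]; exact (h2 n hn).le
  refine ⟨h3, od_eq_of (by rw [h3]; exact h1) fun n hn => by rw [h3]; exact h2 n hn.ne⟩

theorem DU.we {c : C} {θ : ℝ} (hθ : θ < 1) {u : AN k c} (h : DU θ u) (m : ℕ) :
    WE (T m * u.1) m := by
  have hle : ∀ n, ‖u.1.co n‖ ≤ 1 := fun n => by
    by_cases hn : n = 0
    · rw [hn, h.zero, norm_one]
    · exact (h.out n hn).trans hθ.le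
  refine ⟨fun n => ?_, ?_, fun n hn => ?_⟩
  · rw [co_T_mul]; exact hle _
  · rw [co_T_mul, sub_self, h.zero, norm_one]
  · rw [co_T_mul]; exact (h.out _ (by omega)).trans_lt hθ

theorem DU.wa {c : C} (hc : c ≠ 0) {θ : ℝ} (hθ : θ < 1) {u : AN k c} (h : DU θ u) (m : ℕ)
    (n : ℤ) : ‖(T m * u.1 : EE k C).co n‖ * ‖c‖ ^ n ≤ ‖c‖ ^ m := by
  have hc0 : 0 < ‖c‖ := norm_pos_iff.2 hc
  rw [co_T_mul]
  have e : ‖c‖ ^ n = ‖c‖ ^ (n - m) * ‖c‖ ^ m := by
    rw [← zpow_natCast, ← zpow_add₀ hc0.ne']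
    congr 1
    ring
  rw [e, ← mul_assoc]
  refine mul_le_of_le_one_left (pow_nonneg hc0.le _) ?_
  by_cases hn : n - m = 0
  · rw [hn, h.zero, norm_one, zpow_zero, mul_one]
  · exact (h.inn _ hn).trans hθ.le

end Lead

section EvF

variable {k C L : Type*} [NontriviallyNormedField k] [CompleteSpace k] [IsUltrametricDist k]
  [NormedField C] [IsUltrametricDist C] [NormedAlgebra k C] [Algebra.IsAlgebraic k C]
  [IsAlgClosed C] [hk : Fact (DiscNorm k)]
  [NormedField L] [IsUltrametricDist L] [CompleteSpace L]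
  {j : C →+* L} {t : L} (hj : ∀ c, ‖j c‖ = ‖c‖)

include hj

variable (k) in
/-- extension of the evaluation to the field of fractions -/
def Ac.evF (ht : Ty3 j t) (U : Ac j t) : FA k U.c →+* L :=
  IsFractionRing.lift (A := AN k U.c) (K := FA k U.c) (g := U.ev hj) (U.ev_injective hj ht)

theorem Ac.evF_algebraMap (ht : Ty3 j t) (U : Ac j t) (a : AN k U.c) :
    U.evF k hj ht (algebraMap (AN k U.c) (FA k U.c) a) = U.ev hj a :=
  IsFractionRing.lift_algebraMap _ a

theorem exists_emb {K : Type*} [Field K] [Algebra C K] (κ : K →+* L)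
    (hκ : ∀ c, κ (algebraMap C K c) = j c) (ht : Ty3 j t) (U : Ac j t) (S : Set K)
    (hS : IntermediateField.adjoin C S = ⊤) (hU : ∀ s ∈ S, ∃ a : AN k U.c, U.ev hj a = κ s) :
    ∃ io : K →ₐ[C] EE k C, (∀ z, io z ∈ FA k U.c) ∧
      ∀ (z : K) (a : AN k U.c), U.ev hj a = κ z → io z = a.1 := by
  have hC : ∀ c : C, U.evF k hj ht (algebraMap C (FA k U.c) c) = j c := by
    intro c
    rw [IsScalarTower.algebraMap_apply C (AN k U.c) (FA k U.c), U.evF_algebraMap hj ht,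
      U.ev_algebraMap hj]
  let R : Subfield K := (U.evF k hj ht).fieldRange.comap κ
  have hR : ∀ c : C, algebraMap C K c ∈ R := by
    intro c
    refine Subfield.mem_comap.2 ⟨algebraMap C (FA k U.c) c, ?_⟩
    rw [hC, hκ]
  have hall : ∀ z : K, ∃ g : FA k U.c, U.evF k hj ht g = κ z := by
    have h1 : IntermediateField.adjoin C S ≤ R.toIntermediateField hR := by
      rw [IntermediateField.adjoin_le_iff]
      intro s hs
      obtain ⟨a, ha⟩ := hU s hs
      refine Subfield.mem_comap.2 ⟨algebraMap (AN k U.c) (FA k U.c) a, ?_⟩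
      rw [U.evF_algebraMap hj ht, ha]
    intro z
    have h2 : z ∈ R.toIntermediateField hR := h1 (by rw [hS]; exact IntermediateField.mem_top)
    exact Subfield.mem_comap.1 h2
  choose g hg using hall
  have hinj : Function.Injective (U.evF k hj ht) := (U.evF k hj ht).injective
  let io : K →ₐ[C] EE k C :=
    { toFun := fun z => (g z : EE k C)
      map_one' := by
        have : g 1 = 1 := hinj (by rw [hg, map_one, map_one])
        rw [this]; rfl
      map_mul' := fun x y => by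
        have : g (x * y) = g x * g y := hinj (by rw [hg, map_mul, map_mul, hg, hg])
        rw [this]; rfl
      map_zero' := by
        have : g 0 = 0 := hinj (by rw [hg, map_zero, map_zero])
        rw [this]; rfl
      map_add' := fun x y => by
        have : g (x + y) = g x + g y := hinj (by rw [hg, map_add, map_add, hg, hg])
        rw [this]; rfl
      commutes' := fun c => by
        have : g (algebraMap C K c) = algebraMap C (FA k U.c) c := hinj (by rw [hg, hκ, hC])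
        rw [this]; rfl }
  refine ⟨io, fun z => (g z).2, fun z a ha => ?_⟩
  have : g z = algebraMap (AN k U.c) (FA k U.c) a :=
    hinj (by rw [hg, U.evF_algebraMap hj ht, ha])
  change ((g z : FA k U.c) : EE k C) = a.1
  rw [this]
  rfl

/-- **one norm of `K`: the cell data on all small annuli** -/
theorem cell3 {K : Type*} [Field K] [Algebra C K] (κ : K →+* L)
    (hκ : ∀ c, κ (algebraMap C K c) = j c) (ht : Ty3 j t) (hR : ∀ z : K, κ z ∈ Rep k hj ht)
    (S : Finset K) (hS : IntermediateField.adjoin C (S : Set K) = ⊤) {ξ : K} {m : ℕ} {al : C}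
    {θ : ℝ} (hθ : θ < 1)
    (hξ : ∀ᶠ U in l3 j t, ∃ u v : AN k U.c, u * v = 1 ∧ BdA 1 v ∧ DU θ u ∧
        U.ev hj (algebraMap C _ (al * U.σ ^ (m : ℤ)) * ⟨T m, T_mem_AN U.c m⟩ * u) = κ ξ) :
    ∀ᶠ U in l3 j t, ∃ (io : K →ₐ[C] EE k C) (f : EE k C), (∀ z, io z ∈ FA k U.c) ∧
      (∀ (z : K) (a : AN k U.c), U.ev hj a = κ z → io z = a.1) ∧ WE f m ∧
      (∀ n : ℤ, ‖f.co n‖ * ‖U.c‖ ^ n ≤ ‖U.c‖ ^ m) ∧
      io ξ = algebraMap C (EE k C) (al * U.σ ^ m) * f := by
  have h1 : ∀ᶠ U in l3 j t, ∀ s ∈ S, ∃ a : AN k U.c, U.ev hj a = κ s := by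
    rw [Filter.eventually_all_finset]
    intro s _
    exact (mem_Rep hj).1 (hR s)
  filter_upwards [h1, hξ] with U hU1 hU2
  obtain ⟨io, hio1, hio2⟩ := exists_emb hj κ hκ ht U (S : Set K) hS (fun s hs => hU1 s hs)
  obtain ⟨u, v, -, -, hDU, h3⟩ := hU2
  refine ⟨io, T m * u.1, hio1, hio2, hDU.we hθ m, hDU.wa U.c_ne hθ m, ?_⟩
  rw [hio2 ξ _ h3, ← zpow_natCast U.σ m, ← mul_assoc]
  rfl

/-- norms on small annuli -/
theorem gn_io_le {K : Type*} [Field K] [Algebra C K] (κ : K →+* L) (ht : Ty3 j t) {z : K}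
    (hR : κ z ∈ Rep k hj ht) {η : ℝ} (hη : 1 < η) :
    ∀ᶠ U in l3 j t, ∀ io : K →ₐ[C] EE k C,
      (∀ (z : K) (a : AN k U.c), U.ev hj a = κ z → io z = a.1) → gn (io z) ≤ η * ‖κ z‖ := by
  filter_upwards [Rep_cell (k := k) hj ht hR hη] with U hU io hio
  obtain ⟨a, ha, hb⟩ := hU
  rw [hio z a ha]
  exact bdd_one_iff.1 hb.1

/-- elements close to `t ^ l` -/
theorem gn_io_eq {K : Type*} [Field K] [Algebra C K] (κ : K →+* L) (ht : Ty3 j t)
    (hR : ∀ z : K, κ z ∈ Rep k hj ht) {tK : K} (htK : κ tK = t) (l : ℕ) {z : K}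
    (hz : ‖κ (z - tK ^ l)‖ < ‖t‖ ^ l) :
    ∀ᶠ U in l3 j t, ∀ io : K →ₐ[C] EE k C,
      (∀ (z : K) (a : AN k U.c), U.ev hj a = κ z → io z = a.1) →
        gn (io z) = ‖U.σ‖ ^ l ∧ od (io z) = l := by
  have ht0 : 0 < ‖t‖ := norm_pos_iff.2 ht.1
  have htl : 0 < ‖t‖ ^ l := pow_pos ht0 l
  obtain ⟨η, hη1, hη2⟩ : ∃ η : ℝ, 1 < η ∧ η * ‖κ (z - tK ^ l)‖ < ‖t‖ ^ l := by
    rcases (norm_nonneg (κ (z - tK ^ l))).eq_or_lt with h0 | h0
    · exact ⟨2, one_lt_two, by rw [← h0, mul_zero]; exact htl⟩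
    · obtain ⟨η, h1, h2⟩ := exists_between ((one_lt_div h0).2 hz)
      exact ⟨η, h1, by rwa [lt_div_iff₀ h0] at h2⟩
  filter_upwards [gn_io_le hj κ ht (hR (z - tK ^ l)) hη1] with U hU io hio
  have h1 := hU io hio
  have hjσ : j U.σ ≠ 0 := by rw [← norm_pos_iff, hj]; exact U.σ_pos
  have h2 : io (tK ^ l) = mo l (U.σ ^ l) := by
    refine hio (tK ^ l) ⟨mo l (U.σ ^ l), mo_mem_AN _ _ _⟩ ?_
    rw [U.ev_mo hj, map_pow, map_pow, htK, zpow_natCast, div_pow]
    have : (j U.σ) ^ l ≠ 0 := pow_ne_zero _ hjσ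
    field_simp
  have h3 : io z = mo l (U.σ ^ l) + io (z - tK ^ l) := by
    rw [map_sub, h2]; ring
  have h4 : gn (io (z - tK ^ l)) < ‖U.σ ^ l‖ := by
    rw [norm_pow]
    exact (h1.trans_lt hη2).trans_le (pow_le_pow_left₀ ht0.le U.lt_out.le l)
  have h5 := lead_of (k := k) (l : ℤ) h4
  rw [h3]
  rw [norm_pow] at h5
  exact h5

end EvF

end Crest.Agent.R013.Spread3_260
end
end

-- ▼ part R013/Spt6_260
section

/-! # R013 / Spt6_260 : the data of one norm of `K` over all small annuli of the `x`-line.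

`lx r` : filter of annuli `(c, σ)`, `‖c σ‖ < r < ‖σ‖`; `Out3 k w ξ r d` : what one norm `w` of `K`
contributes; `exists_out3`. -/

set_option autoImplicit false
set_option linter.unusedSectionVars false

noncomputable section

namespace Crest.Agent.R013.Spread3_260

open Filter Topology
open Crest.Agent.R013.Cell_408 (FinDef DiscNorm BD)
open Crest.Agent.R013.EE809 Crest.Agent.R013.CAn_243
open Crest.Agent.R013.Spread_607 (UBall FT sp1)

section LX

/-- annuli `‖c σ‖ < |x| < ‖σ‖` shrinking to `|x| = r` -/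
def lx (C : Type*) [NormedField C] (r : ℝ) : Filter (C × C) where
  sets := {S | ∃ r1 r2 : ℝ, r1 < r ∧ r < r2 ∧ ∀ P : C × C, P.1 ≠ 0 → r1 < ‖P.1‖ * ‖P.2‖ →
    ‖P.1‖ * ‖P.2‖ < r → r < ‖P.2‖ → ‖P.2‖ < r2 → P ∈ S}
  univ_sets := ⟨r - 1, r + 1, by linarith, by linarith, fun _ _ _ _ _ _ => trivial⟩
  sets_of_superset := by
    rintro S S' ⟨r1, r2, h1, h2, h⟩ hSS
    exact ⟨r1, r2, h1, h2, fun P h3 h4 h5 h6 h7 => hSS (h P h3 h4 h5 h6 h7)⟩
  inter_sets := by
    rintro S S' ⟨r1, r2, h1, h2, h⟩ ⟨s1, s2, h3, h4, h'⟩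
    exact ⟨max r1 s1, min r2 s2, max_lt h1 h3, lt_min h2 h4, fun P h5 h6 h7 h8 h9 =>
      ⟨h P h5 ((le_max_left _ _).trans_lt h6) h7 h8 (h9.trans_le (min_le_left _ _)),
        h' P h5 ((le_max_right _ _).trans_lt h6) h7 h8 (h9.trans_le (min_le_right _ _))⟩⟩

variable {C : Type*} [NormedField C]

theorem eventually_lx {r : ℝ} {Q : C × C → Prop} :
    (∀ᶠ P in lx C r, Q P) ↔ ∃ r1 r2 : ℝ, r1 < r ∧ r < r2 ∧ ∀ P : C × C, P.1 ≠ 0 →
      r1 < ‖P.1‖ * ‖P.2‖ → ‖P.1‖ * ‖P.2‖ < r → r < ‖P.2‖ → ‖P.2‖ < r2 → Q P := Iff.rfl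

theorem eventually_lx_ann (r : ℝ) :
    ∀ᶠ P in lx C r, P.1 ≠ 0 ∧ ‖P.1‖ * ‖P.2‖ < r ∧ r < ‖P.2‖ :=
  eventually_lx.2 ⟨r - 1, r + 1, by linarith, by linarith, fun _ h1 _ h2 h3 _ => ⟨h1, h2, h3⟩⟩

theorem lx_neBot (k : Type*) [NontriviallyNormedField k] [NormedAlgebra k C] [IsAlgClosed C]
    {r : ℝ} (hr : 0 < r) : (lx C r).NeBot := by
  rw [Filter.neBot_iff]
  intro h
  have h1 : (∅ : Set (C × C)) ∈ lx C r := by rw [h]; exact Filter.mem_bot
  obtain ⟨r1, r2, h2, h3, h4⟩ := h1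
  obtain ⟨σ, hσ, hσ1, hσ2⟩ := exists_norm_between k (C := C) h3 (hr.trans h3)
  obtain ⟨τ, hτ, hτ1, hτ2⟩ := exists_norm_between k (C := C) h2 hr
  have e : ‖τ / σ‖ * ‖σ‖ = ‖τ‖ := by
    rw [norm_div, div_mul_cancel₀ _ (norm_ne_zero_iff.2 hσ)]
  exact h4 (τ / σ, σ) (div_ne_zero hτ hσ) (by change r1 < ‖τ / σ‖ * ‖σ‖; rw [e]; exact hτ1)
    (by change ‖τ / σ‖ * ‖σ‖ < r; rw [e]; exact hτ2) hσ1 hσ2

end LX

section Out

variable {k C L : Type*} [NontriviallyNormedField k] [CompleteSpace k] [IsUltrametricDist k]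
  [NormedField C] [IsUltrametricDist C] [NormedAlgebra k C] [Algebra.IsAlgebraic k C]
  [IsAlgClosed C] [hk : Fact (DiscNorm k)]

variable (k C) in
/-- what one norm `w` of `K` contributes to the annuli around `|ξ| = r`; `d` = local degree -/
structure Out3 {K : Type*} [Field K] [Algebra C K] (w : K → ℝ) (ξ : K) (r : ℝ) (d : ℕ) where
  m : ℕ
  m_ne : m ≠ 0
  d_le : d ≤ m
  tK : K
  t_pos : 0 < w tK
  c' : C × C → C
  σ' : C × C → C
  f : C × C → EE k C
  io : C × C → K →ₐ[C] EE k C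
  ann : ∀ᶠ P in lx C r, c' P ≠ 0 ∧ ‖c' P‖ ^ m = ‖P.1‖ ∧ w tK < ‖σ' P‖ ∧ WE (f P) m ∧
    (∀ n : ℤ, ‖(f P).co n‖ * ‖c' P‖ ^ n ≤ ‖c' P‖ ^ m) ∧ (∀ z, io P z ∈ FA k (c' P)) ∧
    io P ξ = algebraMap C (EE k C) P.2 * f P
  le : ∀ (z : K) (η : ℝ), 1 < η → ∀ᶠ P in lx C r, gn (io P z) ≤ η * w z
  eq : ∀ (z : K) (l : ℕ), w (z - tK ^ l) < w tK ^ l →
    ∀ᶠ P in lx C r, gn (io P z) = ‖σ' P‖ ^ l ∧ od (io P z) = l

variable [NormedField L] [IsUltrametricDist L] [CompleteSpace L]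
  {j : C →+* L} {t : L}

/-- from annuli of the `x`-line to annuli of the `t`-line -/
theorem lx_to_l3 {al : C} (hal : al ≠ 0) {m : ℕ} (hm : m ≠ 0)
    {r : ℝ} (hr : r = ‖al‖ * ‖t‖ ^ m) {Q : Ac j t → Prop} (hQ : ∀ᶠ U in l3 j t, Q U) :
    ∀ᶠ P in lx C r, ∀ U : Ac j t, U.c ^ m = P.1 → U.σ ^ m = P.2 / al → Q U := by
  obtain ⟨s1, s2, h1, h2, h3⟩ := eventually_l3.1 hQ
  have hal' : 0 < ‖al‖ := norm_pos_iff.2 hal
  rcases (norm_nonneg t).eq_or_lt with ht | ht
  · -- no annuli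
    refine Eventually.of_forall fun P U _ _ => ?_
    exact absurd U.t_pos (not_lt.2 ht.symm.le)
  have h0 : max s1 0 < ‖t‖ := max_lt h1 ht
  refine eventually_lx.2 ⟨‖al‖ * (max s1 0) ^ m, ‖al‖ * s2 ^ m, ?_, ?_, ?_⟩
  · rw [hr]
    exact mul_lt_mul_of_pos_left (pow_lt_pow_left₀ h0 (le_max_right _ _) hm) hal'
  · rw [hr]
    exact mul_lt_mul_of_pos_left (pow_lt_pow_left₀ h2 ht.le hm) hal'
  · intro P _ h5 _ _ h8 U hc hσ
    have e1 : ‖U.σ‖ ^ m = ‖P.2‖ / ‖al‖ := by rw [← norm_pow, hσ, norm_div]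
    have e2 : (‖U.c‖ * ‖U.σ‖) ^ m = ‖P.1‖ * ‖P.2‖ / ‖al‖ := by
      rw [mul_pow, e1, ← norm_pow, hc, mul_div_assoc]
    refine h3 U ?_ ?_
    · refine (le_max_left s1 0).trans_lt (lt_of_pow_lt_pow_left₀ m (by positivity) ?_)
      rw [e2, lt_div_iff₀ hal', mul_comm]
      exact h5
    · refine lt_of_pow_lt_pow_left₀ m (ht.le.trans h2.le) ?_
      rw [e1, div_lt_iff₀ hal', mul_comm]
      exact h8

theorem exists_ac_of_lx {al : C} (hal : al ≠ 0) {m : ℕ} (hm : m ≠ 0)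
    {r : ℝ} (hr : r = ‖al‖ * ‖t‖ ^ m) :
    ∀ᶠ P in lx C r, ∃ U : Ac j t, U.c ^ m = P.1 ∧ U.σ ^ m = P.2 / al := by
  have hal' : 0 < ‖al‖ := norm_pos_iff.2 hal
  filter_upwards [eventually_lx_ann (C := C) r] with P hP
  obtain ⟨c, hc⟩ := IsAlgClosed.exists_pow_nat_eq P.1 (Nat.pos_of_ne_zero hm)
  obtain ⟨σ, hσ⟩ := IsAlgClosed.exists_pow_nat_eq (P.2 / al) (Nat.pos_of_ne_zero hm)
  have e1 : ‖σ‖ ^ m = ‖P.2‖ / ‖al‖ := by rw [← norm_pow, hσ, norm_div]
  have e2 : (‖c‖ * ‖σ‖) ^ m = ‖P.1‖ * ‖P.2‖ / ‖al‖ := by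
    rw [mul_pow, e1, ← norm_pow, hc, mul_div_assoc]
  refine ⟨⟨c, σ, ?_, ?_, ?_⟩, hc, hσ⟩
  · rintro rfl
    rw [zero_pow hm] at hc
    exact hP.1 hc.symm
  · refine lt_of_pow_lt_pow_left₀ m (norm_nonneg _) ?_
    rw [e2, div_lt_iff₀ hal', mul_comm (‖t‖ ^ m)]
    exact hP.2.1.trans_eq hr
  · refine lt_of_pow_lt_pow_left₀ m (norm_nonneg _) ?_
    rw [e1, lt_div_iff₀ hal', mul_comm (‖t‖ ^ m)]
    exact hr.symm.trans_lt hP.2.2

/-- **the contribution of one norm** -/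
theorem exists_out3 (hj : ∀ c, ‖j c‖ = ‖c‖) {K : Type*} [Field K] [Algebra C K] (κ : K →+* L)
    (hκ : ∀ c, κ (algebraMap C K c) = j c) (ht : Ty3 j t) (hR : ∀ z : K, κ z ∈ Rep k hj ht)
    (S : Finset K) (hS : IntermediateField.adjoin C (S : Set K) = ⊤)
    {tK : K} (htK : κ tK = t) {ξ : K} {m : ℕ} (hm : m ≠ 0) {al : C} (hal : al ≠ 0)
    {θ : ℝ} (hθ : θ < 1) (hn : ‖κ ξ‖ = ‖al‖ * ‖t‖ ^ m)
    (hξ : ∀ᶠ U in l3 j t, ∃ u v : AN k U.c, u * v = 1 ∧ BdA 1 v ∧ DU θ u ∧
        U.ev hj (algebraMap C _ (al * U.σ ^ (m : ℤ)) * ⟨T m, T_mem_AN U.c m⟩ * u) = κ ξ)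
    {d : ℕ} (hd : d ≤ m) : Nonempty (Out3 k C (fun z => ‖κ z‖) ξ ‖κ ξ‖ d) := by
  have ht0 : 0 < ‖t‖ := norm_pos_iff.2 ht.1
  have hr : 0 < ‖κ ξ‖ := by
    rw [hn]; exact mul_pos (norm_pos_iff.2 hal) (pow_pos ht0 m)
  have := lx_neBot (C := C) k hr
  have h1 := lx_to_l3 (j := j) hal hm hn (cell3 hj κ hκ ht hR S hS hθ hξ)
  have h2 := exists_ac_of_lx (j := j) hal hm hn
  have h3 : ∀ᶠ P in lx C ‖κ ξ‖, ∃ y : Ac j t × (K →ₐ[C] EE k C) × EE k C,
      (y.1.c ^ m = P.1 ∧ y.1.σ ^ m = P.2 / al) ∧ (∀ z, y.2.1 z ∈ FA k y.1.c) ∧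
      (∀ (z : K) (a : AN k y.1.c), y.1.ev hj a = κ z → y.2.1 z = a.1) ∧ WE y.2.2 m ∧
      (∀ n : ℤ, ‖y.2.2.co n‖ * ‖y.1.c‖ ^ n ≤ ‖y.1.c‖ ^ m) ∧
      y.2.1 ξ = algebraMap C (EE k C) P.2 * y.2.2 := by
    filter_upwards [h1, h2] with P hP1 hP2
    obtain ⟨U, hc, hσ⟩ := hP2
    obtain ⟨io, f, e1, e2, e3, e4, e5⟩ := hP1 U hc hσ
    refine ⟨(U, io, f), ⟨hc, hσ⟩, e1, e2, e3, e4, ?_⟩
    change io ξ = algebraMap C (EE k C) P.2 * f
    rw [e5, hσ, mul_div_cancel₀ _ hal]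
  obtain ⟨Y, hY⟩ := h3.choice
  refine ⟨⟨m, hm, hd, tK, by rw [htK]; exact ht0, fun P => (Y P).1.c, fun P => (Y P).1.σ,
    fun P => (Y P).2.2, fun P => (Y P).2.1, ?_, ?_, ?_⟩⟩
  · filter_upwards [hY] with P hP
    obtain ⟨⟨hc, hσ⟩, e1, e2, e3, e4, e5⟩ := hP
    refine ⟨(Y P).1.c_ne, by rw [← norm_pow, hc], ?_, e3, e4, e1, e5⟩
    rw [htK]; exact (Y P).1.lt_out
  · intro z η hη
    have h4 := lx_to_l3 (j := j) hal hm hn (gn_io_le hj κ ht (hR z) hη)
    filter_upwards [hY, h4] with P hP hP4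
    exact hP4 (Y P).1 hP.1.1 hP.1.2 (Y P).2.1 hP.2.2.1
  · intro z l hz
    rw [htK] at hz
    have h4 := lx_to_l3 (j := j) hal hm hn (gn_io_eq hj κ ht hR htK l hz)
    filter_upwards [hY, h4] with P hP hP4
    exact hP4 (Y P).1 hP.1.1 hP.1.2 (Y P).2.1 hP.2.2.1

end Out

end Crest.Agent.R013.Spread3_260
end
end

-- ▼ part R013/Spt7_260

/-! # R013 / Spt7_260 : good annuli from the contributions of the norms. -/

set_option autoImplicit false
set_option linter.unusedSectionVars false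

noncomputable section

namespace Crest.Agent.R013.Spread3_260

open Filter Topology Module
open Crest.Agent.R013.Cell_408 (FinDef DiscNorm BD)
open Crest.Agent.R013.EE809 Crest.Agent.R013.CAn_243 Crest.Agent.R013.Good_408

variable {k C : Type*} [NontriviallyNormedField k] [CompleteSpace k] [IsUltrametricDist k]
  [NormedField C] [IsUltrametricDist C] [NormedAlgebra k C] [Algebra.IsAlgebraic k C]
  [IsAlgClosed C] [hk : Fact (DiscNorm k)]

theorem gn_const_mul (c : C) (x : EE k C) : gn (algebraMap C (EE k C) c * x) = ‖c‖ * gn x := by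
  rw [gn_mul hk.out, gn_algebraMap]

theorem od_const_mul {c : C} (hc : c ≠ 0) {x : EE k C} (hx : x ≠ 0) :
    od (algebraMap C (EE k C) c * x) = od x := by
  have h1 : (algebraMap C (EE k C) c) ≠ 0 := (map_ne_zero _).2 hc
  have h2 : od (algebraMap C (EE k C) c) = 0 := by
    rw [algebraMap_eq]; exact od_mono 0 _ hc
  rw [od_mul hk.out h1 hx, h2, zero_add]

variable {K : Type*} [Field K] [Algebra C K] [Algebra (RatFunc C) K]
    [IsScalarTower C (RatFunc C) K] [FiniteDimensional (RatFunc C) K]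

/-- a family with `Inj` is independent -/
theorem li_of_inj {y : EE k C} (hy : Transcendental C y) {J : Type*} {m : J → ℕ} {f : J → EE k C}
    {we : ∀ j, WE (f j) (m j)} {m_ne : ∀ j, m j ≠ 0} {io : J → K →ₐ[C] EE k C}
    (hx : ∀ j, io j (algebraMap (RatFunc C) K RatFunc.X) = compE (f j) (we j) (m_ne j) y)
    {I : Type*} [Fintype I] (z : I → K)
    (hz : Inj (fun j => (compE (f j) (we j) (m_ne j)).toRingHom) (fun j => (io j).toRingHom) z) :
    LinearIndependent (RatFunc C) z := by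
  rw [Fintype.linearIndependent_iff]
  intro r hr
  have h4 := hz (fun p => ratHom y hy (r p)) (fun j => by
    change ∑ p, compE (f j) (we j) (m_ne j) (ratHom y hy (r p)) * io j (z p) = 0
    have h5 := congrArg (io j) hr
    rw [map_zero, map_sum] at h5
    rw [← h5]
    refine Finset.sum_congr rfl fun p _ => ?_
    rw [commE hy hx, Algebra.smul_def, map_mul])
  intro p
  exact (map_eq_zero (ratHom y hy)).1 (congrFun h4 p)

/-- **assembly at type 3** -/
theorem goodA_of_out3 (a : C) {r : ℝ} (J : Type) [Fintype J] (w : J → K → ℝ)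
    (d : J → ℕ) (hd : finrank (RatFunc C) K ≤ ∑ i, d i)
    (o : ∀ i, Out3 k C (w i) (algebraMap (RatFunc C) K RatFunc.X - algebraMap C K a) r (d i))
    (approx : ∀ (b : J → K) (ε : ℝ), 0 < ε → ∃ y, ∀ i, w i (y - b i) < ε) :
    ∀ᶠ P in lx C r, GoodA k C K P.1 (annY k C a P.2) := by
  classical
  -- the approximate family
  have hz : ∀ p : Σ i, Fin (o i).m, ∃ z : K,
      w p.1 (z - (o p.1).tK ^ (p.2 : ℕ)) < w p.1 (o p.1).tK ^ (p.2 : ℕ) ∧
      ∀ i, i ≠ p.1 → w i z < w p.1 (o p.1).tK ^ (p.2 : ℕ) / 2 := by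
    intro p
    have h0 : 0 < w p.1 (o p.1).tK ^ (p.2 : ℕ) := pow_pos (o p.1).t_pos _
    obtain ⟨z, hz⟩ := approx (fun i => if i = p.1 then (o p.1).tK ^ (p.2 : ℕ) else 0)
      (w p.1 (o p.1).tK ^ (p.2 : ℕ) / 2) (by linarith)
    refine ⟨z, ?_, fun i hi => ?_⟩
    · have := hz p.1
      rw [if_pos rfl] at this
      linarith
    · have := hz i
      rwa [if_neg hi, sub_zero] at this
  choose z' hz1 hz2 using hz
  have e1 : ∀ᶠ P in lx C r, ∀ p : Σ i, Fin (o i).m,
      gn ((o p.1).io P (z' p)) = ‖(o p.1).σ' P‖ ^ (p.2 : ℕ) ∧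
        od ((o p.1).io P (z' p)) = ((p.2 : ℕ) : ℤ) :=
    Filter.eventually_all.2 fun p => (o p.1).eq (z' p) p.2 (hz1 p)
  have e2 : ∀ᶠ P in lx C r, ∀ (p : Σ i, Fin (o i).m) (i : J),
      gn ((o i).io P (z' p)) ≤ 2 * w i (z' p) :=
    Filter.eventually_all.2 fun p => Filter.eventually_all.2 fun i =>
      (o i).le (z' p) 2 one_lt_two
  have e3 := Filter.eventually_all.2 fun i => (o i).ann
  filter_upwards [e1, e2, e3, eventually_lx_ann r] with P h1 h2 h3 h4
  obtain ⟨hP1, hP2, hP3⟩ := h4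
  have hPσ : P.2 ≠ 0 := by
    intro h
    rw [h, norm_zero] at hP3 hP2
    rw [mul_zero] at hP2
    linarith
  have hPlt : ‖P.1‖ < 1 := by
    have h5 : 0 < ‖P.2‖ := norm_pos_iff.2 hPσ
    by_contra h6
    have := not_lt.1 h6
    nlinarith
  have hy : Transcendental C (annY k C a P.2) := transc_annY a hPσ
  have we : ∀ i, WE ((o i).f P) (o i).m := fun i => (h3 i).2.2.2.1
  have m_ne : ∀ i, (o i).m ≠ 0 := fun i => (o i).m_ne
  have hx : ∀ i, (o i).io P (algebraMap (RatFunc C) K RatFunc.X) =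
      compE ((o i).f P) (we i) (m_ne i) (annY k C a P.2) := by
    intro i
    have h5 := (h3 i).2.2.2.2.2.2
    rw [annY, map_add, map_mul, AlgHom.commutes, AlgHom.commutes, compE_T_one, ← h5, map_sub,
      AlgHom.commutes]
    ring
  have hσ0 : ∀ i, (o i).σ' P ≠ 0 := fun i => by
    have h5 := (h3 i).2.2.1
    exact norm_pos_iff.1 ((o i).t_pos.trans h5)
  set z : (Σ i, Fin (o i).m) → K := fun p =>
    algebraMap C K (((o p.1).σ' P ^ (p.2 : ℕ))⁻¹) * z' p with hzdef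
  have hio : ∀ (p : Σ i, Fin (o i).m) (i : J), (o i).io P (z p) =
      algebraMap C (EE k C) (((o p.1).σ' P ^ (p.2 : ℕ))⁻¹) * (o i).io P (z' p) := by
    intro p i
    rw [hzdef]
    dsimp only
    rw [map_mul, AlgHom.commutes]
  have hσp : ∀ p : Σ i, Fin (o i).m, 0 < ‖(o p.1).σ' P‖ ^ (p.2 : ℕ) := fun p =>
    pow_pos (norm_pos_iff.2 (hσ0 p.1)) _
  have g1 : ∀ p, gn ((o p.1).io P (z p)) = 1 := by
    intro p
    rw [hio, gn_const_mul, norm_inv, norm_pow, (h1 p).1, inv_mul_cancel₀ (hσp p).ne']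
  have g2 : ∀ p, od ((o p.1).io P (z p)) = ((p.2 : ℕ) : ℤ) := by
    intro p
    have h5 : (o p.1).io P (z' p) ≠ 0 := by
      intro h
      have := (h1 p).1
      rw [h, gn_zero] at this
      exact (hσp p).ne this
    rw [hio, od_const_mul (inv_ne_zero (pow_ne_zero _ (hσ0 p.1))) h5, (h1 p).2]
  have g3 : ∀ p i, i ≠ p.1 → gn ((o i).io P (z p)) < 1 := by
    intro p i hi
    rw [hio, gn_const_mul, norm_inv, norm_pow, ← div_eq_inv_mul, div_lt_one (hσp p)]
    have h5 := h2 p i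
    have h6 := hz2 p i hi
    have h7 : w p.1 (o p.1).tK ^ (p.2 : ℕ) ≤ ‖(o p.1).σ' P‖ ^ (p.2 : ℕ) :=
      pow_le_pow_left₀ (o p.1).t_pos.le (h3 p.1).2.2.1.le _
    linarith
  have hinj := inj_ends J (fun i => (o i).m) (fun i => (o i).f P) we m_ne
    (fun i => (o i).io P) z g1 g2 (fun p i hi => Or.inl (g3 p i hi))
  have hli : LinearIndependent (RatFunc C) z := li_of_inj hy hx z hinj
  have hsum : ∑ i, (o i).m = finrank (RatFunc C) K := by
    refine le_antisymm ?_ (hd.trans (Finset.sum_le_sum fun i _ => (o i).d_le))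
    have h5 := hli.fintype_card_le_finrank
    rw [Fintype.card_sigma] at h5
    refine le_trans (le_of_eq ?_) h5
    exact Finset.sum_congr rfl fun j _ => (Fintype.card_fin _).symm
  exact GoodA.mk_res hP1 hPlt (annY k C a P.2) hy (annY_mem a P.2 P.1) J (fun i => (o i).m) m_ne
    (fun i => (o i).c' P) (fun i => (h3 i).2.1) (fun i => (o i).f P) we
    (fun i => (h3 i).2.2.2.2.1) (fun i => (o i).io P) (fun i => (h3 i).2.2.2.2.2.1) hx hsum z g1 g2
    (fun p i hi => Or.inl (g3 p i hi))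

end Crest.Agent.R013.Spread3_260
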