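import Crest.Agent.R013.Sub9_270
import Crest.Agent.R013.SSG1_109
import Crest.Agent.R013.Spt7_260_Mg
import Crest.Agent.R013.PtsK3_315_Mg
import Crest.Agent.R013.StabR_460
import Crest.Agent.R013.Red17_332
import Crest.Agent.R013.End3_809
import Crest.Agent.R013.Red13_332

-- ▼ part R013/Sub10_270
section

/-! # R013 / Sub10_270 : `SubIn` (109) for good discs and annuli. -/

set_option autoImplicit false
set_option linter.unusedSectionVars false

open scoped NNReal

namespace Crest.Agent.R013.Sub_270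

open Crest.Agent.R013.Cell_408 Crest.Agent.R013.Good_408 Crest.Agent.R013.SSG_109

variable (k : Type*) {C : Type*} [NontriviallyNormedField k] [CompleteSpace k] [IsUltrametricDist k]
  [NormedField C] [IsUltrametricDist C] [NormedAlgebra k C] [Algebra.IsAlgebraic k C] [IsAlgClosed C]
  [hk : Fact (DiscNorm k)]
variable (K : Type*) [Field K] [Algebra C K] [Algebra (RatFunc C) K]
    [IsScalarTower C (RatFunc C) K] [FiniteDimensional (RatFunc C) K]

/-- **SS-SUB**: heredity of good cells -/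
theorem subIn (v : Valuation C ℝ≥0) (hv : ∀ c, v c = ‖c‖₊) :
    SubIn v (GoodDisc k C K) (GoodAnn k C K) (GoodInf k C K) where
  s1 a ρ a' ρ' h h1 h0 h2 := by
    simp only [hv] at h1 h2
    exact goodDisc_sub k K h h1 h0 h2
  s2 a σ ρ c τ h h1 h2 h0 h3 := by
    simp only [hv] at h1 h2 h3
    exact goodAnn_disc k K h h1 h2 h0 h3
  s3 a σ ρ σ' ρ' h h1 h2 h3 := by
    simp only [hv] at h1 h2 h3
    exact goodAnn_ann k K h h1 h2 h3
  sInf ρ ρ' h h1 := by
    simp only [hv] at h1
    exact goodInf_sub k K h h1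

end Crest.Agent.R013.Sub_270
end

-- ▼ part R013/Spt8_260
section

/-! # R013 / Spt8_260 : the contribution of one norm, from 205's LU3. -/

set_option autoImplicit false
set_option linter.unusedSectionVars false
set_option linter.style.haveILetI false

noncomputable section

namespace Crest.Agent.R013.Spread3_260

open Filter Topology Module
open Crest.Agent.R013.Cell_408 (FinDef DiscNorm BD)
open Crest.Agent.R013.EE809 Crest.Agent.R013.CAn_243 Crest.Agent.R013.Good_408
open Crest.Agent.R013.Spread_607 (UBall FT sp1 finite_adjoin_X subfield_top)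
open Crest.Agent.R013.LU3_205 (T3 VG Dn LU3)
open scoped NNReal

section T3

variable {C K : Type*} [Field C] [Field K] [Algebra C K]

theorem t3_inv {w : Valuation K ℝ≥0} {t : K} (h : T3 C w t) : T3 C w t⁻¹ := by
  refine ⟨inv_ne_zero h.ne, fun n c hc => ?_⟩
  rw [map_inv₀, inv_zpow, ← zpow_neg] at hc
  have := h.tor _ c hc
  omega

theorem adjoin_inv (t : K) : IntermediateField.adjoin C {t⁻¹} = IntermediateField.adjoin C {t} := by
  refine le_antisymm ?_ ?_
  · rw [IntermediateField.adjoin_simple_le_iff]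
    exact inv_mem (IntermediateField.mem_adjoin_simple_self C t)
  · rw [IntermediateField.adjoin_simple_le_iff]
    have h := inv_mem (IntermediateField.mem_adjoin_simple_self C t⁻¹)
    rwa [inv_inv] at h

/-- choose the coordinate so that the exponent is positive -/
theorem exists_pos_coord {w : Valuation K ℝ≥0} {t : K} (h : T3 C w t) {c : C} {n : ℤ} (hn : n ≠ 0)
    {ξ : K} (hξ : w ξ = w (algebraMap C K c) * w t ^ n) :
    ∃ (t' : K) (m : ℕ), m ≠ 0 ∧ T3 C w t' ∧ w ξ = w (algebraMap C K c) * w t' ^ m ∧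
      IntermediateField.adjoin C {t'} = IntermediateField.adjoin C {t} := by
  rcases lt_or_gt_of_ne hn with h1 | h1
  · obtain ⟨m, hm⟩ := Int.exists_eq_neg_ofNat h1.le
    refine ⟨t⁻¹, m, by omega, t3_inv h, ?_, adjoin_inv t⟩
    rw [hξ, hm, map_inv₀, zpow_neg, zpow_natCast, inv_pow]
  · obtain ⟨m, hm⟩ := Int.eq_ofNat_of_zero_le h1.le
    refine ⟨t, m, by omega, h, ?_, rfl⟩
    rw [hξ, hm, zpow_natCast]

end T3

section Loc

universe u

variable {k : Type*} {C K : Type u} [NontriviallyNormedField k] [CompleteSpace k] [IsUltrametricDist k]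
  [NormedField C] [IsUltrametricDist C] [NormedAlgebra k C] [Algebra.IsAlgebraic k C]
  [IsAlgClosed C] [CharZero C] [hk : Fact (DiscNorm k)]
  [Field K] [Algebra C K]
  {L : Type*} [NormedField L] [IsUltrametricDist L] [CompleteSpace L]

/-- every element of `K` is represented -/
theorem rep_all (κ : K →+* L) {j : C →+* L} (hjκ : ∀ c, κ (algebraMap C K c) = j c)
    (hj : ∀ c, ‖j c‖ = ‖c‖) {t1 : K} (ht : Ty3 j (κ t1))
    (hfd : FiniteDimensional (IntermediateField.adjoin C {t1}) K)
    (hd : ∀ z : K, ∀ e : ℝ, 0 < e → ∃ s ∈ IntermediateField.adjoin C {t1}, ‖κ (z - s)‖ < e)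
    (z : K) : κ z ∈ closure (FT j (κ t1) : Set L) ∧ κ z ∈ Rep k hj ht := by
  haveI : CharZero K := charZero_of_injective_algebraMap (algebraMap C K).injective
  haveI : CharZero L := charZero_of_injective_ringHom κ.injective
  have hmem : ∀ s ∈ IntermediateField.adjoin C {t1}, κ s ∈ FT j (κ t1) := by
    intro s hs
    have h1 : IntermediateField.adjoin C {t1} ≤
        { (FT j (κ t1)).comap κ with
          algebraMap_mem' := fun c => by
            change κ (algebraMap C K c) ∈ FT j (κ t1)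
            rw [hjκ]
            exact Subfield.subset_closure (Or.inl ⟨c, rfl⟩) } := by
      rw [IntermediateField.adjoin_le_iff]
      intro x hx
      rw [Set.mem_singleton_iff] at hx
      rw [hx]
      change κ t1 ∈ FT j (κ t1)
      exact Subfield.subset_closure (Or.inr rfl)
    exact h1 hs
  have hcl : κ z ∈ closure (FT j (κ t1) : Set L) := by
    rw [Metric.mem_closure_iff]
    intro ε hε
    obtain ⟨s, hs, hs'⟩ := hd z ε hε
    refine ⟨κ s, hmem s hs, ?_⟩
    rw [dist_eq_norm, ← map_sub]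
    exact hs'
  refine ⟨hcl, alg_mem_Rep hj ht ?_ hcl⟩
  let g : IntermediateField.adjoin C {t1} →+* FT j (κ t1) :=
    (κ.comp (algebraMap (IntermediateField.adjoin C {t1}) K)).codRestrict _
      (fun s => hmem s s.2)
  have hz : IsIntegral (IntermediateField.adjoin C {t1}) z := Algebra.IsIntegral.isIntegral z
  have h2 : IsIntegral (FT j (κ t1)) (κ z) := by
    obtain ⟨P, hP, hP0⟩ := hz
    refine ⟨P.map g, hP.map g, ?_⟩
    rw [Polynomial.eval₂_map]
    have h3 : (algebraMap (FT j (κ t1)) L).comp g =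
        κ.comp (algebraMap (IntermediateField.adjoin C {t1}) K) := rfl
    rw [h3, ← Polynomial.hom_eval₂, hP0, map_zero]
  exact h2.isAlgebraic

variable [Algebra (RatFunc C) K] [IsScalarTower C (RatFunc C) K] [FiniteDimensional (RatFunc C) K]
  {E : Type*} [NontriviallyNormedField E] [CompleteSpace E] [Algebra (RatFunc C) E]
  [NormedAlgebra E L] [FiniteDimensional E L]

variable (k) in
/-- **the contribution of one completion `L` of `K`** -/
theorem loc3 (κ : K →+* L)
    (hκ : ∀ f : RatFunc C, κ (algebraMap (RatFunc C) K f) = algebraMap E L (algebraMap (RatFunc C) E f))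
    (hdense : ∀ y : L, ∀ ε : ℝ, 0 < ε → ∃ z : K, ‖κ z - y‖ < ε)
    (hn : ∀ c : C, ‖κ (algebraMap C K c)‖ = ‖c‖) {p : ℕ} (hp : p.Prime) (hp1 : ‖(p : C)‖ < 1)
    (a : C) (hξ : ∀ c : C, ‖κ (algebraMap (RatFunc C) K RatFunc.X - algebraMap C K a)‖ ≠ ‖c‖) :
    Nonempty (Out3 k C (fun z => ‖κ z‖) (algebraMap (RatFunc C) K RatFunc.X - algebraMap C K a)
      ‖κ (algebraMap (RatFunc C) K RatFunc.X - algebraMap C K a)‖ (Module.finrank E L)) := by
  classical
  haveI : CharZero K := charZero_of_injective_algebraMap (algebraMap C K).injective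
  set XK : K := algebraMap (RatFunc C) K RatFunc.X with hXK
  set ξ : K := XK - algebraMap C K a with hξdef
  let w : Valuation K ℝ≥0 := (NormedField.valuation (K := L)).comap κ
  have hw : ∀ z, w z = ‖κ z‖₊ := fun z => rfl
  have hwr : ∀ z, (w z : ℝ) = ‖κ z‖ := fun z => rfl
  have hξ0 : ξ ≠ 0 := by
    intro h
    refine hξ 0 ?_
    rw [h, map_zero, norm_zero, norm_zero]
  haveI := finite_adjoin_X (C := C) (K := K)
  -- local uniformisation
  obtain ⟨t0, hT3, hVG, -, hfin, hden⟩ := LU3 hp w (by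
      have h2 : w ((p : ℕ) : K) = ‖(p : C)‖₊ := by
        rw [hw]
        have : ((p : ℕ) : K) = algebraMap C K (p : C) := (map_natCast (algebraMap C K) p).symm
        rw [this]
        exact NNReal.coe_injective (hn _)
      rw [h2]
      exact_mod_cast hp1) XK ⟨ξ, hξ0, fun c h => hξ c (by
        rw [← hn c]
        exact congrArg NNReal.toReal h)⟩
  obtain ⟨c0, n, hc0, hcn⟩ := hVG ξ (Set.mem_univ _) hξ0
  have hn0 : n ≠ 0 := by
    rintro rfl
    rw [zpow_zero, mul_one] at hcn
    refine hξ c0 ?_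
    rw [← hn c0]
    exact congrArg NNReal.toReal hcn
  obtain ⟨t1, m, hm, hT1, hcm, hadj⟩ := exists_pos_coord hT3 hn0 hcn
  have hfin1 : FiniteDimensional (IntermediateField.adjoin C {t1}) K := by rw [hadj]; exact hfin
  have hden1 : ∀ z : K, ∀ e : ℝ, 0 < e → ∃ s ∈ IntermediateField.adjoin C {t1},
      ‖κ (z - s)‖ < e := by
    intro z e he
    obtain ⟨s, hs, hs'⟩ := hden z ⟨e, he.le⟩ he
    exact ⟨s, by rw [hadj]; exact hs, hs'⟩
  let j : C →+* L := κ.comp (algebraMap C K)
  have hjκ : ∀ c, κ (algebraMap C K c) = j c := fun c => rfl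
  have hj : ∀ c, ‖j c‖ = ‖c‖ := hn
  have ht : Ty3 j (κ t1) := by
    refine ⟨(map_ne_zero κ).2 hT1.ne, fun c h => ?_⟩
    have h1 : w t1 ^ (1 : ℤ) = w (algebraMap C K c) := by
      rw [zpow_one]
      apply NNReal.coe_injective
      rw [hwr, hwr, h, hn]
    exact one_ne_zero (hT1.tor 1 c h1)
  have hall := rep_all (k := k) κ hjκ hj ht hfin1 hden1
  have hd : ∀ y : L, y ∈ closure (FT j (κ t1) : Set L) := by
    intro y
    rw [← closure_closure, Metric.mem_closure_iff]
    intro ε hε
    obtain ⟨z, hz⟩ := hdense y ε hε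
    refine ⟨κ z, (hall z).1, ?_⟩
    rw [dist_comm, dist_eq_norm]
    exact hz
  -- the expansion of `ξ`
  obtain ⟨m', al, θ, hal, hθ0, hθ1, hnear, hev⟩ := exp3 (k := k) hj ht
    ((map_ne_zero κ).2 hξ0) (hall ξ).2
  have hjal : j al ≠ 0 := by rw [← norm_pos_iff, hj]; exact norm_pos_iff.2 hal
  have htm : ∀ i : ℤ, κ t1 ^ i ≠ 0 := fun i => zpow_ne_zero _ ht.1
  have hnξ : ‖κ ξ‖ = ‖al‖ * ‖κ t1‖ ^ m' := by
    have h1 := norm_eq_one_of_sub hθ1 hnear
    rw [norm_div, norm_mul, norm_zpow, hj, div_eq_one_iff_eq] at h1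
    · exact h1
    · exact mul_ne_zero (norm_ne_zero_iff.2 hal) (zpow_ne_zero _ (norm_ne_zero_iff.2 ht.1))
  have hmm : m' = m := by
    by_contra hne
    refine mono_norm_ne (C := C) (norm_pos_iff.2 ht.1) ht.2 (x := al) (y := c0) hc0 hne ?_
    rw [← hnξ, ← hwr, hcm, zpow_natCast]
    push_cast
    rw [hwr, hwr, hn]
  subst hmm
  rw [zpow_natCast] at hnξ hnear
  -- the local degree
  let jE : C →+* E := (algebraMap (RatFunc C) E).comp (algebraMap C (RatFunc C))
  have hjE : ∀ c, j c = algebraMap E L (jE c) := by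
    intro c
    change κ (algebraMap C K c) = algebraMap E L (algebraMap (RatFunc C) E (algebraMap C (RatFunc C) c))
    rw [← hκ, ← IsScalarTower.algebraMap_apply]
  have hξE : algebraMap E L (algebraMap (RatFunc C) E (RatFunc.X - algebraMap C (RatFunc C) a)) =
      κ ξ := by
    rw [← hκ, map_sub (algebraMap (RatFunc C) K), ← IsScalarTower.algebraMap_apply]
  have hdeg : Module.finrank E L ≤ m :=
    finrank_le3 k jE hjE hj ht hd (algebraMap (RatFunc C) E (RatFunc.X - algebraMap C (RatFunc C) a))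
      hal hm hθ1 (by rw [hξE]; exact hnear)
  -- generators of `K`
  let b := Module.finBasis (RatFunc C) K
  let S : Finset K := insert XK (Finset.univ.image b)
  have hS : IntermediateField.adjoin C (S : Set K) = ⊤ := by
    rw [eq_top_iff]
    rintro z -
    have h1 : ∀ s ∈ S, s ∈ IntermediateField.adjoin C (S : Set K) := fun s hs =>
      IntermediateField.subset_adjoin C _ hs
    exact subfield_top (IntermediateField.adjoin C (S : Set K)).toSubfield
      (fun c => (IntermediateField.adjoin C (S : Set K)).algebraMap_mem c)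
      (h1 XK (Finset.mem_insert_self _ _)) b
      (fun i => h1 (b i) (Finset.mem_insert_of_mem
        (Finset.mem_image_of_mem b (Finset.mem_univ i)))) z
  exact exists_out3 hj κ hjκ ht (fun z => (hall z).2) S hS rfl hm hal hθ1 hnξ hev hdeg

end Loc

end Crest.Agent.R013.Spread3_260
end
end

-- ▼ part R013/Spt9_260
section

/-! # R013 / Spt9_260 : (SPR3) an annulus around a point of type 3 is good. -/

set_option autoImplicit false
set_option linter.unusedSectionVars false
set_option linter.style.haveILetI false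

noncomputable section

namespace Crest.Agent.R013.Spread3_260

open Filter Topology Module TensorProduct
open Crest.Agent.R013.Cell_408 (FinDef DiscNorm BD)
open Crest.Agent.R013.EE809 Crest.Agent.R013.CAn_243 Crest.Agent.R013.Good_408
open Crest.Agent.R013 Crest.Agent.R013.StabF_83
open scoped NNReal

universe u

/-- the local fields of `K` over a complete field `E` in which `F` is dense -/
theorem exists_loc_aux (F E K : Type u) [Field F] [NontriviallyNormedField E] [CompleteSpace E]
    [IsUltrametricDist E] [Algebra F E] [Field K] [Algebra F K] [FiniteDimensional F K]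
    [Algebra.IsSeparable F K] (hd : DenseRange (algebraMap F E)) :
    ∃ (N : ℕ) (L : Fin N → Type u) (_ : ∀ i, Field (L i))
      (_ : ∀ i, Algebra E (L i)) (_ : ∀ i, FiniteDimensional E (L i)) (κ : ∀ i, K →+* L i),
      (∀ i f, κ i (algebraMap F K f) = algebraMap E (L i) (algebraMap F E f)) ∧
      (∀ i (y : L i) (ε : ℝ≥0), 0 < ε → ∃ z : K, sv E (L i) (κ i z - y) < ε) ∧
      ∑ i, Module.finrank E (L i) = Module.finrank F K ∧
      ∀ (b : Fin N → K) (ε : ℝ≥0), 0 < ε → ∃ y : K, ∀ i, sv E (L i) (κ i (y - b i)) < ε := by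
  classical
  obtain ⟨I, hI, L, i1, i2, i3, ⟨e⟩⟩ := exists_dec F E K
  let δ := Fintype.equivFin I
  refine ⟨Fintype.card I, fun i => L (δ.symm i), fun i => i1 _, fun i => i2 _, fun i => i3 _,
    fun i => ((Pi.evalRingHom L (δ.symm i)).comp (e : E ⊗[F] K →+* ∀ i, L i)).comp
      (Algebra.TensorProduct.includeRight : K →ₐ[F] E ⊗[F] K).toRingHom,
    fun i f => e_algebraMap e _ f, fun i y ε hε => dec_dense e hd _ y ε hε, ?_, fun b ε hε => ?_⟩
  · rw [← dec_sum e]
    exact Equiv.sum_comp δ.symm fun i => Module.finrank E (L i)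
  · obtain ⟨y, hy⟩ := approx e hd (fun i => b (δ i)) ε hε
    refine ⟨y, fun i => ?_⟩
    have h1 := hy (δ.symm i)
    rw [Equiv.apply_symm_apply] at h1
    exact h1

variable {k : Type*} {C K : Type u} [NontriviallyNormedField k] [CompleteSpace k]
  [IsUltrametricDist k]
  [NormedField C] [IsUltrametricDist C] [NormedAlgebra k C] [Algebra.IsAlgebraic k C]
  [IsAlgClosed C] [CharZero C] [hk : Fact (DiscNorm k)]
  [Field K] [Algebra C K] [Algebra (RatFunc C) K] [IsScalarTower C (RatFunc C) K]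
  [FiniteDimensional (RatFunc C) K]

variable (k) in
/-- `loc3` for a finite extension `L` of `E` with the spectral norm -/
theorem loc3' {E L : Type*} [NontriviallyNormedField E] [CompleteSpace E] [IsUltrametricDist E]
    [Algebra (RatFunc C) E] [Field L] [Algebra E L] [FiniteDimensional E L]
    {w0 : Valuation (RatFunc C) ℝ≥0} (hw : ∀ f, ‖algebraMap (RatFunc C) E f‖₊ = w0 f)
    (hw0 : ∀ c, w0 (RatFunc.C c) = ‖c‖₊) (κ : K →+* L)
    (hκ : ∀ f : RatFunc C, κ (algebraMap (RatFunc C) K f) = algebraMap E L (algebraMap (RatFunc C) E f))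
    (hdense : ∀ y : L, ∀ ε : ℝ≥0, 0 < ε → ∃ z : K, sv E L (κ z - y) < ε)
    {p : ℕ} (hp : p.Prime) (hp1 : ‖(p : C)‖ < 1)
    (a : C) (ha : ∀ c : C, w0 (RatFunc.X - RatFunc.C a) ≠ ‖c‖₊) :
    Nonempty (Out3 k C (fun z => ((sv E L (κ z) : ℝ≥0) : ℝ))
      (algebraMap (RatFunc C) K RatFunc.X - algebraMap C K a)
      (w0 (RatFunc.X - RatFunc.C a) : ℝ) (Module.finrank E L)) := by
  letI nf : NormedField L := spectralNorm.normedField E L
  have hnorm : ∀ x : L, ‖x‖ = spectralNorm E L x := fun x => rfl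
  letI na : NormedAlgebra E L :=
    { (inferInstance : Algebra E L) with
      norm_smul_le := fun r x => by
        rw [Algebra.smul_def, norm_mul, hnorm (algebraMap E L r), spectralNorm_extends] }
  haveI : IsUltrametricDist L := by
    apply IsUltrametricDist.isUltrametricDist_of_isNonarchimedean_norm
    exact isNonarchimedean_spectralNorm (K := E) (L := L)
  haveI : CompleteSpace L := FiniteDimensional.complete E L
  have hsv : ∀ x : L, ((sv E L x : ℝ≥0) : ℝ) = ‖x‖ := fun x => coe_sv E L x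
  have hF : ∀ f : RatFunc C, ‖κ (algebraMap (RatFunc C) K f)‖ = w0 f := by
    intro f
    rw [hκ, ← hsv, sv_algebraMap, hw]
  have hX : ∀ c : C, algebraMap (RatFunc C) K RatFunc.X - algebraMap C K c =
      algebraMap (RatFunc C) K (RatFunc.X - RatFunc.C c) := by
    intro c
    rw [map_sub, ← RatFunc.algebraMap_eq_C, ← IsScalarTower.algebraMap_apply]
  have h := loc3 (E := E) k κ hκ (fun y ε hε => by
      obtain ⟨z, hz⟩ := hdense y ⟨ε, hε.le⟩ hε
      refine ⟨z, ?_⟩
      rw [← hsv]
      exact hz)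
    (fun c => by
      rw [IsScalarTower.algebraMap_apply C (RatFunc C) K, hF, RatFunc.algebraMap_eq_C, hw0]
      rfl) hp hp1 a (fun c => by
      rw [hX, hF]
      intro h
      exact ha c (NNReal.coe_injective h))
  have e1 : ‖κ (algebraMap (RatFunc C) K RatFunc.X - algebraMap C K a)‖ =
      w0 (RatFunc.X - RatFunc.C a) := by rw [hX, hF]
  rw [e1] at h
  have e2 : (fun z => ((sv E L (κ z) : ℝ≥0) : ℝ)) = fun z => ‖κ z‖ := funext fun z => hsv (κ z)
  rw [e2]
  exact h

/-- **(SPR3)** -/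
theorem spr3 {p : ℕ} (hp : p.Prime) (hp1 : ‖(p : C)‖ < 1) (v : Valuation C ℝ≥0)
    (hv : ∀ c, v c = ‖c‖₊) : Crest.Agent.R013.SSG_109.Spr3 v (GoodAnn k C K) := by
  classical
  intro w0 hw0v a ha
  have hw0 : ∀ c, w0 (RatFunc.C c) = ‖c‖₊ := fun c => by rw [hw0v, hv]
  have hcastR : CharZero (RatFunc C) :=
    charZero_of_injective_ringHom (algebraMap C (RatFunc C)).injective
  haveI : Algebra.IsSeparable (RatFunc C) K := inferInstance
  -- nontriviality
  obtain ⟨x1, hx1⟩ := NormedField.exists_one_lt_norm k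
  have hnt : ∃ a, 1 < w0 a := ⟨RatFunc.C (algebraMap k C x1), by
    rw [hw0]
    have : ‖algebraMap k C x1‖ = ‖x1‖ := norm_algebraMap' C x1
    exact_mod_cast (this.symm ▸ hx1 : 1 < ‖algebraMap k C x1‖)⟩
  -- the completions
  obtain ⟨E, e1, e2, e3, e4, hd, hn⟩ := StabR_460.exists_completion (RatFunc C) w0 hnt
  obtain ⟨N, L, i1, i2, i3, κ, hκ, hdense, hsum, happ⟩ := exists_loc_aux (RatFunc C) E K hd
  have hout : ∀ i, Nonempty (Out3 k C (fun z => ((sv E (L i) (κ i z) : ℝ≥0) : ℝ))
      (algebraMap (RatFunc C) K RatFunc.X - algebraMap C K a)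
      (w0 (RatFunc.X - RatFunc.C a) : ℝ) (Module.finrank E (L i))) := by
    intro i
    refine loc3' k hn hw0 (κ i) (hκ i) (hdense i) hp hp1 a (fun c => ?_)
    rw [← hv]; exact ha c
  have hr : (0 : ℝ) < w0 (RatFunc.X - RatFunc.C a) := by
    have h1 : w0 (RatFunc.X - RatFunc.C a) ≠ 0 := by
      intro h
      exact ha 0 (by rw [h, map_zero])
    exact_mod_cast pos_iff_ne_zero.2 h1
  have hgood := goodA_of_out3 (k := k) (C := C) (K := K) a
    (r := (w0 (RatFunc.X - RatFunc.C a) : ℝ)) (Fin N)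
    (fun i z => ((sv E (L i) (κ i z) : ℝ≥0) : ℝ))
    (fun i => Module.finrank E (L i)) hsum.symm.le
    (fun i => (hout i).some)
    (fun b δ hδ => by
      obtain ⟨y, hy⟩ := happ b ⟨δ, hδ.le⟩ hδ
      exact ⟨y, fun i => hy i⟩)
  haveI := lx_neBot (C := C) k hr
  obtain ⟨P, hP, hP1, hP2, hP3⟩ := (hgood.and (eventually_lx_ann _)).exists
  have hPσ : P.2 ≠ 0 := by
    intro h
    rw [h, norm_zero] at hP3
    exact absurd hP3 (not_lt.2 hr.le)
  refine ⟨P.1 * P.2, P.2, mul_ne_zero hP1 hPσ, ?_, ?_, ?_⟩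
  · rw [hv]
    have h1 : ((‖P.1 * P.2‖₊ : ℝ≥0) : ℝ) < w0 (RatFunc.X - RatFunc.C a) := by
      rw [coe_nnnorm, norm_mul]; exact hP2
    exact_mod_cast h1
  · rw [hv]
    have h1 : ((w0 (RatFunc.X - RatFunc.C a) : ℝ≥0) : ℝ) < (‖P.2‖₊ : ℝ≥0) := by
      rw [coe_nnnorm]; exact hP3
    exact_mod_cast h1
  · change GoodA k C K (P.1 * P.2 / P.2) (annY k C a P.2)
    rw [mul_div_cancel_right₀ _ hPσ]
    exact hP

end Crest.Agent.R013.Spread3_260
end
end

-- ▼ part R013/Red18_332
section

/-!
# R013 / Red18_332 : the local inputs of semistable reduction (all but type 2 points)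

`inp_of`: 109's `Inp` for the good cells, from the inputs at type 2 points (`DirIn`, `EndIn`);
heredity is 270's `subIn`, type 1 points are 863's `goodDisc`/`goodInf`, type 3 points are 260's
`spr3`, type 4 points are 607's `spr4`.
-/

set_option autoImplicit false
set_option linter.unusedSectionVars false

universe v u

namespace Crest.Agent.R013.Red332

open scoped NNReal
open Crest.Agent.R013.Cell_408 Crest.Agent.R013.Good_408
open Crest.Agent.R013.PL_109 Crest.Agent.R013.LineDec_315
open Crest.Agent.R013.SSG_109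

variable (k : Type v) {C : Type u} (K : Type u) [NontriviallyNormedField k]
    [CompleteSpace k] [IsUltrametricDist k] [NormedField C] [IsUltrametricDist C] [NormedAlgebra k C]
    [Algebra.IsAlgebraic k C] [IsAlgClosed C] [hk : Fact (DiscNorm k)]
    [Field K] [Algebra C K] [Algebra (RatFunc C) K] [IsScalarTower C (RatFunc C) K]
    [FiniteDimensional (RatFunc C) K]

theorem oneIn [CharZero C] : OneIn (GoodDisc k C K) (GoodInf k C K) := by
  refine ⟨fun a => ?_, ?_⟩
  · obtain ⟨r0, h0, h1⟩ := One_863.goodDisc k C K a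
    exact ⟨r0, h0, h1 r0 h0 le_rfl⟩
  · obtain ⟨r0, h0, h1⟩ := One_863.goodInf k C K
    exact ⟨r0, h0, h1 r0 le_rfl⟩

/-- the local inputs, from those at the points of type 2 -/
theorem inp_of [CharZero C] {p : ℕ} (hp : p.Prime) (hp1 : ‖(p : C)‖ < 1)
    (dir : DirIn (nv C) (GoodDisc k C K)) (fin : EndIn (nv C) (GoodAnn k C K)) :
    Inp (nv C) (GoodDisc k C K) (GoodAnn k C K) (GoodInf k C K) where
  sub := Sub_270.subIn k K (nv C) fun _ => rfl
  one := oneIn k K
  dir := dir
  fin := fin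
  spr3 := Spread3_260.spr3 hp hp1 (nv C) fun _ => rfl
  spr4 := Spread_607.spr4 hp hp1 (nv C) fun _ => rfl

end Crest.Agent.R013.Red332
end

-- ▼ part R013/End4_809
section

/-!
# Row 13, leaf SS-END (helper809): the good annulus at the end `X = 0` of the Gauss norm
-/

set_option autoImplicit false
set_option linter.unusedSectionVars false
open Filter Topology
open scoped NNReal
open WithZero
open Crest.Agent.R013.Cell_408 (FinDef DiscNorm exists_max BD)
open Crest.Agent.R013.Red332 hiding od od_C od_mul od_inv od_pow od_one red_sum red_aeval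
open Crest.Agent.R013.RR7_948 Crest.Agent.R013.RR8_948
open Crest.Agent.R013.CAn_243

namespace Crest.Agent.R013.EE809

open Polynomial Module

section rad

variable {k : Type*} [NontriviallyNormedField k] [CompleteSpace k] [IsUltrametricDist k]
variable {C : Type*} [NormedField C] [IsUltrametricDist C] [NormedAlgebra k C]
variable [Algebra.IsAlgebraic k C] [IsAlgClosed C] [hk : Fact (DiscNorm k)]

/-- dominance of the monomial `T ^ m` at the radii close to one -/
theorem eventually_wa {f : EE k C} {m : ℕ} (h : WE f m) (hf : f ∈ Ep k C) :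
    ∀ᶠ ρ in 𝓝[<] (1 : ℝ), ∀ n : ℤ, ‖f.co n‖ * ρ ^ n ≤ ρ ^ m := by
  set a : EE k C := T (1 - (m : ℤ)) * f with ha
  have hco : ∀ n, a.co n = f.co (n - (1 - (m : ℤ))) := fun n => by rw [ha, co_T_mul]
  have haE : a ∈ Ep k C := mul_mem (T_mem_Ep _) hf
  have hG : Ge (endE k C) 1 a := by
    rw [ge_iff]
    refine ⟨fun n => ?_, fun n hn => ?_⟩
    · rw [hco]; exact h.le _
    · rw [hco]; exact h.lt _ (by omega)
  obtain ⟨θ, h1, h2, h3⟩ := eventually_bdd_max haE hG
  have e2 : ∀ᶠ ρ in 𝓝[<] (1 : ℝ), ρ ∈ Set.Ioo (0 : ℝ) 1 := Ioo_mem_nhdsLT one_pos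
  have e3 : ∀ᶠ ρ in 𝓝[<] (1 : ℝ), ρ ∈ Set.Ioo θ 1 := Ioo_mem_nhdsLT h2
  filter_upwards [h3, e2, e3] with ρ h4 h5 h6 n
  have h7 := h4 (n + (1 - (m : ℤ)))
  rw [hco, add_sub_cancel_right, max_eq_left h6.1.le, zpow_add₀ h5.1.ne',
    zpow_sub₀ h5.1.ne', zpow_one, zpow_natCast] at h7
  have h8 : 0 < ρ ^ m := pow_pos h5.1 m
  have h9 : ‖f.co n‖ * (ρ ^ n * (ρ / ρ ^ m)) = ‖f.co n‖ * ρ ^ n * ρ / ρ ^ m := by
    field_simp
  rw [h9, div_le_iff₀ h8, mul_comm ρ (ρ ^ m)] at h7
  exact le_of_mul_le_mul_right h7 h5.1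

theorem eventually_AN {a : EE k C} (ha : a ∈ Ep k C) : ∀ᶠ ρ in 𝓝[<] (1 : ℝ), ∃ M : ℝ, Bdd ρ M a := by
  filter_upwards [eventually_bdd ha (lt_add_one (gn a))] with ρ h
  exact ⟨_, h⟩

theorem tendsto_pow_lt {n : ℕ} (hn : n ≠ 0) :
    Tendsto (fun r : ℝ => r ^ n) (𝓝[<] (1 : ℝ)) (𝓝[<] (1 : ℝ)) := by
  rw [tendsto_nhdsWithin_iff]
  constructor
  · have h : Tendsto (fun r : ℝ => r ^ n) (𝓝 (1 : ℝ)) (𝓝 ((1 : ℝ) ^ n)) :=
      (continuous_pow n).tendsto 1
    rw [one_pow] at h
    exact h.mono_left nhdsWithin_le_nhds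
  · have e2 : ∀ᶠ ρ in 𝓝[<] (1 : ℝ), ρ ∈ Set.Ioo (0 : ℝ) 1 := Ioo_mem_nhdsLT one_pos
    filter_upwards [e2] with ρ h
    exact pow_lt_one₀ h.1.le h.2 hn

theorem exists_norm_near (k : Type*) [NontriviallyNormedField k] {C : Type*} [NormedField C]
    [NormedAlgebra k C] [IsAlgClosed C] {P : ℝ → Prop} (h : ∀ᶠ ρ in 𝓝[<] (1 : ℝ), P ρ) :
    ∃ d : C, d ≠ 0 ∧ ‖d‖ < 1 ∧ P ‖d‖ := by
  obtain ⟨ρ0, h0, h1⟩ := (mem_nhdsLT_iff_exists_Ioo_subset (a := (1 : ℝ))).1 h
  have h0' : ρ0 < 1 := h0
  obtain ⟨x, hx0, hx1⟩ := NormedField.exists_norm_lt_one k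
  obtain ⟨n, hn⟩ := exists_pow_lt_of_lt_one (y := max ρ0 (1 / 2)) hx0 (max_lt h0' (by norm_num))
  have hn0 : n ≠ 0 := by
    rintro rfl
    rw [pow_zero] at hn
    linarith
  obtain ⟨d, hd⟩ := IsAlgClosed.exists_pow_nat_eq (algebraMap k C x) (Nat.pos_of_ne_zero hn0)
  have hd' : ‖d‖ ^ n = ‖x‖ := by rw [← norm_pow, hd, norm_algebraMap']
  have h2 : max ρ0 (1 / 2) < ‖d‖ := by
    by_contra hcon
    have := pow_le_pow_left₀ (norm_nonneg d) (not_lt.1 hcon) n
    linarith
  have h3 : ‖d‖ < 1 := by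
    by_contra hcon
    have := one_le_pow₀ (not_lt.1 hcon) (n := n)
    linarith
  refine ⟨d, ?_, h3, h1 ⟨(le_max_left _ _).trans_lt h2, h3⟩⟩
  rintro rfl
  rw [norm_zero] at h2
  have := le_max_right ρ0 (1 / 2 : ℝ)
  linarith

variable {K : Type*} [Field K] [Algebra C K] [Algebra (RatFunc C) K] [IsScalarTower C (RatFunc C) K]

theorem mem_of_basis (L : IntermediateField C (EE k C)) (φ : K →ₐ[C] EE k C)
    (hx : φ (xK C K) ∈ L) {ι : Type*} [Fintype ι] (b : Basis ι (RatFunc C) K)
    (hb : ∀ i, φ (b i) ∈ L) (a : K) : φ a ∈ L := by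
  have h1 : ∀ r : RatFunc C, φ (algebraMap (RatFunc C) K r) ∈ L := by
    intro r
    have h2 : ∀ p : C[X], φ (algebraMap (RatFunc C) K (algebraMap C[X] (RatFunc C) p)) ∈ L := by
      intro p
      have h3 := hom_poly (φ.comp (IsScalarTower.toAlgHom C (RatFunc C) K)) p
      have h4 : φ (algebraMap (RatFunc C) K (algebraMap C[X] (RatFunc C) p)) =
          aeval (φ (xK C K)) p := h3
      rw [h4, aeval_eq_sum_range]
      exact sum_mem fun i _ => by
        rw [Algebra.smul_def]
        exact mul_mem (L.algebraMap_mem _) (pow_mem hx i)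
    rw [← RatFunc.num_div_denom r, map_div₀, map_div₀]
    exact div_mem (h2 _) (h2 _)
  rw [← b.sum_repr a, map_sum]
  refine sum_mem fun i _ => ?_
  rw [Algebra.smul_def, map_mul]
  exact mul_mem (h1 _) (hb i)

theorem gen_X : Gen C (RatFunc.X : RatFunc C) := by
  intro f
  have h : ∀ p : C[X], aeval (RatFunc.X : RatFunc C) p = algebraMap C[X] (RatFunc C) p := by
    intro p
    have h3 := hom_poly (AlgHom.id C (RatFunc C)) p
    exact h3.symm
  refine ⟨f.num, f.denom, ?_, ?_⟩
  · rw [h, Ne, FaithfulSMul.algebraMap_eq_zero_iff]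
    exact f.denom_ne_zero
  · rw [h, h, RatFunc.num_div_denom]

end rad

section unit

universe u

variable (k : Type*) [NontriviallyNormedField k] [CompleteSpace k] [IsUltrametricDist k]
variable {C : Type u} [NormedField C] [IsUltrametricDist C] [NormedAlgebra k C]
variable [Algebra.IsAlgebraic k C] [IsAlgClosed C] [hk : Fact (DiscNorm k)]

open Crest.Agent.R013.Good_408 in
/-- **the good annulus** at the end `X = 0` of the Gauss norm -/
theorem exists_ann_unit [CharZero C] (p : ℕ) [Fact p.Prime] (hp : ‖(p : C)‖ < 1)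
    (K : Type u) [Field K] [Algebra C K] [Algebra (RatFunc C) K] [IsScalarTower C (RatFunc C) K]
    [FiniteDimensional (RatFunc C) K] :
    ∃ c : C, c ≠ 0 ∧ ‖c‖ < 1 ∧ GoodA k C K c (T 1) := by
  classical
  obtain ⟨E', j1, j2, j3, j4, hd, hE, I, j5, ⟨o⟩⟩ := exists_out k p hp K
  obtain ⟨S⟩ := SAt.ofOut o (endX k C).nm (fun f => (hE f).symm)
  have hX := endX_X (C := C) k
  have hX' := endX_X' (C := C) k
  obtain ⟨T0, e, h1, h2, h3⟩ := S.exists_ends (endX k C) gen_X hX hX'
  have htr : ∀ c : C, 1 ≤ (endX k C).nm (RatFunc.X - algebraMap C (RatFunc C) c) := fun c => by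
    rw [((endX k C).lin_val hX (by rw [hX']; exact one_pos) c).1]
    exact le_max_left _ _
  have hff : ∀ s : T0, FF s.1.1 := fun s => S.ff gen_X hX htr s.1.1 (fun f => (h1 s.1 s.2).nm f)
  -- the index type
  let en0 : Fin T0.card ≃ T0 := T0.equivFin.symm
  have hff' : ∀ j, FF (en0 j).1.1 := fun j => hff (en0 j)
  choose ψ hψE hψn hψo using fun j : Fin T0.card =>
    exists_emb_end k p hp (K := K) (en0 j).1.1 (hff' j) (en0 j).1.2
  let m : Fin T0.card → ℕ := fun j => e (en0 j).1
  have hov : ∀ j, Over (endX k C) (ofPl (en0 j).1.1 (en0 j).1.2) (m j) := fun j => h1 _ (en0 j).2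
  have hm : ∀ j, m j ≠ 0 := fun j => Nat.one_le_iff_ne_zero.1 (hov j).pos
  let f : Fin T0.card → EE k C := fun j => ψ j (xK C K)
  have hx1 : ∀ j, (en0 j).1.1.v (xK C K) = 1 := fun j => by
    have := (hov j).nm RatFunc.X
    rw [hX] at this
    exact this
  have hx0 : xK C K ≠ 0 := by
    intro h0
    have h1 : (RatFunc.X : RatFunc C) = 0 :=
      (algebraMap (RatFunc C) K).injective (by rw [map_zero]; exact h0)
    exact RatFunc.X_ne_zero h1
  have hwe : ∀ j, WE (f j) (m j) := by
    intro j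
    refine WE.of (gv_eq_one.1 ((hψn j _).trans (hx1 j))) ?_
    rw [hψo j _ hx0]
    have := (hov j).od RatFunc.X RatFunc.X_ne_zero
    rw [hX', mul_one] at this
    exact this
  -- the family
  let W : Finset (Nm C K) := T0.image Sigma.fst
  let w : W → Nm C K := fun i => i.1
  let en : Fin T0.card → Σ i : W, Pl (Ct C) (kap (w i)) := fun j =>
    ⟨⟨(en0 j).1.1, Finset.mem_image_of_mem _ (en0 j).2⟩, (en0 j).1.2⟩
  have hen : Function.Injective en := by
    intro j j' h
    apply en0.injective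
    apply Subtype.ext
    have h4 := congrArg (fun t : (Σ i : W, Pl (Ct C) (kap (w i))) =>
      (⟨t.1.1, t.2⟩ : Red332.End C K)) h
    exact h4
  obtain ⟨d0, hd0, hd1, -⟩ := exists_norm_near k (C := C) (P := fun _ => True)
    (Filter.Eventually.of_forall fun _ => trivial)
  have happ := approx_of_inj w (fun i j h => Subtype.ext h)
    ⟨d0, by rwa [Ne, nnnorm_eq_zero], fun h => by
      have := congrArg NNReal.toReal h
      rw [coe_nnnorm, NNReal.coe_one] at this
      linarith⟩
  obtain ⟨z, z1, z2, z3⟩ := exists_family w (fun i => by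
    obtain ⟨s, hs, hs'⟩ := Finset.mem_image.1 i.2
    have h5 : FF s.1 := hff ⟨s, hs⟩
    have h6 : FF (w i) := by
      show FF i.1
      rw [← hs']; exact h5
    exact h6) happ m en hen
  have zz1 : ∀ q : (Σ j, Fin (m j)), gn (ψ q.1 (z q)) = 1 := fun q =>
    gv_eq_one.1 ((hψn _ _).trans (z1 q))
  have hz0 : ∀ q j, (en0 j).1.1.v (z q) = 1 → z q ≠ 0 := by
    intro q j h h0
    rw [h0, map_zero] at h
    exact zero_ne_one h
  have zz2 : ∀ q : (Σ j, Fin (m j)), od (ψ q.1 (z q)) = ((q.2 : ℕ) : ℤ) := fun q =>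
    (hψo _ _ (hz0 q q.1 (z1 q))).trans (z2 q)
  have zz3 : ∀ (q : (Σ j, Fin (m j))) (j : Fin T0.card), j ≠ q.1 → gn (ψ j (z q)) < 1 ∨
      (gn (ψ j (z q)) = 1 ∧ (m j : ℤ) ≤ od (ψ j (z q))) := by
    intro q j hj
    rcases z3 q j hj with h | h
    · left
      rw [← gv_lt_one, hψn]
      exact h
    · right
      refine ⟨gv_eq_one.1 ((hψn _ _).trans h.1), ?_⟩
      rw [hψo _ _ (hz0 q j h.1)]
      exact h.2
  -- the degree
  have hy : Transcendental C (T 1 : EE k C) := transc_T
  have hxio : ∀ j, ψ j (algebraMap (RatFunc C) K RatFunc.X) = compE (f j) (hwe j) (hm j) (T 1) := by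
    intro j
    rw [compE_T_one]
    rfl
  have hInj := inj_ends (K := K) (Fin T0.card) m f hwe hm ψ z zz1 zz2 zz3
  have hli : LinearIndependent (RatFunc C) z := by
    rw [Fintype.linearIndependent_iff]
    intro r hr
    have h4 := hInj (fun q => Good_408.ratHom (T 1) hy (r q)) (fun j => by
      change ∑ q, compE (f j) (hwe j) (hm j) (Good_408.ratHom (T 1) hy (r q)) * ψ j (z q) = 0
      have h5 := congrArg (ψ j) hr
      rw [map_zero, map_sum] at h5
      rw [← h5]
      refine Finset.sum_congr rfl fun q _ => ?_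
      rw [commE hy hxio, Algebra.smul_def, map_mul])
    intro q
    exact (map_eq_zero (Good_408.ratHom (T 1) hy)).1 (congrFun h4 q)
  have hsum : ∑ j, m j = finrank (RatFunc C) K := by
    apply le_antisymm
    · have h5 := hli.fintype_card_le_finrank
      rw [Fintype.card_sigma] at h5
      simpa using h5
    · refine h3.trans (le_of_eq ?_)
      rw [← Finset.sum_coe_sort T0 e]
      exact (en0.sum_comp (fun s : T0 => e s.1)).symm
  -- the radii
  let b := Module.finBasis (RatFunc C) K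
  let N : ℕ := ∏ j, m j
  have hN : N ≠ 0 := Finset.prod_ne_zero_iff.2 fun j _ => hm j
  let n : Fin T0.card → ℕ := fun j => N / m j
  have hmn : ∀ j, m j * n j = N := fun j => Nat.mul_div_cancel' (Finset.dvd_prod_of_mem m (Finset.mem_univ j))
  have hn : ∀ j, n j ≠ 0 := by
    intro j h0
    have := hmn j
    rw [h0, mul_zero] at this
    exact hN this.symm
  have hev : ∀ᶠ r in 𝓝[<] (1 : ℝ), ∀ j, (∀ i : ℤ, ‖(f j).co i‖ * (r ^ n j) ^ i ≤ (r ^ n j) ^ m j) ∧
      (∃ M : ℝ, Bdd (r ^ n j) M (f j)) ∧ ∀ i, ∃ M : ℝ, Bdd (r ^ n j) M (ψ j (b i)) := by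
    rw [Filter.eventually_all]
    intro j
    have e1 := (tendsto_pow_lt (hn j)).eventually (eventually_wa (hwe j) (hψE j _))
    have e2 := (tendsto_pow_lt (hn j)).eventually (eventually_AN (hψE j (xK C K)))
    have e3 := (tendsto_pow_lt (hn j)).eventually (Filter.eventually_all.2 fun i =>
      eventually_AN (hψE j (b i)))
    filter_upwards [e1, e2, e3] with r a1 a2 a3
    exact ⟨a1, a2, a3⟩
  obtain ⟨d, hd0, hd1, hd2⟩ := exists_norm_near k (C := C) hev
  have hcn : ‖d ^ N‖ < 1 := by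
    rw [norm_pow]
    exact pow_lt_one₀ (norm_nonneg _) hd1 hN
  refine ⟨d ^ N, pow_ne_zero _ hd0, hcn, ?_⟩
  refine GoodA.mk_res (pow_ne_zero _ hd0) hcn (T 1) hy (AN_le_FA _ (T_mem_AN _ 1)) (Fin T0.card) m hm
    (fun j => d ^ n j) (fun j => ?_) f hwe (fun j i => ?_) ψ (fun j a => ?_) hxio hsum z zz1 zz2 zz3
  · rw [norm_pow, norm_pow, ← pow_mul, mul_comm, hmn]
  · rw [norm_pow]
    exact (hd2 j).1 i
  · refine mem_of_basis (FA k (d ^ n j)) (ψ j) (AN_le_FA _ ?_) b (fun i => AN_le_FA _ ?_) a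
    · obtain ⟨M, hM⟩ := (hd2 j).2.1
      exact ⟨M, by rw [norm_pow]; exact hM⟩
    · obtain ⟨M, hM⟩ := (hd2 j).2.2 i
      exact ⟨M, by rw [norm_pow]; exact hM⟩

end unit

end Crest.Agent.R013.EE809
end

-- ▼ part R013/End5_809
section

/-!
# Row 13, leaf SS-END (helper809): flip and change of coordinate of good annuli;
annuli at all directions of all type 2 points of the line (`EndIn` of `SSG1_109`)
-/

set_option autoImplicit false
set_option linter.unusedSectionVars false
open Filter Topology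
open scoped NNReal
open WithZero
open Crest.Agent.R013.Cell_408 (FinDef DiscNorm exists_max BD)
open Crest.Agent.R013.CAn_243 Crest.Agent.R013.Good_408

namespace Crest.Agent.R013.EE809

open Polynomial Module

section flip

variable {k : Type*} [NontriviallyNormedField k] [CompleteSpace k] [IsUltrametricDist k]
variable {C : Type*} [NormedField C] [IsUltrametricDist C] [NormedAlgebra k C]
variable [Algebra.IsAlgebraic k C] [IsAlgClosed C] [hk : Fact (DiscNorm k)]
variable {K : Type*} [Field K] [Algebra C K] [Algebra (RatFunc C) K] [IsScalarTower C (RatFunc C) K]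
variable [FiniteDimensional (RatFunc C) K]

open Crest.Agent.R013.Red332 in
/-- **flip** of a good annulus -/
noncomputable def flipCells {c : C} {y : EE k C} (D : ACells k C K c y) :
    ACells k C K c (flipF c D.c_ne D.c_lt ⟨y, D.hy⟩ : FA k c) where
  c_ne := D.c_ne
  c_lt := D.c_lt
  hy := (flipF c D.c_ne D.c_lt ⟨y, D.hy⟩ : FA k c).2
  J := D.J
  fJ := D.fJ
  m := D.m
  m_ne := D.m_ne
  c' := D.c'
  hc' := D.hc'
  f := fun j => inn c (D.c' j) (D.f j)
  we := fun j => ((wa_of D j).inn (D.c'_ne j) (D.c'_lt j) (D.hc' j)).we (D.c'_ne j) (D.c'_lt j)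
  wa := fun j n => by
    have h := ((wa_of D j).inn (D.c'_ne j) (D.c'_lt j) (D.hc' j)).leA n
    rwa [zpow_natCast] at h
  io := io1A D
  io_mem := fun j a =>
    (flipF (D.c' j) (D.c'_ne j) (D.c'_lt j) (ioA D j a) : FA k (D.c' j)).2
  hx := fun j => by
    rw [← flipF_phA D j ⟨y, D.hy⟩]
    have h : ioA D j (algebraMap (RatFunc C) K RatFunc.X) = phA D j ⟨y, D.hy⟩ :=
      Subtype.ext (D.hx' j)
    rw [← h]
    rfl
  sum_m := D.sum_m
  inj := fun n b hb e he h0 => by
    have h1 : ∀ i, (flipF c D.c_ne D.c_lt (flipF c D.c_ne D.c_lt ⟨e i, he i⟩) : FA k c) =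
        ⟨e i, he i⟩ := fun i => flipF_flipF _ _ _ _
    have h2 : (fun i => flipF c D.c_ne D.c_lt ⟨e i, he i⟩) = (0 : Fin n → FA k c) := by
      refine injA D n b hb _ fun j => ?_
      have h3 : Function.Injective (flipF (D.c' j) (D.c'_ne j) (D.c'_lt j) (k := k)) :=
        (flipF (D.c' j) (D.c'_ne j) (D.c'_lt j)).toRingHom.injective
      apply h3
      apply Subtype.ext
      rw [map_zero, map_sum]
      have h4 := h0 j
      rw [ZeroMemClass.coe_zero, ← h4]
      have h5 := map_sum (FA k (D.c' j)).val (fun i => flipF (D.c' j) (D.c'_ne j) (D.c'_lt j)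
        (phA D j (flipF c D.c_ne D.c_lt ⟨e i, he i⟩) * ioA D j (b i))) Finset.univ
      refine h5.trans (Finset.sum_congr rfl fun i _ => ?_)
      have h6 := flipF_phA D j (flipF c D.c_ne D.c_lt ⟨e i, he i⟩)
      rw [h1 i] at h6
      rw [map_mul, map_mul]
      congr 1
    funext i
    have h7 := congrArg (flipF c D.c_ne D.c_lt) (congrFun h2 i)
    rw [Pi.zero_apply, map_zero, h1 i] at h7
    exact congrArg Subtype.val h7

theorem GoodA.flip {c : C} {y : EE k C} (h : GoodA k C K c y) {y' : EE k C}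
    (hy' : ∀ (hc0 : c ≠ 0) (hc1 : ‖c‖ < 1) (hy : y ∈ FA k c),
      (flipF c hc0 hc1 ⟨y, hy⟩ : EE k C) = y') : GoodA k C K c y' := by
  obtain ⟨D⟩ := h
  rw [← hy' D.c_ne D.c_lt D.hy]
  exact ⟨flipCells D⟩

end flip

section change

variable {k : Type*} [NontriviallyNormedField k] [CompleteSpace k] [IsUltrametricDist k]
variable {C : Type*} [NormedField C] [IsUltrametricDist C] [NormedAlgebra k C]
variable [Algebra.IsAlgebraic k C] [IsAlgClosed C] [hk : Fact (DiscNorm k)]

/-- **change of the coordinate of the line** -/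
theorem GoodA.change {K : Type*} [Field K] [Algebra C K] (i1 i2 : Algebra (RatFunc C) K)
    (t1 : @IsScalarTower C (RatFunc C) K _ i1.toSMul _)
    (t2 : @IsScalarTower C (RatFunc C) K _ i2.toSMul _)
    (f2 : @FiniteDimensional (RatFunc C) K _ _ i2.toModule)
    (σ : RatFunc C ≃+* RatFunc C)
    (hσ : ∀ f, @algebraMap _ _ _ _ i2 (σ f) = @algebraMap _ _ _ _ i1 f) {c : C} {y y1 : EE k C}
    (D : @GoodA k C _ _ _ _ _ _ _ _ _ K _ _ i2 t2 c y) (hy : Transcendental C y)
    (hy1 : y1 = Good_408.ratHom y hy (σ RatFunc.X)) :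
    @GoodA k C _ _ _ _ _ _ _ _ _ K _ _ i1 t1 c y1 := by
  obtain ⟨D⟩ := D
  have hi : ∀ r, @ACells.i k C _ _ _ _ _ _ _ _ _ K _ _ i2 t2 c y f2 D r = Good_408.ratHom y hy r :=
    fun r => rfl
  have hmem := @ACells.i_mem k C _ _ _ _ _ _ _ _ _ K _ _ i2 t2 c y f2 D (σ RatFunc.X)
  have hcomm := fun j => @ACells.comm k C _ _ _ _ _ _ _ _ _ K _ _ i2 t2 c y f2 D j (σ RatFunc.X)
  rw [hi, ← hy1] at hmem
  have hli : ∀ (n : ℕ) (b : Fin n → K), @LinearIndependent (Fin n) (RatFunc C) K b _ _ i1.toModule →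
      @LinearIndependent (Fin n) (RatFunc C) K b _ _ i2.toModule := by
    intro n b hb
    rw [@Fintype.linearIndependent_iff (Fin n) (RatFunc C) K _ _ i1.toModule b _] at hb
    rw [@Fintype.linearIndependent_iff (Fin n) (RatFunc C) K _ _ i2.toModule b _]
    intro g hg i
    have h1 := hb (fun i => σ.symm (g i)) (by
      rw [← hg]
      refine Finset.sum_congr rfl fun i _ => ?_
      rw [@Algebra.smul_def _ _ _ _ i1, @Algebra.smul_def _ _ _ _ i2, ← hσ, σ.apply_symm_apply]) i
    have h2 := congrArg σ h1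
    rwa [σ.apply_symm_apply, map_zero] at h2
  have hfr : @finrank (RatFunc C) K _ _ i1.toModule = @finrank (RatFunc C) K _ _ i2.toModule := by
    refine @Algebra.finrank_eq_of_equiv_equiv (RatFunc C) K _ _ i1 (RatFunc C) K _ _ i2 σ
      (RingEquiv.refl K) ?_
    ext f
    exact hσ f
  refine ⟨@ACells.mk k C _ _ _ _ _ _ _ _ _ K _ _ i1 t1 c y1 D.c_ne D.c_lt hmem D.J D.fJ D.m D.m_ne
    D.c' D.hc' D.f D.we D.wa D.io D.io_mem (fun j => ?_) (hfr ▸ D.sum_m)
    (fun n b hb => D.inj n b (hli n b hb))⟩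
  have h := hcomm j
  rw [hi, ← hy1, hσ] at h
  exact h.symm

/-- the automorphism `X ↦ u` of `C(X)` with inverse `X ↦ v` -/
noncomputable def sgm {F : Type*} [Field F] {u v : RatFunc F} (hu : Transcendental F u)
    (hv : Transcendental F v) (huv : RR20_948.ratHom u hu v = RatFunc.X)
    (hvu : RR20_948.ratHom v hv u = RatFunc.X) : RatFunc F ≃ₐ[F] RatFunc F :=
  AlgEquiv.ofAlgHom (RR20_948.ratHom u hu) (RR20_948.ratHom v hv)
    (by
      have h : ((RR20_948.ratHom u hu).comp (RR20_948.ratHom v hv)).toRingHom =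
          (AlgHom.id F (RatFunc F)).toRingHom := by
        refine rat_ext (fun c => ?_) ?_
        · exact ((RR20_948.ratHom u hu).comp (RR20_948.ratHom v hv)).commutes c
        · show RR20_948.ratHom u hu (RR20_948.ratHom v hv RatFunc.X) = RatFunc.X
          rw [RR20_948.ratHom_X, huv]
      exact AlgHom.ext fun f => DFunLike.congr_fun h f)
    (by
      have h : ((RR20_948.ratHom v hv).comp (RR20_948.ratHom u hu)).toRingHom =
          (AlgHom.id F (RatFunc F)).toRingHom := by
        refine rat_ext (fun c => ?_) ?_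
        · exact ((RR20_948.ratHom v hv).comp (RR20_948.ratHom u hu)).commutes c
        · show RR20_948.ratHom v hv (RR20_948.ratHom u hu RatFunc.X) = RatFunc.X
          rw [RR20_948.ratHom_X, hvu]
      exact AlgHom.ext fun f => DFunLike.congr_fun h f)

theorem sgm_comp {F : Type*} [Field F] {K : Type*} [Field K] [Algebra F K] [Algebra (RatFunc F) K]
    [IsScalarTower F (RatFunc F) K] {u v : RatFunc F} (hu : Transcendental F u)
    (hv : Transcendental F v) (huv : RR20_948.ratHom u hu v = RatFunc.X)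
    (hvu : RR20_948.ratHom v hv u = RatFunc.X)
    (htr : Transcendental F (algebraMap (RatFunc F) K v)) (f : RatFunc F) :
    RR20_948.ratHom (algebraMap (RatFunc F) K v) htr (sgm hu hv huv hvu f) =
      algebraMap (RatFunc F) K f := by
  have h : ((RR20_948.ratHom (algebraMap (RatFunc F) K v) htr).comp
      (sgm hu hv huv hvu : RatFunc F →ₐ[F] RatFunc F)).toRingHom = algebraMap (RatFunc F) K := by
    have h0 : (RR20_948.ratHom (algebraMap (RatFunc F) K v) htr).toRingHom =
        (algebraMap (RatFunc F) K).comp (RR20_948.ratHom v hv).toRingHom := by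
      refine rat_ext (fun c => ?_) ?_
      · show RR20_948.ratHom (algebraMap (RatFunc F) K v) htr (algebraMap F (RatFunc F) c) =
          algebraMap (RatFunc F) K (RR20_948.ratHom v hv (algebraMap F (RatFunc F) c))
        rw [AlgHom.commutes, AlgHom.commutes, ← IsScalarTower.algebraMap_apply]
      · show RR20_948.ratHom (algebraMap (RatFunc F) K v) htr RatFunc.X =
          algebraMap (RatFunc F) K (RR20_948.ratHom v hv RatFunc.X)
        rw [RR20_948.ratHom_X, RR20_948.ratHom_X]
    refine rat_ext (fun c => ?_) ?_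
    · show RR20_948.ratHom (algebraMap (RatFunc F) K v) htr
        (sgm hu hv huv hvu (algebraMap F (RatFunc F) c)) = _
      rw [AlgEquiv.commutes, AlgHom.commutes, ← IsScalarTower.algebraMap_apply]
    · show (RR20_948.ratHom (algebraMap (RatFunc F) K v) htr).toRingHom
        (RR20_948.ratHom u hu RatFunc.X) = _
      rw [h0, RR20_948.ratHom_X]
      show algebraMap (RatFunc F) K (RR20_948.ratHom v hv u) = _
      rw [hvu]
  exact DFunLike.congr_fun h f

/-- change of the coordinate `X ↦ v` with inverse `X ↦ u` -/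
theorem GoodA.of_coord {K : Type*} [Field K] [Algebra C K] [i1 : Algebra (RatFunc C) K]
    [t1 : IsScalarTower C (RatFunc C) K] [f1 : FiniteDimensional (RatFunc C) K]
    {u v : RatFunc C} (hu : Transcendental C u)
    (hv : Transcendental C v) (huv : RR20_948.ratHom u hu v = RatFunc.X)
    (hvu : RR20_948.ratHom v hv u = RatFunc.X)
    (htr : Transcendental C (algebraMap (RatFunc C) K v)) {c : C} {y y1 : EE k C}
    (D : @GoodA k C _ _ _ _ _ _ _ _ _ K _ _ (RR20_948.ratAlg _ htr) (RR20_948.ratAlg_tower _ htr)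
      c y)
    (hy : Transcendental C y) (hy1 : y1 = Good_408.ratHom y hy u) : GoodA k C K c y1 :=
  GoodA.change i1 (RR20_948.ratAlg _ htr) t1 (RR20_948.ratAlg_tower _ htr)
    (RR20_948.ratAlg_finite _ htr) (sgm hu hv huv hvu).toRingEquiv
    (fun f => sgm_comp hu hv huv hvu htr f) D hy (by
      rw [hy1]
      congr 1
      show u = RR20_948.ratHom u hu RatFunc.X
      rw [RR20_948.ratHom_X])

end change

section fin

universe u

variable (k : Type*) [NontriviallyNormedField k] [CompleteSpace k] [IsUltrametricDist k]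
variable {C : Type u} [NormedField C] [IsUltrametricDist C] [NormedAlgebra k C]
variable [Algebra.IsAlgebraic k C] [IsAlgClosed C] [hk : Fact (DiscNorm k)]
variable (K : Type u) [Field K] [Algebra C K] [Algebra (RatFunc C) K] [IsScalarTower C (RatFunc C) K]
variable [FiniteDimensional (RatFunc C) K]

theorem transc_K {v : RatFunc C} (hv : Transcendental C v) :
    Transcendental C (algebraMap (RatFunc C) K v) := fun h =>
  hv ((isAlgebraic_algebraMap_iff (algebraMap (RatFunc C) K).injective).1 h)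

/-- annuli towards the inside -/
theorem exists_ann_inner [CharZero C] (p : ℕ) [Fact p.Prime] (hp : ‖(p : C)‖ < 1) (a ρ : C)
    (hρ : ρ ≠ 0) : ∃ c : C, c ≠ 0 ∧ ‖c‖ < 1 ∧ GoodA k C K c (annY k C a ρ) := by
  set A : C →+* RatFunc C := algebraMap C (RatFunc C) with hA
  have hA0 : A ρ ≠ 0 := by rw [Ne, map_eq_zero]; exact hρ
  have hAi : A ρ⁻¹ = (A ρ)⁻¹ := map_inv₀ _ _
  let u : RatFunc C := A a + A ρ * RatFunc.X
  let v : RatFunc C := (RatFunc.X - A a) * A ρ⁻¹
  have hu : Transcendental C u := by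
    intro h
    apply RatFunc.transcendental_X (K := C)
    have e : (RatFunc.X : RatFunc C) = (u - A a) * A ρ⁻¹ := by
      rw [hAi]; simp only [u]; field_simp; ring
    rw [e]
    exact (h.sub (isAlgebraic_algebraMap a)).mul (isAlgebraic_algebraMap ρ⁻¹)
  have hv : Transcendental C v := by
    intro h
    apply RatFunc.transcendental_X (K := C)
    have e : (RatFunc.X : RatFunc C) = A a + v * A ρ := by
      simp only [v]; rw [hAi]; field_simp; ring
    rw [e]
    exact (isAlgebraic_algebraMap a).add (h.mul (isAlgebraic_algebraMap ρ))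
  have huv : RR20_948.ratHom u hu v = RatFunc.X := by
    simp only [v]
    rw [map_mul, map_sub, RR20_948.ratHom_X, AlgHom.commutes, AlgHom.commutes, ← hA, hAi]
    simp only [u]; field_simp; ring
  have hvu : RR20_948.ratHom v hv u = RatFunc.X := by
    simp only [u]
    rw [map_add, map_mul, RR20_948.ratHom_X, AlgHom.commutes, AlgHom.commutes, ← hA]
    simp only [v]; rw [hAi]; field_simp; ring
  have htr := transc_K K hv
  obtain ⟨c, hc0, hc1, hg⟩ := @exists_ann_unit k _ _ _ C _ _ _ _ _ _ _ p _ hp K _ _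
    (RR20_948.ratAlg _ htr) (RR20_948.ratAlg_tower _ htr) (RR20_948.ratAlg_finite _ htr)
  refine ⟨c, hc0, hc1, GoodA.of_coord hu hv huv hvu htr hg transc_T ?_⟩
  simp only [u]
  rw [map_add, map_mul, AlgHom.commutes, AlgHom.commutes, Good_408.ratHom_X]
  rfl

/-- annuli towards the outside -/
theorem exists_ann_outer [CharZero C] (p : ℕ) [Fact p.Prime] (hp : ‖(p : C)‖ < 1) (a ρ : C)
    (hρ : ρ ≠ 0) : ∃ c : C, c ≠ 0 ∧ ‖c‖ < 1 ∧ GoodA k C K c (annY k C a (ρ / c)) := by
  set A : C →+* RatFunc C := algebraMap C (RatFunc C) with hA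
  have hA0 : A ρ ≠ 0 := by rw [Ne, map_eq_zero]; exact hρ
  have hX0 : (RatFunc.X : RatFunc C) ≠ 0 := RatFunc.X_ne_zero
  have hXa : (RatFunc.X - A a : RatFunc C) ≠ 0 := by
    intro h
    apply RatFunc.transcendental_X (K := C)
    rw [sub_eq_zero.1 h]
    exact isAlgebraic_algebraMap a
  let u : RatFunc C := A a + A ρ * RatFunc.X⁻¹
  let v : RatFunc C := A ρ * (RatFunc.X - A a)⁻¹
  have hu : Transcendental C u := by
    intro h
    apply RatFunc.transcendental_X (K := C)
    have e : (RatFunc.X : RatFunc C) = (u - A a)⁻¹ * A ρ := by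
      simp only [u]; rw [add_sub_cancel_left]; field_simp
    rw [e]
    exact (h.sub (isAlgebraic_algebraMap a)).inv.mul (isAlgebraic_algebraMap ρ)
  have hv : Transcendental C v := by
    intro h
    apply RatFunc.transcendental_X (K := C)
    have e : (RatFunc.X : RatFunc C) = A a + v⁻¹ * A ρ := by
      simp only [v]; field_simp; ring
    rw [e]
    exact (isAlgebraic_algebraMap a).add (h.inv.mul (isAlgebraic_algebraMap ρ))
  have huv : RR20_948.ratHom u hu v = RatFunc.X := by
    simp only [v]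
    rw [map_mul, map_inv₀, map_sub, RR20_948.ratHom_X, AlgHom.commutes, AlgHom.commutes, ← hA]
    simp only [u]; rw [add_sub_cancel_left]; field_simp
  have hvu : RR20_948.ratHom v hv u = RatFunc.X := by
    simp only [u]
    rw [map_add, map_mul, map_inv₀, RR20_948.ratHom_X, AlgHom.commutes, AlgHom.commutes, ← hA]
    simp only [v]; field_simp; ring
  have htr := transc_K K hv
  obtain ⟨c, hc0, hc1, hg⟩ := @exists_ann_unit k _ _ _ C _ _ _ _ _ _ _ p _ hp K _ _
    (RR20_948.ratAlg _ htr) (RR20_948.ratAlg_tower _ htr) (RR20_948.ratAlg_finite _ htr)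
  have hg' := @GoodA.flip k _ _ _ C _ _ _ _ _ _ K _ _
    (RR20_948.ratAlg _ htr) (RR20_948.ratAlg_tower _ htr) (RR20_948.ratAlg_finite _ htr) c (T 1) hg
    (mo (-1) c) (fun hc0 hc1 hy => by
      have h := Red332.flipF_TA (k := k) hc0 hc1 1
      rw [zpow_one] at h
      exact h)
  have hm : (mo (-1) c : EE k C) = algebraMap C (EE k C) c * (T 1)⁻¹ := by
    rw [mo_eq, T_inv]
  have hT0 : (T 1 : EE k C) ≠ 0 := fun h0 => transc_T (k := k) (C := C) (by rw [h0]; exact isAlgebraic_zero)
  have hcE : algebraMap C (EE k C) c ≠ 0 := by rw [Ne, map_eq_zero]; exact hc0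
  have htm : Transcendental C (mo (-1) c : EE k C) := by
    intro h
    apply transc_T (k := k) (C := C)
    have e : (T 1 : EE k C) = (mo (-1) c)⁻¹ * algebraMap C (EE k C) c := by
      rw [hm]; field_simp
    rw [e]
    exact h.inv.mul (isAlgebraic_algebraMap c)
  refine ⟨c, hc0, hc1, GoodA.of_coord hu hv huv hvu htr hg' htm ?_⟩
  simp only [u]
  rw [map_add, map_mul, map_inv₀, AlgHom.commutes, AlgHom.commutes, Good_408.ratHom_X, annY, hm,
    map_div₀]
  field_simp

/-- **THEOREM END2.** Annuli in all directions at all type 2 points of the line. -/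
theorem endIn [CharZero C] (p : ℕ) [Fact p.Prime] (hp : ‖(p : C)‖ < 1) :
    SSG_109.EndIn (NormedField.valuation (K := C)) (GoodAnn k C K) := by
  intro a ρ hρ
  constructor
  · obtain ⟨c, hc0, hc1, hg⟩ := exists_ann_inner k K p hp a ρ hρ
    refine ⟨c * ρ, mul_ne_zero hc0 hρ, ?_, ?_⟩
    · show ‖c * ρ‖₊ < ‖ρ‖₊
      rw [nnnorm_mul]
      exact mul_lt_of_lt_one_left (nnnorm_pos.2 hρ) hc1
    · show GoodA k C K (c * ρ / ρ) (annY k C a ρ)
      rw [mul_div_assoc, div_self hρ, mul_one]
      exact hg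
  · obtain ⟨c, hc0, hc1, hg⟩ := exists_ann_outer k K p hp a ρ hρ
    refine ⟨ρ / c, ?_, ?_⟩
    · show ‖ρ‖₊ < ‖ρ / c‖₊
      rw [nnnorm_div, lt_div_iff₀ (nnnorm_pos.2 hc0)]
      exact mul_lt_of_lt_one_right (nnnorm_pos.2 hρ) hc1
    · show GoodA k C K (ρ / (ρ / c)) (annY k C a (ρ / c))
      rw [div_div_cancel₀ hρ]
      exact hg

end fin

end Crest.Agent.R013.EE809
end

-- ▼ part R013/Red19_332

/-!
# R013 / Red19_332 : semistable reduction from `DirIn`

The points of the cells (315) and the annuli at type 2 points (809) plugged in: everything follows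
from the input `DirIn` (almost all residue discs at a type 2 point of the line are good).
-/

set_option autoImplicit false
set_option linter.unusedSectionVars false

universe v u

namespace Crest.Agent.R013.Red332

open scoped NNReal
open Crest.Agent.R013.Cell_408 Crest.Agent.R013.Good_408
open Crest.Agent.R013.PL_109 Crest.Agent.R013.LineDec_315
open Crest.Agent.R013.SSG_109 Crest.Agent.R013.SSZorn_315 Crest.Agent.R013.SSK_332

section one

variable (k : Type v) {C : Type u} (K : Type u) [NontriviallyNormedField k]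
    [CompleteSpace k] [IsUltrametricDist k] [NormedField C] [IsUltrametricDist C] [NormedAlgebra k C]
    [Algebra.IsAlgebraic k C] [IsAlgClosed C] [hk : Fact (DiscNorm k)]
    [Field K] [Algebra C K] [Algebra (RatFunc C) K] [IsScalarTower C (RatFunc C) K]
    [FiniteDimensional (RatFunc C) K]

theorem sep_of_charZero [CharZero C] : Algebra.IsSeparable (RatFunc C) K := by
  have : CharZero (RatFunc C) :=
    charZero_of_injective_ringHom (algebraMap C (RatFunc C)).injective
  exact inferInstance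

/-- all local inputs but `DirIn` -/
theorem inp_of_dir [CharZero C] {p : ℕ} (hp : p.Prime) (hp1 : ‖(p : C)‖ < 1)
    (dir : DirIn (nv C) (GoodDisc k C K)) :
    Inp (nv C) (GoodDisc k C K) (GoodAnn k C K) (GoodInf k C K) :=
  haveI : Fact p.Prime := ⟨hp⟩
  inp_of k K hp hp1 dir (EE809.endIn k K p hp1)

end one

variable {k : Type v} {C : Type u} [NontriviallyNormedField k]
    [CompleteSpace k] [IsUltrametricDist k] [NormedField C] [IsUltrametricDist C] [NormedAlgebra k C]
    [Algebra.IsAlgebraic k C] [IsAlgClosed C] [hk : Fact (DiscNorm k)]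

/-- the point data of all decompositions -/
theorem ptAll [CharZero C] : PtAll k C := fun K _ _ _ _ _ D =>
  haveI := sep_of_charZero (C := C) K
  ⟨PtsK_315.ptCells D⟩

/-- all function fields: the inputs at the directions of type 2 points -/
def DirAll (k : Type v) (C : Type u) [NontriviallyNormedField k]
    [CompleteSpace k] [IsUltrametricDist k] [NormedField C] [IsUltrametricDist C] [NormedAlgebra k C]
    [Algebra.IsAlgebraic k C] [IsAlgClosed C] [hk : Fact (DiscNorm k)] : Prop :=
  ∀ (K : Type u) [Field K] [Algebra C K] [Algebra (RatFunc C) K] [IsScalarTower C (RatFunc C) K]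
    [FiniteDimensional (RatFunc C) K], DirIn (nv C) (GoodDisc k C K)

/-- 903's input, from `DirAll` -/
theorem inDisc_of_dir [CharZero C] (p : ℕ) [hp : Fact p.Prime] (hp1 : ‖(p : C)‖ < 1)
    (dir : DirAll k C) : CB1_903.InDisc.{u} k C :=
  inDisc p (by exact_mod_cast hp1) (fun K _ _ _ _ _ => inp_of_dir k K hp.out hp1 (dir K)) ptAll


end Crest.Agent.R013.Red332
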