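import Crest.Agent.R013.LemD4_323
import Crest.Agent.R013.Ax2_280
import Crest.Agent.R013.TP13_928
import Crest.Agent.R013.TP14_928
import Crest.Agent.R013.TP3_928
import Crest.Agent.R013.PC_588
import Mathlib
import Crest.Agent.R013.HU13_522
import Crest.Agent.R013.TP19_928
import Crest.Agent.R013.Desc8_372
import Crest.Agent.R013.SD2_940
import Crest.Agent.R013.RR13_948
import Crest.Agent.R013.PicD_398
import Crest.Agent.R013.TP1_928
import Crest.Agent.R013.Good5_940

-- ▼ part R013/TP15_928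
section

/-!
# R013 / C-FIN (helper928), part 1: Lemma D and Ax for spaces of power series over a big field

* `exists_order`: `U` a `ℚ_[p]`-space of power series over `F` with coefficients in a finite
  extension `L` of `ℚ_[p]`, `m [L:ℚ_p] < dim U`: there are small `s ∈ ℚ_p` and `f ∈ U` of exact
  order `m` at `s`.
* `mem_of_fixed`: Ax for coefficients.
-/

set_option autoImplicit false
set_option linter.unusedSectionVars false
set_option linter.style.haveILetI false

namespace Crest.Agent.R013.Fin_928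

open Module PowerSeries Crest.Agent.R013.LemD_323

section order

variable {p : ℕ} [hp : Fact p.Prime] {F : Type*} [NontriviallyNormedField F]
  [NormedAlgebra ℚ_[p] F] [IsUltrametricDist F]

variable (L : IntermediateField ℚ_[p] F)

theorem isUltra_sub : IsUltrametricDist L := IsUltrametricDist.subtype _

/-- restriction of coefficients -/
noncomputable def toL (U : Submodule ℚ_[p] (PowerSeries F))
    (hU : ∀ f ∈ U, ∀ n, coeff n f ∈ L) : U →ₗ[ℚ_[p]] PowerSeries L where
  toFun f := PowerSeries.mk fun n => ⟨coeff n (f : PowerSeries F), hU f f.2 n⟩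
  map_add' f g := by
    ext n
    simp
  map_smul' a f := by
    ext n
    simp

theorem coeff_toL (U : Submodule ℚ_[p] (PowerSeries F))
    (hU : ∀ f ∈ U, ∀ n, coeff n f ∈ L) (f : U) (n : ℕ) :
    ((coeff n (toL L U hU f) : L) : F) = coeff n (f : PowerSeries F) := by
  simp [toL]

theorem toL_injective (U : Submodule ℚ_[p] (PowerSeries F))
    (hU : ∀ f ∈ U, ∀ n, coeff n f ∈ L) : Function.Injective (toL L U hU) := by
  intro f g h
  apply Subtype.ext
  ext n
  rw [← coeff_toL L U hU f n, ← coeff_toL L U hU g n, h]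

variable [CompleteSpace F] [FiniteDimensional ℚ_[p] L]

theorem coe_shift {r : ℝ} {f : PowerSeries L} (hf : Bd r f) {s : L} (hs : ‖s‖ < r)
    {g : PowerSeries F} (hg : ∀ n, ((coeff n f : L) : F) = coeff n g) (l : ℕ) :
    ((coeff l (shift s f) : L) : F) = coeff l (shift (s : F) g) := by
  haveI := isUltra_sub L
  haveI : CompleteSpace L := FiniteDimensional.complete ℚ_[p] L
  rw [coeff_shift, coeff_shift]
  have h1 := summable_shift hf hs l
  have h2 : Continuous (fun x : L => (x : F)) := continuous_subtype_val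
  have h3 := (h1.hasSum.map (L.val : L →+* F) h2).tsum_eq
  refine h3.symm.trans (tsum_congr fun n => ?_)
  simp only [Function.comp_apply]
  rw [← hg]
  symm
  change ((((n + l).choose l : ℕ) : F)) * (coeff (n + l) f : L) * (s : F) ^ n =
    (((((n + l).choose l : ℕ) : L) * coeff (n + l) f * s ^ n : L) : F)
  push_cast
  rfl

/-- Lemma D inside `F⟦X⟧` -/
theorem exists_order (U : Submodule ℚ_[p] (PowerSeries F)) [FiniteDimensional ℚ_[p] U]
    (hU : ∀ f ∈ U, ∀ n, coeff n f ∈ L) {r : ℝ} (hr : 0 < r) (hb : ∀ f ∈ U, Bd r f)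
    (m : ℕ) (hm : m * finrank ℚ_[p] L < finrank ℚ_[p] U) {ε : ℝ} (hε : 0 < ε) :
    ∃ s : ℚ_[p], ‖s‖ < ε ∧ ∃ f ∈ U,
      (∀ l < m, coeff l (shift (algebraMap ℚ_[p] F s) f) = 0) ∧
        coeff m (shift (algebraMap ℚ_[p] F s) f) ≠ 0 := by
  haveI := isUltra_sub L
  haveI : CompleteSpace L := FiniteDimensional.complete ℚ_[p] L
  have hb' : ∀ u, Bd r (toL L U hU u) := by
    intro u
    obtain ⟨C, hC⟩ := hb u u.2
    refine ⟨C, fun n => ?_⟩
    have h1 := hC n
    rw [← coeff_toL L U hU u n] at h1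
    exact h1
  obtain ⟨s, hs, u, h1, h2⟩ := lemD_ps (F := ℚ_[p]) (k := L) (toL L U hU) (toL_injective L U hU) hr
    hb' m hm (lt_min hr hε)
  have hs' : ‖algebraMap ℚ_[p] L s‖ < r := by
    rw [norm_algebraMap']
    exact hs.trans_le (min_le_left _ _)
  refine ⟨s, hs.trans_le (min_le_right _ _), u, u.2, fun l hl => ?_, fun h0 => h2 ?_⟩
  · have h3 := coe_shift L (hb' u) hs' (coeff_toL L U hU u) l
    rw [h1 l hl] at h3
    exact h3.symm
  · have h3 := coe_shift L (hb' u) hs' (coeff_toL L U hU u) m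
    apply Subtype.ext
    rw [h3]
    exact h0

end order

section ax

variable {p : ℕ} [hp : Fact p.Prime] {C : Type*} [Field C] [Algebra ℚ_[p] C] [IsAlgClosed C]
  [Algebra.IsAlgebraic ℚ_[p] C] {F : Type*} [NormedField F] [NormedAlgebra ℚ_[p] F]
  [IsUltrametricDist F] [Algebra C F] [IsScalarTower ℚ_[p] C F]

/-- **Ax** in the form used here -/
theorem mem_of_fixed (hd : DenseRange (algebraMap C F)) (k' : IntermediateField ℚ_[p] C)
    [FiniteDimensional ℚ_[p] k'] (x : F)
    (hfix : ∀ s : C ≃ₐ[k'] C, ∃ t : F → F, Isometry t ∧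
      (∀ a : C, t (algebraMap C F a) = algebraMap C F (s a)) ∧ t x = x) :
    x ∈ k'.map (IsScalarTower.toAlgHom ℚ_[p] C F) := by
  haveI : IsScalarTower ℚ_[p] k' F := IsScalarTower.of_algebraMap_eq fun q => by
    rw [IsScalarTower.algebraMap_apply ℚ_[p] C F]
    rfl
  haveI : Algebra.IsAlgebraic k' C := Algebra.IsAlgebraic.tower_top (K := ℚ_[p]) k'
  obtain ⟨y, hy⟩ := Ax_280.ax_sen_tate (p := p) (K := k') (L := C) (C := F) x (hd.closure_range ▸ trivial)
    hfix
  exact ⟨y, y.2, hy⟩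

theorem finrank_map (k' : IntermediateField ℚ_[p] C) :
    finrank ℚ_[p] (k'.map (IsScalarTower.toAlgHom ℚ_[p] C F)) = finrank ℚ_[p] k' :=
  (IntermediateField.equivMap k' (IsScalarTower.toAlgHom ℚ_[p] C F)).toLinearEquiv.finrank_eq.symm

end ax

end Crest.Agent.R013.Fin_928
end

-- ▼ part R013/TP16_928
section

/-!
# R013 / C-FIN (helper928), part 2: a class of the Tate module whose form has exact order `m`

`TPS.exists_order` : (F1) + (F2): TPS + Ax + Lemma D.
-/

set_option autoImplicit false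
set_option linter.unusedSectionVars false
set_option linter.style.haveILetI false

namespace Crest.Agent.R013.Fin_928

open Module PowerSeries Crest.Agent.R013.LemD_323

section bd

variable {F : Type*} [NontriviallyNormedField F] [IsUltrametricDist F]

theorem bd_zero (r : ℝ) : Bd r (0 : PowerSeries F) := ⟨0, fun n => by simp⟩

theorem bd_add {r : ℝ} (hr : 0 < r) {f g : PowerSeries F} (hf : Bd r f) (hg : Bd r g) :
    Bd r (f + g) := by
  obtain ⟨B, hB⟩ := hf
  obtain ⟨D, hD⟩ := hg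
  refine ⟨B + D, fun n => ?_⟩
  have h0 : 0 ≤ r ^ n := (pow_pos hr n).le
  calc ‖coeff n (f + g)‖ * r ^ n ≤ (‖coeff n f‖ + ‖coeff n g‖) * r ^ n := by
        refine mul_le_mul_of_nonneg_right ?_ h0
        rw [map_add]
        exact norm_add_le _ _
    _ = ‖coeff n f‖ * r ^ n + ‖coeff n g‖ * r ^ n := add_mul _ _ _
    _ ≤ B + D := add_le_add (hB n) (hD n)

theorem bd_smul {p : ℕ} [Fact p.Prime] [NormedAlgebra ℚ_[p] F] {r : ℝ} (a : ℚ_[p])
    {f : PowerSeries F} (hf : Bd r f) : Bd r (a • f) := by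
  obtain ⟨B, hB⟩ := hf
  refine ⟨‖a‖ * B, fun n => ?_⟩
  rw [PowerSeries.coeff_smul, norm_smul, mul_assoc]
  exact mul_le_mul_of_nonneg_left (hB n) (norm_nonneg _)

theorem shift_smul {p : ℕ} [Fact p.Prime] [NormedAlgebra ℚ_[p] F] (a : ℚ_[p]) (s : F)
    (f : PowerSeries F) (l : ℕ) : coeff l (shift s (a • f)) = a • coeff l (shift s f) := by
  rw [coeff_shift, coeff_shift, ← tsum_const_smul'']
  refine tsum_congr fun n => ?_
  rw [PowerSeries.coeff_smul, Algebra.smul_def, Algebra.smul_def]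
  ring

end bd

open Crest.Agent.R013.TP_928 Crest.Agent.R013.SSK_332 Crest.Agent.R013.Red332
open Crest.Agent.R013.PicD_398 Crest.Agent.R013.Frob1_914

variable {k C K : Type*} [NontriviallyNormedField k] [CompleteSpace k]
    [NormedField C] [IsUltrametricDist C] [NormedAlgebra k C] [Algebra.IsAlgebraic k C]
    [Field K] [Algebra C K] [Algebra (RatFunc C) K]
    [IsScalarTower C (RatFunc C) K] [FiniteDimensional (RatFunc C) K]
    [Algebra.IsSeparable (RatFunc C) K] {p : ℕ} [hp : Fact p.Prime] {S : SSK k C K}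
    [IsAlgClosed C] [CharP (Ct C) p] [Algebra (ZMod p) (Ct C)]
    [Algebra.IsAlgebraic (ZMod p) (Ct C)]
    [NormedAlgebra ℚ_[p] C] [Algebra.IsAlgebraic ℚ_[p] C]
    {F : Type*} [NontriviallyNormedField F] [NormedAlgebra ℚ_[p] F] [IsUltrametricDist F]
    [CompleteSpace F] [Algebra C F] [IsScalarTower ℚ_[p] C F]
    [Algebra ℤ_[p] F] [IsScalarTower ℤ_[p] ℚ_[p] F]
    {G A : Type*} [Group A] [Fintype A] [MulAction A S.Ed]

/-- **C-FIN.**  There are arbitrarily small `s ∈ ℚ_p` and classes `u` in the `e`-part with Galois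
invariant form (so the coefficients are in `k'`) of exact order `m` at `s`. -/
theorem exists_order_class (d : TPS p S G A (PowerSeries F)) (hS : SlopeDvd S)
    (h0 : d.OmZero) (h1 : d.OmInj) {Vx : Type*} (bd : (S.Ed → ℚ_[p]) →ₗ[ℚ_[p]] (Vx → ℚ_[p]))
    (honto : ∀ lam : S.Ed → ℤ_[p], bd (fun e => ((lam e : ℤ_[p]) : ℚ_[p])) = 0 →
      ∃ u : Tate p (Pic C K), sl S p u = lam)
    (k' : IntermediateField ℚ_[p] C) [FiniteDimensional ℚ_[p] k']
    (hd : DenseRange (algebraMap C F)) (tF : G → F → F) (ht : ∀ g, Isometry (tF g))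
    (ht' : ∀ g c, tF g (algebraMap C F c) = algebraMap C F ((d.gal g).s c))
    (hgW : ∀ g f n, coeff n (d.gW g f) = tF g (coeff n f))
    (hfull : ∀ s : C ≃ₐ[k'] C, ∃ g, ∀ c, (d.gal g).s c = s c)
    {r : ℝ} (hr : 0 < r) (hb : ∀ u ∈ d.Mod hS h0 h1, Bd r (d.om u))
    (m : ℕ) (hm : m * finrank ℚ_[p] k' <
      finrank ℚ_[p] (Rank_770.eker (fun α => ((d.c α : ℤ_[p]) : ℚ_[p])) bd))
    {ε : ℝ} (hε : 0 < ε) :
    ∃ s : ℚ_[p], ‖s‖ < ε ∧ ∃ u ∈ d.Mod hS h0 h1,
      (∀ n, coeff n (d.om u) ∈ k'.map (IsScalarTower.toAlgHom ℚ_[p] C F)) ∧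
      (∀ l < m, coeff l (shift (algebraMap ℚ_[p] F s) (d.om u)) = 0) ∧
        coeff m (shift (algebraMap ℚ_[p] F s) (d.om u)) ≠ 0 := by
  have hco : ∀ u ∈ d.Mod hS h0 h1, ∀ n,
      coeff n (d.om u) ∈ k'.map (IsScalarTower.toAlgHom ℚ_[p] C F) := by
    intro u hu n
    refine mem_of_fixed hd k' _ fun s => ?_
    obtain ⟨g, hg⟩ := hfull s
    refine ⟨tF g, ht g, fun a => by rw [ht', hg], ?_⟩
    rw [← hgW, d.Mod_fixed hS h0 h1 hu g]
  obtain ⟨v, hv, hli⟩ := d.exists_forms hS h0 h1 bd honto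
  let U : Submodule ℚ_[p] (PowerSeries F) := Submodule.span ℚ_[p] (Set.range fun i => d.om (v i))
  haveI : FiniteDimensional ℚ_[p] U := FiniteDimensional.span_of_finite _ (Set.finite_range _)
  haveI : FiniteDimensional ℚ_[p] (k'.map (IsScalarTower.toAlgHom ℚ_[p] C F)) :=
    Module.Finite.equiv
      (IntermediateField.equivMap k' (IsScalarTower.toAlgHom ℚ_[p] C F)).toLinearEquiv
  have hU : ∀ f ∈ U, (∀ n, coeff n f ∈ k'.map (IsScalarTower.toAlgHom ℚ_[p] C F)) ∧ Bd r f := by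
    intro f hf
    induction hf using Submodule.span_induction with
    | mem x hx =>
      obtain ⟨i, rfl⟩ := hx
      exact ⟨hco _ (hv i), hb _ (hv i)⟩
    | zero => exact ⟨fun n => by rw [map_zero]; exact zero_mem _, bd_zero r⟩
    | add x y _ _ hx hy =>
      exact ⟨fun n => by rw [map_add]; exact add_mem (hx.1 n) (hy.1 n), bd_add hr hx.2 hy.2⟩
    | smul a x _ hx =>
      refine ⟨fun n => ?_, bd_smul a hx.2⟩
      rw [PowerSeries.coeff_smul]
      exact (k'.map (IsScalarTower.toAlgHom ℚ_[p] C F)).smul_mem (hx.1 n)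
  have hfr : finrank ℚ_[p] U =
      finrank ℚ_[p] (Rank_770.eker (fun α => ((d.c α : ℤ_[p]) : ℚ_[p])) bd) := by
    rw [finrank_span_eq_card hli, Fintype.card_fin]
  obtain ⟨s, hs, f, hf, h2, h3⟩ := exists_order (k'.map (IsScalarTower.toAlgHom ℚ_[p] C F)) U
    (fun f hf => (hU f hf).1) hr (fun f hf => (hU f hf).2) m
    (by rw [finrank_map, hfr]; exact hm) hε
  have hf' : f ∈ Submodule.span ℚ_[p]
      (d.om '' (d.Mod hS h0 h1 : Set (Tate p (Pic C K)))) := by
    refine Submodule.span_mono ?_ hf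
    rintro _ ⟨i, rfl⟩
    exact ⟨v i, hv i, rfl⟩
  obtain ⟨c, u, hu, hcu⟩ := d.Mod_span hS h0 h1 hf'
  refine ⟨s, hs, u, hu, hco u hu, fun l hl => ?_, ?_⟩
  · rw [← hcu, shift_smul, h2 l hl, smul_zero]
  · rw [← hcu, shift_smul]
    exact smul_ne_zero (pow_ne_zero _ (by exact_mod_cast hp.out.ne_zero)) h3

end Crest.Agent.R013.Fin_928
end

-- ▼ part R013/Bridge_588
section

/-!
# Row 13, part C: bridge between `Tate p (D ⧸ P)` (928) and `PC p G` (588)

`G` a commutative group ("functions"), `δ : Additive G →+ D` ("divisor"), `P` = principal divisors,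
the constants `ker δ` being `p`-divisible.
* `bridge : Tate p (D ⧸ P) →ₗ[ℤ_[p]] PC p G`, `rep_iff`;
* `bridge_injective`, `mem_range_bridge`;
* `bridge_map`: equivariance.
-/

set_option autoImplicit false

namespace Crest.Agent.R013.Bridge_588

open TP_928

variable {p : ℕ} [hp : Fact p.Prime] {G D : Type*} [CommGroup G] [AddCommGroup D]

section

variable (δ : Additive G →+ D) (P : AddSubgroup D) (hP : ∀ d, d ∈ P ↔ ∃ e, δ e = d)
  [IsAddTorsionFree D]
  (hdiv : ∀ c : G, δ (Additive.ofMul c) = 0 → ∀ n, ∃ b : G, b ^ p ^ n = c)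

include hP hdiv in
theorem qmk_eq_of_rep {n : ℕ} {z : D ⧸ P} {e e' : Additive G} (h : TP_928.Rep p δ P n z e)
    (h' : TP_928.Rep p δ P n z e') :
    PC_588.qmk p G n (Additive.toMul e) = PC_588.qmk p G n (Additive.toMul e') := by
  obtain ⟨c, f, hc, hf⟩ := h'.exists_sub hP h
  obtain ⟨b, hb⟩ := hdiv (Additive.toMul c) hc n
  rw [PC_588.qmk_eq_iff]
  refine ⟨b * Additive.toMul f, ?_⟩
  rw [mul_pow, hb, hf]
  simp [mul_assoc]

include hP hdiv in
theorem exists_bridge (u : Tate p (D ⧸ P)) : ∃ w : PC_588.PC p G, ∀ n e,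
    TP_928.Rep p δ P n (u n) e → PC_588.Rep w n (Additive.toMul e) := by
  choose e he using fun n => exists_rep (p := p) hP (u.pow_smul_apply n)
  refine ⟨PC_588.PC.seq (fun n => Additive.toMul (e n)) ?_, ?_⟩
  · intro n
    obtain ⟨c, f, hc, hf⟩ := Rep.exists_succ hP (by rw [u.apply_succ]; exact he n) (he (n + 1))
    obtain ⟨b, hb⟩ := hdiv (Additive.toMul c) hc n
    refine ⟨b * Additive.toMul f, ?_⟩
    rw [mul_pow, hb, hf]
    simp [mul_assoc]
  · intro n e' he'
    unfold PC_588.Rep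
    rw [qmk_eq_of_rep δ P hP hdiv he' (he n)]
    rfl

/-- The class `(h_n)_n` of a vector of the Tate module of the class group. -/
noncomputable def bridge : Tate p (D ⧸ P) →ₗ[ℤ_[p]] PC_588.PC p G where
  toFun u := (exists_bridge δ P hP hdiv u).choose
  map_add' u v := by
    refine PC_588.PC.eq_of_rep fun n => ?_
    obtain ⟨a, ha⟩ := exists_rep (p := p) hP (u.pow_smul_apply n)
    obtain ⟨b, hb⟩ := exists_rep (p := p) hP (v.pow_smul_apply n)
    exact ⟨Additive.toMul a * Additive.toMul b,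
      (exists_bridge δ P hP hdiv (u + v)).choose_spec n (a + b) (ha.add hb),
      ((exists_bridge δ P hP hdiv u).choose_spec n a ha).add
        ((exists_bridge δ P hP hdiv v).choose_spec n b hb)⟩
  map_smul' m u := by
    refine PC_588.PC.eq_of_rep fun n => ?_
    obtain ⟨a, ha⟩ := exists_rep (p := p) hP (u.pow_smul_apply n)
    exact ⟨Additive.toMul a ^ rp m n,
      (exists_bridge δ P hP hdiv (m • u)).choose_spec n (rp m n • a) (ha.smul (rp m n)),
      ((exists_bridge δ P hP hdiv u).choose_spec n a ha).smul m (rp m n) (natCast_rp m n).symm⟩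

variable {P}

theorem rep_bridge (u : Tate p (D ⧸ P)) {n : ℕ} {g : G}
    (h : TP_928.Rep p δ P n (u n) (Additive.ofMul g)) :
    PC_588.Rep (bridge δ P hP hdiv u) n g :=
  (exists_bridge δ P hP hdiv u).choose_spec n _ h

theorem rep_iff (u : Tate p (D ⧸ P)) {n : ℕ} {g : G} :
    PC_588.Rep (bridge δ P hP hdiv u) n g ↔ TP_928.Rep p δ P n (u n) (Additive.ofMul g) := by
  refine ⟨fun h => ?_, rep_bridge δ hP hdiv u⟩
  obtain ⟨e, x, hx, he⟩ := exists_rep (p := p) hP (u.pow_smul_apply n)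
  have h1 : PC_588.Rep (bridge δ P hP hdiv u) n (Additive.toMul e) :=
    rep_bridge δ hP hdiv u ⟨x, hx, he⟩
  obtain ⟨f, hf⟩ := h1.eq_iff.1 h
  refine ⟨x + δ (Additive.ofMul f), ?_, ?_⟩
  · rw [QuotientAddGroup.mk_add, hx]
    have : ((δ (Additive.ofMul f) : D) : D ⧸ P) = 0 :=
      (QuotientAddGroup.eq_zero_iff _).mpr ((hP _).2 ⟨_, rfl⟩)
    rw [this, add_zero]
  · rw [hf, ofMul_mul, map_add, ofMul_pow, map_nsmul, ofMul_toMul, he, smul_add]



end

section equivariance

variable {G' D' : Type*} [CommGroup G'] [AddCommGroup D'] [IsAddTorsionFree D] [IsAddTorsionFree D']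
  {δ : Additive G →+ D} {P : AddSubgroup D} (hP : ∀ d, d ∈ P ↔ ∃ e, δ e = d)
  (hdiv : ∀ c : G, δ (Additive.ofMul c) = 0 → ∀ n, ∃ b : G, b ^ p ^ n = c)
  {δ' : Additive G' →+ D'} {P' : AddSubgroup D'} (hP' : ∀ d, d ∈ P' ↔ ∃ e, δ' e = d)
  (hdiv' : ∀ c : G', δ' (Additive.ofMul c) = 0 → ∀ n, ∃ b : G', b ^ p ^ n = c)


end equivariance

end Crest.Agent.R013.Bridge_588
end

-- ▼ part R013/HU14_522
section

/-!
# R013 / HU14: `omega` on the Tate module of the class group, and 332's semistable structures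
(helper522)

* `brP : Tate p (Pic C K) →ₗ[ℤ_[p]] PC p Kˣ` (588's bridge), `rep_brP_iff`, `divP_brP`, `brP_gal`;
* `omL : PC p G →ₗ[ℤ_[p]] F⟦X⟧`, `omT := omL ∘ brP` for a disc end;
* `omT_inj` : `omT u = 0 → sl S p u = 0` for every `S : SSK k C K`  (928's `OmInj`);
* `omT_eq_zero_iff` : `omT u = 0 ↔ Small em (brP u)` for any end `em`;
* `omT_gal` : equivariance (928's `om_gal`).
-/

set_option autoImplicit false
set_option linter.all false
open Filter Topology
open scoped NNReal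
open Crest.Agent.R013.Cell_408

namespace Crest.Agent.R013.HU14_522

open Crest.Agent.R013.RR7_948 Crest.Agent.R013.RR8_948 Crest.Agent.R013.RR9_948
open Crest.Agent.R013.RR11_948
open Crest.Agent.R013.RR14_948
open Crest.Agent.R013.RR13_948
open Crest.Agent.R013.EE809 Crest.Agent.R013.HU6_522 Crest.Agent.R013.HU3_522
open Crest.Agent.R013.HU1_522 Crest.Agent.R013.HU7_522 Crest.Agent.R013.PC_588
open Crest.Agent.R013.HU8_522 Crest.Agent.R013.HU4_522 Crest.Agent.R013.HU2_522
open Crest.Agent.R013.HU9_522 Crest.Agent.R013.HU10_522 Crest.Agent.R013.HU11_522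
open Crest.Agent.R013.HU12_522 Crest.Agent.R013.HU13_522
open Crest.Agent.R013.SSK_332 Crest.Agent.R013.Red332
open Crest.Agent.R013.PicD_398 Crest.Agent.R013.Frob1_914

section Lin

variable {F : Type*} [NormedField F] [IsUltrametricDist F] [CharZero F] [CompleteSpace F]
  {p : ℕ} [Fact p.Prime] {G : Type*} [CommGroup G] [Algebra ℤ_[p] F]

/-- `omega` as a `ℤ_p`-linear map -/
noncomputable def omL (hp : ‖(p : F)‖ < 1) (hZ : ∀ z : ℤ_[p], ‖algebraMap ℤ_[p] F z‖ ≤ 1)
    (φ : G →* U1 F) : PC p G →ₗ[ℤ_[p]] PowerSeries F where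
  toFun u := Om φ u
  map_add' u v := Om_add hp φ u v
  map_smul' z u := by
    rw [Om_smul hp φ hZ]
    ext l
    rw [PowerSeries.coeff_smul, RingHom.id_apply, smul_eq_mul, PowerSeries.coeff_smul,
      Algebra.smul_def]

end Lin

variable {C : Type*} [NormedField C] [IsUltrametricDist C] [IsAlgClosed C] [CharZero C]
  {K : Type*} [Field K] [Algebra C K] [Algebra (RatFunc C) K] [IsScalarTower C (RatFunc C) K]
  [FiniteDimensional (RatFunc C) K]
  {p : ℕ} [hpp : Fact p.Prime]

theorem const_div (c : Kˣ) (h : TP_928.dv C K (Additive.ofMul c) = 0) (n : ℕ) :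
    ∃ b : Kˣ, b ^ p ^ n = c := by
  obtain ⟨a, ha0, ha⟩ := TP_928.exists_const_of_dv_eq_zero (NC2_522.algClosure_eq_bot) h
  obtain ⟨b, hb⟩ := IsAlgClosed.exists_pow_nat_eq a (n := p ^ n) (pow_pos hpp.out.pos n)
  have hb0 : b ≠ 0 := by
    rintro rfl
    rw [zero_pow (pow_pos hpp.out.pos n).ne'] at hb
    exact ha0 hb.symm
  refine ⟨Units.mk0 (algebraMap C K b) ((map_ne_zero _).mpr hb0), ?_⟩
  ext
  rw [Units.val_pow_eq_pow_val, Units.val_mk0, ← map_pow, hb]
  exact ha.symm

variable (C K p) in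
/-- 588's bridge for the class group of `K` -/
noncomputable def brP : TP_928.Tate p (Pic C K) →ₗ[ℤ_[p]] PC p Kˣ :=
  Bridge_588.bridge (TP_928.dv C K) (Prin C K) (TP_928.mem_Prin_iff C K) const_div

theorem rep_brP_iff (u : TP_928.Tate p (Pic C K)) {n : ℕ} {g : Kˣ} :
    Rep (brP C K p u) n g ↔ TP_928.RepK p n (u n) (g : K) :=
  Bridge_588.rep_iff (TP_928.dv C K) (TP_928.mem_Prin_iff C K) const_div u

theorem divP_brP (u : TP_928.Tate p (Pic C K)) : DivP C (brP C K p u) := by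
  intro n h hr P
  obtain ⟨x, -, hx⟩ := (rep_brP_iff u).mp hr
  have h1 : divf (k := C) (h : K) = p ^ n • x := hx
  rw [h1]
  exact ⟨x P, by simp⟩


/-- equivariance of the bridge -/
theorem brP_gal {C' : Type*} [NormedField C'] [IsUltrametricDist C'] [IsAlgClosed C'] [CharZero C']
    {K' : Type*} [Field K'] [Algebra C' K'] [Algebra (RatFunc C') K'] [IsScalarTower C' (RatFunc C') K']
    [FiniteDimensional (RatFunc C') K'] (g : SI C K C' K') (u : TP_928.Tate p (Pic C K)) :
    brP C' K' p (TP_928.Tate.map (g.pic : Pic C K →+ Pic C' K') u) =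
      PC.map (Units.map (g.f : K →* K')) (brP C K p u) := by
  refine PC.eq_of_rep fun n => ?_
  obtain ⟨h, h0, hr⟩ := TP_928.exists_repK (p := p) u n
  have h1 : Rep (brP C K p u) n (Units.mk0 h h0) := (rep_brP_iff u).mpr hr
  refine ⟨Units.map (g.f : K →* K') (Units.mk0 h h0), ?_, h1.map _⟩
  rw [rep_brP_iff]
  obtain ⟨x, hx, hx'⟩ := hr
  refine ⟨g.D x, ?_, ?_⟩
  · rw [TP_928.Tate.map_apply, ← hx]
    rfl
  · show divf (k := C') (g.f h) = _
    rw [g.divf_f h0, hx', map_nsmul]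

section Main

variable {k : Type*} [NontriviallyNormedField k] [CompleteSpace k] [IsUltrametricDist k]
variable {C : Type*} [NormedField C] [IsUltrametricDist C] [NormedAlgebra k C] [CharZero C]
  [Algebra.IsAlgebraic k C] [IsAlgClosed C]
  {K : Type*} [Field K] [Algebra C K] [Algebra (RatFunc C) K] [IsScalarTower C (RatFunc C) K]
  [FiniteDimensional (RatFunc C) K]

theorem SSK_hc (S : SSK k C K) (d : S.Dir) (c : C) :
    S.em d (algebraMap C K c) = mono 0 c (EE809.finDef_const c) := by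
  ext n
  rw [S.em_C, co_mono]

theorem SSK_odE (S : SSK k C K) (hk : DiscNorm k) (d : S.Dir) (z : Kˣ) :
    Multiplicative.toAdd (odE (S.em d) hk z) = TP_928.ord S d (z : K) := by
  rw [odE_apply, S.em_od d z z.ne_zero]
  rfl

/-- small logarithmic derivatives at one end give zero slopes for every semistable structure -/
theorem sl_eq_zero_of_small (hk : DiscNorm k) (hp : ‖(p : C)‖ < 1) (S : SSK k C K)
    {em : K →+* EE k C} (hc : ∀ c : C, em (algebraMap C K c) = mono 0 c (EE809.finDef_const c))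
    {u : TP_928.Tate p (Pic C K)} (h : Small em (brP C K p u)) : TP_928.sl S p u = 0 := by
  rw [TP_928.sl_eq_zero_iff]
  intro n f hf0 hf e
  have h1 : Small (S.em (S.e0 e)) (brP C K p u) :=
    Small.transfer hk (S.em (S.e0 e)) hc (SSK_hc S _) (divP_brP u) h
  have h2 := Small.slope hk (S.em (S.e0 e)) hp h1
  rw [PC.toPadic_eq_zero_iff] at h2
  have h3 := h2 n (Units.mk0 f hf0) ((rep_brP_iff u).mpr hf)
  rw [SSK_odE] at h3
  exact_mod_cast h3

variable (hk : DiscNorm k) (em : K →+* EE k C)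
  (hc : ∀ c : C, em (algebraMap C K c) = mono 0 c (EE809.finDef_const c))
  (hι : ∀ z, ∃ a b : BD k C, b ≠ 0 ∧ em z * bdE b = bdE a)
  {F : Type*} [NormedField F] [IsUltrametricDist F] [CharZero F] [CompleteSpace F]
  (σ : C →+* F) (hσ : ∀ a, ‖σ a‖ = ‖a‖) [Algebra ℤ_[p] F]
  (hpF : ‖(p : F)‖ < 1) (hZ : ∀ z : ℤ_[p], ‖algebraMap ℤ_[p] F z‖ ≤ 1)

/-- **`omega` on the Tate module** of the class group, for a disc end `em` -/
noncomputable def omT : TP_928.Tate p (Pic C K) →ₗ[ℤ_[p]] PowerSeries F :=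
  (omL hpF hZ (nuF hk em hι σ hσ)).comp (brP C K p)

theorem omT_apply (u : TP_928.Tate p (Pic C K)) :
    omT hk em hι σ hσ hpF hZ u = OmE hk em hι σ hσ (brP C K p u) := rfl

include hc in
theorem omT_eq_zero_iff {em' : K →+* EE k C}
    (hc' : ∀ c : C, em' (algebraMap C K c) = mono 0 c (EE809.finDef_const c))
    (u : TP_928.Tate p (Pic C K)) :
    omT hk em hι σ hσ hpF hZ u = 0 ↔ Small em' (brP C K p u) := by
  have hp : ‖(p : C)‖ < 1 := by rw [← norm_p_F σ hσ]; exact hpF
  rw [omT_apply, omE_eq_zero_iff hk em hc hι σ hσ hp (divP_brP u)]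
  exact ⟨fun h => Small.transfer hk em' hc hc' (divP_brP u) h,
    fun h => Small.transfer hk em hc' hc (divP_brP u) h⟩

include hc in
/-- **928's `OmInj`** -/
theorem omT_inj (S : SSK k C K) (u : TP_928.Tate p (Pic C K))
    (h : omT hk em hι σ hσ hpF hZ u = 0) : TP_928.sl S p u = 0 := by
  have hp : ‖(p : C)‖ < 1 := by rw [← norm_p_F σ hσ]; exact hpF
  exact sl_eq_zero_of_small hk hp S hc ((omT_eq_zero_iff hk em hc hι σ hσ hpF hZ hc u).mp h)

include hc in
/-- **input for 928's `OmZero`**: it suffices to bound the logarithmic derivatives at one direction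
of a semistable structure -/
theorem omT_zero (S : SSK k C K) (d : S.Dir) (u : TP_928.Tate p (Pic C K))
    (h : ∃ M : ℝ, ∀ n, ∃ f : K, f ≠ 0 ∧ TP_928.RepK p n (u n) f ∧
      gn (th (S.em d f) * S.em d f⁻¹) ≤ M * ‖(p : C)‖ ^ n) :
    omT hk em hι σ hσ hpF hZ u = 0 := by
  rw [omT_eq_zero_iff hk em hc hι σ hσ hpF hZ (SSK_hc S d)]
  obtain ⟨M, hM⟩ := h
  refine small_of_exists hk _ ⟨M, fun n => ?_⟩
  obtain ⟨f, hf0, hf, hb⟩ := hM n
  exact ⟨Units.mk0 f hf0, (rep_brP_iff u).mpr hf, hb⟩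


variable (τF : F →+* F) (hτF : ∀ a, ‖τF a‖ = ‖a‖)

include hτF in
/-- **equivariance** (928's `om_gal`) -/
theorem omT_gal (g : SI C K C K) (τ : C →ₐ[k] C) (hτ : ∀ a, ‖τ a‖ = ‖a‖)
    (hem : ∀ z : K, em (g.f z) = EEmap τ hτ (em z)) (hτσ : ∀ a, τF (σ a) = σ (τ a))
    (u : TP_928.Tate p (Pic C K)) :
    omT hk em hι σ hσ hpF hZ (TP_928.Tate.map (g.pic : Pic C K →+ Pic C K) u) =
      PowerSeries.map τF (omT hk em hι σ hσ hpF hZ u) := by
  have hp : ‖(p : C)‖ < 1 := by rw [← norm_p_F σ hσ]; exact hpF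
  rw [omT_apply, omT_apply, brP_gal]
  exact OmE_map hk τ hτ em em hι hι (Units.map (g.f : K →* K)) (fun z => hem z) σ hσ τF hτF hτσ hp _

end Main

end Crest.Agent.R013.HU14_522
end

-- ▼ part R013/TP20_928
section

/-!
# R013 / C-FIN (helper928), part 6: **(D1)**

From a level of `S : SSK ℚ_[p] C Y` over a finite extension `κ` of `ℚ_p`, a covering group `A` with
an idempotent `c` and a disc end `em` at a rational place: for every `ε` a point `s ∈ ℚ_p`, `|s| < ε`
and a class `u` of the Tate module whose form has coefficients in `κ` and exact order `m` at `s`.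
-/

set_option autoImplicit false
set_option linter.unusedSectionVars false
set_option linter.style.haveILetI false

namespace Crest.Agent.R013.Fin_928

open scoped NNReal
open WithZero Module PadicInt PowerSeries
open Crest.Agent.R013.Cell_408
open Crest.Agent.R013.HU6_522
open Crest.Agent.R013.RR7_948 Crest.Agent.R013.RR8_948 Crest.Agent.R013.RR9_948
open Crest.Agent.R013.RR11_948 Crest.Agent.R013.PicD_398 Crest.Agent.R013.Frob1_914
open Crest.Agent.R013.Red332 Crest.Agent.R013.SSK_332 Crest.Agent.R013.TP_928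
open Crest.Agent.R013.EE809 Crest.Agent.R013.Desc_372 Crest.Agent.R013.HU14_522
open Crest.Agent.R013.DEm_719 Crest.Agent.R013.HU3_522 Crest.Agent.R013.LemD_323

variable {p : ℕ} [hp : Fact p.Prime]
variable {C : Type*} [NormedField C] [IsUltrametricDist C] [NormedAlgebra ℚ_[p] C]
  [Algebra.IsAlgebraic ℚ_[p] C] [IsAlgClosed C] [CharZero C]
variable {Y : Type*} [Field Y] [Algebra C Y] [Algebra (RatFunc C) Y]
  [IsScalarTower C (RatFunc C) Y] [FiniteDimensional (RatFunc C) Y]
  [Algebra.IsSeparable (RatFunc C) Y]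
variable {κ Y0 : Type*} [Field κ] [Field Y0] [Algebra ℚ_[p] κ] [FiniteDimensional ℚ_[p] κ]
  [Algebra κ C] [IsScalarTower ℚ_[p] κ C] [Algebra κ Y0] [Algebra Y0 Y] [Algebra κ Y]
  [IsScalarTower κ C Y] [IsScalarTower κ Y0 Y] [CE κ C Y0 Y]
variable {S : SSK ℚ_[p] C Y} {D : Set S.Dir}
variable {F : Type*} [NontriviallyNormedField F] [NormedAlgebra ℚ_[p] F] [IsUltrametricDist F]
  [CompleteSpace F] [CharZero F] [Algebra C F] [IsScalarTower ℚ_[p] C F]
  [Algebra ℤ_[p] F] [IsScalarTower ℤ_[p] ℚ_[p] F]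
variable {A : Type*} [Group A] [Fintype A] [MulAction A S.Ed]

section inst

variable (p) in
theorem normal_C (k₁ : Type*) [Field k₁] [Algebra ℚ_[p] k₁] [Algebra k₁ C]
    [IsScalarTower ℚ_[p] k₁ C] : Normal k₁ C := by
  haveI : Algebra.IsAlgebraic k₁ C := Algebra.IsAlgebraic.tower_top (K := ℚ_[p]) k₁
  exact normal_iff.mpr fun x =>
    ⟨(Algebra.IsAlgebraic.isAlgebraic x).isIntegral, IsAlgClosed.splits _⟩

theorem isGalois_C : IsGalois ℚ_[p] C := by
  haveI : Normal ℚ_[p] C := normal_C p ℚ_[p]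
  exact ⟨⟩

theorem norm_zp (z : ℤ_[p]) : ‖algebraMap ℤ_[p] F z‖ ≤ 1 := by
  rw [IsScalarTower.algebraMap_apply ℤ_[p] ℚ_[p] F, norm_algebraMap']
  exact z.norm_le_one

theorem norm_p_lt_one : ‖((p : ℕ) : F)‖ < 1 := by
  have h : ((p : ℕ) : F) = algebraMap ℚ_[p] F (p : ℚ_[p]) := (map_natCast _ p).symm
  rw [h, norm_algebraMap']
  exact Padic.norm_p_lt_one

end inst

section galF

variable (hσ : ∀ a, ‖algebraMap C F a‖ = ‖a‖)
  (hd : DenseRange (algebraMap C F))

/-- the automorphism of `F` given by an automorphism of `C` over `ℚ_p` -/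
noncomputable def galF (s : C ≃ₐ[ℚ_[p]] C) : F →+* F :=
  extF (algebraMap C F) hσ hd (s : C →+* C) (fun a => norm_mapE s a)

theorem galF_apply (s : C ≃ₐ[ℚ_[p]] C) (a : C) :
    galF hσ hd s (algebraMap C F a) = algebraMap C F (s a) :=
  extF_apply _ hσ hd _ _ a

theorem norm_galF (s : C ≃ₐ[ℚ_[p]] C) (a : F) : ‖galF hσ hd s a‖ = ‖a‖ :=
  norm_extF _ hσ hd _ _ a

theorem galF_zp (s : C ≃ₐ[ℚ_[p]] C) (z : ℤ_[p]) :
    galF hσ hd s (algebraMap ℤ_[p] F z) = algebraMap ℤ_[p] F z := by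
  rw [IsScalarTower.algebraMap_apply ℤ_[p] ℚ_[p] F, IsScalarTower.algebraMap_apply ℚ_[p] C F,
    galF_apply, s.commutes]

/-- the action on power series -/
noncomputable def galW (s : C ≃ₐ[ℚ_[p]] C) : PowerSeries F →ₗ[ℤ_[p]] PowerSeries F where
  toFun f := PowerSeries.map (galF hσ hd s) f
  map_add' := map_add _
  map_smul' z f := by
    ext n
    rw [PowerSeries.coeff_map, PowerSeries.coeff_smul, RingHom.id_apply, PowerSeries.coeff_smul,
      PowerSeries.coeff_map, Algebra.smul_def, Algebra.smul_def, map_mul, galF_zp]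

theorem coeff_galW (s : C ≃ₐ[ℚ_[p]] C) (f : PowerSeries F) (n : ℕ) :
    coeff n (galW hσ hd s f) = galF hσ hd s (coeff n f) := by
  change coeff n (PowerSeries.map (galF hσ hd s) f) = _
  rw [PowerSeries.coeff_map]

end galF

variable (hk : DiscNorm ℚ_[p]) (em : Y →+* EE ℚ_[p] C)
  (hc : ∀ c : C, em (algebraMap C Y c) = mono 0 c (EE809.finDef_const c))
  (hι : ∀ z, ∃ a b : BD ℚ_[p] C, b ≠ 0 ∧ em z * bdE b = bdE a)
  (hσ : ∀ a, ‖algebraMap C F a‖ = ‖a‖) (hd : DenseRange (algebraMap C F))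

variable (F) in
/-- the form of a class -/
noncomputable def omF : Tate p (Pic C Y) →ₗ[ℤ_[p]] PowerSeries F :=
  omT hk em hι (algebraMap C F) hσ norm_p_lt_one norm_zp

theorem omF_bd (u : Tate p (Pic C Y)) : LemD_323.Bd 1 (omF F hk em hι hσ u) := by
  refine ⟨1, fun n => ?_⟩
  rw [one_pow, mul_one]
  exact HU4_522.Om_int _ _ n

section main

variable [CharP (Ct C) p] [Normal κ C] [IsGalois ℚ_[p] C]

/-- the input of the theorem on invariant forms -/
noncomputable def mkTPS (H : Lvl S κ Y0 (⊥ : IntermediateField κ C) D)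
    (cov : A →* (Y ≃ₐ[C] Y))
    (cov_gal : ∀ (α : A) (g : Y ≃ₐ[Y0] Y) (f : Y), cov α (g f) = g (cov α f))
    (cov_v : ∀ α w, ∃ w', ∀ f, (S.nm w).v (cov α f) = (S.nm w').v f)
    (cov_e0 : ∀ (α : A) e f, f ≠ 0 → ord S (S.e0 (α • e)) (cov α f) = ord S (S.e0 e) f)
    (c : A → ℤ_[p]) (idem : ∀ α, ∑ β, c β * c (β⁻¹ * α) = c α)
    (hem : ∀ (g : Y ≃ₐ[Y0] Y) (z : Y) (n : ℤ),
      (em (g z)).co n = CE.res κ C Y0 Y g ((em z).co n)) :
    TPS p S (CE.Gam Y0 Y (⊥ : IntermediateField κ C)) A (PowerSeries F) where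
  gal g := si κ g.1
  gal_v g v f := H.gal_v g v f
  gal_e0 g e f _ := H.gal_e0 g e f
  gal_e1 g e f _ := H.gal_e1 g e f
  a := (exists_a ℚ_[p] Y Y0 (⊥ : IntermediateField κ C) p).choose
  ha := (exists_a ℚ_[p] Y Y0 (⊥ : IntermediateField κ C) p).choose_spec.1
  res := (exists_a ℚ_[p] Y Y0 (⊥ : IntermediateField κ C) p).choose_spec.2.1
  frob := (exists_a ℚ_[p] Y Y0 (⊥ : IntermediateField κ C) p).choose_spec.2.2.choose
  frob_res := (exists_a ℚ_[p] Y Y0 (⊥ : IntermediateField κ C) p).choose_spec.2.2.choose_spec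
  span v := H.span_fixed v
  cov := cov
  cov_gal α g f := cov_gal α g.1 f
  cov_v := cov_v
  cov_e0 := cov_e0
  c := c
  idem := idem
  gW g := galW hσ hd ((CE.res κ C Y0 Y g.1).restrictScalars ℚ_[p])
  om := omF F hk em hι hσ
  om_gal g u := by
    refine omT_gal hk em hι (algebraMap C F) hσ norm_p_lt_one norm_zp
      (galF hσ hd ((CE.res κ C Y0 Y g.1).restrictScalars ℚ_[p])) (norm_galF hσ hd _)
      (si κ g.1) ((CE.res κ C Y0 Y g.1).restrictScalars ℚ_[p] : C →ₐ[ℚ_[p]] C)
      (fun a => norm_mapE ((CE.res κ C Y0 Y g.1).restrictScalars ℚ_[p]) a) (fun z => ?_)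
      (fun a => galF_apply hσ hd _ a) u
    ext n
    exact hem g.1 z n

variable [Algebra (ZMod p) (Ct C)] [Algebra.IsAlgebraic (ZMod p) (Ct C)]

include hc hd in
/-- **(D1)** -/
theorem exists_class (H : Lvl S κ Y0 (⊥ : IntermediateField κ C) D)
    (cov : A →* (Y ≃ₐ[C] Y))
    (cov_gal : ∀ (α : A) (g : Y ≃ₐ[Y0] Y) (f : Y), cov α (g f) = g (cov α f))
    (cov_v : ∀ α w, ∃ w', ∀ f, (S.nm w).v (cov α f) = (S.nm w').v f)
    (cov_e0 : ∀ (α : A) e f, f ≠ 0 → ord S (S.e0 (α • e)) (cov α f) = ord S (S.e0 e) f)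
    (c : A → ℤ_[p]) (idem : ∀ α, ∑ β, c β * c (β⁻¹ * α) = c α)
    (hem : ∀ (g : Y ≃ₐ[Y0] Y) (z : Y) (n : ℤ),
      (em (g z)).co n = CE.res κ C Y0 Y g ((em z).co n))
    (hM3 : ∀ d : TPS p S (CE.Gam Y0 Y (⊥ : IntermediateField κ C)) A (PowerSeries F),
      d.cov = cov → d.c = c →
      (∀ u : Tate p (Pic C Y), (∃ D : S.Dir, ∀ n, ∃ f : Y, f ≠ 0 ∧ RepK p n (u n) f ∧
        gn (th (S.em D f) * S.em D f⁻¹) ≤ ‖(p : C)‖ ^ n) → d.om u = 0) → d.OmZero)
    (hSl : ∀ lam : S.Ed → ZMod p, bdry S (ZMod p) lam = 0 →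
      ∃ f : Y, f ≠ 0 ∧ (∃ x : Pl C Y →₀ ℤ, divf (k := C) f = p • x) ∧
        ∀ e, ((ord S (S.e0 e) f : ℤ) : ZMod p) = lam e)
    (m : ℕ) (hm : m * finrank ℚ_[p] κ <
      finrank ℚ_[p] (Rank_770.eker (fun α => ((c α : ℤ_[p]) : ℚ_[p])) (bdry S ℚ_[p])))
    {ε : ℝ} (hε : 0 < ε) :
    ∃ s : ℚ_[p], ‖s‖ < ε ∧ ∃ u : Tate p (Pic C Y),
      (∀ n, ∃ a : κ, coeff n (omF F hk em hι hσ u) = algebraMap C F (algebraMap κ C a)) ∧
      (∀ l < m, coeff l (shift (algebraMap ℚ_[p] F s) (omF F hk em hι hσ u)) = 0) ∧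
      coeff m (shift (algebraMap ℚ_[p] F s) (omF F hk em hι hσ u)) ≠ 0 := by
  haveI : Fact (DiscNorm ℚ_[p]) := ⟨hk⟩
  let d := mkTPS hk em hι hσ hd H cov cov_gal cov_v cov_e0 c idem hem
  have h0 : d.OmZero := by
    refine hM3 d rfl rfl fun u hu => ?_
    obtain ⟨D, hD⟩ := hu
    refine omT_zero hk em hc hι (algebraMap C F) hσ norm_p_lt_one norm_zp S D u ⟨1, fun n => ?_⟩
    obtain ⟨f, hf0, hf, hb⟩ := hD n
    exact ⟨f, hf0, hf, by rw [one_mul]; exact hb⟩
  have h1 : d.OmInj := fun u _ hu =>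
    omT_inj hk em hc hι (algebraMap C F) hσ norm_p_lt_one norm_zp S u hu
  let k' : IntermediateField ℚ_[p] C := (⊥ : IntermediateField κ C).restrictScalars ℚ_[p]
  have hk'm : ∀ a : κ, algebraMap κ C a ∈ k' := fun a =>
    (⊥ : IntermediateField κ C).algebraMap_mem a
  have hk'r : ∀ x ∈ k', ∃ a : κ, algebraMap κ C a = x := fun x hx =>
    IntermediateField.mem_bot.mp (show x ∈ (⊥ : IntermediateField κ C) from hx)
  have e1 : κ ≃ₗ[ℚ_[p]] k' := LinearEquiv.ofBijective
    { toFun := fun a => ⟨algebraMap κ C a, hk'm a⟩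
      map_add' := fun a b => Subtype.ext (map_add _ a b)
      map_smul' := fun a b => Subtype.ext (by
        change algebraMap κ C (a • b) = a • algebraMap κ C b
        rw [Algebra.smul_def, map_mul, ← IsScalarTower.algebraMap_apply, Algebra.smul_def]) }
    ⟨fun a b h => (algebraMap κ C).injective (congrArg Subtype.val h), fun x => by
      obtain ⟨a, ha⟩ := hk'r x.1 x.2
      exact ⟨a, Subtype.ext ha⟩⟩
  haveI : FiniteDimensional ℚ_[p] k' := Module.Finite.equiv e1
  have hfr : finrank ℚ_[p] k' = finrank ℚ_[p] κ := e1.symm.finrank_eq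
  obtain ⟨s, hs, u, hu, h2, h3, h4⟩ := exists_order_class d (slopeDvd S) h0 h1 (bdry S ℚ_[p])
    (fun lam hl => onto_of_mod' S hSl lam hl) k' hd
    (fun g => galF hσ hd ((CE.res κ C Y0 Y g.1).restrictScalars ℚ_[p]))
    (fun g => isometry_extF _ _ _ _ _) (fun g c => galF_apply hσ hd _ c)
    (fun g f n => coeff_galW hσ hd _ f n)
    (fun s => by
      let s₁ : C ≃ₐ[κ] C := AlgEquiv.ofRingEquiv (f := s.toRingEquiv) fun x =>
        s.commutes (⟨algebraMap κ C x, hk'm x⟩ : k')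
      refine ⟨⟨CE.lift κ C Y0 Y s₁, ?_⟩, fun c => ?_⟩
      · rw [CE.mem_Gam]
        intro c hc
        obtain ⟨a, rfl⟩ := IntermediateField.mem_bot.mp hc
        rw [CE.lift_algebraMap]
        exact congrArg _ (s₁.commutes a)
      · change (si κ _ : SI C Y C Y).s c = s c
        rw [si_s, CE.res_lift]
        rfl)
    one_pos (fun u _ => omF_bd hk em hι hσ u) m (by rw [hfr]; exact hm) hε
  refine ⟨s, hs, u, fun n => ?_, h3, h4⟩
  obtain ⟨x, hx, hx'⟩ := h2 n
  obtain ⟨a, rfl⟩ := hk'r x hx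
  exact ⟨a, hx'.symm⟩

end main

end Crest.Agent.R013.Fin_928
end

-- ▼ part R013/SD3_940
section

/-!
# R013 / SD3: roots of functions on `Y` with divisible divisor lie in `maxUnramified` (helper940)
-/

set_option autoImplicit false
set_option linter.unusedSectionVars false

namespace Crest.Agent.R013.SD3_940

open scoped NNReal
open Crest.NumberTheoryR.Sect WithZero
open Crest.Agent.R013.Small2_940 Crest.Agent.R013.Small3_940 Crest.Agent.R013.Small4_940
open Crest.Agent.R013.Small5_940 Crest.Agent.R013.Good5_940 Crest.Agent.R013.SD1_940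
open Crest.Agent.R013.SD2_940
open Crest.Agent.R013.Puis_702 (mapL coeff_mapL exists_pow_mul)
open Crest.Agent.R013.RR7_948 Crest.Agent.R013.RR13_948

variable {k : Type*} [Field k] [CharZero k]
  {K : Type*} [Field K] [Algebra k K]
  [Algebra (RatFunc k) K] [IsScalarTower k (RatFunc k) K] [FiniteDimensional (RatFunc k) K]
  {C : Type*} [Field C] [CharZero C]
  {Y : Type*} [Field Y] [Algebra C Y] [Algebra (RatFunc C) Y] [IsScalarTower C (RatFunc C) Y]
  [FiniteDimensional (RatFunc C) Y]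

/-- every element of `maxUnramified` has the value of an element of `K` at every place -/
theorem exists_val_K {W : Valuation (AlgebraicClosure K) ℝ≥0} (hW : IsPlace k W)
    {b : AlgebraicClosure K} (hb : b ∈ maxUnramified k K) :
    ∃ a : K, W b = W (algebraMap K (AlgebraicClosure K) a) := by
  by_cases hb0 : b = 0
  · exact ⟨0, by rw [hb0, map_zero, map_zero, map_zero]⟩
  obtain ⟨L, hL, hbL⟩ := Unr5_957.mem_maxUnramified_iff.mp hb
  have hpl : IsPlace k (W.comap (algebraMap L (AlgebraicClosure K))) := by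
    have halg : Algebra.IsAlgebraic L (AlgebraicClosure K) :=
      Algebra.IsAlgebraic.tower_top (K := K) L
    exact Unr3_957.isPlace_comap (F := L) hW
  obtain ⟨a, ha⟩ := hL.2 _ hpl ⟨b, hbL⟩ (fun h => hb0 (congrArg (Subtype.val : L → AlgebraicClosure K) h))
  exact ⟨a, ha⟩

/-- **(J3)** -/
theorem kummer_phi (i : C →+* Cb k K) (phi : Y →+* maxUnramified k K)
    (hcon : ∀ c : C, phi (algebraMap C Y c) = iM k K (i c)) {m : ℕ} (hm : m ≠ 0) {z : Y}
    (hz0 : z ≠ 0) (hz : ∀ Q : Pl C Y, ∃ j : ℤ, Q.v z = exp (m * j))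
    {y : AlgebraicClosure K} (hy : y ^ m = phi z) : y ∈ maxUnramified k K := by
  obtain ⟨U, hU, hzU⟩ := Unr5_957.mem_maxUnramified_iff.mp (phi z).2
  have hUfd := hU.1
  have hUM : U ≤ maxUnramified k K := le_sSup (a := U) hU
  refine Unr10_957.kummer_mem_maxUnramified hU hm (h := ⟨phi z, hzU⟩) (fun u hu => ?_) hy
  have halg : Algebra.IsAlgebraic U (AlgebraicClosure K) :=
    Algebra.IsAlgebraic.tower_top (K := K) U
  obtain ⟨W, hWu⟩ := Unr9_957.exists_extend_alg (E := AlgebraicClosure K) u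
  have hW : IsPlace k W := Unr3_957.isPlace_of_comap (F := U) (by rw [hWu]; exact hu)
  have hu' : ∀ b : U, u b = W (b : AlgebraicClosure K) := by
    intro b
    rw [← hWu]; rfl
  let w : Valuation Y ℝ≥0 := (W.comap (algebraMap (maxUnramified k K) (AlgebraicClosure K))).comap phi
  have hw : ∀ b : Y, w b = W (phi b : AlgebraicClosure K) := fun b => rfl
  have hphi0 : ∀ b : Y, b ≠ 0 → w b ≠ 0 := fun b hb => (Valuation.ne_zero_iff w).mpr hb
  -- constants
  have hconst : ∀ c : C, c ≠ 0 → w (algebraMap C Y c) = 1 := by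
    intro c hc
    rw [hw, hcon, coe_iM]
    have h1 := Unr9_957.trivial_of_trivial (F := k) (W.comap (algebraMap (Cb k K) (AlgebraicClosure K)))
      (fun a ha => by
        rw [Valuation.comap_apply, ← IsScalarTower.algebraMap_apply]
        exact hW.1 a ha) (i c) ((_root_.map_ne_zero i).mpr hc)
    exact h1
  -- the value of `z` is an `m`-th power in `Y`
  obtain ⟨a', ha'⟩ : ∃ a' : Y, w z = w a' ^ m := by
    by_cases hnt : ∃ a : Y, w a ≠ 0 ∧ w a ≠ 1
    · obtain ⟨Q, hQ⟩ := exists_place (k := C) w hconst hnt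
      obtain ⟨j, hj⟩ := hz Q
      obtain ⟨a', ha'⟩ := Q.surj (exp j)
      refine ⟨a', ?_⟩
      have ha0 : a' ≠ 0 := by
        rintro rfl
        rw [map_zero] at ha'
        exact exp_ne_zero ha'.symm
      have h1 : Q.v (z / a' ^ m) = 1 := by
        rw [map_div₀, map_pow, ha', hj, ← exp_nsmul, nsmul_eq_mul, div_self exp_ne_zero]
      rw [hQ.eq_one_iff_eq_one, map_div₀, map_pow, div_eq_one_iff_eq] at h1
      · exact h1
      · exact pow_ne_zero _ (hphi0 a' ha0)
    · push Not at hnt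
      refine ⟨1, ?_⟩
      rw [map_one, one_pow]
      exact hnt z (hphi0 z hz0)
  obtain ⟨c, hc⟩ := exists_val_K hW (phi a').2
  refine ⟨algebraMap K U c, ?_⟩
  rw [hu', hu']
  have h1 : W (phi z : AlgebraicClosure K) = W (phi a' : AlgebraicClosure K) ^ m := ha'
  rw [hc] at h1
  exact h1

end Crest.Agent.R013.SD3_940
end

-- ▼ part R013/HU15_522
section

/-!
# R013 / HU15: the form of `iota h_n = H_u g^(p^n)` inside the ring of bounded series (helper522)
-/

set_option autoImplicit false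
set_option linter.all false
open Filter Topology
open scoped NNReal
open Crest.Agent.R013.Cell_408

namespace Crest.Agent.R013.HU15_522

open Crest.Agent.R013.RR7_948 Crest.Agent.R013.RR8_948 Crest.Agent.R013.RR11_948
open Crest.Agent.R013.EE809 Crest.Agent.R013.HU6_522 Crest.Agent.R013.HU3_522
open Crest.Agent.R013.HU1_522 Crest.Agent.R013.HU7_522 Crest.Agent.R013.PC_588
open Crest.Agent.R013.HU8_522 Crest.Agent.R013.HU4_522 Crest.Agent.R013.HU2_522
open Crest.Agent.R013.HU9_522 Crest.Agent.R013.HU10_522 Crest.Agent.R013.HU12_522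
open Crest.Agent.R013.HU13_522 Crest.Agent.R013.HU14_522
open Crest.Agent.R013.KAS3_940 Crest.Agent.R013.PicD_398

variable {k : Type*} [NontriviallyNormedField k] [CompleteSpace k] [IsUltrametricDist k]
variable {C : Type*} [NormedField C] [IsUltrametricDist C] [NormedAlgebra k C] [CharZero C]
  [Algebra.IsAlgebraic k C] [IsAlgClosed C]
  {K : Type*} [Field K] [Algebra C K] [Algebra (RatFunc C) K] [IsScalarTower C (RatFunc C) K]
  [FiniteDimensional (RatFunc C) K]
  (hk : DiscNorm k) (em : K →+* EE k C)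
  (hc : ∀ c : C, em (algebraMap C K c) = mono 0 c (EE809.finDef_const c))
  (hι : ∀ z, ∃ a b : BD k C, b ≠ 0 ∧ em z * bdE b = bdE a)
  {F : Type*} [NontriviallyNormedField F] [IsUltrametricDist F] [CharZero F] [CompleteSpace F]
  (σ : C →+* F) (hσ : ∀ a, ‖σ a‖ = ‖a‖)
  {p : ℕ} [Fact p.Prime] (hp : ‖(p : C)‖ < 1)

/-- an element of `U1 F` in the ring of bounded series -/
noncomputable def uB (u : U1 F) : bsub (K := F) 1 one_pos :=
  ⟨((u : (PowerSeries F)ˣ) : PowerSeries F), ⟨1, int1_iff.mp (U1.int u)⟩⟩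

include hc hp in
/-- `em z = a / b` on the disc and `z` represents `u` modulo `p^n`-th powers:
`a * β ^ p^n = H_u * b * α ^ p^n` in the ring of bounded series over `F` -/
theorem rep_bsub {u : PC p Kˣ} (hu : DivP C u) {n : ℕ} {z : Kˣ} (hz : Rep u n z)
    {a b : BD k C} (hb : b ≠ 0) (hab : em z * bdE b = bdE a) :
    ∃ α β : bsub (K := F) 1 one_pos, α ≠ 0 ∧ β ≠ 0 ∧
      bdMap σ hσ a * β ^ (p ^ n) = uB (HuE hk em hι σ hσ u) * bdMap σ hσ b * α ^ (p ^ n) := by
  obtain ⟨g, hg0, hg⟩ := iF_eq σ hσ hk em hι hc hp hu hz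
  have h1 := iF_spec σ hσ em hι hb hab
  obtain ⟨α, β, hβ, hαβ⟩ := IsFractionRing.div_surjective (A := bsub (K := F) 1 one_pos) g
  have hβ0 : β ≠ 0 := nonZeroDivisors.ne_zero hβ
  have hβ' : algebraMap (bsub (K := F) 1 one_pos) (Good3_940.FDisc F 1 one_pos) β ≠ 0 := by
    rw [ne_eq, FaithfulSMul.algebraMap_eq_zero_iff]; exact hβ0
  refine ⟨α, β, ?_, hβ0, ?_⟩
  · rintro rfl
    rw [map_zero, zero_div] at hαβ
    exact hg0 hαβ.symm
  · apply IsFractionRing.injective (bsub (K := F) 1 one_pos) (Good3_940.FDisc F 1 one_pos)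
    rw [map_mul, map_mul, map_mul, map_pow, map_pow]
    have h2 : psi σ hσ a = algebraMap (bsub (K := F) 1 one_pos) (Good3_940.FDisc F 1 one_pos)
        (bdMap σ hσ a) := rfl
    have h3 : psi σ hσ b = algebraMap (bsub (K := F) 1 one_pos) (Good3_940.FDisc F 1 one_pos)
        (bdMap σ hσ b) := rfl
    have h4 : uF (HuE hk em hι σ hσ u) =
        algebraMap (bsub (K := F) 1 one_pos) (Good3_940.FDisc F 1 one_pos)
          (uB (HuE hk em hι σ hσ u)) := rfl
    rw [← h2, ← h3, ← h4, ← h1, hg, ← hαβ, div_pow]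
    field_simp


end Crest.Agent.R013.HU15_522
end

-- ▼ part R013/Good6_940
section

/-!
# R013 / Good6: `good_last`, the last step of part C (helper940)
-/

set_option autoImplicit false
set_option linter.unusedSectionVars false
set_option maxHeartbeats 1000000

namespace Crest.Agent.R013.Good6_940

open PowerSeries Filter
open scoped NNReal Topology
open Crest.NumberTheoryR.Sect
open Crest.Agent.R013.KAS2_940 (Bd bd_zero)
open Crest.Agent.R013.KAS2_940
open Crest.Agent.R013.KAS3_940 Crest.Agent.R013.Good1_940 Crest.Agent.R013.Gl946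
open Crest.Agent.R013.Good3_940 Crest.Agent.R013.Good4_940
open Crest.Agent.R013.Small2_940 Crest.Agent.R013.Small3_940 Crest.Agent.R013.Small4_940
open Crest.Agent.R013.Small5_940 Crest.Agent.R013.Small6_940 Crest.Agent.R013.Good5_940
open Crest.Agent.R013.LemD_323 (shift)
open Crest.Agent.R013.Puis_702 (mapL coeff_mapL)
open Crest.Agent.R013.SE_669 Crest.Agent.R013.CGood_588
open Crest.Agent.R013.Unr9_957 (exists_extend_alg)

universe uF

variable {p : ℕ} [hpF : Fact p.Prime] {k : Type*} [Field k] [CharZero k] [Algebra ℚ_[p] k]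
  {K : Type*} [Field K] [Algebra k K]
  [Algebra (RatFunc k) K] [IsScalarTower k (RatFunc k) K] [FiniteDimensional (RatFunc k) K]
  {P : Valuation (AlgebraicClosure K) ℝ≥0} {x : K}
  {F : Type uF} [NontriviallyNormedField F] [IsUltrametricDist F] [CompleteSpace F] [CharZero F]
  [Algebra ℚ F]

/-- the data at the circle -/
theorem good_core {jC : Cb k K →+* F}
    (hjn : ∀ a : ℚ_[p], ‖jC (algebraMap k (Cb k K) (algebraMap ℚ_[p] k a))‖ = ‖a‖)
    (hjd : DenseRange jC)
    {J : maxUnramified k K →+* LaurentSeries (Cb k K)}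
    (hJ : IsExp (iM k K) (P.comap (algebraMap (maxUnramified k K) (AlgebraicClosure K)))
        (algebraMap K (maxUnramified k K) x) J)
    (Y : IntermediateField K (AlgebraicClosure K)) (hY : Y ≤ maxUnramified k K)
    (hYC : ∀ c : Cb k K, (c : AlgebraicClosure K) ∈ Y)
    {R0 R : ℝ} (hR : 0 < R) (hRR0 : R ≤ R0)
    (hYR : ∀ z : Y, mapL jC (J ⟨z, hY z.2⟩) ∈ frB (⊤ : Subfield F) hR)
    {ε : ℝ} (hε : 0 < ε)
    {q : Cb k K} {i j m : ℕ} {om H : F⟦X⟧} {D CH : ℝ} (hq : ‖jC q‖ < R) (hijm : i + 1 = p ^ j * m)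
    (hom : Bd R0 D om) (hH : Bd R0 CH H) (hH0 : constantCoeff H ≠ 0) (hHom : d⁄dX F H = om * H)
    (hz : ∀ l < i, coeff l (shift (jC q) om) = 0) (hi : coeff i (shift (jC q) om) ≠ 0)
    {a0 b0 : Cb k K} (ha0 : jC a0 = coeff i (shift (jC q) om))
    (hb0 : jC b0 = constantCoeff (shift (jC q) H))
    (hh : ∀ n : ℕ, ∃ h : maxUnramified k K, h ≠ 0 ∧ (h : AlgebraicClosure K) ∈ Y ∧
      (∀ y : AlgebraicClosure K, y ^ p ^ n = h → y ∈ maxUnramified k K) ∧
      ∃ a b : F⟦X⟧, (∃ B, Bd R0 B a) ∧ (∃ B, Bd R0 B b) ∧ a ≠ 0 ∧ b ≠ 0 ∧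
        mapL jC (J h) * toL F (b ^ p ^ n) = toL F (H * a ^ p ^ n)) :
    ∃ (n : ℕ) (c ζ : Cb k K) (h y1 z : AlgebraicClosure K)
      (v : Valuation (AlgebraicClosure K) ℝ≥0),
      c ≠ 0 ∧ ‖jC c‖ < ε ∧ IsPrimitiveRoot ζ (p ^ (n + 1)) ∧ h ∈ Y ∧ y1 ^ p ^ (n + 1) = h ∧
      y1 ∈ maxUnramified k K ∧ z ∈ (IntermediateField.adjoin Y {y1}) ∧
      (∀ c : Cb k K, v c = ‖jC c‖₊) ∧
      v z ≤ 1 ∧ v (z ^ p - z - ((algebraMap K (AlgebraicClosure K) x - q) / c) ^ m) < 1 ∧
      (∀ (n : ℕ) (a : ℕ → Cb k K), v (∑ l ∈ Finset.range n, (a l : AlgebraicClosure K) *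
        ((algebraMap K (AlgebraicClosure K) x - q) / c) ^ l) = (Finset.range n).sup fun l => v (a l)) ∧
      (∀ (f : AlgebraicClosure K) (hf : f ∈ Y) (G G' : ℕ → Cb k K),
        (∃ B, Bd R B (PowerSeries.mk fun n => jC (G n))) →
        (∃ B, Bd R B (PowerSeries.mk fun n => jC (G' n))) →
        J ⟨f, hY hf⟩ * toL _ (PowerSeries.mk G') = toL _ (PowerSeries.mk G) →
        Tendsto (fun n => v (f * (∑ l ∈ Finset.range n, (G' l : AlgebraicClosure K) *
          algebraMap K (AlgebraicClosure K) x ^ l) -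
          ∑ l ∈ Finset.range n, (G l : AlgebraicClosure K) *
          algebraMap K (AlgebraicClosure K) x ^ l)) atTop (𝓝 0)) := by
  classical
  have hp := hpF.out
  -- lam
  obtain ⟨lam, hlam⟩ := exists_lam (k := k) (K := K) p hp.two_le
  have hp0 : (p : Cb k K) ≠ 0 := Nat.cast_ne_zero.mpr hp.ne_zero
  have hlam0 : lam ≠ 0 := by
    rintro rfl
    rw [zero_pow (by have := hp.two_le; omega)] at hlam
    exact hp0 (neg_eq_zero.mp hlam.symm)
  have hlamF : jC lam ^ (p - 1) = -(p : F) := by rw [← map_pow, hlam, map_neg, map_natCast]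
  have hpn : ‖(p : F)‖ < 1 := norm_p_lt (k := k) (K := K) hjn
  have hlam1 : ‖jC lam‖ < 1 := by
    have h1 : ‖jC lam‖ ^ (p - 1) < 1 := by
      rw [← norm_pow, hlamF, norm_neg]; exact hpn
    by_contra hcon
    push Not at hcon
    exact absurd h1 (not_lt.mpr (one_le_pow₀ hcon))
  have hom' : Bd R D om := hom.mono_left hR.le hRR0
  have hH' : Bd R CH H := hH.mono_left hR.le hRR0
  obtain ⟨rs, hrs, Hg⟩ := good hp hlamF hlam1 hR hH' hom' hH0 hHom hq hz hi hijm
  have ha00 : a0 ≠ 0 := by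
    rintro rfl
    rw [map_zero] at ha0
    exact hi ha0.symm
  obtain ⟨n, c, hc0, hc, hcn⟩ := exists_c (jC := jC) hpn ha00 hlam0 i
    (ε := min ε (min rs R)) (by positivity)
  have hcε : ‖jC c‖ < ε := hc.trans_le (min_le_left _ _)
  have hcrs : ‖jC c‖ < rs := hc.trans_le ((min_le_right _ _).trans (min_le_left _ _))
  have hcR : ‖jC c‖ < R := hc.trans_le ((min_le_right _ _).trans (min_le_right _ _))
  have hc0' : jC c ≠ 0 := (_root_.map_ne_zero _).mpr hc0
  have hcnF : coeff i (shift (jC q) om) / ((i + 1 : ℕ) : F) * jC c ^ (i + 1) =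
      (p : F) ^ n * jC lam ^ p := by
    have h1 := congrArg jC hcn
    rw [map_mul, map_div₀, map_pow, map_mul, map_pow, map_pow, map_natCast, map_natCast, ha0] at h1
    exact h1
  obtain ⟨ζ, hζ⟩ : ∃ ζ : Cb k K, IsPrimitiveRoot ζ (p ^ (n + 1)) := by
    have : NeZero ((p ^ (n + 1) : ℕ) : Cb k K) :=
      ⟨by exact_mod_cast pow_ne_zero _ hp0⟩
    exact HasEnoughRootsOfUnity.exists_primitiveRoot (Cb k K) (p ^ (n + 1))
  have hζF : ∃ zeta : F, IsPrimitiveRoot zeta (p ^ (n + 1)) :=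
    ⟨jC ζ, hζ.map_of_injective jC.injective⟩
  obtain ⟨e, he⟩ := IsAlgClosed.exists_pow_nat_eq b0 (pow_pos hp.pos (n + 1))
  have heF : ∃ e : F, e ^ p ^ (n + 1) = constantCoeff (shift (jC q) H) :=
    ⟨jC e, by rw [← map_pow, he, hb0]⟩
  obtain ⟨h, hh0, hhY, hhu, a, b, ⟨Ba, ha⟩, ⟨Bb, hb⟩, ha', hb', hab⟩ := hh (n + 1)
  obtain ⟨y1, hy1⟩ := IsAlgClosed.exists_pow_nat_eq (h : AlgebraicClosure K) (pow_pos hp.pos (n + 1))
  -- the field `Y`
  let inc : Y →+* maxUnramified k K := (IntermediateField.inclusion hY).toRingHom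
  have hinc : ∀ z : Y, inc z = ⟨z, hY z.2⟩ := fun z => rfl
  let jY : Y →+* LaurentSeries F := ((mapL jC).comp J).comp inc
  have hjY : ∀ z : Y, jY z = mapL jC (J ⟨z, hY z.2⟩) := fun z => rfl
  let iota : Y →+* FDisc F R hR := liftD hR jY fun z => by rw [hjY]; exact hYR z
  have hiota : ∀ z : Y, frL hR (iota z) = mapL jC (J ⟨z, hY z.2⟩) := fun z => frL_liftD z
  have hiC : ∀ c : Cb k K, iota ⟨c, hYC c⟩ =
      algebraMap _ _ (⟨C (jC c), C_mem (jC c)⟩ : bsub (K := F) R hR) := by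
    intro c
    apply (frL (F := F) hR).injective
    rw [hiota, frL_algebraMap]
    have h1 : (⟨((⟨(c : AlgebraicClosure K), hYC c⟩ : Y) : AlgebraicClosure K), hY (hYC c)⟩ :
      maxUnramified k K) = iM k K c := rfl
    rw [h1, hJ.con, mapL_C, toL, HahnSeries.ofPowerSeries_C]
  have hxY : algebraMap K (AlgebraicClosure K) x ∈ Y := Y.algebraMap_mem x
  have hiX : iota ⟨algebraMap K (AlgebraicClosure K) x, hxY⟩ =
      algebraMap _ _ (⟨X, X_mem⟩ : bsub (K := F) R hR) := by
    apply (frL (F := F) hR).injective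
    rw [hiota, frL_algebraMap]
    have h1 : (⟨((⟨algebraMap K (AlgebraicClosure K) x, hxY⟩ : Y) : AlgebraicClosure K), hY hxY⟩ :
      maxUnramified k K) = algebraMap K (maxUnramified k K) x := rfl
    rw [h1, hJ.par, mapL_single, toL, HahnSeries.ofPowerSeries_X]
  -- the circle field
  obtain ⟨E, iE1, iE2, iE3, iE4, y, hy, hyd⟩ := Good2_940.exists_circle F
  have hdense : DenseRange ((frq hR hy hq hcR hc0').comp iota) := by
    refine dense_of_const hyd iota hiX fun a ε hε => ?_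
    obtain ⟨c, hc⟩ := hjd.exists_dist_lt a hε
    exact ⟨⟨c, hYC c⟩, jC c, by rw [← dist_eq_norm]; exact hc, hiC c⟩
  -- the class
  have ha2 : a ∈ bsub (K := F) R hR := ⟨Ba, ha.mono_left hR.le hRR0⟩
  have hb2 : b ∈ bsub (K := F) R hR := ⟨Bb, hb.mono_left hR.le hRR0⟩
  let aF : FDisc F R hR := algebraMap _ _ (⟨a, ha2⟩ : bsub (K := F) R hR)
  let bF : FDisc F R hR := algebraMap _ _ (⟨b, hb2⟩ : bsub (K := F) R hR)
  have haF : aF ≠ 0 := by
    intro h0
    have h1 := congrArg (frL hR) h0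
    rw [frL_algebraMap, map_zero, map_eq_zero_iff _ HahnSeries.ofPowerSeries_injective] at h1
    exact ha' h1
  have hbF : bF ≠ 0 := by
    intro h0
    have h1 := congrArg (frL hR) h0
    rw [frL_algebraMap, map_zero, map_eq_zero_iff _ HahnSeries.ofPowerSeries_injective] at h1
    exact hb' h1
  have hgh : iota ⟨h, hhY⟩ = algebraMap _ _ (⟨H, mem_bsub hH'⟩ : bsub (K := F) R hR) *
      (aF / bF) ^ p ^ (n + 1) := by
    rw [div_pow, ← mul_div_assoc, eq_div_iff (pow_ne_zero _ hbF)]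
    apply (frL (F := F) hR).injective
    rw [map_mul, map_mul, map_pow, map_pow, hiota, frL_algebraMap, frL_algebraMap, frL_algebraMap,
      ← map_pow, ← map_pow, ← map_mul]
    exact hab
  let K1 : IntermediateField Y (AlgebraicClosure K) := IntermediateField.adjoin Y {y1}
  have hy1K : y1 ∈ K1 := IntermediateField.mem_adjoin_simple_self Y y1
  have : Algebra.IsAlgebraic Y (AlgebraicClosure K) :=
    Algebra.IsAlgebraic.tower_top (K := K) Y
  obtain ⟨v1, hv1, z, hz1, hz2⟩ := Hg n (jC c) hc0' hcrs hcR hcnF hζF heF E y hy Y K1 iota hdense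
    ⟨h, hhY⟩ (aF / bF) (div_ne_zero haF hbF) hgh ⟨y1, hy1K⟩ (Subtype.ext hy1)
  obtain ⟨v, hv⟩ := exists_extend_alg (E := AlgebraicClosure K) v1
  have hvY : ∀ a : Y, v (a : AlgebraicClosure K) = ‖frq hR hy hq hcR hc0' (iota a)‖₊ := by
    intro a
    rw [← hv1 a, ← hv]
    rfl
  have hvC : ∀ c : Cb k K, v c = ‖jC c‖₊ := by
    intro c
    have h1 := hvY ⟨c, hYC c⟩
    rw [hiC, frq_algebraMap, evq_C, nnnorm_algebraMap'] at h1
    exact h1
  have hfX : frq hR hy hq hcR hc0' (iota ⟨algebraMap K (AlgebraicClosure K) x, hxY⟩) =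
      pt (jC q) (jC c) y := by
    rw [hiX, frq_algebraMap, evq_X]
  let t : Y := (⟨algebraMap K (AlgebraicClosure K) x, hxY⟩ - ⟨q, hYC q⟩) / ⟨c, hYC c⟩
  have ht : (t : AlgebraicClosure K) = (algebraMap K (AlgebraicClosure K) x - q) / c := rfl
  have hfC : ∀ c : Cb k K, frq hR hy hq hcR hc0' (iota ⟨c, hYC c⟩) = algebraMap F E (jC c) := by
    intro c
    rw [hiC, frq_algebraMap, evq_C]
  have hft : frq hR hy hq hcR hc0' (iota t) = y := by
    have hcE : algebraMap F E (jC c) ≠ 0 := (_root_.map_ne_zero _).mpr hc0'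
    show frq hR hy hq hcR hc0' (iota ((⟨algebraMap K (AlgebraicClosure K) x, hxY⟩ - ⟨q, hYC q⟩) /
      ⟨c, hYC c⟩)) = y
    rw [map_div₀, map_div₀, map_sub, map_sub, hfX, hfC, hfC, pt, add_sub_cancel_left,
      mul_div_cancel_left₀ _ hcE]
  refine ⟨n, c, ζ, h, y1, z, v, hc0, hcε, hζ, hhY, hy1, hhu y1 hy1, z.2, hvC, ?_, ?_, ?_, ?_⟩
  · have h1 : v (z : AlgebraicClosure K) = v1 z := by rw [← hv]; rfl
    rw [h1]; exact hz1
  · have h1 := hz2 t (by rw [hft, sub_self, norm_zero]; exact one_pos)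
    rw [← ht]
    rw [← hv] at h1
    exact h1
  · intro N a
    have h1 : (∑ l ∈ Finset.range N, (a l : AlgebraicClosure K) *
        ((algebraMap K (AlgebraicClosure K) x - q) / c) ^ l) =
        ((∑ l ∈ Finset.range N, (⟨a l, hYC (a l)⟩ : Y) * t ^ l : Y) : AlgebraicClosure K) := by
      rw [← ht]
      push_cast
      rfl
    rw [h1, hvY, map_sum, map_sum]
    have h2 : ∀ l, frq hR hy hq hcR hc0' (iota ((⟨a l, hYC (a l)⟩ : Y) * t ^ l)) =
        algebraMap F E (jC (a l)) * y ^ l := by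
      intro l
      rw [map_mul, map_mul, map_pow, map_pow, hft, hfC]
    rw [Finset.sum_congr rfl fun l _ => h2 l, gauss_sum hy]
    exact Finset.sup_congr rfl fun l _ => (hvC (a l)).symm
  · rintro f hf G G' ⟨B, hB⟩ ⟨B', hB'⟩ hfG
    let gA : bsub (K := F) R hR := ⟨_, mem_bsub hB⟩
    let gB : bsub (K := F) R hR := ⟨_, mem_bsub hB'⟩
    have h1 : iota ⟨f, hf⟩ * algebraMap _ _ gB = algebraMap _ _ gA := by
      apply (frL (F := F) hR).injective
      rw [map_mul, hiota, frL_algebraMap, frL_algebraMap]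
      have h2 := congrArg (mapL jC) hfG
      rw [map_mul] at h2
      have h3 : ∀ G : ℕ → Cb k K, mapL jC (toL _ (PowerSeries.mk G)) =
          toL F (PowerSeries.mk fun n => jC (G n)) := by
        intro G
        refine HahnSeries.ext (funext fun i => ?_)
        rw [coeff_mapL, toL, toL, PowerSeries.coeff_coe, PowerSeries.coeff_coe]
        split_ifs
        · rw [map_zero]
        · rw [coeff_mk, coeff_mk]
      rw [h3, h3] at h2
      exact h2
    have h2 := tendsto_circle (hy := hy) (hq := hq) (hc := hcR) (hc0 := hc0') h1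
    refine h2.congr fun N => ?_
    have h3 : (f * (∑ l ∈ Finset.range N, (G' l : AlgebraicClosure K) *
          algebraMap K (AlgebraicClosure K) x ^ l) -
          ∑ l ∈ Finset.range N, (G l : AlgebraicClosure K) *
          algebraMap K (AlgebraicClosure K) x ^ l) =
        (((⟨f, hf⟩ : Y) * (∑ l ∈ Finset.range N, (⟨G' l, hYC (G' l)⟩ : Y) *
          (⟨algebraMap K (AlgebraicClosure K) x, hxY⟩ : Y) ^ l) -
          ∑ l ∈ Finset.range N, (⟨G l, hYC (G l)⟩ : Y) *
          (⟨algebraMap K (AlgebraicClosure K) x, hxY⟩ : Y) ^ l : Y) : AlgebraicClosure K) := by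
      push_cast
      rfl
    rw [h3, hvY, map_sub, map_sub, map_mul, map_mul, map_sum, map_sum, map_sum, map_sum]
    simp only [map_mul, map_pow, hfX, hfC]
    simp only [gA, gB, coeff_mk]

end Crest.Agent.R013.Good6_940
end

-- ▼ part R013/Good7_940
section

/-!
# R013 / Good7: `good_last` (helper940)

`good_last` : `(∀ ε > 0, Inp p jC J E0 R0 ε) → Concl p k K P x δ η`.
-/

set_option autoImplicit false
set_option linter.unusedSectionVars false
set_option maxHeartbeats 1000000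

namespace Crest.Agent.R013.Good7_940

open PowerSeries Filter
open scoped NNReal Topology
open Crest.NumberTheoryR.Sect
open Crest.Agent.R013.KAS2_940 (Bd bd_zero)
open Crest.Agent.R013.KAS2_940
open Crest.Agent.R013.KAS3_940 Crest.Agent.R013.Good1_940 Crest.Agent.R013.Gl946
open Crest.Agent.R013.Good3_940 Crest.Agent.R013.Good4_940
open Crest.Agent.R013.Small2_940 Crest.Agent.R013.Small3_940 Crest.Agent.R013.Small4_940
open Crest.Agent.R013.Small5_940 Crest.Agent.R013.Small6_940 Crest.Agent.R013.Good5_940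
open Crest.Agent.R013.Good6_940
open Crest.Agent.R013.LemD_323 (shift)
open Crest.Agent.R013.Puis_702 (mapL coeff_mapL)
open Crest.Agent.R013.SE_669 Crest.Agent.R013.CGood_588

universe uF

variable {p : ℕ} [hpF : Fact p.Prime] {k : Type*} [Field k] [CharZero k] [Algebra ℚ_[p] k]
  {K : Type*} [Field K] [Algebra k K]
  [Algebra (RatFunc k) K] [IsScalarTower k (RatFunc k) K] [FiniteDimensional (RatFunc k) K]
  {P : Valuation (AlgebraicClosure K) ℝ≥0} {x : K}
  {F : Type uF} [NontriviallyNormedField F] [IsUltrametricDist F] [CompleteSpace F] [CharZero F]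
  [Algebra ℚ F]

theorem mem_CbS {c : AlgebraicClosure K} : c ∈ CbS k K ↔ IsIntegral k c := by
  rw [← isAlgebraic_iff_isIntegral]
  exact mem_algebraicClosure_iff

/-- **(GOOD), the last step of part C** -/
theorem good_last (hP : IsRationalPlace k K (P.comap (algebraMap K (AlgebraicClosure K))))
    (hx : IsUniformizerAt (P.comap (algebraMap K (AlgebraicClosure K))) x)
    {jC : Cb k K →+* F}
    (hjn : ∀ a : ℚ_[p], ‖jC (algebraMap k (Cb k K) (algebraMap ℚ_[p] k a))‖ = ‖a‖)
    (hjd : DenseRange jC)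
    {J : maxUnramified k K →+* LaurentSeries (Cb k K)}
    (hJ : IsExp (iM k K) (P.comap (algebraMap (maxUnramified k K) (AlgebraicClosure K)))
        (algebraMap K (maxUnramified k K) x) J)
    (E0 : IntermediateField K (AlgebraicClosure K)) [FiniteDimensional K E0]
    (hE0 : E0 ≤ maxUnramified k K) {R0 : ℝ} (hR0 : 0 < R0)
    (hin : ∀ ε : ℝ, 0 < ε → Inp p jC J E0 R0 ε) {δ η : ℝ≥0} (hδ : 0 < δ) (hη : 0 < η) :
    Concl p k K P x δ η := by
  classical
  have hp := hpF.out
  have hpn : ‖(p : F)‖ < 1 := norm_p_lt (k := k) (K := K) hjn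
  have hpn0 : 0 < ‖(p : F)‖ := norm_p_pos
  -- the normal closure
  obtain ⟨E1, hE01, hE1u, hE1n⟩ : ∃ E1 : IntermediateField K (AlgebraicClosure K), E0 ≤ E1 ∧
      IsUnramifiedEverywhere k K E1 ∧ Normal K E1 :=
    ⟨IntermediateField.normalClosure K E0 (AlgebraicClosure K), E0.le_normalClosure,
      Unr5_957.unr_normalClosure (Unr5_957.le_maxUnramified_iff.mp hE0), inferInstance⟩
  have hE1fd : FiniteDimensional K E1 := hE1u.1
  have hE1 : E1 ≤ maxUnramified k K := le_sSup (a := E1) hE1u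
  obtain ⟨T0, ρ, hρ, hrad⟩ := exists_radius hP hx hJ jC E1 hE1
  set R : ℝ := min ρ R0 with hRdef
  have hR : 0 < R := lt_min hρ hR0
  have hRρ : R ≤ ρ := min_le_left _ _
  have hRR0 : R ≤ R0 := min_le_right _ _
  -- `π`
  obtain ⟨N1, hN1⟩ := exists_pow_lt_of_lt_one
    (show (0 : ℝ) < min (δ : ℝ) (η * R) from lt_min hδ (mul_pos hη hR)) hpn
  have hπ : 0 < ‖(p : F)‖ ^ N1 := by positivity
  set ε : ℝ := min (η * ‖(p : F)‖ ^ N1) R with hεdef
  have hε : 0 < ε := lt_min (mul_pos hη hπ) hR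
  obtain ⟨q, i, j, m, om, H, D, CH, hq, hijm, hm2, hpm, hom, hH, hH0, hHom, hz, hi, ⟨a0, ha0⟩,
    ⟨b0, hb0⟩, hh⟩ := hin ε hε
  -- `Y`
  let Y : IntermediateField K (AlgebraicClosure K) := E1 ⊔ IntermediateField.adjoin K (CbS k K)
  have hCM : IntermediateField.adjoin K (CbS k K) ≤ maxUnramified k K := by
    rw [IntermediateField.adjoin_le_iff]
    intro c hc
    exact MaxUnr_97.mem_maxUnramified_of_isIntegral c (mem_CbS.mp hc)
  have hY : Y ≤ maxUnramified k K := sup_le hE1 hCM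
  have hYC : ∀ c : Cb k K, (c : AlgebraicClosure K) ∈ Y := fun c =>
    (le_sup_right : IntermediateField.adjoin K (CbS k K) ≤ Y)
      (IntermediateField.subset_adjoin K _ c.2)
  have hYR : ∀ z : Y, mapL jC (J ⟨z, hY z.2⟩) ∈ frB (⊤ : Subfield F) hR := by
    intro z
    refine frB_mono le_top (hrad R hR hRρ (algebraicClosure k (AlgebraicClosure K))
      (fun t _ => t.2) (fun c hc => mem_CbS.mp hc) _ ?_)
    exact closure_of_mem_sup E1 (CbS k K) z.2
  obtain ⟨n, c, ζ, h, y1, z, v, hc0, hcε, hζ, hhY, hy1, hy1M, hzK, hvC, hz1, hz2, hgauss, hdisc⟩ :=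
    good_core hjn hjd hJ Y hY hYC hR hRR0 hYR hε (hq.trans_le (min_le_right _ _)) hijm hom hH hH0
      hHom hz hi ha0 hb0 (fun n => by
        obtain ⟨h, h1, h2, h3, h4⟩ := hh n
        exact ⟨h, h1, (sup_le_sup hE01 le_rfl : E0 ⊔ IntermediateField.adjoin K (CbS k K) ≤ Y) h2,
          h3, h4⟩)
  -- finite level
  obtain ⟨Th, hTh, hTh2⟩ := exists_level E1 (CbS k K) ∅ (z := h) (by
    rw [IntermediateField.adjoin_empty, sup_bot_eq]; exact hhY)
  rw [IntermediateField.adjoin_empty, sup_bot_eq] at hTh2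
  obtain ⟨Tz, hTz, hTz2⟩ := exists_level E1 (CbS k K) {y1} (z := z) (by
    have h1 : (IntermediateField.adjoin Y {y1}).restrictScalars K =
        IntermediateField.adjoin K ((Y : Set (AlgebraicClosure K)) ∪ {y1}) :=
      IntermediateField.restrictScalars_adjoin K Y {y1}
    have h2 : z ∈ (IntermediateField.adjoin Y {y1}).restrictScalars K := hzK
    rw [h1, IntermediateField.adjoin_union, IntermediateField.adjoin_self] at h2
    exact h2)
  let T : Finset (AlgebraicClosure K) := Th ∪ Tz ∪ (Finset.image (fun t : Cb k K => (t : AlgebraicClosure K)) T0) ∪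
    {(q : AlgebraicClosure K), (c : AlgebraicClosure K), (ζ : AlgebraicClosure K)}
  have hT : ∀ t ∈ T, IsAlgebraic k t := by
    intro t ht
    rw [isAlgebraic_iff_isIntegral, ← mem_CbS]
    simp only [T, Finset.mem_union, Finset.mem_image, Finset.mem_insert, Finset.mem_singleton] at ht
    rcases ht with ((h1 | h1) | h1) | h1 | h1 | h1
    · exact hTh h1
    · exact hTz h1
    · obtain ⟨s, _, rfl⟩ := h1
      exact s.2
    · rw [h1]; exact q.2
    · rw [h1]; exact c.2
    · rw [h1]; exact ζ.2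
  obtain ⟨f, hf0, hfT⟩ := exists_poly T hT
  let C : IntermediateField k (AlgebraicClosure K) :=
    IntermediateField.adjoin k (f.rootSet (AlgebraicClosure K))
  have hCfd : FiniteDimensional k C := finite_root f
  have hTC : ∀ t ∈ T, t ∈ C := fun t ht => IntermediateField.subset_adjoin k _ (hfT t ht)
  have hCint : ∀ c ∈ C, IsIntegral k c := fun c hc => by
    have h1 : IsIntegral k (⟨c, hc⟩ : C) := Algebra.IsIntegral.isIntegral _
    exact h1.map (IsScalarTower.toAlgHom k C (AlgebraicClosure K))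
  have hqC : (q : AlgebraicClosure K) ∈ C := hTC _ (by simp [T])
  have hcC : (c : AlgebraicClosure K) ∈ C := hTC _ (by simp [T])
  have hζC : (ζ : AlgebraicClosure K) ∈ C := hTC _ (by simp [T])
  let A : IntermediateField K (AlgebraicClosure K) :=
    IntermediateField.adjoin K (f.rootSet (AlgebraicClosure K))
  have hCA : ∀ c ∈ C, c ∈ A := adjoin_root_le f
  let L : IntermediateField K (AlgebraicClosure K) := E1 ⊔ A
  let M : IntermediateField K (AlgebraicClosure K) := L ⊔ IntermediateField.adjoin K {y1}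
  have hAM : A ≤ maxUnramified k K := by
    rw [IntermediateField.adjoin_le_iff]
    intro t ht
    refine MaxUnr_97.mem_maxUnramified_of_isIntegral t (hCint t ?_)
    exact IntermediateField.subset_adjoin k _ ht
  have hAfd : FiniteDimensional K A := finite_rootK f
  have hLM : L ≤ maxUnramified k K := sup_le hE1 hAM
  have hLY : L ≤ Y := by
    refine sup_le_sup le_rfl ?_
    rw [IntermediateField.adjoin_le_iff]
    intro t ht
    refine IntermediateField.subset_adjoin K _ (mem_CbS.mpr (hCint t ?_))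
    exact IntermediateField.subset_adjoin k _ ht
  have hy1int : IsIntegral K y1 := Algebra.IsIntegral.isIntegral y1
  have hy1fd : FiniteDimensional K (IntermediateField.adjoin K {y1}) :=
    IntermediateField.adjoin.finiteDimensional hy1int
  have hTA : ∀ T' : Finset (AlgebraicClosure K), T' ⊆ T →
      IntermediateField.adjoin K (T' : Set (AlgebraicClosure K)) ≤ A := by
    intro T' hT'
    rw [IntermediateField.adjoin_le_iff]
    intro t ht
    exact hCA _ (hTC t (hT' ht))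
  have hThT : Th ⊆ T := by
    intro t ht
    simp only [T, Finset.mem_union]
    exact Or.inl (Or.inl (Or.inl ht))
  have hTzT : Tz ⊆ T := by
    intro t ht
    simp only [T, Finset.mem_union]
    exact Or.inl (Or.inl (Or.inr ht))
  have hvπ : v ((p : AlgebraicClosure K) ^ N1) = ‖(p : F)‖₊ ^ N1 := by
    have h1 := hvC (p : Cb k K)
    have h2 : (((p : Cb k K) : AlgebraicClosure K)) = (p : AlgebraicClosure K) := by push_cast; rfl
    rw [h2, map_natCast jC] at h1
    rw [map_pow, h1]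
  have hCcl : ∀ z : maxUnramified k K, (z : AlgebraicClosure K) ∈ L →
      mapL jC (J z) ∈ frB (DC jC C) hR := by
    intro z hz
    refine hrad R hR hRρ C (fun t ht => hTC _ ?_) hCint z ?_
    · simp only [T, Finset.mem_union, Finset.mem_image]
      exact Or.inl (Or.inr ⟨t, ht, rfl⟩)
    · have h1 : Subfield.closure ((E1 : Set (AlgebraicClosure K)) ∪ f.rootSet (AlgebraicClosure K)) ≤
          Subfield.closure ((E1 : Set (AlgebraicClosure K)) ∪ C) := by
        refine Subfield.closure_mono (Set.union_subset_union_right _ ?_)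
        exact IntermediateField.subset_adjoin k _
      exact h1 (closure_of_mem_sup E1 _ hz)
  have hru := ru_M hP hx
  refine ⟨C, (p : AlgebraicClosure K) ^ N1, q, c, v, L, M, n + 1, m, ζ, y1, z, hCfd,
    pow_mem (natCast_mem C p) N1, hqC, hcC, pow_ne_zero _ ?_, ?_, ?_, ?_, ?_, ?_, ?_, le_sup_left, ?_,
    ?_, ?_, ?_, ?_, hζC, ?_, ?_, rfl, ?_, hz1, hm2, hpm, hz2⟩
  · -- p ≠ 0
    have : CharZero K := charZero_of_injective_algebraMap (algebraMap k K).injective
    exact Nat.cast_ne_zero.mpr hp.ne_zero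
  · exact fun h0 => hc0 (Subtype.ext h0)
  · rw [hvπ, ← NNReal.coe_lt_coe]
    push_cast
    exact hN1.trans_le (min_le_left _ _)
  · rw [hvπ, hvC, ← NNReal.coe_lt_coe]
    push_cast
    exact hq.trans_le (min_le_left _ _)
  · rw [hvπ, hvC, ← NNReal.coe_lt_coe]
    push_cast
    exact hcε.trans_le (min_le_left _ _)
  · intro a
    have h1 := hvC (algebraMap k (Cb k K) (algebraMap ℚ_[p] k a))
    have h2 : ((algebraMap k (Cb k K) (algebraMap ℚ_[p] k a) : Cb k K) : AlgebraicClosure K) =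
        algebraMap k (AlgebraicClosure K) (algebraMap ℚ_[p] k a) := rfl
    rw [h2] at h1
    rw [h1]
    exact NNReal.eq (hjn a)
  · intro a ha
    exact (le_sup_right : A ≤ L) (hCA a ha)
  · refine sup_le hLM ?_
    rw [IntermediateField.adjoin_le_iff]
    rintro _ rfl
    exact hy1M
  · infer_instance
  · exact normal_sup E1 f
  · refine ⟨⟨R, hR.le⟩, ?_, ?_⟩
    · rw [hvπ, ← NNReal.coe_lt_coe]
      push_cast
      exact hN1.trans_le (min_le_right _ _)
    · intro g
      obtain ⟨a, ha, b, hb, hb0', hab⟩ := hCcl ⟨g, hLM g.2⟩ g.2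
      choose G hGC hGa using fun n => mem_DC.mp (ha.1 n)
      choose G' hGC' hGb using fun n => mem_DC.mp (hb.1 n)
      have eA : (PowerSeries.mk fun n => jC (G n)) = a := by
        ext n; rw [coeff_mk, hGa]
      have eB : (PowerSeries.mk fun n => jC (G' n)) = b := by
        ext n; rw [coeff_mk, hGb]
      have hmk : ∀ G : ℕ → Cb k K, mapL jC (toL _ (PowerSeries.mk G)) =
          toL F (PowerSeries.mk fun n => jC (G n)) := by
        intro G
        refine HahnSeries.ext (funext fun i => ?_)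
        rw [coeff_mapL, toL, toL, PowerSeries.coeff_coe, PowerSeries.coeff_coe]
        split_ifs
        · rw [map_zero]
        · rw [coeff_mk, coeff_mk]
      have hJg : J ⟨g, hLM g.2⟩ * toL _ (PowerSeries.mk G') = toL _ (PowerSeries.mk G) := by
        apply Puis_702.mapL_injective jC.injective
        rw [map_mul, hmk, hmk, eA, eB]
        exact hab
      obtain ⟨Ba, hBa⟩ := ha.2
      obtain ⟨Bb, hBb⟩ := hb.2
      refine ⟨fun n => G n, fun n => G' n, hGC, hGC', ?_, ?_, ?_, ?_⟩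
      · by_contra hcon
        push Not at hcon
        apply hb0'
        rw [← eB]
        ext n
        rw [coeff_mk, map_zero, _root_.map_eq_zero]
        exact Subtype.ext (hcon n)
      · refine ⟨(max Ba Bb).toNNReal, fun n => ⟨?_, ?_⟩⟩
        · rw [hvC, ← NNReal.coe_le_coe]
          push_cast
          rw [hGa]
          exact (hBa n).trans ((le_max_left _ _).trans (Real.le_coe_toNNReal _))
        · rw [hvC, ← NNReal.coe_le_coe]
          push_cast
          rw [hGb]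
          exact (hBb n).trans ((le_max_right _ _).trans (Real.le_coe_toNNReal _))
      · exact hdisc g (hLY g.2) G G' ⟨Ba, by rw [eA]; exact hBa⟩ ⟨Bb, by rw [eB]; exact hBb⟩ hJg
      · have h1 := tendsto_place hJ hru hJg
        refine h1.congr fun N => ?_
        simp only [coeff_mk]
        show P (((⟨g, hLM g.2⟩ : maxUnramified k K) * (∑ l ∈ Finset.range N, iM k K (G' l) *
          (algebraMap K (maxUnramified k K) x) ^ l) - ∑ l ∈ Finset.range N, iM k K (G l) *
          (algebraMap K (maxUnramified k K) x) ^ l : maxUnramified k K) : AlgebraicClosure K) = _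
        push_cast
        rfl
  · intro N a ha
    have h1 := hgauss N fun l => (⟨a l, mem_CbS.mpr (hCint _ (ha l))⟩ : Cb k K)
    exact h1
  · exact hζ.map_of_injective (f := algebraMap (Cb k K) (AlgebraicClosure K))
      (algebraMap (Cb k K) (AlgebraicClosure K)).injective
  · rw [hy1]
    exact (sup_le_sup le_rfl (hTA Th hThT) :
      E1 ⊔ IntermediateField.adjoin K (Th : Set (AlgebraicClosure K)) ≤ L) hTh2
  · exact (sup_le_sup (sup_le_sup le_rfl (hTA Tz hTzT)) le_rfl :
      E1 ⊔ IntermediateField.adjoin K (Tz : Set (AlgebraicClosure K)) ⊔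
        IntermediateField.adjoin K {y1} ≤ M) hTz2

end Crest.Agent.R013.Good7_940
end

-- ▼ part R013/SD4_940
section

/-!
# R013 / SD4: a class with a form of exact order `i` gives the input `Inp` of `good_last` (helper940)

* `coeff_shift_rescale`, `derivative_rescale` : translation between the variables `T = X / r` and `X`;
* `mem_closed_shift` : coefficients in a closed subfield;
* `inp_of_class` : **(J2)**.
-/

set_option autoImplicit false
set_option linter.unusedSectionVars false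

namespace Crest.Agent.R013.SD4_940

open scoped NNReal
open PowerSeries (coeff constantCoeff)
open Crest.NumberTheoryR.Sect WithZero
open Crest.Agent.R013.Small2_940 Crest.Agent.R013.Small3_940 Crest.Agent.R013.Small4_940
open Crest.Agent.R013.Small5_940 Crest.Agent.R013.Good5_940 Crest.Agent.R013.SD1_940
open Crest.Agent.R013.SD2_940 Crest.Agent.R013.SD3_940
open Crest.Agent.R013.Puis_702 (mapL coeff_mapL exists_pow_mul)
open Crest.Agent.R013.RR7_948 Crest.Agent.R013.RR13_948 Crest.Agent.R013.RR11_948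
open Crest.Agent.R013.LemD_323 (shift coeff_shift summable_shift)
open Crest.Agent.R013.Cell_408 Crest.Agent.R013.EE809 Crest.Agent.R013.HU13_522
open Crest.Agent.R013.HU11_522 Crest.Agent.R013.HU8_522 Crest.Agent.R013.HU6_522
open Crest.Agent.R013.HU3_522 Crest.Agent.R013.HU4_522 Crest.Agent.R013.HU2_522
open Crest.Agent.R013.HU1_522 Crest.Agent.R013.HU7_522 Crest.Agent.R013.HU9_522
open Crest.Agent.R013.HU10_522 Crest.Agent.R013.HU15_522 Crest.Agent.R013.PC_588
open Crest.Agent.R013.KAS3_940 (bsub)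
open Crest.Agent.R013.KAS2_940 (Bd)

section ps

variable {F : Type*} [NontriviallyNormedField F] [IsUltrametricDist F]

theorem coeff_shift_rescale {r : F} (hr : r ≠ 0) (s : F) (f : PowerSeries F) (l : ℕ) :
    coeff l (shift (r * s) (PowerSeries.rescale r⁻¹ f)) = r⁻¹ ^ l * coeff l (shift s f) := by
  rw [coeff_shift, coeff_shift, ← tsum_mul_left]
  refine tsum_congr fun n => ?_
  rw [PowerSeries.coeff_rescale, pow_add, mul_pow, inv_pow]
  field_simp

theorem shift_C_mul (c s : F) (f : PowerSeries F) (l : ℕ) :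
    coeff l (shift s (PowerSeries.C c * f)) = c * coeff l (shift s f) := by
  rw [coeff_shift, coeff_shift, ← tsum_mul_left]
  refine tsum_congr fun n => ?_
  rw [PowerSeries.coeff_C_mul]
  ring

theorem derivative_rescale (a : F) (f : PowerSeries F) :
    PowerSeries.derivative F (PowerSeries.rescale a f) =
      PowerSeries.C a * PowerSeries.rescale a (PowerSeries.derivative F f) := by
  ext n
  rw [PowerSeries.coeff_derivative, PowerSeries.coeff_rescale, PowerSeries.coeff_C_mul,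
    PowerSeries.coeff_rescale, PowerSeries.coeff_derivative, pow_succ]
  ring

theorem bd_rescale {r : F} (hr : r ≠ 0) {B : ℝ} {f : PowerSeries F} (hf : Bd 1 B f) :
    Bd ‖r‖ B (PowerSeries.rescale r⁻¹ f) := by
  intro n
  have h1 : 0 < ‖r‖ := norm_pos_iff.mpr hr
  have h2 := hf n
  rw [one_pow, mul_one] at h2
  rw [PowerSeries.coeff_rescale, norm_mul, norm_pow, norm_inv, inv_pow, mul_comm, ← mul_assoc,
    mul_inv_cancel₀ (pow_pos h1 n).ne', one_mul]
  exact h2

/-- sums of elements in a closed subfield -/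
theorem tsum_mem_closed (L : Subfield F) (hL : IsClosed (L : Set F)) {f : ℕ → F}
    (hf : ∀ n, f n ∈ L) : ∑' n, f n ∈ L := by
  by_cases hs : Summable f
  · refine hL.mem_of_tendsto hs.hasSum.tendsto_sum_nat (Filter.Eventually.of_forall fun n => ?_)
    exact sum_mem fun i _ => hf i
  · rw [tsum_eq_zero_of_not_summable hs]
    exact zero_mem L

theorem coeff_shift_mem (L : Subfield F) (hL : IsClosed (L : Set F)) {s : F} (hs : s ∈ L)
    {f : PowerSeries F} (hf : ∀ n, coeff n f ∈ L) (l : ℕ) : coeff l (shift s f) ∈ L := by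
  rw [coeff_shift]
  exact tsum_mem_closed L hL fun n => mul_mem (mul_mem (natCast_mem L _) (hf _)) (pow_mem hs n)

/-- the coefficients of a solution of `H' = om H` -/
theorem coeff_sol_mem [CharZero F] (L : Subfield F) {om H : PowerSeries F}
    (h : PowerSeries.derivative F H = om * H) (h0 : constantCoeff H ∈ L)
    (hom : ∀ n, coeff n om ∈ L) (n : ℕ) : coeff n H ∈ L := by
  induction n using Nat.strong_induction_on with
  | _ n ih =>
    rcases n with _ | n
    · rwa [PowerSeries.coeff_zero_eq_constantCoeff_apply]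
    · have h1 := congrArg (coeff n) h
      rw [PowerSeries.coeff_derivative, PowerSeries.coeff_mul] at h1
      have h2 : ((n : F) + 1) ≠ 0 := by exact_mod_cast Nat.succ_ne_zero n
      rw [eq_div_of_mul_eq h2 h1]
      refine div_mem (sum_mem fun x hx => mul_mem (hom _) (ih _ ?_)) (add_mem (natCast_mem L n) (one_mem L))
      have := Finset.HasAntidiagonal.mem_antidiagonal.mp hx
      omega

end ps

section main

variable {p : ℕ} [hpF : Fact p.Prime] {k : Type*} [Field k] [CharZero k] [Algebra ℚ_[p] k]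
  [FiniteDimensional ℚ_[p] k]
  {K : Type*} [Field K] [Algebra k K]
  [Algebra (RatFunc k) K] [IsScalarTower k (RatFunc k) K] [FiniteDimensional (RatFunc k) K]
  {P : Valuation (AlgebraicClosure K) ℝ≥0} {x : K}
  {C : Type*} [NormedField C] [IsUltrametricDist C] [NormedAlgebra ℚ_[p] C]
  [Algebra.IsAlgebraic ℚ_[p] C] [CharZero C] [IsAlgClosed C]
  {Y : Type*} [Field Y] [Algebra C Y] [Algebra (RatFunc C) Y] [IsScalarTower C (RatFunc C) Y]
  [FiniteDimensional (RatFunc C) Y]
  {J : maxUnramified k K →+* LaurentSeries (Cb k K)} {e : Cb k K ≃+* C}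
  {E0 : IntermediateField K (AlgebraicClosure K)} {phi : Y →+* maxUnramified k K}
  {F : Type*} [NontriviallyNormedField F] [IsUltrametricDist F] [CompleteSpace F] [CharZero F]
  (σ : C →+* F) (hσ : ∀ a, ‖σ a‖ = ‖a‖)

/-- `f(T) ↦ f(X/r)` on bounded power series -/
noncomputable def Lam {r : F} : bsub (K := F) 1 one_pos →+* LaurentSeries F :=
  ((toL F).comp (PowerSeries.rescale r⁻¹)).comp (bsub (K := F) 1 one_pos).subtype

theorem Lam_apply {r : F} (f : bsub (K := F) 1 one_pos) :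
    Lam (r := r) f = toL F (PowerSeries.rescale r⁻¹ (f : PowerSeries F)) := rfl

theorem Lam_injective {r : F} (hr : r ≠ 0) : Function.Injective (Lam (r := r)) := by
  intro f g h
  rw [Lam_apply, Lam_apply] at h
  have h1 := HahnSeries.ofPowerSeries_injective h
  have h2 := congrArg (PowerSeries.rescale r) h1
  rw [PowerSeries.rescale_rescale, PowerSeries.rescale_rescale, inv_mul_cancel₀ hr,
    PowerSeries.rescale_one] at h2
  exact Subtype.ext h2

theorem mapL_jr_eq (N : ℕ) (f : BD ℚ_[p] C) :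
    mapL σ (jr ℚ_[p] (rN p C N) f) = Lam (r := (p : F) ^ N) (bdMap σ hσ f) := by
  refine HahnSeries.ext (funext fun i => ?_)
  rw [coeff_mapL, jr_apply, Lam_apply]
  rcases lt_or_ge i 0 with hi | hi
  · rw [PowerSeries.coeff_coe, PowerSeries.coeff_coe, if_pos hi, if_pos hi, map_zero]
  · obtain ⟨n, rfl⟩ := Int.eq_ofNat_of_zero_le hi
    have h1 : ∀ f : PowerSeries C, (toL C f).coeff (n : ℤ) = PowerSeries.coeff n f :=
      fun f => HahnSeries.ofPowerSeries_apply_coeff _ _
    have h1' : ∀ f : PowerSeries F, (toL F f).coeff (n : ℤ) = PowerSeries.coeff n f :=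
      fun f => HahnSeries.ofPowerSeries_apply_coeff _ _
    rw [h1, h1', PowerSeries.coeff_rescale, PowerSeries.coeff_rescale, bdMap_val,
      PowerSeries.coeff_map, map_mul, map_pow, map_inv₀]
    congr 3
    show σ ((p : C) ^ N) = (p : F) ^ N
    rw [map_pow, map_natCast]

theorem mapL_mapL {R S T : Type*} [CommRing R] [CommRing S] [CommRing T] (f : R →+* S) (g : S →+* T)
    (z : LaurentSeries R) : mapL g (mapL f z) = mapL (g.comp f) z := by
  refine HahnSeries.ext (funext fun i => ?_)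
  rw [coeff_mapL, coeff_mapL, coeff_mapL]
  rfl

variable [hk : Fact (DiscNorm ℚ_[p])] {N : ℕ}
  (hN : ∀ z : Y, ∃ a b : BD ℚ_[p] C, b ≠ 0 ∧
    io e J phi z * jr ℚ_[p] (rN p C N) b = jr ℚ_[p] (rN p C N) a)

include hN hσ in
/-- the form of the representatives in `F((X))` -/
theorem rep_laurent
    (hJ : IsExp (iM k K) (P.comap (algebraMap (maxUnramified k K) (AlgebraicClosure K)))
        (algebraMap K (maxUnramified k K) x) J) (h : PH e E0 phi)
    {u : PC p Yˣ} (hu : DivP C u) {n : ℕ} {z : Yˣ} (hz : Rep u n z) :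
    ∃ α β : bsub (K := F) 1 one_pos, α ≠ 0 ∧ β ≠ 0 ∧
      mapL (σ.comp (e : Cb k K →+* C)) (J (phi z)) * Lam (r := (p : F) ^ N) β ^ p ^ n =
        toL F (PowerSeries.rescale ((p : F) ^ N)⁻¹
          ((HuE hk.out (emP hN) (emP_hι hN) σ hσ u : (PowerSeries F)ˣ) : PowerSeries F)) *
          Lam (r := (p : F) ^ N) α ^ p ^ n := by
  have hp : ‖(p : C)‖ < 1 := norm_pC_lt
  obtain ⟨a, b, hb, hab⟩ := hN z
  have hab' := emP_spec hN hb hab
  obtain ⟨α, β, hα, hβ, h1⟩ := rep_bsub hk.out (emP hN) (emP_C hN hJ h) (emP_hι hN) σ hσ hp hu hz hb hab'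
  refine ⟨α, β, hα, hβ, ?_⟩
  have hr : (p : F) ^ N ≠ 0 := pow_ne_zero _ (Nat.cast_ne_zero.mpr hpF.out.ne_zero)
  have h2 := congrArg (Lam (r := (p : F) ^ N)) h1
  rw [map_mul, map_mul, map_mul, map_pow, map_pow, ← mapL_jr_eq, ← mapL_jr_eq, ← hab, map_mul] at h2
  have h3 : mapL σ (jr ℚ_[p] (rN p C N) b) ≠ 0 := by
    rw [mapL_jr_eq σ hσ, map_ne_zero_iff _ (Lam_injective hr), map_ne_zero_iff _ (bdMap_injective σ hσ)]
    exact hb
  have h4 : mapL σ (io e J phi z) = mapL (σ.comp (e : Cb k K →+* C)) (J (phi z)) := by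
    rw [io_apply, mapL_mapL]
  rw [← h4]
  refine mul_right_cancel₀ h3 ?_
  have h5 : Lam (r := (p : F) ^ N) (uB (HuE hk.out (emP hN) (emP_hι hN) σ hσ u)) =
      toL F (PowerSeries.rescale ((p : F) ^ N)⁻¹
          ((HuE hk.out (emP hN) (emP_hι hN) σ hσ u : (PowerSeries F)ˣ) : PowerSeries F)) := rfl
  rw [← h5]
  linear_combination h2

include hN in
/-- **(J2)** a class whose form has exact order `i` at `s` gives the input of `good_last` -/
theorem inp_of_class
    (hJ : IsExp (iM k K) (P.comap (algebraMap (maxUnramified k K) (AlgebraicClosure K)))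
        (algebraMap K (maxUnramified k K) x) J) (h : PH e E0 phi)
    {u : PC p Yˣ} (hu : DivP C u) (L : Subfield F) (hL : IsClosed (L : Set F))
    (hLr : ∀ a ∈ L, ∃ c : C, σ c = a)
    (hom : ∀ n, coeff n (OmE hk.out (emP hN) (emP_hι hN) σ hσ u) ∈ L) {s : C} (hsL : σ s ∈ L)
    {ε : ℝ} (hsε : ‖s‖ < ε) {i j m : ℕ} (hij : i + 1 = p ^ j * m) (hm2 : 2 ≤ m)
    (hpm : ¬ p ∣ m)
    (h0 : ∀ l < i, coeff l (shift (σ s) (OmE hk.out (emP hN) (emP_hι hN) σ hσ u)) = 0)
    (h1 : coeff i (shift (σ s) (OmE hk.out (emP hN) (emP_hι hN) σ hσ u)) ≠ 0) :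
    Inp p (σ.comp (e : Cb k K →+* C)) J E0 ‖(p : F) ^ N‖ ε := by
  set jC : Cb k K →+* F := σ.comp (e : Cb k K →+* C) with hjC
  set r : F := (p : F) ^ N with hrdef
  have hr : r ≠ 0 := pow_ne_zero _ (Nat.cast_ne_zero.mpr hpF.out.ne_zero)
  have hrn : ‖r‖ ≤ 1 := by
    have h2 : r = σ (rN p C N) := by rw [hrdef, rN, map_pow, map_natCast]
    rw [h2, hσ, rN, norm_pow]
    exact pow_le_one₀ (norm_nonneg _) (norm_pC_lt (p := p) (C := C)).le
  obtain ⟨hc1, hH, hOm, hd⟩ := HuE_props σ hσ hk.out (emP hN) (emP_hι hN) u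
  set H : PowerSeries F := ((HuE hk.out (emP hN) (emP_hι hN) σ hσ u : (PowerSeries F)ˣ) : PowerSeries F)
    with hHdef
  set om : PowerSeries F := OmE hk.out (emP hN) (emP_hι hN) σ hσ u with homdef
  have hrL : r ∈ L := pow_mem (natCast_mem L p) N
  have hjCs : ∀ a ∈ L, ∃ c : Cb k K, jC c = a := by
    intro a ha
    obtain ⟨c, hc⟩ := hLr a ha
    refine ⟨e.symm c, ?_⟩
    show σ (e (e.symm c)) = a
    rw [RingEquiv.apply_symm_apply, hc]
  have hHL : ∀ n, coeff n H ∈ L := coeff_sol_mem L hd (by rw [hc1]; exact one_mem L) hom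
  have hq : jC (e.symm (rN p C N * s)) = r * σ s := by
    show σ (e (e.symm (rN p C N * s))) = _
    rw [RingEquiv.apply_symm_apply, map_mul, rN, map_pow, map_natCast]
  refine ⟨e.symm (rN p C N * s), i, j, m, PowerSeries.C r⁻¹ * PowerSeries.rescale r⁻¹ om,
    PowerSeries.rescale r⁻¹ H, ‖r⁻¹‖ * 1, 1, ?_, hij, hm2, hpm, ?_, ?_, ?_, ?_, ?_, ?_, ?_, ?_, ?_⟩
  · rw [hq, norm_mul, hσ]
    calc ‖r‖ * ‖s‖ ≤ 1 * ‖s‖ := mul_le_mul_of_nonneg_right hrn (norm_nonneg _)
      _ = ‖s‖ := one_mul _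
      _ < ε := hsε
  · exact (KAS2_940.bd_C _).mul (norm_pos_iff.mpr hr) (bd_rescale hr hOm)
  · exact bd_rescale hr hH
  · rw [← PowerSeries.coeff_zero_eq_constantCoeff_apply, PowerSeries.coeff_rescale, pow_zero, one_mul,
      PowerSeries.coeff_zero_eq_constantCoeff_apply, hc1]
    exact one_ne_zero
  · rw [derivative_rescale, hd, map_mul, mul_assoc]
  · intro l hl
    rw [hq, shift_C_mul, coeff_shift_rescale hr, h0 l hl, mul_zero, mul_zero]
  · rw [hq, shift_C_mul, coeff_shift_rescale hr]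
    exact mul_ne_zero (inv_ne_zero hr) (mul_ne_zero (pow_ne_zero _ (inv_ne_zero hr)) h1)
  · rw [hq, shift_C_mul, coeff_shift_rescale hr]
    exact hjCs _ (mul_mem (inv_mem hrL) (mul_mem (pow_mem (inv_mem hrL) _)
      (coeff_shift_mem L hL hsL hom i)))
  · rw [hq, ← PowerSeries.coeff_zero_eq_constantCoeff_apply, coeff_shift_rescale hr]
    exact hjCs _ (mul_mem (pow_mem (inv_mem hrL) _) (coeff_shift_mem L hL hsL hHL 0))
  · intro n
    obtain ⟨z, hz⟩ := exists_rep u n
    obtain ⟨α, β, hα, hβ, h2⟩ := rep_laurent σ hσ hN hJ h hu hz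
    have hpn : p ^ n ≠ 0 := pow_ne_zero _ hpF.out.ne_zero
    refine ⟨phi z, ?_, h.lev z, fun y hy => ?_, PowerSeries.rescale r⁻¹ (α : PowerSeries F),
      PowerSeries.rescale r⁻¹ (β : PowerSeries F), ?_, ?_, ?_, ?_, ?_⟩
    · exact (_root_.map_ne_zero phi).mpr z.ne_zero
    · refine kummer_phi (e.symm : C →+* Cb k K) phi h.con hpn z.ne_zero (fun Q => ?_) hy
      obtain ⟨t, ht⟩ := hu n z hz Q
      refine ⟨-t, ?_⟩
      rw [v_eq (k := C) z.ne_zero Q, ht]
      congr 1
      ring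
    · obtain ⟨B, hB⟩ := α.2
      exact ⟨B, bd_rescale hr hB⟩
    · obtain ⟨B, hB⟩ := β.2
      exact ⟨B, bd_rescale hr hB⟩
    · intro h3
      apply hα
      apply Lam_injective hr
      rw [Lam_apply, h3, map_zero, map_zero]
    · intro h3
      apply hβ
      apply Lam_injective hr
      rw [Lam_apply, h3, map_zero, map_zero]
    · rw [Lam_apply, Lam_apply] at h2
      rw [map_pow, map_mul, map_pow]
      exact h2

end main

end Crest.Agent.R013.SD4_940
end

-- ▼ part R013/SD5_940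

/-!
# R013 / SD5: from classes of the Tate module of `Pic Y` to the conclusion of `GOOD` (helper940)

* `inp_of_tate` : the output of 928's `exists_order_class` gives `Inp`;
* `concl_of_tate` : `… → Concl p k K P x δ η`.
-/

set_option autoImplicit false
set_option linter.unusedSectionVars false

namespace Crest.Agent.R013.SD5_940

open scoped NNReal
open PowerSeries (coeff constantCoeff)
open Crest.NumberTheoryR.Sect WithZero
open Crest.Agent.R013.Small2_940 Crest.Agent.R013.Small3_940 Crest.Agent.R013.Small4_940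
open Crest.Agent.R013.Small5_940 Crest.Agent.R013.Good5_940 Crest.Agent.R013.SD1_940
open Crest.Agent.R013.SD2_940 Crest.Agent.R013.SD3_940 Crest.Agent.R013.SD4_940
open Crest.Agent.R013.Puis_702 (mapL coeff_mapL exists_pow_mul)
open Crest.Agent.R013.RR7_948 Crest.Agent.R013.RR13_948 Crest.Agent.R013.RR11_948
open Crest.Agent.R013.LemD_323 (shift coeff_shift summable_shift)
open Crest.Agent.R013.Cell_408 Crest.Agent.R013.EE809 Crest.Agent.R013.HU13_522
open Crest.Agent.R013.HU11_522 Crest.Agent.R013.HU8_522 Crest.Agent.R013.HU6_522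
open Crest.Agent.R013.HU3_522 Crest.Agent.R013.HU4_522 Crest.Agent.R013.HU2_522
open Crest.Agent.R013.HU1_522 Crest.Agent.R013.HU7_522 Crest.Agent.R013.HU9_522
open Crest.Agent.R013.HU10_522 Crest.Agent.R013.HU14_522 Crest.Agent.R013.PC_588
open Crest.Agent.R013.PicD_398 Crest.Agent.R013.TP_928
open Crest.Agent.R013.KAS3_940 (bsub)
open Crest.Agent.R013.KAS2_940 (Bd)

variable {p : ℕ} [hpF : Fact p.Prime] {k : Type*} [Field k] [CharZero k] [Algebra ℚ_[p] k]
  [FiniteDimensional ℚ_[p] k]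
  {K : Type*} [Field K] [Algebra k K]
  [Algebra (RatFunc k) K] [IsScalarTower k (RatFunc k) K] [FiniteDimensional (RatFunc k) K]
  {P : Valuation (AlgebraicClosure K) ℝ≥0} {x : K}
  {C : Type*} [NormedField C] [IsUltrametricDist C] [NormedAlgebra ℚ_[p] C]
  [Algebra.IsAlgebraic ℚ_[p] C] [CharZero C] [IsAlgClosed C]
  {Y : Type*} [Field Y] [Algebra C Y] [Algebra (RatFunc C) Y] [IsScalarTower C (RatFunc C) Y]
  [FiniteDimensional (RatFunc C) Y]
  {J : maxUnramified k K →+* LaurentSeries (Cb k K)} {e : Cb k K ≃+* C}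
  {E0 : IntermediateField K (AlgebraicClosure K)} {phi : Y →+* maxUnramified k K}
  {F : Type*} [NontriviallyNormedField F] [NormedAlgebra ℚ_[p] F] [IsUltrametricDist F]
  [CompleteSpace F] [CharZero F] [Algebra C F] [IsScalarTower ℚ_[p] C F] [Algebra ℤ_[p] F]

variable [hk : Fact (DiscNorm ℚ_[p])] {N : ℕ}
  (hN : ∀ z : Y, ∃ a b : BD ℚ_[p] C, b ≠ 0 ∧
    io e J phi z * jr ℚ_[p] (rN p C N) b = jr ℚ_[p] (rN p C N) a)
  (hσ : ∀ a, ‖algebraMap C F a‖ = ‖a‖)
  (hpn : ‖(p : F)‖ < 1) (hZ : ∀ z : ℤ_[p], ‖algebraMap ℤ_[p] F z‖ ≤ 1)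

include hN in
/-- the output of 928's `exists_order_class` gives `Inp` -/
theorem inp_of_tate
    (hJ : IsExp (iM k K) (P.comap (algebraMap (maxUnramified k K) (AlgebraicClosure K)))
        (algebraMap K (maxUnramified k K) x) J) (h : PH e E0 phi)
    (u : Tate p (Pic C Y)) (k' : IntermediateField ℚ_[p] C) [FiniteDimensional ℚ_[p] k']
    (hco : ∀ n, coeff n (omT hk.out (emP hN) (emP_hι hN) (algebraMap C F) hσ hpn hZ u) ∈
      k'.map (IsScalarTower.toAlgHom ℚ_[p] C F))
    {s : ℚ_[p]} {ε : ℝ} (hs : ‖s‖ < ε) {i j m : ℕ} (hij : i + 1 = p ^ j * m) (hm2 : 2 ≤ m)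
    (hpm : ¬ p ∣ m)
    (h0 : ∀ l < i, coeff l (shift (algebraMap ℚ_[p] F s)
      (omT hk.out (emP hN) (emP_hι hN) (algebraMap C F) hσ hpn hZ u)) = 0)
    (h1 : coeff i (shift (algebraMap ℚ_[p] F s)
      (omT hk.out (emP hN) (emP_hι hN) (algebraMap C F) hσ hpn hZ u)) ≠ 0) :
    Inp p ((algebraMap C F).comp (e : Cb k K →+* C)) J E0 ‖(p : F) ^ N‖ ε := by
  let L0 : IntermediateField ℚ_[p] F := k'.map (IsScalarTower.toAlgHom ℚ_[p] C F)
  have hL0 : FiniteDimensional ℚ_[p] L0 := Module.Finite.equiv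
      (IntermediateField.equivMap k' (IsScalarTower.toAlgHom ℚ_[p] C F)).toLinearEquiv
  have hcl : IsClosed (L0.toSubfield : Set F) := by
    have h2 : FiniteDimensional ℚ_[p] (Subalgebra.toSubmodule L0.toSubalgebra) := hL0
    exact Submodule.closed_of_finiteDimensional (Subalgebra.toSubmodule L0.toSubalgebra)
  have hsF : algebraMap C F (algebraMap ℚ_[p] C s) = algebraMap ℚ_[p] F s :=
    (IsScalarTower.algebraMap_apply ℚ_[p] C F s).symm
  refine inp_of_class (algebraMap C F) hσ hN hJ h (divP_brP u) L0.toSubfield hcl ?_ hco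
    (s := algebraMap ℚ_[p] C s) ?_ ?_ hij hm2 hpm ?_ ?_
  · rintro a ⟨c, -, hc⟩
    exact ⟨c, hc⟩
  · rw [hsF]
    exact L0.algebraMap_mem s
  · rwa [norm_algebraMap']
  · intro l hl
    rw [hsF]
    exact h0 l hl
  · rw [hsF]
    exact h1

include hN in
/-- **(D), last step** -/
theorem concl_of_tate (hP : IsRationalPlace k K (P.comap (algebraMap K (AlgebraicClosure K))))
    (hx : IsUniformizerAt (P.comap (algebraMap K (AlgebraicClosure K))) x)
    (hJ : IsExp (iM k K) (P.comap (algebraMap (maxUnramified k K) (AlgebraicClosure K)))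
        (algebraMap K (maxUnramified k K) x) J) (h : PH e E0 phi)
    (he : ∀ a : ℚ_[p], e (algebraMap k (Cb k K) (algebraMap ℚ_[p] k a)) = algebraMap ℚ_[p] C a)
    [FiniteDimensional K E0] (hE0 : E0 ≤ maxUnramified k K) (hd : DenseRange (algebraMap C F))
    (k' : IntermediateField ℚ_[p] C) [FiniteDimensional ℚ_[p] k']
    {i j m : ℕ} (hij : i + 1 = p ^ j * m) (hm2 : 2 ≤ m) (hpm : ¬ p ∣ m)
    (hin : ∀ ε : ℝ, 0 < ε → ∃ s : ℚ_[p], ‖s‖ < ε ∧ ∃ u : Tate p (Pic C Y),
      (∀ n, coeff n (omT hk.out (emP hN) (emP_hι hN) (algebraMap C F) hσ hpn hZ u) ∈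
        k'.map (IsScalarTower.toAlgHom ℚ_[p] C F)) ∧
      (∀ l < i, coeff l (shift (algebraMap ℚ_[p] F s)
        (omT hk.out (emP hN) (emP_hι hN) (algebraMap C F) hσ hpn hZ u)) = 0) ∧
      coeff i (shift (algebraMap ℚ_[p] F s)
        (omT hk.out (emP hN) (emP_hι hN) (algebraMap C F) hσ hpn hZ u)) ≠ 0)
    {δ η : ℝ≥0} (hδ : 0 < δ) (hη : 0 < η) : Concl p k K P x δ η := by
  let _ : Algebra ℚ F := DivisionRing.toRatAlgebra
  have hr : (p : F) ^ N ≠ 0 := pow_ne_zero _ (Nat.cast_ne_zero.mpr hpF.out.ne_zero)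
  refine Good7_940.good_last hP hx (jC := (algebraMap C F).comp (e : Cb k K →+* C)) ?_ ?_ hJ E0 hE0
    (R0 := ‖(p : F) ^ N‖) (norm_pos_iff.mpr hr) ?_ hδ hη
  · intro a
    show ‖algebraMap C F (e (algebraMap k (Cb k K) (algebraMap ℚ_[p] k a)))‖ = _
    rw [he, hσ, norm_algebraMap']
  · exact hd.comp e.surjective.denseRange (AddMonoidHomClass.isometry_of_norm (algebraMap C F) hσ).continuous
  · intro ε hε
    obtain ⟨s, hs, u, hco, h0, h1⟩ := hin ε hε
    exact inp_of_tate hN hσ hpn hZ hJ h u k' hco hs hij hm2 hpm h0 h1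

end Crest.Agent.R013.SD5_940
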