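import Crest.Agent.R013.Set10_803
import Crest.Agent.R013.Half3_930
import Crest.Agent.R013.Unr9_957
import Crest.Agent.R013.BTor4_914

-- ▼ part R013/Set12_803

/-!
# Row 13, B-SET, part 12: the annulus field, restriction maps
-/

set_option autoImplicit false
set_option linter.unusedSectionVars false
set_option linter.style.haveILetI false

noncomputable section

namespace Crest.Agent.R013.Set_803

open scoped NNReal Topology
open Filter PowerSeries Crest.NumberTheoryR.Sect Crest.Agent.R013.A2a_275 Crest.Agent.R013.Gl946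
  Crest.Agent.R013.SE_669 Crest.Agent.R013.CGood_588 Crest.Agent.R013.Annu_930
  Crest.Agent.R013.Half_930

variable {k : Type*} [Field k] {Ω : Type*} [Field Ω] [Algebra k Ω]
variable {p : ℕ} [hp : Fact p.Prime] [Algebra ℚ_[p] k] {v P : Valuation Ω ℝ≥0}
  {C : IntermediateField k Ω}

namespace DiscData

variable {R : ℝ≥0} {x q c : Ω} (D : DiscData p v P C R x q c)
  [FiniteDimensional ℚ_[p] k] [FiniteDimensional k C]
  {E : Type*} [NormedField E] [IsUltrametricDist E] [CompleteSpace E]
  (A : NAlg D.hv C E) {y : E} (hy : IsG D.hv C A y)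








include D in
/-- norms of `Ω` over the circle `|x| = |ρ₁|` outside the vertex -/
theorem out_norm {w : Valuation Ω ℝ≥0} (hwC : ∀ a ∈ C, w a = v a) {r : ℝ≥0} (hwx : w x = r)
    (hq : v q < r) (hc : v c < r) : ExtendsPadicNorm k Ω p w ∧ 1 < w ((x - q) / c) := by
  refine ⟨fun a => ?_, ?_⟩
  · rw [hwC _ (C.algebraMap_mem _)]; exact D.hv a
  · have h1 : w (x - q) = r := by
      rw [Valuation.map_sub_eq_of_lt_left]
      · exact hwx
      · rw [hwx, hwC q D.qC]; exact hq
    rw [map_div₀, h1, hwC c D.cC, one_lt_div₀]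
    · exact hc
    · rw [zero_lt_iff, Valuation.ne_zero_iff]; exact D.c0


end DiscData

end Crest.Agent.R013.Set_803
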