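import Crest.Agent.R013.TP3_928
import Mathlib
import Crest.Agent.R013.Frob1_914
import Crest.Agent.R013.CntP4_127

-- ▼ part R013/TP4_928
section

/-!
# R013 / C-TP (helper928), part 4: Frobenius correction and invariant forms

* `correct`: the Frobenius correction `u' = p^c u - u0`;
* `TPData`, `TPData.forms`: the space of invariant forms.
-/

set_option autoImplicit false
set_option linter.unusedSectionVars false

namespace Crest.Agent.R013.TP_928

open PadicInt Module

variable {p : ℕ} [hp : Fact p.Prime]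

/-- **Frobenius correction.** -/
theorem correct {T N : Type*} [AddCommGroup T] [Module ℤ_[p] T] [AddCommGroup N]
    [Module ℤ_[p] N] [Module.Finite ℤ_[p] N] [Module.IsTorsionFree ℤ_[p] N]
    (T0 : Submodule ℤ_[p] T) (s : T0 →ₗ[ℤ_[p]] N) (fT : T →ₗ[ℤ_[p]] T) (fN : N →ₗ[ℤ_[p]] N)
    (h1 : ∀ u, fT u - u ∈ T0)
    (hs : ∀ (w : T0) (hw : fT w ∈ T0), s ⟨fT w, hw⟩ = fN (s w))
    (hinj : ∀ x, fN x = x → x = 0) :
    ∃ c : ℕ, ∀ u : T, ∃ u0 : T0,
      s ⟨fT ((p ^ c) • u - u0) - ((p ^ c) • u - u0), h1 _⟩ = 0 := by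
  classical
  have hstab : ∀ w : T0, fT w ∈ T0 := fun w => by
    have := T0.add_mem (h1 w) w.2
    simpa using this
  let U0 := LinearMap.range s
  have hU0 : ∀ x ∈ U0, fN x - x ∈ U0 := by
    rintro _ ⟨w, rfl⟩
    refine ⟨⟨fT w, hstab w⟩ - w, ?_⟩
    rw [map_sub, hs]
  let g : U0 →ₗ[ℤ_[p]] U0 := (fN - LinearMap.id).restrict (p := U0) (q := U0) (by
    intro x hx
    simpa using hU0 x hx)
  have hg : Function.Injective g := by
    rw [← LinearMap.ker_eq_bot, LinearMap.ker_eq_bot']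
    intro x hx
    have h2 : fN x - x = 0 := by
      have := congrArg Subtype.val hx
      simpa [g] using this
    exact Subtype.ext (hinj _ (sub_eq_zero.mp h2))
  have hNn : IsNoetherian ℤ_[p] N := isNoetherian_of_isNoetherianRing_of_finite _ _
  obtain ⟨c, hc⟩ := exists_pow_smul_mem_range g hg
  refine ⟨c, fun u => ?_⟩
  let w : T0 := ⟨fT u - u, h1 u⟩
  obtain ⟨x, hx⟩ := hc ⟨s w, ⟨w, rfl⟩⟩
  obtain ⟨u0, hu0⟩ := x.2
  refine ⟨u0, ?_⟩
  have h3 : fN (s u0) - s u0 = ((p : ℤ_[p]) ^ c) • s w := by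
    have := congrArg Subtype.val hx
    simp only [g, LinearMap.coe_restrict_apply, LinearMap.sub_apply, LinearMap.id_apply,
      Submodule.coe_smul] at this
    rw [hu0]
    exact this
  have h4 : (⟨fT ((p ^ c) • u - u0) - ((p ^ c) • u - u0), h1 _⟩ : T0) =
      (p ^ c) • w - (⟨fT u0, hstab u0⟩ - u0) := by
    apply Subtype.ext
    simp only [w, map_sub, map_nsmul, Submodule.coe_sub, Submodule.coe_smul_of_tower, smul_sub]
    abel
  rw [h4, map_sub, map_sub, map_nsmul, hs, h3, ← Nat.cast_pow, Nat.cast_smul_eq_nsmul, sub_self]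

/-- the input of the theorem on invariant forms -/
structure TPData (p : ℕ) [Fact p.Prime] (T N W G : Type*) [AddCommGroup T] [Module ℤ_[p] T]
    [AddCommGroup N] [Module ℤ_[p] N] [AddCommGroup W] [Module ℤ_[p] W] where
  /-- action of the Galois group on the Tate module -/
  gT : G → T →ₗ[ℤ_[p]] T
  /-- action of the Galois group on the forms -/
  gW : G → W →ₗ[ℤ_[p]] W
  /-- classes with zero slopes -/
  T0 : Submodule ℤ_[p] T
  /-- reduction -/
  s : T0 →ₗ[ℤ_[p]] N
  /-- Frobenius -/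
  fT : T →ₗ[ℤ_[p]] T
  fN : N →ₗ[ℤ_[p]] N
  fT_sub : ∀ u, fT u - u ∈ T0
  s_fT : ∀ (w : T0) (hw : fT w ∈ T0), s ⟨fT w, hw⟩ = fN (s w)
  fN_inj : ∀ x, fN x = x → x = 0
  /-- slopes are Galois invariant -/
  gT_sub : ∀ g u, gT g u - u ∈ T0
  /-- a vector which is Frobenius invariant modulo `ker s` is Galois invariant modulo `ker s` -/
  gen : ∀ u, s ⟨fT u - u, fT_sub u⟩ = 0 → ∀ g, s ⟨gT g u - u, gT_sub g u⟩ = 0
  /-- the idempotent -/
  e : T →ₗ[ℤ_[p]] T
  e_e : ∀ u, e (e u) = e u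
  e_T0 : ∀ w ∈ T0, e w ∈ T0
  e_fT : ∀ u, e (fT u) = fT (e u)
  e_s : ∀ (w : T0), s w = 0 → s ⟨e w, e_T0 w w.2⟩ = 0
  /-- the forms -/
  om : T →ₗ[ℤ_[p]] W
  om_gT : ∀ g u, om (gT g u) = gW g (om u)
  e_gT : ∀ g u, e (gT g u) = gT g (e u)
  /-- (M3) -/
  om_zero : ∀ (w : T0), e (w : T) = w → s w = 0 → om (w : T) = 0
  /-- (NC) -/
  om_inj : ∀ u, e u = u → om u = 0 → u ∈ T0

namespace TPData

variable {T N W G : Type*} [AddCommGroup T] [Module ℤ_[p] T]
    [AddCommGroup N] [Module ℤ_[p] N] [AddCommGroup W] [Module ℤ_[p] W]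
    [Module.Finite ℤ_[p] N] [Module.IsTorsionFree ℤ_[p] N]
    (d : TPData p T N W G)

/-- the classes in the `e`-part which are invariant modulo the kernel of the reduction -/
def M : Submodule ℤ_[p] T where
  carrier := {u | d.e u = u ∧ d.s ⟨d.fT u - u, d.fT_sub u⟩ = 0}
  zero_mem' := ⟨map_zero _, by
    have : (⟨d.fT 0 - 0, d.fT_sub 0⟩ : d.T0) = 0 := Subtype.ext (by simp)
    rw [this, map_zero]⟩
  add_mem' := by
    rintro u v ⟨h1, h2⟩ ⟨h3, h4⟩
    refine ⟨by rw [map_add, h1, h3], ?_⟩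
    have : (⟨d.fT (u + v) - (u + v), d.fT_sub _⟩ : d.T0) =
        ⟨d.fT u - u, d.fT_sub u⟩ + ⟨d.fT v - v, d.fT_sub v⟩ := Subtype.ext (by simp; abel)
    rw [this, map_add, h2, h4, add_zero]
  smul_mem' := by
    rintro a u ⟨h1, h2⟩
    refine ⟨by rw [map_smul, h1], ?_⟩
    have : (⟨d.fT (a • u) - a • u, d.fT_sub _⟩ : d.T0) =
        a • ⟨d.fT u - u, d.fT_sub u⟩ := Subtype.ext (by simp [smul_sub])
    rw [this, map_smul, h2, smul_zero]

/-- elements of `M` have Galois invariant forms -/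
theorem om_fixed {u : T} (hu : u ∈ d.M) (g : G) : d.gW g (d.om u) = d.om u := by
  rw [← d.om_gT, ← sub_eq_zero, ← map_sub]
  have h1 : d.e (d.gT g u - u) = d.gT g u - u := by rw [map_sub, d.e_gT, hu.1]
  exact d.om_zero ⟨_, d.gT_sub g u⟩ h1 (d.gen u hu.2 g)

/-- on `M` the form vanishes iff the slope vanishes -/
theorem om_eq_zero_iff {u : T} (hu : u ∈ d.M) : d.om u = 0 ↔ u ∈ d.T0 := by
  refine ⟨d.om_inj u hu.1, fun h => ?_⟩
  have hf : d.fT u ∈ d.T0 := by
    have := d.T0.add_mem (d.fT_sub u) h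
    simpa using this
  refine d.om_zero ⟨u, h⟩ hu.1 (d.fN_inj _ ?_)
  have h1 := hu.2
  have h2 : (⟨d.fT u - u, d.fT_sub u⟩ : d.T0) = ⟨d.fT u, hf⟩ - ⟨u, h⟩ := Subtype.ext rfl
  rw [h2, map_sub, sub_eq_zero] at h1
  exact (d.s_fT ⟨u, h⟩ hf).symm.trans h1

/-- every element of the `e`-part is, up to `p^c` and zero slope classes, in `M` -/
theorem exists_mem_M : ∃ c : ℕ, ∀ u : T, d.e u = u → ∃ v ∈ d.M, (p ^ c) • u - v ∈ d.T0 := by
  obtain ⟨c, hc⟩ := correct d.T0 d.s d.fT d.fN d.fT_sub d.s_fT d.fN_inj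
  refine ⟨c, fun u hu => ?_⟩
  obtain ⟨u0, h0⟩ := hc u
  refine ⟨d.e ((p ^ c) • u - u0), ⟨d.e_e _, ?_⟩, ?_⟩
  · have h1 := d.e_s _ h0
    have h2 : (⟨d.fT (d.e ((p ^ c) • u - u0)) - d.e ((p ^ c) • u - u0), d.fT_sub _⟩ : d.T0) =
        ⟨d.e (d.fT ((p ^ c) • u - u0) - ((p ^ c) • u - u0)),
          d.e_T0 _ (d.fT_sub ((p ^ c) • u - u0))⟩ := by
      apply Subtype.ext
      change d.fT (d.e ((p ^ c) • u - u0)) - d.e ((p ^ c) • u - u0) =
        d.e (d.fT ((p ^ c) • u - u0) - ((p ^ c) • u - u0))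
      rw [map_sub d.e (d.fT ((p ^ c) • u - u0)), d.e_fT]
    rw [h2]
    exact h1
  · have h1 : (p ^ c) • u - d.e ((p ^ c) • u - u0) = d.e u0 := by
      rw [map_sub, map_nsmul, hu]
      abel
    rw [h1]
    exact d.e_T0 _ u0.2

end TPData

/-- rank over `ℚ_[p]` of the span of a `ℤ_[p]`-submodule: linear independence -/
theorem linearIndependent_padic {W : Type*} [AddCommGroup W] [Module ℚ_[p] W] [Module ℤ_[p] W]
    [IsScalarTower ℤ_[p] ℚ_[p] W] {ι : Type*} {b : ι → W} :
    LinearIndependent ℤ_[p] b ↔ LinearIndependent ℚ_[p] b :=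
  LinearIndependent.iff_fractionRing ℤ_[p] ℚ_[p]

namespace TPData

variable {T N W G : Type*} [AddCommGroup T] [Module ℤ_[p] T]
    [AddCommGroup N] [Module ℤ_[p] N] [AddCommGroup W] [Module ℚ_[p] W] [Module ℤ_[p] W]
    [IsScalarTower ℤ_[p] ℚ_[p] W]
    [Module.Finite ℤ_[p] N] [Module.IsTorsionFree ℤ_[p] N]
    (d : TPData p T N W G)

/-- **Invariant forms.** `slope : T → L` with kernel `T0`; the slopes `lam i` of elements of the
`e`-part linearly independent.  Then there is a space of invariant forms of dimension `≥ |ι|`. -/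
theorem forms {L : Type*} [AddCommGroup L] [Module ℤ_[p] L] (slope : T →ₗ[ℤ_[p]] L)
    (hslope : ∀ u, slope u = 0 ↔ u ∈ d.T0) {ι : Type*} (u : ι → T)
    (hu : ∀ i, d.e (u i) = u i) (hli : LinearIndependent ℤ_[p] (fun i => slope (u i))) :
    ∃ v : ι → T, (∀ i, v i ∈ d.M) ∧ LinearIndependent ℚ_[p] (fun i => d.om (v i)) := by
  obtain ⟨c, hc⟩ := d.exists_mem_M
  choose v hv1 hv2 using fun i => hc (u i) (hu i)
  refine ⟨v, hv1, ?_⟩
  rw [← linearIndependent_padic]
  have hv3 : ∀ i, slope (v i) = ((p : ℤ_[p]) ^ c) • slope (u i) := by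
    intro i
    have h1 := (hslope _).mpr (hv2 i)
    rw [map_sub, map_nsmul, sub_eq_zero] at h1
    rw [← h1, ← Nat.cast_pow, Nat.cast_smul_eq_nsmul]
  rw [linearIndependent_iff'] at hli ⊢
  intro t a ha i hi
  have h1 : ∑ i ∈ t, a i • d.om (v i) = d.om (∑ i ∈ t, a i • v i) := by simp [map_sum]
  have hM : ∑ i ∈ t, a i • v i ∈ d.M :=
    Submodule.sum_mem _ fun i _ => Submodule.smul_mem _ _ (hv1 i)
  rw [h1, d.om_eq_zero_iff hM, ← hslope, map_sum] at ha
  simp_rw [map_smul, hv3] at ha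
  have h2 : ∑ i ∈ t, (a i * (p : ℤ_[p]) ^ c) • slope (u i) = 0 := by
    simpa [mul_smul] using ha
  have h3 := hli t _ h2 i hi
  rcases mul_eq_zero.mp h3 with h | h
  · exact h
  · exact absurd h (pow_ne_zero _ (by exact_mod_cast hp.out.ne_zero))

/-- elements of the span of the forms of `M` come from `M` up to a power of `p` -/
theorem exists_of_mem_span {x : W} (hx : x ∈ Submodule.span ℚ_[p] (d.om '' (d.M : Set T))) :
    ∃ (c : ℕ) (u : T), u ∈ d.M ∧ ((p : ℚ_[p]) ^ c) • x = d.om u := by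
  induction hx using Submodule.span_induction with
  | mem x hx =>
    obtain ⟨u, hu, rfl⟩ := hx
    exact ⟨0, u, hu, by simp⟩
  | zero => exact ⟨0, 0, d.M.zero_mem, by simp⟩
  | add x y _ _ hx hy =>
    obtain ⟨c, u, hu, h1⟩ := hx
    obtain ⟨c', u', hu', h2⟩ := hy
    refine ⟨c + c', ((p : ℤ_[p]) ^ c') • u + ((p : ℤ_[p]) ^ c) • u',
      d.M.add_mem (d.M.smul_mem _ hu) (d.M.smul_mem _ hu'), ?_⟩
    have hp1 : ∀ (n : ℕ) (w : W), ((p : ℤ_[p]) ^ n) • w = ((p : ℚ_[p]) ^ n) • w := by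
      intro n w
      rw [← algebraMap_smul ℚ_[p] ((p : ℤ_[p]) ^ n) w]
      simp
    rw [map_add, map_smul, map_smul, ← h1, ← h2, hp1, hp1, smul_add, smul_smul, smul_smul,
      pow_add]
    congr 2
    ring
  | smul a x _ hx =>
    obtain ⟨c, u, hu, h1⟩ := hx
    obtain ⟨n, b, hb⟩ : ∃ (n : ℕ) (b : ℤ_[p]), (b : ℚ_[p]) = (p : ℚ_[p]) ^ n * a := by
      obtain ⟨n, hn⟩ : ∃ n : ℕ, ‖(p : ℚ_[p]) ^ n * a‖ ≤ 1 := by
        obtain ⟨n, hn⟩ := pow_unbounded_of_one_lt ‖a‖ (show (1 : ℝ) < p by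
          exact_mod_cast hp.out.one_lt)
        refine ⟨n, ?_⟩
        rw [norm_mul, norm_pow, Padic.norm_p, inv_pow]
        rw [inv_mul_le_iff₀ (pow_pos (by exact_mod_cast hp.out.pos) n), mul_one]
        exact hn.le
      exact ⟨n, ⟨_, hn⟩, rfl⟩
    refine ⟨n + c, b • u, d.M.smul_mem _ hu, ?_⟩
    rw [map_smul, ← h1, ← algebraMap_smul ℚ_[p] b, smul_smul, smul_smul, pow_add]
    congr 1
    have : algebraMap ℤ_[p] ℚ_[p] b = (b : ℚ_[p]) := rfl
    rw [this, hb]
    ring

end TPData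

end Crest.Agent.R013.TP_928
end

-- ▼ part R013/TP5_928
section

/-!
# R013 / C-TP (helper928), part 5: equivariance

`Act δ P r P'` = compatible additive endomorphisms of `E, D, D'` (an automorphism acting on
functions, divisors, and the divisors of the reductions).  Functoriality of `Tate`, `T0`, `red`,
`slope`.  The operator `eop c act = ∑ c a • act a` of an element of the group ring.
-/

set_option autoImplicit false
set_option linter.unusedSectionVars false

namespace Crest.Agent.R013.TP_928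

open PadicInt Module

variable {p : ℕ} [hp : Fact p.Prime]
variable {E D D' : Type*} [AddCommGroup E] [AddCommGroup D] [AddCommGroup D']

/-- compatible endomorphisms of functions, divisors, reduced divisors -/
structure Act (δ : E →+ D) (P : AddSubgroup D) (r : E →+ D') (P' : AddSubgroup D') where
  aE : E →+ E
  aD : D →+ D
  aD' : D' →+ D'
  δ_aE : ∀ e, δ (aE e) = aD (δ e)
  r_aE : ∀ e, r (aE e) = aD' (r e)
  mem : ∀ d ∈ P, aD d ∈ P
  mem' : ∀ d ∈ P', aD' d ∈ P'

namespace Act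

variable {δ : E →+ D} {P : AddSubgroup D} {r : E →+ D'} {P' : AddSubgroup D'}

/-- the action on classes -/
def pic (a : Act δ P r P') : D ⧸ P →+ D ⧸ P :=
  QuotientAddGroup.map P P a.aD (fun d hd => a.mem d hd)

/-- the action on classes of the reductions -/
def pic' (a : Act δ P r P') : D' ⧸ P' →+ D' ⧸ P' :=
  QuotientAddGroup.map P' P' a.aD' (fun d hd => a.mem' d hd)

@[simp] theorem pic_mk (a : Act δ P r P') (d : D) : a.pic (d : D ⧸ P) = (a.aD d : D ⧸ P) := rfl
@[simp] theorem pic'_mk (a : Act δ P r P') (d : D') : a.pic' (d : D' ⧸ P') = (a.aD' d : D' ⧸ P') :=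
  rfl

theorem rep_map (a : Act δ P r P') {n : ℕ} {z : D ⧸ P} {e : E} (h : Rep p δ P n z e) :
    Rep p δ P n (a.pic z) (a.aE e) := by
  obtain ⟨x, rfl, hx⟩ := h
  exact ⟨a.aD x, rfl, by rw [a.δ_aE, hx, map_nsmul]⟩

/-- the action on the Tate module -/
noncomputable def tate (a : Act δ P r P') : Tate p (D ⧸ P) →ₗ[ℤ_[p]] Tate p (D ⧸ P) :=
  Tate.map a.pic

/-- the action on the Tate module of the reductions -/
noncomputable def tate' (a : Act δ P r P') : Tate p (D' ⧸ P') →ₗ[ℤ_[p]] Tate p (D' ⧸ P') :=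
  Tate.map a.pic'


theorem rep_tate (a : Act δ P r P') {n : ℕ} {u : Tate p (D ⧸ P)} {e : E}
    (h : Rep p δ P n (u n) e) : Rep p δ P n (a.tate u n) (a.aE e) := a.rep_map h

variable (hP : ∀ d, d ∈ P ↔ ∃ e, δ e = d) [IsAddTorsionFree D] [IsAddTorsionFree D']
  (hr : ∀ c, δ c = 0 → r c = 0) (hrP : ∀ e, r e ∈ P')

theorem tate_mem_T0 (a : Act δ P r P') {u : Tate p (D ⧸ P)} (hu : u ∈ T0 p δ P hP r hr) :
    a.tate u ∈ T0 p δ P hP r hr := by
  refine mem_T0_of δ P hP hr _ fun n => ?_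
  obtain ⟨e, he⟩ := exists_rep (p := p) hP (u.pow_smul_apply n)
  obtain ⟨y, hy⟩ := hu n e he
  exact ⟨a.aE e, a.rep_tate he, a.aD' y, by rw [a.r_aE, hy, map_nsmul]⟩

theorem red_tate (a : Act δ P r P') (u : T0 p δ P hP r hr)
    (hu : a.tate (u : Tate p (D ⧸ P)) ∈ T0 p δ P hP r hr) :
    red δ P hP hr hrP ⟨a.tate (u : Tate p (D ⧸ P)), hu⟩ = a.tate' (red δ P hP hr hrP u) := by
  ext n
  obtain ⟨e, he⟩ := exists_rep (p := p) hP ((u : Tate p (D ⧸ P)).pow_smul_apply n)
  obtain ⟨y, hy⟩ := u.2 n e he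
  rw [red_spec δ P hP hr hrP ⟨a.tate (u : Tate p (D ⧸ P)), hu⟩ (a.rep_tate he)
    (y := a.aD' y) (by rw [a.r_aE, hy, map_nsmul])]
  unfold tate'
  rw [Tate.map_apply, red_spec δ P hP hr hrP u he hy, pic'_mk]

/-- if the reductions of `a e` and `e` agree modulo `p^n D'` then `a u - u` has zero slopes -/
theorem sub_mem_T0 (a : Act δ P r P') (u : Tate p (D ⧸ P))
    (h : ∀ n e, Rep p δ P n (u n) e → ∃ y, a.aD' (r e) - r e = (p ^ n) • y) :
    a.tate u - u ∈ T0 p δ P hP r hr := by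
  refine mem_T0_of δ P hP hr _ fun n => ?_
  obtain ⟨e, he⟩ := exists_rep (p := p) hP (u.pow_smul_apply n)
  exact ⟨a.aE e - e, (a.rep_tate he).sub he, by rw [map_sub, a.r_aE]; exact h n e he⟩

/-- comparison of two actions whose reductions agree on representatives -/
theorem red_sub_eq_zero_of {a : Act δ P r P'} {u : Tate p (D ⧸ P)}
    (hmem : a.tate u - u ∈ T0 p δ P hP r hr)
    (h : ∀ n e, Rep p δ P n (u n) e → ∃ y ∈ P', r (a.aE e) - r e = (p ^ n) • y) :
    red δ P hP hr hrP ⟨a.tate u - u, hmem⟩ = 0 := by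
  ext n
  obtain ⟨e, he⟩ := exists_rep (p := p) hP (u.pow_smul_apply n)
  obtain ⟨y, hy1, hy2⟩ := h n e he
  rw [red_spec δ P hP hr hrP ⟨a.tate u - u, hmem⟩ ((a.rep_tate he).sub he) (y := y)
    (by rw [map_sub, hy2]), Tate.zero_apply]
  exact (QuotientAddGroup.eq_zero_iff _).mpr hy1

/-- the converse -/
theorem of_red_sub_eq_zero {a : Act δ P r P'} {u : Tate p (D ⧸ P)}
    (hmem : a.tate u - u ∈ T0 p δ P hP r hr)
    (h0 : red δ P hP hr hrP ⟨a.tate u - u, hmem⟩ = 0) (n : ℕ) (e : E)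
    (he : Rep p δ P n (u n) e) : ∃ y ∈ P', r (a.aE e) - r e = (p ^ n) • y := by
  have h1 := (red_eq_zero_iff δ P hP hr hrP ⟨a.tate u - u, hmem⟩).mp h0 n (a.aE e - e)
    ((a.rep_tate he).sub he)
  rw [map_sub] at h1
  exact h1

end Act

section groupring

variable {A : Type*} [Group A] [Fintype A] {T : Type*} [AddCommGroup T] [Module ℤ_[p] T]

/-- the operator of an element of the group ring -/
noncomputable def eop (c : A → ℤ_[p]) (act : A → T →ₗ[ℤ_[p]] T) : T →ₗ[ℤ_[p]] T :=
  ∑ a, c a • act a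

theorem eop_apply (c : A → ℤ_[p]) (act : A → T →ₗ[ℤ_[p]] T) (u : T) :
    eop c act u = ∑ a, c a • act a u := by
  simp [eop]

theorem eop_eop (c : A → ℤ_[p]) (hc : ∀ a, ∑ b, c b * c (b⁻¹ * a) = c a)
    (act : A → T →ₗ[ℤ_[p]] T) (hact : ∀ a b u, act (a * b) u = act a (act b u)) (u : T) :
    eop c act (eop c act u) = eop c act u := by
  rw [eop_apply c act (eop c act u), eop_apply c act u]
  have h1 : ∀ b : A, c b • act b (∑ a, c a • act a u) =
      ∑ a, (c b * c (b⁻¹ * a)) • act a u := by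
    intro b
    rw [map_sum, Finset.smul_sum]
    refine Fintype.sum_equiv (Equiv.mulLeft b) _ _ (fun a => ?_)
    rw [map_smul, smul_smul, ← hact]
    simp
  rw [Finset.sum_congr rfl (fun b _ => h1 b), Finset.sum_comm]
  refine Finset.sum_congr rfl fun a _ => ?_
  rw [← Finset.sum_smul, hc a]

end groupring

end Crest.Agent.R013.TP_928
end

-- ▼ part R013/TP6_928
section

/-!
# R013 / C-TP (helper928), part 6: `TPData` from actions on functions and divisors

`TPIn` collects the geometric input; `TPIn.data : TPData`.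
`slopes`: the linear map `T → (ι → ℤ_[p])` of finitely many slopes, with kernel `T0`.
-/

set_option autoImplicit false
set_option linter.unusedSectionVars false
set_option linter.style.haveILetI false

namespace Crest.Agent.R013.TP_928

open PadicInt Module

variable {p : ℕ} [hp : Fact p.Prime]
variable {E D D' : Type*} [AddCommGroup E] [AddCommGroup D] [AddCommGroup D']
variable {δ : E →+ D} {P : AddSubgroup D} {r : E →+ D'} {P' : AddSubgroup D'}

section slopes

variable (hP : ∀ d, d ∈ P ↔ ∃ e, δ e = d) [IsAddTorsionFree D] [IsAddTorsionFree D']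
  (hr : ∀ c, δ c = 0 → r c = 0) {ι : Type*} (ρ : ι → D' →+ ℤ)

/-- the vector of slopes -/
noncomputable def slopes : Tate p (D ⧸ P) →ₗ[ℤ_[p]] (ι → ℤ_[p]) :=
  LinearMap.pi fun i => slope δ P hP ((ρ i).comp r) (fun c hc => by simp [hr c hc])



end slopes

/-- the geometric input -/
structure TPIn (p : ℕ) [Fact p.Prime] (δ : E →+ D) (P : AddSubgroup D) (r : E →+ D')
    (P' : AddSubgroup D') (G A W : Type*) [AddCommGroup W] [Module ℤ_[p] W]
    [Group A] [Fintype A] where
  hP : ∀ d, d ∈ P ↔ ∃ e, δ e = d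
  tfD : IsAddTorsionFree D
  tfD' : IsAddTorsionFree D'
  hr : ∀ c, δ c = 0 → r c = 0
  hrP : ∀ e, r e ∈ P'
  fin : Finite {x : D' ⧸ P' // p • x = 0}
  /-- Frobenius -/
  frob : Act δ P r P'
  fix : {x : D' ⧸ P' | frob.pic' x = x ∧ ∃ n, (p ^ n) • x = 0}.Finite
  /-- the slopes of Frobenius conjugates agree -/
  frob_sub : ∀ (n : ℕ) (e : E), (∃ x, δ e = (p ^ n) • x) →
    ∃ y, frob.aD' (r e) - r e = (p ^ n) • y
  /-- the Galois group -/
  gal : G → Act δ P r P'
  /-- on reductions every Galois element is, on a given function, a power of Frobenius -/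
  gal_r : ∀ g e, ∃ a : ℕ, r ((gal g).aE e) = (frob.aD')^[a] (r e)
  /-- the covering group -/
  cov : A → Act δ P r P'
  c : A → ℤ_[p]
  idem : ∀ a, ∑ b, c b * c (b⁻¹ * a) = c a
  cov_mul : ∀ a b z, (cov (a * b)).pic z = (cov a).pic ((cov b).pic z)
  cov_frob : ∀ a z, (cov a).pic (frob.pic z) = frob.pic ((cov a).pic z)
  cov_gal : ∀ a g z, (cov a).pic ((gal g).pic z) = (gal g).pic ((cov a).pic z)
  /-- forms -/
  gW : G → W →ₗ[ℤ_[p]] W
  om : Tate p (D ⧸ P) →ₗ[ℤ_[p]] W
  om_gal : ∀ g u, om ((gal g).tate u) = gW g (om u)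
  /-- (M3): a vector of the `e`-part all of whose reductions are `p^n`-th powers has zero form -/
  om_zero : ∀ u : Tate p (D ⧸ P), eop c (fun a => (cov a).tate) u = u →
    (∀ n e, Rep p δ P n (u n) e → ∃ y ∈ P', r e = (p ^ n) • y) → om u = 0
  /-- (NC): a vector of the `e`-part with zero form has slopes zero -/
  om_inj : ∀ u : Tate p (D ⧸ P), eop c (fun a => (cov a).tate) u = u → om u = 0 →
    ∀ n e, Rep p δ P n (u n) e → ∃ y, r e = (p ^ n) • y

theorem Act.iterate_sub (f : Act δ P r P') {n : ℕ} {x : D'} {S : AddSubgroup D'}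
    (hS : ∀ y ∈ S, f.aD' y ∈ S) (h : ∃ y ∈ S, f.aD' x - x = (p ^ n) • y) (a : ℕ) :
    ∃ y ∈ S, (f.aD')^[a] x - x = (p ^ n) • y := by
  obtain ⟨y, hy, h1⟩ := h
  induction a with
  | zero => exact ⟨0, S.zero_mem, by simp⟩
  | succ a ih =>
    obtain ⟨z, hz, h2⟩ := ih
    refine ⟨f.aD' z + y, S.add_mem (hS z hz) hy, ?_⟩
    have h3 : (f.aD')^[a] x = x + (p ^ n) • z := by rw [← h2]; abel
    rw [Function.iterate_succ_apply', h3, map_add, map_nsmul, smul_add, ← h1]
    abel

theorem Tate.map_comp_comm {A : Type*} [AddCommGroup A] {f g h k : A →+ A}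
    (hc : ∀ z, f (g z) = h (k z)) (u : Tate p A) :
    Tate.map f (Tate.map g u) = Tate.map h (Tate.map k u) := by
  ext n
  exact hc _

namespace TPIn

variable {G A W : Type*} [AddCommGroup W] [Module ℤ_[p] W] [Group A] [Fintype A]
  (d : TPIn p δ P r P' G A W)


/-- the kernel of the slopes -/
noncomputable def K0 : Submodule ℤ_[p] (Tate p (D ⧸ P)) :=
  haveI := d.tfD
  haveI := d.tfD'
  T0 p δ P d.hP r d.hr

theorem mem_K0 (u : Tate p (D ⧸ P)) : u ∈ d.K0 ↔
    ∀ n e, Rep p δ P n (u n) e → ∃ y, r e = (p ^ n) • y := Iff.rfl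

/-- the reduction -/
noncomputable def sred : d.K0 →ₗ[ℤ_[p]] Tate p (D' ⧸ P') :=
  haveI := d.tfD
  haveI := d.tfD'
  red δ P d.hP d.hr d.hrP

theorem sred_eq_zero_iff (u : d.K0) : d.sred u = 0 ↔
    ∀ n e, Rep p δ P n ((u : Tate p (D ⧸ P)) n) e → ∃ y ∈ P', r e = (p ^ n) • y := by
  haveI := d.tfD
  haveI := d.tfD'
  exact red_eq_zero_iff δ P d.hP d.hr d.hrP u

theorem frob_sub_mem (u : Tate p (D ⧸ P)) : d.frob.tate u - u ∈ d.K0 := by
  haveI := d.tfD
  haveI := d.tfD'
  exact d.frob.sub_mem_T0 d.hP d.hr u fun n e he => d.frob_sub n e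
    (by obtain ⟨x, -, hx⟩ := he; exact ⟨x, hx⟩)

theorem gal_sub_mem (g : G) (u : Tate p (D ⧸ P)) : (d.gal g).tate u - u ∈ d.K0 := by
  haveI := d.tfD
  haveI := d.tfD'
  refine (d.gal g).sub_mem_T0 d.hP d.hr u fun n e he => ?_
  obtain ⟨x, -, hx⟩ := he
  obtain ⟨a, ha⟩ := d.gal_r g e
  obtain ⟨y, hy⟩ := d.frob_sub n e ⟨x, hx⟩
  obtain ⟨z, -, hz⟩ := d.frob.iterate_sub (S := ⊤) (by simp) ⟨y, trivial, hy⟩ a
  exact ⟨z, by rw [← (d.gal g).r_aE, ha, hz]⟩

theorem cov_mem (a : A) {u : Tate p (D ⧸ P)} (hu : u ∈ d.K0) : (d.cov a).tate u ∈ d.K0 := by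
  haveI := d.tfD
  haveI := d.tfD'
  exact (d.cov a).tate_mem_T0 d.hP d.hr hu

/-- the idempotent -/
noncomputable def e : Tate p (D ⧸ P) →ₗ[ℤ_[p]] Tate p (D ⧸ P) :=
  eop d.c (fun a => (d.cov a).tate)

theorem e_apply (u : Tate p (D ⧸ P)) : d.e u = ∑ a, d.c a • (d.cov a).tate u :=
  eop_apply _ _ _

theorem e_mem {u : Tate p (D ⧸ P)} (hu : u ∈ d.K0) : d.e u ∈ d.K0 := by
  rw [e_apply]
  exact Submodule.sum_mem _ fun a _ => Submodule.smul_mem _ _ (d.cov_mem a hu)

/-- the data of part 4 -/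
noncomputable def data : TPData p (Tate p (D ⧸ P)) (Tate p (D' ⧸ P')) W G where
  gT g := (d.gal g).tate
  gW := d.gW
  T0 := d.K0
  s := d.sred
  fT := d.frob.tate
  fN := d.frob.tate'
  fT_sub := d.frob_sub_mem
  s_fT w hw := by
    haveI := d.tfD
    haveI := d.tfD'
    exact d.frob.red_tate d.hP d.hr d.hrP w hw
  fN_inj x hx := Tate.eq_zero_of_fixed d.fix hx
  gT_sub := d.gal_sub_mem
  gen u h0 g := by
    haveI := d.tfD
    haveI := d.tfD'
    refine Act.red_sub_eq_zero_of d.hP d.hr d.hrP (d.gal_sub_mem g u) fun n e he => ?_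
    obtain ⟨y, hy1, hy2⟩ := Act.of_red_sub_eq_zero d.hP d.hr d.hrP (d.frob_sub_mem u) h0 n e he
    obtain ⟨a, ha⟩ := d.gal_r g e
    rw [d.frob.r_aE] at hy2
    obtain ⟨z, hz, hz'⟩ := d.frob.iterate_sub (S := P') d.frob.mem' ⟨y, hy1, hy2⟩ a
    exact ⟨z, hz, by rw [ha, hz']⟩
  e := d.e
  e_e u := eop_eop d.c d.idem _ (fun a b v => by
    ext n
    exact d.cov_mul a b _) u
  e_T0 w hw := d.e_mem hw
  e_fT u := by
    rw [d.e_apply, d.e_apply, map_sum]
    refine Finset.sum_congr rfl fun a _ => ?_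
    rw [map_smul]
    congr 1
    exact Tate.map_comp_comm (d.cov_frob a) u
  e_s w hw := by
    haveI := d.tfD
    haveI := d.tfD'
    have h1 : (⟨d.e w, d.e_mem w.2⟩ : d.K0) =
        ∑ a, d.c a • (⟨(d.cov a).tate w, d.cov_mem a w.2⟩ : d.K0) := by
      apply Subtype.ext
      rw [Submodule.coe_sum]
      exact d.e_apply _
    rw [h1, map_sum]
    refine Finset.sum_eq_zero fun a _ => ?_
    rw [map_smul]
    have h2 : d.sred ⟨(d.cov a).tate w, d.cov_mem a w.2⟩ = (d.cov a).tate' (d.sred w) :=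
      (d.cov a).red_tate d.hP d.hr d.hrP w (d.cov_mem a w.2)
    rw [h2, hw, map_zero, smul_zero]
  om := d.om
  om_gT := d.om_gal
  e_gT g u := by
    rw [d.e_apply, d.e_apply, map_sum]
    refine Finset.sum_congr rfl fun a _ => ?_
    rw [map_smul]
    congr 1
    exact Tate.map_comp_comm (d.cov_gal a g) u
  om_zero w hw h0 := d.om_zero _ hw ((d.sred_eq_zero_iff w).mp h0)
  om_inj u hu h0 := (d.mem_K0 u).mpr (d.om_inj u hu h0)


theorem finite_N (d : TPIn p δ P r P' G A W) : Module.Finite ℤ_[p] (Tate p (D' ⧸ P')) :=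
  Tate.finite d.fin

end TPIn

end Crest.Agent.R013.TP_928
end

-- ▼ part R013/Frob2_914
section

/-!
# R013 / Frob2: Lang's fixed vector (helper914)

`V ≠ 0` finite dimensional over an algebraically closed field `k`, `Φ : V → V` additive injective
with `Φ (c v) = c ^ q Φ v`, `q ≥ 2`. Then `Φ` has a nonzero fixed vector.
-/

set_option autoImplicit false
set_option linter.all false

namespace Crest.Agent.R013.Frob2_914

open Polynomial

section poly

variable {k : Type*} [Field k]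

/-- the coefficient polynomials -/
noncomputable def Pc (q : ℕ) (a : ℕ → k) : ℕ → k[X]
  | 0 => C (a 0) * X ^ q
  | i + 1 => Pc q a i ^ q + C (a (i + 1)) * X ^ q

theorem Pc_dvd {q : ℕ} (hq : 2 ≤ q) (a : ℕ → k) (i : ℕ) : (X : k[X]) ^ 2 ∣ Pc q a i := by
  have h0 : (X : k[X]) ^ 2 ∣ X ^ q := pow_dvd_pow _ hq
  induction i with
  | zero => exact Dvd.dvd.mul_left h0 _
  | succ i ih =>
    refine dvd_add ?_ (Dvd.dvd.mul_left h0 _)
    exact ih.trans (dvd_pow_self _ (by omega))

theorem natDegree_CX {q : ℕ} {c : k} (hc : c ≠ 0) : (C c * X ^ q : k[X]).natDegree = q :=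
  natDegree_C_mul_X_pow q c hc

theorem Pc_deg {q : ℕ} (hq : 2 ≤ q) (a : ℕ → k) (i : ℕ) :
    (Pc q a i = 0 ∧ ∀ j ≤ i, a j = 0) ∨ (Pc q a i ≠ 0 ∧ q ≤ (Pc q a i).natDegree) := by
  induction i with
  | zero =>
    by_cases h : a 0 = 0
    · left
      refine ⟨by simp [Pc, h], fun j hj => by
        rw [Nat.le_zero.mp hj]; exact h⟩
    · right
      have h1 : (Pc q a 0).natDegree = q := natDegree_CX h
      refine ⟨fun h0 => ?_, h1.ge⟩
      rw [h0, natDegree_zero] at h1
      omega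
  | succ i ih =>
    rcases ih with ⟨h1, h2⟩ | ⟨h1, h2⟩
    · by_cases h : a (i + 1) = 0
      · left
        refine ⟨?_, fun j hj => ?_⟩
        · show Pc q a i ^ q + C (a (i + 1)) * X ^ q = 0
          rw [h1, h, map_zero, zero_mul, add_zero, zero_pow (by omega)]
        · rcases Nat.lt_or_ge i j with h3 | h3
          · have : j = i + 1 := by omega
            rw [this]; exact h
          · exact h2 j h3
      · right
        have e : Pc q a (i + 1) = C (a (i + 1)) * X ^ q := by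
          show Pc q a i ^ q + C (a (i + 1)) * X ^ q = _
          rw [h1, zero_pow (by omega), zero_add]
        rw [e]
        refine ⟨?_, (natDegree_CX h).ge⟩
        intro h0
        have := natDegree_CX (q := q) h
        rw [h0, natDegree_zero] at this
        omega
    · right
      have e : Pc q a (i + 1) = Pc q a i ^ q + C (a (i + 1)) * X ^ q := rfl
      have hd1 : (Pc q a i ^ q).natDegree = q * (Pc q a i).natDegree := natDegree_pow _ _
      have hd2 : (C (a (i + 1)) * X ^ q : k[X]).natDegree ≤ q := natDegree_C_mul_X_pow_le _ _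
      have hlt : q < q * (Pc q a i).natDegree := by nlinarith
      have hd : (Pc q a (i + 1)).natDegree = q * (Pc q a i).natDegree := by
        rw [e, natDegree_add_eq_left_of_natDegree_lt (by rw [hd1]; exact hd2.trans_lt hlt), hd1]
      refine ⟨fun h0 => ?_, by rw [hd]; exact hlt.le⟩
      rw [h0, natDegree_zero] at hd
      omega

theorem exists_root_Pc [IsAlgClosed k] {q : ℕ} (hq : 2 ≤ q) (a : ℕ → k) (i : ℕ) (hj : ∃ j ≤ i, a j ≠ 0) :
    ∃ t : k, t ≠ 0 ∧ (Pc q a i).eval t = t := by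
  obtain ⟨R, hR⟩ := Pc_dvd hq a i
  rcases Pc_deg hq a i with ⟨_, h2⟩ | ⟨h1, h2⟩
  · obtain ⟨j, hj1, hj2⟩ := hj
    exact absurd (h2 j hj1) hj2
  have hR0 : R ≠ 0 := by
    rintro rfl
    exact h1 (by rw [hR, mul_zero])
  have hdeg : (X * R - 1 : k[X]).natDegree = R.natDegree + 1 := by
    rw [natDegree_sub_eq_left_of_natDegree_lt]
    · rw [natDegree_X_mul hR0]
    · rw [natDegree_X_mul hR0, natDegree_one]; omega
  obtain ⟨t, ht⟩ := IsAlgClosed.exists_root (X * R - 1 : k[X]) (by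
    intro h
    have := natDegree_eq_of_degree_eq_some (n := 0) (by simpa using h)
    omega)
  have ht' : t * R.eval t = 1 := by
    have := ht
    rw [IsRoot.def, eval_sub, eval_mul, eval_X, eval_one, sub_eq_zero] at this
    exact this
  refine ⟨t, ?_, ?_⟩
  · rintro rfl
    rw [zero_mul] at ht'
    exact zero_ne_one ht'
  · rw [hR, eval_mul, eval_pow, eval_X, pow_two, mul_assoc, ht', mul_one]

end poly

section lang

variable {k V : Type*} [Field k] [AddCommGroup V] [Module k V]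

/-- **Lang's fixed vector** -/
theorem exists_fixed [IsAlgClosed k] [FiniteDimensional k V] {q : ℕ} (hq : 2 ≤ q) (Φ : V →+ V)
    (hΦ : ∀ (c : k) (v : V), Φ (c • v) = c ^ q • Φ v) (hinj : Function.Injective Φ) {v : V}
    (hv : v ≠ 0) : ∃ w : V, w ≠ 0 ∧ Φ w = w := by
  classical
  let u : ℕ → V := fun i => Φ^[i] v
  have hu0 : ∀ i, u i ≠ 0 := by
    intro i
    induction i with
    | zero => exact hv
    | succ i ih =>
      show Φ^[i + 1] v ≠ 0
      rw [Function.iterate_succ_apply']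
      intro h
      exact ih (hinj (by rw [map_zero]; exact h))
  have hus : ∀ i, Φ (u i) = u (i + 1) := fun i => (Function.iterate_succ_apply' Φ i v).symm
  -- minimal `r` with `u r` in the span of the previous ones
  let W : ℕ → Submodule k V := fun r => Submodule.span k (Set.range fun i : Fin r => u i)
  have hmemW : ∀ r i, i < r → u i ∈ W r := fun r i h =>
    Submodule.subset_span ⟨⟨i, h⟩, rfl⟩
  have hWm : Monotone W := by
    intro r r' h
    refine Submodule.span_le.mpr ?_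
    rintro _ ⟨i, rfl⟩
    exact hmemW r' i (lt_of_lt_of_le i.2 h)
  have hex : ∃ r, u r ∈ W r := by
    obtain ⟨n, hn⟩ := monotone_stabilizes_iff_noetherian.mpr
      (inferInstance : IsNoetherian k V) ⟨W, hWm⟩
    refine ⟨n, ?_⟩
    have h1 : W n = W (n + 1) := hn (n + 1) (Nat.le_succ n)
    rw [h1]
    exact hmemW _ _ (Nat.lt_succ_self n)
  let r := Nat.find hex
  have hr : u r ∈ W r := Nat.find_spec hex
  have hmin : ∀ m, m < r → u m ∉ W m := fun m hm => Nat.find_min hex hm
  have hr0 : r ≠ 0 := by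
    intro h0
    have h1 : u r ∈ W r := hr
    rw [h0] at h1
    have h2 : W 0 = ⊥ := by
      show Submodule.span k (Set.range fun i : Fin 0 => u i) = ⊥
      rw [Set.range_eq_empty, Submodule.span_empty]
    rw [h2, Submodule.mem_bot] at h1
    exact hu0 0 h1
  obtain ⟨s, hs⟩ := Nat.exists_eq_succ_of_ne_zero hr0
  rw [Nat.succ_eq_add_one] at hs
  rw [hs] at hr
  obtain ⟨c, hc⟩ := (Submodule.mem_span_range_iff_exists_fun k).mp hr
  let a : ℕ → k := fun i => if h : i < s + 1 then c ⟨i, h⟩ else 0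
  have ha : u (s + 1) = ∑ i ∈ Finset.range (s + 1), a i • u i := by
    rw [Finset.sum_range, ← hc]
    refine Finset.sum_congr rfl fun i _ => ?_
    show c i • u i = (if h : (i : ℕ) < s + 1 then c ⟨i, h⟩ else 0) • u i
    rw [dif_pos i.2]
  have hne : ∃ j ≤ s, a j ≠ 0 := by
    by_contra hcon
    push Not at hcon
    apply hu0 (s + 1)
    rw [ha]
    refine Finset.sum_eq_zero fun i hi => ?_
    rw [hcon i (by rw [Finset.mem_range] at hi; omega), zero_smul]
  obtain ⟨t, ht0, ht⟩ := exists_root_Pc hq a s hne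
  let d : ℕ → k := fun i => (Pc q a i).eval t
  have hd0 : d 0 = a 0 * t ^ q := by simp [d, Pc]
  have hd1 : ∀ i, d (i + 1) = d i ^ q + a (i + 1) * t ^ q := fun i => by simp [d, Pc]
  have hds : d s = t := ht
  refine ⟨∑ i ∈ Finset.range (s + 1), d i • u i, ?_, ?_⟩
  · intro h0
    rw [Finset.sum_range_succ, hds] at h0
    apply hmin s (by omega)
    have h1 : u s = -(t⁻¹ • ∑ i ∈ Finset.range s, d i • u i) := by
      have : t⁻¹ • (∑ i ∈ Finset.range s, d i • u i + t • u s) = 0 := by rw [h0, smul_zero]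
      rw [smul_add, smul_smul, inv_mul_cancel₀ ht0, one_smul] at this
      exact eq_neg_of_add_eq_zero_right this
    rw [h1]
    refine Submodule.neg_mem _ (Submodule.smul_mem _ _ (Submodule.sum_mem _ fun i hi => ?_))
    exact Submodule.smul_mem _ _ (hmemW s i (Finset.mem_range.mp hi))
  · rw [map_sum]
    have e1 : ∀ i, Φ (d i • u i) = d i ^ q • u (i + 1) := fun i => by rw [hΦ, hus]
    simp only [e1]
    rw [Finset.sum_range_succ, Finset.sum_range_succ' (fun i => d i • u i), hds, ha,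
      Finset.sum_range_succ' (fun i => a i • u i), smul_add, Finset.smul_sum, ← add_assoc,
      ← Finset.sum_add_distrib]
    congr 1
    · refine Finset.sum_congr rfl fun i _ => ?_
      rw [hd1, add_smul, smul_smul, mul_comm (t ^ q)]
    · rw [hd0, smul_smul, mul_comm]

end lang

end Crest.Agent.R013.Frob2_914
private theorem rz_7a6458b505 : type_of% @_root_.Crest.Agent.R013.Frob2_914.Pc.eq_def := @_root_.Crest.Agent.R013.Frob2_914.Pc.eq_def -- L22
private theorem rz_c8744db264 : type_of% @_root_.Crest.Agent.R013.Frob2_914.Pc.eq_1 := @_root_.Crest.Agent.R013.Frob2_914.Pc.eq_1 -- L22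
end

-- ▼ part R013/Frob3_914
section

/-!
# R013 / Frob3: finitely many divisor classes of degree zero are fixed by the Frobenius (helper914)
-/

set_option autoImplicit false
set_option linter.all false

namespace Crest.Agent.R013.Frob3_914

open WithZero Module Polynomial
open Crest.Agent.R013.RR7_948 Crest.Agent.R013.RR8_948 Crest.Agent.R013.RR9_948
open Crest.Agent.R013.RR11_948 Crest.Agent.R013.RR12_948 Crest.Agent.R013.PicD_398
open Crest.Agent.R013.CE1_280 Crest.Agent.R013.CE5_280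
open Crest.Agent.R013.Frob1_914 Crest.Agent.R013.Frob2_914

section

variable {k K : Type*} [Field k] [IsAlgClosed k] [Field K] [Algebra k K]
  [Algebra (RatFunc k) K] [IsScalarTower k (RatFunc k) K] [FiniteDimensional (RatFunc k) K]
  [Algebra.IsSeparable (RatFunc k) K]

/-- iterate of the action on places -/
theorem pl_iterate_v (e : SI k K k K) (j : ℕ) (P : Pl k K) (x : K) :
    (e.pl^[j] P).v (e.f^[j] x) = P.v x := by
  induction j with
  | zero => rfl
  | succ j ih => rw [Function.iterate_succ_apply', Function.iterate_succ_apply', SI.pl_v_apply, ih]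

/-- places fixed by the `j`-th iterate of the Frobenius -/
theorem finite_fixed_pl (e : SI k K k K) {q : ℕ} (hq : 2 ≤ q) (he : ∀ c, e.s c = c ^ q) {y : K}
    (hy : e.f y = y) (hyc : y ∉ Set.range (algebraMap k K)) {j : ℕ} (hj : j ≠ 0) :
    {P : Pl k K | e.pl^[j] P = P}.Finite := by
  classical
  have hfy : e.f^[j] y = y := Function.iterate_fixed hy j
  have hfc : ∀ c : k, e.f^[j] (algebraMap k K c) = algebraMap k K (c ^ q ^ j) := by
    intro c
    clear hfy hj
    induction j with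
    | zero => simp
    | succ j ih =>
      rw [Function.iterate_succ_apply', ih, e.comm, he, ← pow_mul, pow_succ]
  have hsub : ∀ c : k, y - algebraMap k K c ≠ 0 := fun c h =>
    hyc ⟨c, (sub_eq_zero.mp h).symm⟩
  have hy0 : y ≠ 0 := by
    rintro rfl
    exact hyc ⟨0, map_zero _⟩
  have hqj : 1 < q ^ j := Nat.one_lt_pow hj (by omega)
  let R : k[X] := X ^ (q ^ j) - X
  have hR : R ≠ 0 := by
    intro h
    have : R.natDegree = q ^ j := by
      show (X ^ (q ^ j) - X : k[X]).natDegree = q ^ j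
      rw [natDegree_sub_eq_left_of_natDegree_lt]
      · exact natDegree_X_pow _
      · rw [natDegree_X_pow, natDegree_X]; exact hqj
    rw [h, natDegree_zero] at this
    omega
  have hfin : ({P : Pl k K | P.v y ≠ 1} ∪
      ⋃ c ∈ (R.roots.toFinset : Set k), {P : Pl k K | P.v (y - algebraMap k K c) ≠ 1}).Finite := by
    refine (finite_ne_one hy0).union ?_
    refine Set.Finite.biUnion (Finset.finite_toSet _) fun c _ => finite_ne_one (hsub c)
  refine hfin.subset fun P hP => ?_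
  have hP : e.pl^[j] P = P := hP
  by_cases h1 : P.v y ≤ 1
  · obtain ⟨c, hc⟩ := exists_residue P h1
    right
    have h2 : P.v (y - algebraMap k K (c ^ q ^ j)) < 1 := by
      have := pl_iterate_v e j P (y - algebraMap k K c)
      rw [hP] at this
      have e2 : e.f^[j] (y - algebraMap k K c) = y - algebraMap k K (c ^ q ^ j) := by
        rw [iterate_map_sub, hfy, hfc]
      rw [e2] at this
      rw [this]; exact hc
    have h3 : c = c ^ q ^ j := by
      have h4 : P.v (algebraMap k K (c - c ^ q ^ j)) < 1 := by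
        have : algebraMap k K (c - c ^ q ^ j) =
            (y - algebraMap k K (c ^ q ^ j)) - (y - algebraMap k K c) := by
          rw [map_sub]; ring
        rw [this]
        exact lt_of_le_of_lt (Valuation.map_sub _ _ _) (max_lt h2 hc)
      exact sub_eq_zero.mp (v_algebraMap_lt P h4)
    simp only [Set.mem_iUnion, Finset.mem_coe, Multiset.mem_toFinset, Set.mem_setOf_eq]
    refine ⟨c, ?_, hc.ne⟩
    rw [mem_roots hR, IsRoot.def]
    simp only [R, eval_sub, eval_pow, eval_X]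
    rw [← h3, sub_self]
  · left
    exact fun h => h1 h.le

/-- every place has a finite orbit -/
theorem exists_iterate_eq (e : SI k K k K) {q : ℕ} (hq : 2 ≤ q) (he : ∀ c, e.s c = c ^ q)
    (halg : ∀ c : k, ∃ m, m ≠ 0 ∧ c ^ q ^ m = c) {y : K}
    (hy : e.f y = y) (hyc : y ∉ Set.range (algebraMap k K)) (P : Pl k K) :
    ∃ j, j ≠ 0 ∧ e.pl^[j] P = P := by
  classical
  have hfy : ∀ j, e.f^[j] y = y := fun j => Function.iterate_fixed hy j
  have hfc : ∀ (j : ℕ) (c : k), e.f^[j] (algebraMap k K c) = algebraMap k K (c ^ q ^ j) := by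
    intro j c
    induction j with
    | zero => simp
    | succ j ih =>
      rw [Function.iterate_succ_apply', ih, e.comm, he, ← pow_mul, pow_succ]
  have hsub : ∀ c : k, y - algebraMap k K c ≠ 0 := fun c h =>
    hyc ⟨c, (sub_eq_zero.mp h).symm⟩
  have hy0 : y ≠ 0 := by
    rintro rfl
    exact hyc ⟨0, map_zero _⟩
  -- pigeonhole
  have key : ∀ (S : Set (Pl k K)) (_ : S.Finite) (m : ℕ) (_ : m ≠ 0)
      (_ : ∀ i, e.pl^[m * i] P ∈ S), ∃ j, j ≠ 0 ∧ e.pl^[j] P = P := by
    intro S hS m hm hmem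
    obtain ⟨a, b, hab, h⟩ : ∃ a b : ℕ, a < b ∧ e.pl^[m * a] P = e.pl^[m * b] P := by
      have := hS.to_subtype
      obtain ⟨a, b, hne, h⟩ := Finite.exists_ne_map_eq_of_infinite (fun i : ℕ => (⟨_, hmem i⟩ : S))
      rcases lt_or_gt_of_ne hne with h1 | h1
      · exact ⟨a, b, h1, congrArg Subtype.val h⟩
      · exact ⟨b, a, h1, (congrArg Subtype.val h).symm⟩
    refine ⟨m * (b - a), Nat.mul_ne_zero hm (by omega), ?_⟩
    have hinj : Function.Injective e.pl^[m * a] := e.pl_injective.iterate _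
    apply hinj
    rw [← Function.iterate_add_apply, ← mul_add, Nat.add_sub_cancel' hab.le]
    exact h.symm
  by_cases h1 : P.v y ≤ 1
  · obtain ⟨c, hc⟩ := exists_residue P h1
    obtain ⟨m, hm, hcm⟩ := halg c
    refine key {Q : Pl k K | Q.v (y - algebraMap k K c) ≠ 1} (finite_ne_one (hsub c)) m hm
      fun i => ?_
    have hci : c ^ q ^ (m * i) = c := by
      induction i with
      | zero => simp
      | succ i ih => rw [mul_add, mul_one, pow_add, pow_mul, ih, hcm]
    have := pl_iterate_v e (m * i) P (y - algebraMap k K c)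
    rw [iterate_map_sub, hfy, hfc, hci] at this
    show (e.pl^[m * i] P).v _ ≠ 1
    rw [this]
    exact hc.ne
  · refine key {Q : Pl k K | Q.v y ≠ 1} (finite_ne_one hy0) 1 one_ne_zero fun i => ?_
    have := pl_iterate_v e (1 * i) P y
    rw [hfy] at this
    show (e.pl^[1 * i] P).v y ≠ 1
    rw [this]
    exact fun h => h1 h.le

/-- finitely many Frobenius invariant effective divisors of given degree -/
theorem finite_inv_div (e : SI k K k K) {q : ℕ} (hq : 2 ≤ q) (he : ∀ c, e.s c = c ^ q) {y : K}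
    (hy : e.f y = y) (hyc : y ∉ Set.range (algebraMap k K)) (M : ℕ) :
    {E : Pl k K →₀ ℤ | 0 ≤ E ∧ e.D E = E ∧ degD E = M}.Finite := by
  classical
  have hS : (⋃ j ∈ Finset.Icc 1 M, {P : Pl k K | e.pl^[j] P = P}).Finite := by
    refine Set.Finite.biUnion (Finset.finite_toSet _) fun j hj => ?_
    exact finite_fixed_pl e hq he hy hyc (by
      have := (Finset.mem_Icc.mp hj).1
      omega)
  let S : Finset (Pl k K) := hS.toFinset
  let B : Pl k K →₀ ℤ := ∑ P ∈ S, Finsupp.single P (M : ℤ)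
  refine (Set.finite_Icc (0 : Pl k K →₀ ℤ) B).subset ?_
  rintro E ⟨hE0, hE, hEd⟩
  refine ⟨hE0, fun P => ?_⟩
  have hsum : E.sum (fun _ n => n) = M := by rw [← degD_eq_sum, hEd]
  have hle : ∀ T : Finset (Pl k K), T ⊆ E.support → ∑ Q ∈ T, E Q ≤ M := by
    intro T hT
    rw [← hsum]
    exact Finset.sum_le_sum_of_subset_of_nonneg hT fun Q _ _ => hE0 Q
  by_cases hP : E P = 0
  · rw [hP]
    simp only [B, Finsupp.coe_finset_sum, Finset.sum_apply]
    exact Finset.sum_nonneg fun Q _ => by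
      rw [Finsupp.single_apply]
      split_ifs <;> positivity
  · have hPs : P ∈ E.support := Finsupp.mem_support_iff.mpr hP
    have hPM : E P ≤ M := by
      have := hle {P} (by simpa using hPs)
      simpa using this
    -- orbit of `P`
    have horb : ∀ i, E (e.pl^[i] P) = E P := by
      intro i
      induction i with
      | zero => rfl
      | succ i ih =>
        rw [Function.iterate_succ_apply', ← ih]
        conv_lhs => rw [← hE]
        rw [SI.D_pl]
    have hPS : P ∈ S := by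
      have hnot : ¬ Function.Injective (fun i : Fin (M + 1) => e.pl^[(i : ℕ)] P) := by
        intro hinj
        let T : Finset (Pl k K) := Finset.univ.image (fun i : Fin (M + 1) => e.pl^[(i : ℕ)] P)
        have h1 : ∑ Q ∈ T, E Q ≤ M := by
          apply hle
          intro Q hQ
          obtain ⟨i, _, rfl⟩ := Finset.mem_image.mp hQ
          rw [Finsupp.mem_support_iff, horb]
          exact hP
        have h2 : ∑ Q ∈ T, E Q = (M + 1) * E P := by
          rw [Finset.sum_image fun a _ b _ h => hinj h]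
          simp [horb]
        have h3 : 1 ≤ E P := by
          have := hE0 P
          simp only [Finsupp.coe_zero, Pi.zero_apply] at this
          omega
        nlinarith
      simp only [Function.Injective, not_forall] at hnot
      obtain ⟨a, b, h, hne⟩ := hnot
      have key : ∀ a b : Fin (M + 1), a < b → e.pl^[(a : ℕ)] P = e.pl^[(b : ℕ)] P → P ∈ S := by
        intro a b hab h
        have hab' : (a : ℕ) < b := hab
        have h1 : e.pl^[(b : ℕ) - a] P = P := by
          have hinj : Function.Injective e.pl^[(a : ℕ)] := e.pl_injective.iterate _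
          apply hinj
          rw [← Function.iterate_add_apply, Nat.add_sub_cancel' hab'.le]
          exact h.symm
        rw [Set.Finite.mem_toFinset]
        simp only [Set.mem_iUnion]
        refine ⟨(b : ℕ) - a, ?_, h1⟩
        rw [Finset.mem_Icc]
        have := b.2
        omega
      rcases lt_or_gt_of_ne hne with h1 | h1
      · exact key a b h1 h
      · exact key b a h1 h.symm
    have hBP : B P = M := by
      simp only [B, Finsupp.coe_finset_sum, Finset.sum_apply]
      rw [Finset.sum_eq_single P]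
      · simp
      · intro Q _ hQ
        rw [Finsupp.single_apply, if_neg hQ]
      · intro h; exact absurd hPS h
    rw [hBP]
    exact hPM

/-- **finitely many Frobenius-fixed classes of degree zero** -/
theorem finite_fixed (e : SI k K k K) {q : ℕ} (hq : 2 ≤ q) (he : ∀ c, e.s c = c ^ q)
    (halg : ∀ c : k, ∃ m, m ≠ 0 ∧ c ^ q ^ m = c) {y : K}
    (hy : e.f y = y) (hyc : y ∉ Set.range (algebraMap k K)) :
    {z : Pic k K | e.pic z = z ∧ degPic z = 0}.Finite := by
  classical
  obtain ⟨P0, _⟩ := exists_notMem (∅ : Finset (Pl k K))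
  obtain ⟨m, hm0, hm⟩ := exists_iterate_eq e hq he halg hy hyc P0
  -- the invariant divisor `A`
  let A : Pl k K →₀ ℤ := ∑ i ∈ Finset.range m, Finsupp.single (e.pl^[i] P0) 1
  have hA : e.D A = A := by
    simp only [A, map_sum, SI.D_single]
    have h1 : ∀ i, Finsupp.single (e.pl (e.pl^[i] P0)) (1 : ℤ) =
        Finsupp.single (e.pl^[i + 1] P0) 1 := fun i => by rw [Function.iterate_succ_apply']
    simp only [h1]
    obtain ⟨s, rfl⟩ := Nat.exists_eq_succ_of_ne_zero hm0
    rw [Finset.sum_range_succ, Finset.sum_range_succ' (fun i => Finsupp.single (e.pl^[i] P0) (1 : ℤ))]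
    congr 1
    rw [← Nat.succ_eq_add_one, hm]
    rfl
  have hAd : degD A = m := by
    rw [degD_eq_sum]
    simp only [A]
    rw [← Finsupp.sum_finset_sum_index (by intros; rfl) (by intros; rfl)]
    simp
  have hcb := algebraicClosure_eq_bot (k := k) (K := K)
  let g := gen k K
  let M : ℕ := g * m
  let NA : Pl k K →₀ ℤ := g • A
  have hNA : e.D NA = NA := by simp only [NA, map_nsmul, hA]
  have hNAd : degD NA = M := by
    have : degD NA = degHom (k := k) (K := K) NA := rfl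
    rw [this]
    simp only [NA, map_nsmul]
    show g • degD A = _
    rw [hAd]
    simp [M]
  refine ((finite_inv_div e hq he hy hyc M).image fun E => cls (E - NA)).subset ?_
  rintro z ⟨hz, hzd⟩
  obtain ⟨x, rfl⟩ := cls_surjective z
  rw [SI.pic_cls, cls_eq_iff] at hz
  obtain ⟨h, hh0, hxh⟩ := hz
  rw [degPic_cls] at hzd
  let Dv := x + NA
  have hDd : degD Dv = M := by
    simp only [Dv]
    rw [degD_add, hzd, hNAd, zero_add]
  have hell : 0 < ell Dv := by
    have h1 := riemann_roch hcb Dv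
    rw [hDd] at h1
    have h2 : (0 : ℤ) ≤ ell (canD k K - Dv) := by positivity
    have h3 : (g : ℤ) ≤ (M : ℤ) := by
      have : g ≤ g * m := Nat.le_mul_of_pos_right _ (Nat.pos_of_ne_zero hm0)
      exact_mod_cast this
    have h4 : (gen k K : ℤ) = g := rfl
    omega
  have hstab : ∀ f : K, f ∈ LD Dv → h * e.f f ∈ LD Dv := by
    intro f hf
    have h1 : e.f f ∈ LD (e.D Dv) := e.mem_LD.mpr hf
    have h2 : e.D Dv = Dv + divf h := by
      simp only [Dv, map_add, hxh, hNA]
      abel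
    rw [h2, RR9_948.mem_LD] at h1
    rw [RR9_948.mem_LD]
    intro P
    rw [map_mul, v_eq hh0 P]
    calc exp (-divf (k := k) h P) * P.v (e.f f)
        ≤ exp (-divf (k := k) h P) * exp ((Dv + divf (k := k) h) P) :=
          mul_le_mul_right (h1 P) _
      _ = exp (Dv P) := by
          rw [← exp_add, Finsupp.add_apply]
          congr 1
          ring
  haveI := LD_finite Dv
  let Φ : LD Dv →+ LD Dv :=
    { toFun := fun f => ⟨h * e.f f, hstab f f.2⟩
      map_zero' := by
        apply Subtype.ext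
        show h * e.f 0 = 0
        rw [map_zero, mul_zero]
      map_add' := fun a b => by
        apply Subtype.ext
        show h * e.f (a + b) = h * e.f a + h * e.f b
        rw [map_add, mul_add] }
  have hΦ : ∀ (c : k) (v : LD Dv), Φ (c • v) = c ^ q • Φ v := by
    intro c v
    apply Subtype.ext
    show h * e.f (c • (v : K)) = c ^ q • (h * e.f v)
    rw [Algebra.smul_def, map_mul, e.comm, he, Algebra.smul_def]
    ring
  have hinj : Function.Injective Φ := by
    intro a b hab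
    have h1 : h * e.f a = h * e.f b := congrArg Subtype.val hab
    exact Subtype.ext (e.f.injective (mul_left_cancel₀ hh0 h1))
  have hnt : ∃ v : LD Dv, v ≠ 0 := by
    haveI : Nontrivial (LD Dv) := (Module.finrank_pos_iff (R := k)).mp hell
    exact exists_ne 0
  obtain ⟨v, hv⟩ := hnt
  obtain ⟨w, hw0, hw⟩ := exists_fixed hq Φ hΦ hinj hv
  have hw1 : h * e.f w = w := congrArg Subtype.val hw
  have hw0' : (w : K) ≠ 0 := fun h => hw0 (Subtype.ext h)
  have hef0 : e.f (w : K) ≠ 0 := by simpa using hw0'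
  let E := Dv + divf (k := k) (w : K)
  refine ⟨E, ⟨(RR11_948.mem_LD_iff hw0').mp w.2, ?_, ?_⟩, ?_⟩
  · have h3 : divf (k := k) (w : K) = divf h + divf (e.f w) := by
      conv_lhs => rw [← hw1]
      exact divf_mul hh0 hef0
    simp only [E, Dv, map_add, hxh, hNA]
    rw [← e.divf_f hw0', h3]
    abel
  · simp only [E]
    rw [degD_add, degD_divf hw0', add_zero, hDd]
  · show cls (E - NA) = cls x
    rw [cls_eq_iff]
    refine ⟨w, hw0', ?_⟩
    simp only [E, Dv]
    abel

end

end Crest.Agent.R013.Frob3_914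
end

-- ▼ part R013/Frob4_914
section

/-!
# R013 / Frob4: leaves (FR1), (FR2) of C-TP (helper914)

`φ : κ ≃+* κ` with `φ c = c ^ q` on the constants, `κ` spanned over the constants by `φ`-fixed
elements.
-/

set_option autoImplicit false
set_option linter.all false

namespace Crest.Agent.R013.Frob4_914

open WithZero Module Polynomial
open Crest.Agent.R013.RR7_948 Crest.Agent.R013.RR8_948 Crest.Agent.R013.RR9_948
open Crest.Agent.R013.RR11_948 Crest.Agent.R013.RR12_948 Crest.Agent.R013.PicD_398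
open Crest.Agent.R013.CE1_280 Crest.Agent.R013.CE5_280
open Crest.Agent.R013.Frob1_914 Crest.Agent.R013.Frob2_914 Crest.Agent.R013.Frob3_914

section

variable {k K : Type*} [Field k] [Field K] [Algebra k K]

/-- the semilinear isomorphism given by a ring automorphism that is a power of the Frobenius on the
constants -/
noncomputable def frobSI [IsAlgClosed k] {p : ℕ} [Fact p.Prime] [CharP k p] {a : ℕ} (φ : K ≃+* K)
    (hφ : ∀ c : k, φ (algebraMap k K c) = algebraMap k K (c ^ p ^ a)) : SI k K k K where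
  s := iterateFrobeniusEquiv k p a
  f := φ
  comm := fun c => by rw [hφ, iterateFrobeniusEquiv_def]

theorem frobSI_s [IsAlgClosed k] {p : ℕ} [Fact p.Prime] [CharP k p] {a : ℕ} (φ : K ≃+* K)
    (hφ : ∀ c : k, φ (algebraMap k K c) = algebraMap k K (c ^ p ^ a)) (c : k) :
    (frobSI φ hφ).s c = c ^ p ^ a := iterateFrobeniusEquiv_def k p a c

@[simp] theorem frobSI_f [IsAlgClosed k] {p : ℕ} [Fact p.Prime] [CharP k p] {a : ℕ} (φ : K ≃+* K)
    (hφ : ∀ c : k, φ (algebraMap k K c) = algebraMap k K (c ^ p ^ a)) : (frobSI φ hφ).f = φ := rfl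

/-- algebraic over `F_p` implies finite Frobenius orbits -/
theorem exists_pow_eq {p : ℕ} [Fact p.Prime] [Algebra (ZMod p) k]
    [Algebra.IsAlgebraic (ZMod p) k] {a : ℕ} (ha : a ≠ 0) (c : k) :
    ∃ m, m ≠ 0 ∧ c ^ (p ^ a) ^ m = c := by
  have hc : IsIntegral (ZMod p) c := (Algebra.IsAlgebraic.isAlgebraic c).isIntegral
  let L := IntermediateField.adjoin (ZMod p) {c}
  haveI : FiniteDimensional (ZMod p) L := IntermediateField.adjoin.finiteDimensional hc
  haveI : Finite L := Module.finite_of_finite (ZMod p)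
  haveI := Fintype.ofFinite L
  let x : L := ⟨c, IntermediateField.mem_adjoin_simple_self _ _⟩
  have h1 : x ^ Fintype.card L = x := FiniteField.pow_card x
  have h2 : Fintype.card L = p ^ Module.finrank (ZMod p) L := by
    rw [Module.card_eq_pow_finrank (K := ZMod p), ZMod.card]
  have hn : Module.finrank (ZMod p) L ≠ 0 := Module.finrank_pos.ne'
  refine ⟨Module.finrank (ZMod p) L, hn, ?_⟩
  have h3 : ∀ j : ℕ, x ^ (Fintype.card L) ^ j = x := by
    intro j
    induction j with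
    | zero => simp
    | succ j ih => rw [pow_succ, pow_mul, ih, h1]
  have h4 := h3 a
  rw [h2, ← pow_mul, mul_comm, pow_mul] at h4
  have := congrArg Subtype.val h4
  simpa [x] using this

variable [Algebra (RatFunc k) K] [IsScalarTower k (RatFunc k) K] [FiniteDimensional (RatFunc k) K]
  [Algebra.IsSeparable (RatFunc k) K]

/-- the constants are a proper subfield -/
theorem exists_notMem_range : ∃ x : K, x ∉ Set.range (algebraMap k K) := by
  obtain ⟨P, _⟩ := exists_notMem (k := k) (K := K) ∅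
  obtain ⟨t, ht⟩ := P.surj (exp (1 : ℤ))
  refine ⟨t, ?_⟩
  rintro ⟨c, rfl⟩
  have h1 := v_algebraMap_le P c
  rw [ht, ← exp_zero, exp_le_exp] at h1
  omega

/-- **(FR2)** -/
theorem finite_fixed_pic [IsAlgClosed k] {p : ℕ} [Fact p.Prime] [CharP k p] [Algebra (ZMod p) k]
    [Algebra.IsAlgebraic (ZMod p) k] {a : ℕ} (ha : a ≠ 0) (φ : K ≃+* K)
    (hφ : ∀ c : k, φ (algebraMap k K c) = algebraMap k K (c ^ p ^ a))
    (hspan : Submodule.span k {g : K | φ g = g} = ⊤) :
    {z : Pic k K | (frobSI φ hφ).pic z = z ∧ ∃ n : ℕ, p ^ n • z = 0}.Finite := by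
  have hp : p.Prime := Fact.out
  have hq : 2 ≤ p ^ a := by
    have h1 := hp.two_le
    calc 2 ≤ p := h1
      _ = p ^ 1 := (pow_one p).symm
      _ ≤ p ^ a := Nat.pow_le_pow_right hp.pos (Nat.one_le_iff_ne_zero.mpr ha)
  obtain ⟨y, hy, hyc⟩ : ∃ y : K, φ y = y ∧ y ∉ Set.range (algebraMap k K) := by
    by_contra hcon
    push Not at hcon
    obtain ⟨x, hx⟩ := exists_notMem_range (k := k) (K := K)
    apply hx
    have h1 : Submodule.span k {g : K | φ g = g} ≤ Submodule.span k {(1 : K)} := by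
      refine Submodule.span_le.mpr fun g hg => ?_
      obtain ⟨c, rfl⟩ := hcon g hg
      rw [Algebra.algebraMap_eq_smul_one]
      exact Submodule.smul_mem _ _ (Submodule.mem_span_singleton_self _)
    rw [hspan] at h1
    obtain ⟨c, hc⟩ := Submodule.mem_span_singleton.mp (h1 (Submodule.mem_top (x := x)))
    exact ⟨c, by rw [← hc, Algebra.algebraMap_eq_smul_one]⟩
  refine (finite_fixed (frobSI φ hφ) hq (frobSI_s φ hφ) (exists_pow_eq ha) (y := y) hy hyc).subset ?_
  rintro z ⟨hz, n, hn⟩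
  refine ⟨hz, ?_⟩
  have h1 : p ^ n • degPic z = 0 := by rw [← map_nsmul, hn, map_zero]
  have h2 : (p ^ n : ℕ) ≠ 0 := (pow_pos hp.pos n).ne'
  simpa [h2, hp.ne_zero] using h1

/-- **(FR1)** (127) -/
theorem finite_torsion [PerfectField k] {p : ℕ} [Fact p.Prime] [CharP k p] :
    Finite {z : Pic k K // p • z = 0} := by
  haveI : CharP K p := charP_of_injective_algebraMap (algebraMap k K).injective p
  obtain ⟨W, hW⟩ := CntP4_127.exists_Bd k K
  exact (CntP4_127.card_pic_le (p := p) hW).1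

end

end Crest.Agent.R013.Frob4_914
end

-- ▼ part R013/TP7_928
section

/-!
# R013 / C-TP (helper928), part 7: divisors of reductions

Semilinear isomorphisms: `Frob1_914.SI`.
* `dv : Additive Kˣ →+ (Pl k K →₀ ℤ)`.
* `RedD C K κ`: a valuation on `K` whose value group is that of the constants `C`, with residue
  map onto `κ` (function field over `Ct`); `rdv : Additive Kˣ →+ (Pl Ct κ →₀ ℤ)` = divisor of the
  reduction of `h / c`, `|c| = |h|_v`; equivariance.
-/

set_option autoImplicit false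
set_option linter.unusedSectionVars false

namespace Crest.Agent.R013.TP_928

open WithZero Module
open Crest.Agent.R013.RR7_948 Crest.Agent.R013.RR8_948 Crest.Agent.R013.RR9_948
open Crest.Agent.R013.RR11_948 Crest.Agent.R013.PicD_398 Crest.Agent.R013.Frob1_914

section dv

variable (k K : Type*) [Field k] [Field K] [Algebra k K] [Algebra (RatFunc k) K]
  [IsScalarTower k (RatFunc k) K] [FiniteDimensional (RatFunc k) K]
  [Algebra.IsSeparable (RatFunc k) K]

/-- the divisor map on units -/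
noncomputable def dv : Additive Kˣ →+ (Pl k K →₀ ℤ) where
  toFun e := divf (e.toMul : K)
  map_zero' := divf_one
  map_add' _ _ := divf_mul (Units.ne_zero _) (Units.ne_zero _)


theorem dv_ofMul (u : Kˣ) : dv k K (Additive.ofMul u) = divf (u : K) := rfl

theorem mem_Prin_iff (D : Pl k K →₀ ℤ) : D ∈ Prin k K ↔ ∃ e, dv k K e = D := by
  constructor
  · rintro ⟨f, hf, rfl⟩
    exact ⟨Additive.ofMul (Units.mk0 f hf), rfl⟩
  · rintro ⟨e, rfl⟩
    exact ⟨_, Units.ne_zero e.toMul, rfl⟩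


variable {k K}

theorem divf_const {c : k} (hc : c ≠ 0) : divf (k := k) (algebraMap k K c) = 0 := by
  ext P
  have h1 := v_eq (k := k) (f := algebraMap k K c) (by simpa using hc) P
  rw [P.const c hc, ← exp_zero, exp_inj] at h1
  rw [Finsupp.zero_apply]
  linarith

/-- functions without zeros and poles are constants -/
theorem exists_const_of_divf_eq_zero (hc : algebraicClosure k K = ⊥) {f : K} (hf : f ≠ 0)
    (h : divf (k := k) f = 0) : ∃ c : k, f = algebraMap k K c := by
  have h1 : IsAlgebraic k f := by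
    apply isAlgebraic_of_no_poles
    intro P
    rw [v_eq hf, h]
    simp
  have h2 : f ∈ algebraicClosure k K := mem_algebraicClosure_iff.mpr h1
  rw [hc, IntermediateField.mem_bot] at h2
  obtain ⟨c, hc⟩ := h2
  exact ⟨c, hc.symm⟩

theorem exists_const_of_dv_eq_zero (hc : algebraicClosure k K = ⊥) {e : Additive Kˣ}
    (h : dv k K e = 0) : ∃ c : k, c ≠ 0 ∧ (e.toMul : K) = algebraMap k K c := by
  obtain ⟨c, hc⟩ := exists_const_of_divf_eq_zero hc (Units.ne_zero e.toMul) h
  refine ⟨c, ?_, hc⟩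
  rintro rfl
  rw [map_zero] at hc
  exact Units.ne_zero e.toMul hc

end dv

section redd

/-- a valuation with residue map onto a function field over the residue field of constants -/
structure RedD (C K Ct κ : Type*) [Field C] [Field K] [Algebra C K] [Field Ct] [Field κ]
    [Algebra Ct κ] (Γ : Type*) [LinearOrderedCommGroupWithZero Γ] where
  v : Valuation K Γ
  /-- same value group as the constants -/
  val : ∀ f : K, f ≠ 0 → ∃ c : C, c ≠ 0 ∧ v (algebraMap C K c) = v f
  /-- the residue map -/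
  ρ : v.integer →+* κ
  ρ_eq_zero : ∀ x, ρ x = 0 ↔ v x < 1
  /-- residues of constants are constants -/
  const : ∀ (c : C) (h : v (algebraMap C K c) ≤ 1), ∃ t : Ct, ρ ⟨algebraMap C K c, h⟩ =
    algebraMap Ct κ t

namespace RedD

variable {C K Ct κ : Type*} [Field C] [Field K] [Algebra C K] [Field Ct] [Field κ]
    [Algebra Ct κ] {Γ : Type*} [LinearOrderedCommGroupWithZero Γ] (R : RedD C K Ct κ Γ)

theorem exists_div (f : K) (hf : f ≠ 0) : ∃ c : C, c ≠ 0 ∧ R.v (f / algebraMap C K c) = 1 := by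
  obtain ⟨c, hc, h⟩ := R.val f hf
  refine ⟨c, hc, ?_⟩
  rw [map_div₀, h, div_self]
  exact (Valuation.ne_zero_iff _).mpr hf

/-- the reduction of `f / c` -/
noncomputable def rd (f : K) (c : C) (h : R.v (f / algebraMap C K c) = 1) : κ :=
  R.ρ ⟨f / algebraMap C K c, h.le⟩

theorem rd_ne_zero (f : K) (c : C) (h : R.v (f / algebraMap C K c) = 1) : R.rd f c h ≠ 0 := by
  unfold rd
  rw [Ne, R.ρ_eq_zero]
  simp [h]

theorem rd_mul {f g : K} {c d : C} (hf : R.v (f / algebraMap C K c) = 1)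
    (hg : R.v (g / algebraMap C K d) = 1)
    (h : R.v (f * g / algebraMap C K (c * d)) = 1) :
    R.rd (f * g) (c * d) h = R.rd f c hf * R.rd g d hg := by
  unfold rd
  rw [← map_mul]
  congr 1
  apply Subtype.ext
  change f * g / algebraMap C K (c * d) = f / algebraMap C K c * (g / algebraMap C K d)
  rw [map_mul, div_mul_div_comm]

/-- two choices of the constant differ by a constant -/
theorem rd_eq_of {f : K} {c d : C} (hf0 : f ≠ 0) (hc0 : c ≠ 0) (hd0 : d ≠ 0)
    (hc : R.v (f / algebraMap C K c) = 1) (hd : R.v (f / algebraMap C K d) = 1) :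
    ∃ t : Ct, t ≠ 0 ∧ R.rd f c hc = algebraMap Ct κ t * R.rd f d hd := by
  have hC0 : algebraMap C K c ≠ 0 := by simpa using hc0
  have hD0 : algebraMap C K d ≠ 0 := by simpa using hd0
  have h1 : R.v (algebraMap C K (d / c)) = 1 := by
    have : algebraMap C K (d / c) = (f / algebraMap C K c) / (f / algebraMap C K d) := by
      rw [map_div₀]
      field_simp
    rw [this, map_div₀, hc, hd, div_one]
  obtain ⟨t, ht⟩ := R.const (d / c) h1.le
  refine ⟨t, ?_, ?_⟩
  · rintro rfl
    rw [map_zero, R.ρ_eq_zero] at ht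
    exact absurd h1 (ne_of_lt ht)
  · rw [← ht]
    unfold rd
    rw [← map_mul]
    congr 1
    apply Subtype.ext
    change f / algebraMap C K c = algebraMap C K (d / c) * (f / algebraMap C K d)
    rw [map_div₀]
    field_simp

variable [Algebra (RatFunc Ct) κ] [IsScalarTower Ct (RatFunc Ct) κ]
  [FiniteDimensional (RatFunc Ct) κ] [Algebra.IsSeparable (RatFunc Ct) κ]

theorem divf_rd_eq_of {f : K} {c d : C} (hf0 : f ≠ 0) (hc0 : c ≠ 0) (hd0 : d ≠ 0)
    (hc : R.v (f / algebraMap C K c) = 1) (hd : R.v (f / algebraMap C K d) = 1) :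
    divf (k := Ct) (R.rd f c hc) = divf (R.rd f d hd) := by
  obtain ⟨t, ht, h⟩ := R.rd_eq_of hf0 hc0 hd0 hc hd
  rw [h, divf_mul (by simpa using ht) (R.rd_ne_zero _ _ _), divf_const ht, zero_add]

/-- the divisor of the reduction -/
noncomputable def rdv : Additive Kˣ →+ (Pl Ct κ →₀ ℤ) where
  toFun e := divf (R.rd (e.toMul : K) (R.exists_div _ (Units.ne_zero e.toMul)).choose
    (R.exists_div _ (Units.ne_zero e.toMul)).choose_spec.2)
  map_zero' := by
    have h1 : R.v ((1 : K) / algebraMap C K 1) = 1 := by simp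
    have h2 : R.rd (1 : K) (1 : C) h1 = 1 := by
      unfold rd
      rw [← map_one R.ρ]
      congr 1
      apply Subtype.ext
      simp
    rw [← divf_one (k := Ct) (K := κ), ← h2]
    exact R.divf_rd_eq_of (f := ((0 : Additive Kˣ).toMul : K)) (by simp)
      (R.exists_div _ (Units.ne_zero (0 : Additive Kˣ).toMul)).choose_spec.1 one_ne_zero _ h1
  map_add' e f := by
    obtain ⟨hc0, hc⟩ := (R.exists_div _ (Units.ne_zero e.toMul)).choose_spec
    obtain ⟨hd0, hd⟩ := (R.exists_div _ (Units.ne_zero f.toMul)).choose_spec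
    set c := (R.exists_div _ (Units.ne_zero e.toMul)).choose
    set d := (R.exists_div _ (Units.ne_zero f.toMul)).choose
    rw [← divf_mul (R.rd_ne_zero _ _ _) (R.rd_ne_zero _ _ _)]
    have h1 : R.v ((e.toMul : K) * (f.toMul : K) / algebraMap C K (c * d)) = 1 := by
      rw [map_mul, ← div_mul_div_comm, map_mul, hc, hd, one_mul]
    rw [← R.rd_mul hc hd h1]
    exact R.divf_rd_eq_of (f := ((e + f).toMul : K)) (Units.ne_zero _)
      (R.exists_div _ (Units.ne_zero (e + f).toMul)).choose_spec.1 (mul_ne_zero hc0 hd0) _ h1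

theorem rdv_eq (e : Additive Kˣ) {c : C} (hc0 : c ≠ 0)
    (hc : R.v ((e.toMul : K) / algebraMap C K c) = 1) :
    R.rdv e = divf (R.rd (e.toMul : K) c hc) :=
  R.divf_rd_eq_of (Units.ne_zero _) (R.exists_div _ (Units.ne_zero e.toMul)).choose_spec.1 hc0 _ hc

theorem rdv_mem_Prin (e : Additive Kˣ) : R.rdv e ∈ Prin Ct κ :=
  ⟨_, R.rd_ne_zero _ _ _, rfl⟩

/-- constants have trivial reduction -/
theorem rdv_const (e : Additive Kˣ) {c : C} (hc : (e.toMul : K) = algebraMap C K c) :
    R.rdv e = 0 := by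
  have hc0 : c ≠ 0 := by
    rintro rfl
    rw [map_zero] at hc
    exact Units.ne_zero e.toMul hc
  have h1 : (e.toMul : K) / algebraMap C K c = 1 := by
    rw [hc, div_self]
    simpa using hc0
  have h2 : R.v ((e.toMul : K) / algebraMap C K c) = 1 := by rw [h1, map_one]
  rw [R.rdv_eq e hc0 h2, ← divf_one (k := Ct) (K := κ)]
  congr 1
  unfold rd
  rw [← map_one R.ρ]
  congr 1
  exact Subtype.ext h1

/-- equivariance of the divisor of the reduction -/
theorem rdv_map {κ' : Type*} [Field κ'] [Algebra Ct κ'] [Algebra (RatFunc Ct) κ']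
    [IsScalarTower Ct (RatFunc Ct) κ'] [FiniteDimensional (RatFunc Ct) κ']
    [Algebra.IsSeparable (RatFunc Ct) κ'] (R' : RedD C K Ct κ' Γ) (σ : SI C K C K)
    (τ : SI Ct κ Ct κ') (hv : ∀ f, R'.v (σ.f f) = R.v f)
    (hρ : ∀ (f : K) (h : R.v f ≤ 1), R'.ρ ⟨σ.f f, by
      change R'.v (σ.f f) ≤ 1
      rw [hv]; exact h⟩ = τ.f (R.ρ ⟨f, h⟩))
    (e : Additive Kˣ) :
    R'.rdv (Additive.ofMul (Units.map (σ.f : K →* K) e.toMul)) = τ.D (R.rdv e) := by
  obtain ⟨c, hc0, hc⟩ := R.exists_div _ (Units.ne_zero e.toMul)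
  have hc'0 : σ.s c ≠ 0 := by simpa using hc0
  have h1 : σ.f (e.toMul : K) / algebraMap C K (σ.s c) =
      σ.f ((e.toMul : K) / algebraMap C K c) := by
    rw [map_div₀, σ.comm]
  have h2 : R'.v (σ.f (e.toMul : K) / algebraMap C K (σ.s c)) = 1 := by rw [h1, hv, hc]
  rw [R.rdv_eq e hc0 hc, ← τ.divf_f (R.rd_ne_zero _ _ _)]
  refine (R'.rdv_eq (Additive.ofMul (Units.map (σ.f : K →* K) e.toMul)) hc'0 h2).trans ?_
  congr 1
  unfold rd
  rw [← hρ _ hc.le]
  congr 1
  exact Subtype.ext h1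

end RedD

end redd

end Crest.Agent.R013.TP_928
end

-- ▼ part R013/TP8_928
section

/-!
# R013 / C-TP (helper928), part 8: vertices and induced actions

* `Res K κ Γ`: a valuation with a surjective residue map; `Res.ind`: the isomorphism of residue
  fields induced by an isometric isomorphism.
* `Vtx B K κ`: a vertex over the residue data `B` of the constants; `Vtx.toRedD`, `Vtx.ind : SI`.
* `rall X : Additive Kˣ →+ ∀ v, Pl Ct (κ v) →₀ ℤ`, `PrinR`.
* `VAut X`: an automorphism permuting the vertices; `VAut.act : Act ..`.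
* finiteness of the `p`-torsion and of the Frobenius fixed `p`-power torsion of the class group of
  all reductions.
-/

set_option autoImplicit false
set_option linter.unusedSectionVars false
set_option linter.style.haveILetI false

namespace Crest.Agent.R013.TP_928

open WithZero Module
open Crest.Agent.R013.RR7_948 Crest.Agent.R013.RR8_948 Crest.Agent.R013.RR9_948
open Crest.Agent.R013.RR11_948 Crest.Agent.R013.PicD_398 Crest.Agent.R013.Frob1_914

/-- a valuation with a residue field -/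
structure Res (K κ : Type*) [Field K] [Field κ] (Γ : Type*)
    [LinearOrderedCommGroupWithZero Γ] where
  v : Valuation K Γ
  ρ : v.integer →+* κ
  ρ_eq_zero : ∀ x, ρ x = 0 ↔ v x < 1
  surj : Function.Surjective ρ

namespace Res

variable {K κ K' κ' : Type*} [Field K] [Field κ] [Field K'] [Field κ'] {Γ : Type*}
  [LinearOrderedCommGroupWithZero Γ] (R : Res K κ Γ) (R' : Res K' κ' Γ)

/-- the map of valuation rings -/
def intMap (σ : K ≃+* K') (h : ∀ f, R'.v (σ f) = R.v f) : R.v.integer →+* R'.v.integer :=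
  (σ : K →+* K').restrict R.v.integer R'.v.integer (fun f hf => by
    change R'.v (σ f) ≤ 1
    rw [h]
    exact hf)

theorem intMap_apply (σ : K ≃+* K') (h : ∀ f, R'.v (σ f) = R.v f) (x : R.v.integer) :
    ((R.intMap R' σ h x : R'.v.integer) : K') = σ x := rfl

/-- the map of residue fields -/
noncomputable def indHom (σ : K ≃+* K') (h : ∀ f, R'.v (σ f) = R.v f) : κ →+* κ' :=
  RingHom.liftOfSurjective R.ρ R.surj ⟨R'.ρ.comp (R.intMap R' σ h), by
    intro x hx
    rw [RingHom.mem_ker, R.ρ_eq_zero] at hx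
    rw [RingHom.mem_ker, RingHom.comp_apply, R'.ρ_eq_zero, intMap_apply, h]
    exact hx⟩

theorem indHom_ρ (σ : K ≃+* K') (h : ∀ f, R'.v (σ f) = R.v f) (x : R.v.integer) :
    R.indHom R' σ h (R.ρ x) = R'.ρ (R.intMap R' σ h x) :=
  RingHom.liftOfRightInverse_comp_apply _ _ _ _ _

theorem indHom_surjective (σ : K ≃+* K') (h : ∀ f, R'.v (σ f) = R.v f) :
    Function.Surjective (R.indHom R' σ h) := by
  intro y
  obtain ⟨x, rfl⟩ := R'.surj y
  refine ⟨R.ρ ⟨σ.symm x, ?_⟩, ?_⟩
  · change R.v (σ.symm x) ≤ 1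
    rw [← h, σ.apply_symm_apply]
    exact x.2
  · rw [indHom_ρ]
    congr 1
    apply Subtype.ext
    rw [intMap_apply]
    exact σ.apply_symm_apply _

/-- the isomorphism of residue fields -/
noncomputable def ind (σ : K ≃+* K') (h : ∀ f, R'.v (σ f) = R.v f) : κ ≃+* κ' :=
  RingEquiv.ofBijective (R.indHom R' σ h) ⟨(R.indHom R' σ h).injective, R.indHom_surjective R' σ h⟩

theorem ind_ρ (σ : K ≃+* K') (h : ∀ f, R'.v (σ f) = R.v f) (x : R.v.integer) :
    R.ind R' σ h (R.ρ x) = R'.ρ (R.intMap R' σ h x) := R.indHom_ρ R' σ h x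

theorem ind_ρ_mk (σ : K ≃+* K') (h : ∀ f, R'.v (σ f) = R.v f) (f : K) (hf : R.v f ≤ 1)
    (hf' : R'.v (σ f) ≤ 1) : R.ind R' σ h (R.ρ ⟨f, hf⟩) = R'.ρ ⟨σ f, hf'⟩ :=
  R.ind_ρ R' σ h ⟨f, hf⟩

end Res

section vtx

variable {C K Ct : Type*} [Field C] [Field K] [Algebra C K] [Field Ct]
  {Γ : Type*} [LinearOrderedCommGroupWithZero Γ]

/-- a vertex over the residue data `B` of the constants -/
structure Vtx (B : Res C Ct Γ) (K κ : Type*) [Field K] [Algebra C K] [Field κ] [Algebra Ct κ]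
    extends Res K κ Γ where
  v_algebraMap : ∀ c : C, v (algebraMap C K c) = B.v c
  val : ∀ f : K, f ≠ 0 → ∃ c : C, v f = B.v c
  comm : ∀ (c : C) (h : B.v c ≤ 1) (h' : v (algebraMap C K c) ≤ 1),
    ρ ⟨algebraMap C K c, h'⟩ = algebraMap Ct κ (B.ρ ⟨c, h⟩)

namespace Vtx

variable {B : Res C Ct Γ} {κ κ' : Type*} [Field κ] [Algebra Ct κ] [Field κ'] [Algebra Ct κ']
  (X : Vtx B K κ) (X' : Vtx B K κ')

/-- the reduction datum of a vertex -/
noncomputable def toRedD : RedD C K Ct κ Γ where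
  v := X.v
  val f hf := by
    obtain ⟨c, hc⟩ := X.val f hf
    refine ⟨c, ?_, by rw [X.v_algebraMap, hc]⟩
    rintro rfl
    rw [map_zero, map_eq_zero] at hc
    exact hf hc
  ρ := X.ρ
  ρ_eq_zero := X.ρ_eq_zero
  const c h := ⟨_, X.comm c (by rw [← X.v_algebraMap]; exact h) h⟩

theorem base_isom (σ : SI C K C K) (h : ∀ f, X'.v (σ.f f) = X.v f) (c : C) :
    B.v (σ.s c) = B.v c := by
  rw [← X'.v_algebraMap, ← σ.comm, h, X.v_algebraMap]

/-- the semilinear isomorphism of the residue fields -/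
noncomputable def ind (σ : SI C K C K) (h : ∀ f, X'.v (σ.f f) = X.v f) : SI Ct κ Ct κ' where
  s := B.ind B σ.s (X.base_isom X' σ h)
  f := X.toRes.ind X'.toRes σ.f h
  comm t := by
    obtain ⟨⟨c, hc⟩, rfl⟩ := B.surj t
    have hc' : X.v (algebraMap C K c) ≤ 1 := by rw [X.v_algebraMap]; exact hc
    have hc1 : B.v c ≤ 1 := hc
    rw [← X.comm c hc hc', B.ind_ρ_mk B σ.s _ c hc
      (by rw [X.base_isom X' σ h]; exact hc), Res.ind_ρ_mk _ _ _ _ _ _ (by rw [h]; exact hc')]
    have h2 : X'.v (algebraMap C K (σ.s c)) ≤ 1 := by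
      rw [X'.v_algebraMap, X.base_isom X' σ h]; exact hc
    rw [← X'.comm (σ.s c) (by rw [X.base_isom X' σ h]; exact hc) h2]
    congr 1
    exact Subtype.ext (σ.comm c)



theorem ind_ρ (σ : SI C K C K) (h : ∀ f, X'.v (σ.f f) = X.v f) (f : K) (hf : X.v f ≤ 1)
    (hf' : X'.v (σ.f f) ≤ 1) :
    (X.ind X' σ h).f (X.ρ ⟨f, hf⟩) = X'.ρ ⟨σ.f f, hf'⟩ :=
  Res.ind_ρ_mk _ _ _ _ _ _ _

end Vtx

end vtx

section all

variable {C K Ct : Type*} [Field C] [Field K] [Algebra C K] [Algebra (RatFunc C) K]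
  [IsScalarTower C (RatFunc C) K] [FiniteDimensional (RatFunc C) K]
  [Algebra.IsSeparable (RatFunc C) K] [Field Ct] {V : Type*}
  (κ : V → Type*) [∀ v, Field (κ v)] [∀ v, Algebra Ct (κ v)]
  [∀ v, Algebra (RatFunc Ct) (κ v)] [∀ v, IsScalarTower Ct (RatFunc Ct) (κ v)]
  [∀ v, FiniteDimensional (RatFunc Ct) (κ v)] [∀ v, Algebra.IsSeparable (RatFunc Ct) (κ v)]
  {Γ : Type*} [LinearOrderedCommGroupWithZero Γ] {B : Res C Ct Γ}

variable (Ct) in
/-- families of principal divisors -/
noncomputable def PrinR : AddSubgroup (∀ v, Pl Ct (κ v) →₀ ℤ) :=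
  AddSubgroup.pi Set.univ fun v => Prin Ct (κ v)

theorem mem_PrinR (x : ∀ v, Pl Ct (κ v) →₀ ℤ) : x ∈ PrinR Ct κ ↔ ∀ v, x v ∈ Prin Ct (κ v) := by
  unfold PrinR
  rw [AddSubgroup.mem_pi]
  simp

variable {κ} (X : ∀ v, Vtx B K (κ v))

/-- the divisors of all reductions -/
noncomputable def rall : Additive Kˣ →+ (∀ v, Pl Ct (κ v) →₀ ℤ) :=
  AddMonoidHom.mk' (fun e v => (X v).toRedD.rdv e) (fun e f => by
    funext v
    exact map_add _ _ _)

theorem rall_apply (e : Additive Kˣ) (v : V) : rall X e v = (X v).toRedD.rdv e := rfl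

theorem rall_mem (e : Additive Kˣ) : rall X e ∈ PrinR Ct κ :=
  (mem_PrinR κ _).mpr fun v => (X v).toRedD.rdv_mem_Prin e

theorem rall_const (hC : algebraicClosure C K = ⊥) (e : Additive Kˣ) (h : dv C K e = 0) :
    rall X e = 0 := by
  obtain ⟨c, -, hc⟩ := exists_const_of_dv_eq_zero hC h
  funext v
  exact (X v).toRedD.rdv_const e hc

/-- an automorphism permuting the vertices -/
structure VAut where
  σ : SI C K C K
  /-- the source vertex -/
  t : V → V
  h : ∀ w f, (X w).v (σ.f f) = (X (t w)).v f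

namespace VAut

variable {X} (a : VAut X)

/-- the induced isomorphism of residue fields -/
noncomputable def τ (w : V) : SI Ct (κ (a.t w)) Ct (κ w) := (X (a.t w)).ind (X w) a.σ (a.h w)

/-- the action on families of divisors -/
noncomputable def aD' : (∀ v, Pl Ct (κ v) →₀ ℤ) →+ (∀ v, Pl Ct (κ v) →₀ ℤ) :=
  AddMonoidHom.mk' (fun x w => (a.τ w).D (x (a.t w))) (fun x y => by
    funext w
    exact map_add _ _ _)

theorem aD'_apply (x : ∀ v, Pl Ct (κ v) →₀ ℤ) (w : V) : a.aD' x w = (a.τ w).D (x (a.t w)) := rfl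

/-- the action on functions -/
noncomputable def aE : Additive Kˣ →+ Additive Kˣ :=
  MonoidHom.toAdditive (Units.map ((a.σ.f : K ≃+* K) : K →* K))


/-- the action -/
noncomputable def act : Act (dv C K) (Prin C K) (rall X) (PrinR Ct κ) where
  aE := a.aE
  aD := (a.σ.D : (Pl C K →₀ ℤ) →+ (Pl C K →₀ ℤ))
  aD' := a.aD'
  δ_aE e := a.σ.divf_f (Units.ne_zero e.toMul)
  r_aE e := by
    funext w
    rw [aD'_apply, rall_apply, rall_apply]
    exact (X (a.t w)).toRedD.rdv_map (X w).toRedD a.σ (a.τ w) (a.h w)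
      (fun f hf => ((X (a.t w)).ind_ρ (X w) a.σ (a.h w) f hf _).symm) e
  mem d hd := a.σ.map_prin hd
  mem' d hd := by
    rw [mem_PrinR] at hd ⊢
    intro w
    exact (a.τ w).map_prin (hd (a.t w))

end VAut

/-! ### finiteness -/

section fin

variable (Ct κ) in
/-- the class group of all reductions embeds in the product of the class groups -/
noncomputable def toPics : ((∀ v, Pl Ct (κ v) →₀ ℤ) ⧸ PrinR Ct κ) →+ (∀ v, Pic Ct (κ v)) :=
  QuotientAddGroup.lift (PrinR Ct κ) (AddMonoidHom.mk' (fun x v => cls (x v)) (fun x y => by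
    funext v
    exact map_add _ _ _)) (by
    intro x hx
    rw [mem_PrinR] at hx
    funext v
    exact cls_eq_zero_iff.mpr (hx v))


theorem toPics_injective : Function.Injective (toPics Ct κ) := by
  rw [injective_iff_map_eq_zero]
  intro z hz
  obtain ⟨x, rfl⟩ := QuotientAddGroup.mk_surjective z
  rw [QuotientAddGroup.eq_zero_iff, mem_PrinR]
  intro v
  exact cls_eq_zero_iff.mp (congrFun hz v)

variable {p : ℕ} [Fintype V]

theorem finite_torsion (h : ∀ v, Finite {z : Pic Ct (κ v) // p • z = 0}) :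
    Finite {x : (∀ v, Pl Ct (κ v) →₀ ℤ) ⧸ PrinR Ct κ // p • x = 0} := by
  haveI := h
  refine Finite.of_injective
    (fun x => (fun v => ⟨toPics Ct κ x.1 v, ?_⟩ : ∀ v, {z : Pic Ct (κ v) // p • z = 0})) ?_
  · have h1 : p • toPics Ct κ x.1 = 0 := by rw [← map_nsmul, x.2, map_zero]
    exact congrFun h1 v
  · intro x y hxy
    apply Subtype.ext
    apply toPics_injective
    funext v
    exact congrArg Subtype.val (congrFun hxy v)

theorem finite_fixed (φ : ∀ v, SI Ct (κ v) Ct (κ v))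
    (f : ((∀ v, Pl Ct (κ v) →₀ ℤ) ⧸ PrinR Ct κ) →+ ((∀ v, Pl Ct (κ v) →₀ ℤ) ⧸ PrinR Ct κ))
    (hf : ∀ z v, toPics Ct κ (f z) v = (φ v).pic (toPics Ct κ z v))
    (h : ∀ v, {z : Pic Ct (κ v) | (φ v).pic z = z ∧ ∃ n : ℕ, (p ^ n) • z = 0}.Finite) :
    {z | f z = z ∧ ∃ n : ℕ, (p ^ n) • z = 0}.Finite := by
  refine Set.Finite.of_finite_image (f := toPics Ct κ) ?_ (toPics_injective.injOn)
  refine (Set.Finite.pi' h).subset ?_
  rintro _ ⟨z, ⟨hz, n, hn⟩, rfl⟩ v
  refine ⟨by rw [← hf, hz], n, ?_⟩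
  have h1 : (p ^ n) • toPics Ct κ z = 0 := by rw [← map_nsmul, hn, map_zero]
  exact congrFun h1 v

end fin

end all

end Crest.Agent.R013.TP_928
end

-- ▼ part R013/TP9_928
section

/-!
# R013 / C-TP (helper928), part 9: automorphisms of an algebraic closure of `F_q`

`exists_pow`: an automorphism of `Ct` (algebraic over `F_p`, algebraically closed) which fixes
`{c | c ^ q = c}` is, on every finite set, a power of `c ↦ c ^ q`.
-/

set_option autoImplicit false
set_option linter.unusedSectionVars false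
set_option linter.style.haveILetI false

namespace Crest.Agent.R013.TP_928

open Module Polynomial

section powers

variable {p : ℕ} [hp : Fact p.Prime] {F : Type*} [Field F] [CharP F p] [Algebra (ZMod p) F]

variable (p F) in
/-- the elements with `c ^ q = c` -/
noncomputable def Fq (a : ℕ) : IntermediateField (ZMod p) F where
  carrier := {c | c ^ p ^ a = c}
  mul_mem' := by
    intro x y hx hy
    change (x * y) ^ p ^ a = x * y
    rw [mul_pow, hx, hy]
  one_mem' := one_pow _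
  add_mem' := by
    intro x y hx hy
    change (x + y) ^ p ^ a = x + y
    rw [add_pow_char_pow, hx, hy]
  zero_mem' := zero_pow (pow_pos hp.out.pos a).ne'
  algebraMap_mem' := by
    intro c
    change algebraMap (ZMod p) F c ^ p ^ a = algebraMap (ZMod p) F c
    rw [← map_pow, ZMod.pow_card_pow]
  inv_mem' := by
    intro x hx
    change (x⁻¹) ^ p ^ a = x⁻¹
    rw [inv_pow, hx]

theorem mem_Fq {a : ℕ} {c : F} : c ∈ Fq p F a ↔ c ^ p ^ a = c := Iff.rfl

theorem coe_Fq {a : ℕ} (ha : a ≠ 0) :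
    ((Fq p F a : IntermediateField (ZMod p) F) : Set F) =
      (X ^ p ^ a - X : F[X]).rootSet F := by
  ext c
  have h0 : (X ^ p ^ a - X : F[X]) ≠ 0 :=
    FiniteField.X_pow_card_pow_sub_X_ne_zero F ha hp.out.one_lt
  rw [mem_rootSet_of_ne h0, SetLike.mem_coe, mem_Fq]
  simp [sub_eq_zero]

theorem finite_Fq {a : ℕ} (ha : a ≠ 0) : Finite (Fq p F a) := by
  change Finite ((Fq p F a : IntermediateField (ZMod p) F) : Set F)
  rw [coe_Fq ha]
  exact (rootSet_finite _ _).to_subtype

theorem card_Fq [IsAlgClosed F] {a : ℕ} (ha : a ≠ 0) : Nat.card (Fq p F a) = p ^ a := by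
  have h1 : Nat.card (Fq p F a) = Nat.card ((X ^ p ^ a - X : F[X]).rootSet F) := by
    change Nat.card ((Fq p F a : IntermediateField (ZMod p) F) : Set F) = _
    rw [coe_Fq ha]
  rw [h1, Nat.card_eq_fintype_card, card_rootSet_eq_natDegree
    (galois_poly_separable p _ (dvd_pow_self p ha)) (IsAlgClosed.splits _),
    FiniteField.X_pow_card_pow_sub_X_natDegree_eq F ha hp.out.one_lt]

/-- automorphisms fixing `F_q` are powers of Frobenius on finite sets -/
theorem exists_pow [IsAlgClosed F] [Algebra.IsAlgebraic (ZMod p) F] {a : ℕ} (ha : a ≠ 0)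
    (s : F ≃+* F) (hs : ∀ c, c ^ p ^ a = c → s c = c) {S : Set F} (hS : S.Finite) :
    ∃ m : ℕ, ∀ c ∈ S, s c = c ^ (p ^ a) ^ m := by
  haveI := finite_Fq (p := p) (F := F) ha
  haveI : Fintype (Fq p F a) := Fintype.ofFinite _
  haveI : Finite S := hS
  haveI : Algebra.IsAlgebraic (Fq p F a) F := Algebra.IsAlgebraic.tower_top (K := ZMod p) _
  let L := IntermediateField.adjoin (Fq p F a) S
  haveI : FiniteDimensional (Fq p F a) L :=
    IntermediateField.finiteDimensional_adjoin fun x _ => Algebra.IsIntegral.isIntegral x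
  haveI : Finite L := Module.finite_of_finite (Fq p F a)
  let s' : F ≃ₐ[Fq p F a] F := AlgEquiv.ofRingEquiv (f := s) (fun c => hs _ c.2)
  obtain ⟨n, hn⟩ := (FiniteField.bijective_frobeniusAlgHom_pow (Fq p F a) L).2
    ((s'.restrictNormal L : L ≃ₐ[Fq p F a] L) : L →ₐ[Fq p F a] L)
  refine ⟨n.1, fun c hc => ?_⟩
  have hcL : c ∈ L := IntermediateField.subset_adjoin _ _ hc
  have h1 : ((s'.restrictNormal L) ⟨c, hcL⟩ : F) = s c :=
    AlgEquiv.restrictNormal_commutes s' L ⟨c, hcL⟩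
  have h2 := DFunLike.congr_fun hn ⟨c, hcL⟩
  have h3 : (FiniteField.frobeniusAlgHom (Fq p F a) L ^ n.1) ⟨c, hcL⟩ =
      (⟨c, hcL⟩ : L) ^ (Fintype.card (Fq p F a)) ^ n.1 := by
    rw [AlgHom.coe_pow, FiniteField.coe_frobeniusAlgHom, pow_iterate]
  have h4 : (Fintype.card (Fq p F a)) = p ^ a := by
    rw [← Nat.card_eq_fintype_card, card_Fq ha]
  rw [← h1]
  have h5 : (s'.restrictNormal L) ⟨c, hcL⟩ = (⟨c, hcL⟩ : L) ^ (p ^ a) ^ n.1 := by
    rw [← h4, ← h3]
    exact h2.symm
  rw [h5]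
  rfl

end powers

end Crest.Agent.R013.TP_928
end

-- ▼ part R013/TP10_928

/-!
# R013 / C-TP (helper928), part 10: the geometric data

`TPGeo p X G A W`: vertices `X v`, set of ends `N`, Galois group `G`, Frobenius, covering group `A`,
forms; everything in terms of functions and their reductions.  `TPGeo.toIn : TPIn`.
-/

set_option autoImplicit false
set_option linter.unusedSectionVars false
set_option linter.style.haveILetI false

namespace Crest.Agent.R013.TP_928

open WithZero Module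
open Crest.Agent.R013.RR7_948 Crest.Agent.R013.RR8_948 Crest.Agent.R013.RR9_948
open Crest.Agent.R013.RR11_948 Crest.Agent.R013.PicD_398 Crest.Agent.R013.Frob1_914
open Crest.Agent.R013.Frob4_914

/-- division of a divisor -/
theorem exists_eq_smul_of_dvd {ι : Type*} (x : ι →₀ ℤ) (m : ℕ) (h : ∀ i, (m : ℤ) ∣ x i) :
    ∃ y : ι →₀ ℤ, x = m • y := by
  refine ⟨x.mapRange (fun z => z / (m : ℤ)) (Int.zero_ediv _), ?_⟩
  ext i
  obtain ⟨c, hc⟩ := h i
  by_cases hm : (m : ℤ) = 0
  · simp only [Finsupp.smul_apply, Finsupp.mapRange_apply, nsmul_eq_mul, hm, zero_mul] at hc ⊢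
    exact hc
  · rw [Finsupp.smul_apply, Finsupp.mapRange_apply, hc, Int.mul_ediv_cancel_left _ hm, nsmul_eq_mul]

theorem exists_eq_smul_of_dvd_pi {V : Type*} {ι : V → Type*} (x : ∀ v, ι v →₀ ℤ) (m : ℕ)
    (h : ∀ v i, (m : ℤ) ∣ x v i) : ∃ y : ∀ v, ι v →₀ ℤ, x = m • y := by
  choose y hy using fun v => exists_eq_smul_of_dvd (x v) m (h v)
  exact ⟨y, funext hy⟩

section geo

variable {C K Ct : Type*} [Field C] [Field K] [Algebra C K] [Algebra (RatFunc C) K]
  [IsScalarTower C (RatFunc C) K] [FiniteDimensional (RatFunc C) K]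
  [Algebra.IsSeparable (RatFunc C) K] [Field Ct] {V : Type*}
  {κ : V → Type*} [∀ v, Field (κ v)] [∀ v, Algebra Ct (κ v)]
  [∀ v, Algebra (RatFunc Ct) (κ v)] [∀ v, IsScalarTower Ct (RatFunc Ct) (κ v)]
  [∀ v, FiniteDimensional (RatFunc Ct) (κ v)] [∀ v, Algebra.IsSeparable (RatFunc Ct) (κ v)]
  {Γ : Type*} [LinearOrderedCommGroupWithZero Γ] {B : Res C Ct Γ}

variable (p : ℕ) [hp : Fact p.Prime] (X : ∀ v, Vtx B K (κ v))

/-- the geometric data -/
structure TPGeo (G A W : Type*) [AddCommGroup W] [Module ℤ_[p] W]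
    [Group A] [Fintype A] where
  hC : algebraicClosure C K = ⊥
  /-- the ends -/
  N : Set (Σ v, Pl Ct (κ v))
  disc : ∀ (n : ℕ) (e : Additive Kˣ), (∃ x, dv C K e = (p ^ n) • x) →
    ∀ v (x : Pl Ct (κ v)), (⟨v, x⟩ : Σ v, Pl Ct (κ v)) ∉ N → ((p ^ n : ℕ) : ℤ) ∣ rall X e v x
  /-- the Galois group -/
  gal : G → SI C K C K
  gal_v : ∀ g v f, (X v).v ((gal g).f f) = (X v).v f
  gal_end : ∀ g v (x : Pl Ct (κ v)), (⟨v, x⟩ : Σ v, Pl Ct (κ v)) ∈ N →
    ∀ (f : K) (h : (X v).v f ≤ 1) (h' : (X v).v ((gal g).f f) ≤ 1),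
      x.v ((X v).ρ ⟨(gal g).f f, h'⟩) = x.v ((X v).ρ ⟨f, h⟩)
  /-- `q = p ^ a` -/
  a : ℕ
  ha : a ≠ 0
  res : ∀ g (c : C) (h : B.v c ≤ 1) (h' : B.v ((gal g).s c) ≤ 1),
    (B.ρ ⟨c, h⟩) ^ p ^ a = B.ρ ⟨c, h⟩ → B.ρ ⟨(gal g).s c, h'⟩ = B.ρ ⟨c, h⟩
  /-- Frobenius -/
  frob : G
  frob_res : ∀ (c : C) (h : B.v c ≤ 1) (h' : B.v ((gal frob).s c) ≤ 1),
    B.ρ ⟨(gal frob).s c, h'⟩ = (B.ρ ⟨c, h⟩) ^ p ^ a
  /-- the residue fields are spanned by reductions of Galois invariant functions -/
  span : ∀ v, Submodule.span Ct {y : κ v | ∃ (f : K) (h : (X v).v f ≤ 1),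
    (∀ g, (gal g).f f = f) ∧ (X v).ρ ⟨f, h⟩ = y} = ⊤
  /-- the covering group -/
  cov : A →* (K ≃ₐ[C] K)
  cov_gal : ∀ α g f, cov α ((gal g).f f) = (gal g).f (cov α f)
  cov_v : ∀ α w, ∃ w', ∀ f, (X w).v (cov α f) = (X w').v f
  c : A → ℤ_[p]
  idem : ∀ α, ∑ β, c β * c (β⁻¹ * α) = c α
  /-- the forms -/
  gW : G → W →ₗ[ℤ_[p]] W
  om : Tate p (Pic C K) →ₗ[ℤ_[p]] W
  om_gal : ∀ g u, om (Tate.map ((gal g).pic : Pic C K →+ Pic C K) u) = gW g (om u)

namespace TPGeo

variable {p X} {G A W : Type*} [AddCommGroup W] [Module ℤ_[p] W] [Group A] [Fintype A]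
  (d : TPGeo p X G A W)

/-- a Galois element as automorphism permuting the vertices -/
noncomputable def galV (g : G) : VAut X := ⟨d.gal g, fun v => v, fun w f => d.gal_v g w f⟩

/-- the action of a Galois element on the residue field -/
noncomputable def gs (g : G) (v : V) : SI Ct (κ v) Ct (κ v) :=
  (X v).ind (X v) (d.gal g) (d.gal_v g v)


theorem gs_ρ (g : G) (v : V) (f : K) (hf : (X v).v f ≤ 1) (hf' : (X v).v ((d.gal g).f f) ≤ 1) :
    (d.gs g v).f ((X v).ρ ⟨f, hf⟩) = (X v).ρ ⟨(d.gal g).f f, hf'⟩ :=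
  Vtx.ind_ρ _ _ _ _ _ _ _

theorem gs_s (g : G) (v : V) (c : C) (h : B.v c ≤ 1) (h' : B.v ((d.gal g).s c) ≤ 1) :
    (d.gs g v).s (B.ρ ⟨c, h⟩) = B.ρ ⟨(d.gal g).s c, h'⟩ :=
  Res.ind_ρ_mk _ _ _ _ _ _ _

theorem gal_B (g : G) (v : V) (c : C) : B.v ((d.gal g).s c) = B.v c :=
  (X v).base_isom (X v) (d.gal g) (d.gal_v g v) c

/-- the ends are fixed -/
theorem gs_pl (g : G) (v : V) (x : Pl Ct (κ v)) (hx : (⟨v, x⟩ : Σ v, Pl Ct (κ v)) ∈ d.N) :
    (d.gs g v).pl x = x := by
  ext y
  obtain ⟨⟨f, hf⟩, hy⟩ := (X v).surj ((d.gs g v).f.symm y)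
  have hf1 : (X v).v f ≤ 1 := hf
  have hf' : (X v).v ((d.gal g).f f) ≤ 1 := by rw [d.gal_v]; exact hf1
  have hy2 : y = (X v).ρ ⟨(d.gal g).f f, hf'⟩ := by
    rw [← d.gs_ρ g v f hf1 hf']
    exact ((d.gs g v).f.symm_apply_eq.mp hy.symm)
  have h1 : ((d.gs g v).pl x).v y = x.v ((d.gs g v).f.symm y) := rfl
  rw [h1, ← hy, hy2]
  exact (d.gal_end g v x hx f hf1 hf').symm

/-- an element fixed by Galois has a fixed reduction -/
theorem gs_fixed (g : G) (v : V) {y : κ v} (hy : y ∈ {y : κ v | ∃ (f : K) (h : (X v).v f ≤ 1),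
    (∀ g, (d.gal g).f f = f) ∧ (X v).ρ ⟨f, h⟩ = y}) : (d.gs g v).f y = y := by
  obtain ⟨f, h, hf, rfl⟩ := hy
  rw [d.gs_ρ g v f h (by rw [hf g]; exact h)]
  congr 1
  exact Subtype.ext (hf g)

variable [IsAlgClosed Ct] [CharP Ct p] [Algebra (ZMod p) Ct] [Algebra.IsAlgebraic (ZMod p) Ct]

/-- Frobenius on the constants -/
theorem frob_s (v : V) (t : Ct) : (d.gs d.frob v).s t = t ^ p ^ d.a := by
  obtain ⟨⟨c, hc⟩, rfl⟩ := B.surj t
  have hc' : B.v ((d.gal d.frob).s c) ≤ 1 := by rw [d.gal_B d.frob v]; exact hc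
  rw [d.gs_s d.frob v c hc hc', d.frob_res c hc hc']

theorem frob_alg (v : V) (t : Ct) :
    (d.gs d.frob v).f (algebraMap Ct (κ v) t) = algebraMap Ct (κ v) (t ^ p ^ d.a) := by
  rw [(d.gs d.frob v).comm, d.frob_s]

theorem res_s (g : G) (v : V) (t : Ct) (ht : t ^ p ^ d.a = t) : (d.gs g v).s t = t := by
  obtain ⟨⟨c, hc⟩, rfl⟩ := B.surj t
  have hc' : B.v ((d.gal g).s c) ≤ 1 := by rw [d.gal_B g v]; exact hc
  rw [d.gs_s g v c hc hc', d.res g c hc hc' ht]


theorem frob_iterate_alg (v : V) (m : ℕ) (t : Ct) :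
    (d.gs d.frob v).f^[m] (algebraMap Ct (κ v) t) = algebraMap Ct (κ v) (t ^ (p ^ d.a) ^ m) := by
  induction m with
  | zero => simp
  | succ m ih => rw [Function.iterate_succ_apply', ih, d.frob_alg, ← pow_mul, ← pow_succ]

/-- the finite set of constants needed for an element of `κ v` -/
theorem exists_consts (v : V) (y : κ v) : ∃ S : Set Ct, S.Finite ∧ ∀ (g : G) (m : ℕ),
    (∀ t ∈ S, (d.gs g v).s t = t ^ (p ^ d.a) ^ m) → (d.gs g v).f y = (d.gs d.frob v).f^[m] y := by
  have hy : y ∈ Submodule.span Ct {y : κ v | ∃ (f : K) (h : (X v).v f ≤ 1),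
      (∀ g, (d.gal g).f f = f) ∧ (X v).ρ ⟨f, h⟩ = y} := by
    rw [d.span v]
    trivial
  have hadd : ∀ (m : ℕ) (x y : κ v), (d.gs d.frob v).f^[m] (x + y) =
      (d.gs d.frob v).f^[m] x + (d.gs d.frob v).f^[m] y := fun m x y =>
    iterate_map_add (d.gs d.frob v).f m x y
  have hmul : ∀ (m : ℕ) (x y : κ v), (d.gs d.frob v).f^[m] (x * y) =
      (d.gs d.frob v).f^[m] x * (d.gs d.frob v).f^[m] y := fun m x y =>
    iterate_map_mul (d.gs d.frob v).f m x y
  induction hy using Submodule.span_induction with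
  | mem x hx =>
    refine ⟨∅, Set.finite_empty, fun g m _ => ?_⟩
    rw [d.gs_fixed g v hx]
    exact (Function.iterate_fixed (d.gs_fixed d.frob v hx) m).symm
  | zero =>
    refine ⟨∅, Set.finite_empty, fun g m _ => ?_⟩
    rw [map_zero]
    exact (Function.iterate_fixed (map_zero (d.gs d.frob v).f) m).symm
  | add x y _ _ hx hy =>
    obtain ⟨S, hS, h1⟩ := hx
    obtain ⟨S', hS', h2⟩ := hy
    refine ⟨S ∪ S', hS.union hS', fun g m h => ?_⟩
    rw [map_add, h1 g m fun t ht => h t (Or.inl ht), h2 g m fun t ht => h t (Or.inr ht), hadd]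
  | smul t x _ hx =>
    obtain ⟨S, hS, h1⟩ := hx
    refine ⟨insert t S, hS.insert t, fun g m h => ?_⟩
    rw [Algebra.smul_def, map_mul, (d.gs g v).comm, h t (Set.mem_insert _ _),
      h1 g m fun t ht => h t (Set.mem_insert_of_mem _ ht), hmul, d.frob_iterate_alg]

/-- a Galois element acts on given reductions as a power of Frobenius -/
theorem exists_iterate [Finite V] (g : G) (y : ∀ v, κ v) :
    ∃ m : ℕ, ∀ v, (d.gs g v).f (y v) = (d.gs d.frob v).f^[m] (y v) := by
  rcases isEmpty_or_nonempty V with hV | ⟨⟨v0⟩⟩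
  · exact ⟨0, fun v => hV.elim v⟩
  choose S hS h using fun v => d.exists_consts v (y v)
  obtain ⟨m, hm⟩ := exists_pow (p := p) d.ha (d.gs g v0).s (fun c hc => d.res_s g v0 c hc)
    (Set.finite_iUnion hS)
  exact ⟨m, fun v => h v g m fun t ht => hm t (Set.mem_iUnion_of_mem v ht)⟩

/-- the covering automorphisms as automorphisms permuting the vertices -/
noncomputable def covV (α : A) : VAut X where
  σ := ⟨RingEquiv.refl C, (d.cov α).toRingEquiv, fun c => (d.cov α).commutes c⟩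
  t w := (d.cov_v α w).choose
  h w f := (d.cov_v α w).choose_spec f


theorem covV_mul_pic (α β : A) (z : Pic C K) :
    (d.covV (α * β)).act.pic z = (d.covV α).act.pic ((d.covV β).act.pic z) := by
  obtain ⟨A', rfl⟩ := QuotientAddGroup.mk_surjective z
  change (((d.covV (α * β)).σ.D A' : Pl C K →₀ ℤ) : Pic C K) =
    (((d.covV α).σ.D ((d.covV β).σ.D A') : Pl C K →₀ ℤ) : Pic C K)
  congr 1
  ext P
  rw [SI.D_apply, SI.D_apply, SI.D_apply]
  congr 1
  ext f
  change P.v (d.cov (α * β) f) = P.v (d.cov α (d.cov β f))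
  rw [map_mul]
  rfl

theorem cov_gal_pic (α : A) (g : G) (z : Pic C K) :
    (d.covV α).act.pic ((d.galV g).act.pic z) = (d.galV g).act.pic ((d.covV α).act.pic z) := by
  obtain ⟨A', rfl⟩ := QuotientAddGroup.mk_surjective z
  change (((d.covV α).σ.D ((d.galV g).σ.D A') : Pl C K →₀ ℤ) : Pic C K) =
    (((d.galV g).σ.D ((d.covV α).σ.D A') : Pl C K →₀ ℤ) : Pic C K)
  congr 1
  ext P
  rw [SI.D_apply, SI.D_apply, SI.D_apply, SI.D_apply]
  congr 1
  ext f
  change P.v (d.cov α ((d.gal g).f f)) = P.v ((d.gal g).f (d.cov α f))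
  rw [d.cov_gal]

/-- the operator of the idempotent -/
noncomputable def e : Tate p (Pic C K) →ₗ[ℤ_[p]] Tate p (Pic C K) :=
  eop d.c (fun α => (d.covV α).act.tate)

/-- divisibility of the reductions at the ends and at the discs -/
theorem exists_div {n : ℕ} {e : Additive Kˣ} (h : ∃ x, dv C K e = (p ^ n) • x)
    (hN : ∀ i ∈ d.N, ((p ^ n : ℕ) : ℤ) ∣ rall X e i.1 i.2) : ∃ y, rall X e = (p ^ n) • y := by
  refine exists_eq_smul_of_dvd_pi _ _ fun v x => ?_
  by_cases hx : (⟨v, x⟩ : Σ v, Pl Ct (κ v)) ∈ d.N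
  · exact hN _ hx
  · exact d.disc n e h v x hx

theorem frob_sub (n : ℕ) (e : Additive Kˣ) (h : ∃ x, dv C K e = (p ^ n) • x) :
    ∃ y, (d.galV d.frob).act.aD' (rall X e) - rall X e = (p ^ n) • y := by
  refine exists_eq_smul_of_dvd_pi _ _ fun v x => ?_
  have h1 : ((d.galV d.frob).act.aD' (rall X e) - rall X e) v x =
      rall X e v ((d.gs d.frob v).symm.pl x) - rall X e v x := by
    change (d.gs d.frob v).D (rall X e v) x - rall X e v x = _
    rw [SI.D_apply]
  rw [h1]
  by_cases hx : (⟨v, x⟩ : Σ v, Pl Ct (κ v)) ∈ d.N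
  · have h2 : (d.gs d.frob v).symm.pl x = x := by
      conv_lhs => rw [← d.gs_pl d.frob v x hx]
      exact SI.symm_pl_pl _ _
    rw [h2, sub_self]
    exact dvd_zero _
  · refine dvd_sub (d.disc n e h v _ fun hx' => hx ?_) (d.disc n e h v x hx)
    have h2 := d.gs_pl d.frob v _ hx'
    rw [SI.pl_symm_pl] at h2
    rw [h2]
    exact hx'

theorem gal_r [Finite V] (g : G) (e : Additive Kˣ) : ∃ m : ℕ,
    rall X ((d.galV g).act.aE e) = ((d.galV d.frob).act.aD')^[m] (rall X e) := by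
  choose c hc0 hc using fun v => (X v).toRedD.exists_div (e.toMul : K) (Units.ne_zero e.toMul)
  obtain ⟨m, hm⟩ := d.exists_iterate g (fun v => (X v).toRedD.rd (e.toMul : K) (c v) (hc v))
  refine ⟨m, ?_⟩
  rw [(d.galV g).act.r_aE]
  have h1 : ∀ (j : ℕ) (x : ∀ v, Pl Ct (κ v) →₀ ℤ) (v : V),
      ((d.galV d.frob).act.aD')^[j] x v = ((d.gs d.frob v).D)^[j] (x v) := by
    intro j
    induction j with
    | zero => intro x v; rfl
    | succ j ih =>
      intro x v
      rw [Function.iterate_succ_apply', Function.iterate_succ_apply', ← ih]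
      rfl
  have h2 : ∀ (v : V) (j : ℕ) (y : κ v), y ≠ 0 →
      ((d.gs d.frob v).D)^[j] (divf (k := Ct) y) = divf (k := Ct) ((d.gs d.frob v).f^[j] y) := by
    intro v j y hy
    induction j with
    | zero => rfl
    | succ j ih =>
      rw [Function.iterate_succ_apply', Function.iterate_succ_apply', ih]
      refine ((d.gs d.frob v).divf_f ?_).symm
      intro h0
      apply hy
      have h4 : ∀ (j : ℕ) (y : κ v), (d.gs d.frob v).f^[j] y = 0 → y = 0 := by
        intro j
        induction j with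
        | zero => intro y h; exact h
        | succ j ih2 =>
          intro y h
          rw [Function.iterate_succ_apply'] at h
          exact ih2 y ((map_eq_zero_iff _ (d.gs d.frob v).f.injective).mp h)
      exact h4 j y h0
  funext v
  have h3 : rall X e v = divf (k := Ct) ((X v).toRedD.rd (e.toMul : K) (c v) (hc v)) :=
    (X v).toRedD.rdv_eq e (hc0 v) (hc v)
  rw [h1, h3, h2 v m _ ((X v).toRedD.rd_ne_zero _ _ _), ← hm v]
  change (d.gs g v).D (rall X e v) = _
  rw [h3]
  exact ((d.gs g v).divf_f ((X v).toRedD.rd_ne_zero _ _ _)).symm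

/-- **The data of part 6.** -/
noncomputable def toIn [Fintype V]
    (om_zero : ∀ u : Tate p (Pic C K), d.e u = u →
      (∀ n e, Rep p (dv C K) (Prin C K) n (u n) e → ∃ y ∈ PrinR Ct κ, rall X e = (p ^ n) • y) →
        d.om u = 0)
    (om_inj : ∀ u : Tate p (Pic C K), d.e u = u → d.om u = 0 →
      ∀ n e, Rep p (dv C K) (Prin C K) n (u n) e →
        ∀ i ∈ d.N, ((p ^ n : ℕ) : ℤ) ∣ rall X e i.1 i.2) :
    TPIn p (dv C K) (Prin C K) (rall X) (PrinR Ct κ) G A W where
  hP := mem_Prin_iff C K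
  tfD := inferInstance
  tfD' := inferInstance
  hr := rall_const X d.hC
  hrP := rall_mem X
  fin := finite_torsion fun v => Frob4_914.finite_torsion
  frob := (d.galV d.frob).act
  fix := finite_fixed (fun v => d.gs d.frob v) _ (by
      intro z v
      obtain ⟨x, rfl⟩ := QuotientAddGroup.mk_surjective z
      rfl) (fun v => by
      have h := finite_fixed_pic (p := p) (a := d.a) d.ha (d.gs d.frob v).f (d.frob_alg v) (by
        rw [eq_top_iff, ← d.span v]
        exact Submodule.span_mono fun y hy => d.gs_fixed d.frob v hy)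
      exact h)
  frob_sub := d.frob_sub
  gal g := (d.galV g).act
  gal_r := d.gal_r
  cov α := (d.covV α).act
  c := d.c
  idem := d.idem
  cov_mul := d.covV_mul_pic
  cov_frob α z := d.cov_gal_pic α d.frob z
  cov_gal := d.cov_gal_pic
  gW := d.gW
  om := d.om
  om_gal := d.om_gal
  om_zero := om_zero
  om_inj u hu h0 n e he := d.exists_div
    (by obtain ⟨x, -, hx⟩ := he; exact ⟨x, hx⟩) (om_inj u hu h0 n e he)

end TPGeo

end geo

end Crest.Agent.R013.TP_928
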