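import Mathlib
import Crest.Agent.R013.Exp_863
import Crest.Agent.R013.CE5_280

-- ▼ part R013/Tors1_235
section

/-!
# Row 13, leaf TORS (helper235), part 1: the valuation of a prime of a factorial domain and
factorisation modulo `N`-th powers.
-/

set_option autoImplicit false

namespace Crest.Agent.R013.Tors1_235

open WithZero

section PV

variable {R : Type*} [CommRing R] [IsDomain R] [WfDvdMonoid R]

theorem fin_mult {π : R} (hπ : Prime π) {a : R} (ha : a ≠ 0) : FiniteMultiplicity π a :=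
  FiniteMultiplicity.of_prime_left hπ ha

open Classical in
/-- the valuation of a prime, on the ring -/
noncomputable def rv {π : R} (hπ : Prime π) : Valuation R ℤᵐ⁰ where
  toFun a := if a = 0 then 0 else exp (-(multiplicity π a : ℤ))
  map_zero' := by simp
  map_one' := by
    rw [if_neg one_ne_zero, multiplicity_of_one_right hπ.not_isUnit]
    simp
  map_mul' a b := by
    by_cases ha : a = 0
    · simp [ha]
    by_cases hb : b = 0
    · simp [hb]
    rw [if_neg (mul_ne_zero ha hb), if_neg ha, if_neg hb,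
      multiplicity_mul hπ (fin_mult hπ (mul_ne_zero ha hb)), ← exp_add]
    congr 1
    push_cast
    ring
  map_add_le_max' a b := by
    by_cases ha : a = 0
    · simp [ha]
    by_cases hb : b = 0
    · simp [hb]
    by_cases hab : a + b = 0
    · rw [if_pos hab]; exact zero_le
    rw [if_neg hab, if_neg ha, if_neg hb]
    have h1 : min (multiplicity π a) (multiplicity π b) ≤ multiplicity π (a + b) := by
      refine (fin_mult hπ hab).le_multiplicity_of_pow_dvd ?_
      refine dvd_add ?_ ?_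
      · exact (pow_dvd_pow π (min_le_left _ _)).trans (pow_multiplicity_dvd π a)
      · exact (pow_dvd_pow π (min_le_right _ _)).trans (pow_multiplicity_dvd π b)
    rw [le_max_iff, exp_le_exp, exp_le_exp]
    rcases min_choice (multiplicity π a) (multiplicity π b) with h | h <;> omega

theorem rv_apply {π : R} (hπ : Prime π) {a : R} (ha : a ≠ 0) :
    rv hπ a = exp (-(multiplicity π a : ℤ)) := by
  classical
  exact if_neg ha

variable (M : Type*) [Field M] [Algebra R M] [IsFractionRing R M]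

theorem supp_le {π : R} (hπ : Prime π) : nonZeroDivisors R ≤ (rv hπ).supp.primeCompl := by
  intro a ha h
  have ha0 : a ≠ 0 := nonZeroDivisors.ne_zero ha
  have h1 : rv hπ a = 0 := h
  rw [rv_apply hπ ha0] at h1
  exact exp_ne_zero h1

/-- the valuation of a prime, on the fraction field -/
noncomputable def pv {π : R} (hπ : Prime π) : Valuation M ℤᵐ⁰ :=
  (rv hπ).extendToLocalization (supp_le hπ) M

theorem pv_algebraMap {π : R} (hπ : Prime π) (a : R) : pv M hπ (algebraMap R M a) = rv hπ a :=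
  Valuation.extendToLocalization_apply_map_apply _ _ _ _

theorem pv_le_one {π : R} (hπ : Prime π) (a : R) : pv M hπ (algebraMap R M a) ≤ 1 := by
  rw [pv_algebraMap]
  by_cases ha : a = 0
  · simp [ha]
  · rw [rv_apply hπ ha, ← exp_zero, exp_le_exp]; omega

theorem pv_lt_one_iff {π : R} (hπ : Prime π) (a : R) :
    pv M hπ (algebraMap R M a) < 1 ↔ π ∣ a := by
  rw [pv_algebraMap]
  by_cases ha : a = 0
  · simp [ha]
  · rw [rv_apply hπ ha, ← exp_zero, exp_lt_exp]
    constructor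
    · intro h
      by_contra h2
      have := multiplicity_eq_zero.2 h2
      omega
    · intro h
      have := multiplicity_ne_zero.2 h
      omega

theorem pv_eq_one_iff {π : R} (hπ : Prime π) (a : R) :
    pv M hπ (algebraMap R M a) = 1 ↔ ¬ π ∣ a := by
  rw [← pv_lt_one_iff M hπ a, not_lt]
  exact ⟨fun h => h.ge, fun h => le_antisymm (pv_le_one M hπ a) h⟩

theorem pv_self {π : R} (hπ : Prime π) : pv M hπ (algebraMap R M π) = exp (-1) := by
  rw [pv_algebraMap, rv_apply hπ hπ.ne_zero, multiplicity_self]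
  simp

theorem pv_unit {π : R} (hπ : Prime π) (u : Rˣ) : pv M hπ (algebraMap R M u) = 1 := by
  rw [pv_eq_one_iff]
  intro h
  exact hπ.not_isUnit (isUnit_of_dvd_unit h u.isUnit)

end PV

section Fact

variable {R : Type*} [CommRing R] [IsDomain R] [UniqueFactorizationMonoid R]

/-- an element of a factorial domain whose multiplicities outside a finite set of primes are
divisible by `N` is a product of a unit, elements of the set and an `N`-th power -/
theorem fact_ring {ι : Type*} [Fintype ι] (q : ι → R) (N : ℕ) (a : R) (ha : a ≠ 0)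
    (h : ∀ π : R, Prime π → (∀ i, ¬ Associated π (q i)) → N ∣ multiplicity π a) :
    ∃ (u : Rˣ) (e : ι → ℕ) (g : R), g ≠ 0 ∧ a = u * (∏ i, q i ^ e i) * g ^ N := by
  classical
  induction a using UniqueFactorizationMonoid.induction_on_coprime with
  | h0 => exact absurd rfl ha
  | h1 hx =>
    obtain ⟨u, rfl⟩ := hx
    exact ⟨u, fun _ => 0, 1, one_ne_zero, by simp⟩
  | @hpr p i hp =>
    by_cases hq : ∃ j, Associated p (q j)
    · obtain ⟨j, hj⟩ := hq
      obtain ⟨v, hv⟩ := (hj.pow_pow (n := i)).symm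
      refine ⟨v, fun j' => if j' = j then i else 0, 1, one_ne_zero, ?_⟩
      have h1 : (∏ j', q j' ^ (if j' = j then i else 0)) = q j ^ i := by
        rw [Finset.prod_eq_single j]
        · simp
        · intro b _ hb
          simp [hb]
        · intro hj
          exact absurd (Finset.mem_univ j) hj
      rw [h1, ← hv]
      ring
    · push Not at hq
      have h1 := h p hp hq
      rw [multiplicity_pow_self_of_prime hp] at h1
      obtain ⟨m, hm⟩ := h1
      refine ⟨1, fun _ => 0, p ^ m, pow_ne_zero _ hp.ne_zero, ?_⟩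
      rw [← pow_mul, hm, mul_comm m N]
      simp
  | @hcp x y hxy hx hy =>
    have hx0 : x ≠ 0 := left_ne_zero_of_mul ha
    have hy0 : y ≠ 0 := right_ne_zero_of_mul ha
    have key : ∀ π : R, Prime π → (∀ i, ¬ Associated π (q i)) →
        N ∣ multiplicity π x ∧ N ∣ multiplicity π y := by
      intro π hπ hπq
      have h1 := h π hπ hπq
      rw [multiplicity_mul hπ (fin_mult hπ ha)] at h1
      by_cases hd : π ∣ x
      · have hd' : ¬ π ∣ y := fun hd' => hπ.not_isUnit (hxy hd hd')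
        have h2 := multiplicity_eq_zero.2 hd'
        rw [h2] at h1 ⊢
        exact ⟨h1, dvd_zero _⟩
      · have h2 := multiplicity_eq_zero.2 hd
        rw [h2] at h1 ⊢
        rw [zero_add] at h1
        exact ⟨dvd_zero _, h1⟩
    obtain ⟨u, e, g, hg, hx1⟩ := hx hx0 (fun π hπ hq => (key π hπ hq).1)
    obtain ⟨u', e', g', hg', hy1⟩ := hy hy0 (fun π hπ hq => (key π hπ hq).2)
    refine ⟨u * u', fun i => e i + e' i, g * g', mul_ne_zero hg hg', ?_⟩
    conv_lhs => rw [hx1, hy1]
    simp only [pow_add, Finset.prod_mul_distrib, Units.val_mul, mul_pow]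
    ring

/-- the same for an element of the fraction field -/
theorem fact_field (M : Type*) [Field M] [Algebra R M] [IsFractionRing R M]
    {ι : Type*} [Fintype ι] (q : ι → R) {N : ℕ} (hN : 0 < N) (h : M) (h0 : h ≠ 0)
    (hyp : ∀ (π : R) (hπ : Prime π), (∀ i, ¬ Associated π (q i)) →
      (N : ℤ) ∣ log (pv M hπ h)) :
    ∃ (u : Rˣ) (e : ι → ℕ) (g : M), g ≠ 0 ∧
      h = algebraMap R M u * (∏ i, algebraMap R M (q i) ^ e i) * g ^ N := by
  obtain ⟨a, b, hb, rfl⟩ := IsFractionRing.div_surjective (A := R) h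
  have hb0 : b ≠ 0 := nonZeroDivisors.ne_zero hb
  have hbM : algebraMap R M b ≠ 0 := by
    simpa using hb0
  have ha0 : a ≠ 0 := by
    rintro rfl
    simp at h0
  have haM : algebraMap R M a ≠ 0 := by
    simpa using ha0
  obtain ⟨u, e, g, hg, h1⟩ := fact_ring q N (a * b ^ (N - 1)) (mul_ne_zero ha0 (pow_ne_zero _ hb0))
    (by
      intro π hπ hq
      have h2 := hyp π hπ hq
      rw [map_div₀, pv_algebraMap, pv_algebraMap, rv_apply hπ ha0, rv_apply hπ hb0,
        ← exp_sub, log_exp] at h2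
      rw [multiplicity_mul hπ (fin_mult hπ (mul_ne_zero ha0 (pow_ne_zero _ hb0))),
        (fin_mult hπ hb0).multiplicity_pow hπ]
      obtain ⟨m, rfl⟩ : ∃ m, N = m + 1 := ⟨N - 1, by omega⟩
      rw [Nat.add_sub_cancel]
      have h3 : ((m + 1 : ℕ) : ℤ) ∣ ((multiplicity π a + m * multiplicity π b : ℕ) : ℤ) := by
        push_cast at h2 ⊢
        obtain ⟨k, hk⟩ := h2
        exact ⟨multiplicity π b - k, by linear_combination -hk⟩
      exact_mod_cast h3)
  refine ⟨u, e, algebraMap R M g / algebraMap R M b, div_ne_zero (by simpa using hg) hbM, ?_⟩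
  have h2 := congrArg (algebraMap R M) h1
  rw [map_mul, map_pow, map_mul, map_mul, map_pow, map_prod] at h2
  simp only [map_pow] at h2
  rw [div_pow, mul_div_assoc', ← h2, div_eq_div_iff hbM (pow_ne_zero _ hbM), mul_assoc]
  congr 1
  obtain ⟨m, rfl⟩ : ∃ m, N = m + 1 := ⟨N - 1, by omega⟩
  rw [Nat.add_sub_cancel, pow_succ]

end Fact

end Crest.Agent.R013.Tors1_235
end

-- ▼ part R013/Tors2_235
section

/-!
# Row 13, leaf TORS (helper235), part 2: reduction modulo a prime `δ` of a factorial domain with a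
section `C : S → R` of `R → R/δ`, and the order of the leading coefficient along `δ`.
-/

set_option autoImplicit false
set_option linter.all false

namespace Crest.Agent.R013.Tors2_235

open WithZero
open Crest.Agent.R013.Tors1_235

section Red

variable {R S : Type*} [CommRing R] [CommRing S]

/-- `C : S → R/δ` is bijective -/
structure IsRed (C : S →+* R) (δ : R) : Prop where
  ex : ∀ f : R, ∃ r : S, δ ∣ f - C r
  inj : ∀ r : S, δ ∣ C r → r = 0

variable {C : S →+* R} {δ : R} (h : IsRed C δ)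

namespace IsRed

/-- the reduction, as a function -/
noncomputable def rf (f : R) : S := (h.ex f).choose

theorem dvd_sub_rf (f : R) : δ ∣ f - C (h.rf f) := (h.ex f).choose_spec

theorem rf_eq {f : R} {r : S} (hr : δ ∣ f - C r) : h.rf f = r := by
  have h1 : δ ∣ C (h.rf f - r) := by
    have h2 := dvd_sub hr (h.dvd_sub_rf f)
    rw [map_sub]
    convert h2 using 1
    ring
  exact sub_eq_zero.1 (h.inj _ h1)

/-- the reduction -/
noncomputable def ρ : R →+* S where
  toFun := h.rf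
  map_one' := h.rf_eq (by simp)
  map_zero' := h.rf_eq (by simp)
  map_add' f g := h.rf_eq (by
    have h2 := dvd_add (h.dvd_sub_rf f) (h.dvd_sub_rf g)
    rw [map_add]
    convert h2 using 1
    ring)
  map_mul' f g := h.rf_eq (by
    have h2 := dvd_add ((h.dvd_sub_rf f).mul_right g) ((h.dvd_sub_rf g).mul_left (C (h.rf f)))
    rw [map_mul]
    convert h2 using 1
    ring)

theorem dvd_sub (f : R) : δ ∣ f - C (h.ρ f) := h.dvd_sub_rf f

theorem ρ_eq {f : R} {r : S} (hr : δ ∣ f - C r) : h.ρ f = r := h.rf_eq hr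

@[simp] theorem ρ_C (r : S) : h.ρ (C r) = r := h.ρ_eq (by simp)

theorem ρ_eq_zero_iff (f : R) : h.ρ f = 0 ↔ δ ∣ f := by
  constructor
  · intro h0
    have := h.dvd_sub f
    rwa [h0, map_zero, sub_zero] at this
  · intro hd
    exact h.ρ_eq (by rwa [map_zero, sub_zero])

end IsRed

end Red

section Nu

variable {R S : Type*} [CommRing R] [IsDomain R] [WfDvdMonoid R] [CommRing S] [IsDomain S]
  [WfDvdMonoid S] {C : S →+* R} {δ : R} (h : IsRed C δ) (hδ : Prime δ) {τ : S} (hτ : Prime τ)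

/-- the cofactor of the maximal power of `δ` -/
noncomputable def cof (δ : R) (a : R) : R := (pow_multiplicity_dvd δ a).choose

theorem eq_cof (δ a : R) : a = δ ^ multiplicity δ a * cof δ a :=
  (pow_multiplicity_dvd δ a).choose_spec

include hδ in
theorem not_dvd_cof {a : R} (ha : a ≠ 0) : ¬ δ ∣ cof δ a := by
  intro hd
  apply (fin_mult hδ ha).not_pow_dvd_of_multiplicity_lt (Nat.lt_succ_self _)
  obtain ⟨c, hc⟩ := hd
  refine ⟨c, ?_⟩
  conv_lhs => rw [eq_cof δ a, hc]
  rw [pow_succ]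
  ring

include hδ in
theorem cof_eq {a b : R} {m : ℕ} (hab : a = δ ^ m * b) (hb : ¬ δ ∣ b) : cof δ a = b := by
  have h1 : multiplicity δ a = m := by
    apply multiplicity_eq_of_dvd_of_not_dvd
    · exact ⟨b, hab⟩
    · rintro ⟨c, hc⟩
      rw [hab, pow_succ, mul_assoc] at hc
      exact hb ⟨c, mul_left_cancel₀ (pow_ne_zero _ hδ.ne_zero) hc⟩
  have h2 := eq_cof δ a
  rw [h1] at h2
  exact (mul_left_cancel₀ (pow_ne_zero m hδ.ne_zero) (hab.symm.trans h2)).symm

include hδ in
theorem cof_mul {a b : R} (ha : a ≠ 0) (hb : b ≠ 0) : cof δ (a * b) = cof δ a * cof δ b := by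
  apply cof_eq hδ (m := multiplicity δ a + multiplicity δ b)
  · conv_lhs => rw [eq_cof δ a, eq_cof δ b]
    ring
  · intro hd
    rcases hδ.dvd_or_dvd hd with h1 | h1
    · exact not_dvd_cof hδ ha h1
    · exact not_dvd_cof hδ hb h1

variable (τ) in
/-- order at `τ` of the leading coefficient along `δ` -/
noncomputable def nu0 (a : R) : ℤ := multiplicity τ (h.ρ (cof δ a))

include hδ in
theorem nu0_of_not_dvd {a : R} (ha : ¬ δ ∣ a) : nu0 h τ a = multiplicity τ (h.ρ a) := by
  unfold nu0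
  rw [cof_eq hδ (m := 0) (by simp) ha]

include hδ hτ in
theorem nu0_mul {a b : R} (ha : a ≠ 0) (hb : b ≠ 0) :
    nu0 h τ (a * b) = nu0 h τ a + nu0 h τ b := by
  unfold nu0
  have h1 : h.ρ (cof δ a) ≠ 0 := fun h0 => not_dvd_cof hδ ha ((h.ρ_eq_zero_iff _).1 h0)
  have h2 : h.ρ (cof δ b) ≠ 0 := fun h0 => not_dvd_cof hδ hb ((h.ρ_eq_zero_iff _).1 h0)
  rw [cof_mul hδ ha hb, map_mul, multiplicity_mul hτ (fin_mult hτ (mul_ne_zero h1 h2))]
  push_cast
  ring

variable {M : Type*} [Field M] [Algebra R M] [IsFractionRing R M]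

variable (τ) in
/-- the same on the fraction field -/
noncomputable def nu (z : M) : ℤ :=
  nu0 h τ (IsLocalization.sec (nonZeroDivisors R) z).1 -
    nu0 h τ ((IsLocalization.sec (nonZeroDivisors R) z).2 : R)

include hδ hτ in
theorem nu_div {a b : R} (ha : a ≠ 0) (hb : b ≠ 0) :
    nu h τ (algebraMap R M a / algebraMap R M b) = nu0 h τ a - nu0 h τ b := by
  set z := algebraMap R M a / algebraMap R M b with hz
  have hz' := IsLocalization.sec_spec (nonZeroDivisors R) z
  have hdef : nu h τ z = nu0 h τ (IsLocalization.sec (nonZeroDivisors R) z).1 -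
    nu0 h τ ((IsLocalization.sec (nonZeroDivisors R) z).2 : R) := rfl
  have hb' : ((IsLocalization.sec (nonZeroDivisors R) z).2 : R) ≠ 0 :=
    nonZeroDivisors.ne_zero (IsLocalization.sec (nonZeroDivisors R) z).2.2
  generalize ((IsLocalization.sec (nonZeroDivisors R) z).2 : R) = b' at hz' hdef hb'
  generalize (IsLocalization.sec (nonZeroDivisors R) z).1 = a' at hz' hdef
  have hbM : algebraMap R M b ≠ 0 := by simpa using hb
  have hb'M : algebraMap R M b' ≠ 0 := by simpa using hb'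
  have haM : algebraMap R M a ≠ 0 := by simpa using ha
  have ha' : a' ≠ 0 := by
    rintro rfl
    rw [map_zero, hz] at hz'
    exact mul_ne_zero (div_ne_zero haM hbM) hb'M hz'
  have h1 : algebraMap R M (a' * b) = algebraMap R M (a * b') := by
    rw [map_mul, map_mul, ← hz', hz]
    field_simp
  have h2 : a' * b = a * b' := IsFractionRing.injective R M h1
  have h3 := congrArg (nu0 h τ) h2
  rw [nu0_mul h hδ hτ ha' hb, nu0_mul h hδ hτ ha hb'] at h3
  rw [hdef]
  linarith

include hδ in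
theorem nu0_one : nu0 h τ (1 : R) = 0 ∨ ¬ Prime τ := by
  by_cases hτ : Prime τ
  · left
    rw [nu0_of_not_dvd h hδ (fun hd => hδ.not_isUnit (isUnit_of_dvd_one hd)), map_one,
      multiplicity_of_one_right hτ.not_isUnit]
    rfl
  · exact Or.inr hτ

include hδ hτ in
theorem nu_algebraMap {a : R} (ha : a ≠ 0) : nu h τ (algebraMap R M a) = nu0 h τ a := by
  have h1 := nu_div (M := M) h hδ hτ ha one_ne_zero
  rw [map_one, div_one] at h1
  rw [h1, (nu0_one h hδ).resolve_right (not_not.2 hτ), sub_zero]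

include hδ hτ in
theorem nu_mul {y z : M} (hy : y ≠ 0) (hz : z ≠ 0) : nu h τ (y * z) = nu h τ y + nu h τ z := by
  obtain ⟨a, b, hb, rfl⟩ := IsFractionRing.div_surjective (A := R) y
  obtain ⟨c, d, hd, rfl⟩ := IsFractionRing.div_surjective (A := R) z
  have hb0 : b ≠ 0 := nonZeroDivisors.ne_zero hb
  have hd0 : d ≠ 0 := nonZeroDivisors.ne_zero hd
  have ha0 : a ≠ 0 := by rintro rfl; simp at hy
  have hc0 : c ≠ 0 := by rintro rfl; simp at hz
  rw [div_mul_div_comm, ← map_mul, ← map_mul, nu_div h hδ hτ (mul_ne_zero ha0 hc0)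
    (mul_ne_zero hb0 hd0), nu_div h hδ hτ ha0 hb0, nu_div h hδ hτ hc0 hd0, nu0_mul h hδ hτ ha0 hc0,
    nu0_mul h hδ hτ hb0 hd0]
  ring

include hδ hτ in
theorem nu_one : nu h τ (1 : M) = 0 := by
  have h1 := nu_mul (M := M) h hδ hτ (one_ne_zero (α := M)) one_ne_zero
  rw [mul_one] at h1
  linarith

include hδ hτ in
theorem nu_pow {y : M} (hy : y ≠ 0) (n : ℕ) : nu h τ (y ^ n) = n * nu h τ y := by
  induction n with
  | zero => simp [nu_one h hδ hτ]
  | succ n ih =>
    rw [pow_succ, nu_mul h hδ hτ (pow_ne_zero n hy) hy, ih]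
    push_cast
    ring

include hδ hτ in
theorem nu_inv {y : M} (hy : y ≠ 0) : nu h τ y⁻¹ = - nu h τ y := by
  have h1 := nu_mul (M := M) h hδ hτ hy (inv_ne_zero hy)
  rw [mul_inv_cancel₀ hy, nu_one h hδ hτ] at h1
  linarith

include hδ hτ in
theorem nu_zpow {y : M} (hy : y ≠ 0) (n : ℤ) : nu h τ (y ^ n) = n * nu h τ y := by
  obtain ⟨m, rfl | rfl⟩ := n.eq_nat_or_neg
  · rw [zpow_natCast, nu_pow h hδ hτ hy]
  · rw [zpow_neg, zpow_natCast, nu_inv h hδ hτ (pow_ne_zero _ hy), nu_pow h hδ hτ hy]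
    ring

include hδ hτ in
theorem nu_delta : nu h τ (algebraMap R M δ) = 0 := by
  rw [nu_algebraMap h hδ hτ hδ.ne_zero]
  unfold nu0
  rw [cof_eq hδ (a := δ) (b := 1) (m := 1) (by simp)
    (fun hd => hδ.not_isUnit (isUnit_of_dvd_one hd)), map_one,
    multiplicity_of_one_right hτ.not_isUnit]
  rfl

include hδ hτ in
theorem nu_unit (u : Rˣ) : nu h τ (algebraMap R M u) = 0 := by
  rw [nu_algebraMap h hδ hτ u.ne_zero, nu0_of_not_dvd h hδ
    (fun hd => hδ.not_isUnit (isUnit_of_dvd_unit hd u.isUnit))]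
  have h1 : ¬ τ ∣ h.ρ u := fun hd => hτ.not_isUnit (isUnit_of_dvd_unit hd (u.isUnit.map h.ρ))
  rw [multiplicity_eq_zero.2 h1]
  rfl

include hδ hτ in
theorem nu_of_not_dvd {a : R} (ha : ¬ δ ∣ a) :
    nu h τ (algebraMap R M a) = multiplicity τ (h.ρ a) := by
  rw [nu_algebraMap h hδ hτ (by rintro rfl; exact ha (dvd_zero _)), nu0_of_not_dvd h hδ ha]

include hδ hτ in
/-- the order of the leading coefficient of an element which is congruent to a constant -/
theorem nu_of_lt {z : M} {r : S} (hr : r ≠ 0)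
    (hz : pv M hδ (z - algebraMap R M (C r)) < 1) : nu h τ z = multiplicity τ r := by
  have hCr : ¬ δ ∣ C r := fun hd => hr (h.inj r hd)
  have h1 : pv M hδ z = 1 := by
    have h2 : pv M hδ (algebraMap R M (C r)) = 1 := (pv_eq_one_iff M hδ _).2 hCr
    have h3 := Valuation.map_add_eq_of_lt_right (v := pv M hδ)
      (x := z - algebraMap R M (C r)) (y := algebraMap R M (C r)) (by rw [h2]; exact hz)
    rwa [sub_add_cancel, h2] at h3
  obtain ⟨a, b, hb, rfl⟩ := IsFractionRing.div_surjective (A := R) z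
  have hb0 : b ≠ 0 := nonZeroDivisors.ne_zero hb
  have ha0 : a ≠ 0 := by
    rintro rfl
    simp at h1
  have hbM : algebraMap R M b ≠ 0 := by simpa using hb0
  have hm : multiplicity δ a = multiplicity δ b := by
    rw [map_div₀, pv_algebraMap, pv_algebraMap, rv_apply hδ ha0, rv_apply hδ hb0,
      ← exp_sub, ← exp_zero, exp_inj] at h1
    omega
  have hcb : cof δ b ≠ 0 := by
    intro h0; exact not_dvd_cof hδ hb0 (by rw [h0]; exact dvd_zero _)
  have hcbM : algebraMap R M (cof δ b) ≠ 0 := by simpa using hcb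
  have h2 : algebraMap R M a / algebraMap R M b =
      algebraMap R M (cof δ a) / algebraMap R M (cof δ b) := by
    rw [div_eq_div_iff hbM hcbM, ← map_mul, ← map_mul]
    congr 1
    conv_lhs => rw [eq_cof δ a]
    conv_rhs => rw [eq_cof δ b]
    rw [hm]
    ring
  rw [nu_div h hδ hτ ha0 hb0]
  have h3 : δ ∣ cof δ a - C r * cof δ b := by
    rw [← pv_lt_one_iff M hδ]
    rw [h2] at hz
    have h4 : algebraMap R M (cof δ a - C r * cof δ b) =
        (algebraMap R M (cof δ a) / algebraMap R M (cof δ b) - algebraMap R M (C r)) *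
          algebraMap R M (cof δ b) := by
      rw [map_sub, map_mul]
      field_simp
    rw [h4, map_mul, (pv_eq_one_iff M hδ _).2 (not_dvd_cof hδ hb0), mul_one]
    exact hz
  have h5 : h.ρ (cof δ a) = r * h.ρ (cof δ b) := by
    have := (h.ρ_eq_zero_iff _).2 h3
    rw [map_sub, map_mul, h.ρ_C] at this
    exact sub_eq_zero.1 this
  unfold nu0
  have h6 : h.ρ (cof δ b) ≠ 0 := fun h0 => not_dvd_cof hδ hb0 ((h.ρ_eq_zero_iff _).1 h0)
  rw [h5, multiplicity_mul hτ (fin_mult hτ (mul_ne_zero hr h6))]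
  push_cast
  ring

end Nu

end Crest.Agent.R013.Tors2_235
end

-- ▼ part R013/Tors3_235
section

/-!
# Row 13, leaf TORS (helper235), part 3: the ring `F⟦t⟧⟦X⟧`, the primes `t`, `X`, `X - t` and the
relation between orders and leading coefficients.
-/

set_option autoImplicit false
set_option linter.all false

namespace Crest.Agent.R013.Tors3_235

open WithZero PowerSeries
open Crest.Agent.R013.Tors1_235 Crest.Agent.R013.Tors2_235

variable {F : Type*} [Field F]

theorem prime_of_lin (f : (F⟦X⟧)⟦X⟧) (h0 : constantCoeff (constantCoeff f) = 0)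
    (h1 : coeff 1 (constantCoeff f) ≠ 0 ∨ constantCoeff (coeff 1 f) ≠ 0) : Prime f := by
  rw [← irreducible_iff_prime]
  have key : ∀ a : (F⟦X⟧)⟦X⟧, ¬ IsUnit a → constantCoeff (constantCoeff a) = 0 := by
    intro a ha
    by_contra h2
    apply ha
    rw [PowerSeries.isUnit_iff_constantCoeff, PowerSeries.isUnit_iff_constantCoeff]
    exact isUnit_iff_ne_zero.2 h2
  constructor
  · intro hu
    rw [PowerSeries.isUnit_iff_constantCoeff, PowerSeries.isUnit_iff_constantCoeff, h0] at hu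
    exact not_isUnit_zero hu
  · intro a b hab
    by_contra hcon
    push Not at hcon
    have ha := key a hcon.1
    have hb := key b hcon.2
    rcases h1 with h1 | h1
    · apply h1
      rw [hab, map_mul, coeff_mul]
      rw [show Finset.HasAntidiagonal.antidiagonal 1 = {((0 : ℕ), (1 : ℕ)), (1, 0)} from rfl]
      rw [Finset.sum_pair (by decide)]
      simp only [coeff_zero_eq_constantCoeff_apply]
      rw [ha, hb]
      simp
    · apply h1
      rw [hab, coeff_mul]
      rw [show Finset.HasAntidiagonal.antidiagonal 1 = {((0 : ℕ), (1 : ℕ)), (1, 0)} from rfl]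
      rw [Finset.sum_pair (by decide)]
      simp only [coeff_zero_eq_constantCoeff_apply, map_add, map_mul]
      rw [ha, hb]
      simp

variable (F) in
/-- the inner variable -/
noncomputable def tt : (F⟦X⟧)⟦X⟧ := C X

variable (F) in
/-- the difference of the variables -/
noncomputable def dd : (F⟦X⟧)⟦X⟧ := X - C X

theorem prime_tt : Prime (tt F) := by
  apply prime_of_lin
  · simp [tt]
  · left
    simp [tt]

theorem prime_XX : Prime (X : (F⟦X⟧)⟦X⟧) := X_prime

theorem prime_dd : Prime (dd F) := by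
  apply prime_of_lin
  · simp [dd]
  · right
    simp [dd, coeff_one_X, coeff_C]

theorem isRed_X : IsRed (C : F⟦X⟧ →+* (F⟦X⟧)⟦X⟧) X where
  ex f := ⟨constantCoeff f, by
    rw [X_dvd_iff, map_sub, constantCoeff_C, sub_self]⟩
  inj r hr := by
    rwa [X_dvd_iff, constantCoeff_C] at hr

/-- `∑_j t^j f_(i+j)` -/
noncomputable def gs (f : (F⟦X⟧)⟦X⟧) (i : ℕ) : F⟦X⟧ :=
  PowerSeries.mk fun n => ∑ p ∈ Finset.HasAntidiagonal.antidiagonal n, coeff p.1 (coeff (i + p.2) f)

theorem gs_eq (f : (F⟦X⟧)⟦X⟧) (i : ℕ) : gs f i = coeff i f + X * gs f (i + 1) := by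
  ext n
  cases n with
  | zero => simp [gs]
  | succ n =>
    rw [map_add, coeff_succ_X_mul]
    simp only [gs, coeff_mk]
    rw [Finset.Nat.antidiagonal_succ', Finset.sum_cons]
    congr 1
    rw [Finset.sum_map]
    refine Finset.sum_congr rfl fun p _ => ?_
    show coeff p.1 (coeff (i + (p.2 + 1)) f) = _
    rw [show i + (p.2 + 1) = i + 1 + p.2 by omega]

theorem isRed_dd : IsRed (C : F⟦X⟧ →+* (F⟦X⟧)⟦X⟧) (dd F) where
  ex f := ⟨gs f 0, PowerSeries.mk fun i => gs f (i + 1), by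
    ext1 i
    cases i with
    | zero =>
      rw [map_sub, coeff_zero_C]
      simp only [dd, sub_mul, map_sub, coeff_zero_X_mul, coeff_C_mul, coeff_mk]
      rw [gs_eq f 0]
      ring
    | succ i =>
      rw [map_sub, coeff_succ_C]
      simp only [dd, sub_mul, map_sub, coeff_succ_X_mul, coeff_C_mul, coeff_mk]
      rw [gs_eq f (i + 1)]
      ring⟩
  inj r hr := by
    obtain ⟨q, hq⟩ := hr
    have h1 : ∀ i, coeff i q = X * coeff (i + 1) q := by
      intro i
      have h2 := congrArg (coeff (i + 1)) hq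
      simp only [dd, sub_mul, map_sub, coeff_succ_X_mul, coeff_C_mul, coeff_succ_C] at h2
      exact (sub_eq_zero.1 h2.symm)
    have h2 : ∀ (k i : ℕ), X ^ k ∣ coeff i q := by
      intro k
      induction k with
      | zero => intro i; simp
      | succ k ih =>
        intro i
        rw [h1 i, pow_succ']
        exact mul_dvd_mul_left X (ih (i + 1))
    have h3 : q = 0 := by
      ext i m
      have h4 := X_pow_dvd_iff.1 (h2 (m + 1) i) m (Nat.lt_succ_self m)
      rw [h4]
      simp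
    rw [h3, mul_zero] at hq
    have h5 := congrArg constantCoeff hq
    simpa using h5

theorem ρX_apply (f : (F⟦X⟧)⟦X⟧) : (isRed_X (F := F)).ρ f = constantCoeff f :=
  (isRed_X (F := F)).ρ_eq (by rw [X_dvd_iff, map_sub, constantCoeff_C, sub_self])

theorem ρX_tt : (isRed_X (F := F)).ρ (tt F) = X := by rw [ρX_apply]; simp [tt]

theorem ρX_dd : (isRed_X (F := F)).ρ (dd F) = - X := by rw [ρX_apply]; simp [dd]

theorem ρd_tt : (isRed_dd (F := F)).ρ (tt F) = X := (isRed_dd (F := F)).ρ_C X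

theorem ρd_X : (isRed_dd (F := F)).ρ X = X := (isRed_dd (F := F)).ρ_eq (by
  rw [dd])

theorem not_X_dvd_tt : ¬ (X : (F⟦X⟧)⟦X⟧) ∣ tt F := by
  rw [← (isRed_X (F := F)).ρ_eq_zero_iff, ρX_tt]; exact X_ne_zero

theorem not_X_dvd_dd : ¬ (X : (F⟦X⟧)⟦X⟧) ∣ dd F := by
  rw [← (isRed_X (F := F)).ρ_eq_zero_iff, ρX_dd, neg_eq_zero]; exact X_ne_zero

theorem not_dd_dvd_tt : ¬ dd F ∣ tt F := by
  rw [← (isRed_dd (F := F)).ρ_eq_zero_iff, ρd_tt]; exact X_ne_zero

theorem not_dd_dvd_X : ¬ dd F ∣ X := by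
  rw [← (isRed_dd (F := F)).ρ_eq_zero_iff, ρd_X]; exact X_ne_zero

theorem not_tt_dvd_of {f : (F⟦X⟧)⟦X⟧} (h : constantCoeff (coeff 1 f) ≠ 0) : ¬ tt F ∣ f := by
  rintro ⟨q, rfl⟩
  apply h
  simp [tt]

theorem not_tt_dvd_X : ¬ tt F ∣ X := not_tt_dvd_of (by simp)

theorem not_tt_dvd_dd : ¬ tt F ∣ dd F := not_tt_dvd_of (by simp [dd, coeff_C])

variable {M : Type*} [Field M] [Algebra ((F⟦X⟧)⟦X⟧) M] [IsFractionRing ((F⟦X⟧)⟦X⟧) M]

/-- order of the leading coefficient along `X = 0` -/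
noncomputable def nuX (z : M) : ℤ := nu (isRed_X (F := F)) X z

/-- order of the leading coefficient along the diagonal -/
noncomputable def nuD (z : M) : ℤ := nu (isRed_dd (F := F)) X z

theorem algebraMap_ne {f : (F⟦X⟧)⟦X⟧} (hf : f ≠ 0) : algebraMap _ M f ≠ 0 := by
  simpa using hf

theorem nuX_tt : nuX (F := F) (algebraMap _ M (tt F)) = 1 := by
  unfold nuX
  rw [nu_of_not_dvd isRed_X prime_XX X_prime not_X_dvd_tt, ρX_tt, multiplicity_self]
  rfl

theorem nuX_dd : nuX (F := F) (algebraMap _ M (dd F)) = 1 := by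
  unfold nuX
  rw [nu_of_not_dvd isRed_X prime_XX X_prime not_X_dvd_dd, ρX_dd, multiplicity_neg,
    multiplicity_self]
  rfl

theorem nuX_X : nuX (F := F) (algebraMap ((F⟦X⟧)⟦X⟧) M X) = 0 := nu_delta isRed_X prime_XX X_prime

theorem nuD_tt : nuD (F := F) (algebraMap _ M (tt F)) = 1 := by
  unfold nuD
  rw [nu_of_not_dvd isRed_dd prime_dd X_prime not_dd_dvd_tt, ρd_tt, multiplicity_self]
  rfl

theorem nuD_X : nuD (F := F) (algebraMap ((F⟦X⟧)⟦X⟧) M X) = 1 := by
  unfold nuD
  rw [nu_of_not_dvd isRed_dd prime_dd X_prime not_dd_dvd_X, ρd_X, multiplicity_self]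
  rfl

theorem nuD_dd : nuD (F := F) (algebraMap _ M (dd F)) = 0 := nu_delta isRed_dd prime_dd X_prime

variable (M) in
theorem pv_of_not_dvd {R : Type*} [CommRing R] [IsDomain R] [WfDvdMonoid R] [Algebra R M]
    [IsFractionRing R M] {π a : R} (hπ : Prime π) (ha : ¬ π ∣ a) :
    log (pv M hπ (algebraMap R M a)) = 0 := by
  rw [(pv_eq_one_iff M hπ a).2 ha, ← exp_zero, log_exp]

theorem fact_hom {R : Type*} [CommRing R] [IsDomain R] [UniqueFactorizationMonoid R]
    {M : Type*} [Field M] [Algebra R M] [IsFractionRing R M]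
    {ι : Type*} [Fintype ι] (q : ι → R) (hq : ∀ i, q i ≠ 0) {N : ℕ} (hN : 0 < N) (h : M)
    (h0 : h ≠ 0)
    (hyp : ∀ (π : R) (hπ : Prime π), (∀ i, ¬ Associated π (q i)) →
      (N : ℤ) ∣ log (pv M hπ h)) :
    ∃ e : ι → ℕ, ∀ G : M → ℤ, (∀ y z, y ≠ 0 → z ≠ 0 → G (y * z) = G y + G z) →
      (∀ u : Rˣ, G (algebraMap R M u) = 0) →
      (N : ℤ) ∣ G h - ∑ i, (e i : ℤ) * G (algebraMap R M (q i)) := by
  classical
  obtain ⟨u, e, g, hg, h1⟩ := fact_field M q hN h h0 hyp
  refine ⟨e, fun G hG hGu => ?_⟩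
  have hG1 : G 1 = 0 := by
    have := hGu 1
    simpa using this
  have hpow : ∀ (y : M), y ≠ 0 → ∀ n : ℕ, G (y ^ n) = n * G y := by
    intro y hy n
    induction n with
    | zero => simp [hG1]
    | succ n ih =>
      rw [pow_succ, hG _ _ (pow_ne_zero n hy) hy, ih]
      push_cast
      ring
  have hprod : ∀ s : Finset ι, G (∏ i ∈ s, algebraMap R M (q i) ^ e i) =
      ∑ i ∈ s, (e i : ℤ) * G (algebraMap R M (q i)) := by
    intro s
    induction s using Finset.induction_on with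
    | empty => simp [hG1]
    | insert a s ha ih =>
      rw [Finset.prod_insert ha, Finset.sum_insert ha, hG, hpow, ih]
      · simpa using hq a
      · exact pow_ne_zero _ (by simpa using hq a)
      · exact Finset.prod_ne_zero_iff.2 fun i _ => pow_ne_zero _ (by simpa using hq i)
  have hu : algebraMap R M u ≠ 0 := by simpa using u.ne_zero
  have hp : (∏ i, algebraMap R M (q i) ^ e i) ≠ 0 :=
    Finset.prod_ne_zero_iff.2 fun i _ => pow_ne_zero _ (by simpa using hq i)
  rw [h1, hG _ _ (mul_ne_zero hu hp) (pow_ne_zero _ hg), hG _ _ hu hp, hGu, hpow _ hg, hprod]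
  exact ⟨G g, by ring⟩

theorem fact3 {R : Type*} [CommRing R] [IsDomain R] [UniqueFactorizationMonoid R]
    {M : Type*} [Field M] [Algebra R M] [IsFractionRing R M]
    (q₀ q₁ q₂ : R) (h₀ : q₀ ≠ 0) (h₁ : q₁ ≠ 0) (h₂ : q₂ ≠ 0) {N : ℕ} (hN : 0 < N) (h : M)
    (h0 : h ≠ 0)
    (hyp : ∀ (π : R) (hπ : Prime π), ¬ Associated π q₀ → ¬ Associated π q₁ → ¬ Associated π q₂ →
      (N : ℤ) ∣ log (pv M hπ h)) :
    ∃ e₀ e₁ e₂ : ℤ, ∀ G : M → ℤ, (∀ y z, y ≠ 0 → z ≠ 0 → G (y * z) = G y + G z) →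
      (∀ u : Rˣ, G (algebraMap R M u) = 0) →
      (N : ℤ) ∣ G h - (e₀ * G (algebraMap R M q₀) + e₁ * G (algebraMap R M q₁) +
        e₂ * G (algebraMap R M q₂)) := by
  obtain ⟨e, he⟩ := fact_hom (![q₀, q₁, q₂] : Fin 3 → R) (by
    intro i
    fin_cases i
    · exact h₀
    · exact h₁
    · exact h₂) hN h h0 (by
    intro π hπ h
    exact hyp π hπ (h 0) (h 1) (h 2))
  refine ⟨e 0, e 1, e 2, fun G h1 h2 => ?_⟩
  have h3 := he G h1 h2
  rw [Fin.sum_univ_three] at h3
  exact h3

theorem log_pv_mul {R : Type*} [CommRing R] [IsDomain R] [WfDvdMonoid R]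
    {M : Type*} [Field M] [Algebra R M] [IsFractionRing R M] {π : R} (hπ : Prime π) (y z : M)
    (hy : y ≠ 0) (hz : z ≠ 0) : log (pv M hπ (y * z)) = log (pv M hπ y) + log (pv M hπ z) := by
  rw [map_mul, log_mul ((Valuation.ne_zero_iff _).2 hy) ((Valuation.ne_zero_iff _).2 hz)]

theorem log_pv_unit {R : Type*} [CommRing R] [IsDomain R] [WfDvdMonoid R]
    {M : Type*} [Field M] [Algebra R M] [IsFractionRing R M] {π : R} (hπ : Prime π) (u : Rˣ) :
    log (pv M hπ (algebraMap R M u)) = 0 := by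
  rw [pv_unit, ← exp_zero, log_exp]

theorem log_pv_self {R : Type*} [CommRing R] [IsDomain R] [WfDvdMonoid R]
    {M : Type*} [Field M] [Algebra R M] [IsFractionRing R M] {π : R} (hπ : Prime π) :
    log (pv M hπ (algebraMap R M π)) = -1 := by
  rw [pv_self, log_exp]

/-- the conclusion of `fact3` at `t`, `X`, `X - t` -/
def Form (F : Type*) [Field F] {M : Type*} [Field M] [Algebra ((F⟦X⟧)⟦X⟧) M] (N : ℕ) (z : M)
    (e₀ e₁ e₂ : ℤ) : Prop :=
  ∀ G : M → ℤ, (∀ y z, y ≠ 0 → z ≠ 0 → G (y * z) = G y + G z) →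
      (∀ u : ((F⟦X⟧)⟦X⟧)ˣ, G (algebraMap ((F⟦X⟧)⟦X⟧) M u) = 0) →
      (N : ℤ) ∣ G z - (e₀ * G (algebraMap _ M (tt F)) + e₁ * G (algebraMap ((F⟦X⟧)⟦X⟧) M X) +
        e₂ * G (algebraMap _ M (dd F)))

theorem exists_Form {N : ℕ} (hN : 0 < N) {z : M} (hz : z ≠ 0)
    (hyp : ∀ (π : (F⟦X⟧)⟦X⟧) (hπ : Prime π), ¬ Associated π (tt F) → ¬ Associated π X →
      ¬ Associated π (dd F) → (N : ℤ) ∣ log (pv M hπ z)) :
    ∃ e₀ e₁ e₂ : ℤ, Form F N z e₀ e₁ e₂ :=
  fact3 (M := M) (tt F) X (dd F) prime_tt.ne_zero prime_XX.ne_zero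
    prime_dd.ne_zero hN z hz hyp

section

variable {N : ℕ} {z : M} {e₀ e₁ e₂ : ℤ} (he : Form F N z e₀ e₁ e₂)

include he

theorem Form.nuX : (N : ℤ) ∣ nuX (F := F) z - (e₀ + e₂) := by
  have h1 := he (Tors3_235.nuX (F := F))
    (fun y z hy hz => nu_mul isRed_X prime_XX X_prime hy hz)
    (fun u => nu_unit isRed_X prime_XX X_prime u)
  rw [nuX_tt, nuX_X, nuX_dd] at h1
  simpa using h1

theorem Form.nuD : (N : ℤ) ∣ nuD (F := F) z - (e₀ + e₁) := by
  have h1 := he (Tors3_235.nuD (F := F))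
    (fun y z hy hz => nu_mul isRed_dd prime_dd X_prime hy hz)
    (fun u => nu_unit isRed_dd prime_dd X_prime u)
  rw [nuD_tt, nuD_X, nuD_dd] at h1
  simpa using h1

theorem Form.pv {π : (F⟦X⟧)⟦X⟧} (hπ : Prime π) : (N : ℤ) ∣ log (pv M hπ z) -
    (e₀ * log (pv M hπ (algebraMap _ M (tt F))) +
      e₁ * log (pv M hπ (algebraMap ((F⟦X⟧)⟦X⟧) M X)) +
        e₂ * log (pv M hπ (algebraMap _ M (dd F)))) := by
  refine he (fun z => log (Tors1_235.pv M hπ z)) ?_ ?_
  · intro y z hy hz
    exact log_pv_mul hπ y z hy hz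
  · intro u
    exact log_pv_unit hπ u

omit he

theorem ltt : log (Tors1_235.pv M (prime_tt (F := F)) (algebraMap _ M (tt F))) = -1 :=
  log_pv_self (R := (F⟦X⟧)⟦X⟧) _

theorem ltX : log (Tors1_235.pv M (prime_tt (F := F)) (algebraMap ((F⟦X⟧)⟦X⟧) M X)) = 0 :=
  pv_of_not_dvd (R := (F⟦X⟧)⟦X⟧) M prime_tt not_tt_dvd_X

theorem ltd : log (Tors1_235.pv M (prime_tt (F := F)) (algebraMap _ M (dd F))) = 0 :=
  pv_of_not_dvd (R := (F⟦X⟧)⟦X⟧) M prime_tt not_tt_dvd_dd

theorem lXt : log (Tors1_235.pv M (prime_XX (F := F)) (algebraMap _ M (tt F))) = 0 :=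
  pv_of_not_dvd (R := (F⟦X⟧)⟦X⟧) M prime_XX not_X_dvd_tt

theorem lXX : log (Tors1_235.pv M (prime_XX (F := F)) (algebraMap ((F⟦X⟧)⟦X⟧) M X)) = -1 :=
  log_pv_self (R := (F⟦X⟧)⟦X⟧) _

theorem lXd : log (Tors1_235.pv M (prime_XX (F := F)) (algebraMap _ M (dd F))) = 0 :=
  pv_of_not_dvd (R := (F⟦X⟧)⟦X⟧) M prime_XX not_X_dvd_dd

theorem ldt : log (Tors1_235.pv M (prime_dd (F := F)) (algebraMap _ M (tt F))) = 0 :=
  pv_of_not_dvd (R := (F⟦X⟧)⟦X⟧) M prime_dd not_dd_dvd_tt

theorem ldX : log (Tors1_235.pv M (prime_dd (F := F)) (algebraMap ((F⟦X⟧)⟦X⟧) M X)) = 0 :=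
  pv_of_not_dvd (R := (F⟦X⟧)⟦X⟧) M prime_dd not_dd_dvd_X

theorem ldd : log (Tors1_235.pv M (prime_dd (F := F)) (algebraMap _ M (dd F))) = -1 :=
  log_pv_self (R := (F⟦X⟧)⟦X⟧) _

include he

theorem Form.pvt : (N : ℤ) ∣ log (Tors1_235.pv M (prime_tt (F := F)) z) + e₀ := by
  have h1 := he.pv prime_tt
  rw [ltt (F := F) (M := M), ltX, ltd] at h1
  convert h1 using 1
  ring

theorem Form.pvX : (N : ℤ) ∣ log (Tors1_235.pv M (prime_XX (F := F)) z) + e₁ := by
  have h1 := he.pv prime_XX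
  rw [lXt (F := F) (M := M), lXX, lXd] at h1
  convert h1 using 1
  ring

theorem Form.pvd : (N : ℤ) ∣ log (Tors1_235.pv M (prime_dd (F := F)) z) + e₂ := by
  have h1 := he.pv prime_dd
  rw [ldt (F := F) (M := M), ldX, ldd] at h1
  convert h1 using 1
  ring

end

/-- **orders of an element without zeros outside `t`, `X`, `X - t` modulo `N`** -/
theorem key {N : ℕ} (hN : 0 < N) {z : M} (hz : z ≠ 0)
    (hyp : ∀ (π : (F⟦X⟧)⟦X⟧) (hπ : Prime π), ¬ Associated π (tt F) → ¬ Associated π X →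
      ¬ Associated π (dd F) → (N : ℤ) ∣ log (pv M hπ z)) :
    (N : ℤ) ∣ nuX (F := F) z + log (pv M (prime_tt (F := F)) z) + log (pv M (prime_dd (F := F)) z) ∧
    (N : ℤ) ∣ nuD (F := F) z + log (pv M (prime_tt (F := F)) z) +
      log (pv M (prime_XX (F := F)) z) := by
  obtain ⟨e₀, e₁, e₂, he⟩ := exists_Form hN hz hyp
  obtain ⟨k1, hk1⟩ := he.nuX
  obtain ⟨k2, hk2⟩ := he.nuD
  obtain ⟨k3, hk3⟩ := he.pvt
  obtain ⟨k4, hk4⟩ := he.pvd
  obtain ⟨k5, hk5⟩ := he.pvX
  constructor
  · exact ⟨k1 + k3 + k4, by linear_combination hk1 + hk3 + hk4⟩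
  · exact ⟨k2 + k3 + k5, by linear_combination hk2 + hk3 + hk5⟩

end Crest.Agent.R013.Tors3_235
end

-- ▼ part R013/Tors4_235

/-!
# Row 13, leaf TORS (helper235), part 4: expansions at a place and the embeddings of `K` into the
fraction field of `F⟦t⟧⟦X⟧`.
-/

set_option autoImplicit false
set_option linter.all false

namespace Crest.Agent.R013.Tors4_235

open WithZero PowerSeries TensorProduct
open Crest.Agent.R013.RR7_948 Crest.Agent.R013.RR11_948 Crest.Agent.R013.CE1_280
open Crest.Agent.R013.CE3_280 Crest.Agent.R013.Exp_863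
open Crest.Agent.R013.Tors1_235 Crest.Agent.R013.Tors2_235 Crest.Agent.R013.Tors3_235

variable {F K : Type*} [Field F] [IsAlgClosed F] [Field K] [Algebra F K]
  [Algebra (RatFunc F) K] [IsScalarTower F (RatFunc F) K] [FiniteDimensional (RatFunc F) K]
  [Algebra.IsSeparable (RatFunc F) K]

/-- a uniformizer of a place -/
noncomputable def unif (P : Pl F K) : K := (P.surj (exp (-1))).choose

omit [IsAlgClosed F] [Algebra (RatFunc F) K] [IsScalarTower F (RatFunc F) K]
  [FiniteDimensional (RatFunc F) K] [Algebra.IsSeparable (RatFunc F) K] in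
theorem v_unif (P : Pl F K) : P.v (unif P) = exp (-1) := (P.surj (exp (-1))).choose_spec

omit [IsAlgClosed F] [Algebra (RatFunc F) K] [IsScalarTower F (RatFunc F) K]
  [FiniteDimensional (RatFunc F) K] [Algebra.IsSeparable (RatFunc F) K] in
theorem unif_ne_zero (P : Pl F K) : unif P ≠ 0 := by
  intro h0
  have := v_unif P
  rw [h0, map_zero] at this
  exact exp_ne_zero this.symm

omit [IsAlgClosed F] [Algebra (RatFunc F) K] [IsScalarTower F (RatFunc F) K]
  [FiniteDimensional (RatFunc F) K] [Algebra.IsSeparable (RatFunc F) K] in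
theorem v_unif_lt (P : Pl F K) : P.v (unif P) < 1 := by
  rw [v_unif, ← exp_zero, exp_lt_exp]; norm_num

/-- the uniformizer in the valuation ring -/
noncomputable def su (P : Pl F K) : valSub P := ⟨unif P, mem_valSub.mpr (v_unif_lt P).le⟩

omit [IsAlgClosed F] [Algebra (RatFunc F) K] [IsScalarTower F (RatFunc F) K]
  [FiniteDimensional (RatFunc F) K] [Algebra.IsSeparable (RatFunc F) K] in
theorem su_pow_dvd_iff (P : Pl F K) (n : ℕ) (f : valSub P) :
    su P ^ n ∣ f ↔ P.v (f : K) ≤ exp (-(n : ℤ)) := by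
  have hv : P.v (unif P ^ n) = exp (-(n : ℤ)) := by
    rw [map_pow, v_unif, ← exp_nsmul]
    simp
  constructor
  · rintro ⟨g, rfl⟩
    have h1 : P.v ((g : valSub P) : K) ≤ 1 := mem_valSub.1 g.2
    show P.v (unif P ^ n * (g : K)) ≤ _
    rw [map_mul, hv]
    calc _ ≤ exp (-(n : ℤ)) * 1 := mul_le_mul_right h1 _
      _ = _ := mul_one _
  · intro h
    refine ⟨⟨(f : K) / unif P ^ n, mem_valSub.mpr ?_⟩, ?_⟩
    · rw [map_div₀, hv]
      exact div_le_one_of_le₀ h zero_le
    · apply Subtype.ext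
      show (f : K) = unif P ^ n * ((f : K) / unif P ^ n)
      rw [mul_div_cancel₀ _ (pow_ne_zero n (unif_ne_zero P))]

theorem isUnif (P : Pl F K) : IsUnif F (su P) where
  nzd a ha := by
    rcases mul_eq_zero.1 ha with h | h
    · exact absurd (congrArg Subtype.val h) (unif_ne_zero P)
    · exact h
  ex f := by
    obtain ⟨c, hc⟩ := exists_residue P (mem_valSub.1 f.2)
    refine ⟨c, ?_⟩
    have h1 := (su_pow_dvd_iff P 1 (f - algebraMap F (valSub P) c)).2 (by
      show P.v ((f : K) - algebraMap F K c) ≤ _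
      rw [Nat.cast_one, ← lt_one_iff_le]
      exact hc)
    rwa [pow_one] at h1
  inj c hc := by
    rw [← pow_one (su P), su_pow_dvd_iff, Nat.cast_one, ← lt_one_iff_le] at hc
    exact v_algebraMap_lt P hc

/-- expansion at a place -/
noncomputable def ex (P : Pl F K) : valSub P →ₐ[F] F⟦X⟧ := (isUnif P).expand

theorem ex_su (P : Pl F K) : ex P (su P) = X := (isUnif P).expand_s

theorem X_pow_dvd_ex (P : Pl F K) (n : ℕ) (f : valSub P) :
    X ^ n ∣ ex P f ↔ P.v (f : K) ≤ exp (-(n : ℤ)) := by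
  rw [← su_pow_dvd_iff]
  exact ((isUnif P).pow_dvd_iff n f).symm

theorem ex_injective (P : Pl F K) : Function.Injective (ex P) := by
  apply (isUnif P).expand_injective
  intro f hf
  by_contra hf0
  have h1 : P.v (f : K) ≠ 0 := (Valuation.ne_zero_iff _).2 (fun h => hf0 (Subtype.ext h))
  have h2 := (su_pow_dvd_iff P (-log (P.v (f : K)) + 1).toNat f).1 (hf _)
  conv_lhs at h2 => rw [← exp_log h1]
  rw [exp_le_exp] at h2
  have h3 := Int.self_le_toNat (-log (P.v (f : K)) + 1)
  omega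

theorem ex_isUnit (P : Pl F K) {f : valSub P} (hf : P.v (f : K) = 1) : IsUnit (ex P f) := by
  have h1 := (X_pow_dvd_ex P 1 f).not.2 (by
    rw [hf, ← exp_zero, exp_le_exp]; norm_num)
  rw [pow_one, X_dvd_iff] at h1
  rw [PowerSeries.isUnit_iff_constantCoeff]
  exact isUnit_iff_ne_zero.2 h1

instance isFrac (P : Pl F K) : IsFractionRing (valSub P) K := by
  have : FaithfulSMul (valSub P) K := by
    rw [faithfulSMul_iff_algebraMap_injective]
    exact Subtype.val_injective
  apply IsFractionRing.of_field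
  intro z
  rcases le_or_gt (P.v z) 1 with h | h
  · exact ⟨⟨z, mem_valSub.2 h⟩, 1, by rw [map_one, div_one]; rfl⟩
  · refine ⟨1, ⟨z⁻¹, mem_valSub.2 ?_⟩, ?_⟩
    · rw [map_inv₀]
      exact inv_le_one_of_one_le₀ h.le
    · rw [map_one]
      show z = 1 / z⁻¹
      rw [one_div, inv_inv]

section emb

variable {M : Type*} [Field M] [Algebra F M] (ψ : F⟦X⟧ →ₐ[F] M) (hψ : Function.Injective ψ)

/-- the embedding of `K` given by the expansion at `P` and an embedding of `F⟦X⟧` -/
noncomputable def emb (P : Pl F K) : K →ₐ[F] M :=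
  IsFractionRing.liftAlgHom (g := ψ.comp (ex P)) (hψ.comp (ex_injective P))

theorem emb_val (P : Pl F K) (a : valSub P) : emb ψ hψ P (a : K) = ψ (ex P a) := by
  unfold emb
  have h1 := IsFractionRing.lift_algebraMap (K := K) (g := (ψ.comp (ex P)).toRingHom)
    (hψ.comp (ex_injective P)) a
  exact h1

theorem emb_unif (P : Pl F K) : emb ψ hψ P (unif P) = ψ X := by
  have h1 := emb_val ψ hψ P (su P)
  rw [ex_su] at h1
  exact h1

theorem emb_of_le (P : Pl F K) {a : K} (ha : P.v a ≤ 1) :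
    emb ψ hψ P a = ψ (ex P ⟨a, mem_valSub.2 ha⟩) := emb_val ψ hψ P ⟨a, mem_valSub.2 ha⟩

theorem emb_form (P : Pl F K) {a : K} {n : ℤ} (ha : P.v a = exp n) :
    ∃ u : (F⟦X⟧)ˣ, emb ψ hψ P a = ψ u * ψ X ^ (-n) := by
  have h1 : P.v (a * unif P ^ n) = 1 := by
    rw [map_mul, map_zpow₀, ha, v_unif, ← exp_zsmul, ← exp_add]
    simp
  obtain ⟨u, hu⟩ := ex_isUnit P (f := ⟨a * unif P ^ n, mem_valSub.2 h1.le⟩) h1
  refine ⟨u, ?_⟩
  have h2 := emb_of_le ψ hψ P h1.le
  rw [← hu, map_mul, map_zpow₀, emb_unif] at h2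
  rw [← h2, mul_assoc, ← zpow_add₀]
  · simp
  · intro h0
    have h3 := hψ (h0.trans (map_zero ψ).symm)
    exact X_ne_zero h3

end emb

end Crest.Agent.R013.Tors4_235
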