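import Mathlib
import Crest.Agent.R013.Tors4_235
import Crest.Agent.R013.RR14_948
import Crest.Agent.R013.RR17_948
import Crest.Agent.R013.CE5_280
import Crest.Agent.R013.CntB2_491
import Crest.Agent.R013.Div3_280
import Crest.Agent.R013.Div6_280
import Crest.Agent.R013.Rig_280

-- ▼ part R013/Tors5_235
section

/-!
# Row 13, leaf TORS (helper235), part 5: the embedding of `L = Frac (K ⊗ K)` into the fraction field
of `F⟦t⟧⟦X⟧` given by two places.
-/

set_option autoImplicit false
set_option linter.all false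

namespace Crest.Agent.R013.Tors5_235

open WithZero PowerSeries TensorProduct Module
open Crest.Agent.R013.RR7_948 Crest.Agent.R013.RR11_948 Crest.Agent.R013.CE1_280
open Crest.Agent.R013.CE3_280 Crest.Agent.R013.Exp_863
open Crest.Agent.R013.Tors1_235 Crest.Agent.R013.Tors2_235 Crest.Agent.R013.Tors3_235
open Crest.Agent.R013.Tors4_235

section Hom

theorem algC {F : Type*} [Field F] (c : F) : algebraMap F ((F⟦X⟧)⟦X⟧) c = C (C c) := by
  rw [PowerSeries.algebraMap_apply]
  rfl

variable (F M : Type*) [Field F] [Field M] [Algebra F M] [Algebra ((F⟦X⟧)⟦X⟧) M]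
  [IsScalarTower F ((F⟦X⟧)⟦X⟧) M]

/-- power series in the outer variable -/
noncomputable def psA : F⟦X⟧ →ₐ[F] M :=
  (IsScalarTower.toAlgHom F ((F⟦X⟧)⟦X⟧) M).comp (mapAlgHom (Algebra.ofId F (F⟦X⟧)))

/-- power series in the inner variable -/
noncomputable def psB : F⟦X⟧ →ₐ[F] M :=
  (IsScalarTower.toAlgHom F ((F⟦X⟧)⟦X⟧) M).comp
    { toRingHom := (C : F⟦X⟧ →+* (F⟦X⟧)⟦X⟧), commutes' := fun c => (algC c).symm }

variable {F M}

theorem psA_apply (f : F⟦X⟧) : psA F M f = algebraMap _ M (PowerSeries.map C f) := by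
  show algebraMap _ M (mapAlgHom (Algebra.ofId F (F⟦X⟧)) f) = _
  rw [mapAlgHom_apply]
  rfl

theorem psB_apply (f : F⟦X⟧) : psB F M f = algebraMap _ M (C f) := rfl

theorem psB_X : psB F M X = algebraMap _ M (tt F) := rfl

theorem psA_X : psA F M X = algebraMap ((F⟦X⟧)⟦X⟧) M X := by
  rw [psA_apply, map_X]

variable [IsFractionRing ((F⟦X⟧)⟦X⟧) M]

theorem map_C_injective : Function.Injective (PowerSeries.map (C : F →+* F⟦X⟧)) := by
  intro f g h
  ext n
  have h1 := congrArg (coeff n) h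
  rw [coeff_map, coeff_map] at h1
  exact C_injective h1

theorem psA_injective : Function.Injective (psA F M) := by
  intro f g h
  rw [psA_apply, psA_apply] at h
  exact map_C_injective (IsFractionRing.injective ((F⟦X⟧)⟦X⟧) M h)

theorem psB_injective : Function.Injective (psB F M) := by
  intro f g h
  rw [psB_apply, psB_apply] at h
  exact C_injective (IsFractionRing.injective ((F⟦X⟧)⟦X⟧) M h)

end Hom

variable {F K : Type*} [Field F] [IsAlgClosed F] [Field K] [Algebra F K]
  [Algebra (RatFunc F) K] [IsScalarTower F (RatFunc F) K] [FiniteDimensional (RatFunc F) K]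
  [Algebra.IsSeparable (RatFunc F) K]
variable (M : Type*) [Field M] [Algebra F M] [Algebra ((F⟦X⟧)⟦X⟧) M]
  [IsScalarTower F ((F⟦X⟧)⟦X⟧) M] [IsFractionRing ((F⟦X⟧)⟦X⟧) M]

/-- expansion at `P` in the outer variable -/
noncomputable def al (P : Pl F K) : K →ₐ[F] M := emb (psA F M) psA_injective P

/-- expansion at `c` in the inner variable -/
noncomputable def be (c : Pl F K) : K →ₐ[F] M := emb (psB F M) psB_injective c

theorem al_unif (P : Pl F K) : al M P (unif P) = algebraMap ((F⟦X⟧)⟦X⟧) M X :=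
  (emb_unif _ _ P).trans psA_X

theorem be_unif (c : Pl F K) : be M c (unif c) = algebraMap ((F⟦X⟧)⟦X⟧) M (tt F) :=
  (emb_unif _ _ c).trans psB_X

theorem al_form (P : Pl F K) {a : K} {n : ℤ} (ha : P.v a = exp n) :
    ∃ u : ((F⟦X⟧)⟦X⟧)ˣ, al M P a = algebraMap _ M (u : (F⟦X⟧)⟦X⟧) *
      algebraMap ((F⟦X⟧)⟦X⟧) M X ^ (-n) := by
  obtain ⟨u, hu⟩ := emb_form (psA F M) psA_injective P ha
  refine ⟨Units.map (PowerSeries.map (C : F →+* F⟦X⟧)).toMonoidHom u, ?_⟩
  rw [psA_X, psA_apply] at hu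
  exact hu

theorem be_form (c : Pl F K) {a : K} {n : ℤ} (ha : c.v a = exp n) :
    ∃ u : ((F⟦X⟧)⟦X⟧)ˣ, be M c a = algebraMap _ M (u : (F⟦X⟧)⟦X⟧) *
      algebraMap ((F⟦X⟧)⟦X⟧) M (tt F) ^ (-n) := by
  obtain ⟨u, hu⟩ := emb_form (psB F M) psB_injective c ha
  refine ⟨Units.map (C : F⟦X⟧ →+* (F⟦X⟧)⟦X⟧).toMonoidHom u, ?_⟩
  rw [psB_X, psB_apply] at hu
  exact hu

omit [IsAlgClosed F] [Algebra (RatFunc F) K] [IsScalarTower F (RatFunc F) K]
  [FiniteDimensional (RatFunc F) K] [Algebra.IsSeparable (RatFunc F) K] in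
theorem exists_exp (P : Pl F K) {a : K} (ha : a ≠ 0) : ∃ n : ℤ, P.v a = exp n :=
  ⟨log (P.v a), (exp_log ((Valuation.ne_zero_iff _).2 ha)).symm⟩

theorem pv_al (P : Pl F K) {a : K} (ha : a ≠ 0) {π : (F⟦X⟧)⟦X⟧} (hπ : Prime π)
    (h : ¬ π ∣ X) : pv M hπ (al M P a) = 1 := by
  obtain ⟨n, hn⟩ := exists_exp P ha
  obtain ⟨u, hu⟩ := al_form M P hn
  rw [hu, map_mul, map_zpow₀, pv_unit, (pv_eq_one_iff M hπ _).2 h, one_zpow, one_mul]

theorem pv_be (c : Pl F K) {a : K} (ha : a ≠ 0) {π : (F⟦X⟧)⟦X⟧} (hπ : Prime π)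
    (h : ¬ π ∣ tt F) : pv M hπ (be M c a) = 1 := by
  obtain ⟨n, hn⟩ := exists_exp c ha
  obtain ⟨u, hu⟩ := be_form M c hn
  rw [hu, map_mul, map_zpow₀, pv_unit, (pv_eq_one_iff M hπ _).2 h, one_zpow, one_mul]

theorem pvX_al (P : Pl F K) (a : K) : pv M (prime_XX (F := F)) (al M P a) = P.v a := by
  by_cases ha : a = 0
  · rw [ha, map_zero, map_zero, map_zero]
  obtain ⟨n, hn⟩ := exists_exp P ha
  obtain ⟨u, hu⟩ := al_form M P hn
  have h1 : pv M (prime_XX (F := F)) (algebraMap ((F⟦X⟧)⟦X⟧) M X) = exp (-1) :=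
    pv_self (R := (F⟦X⟧)⟦X⟧) M _
  have h2 : pv M (prime_XX (F := F)) (algebraMap _ M (u : (F⟦X⟧)⟦X⟧)) = 1 :=
    pv_unit (R := (F⟦X⟧)⟦X⟧) M _ u
  rw [hu, map_mul, map_zpow₀, h1, h2, hn, one_mul, ← exp_zsmul]
  simp

theorem pvt_be (c : Pl F K) (a : K) : pv M (prime_tt (F := F)) (be M c a) = c.v a := by
  by_cases ha : a = 0
  · rw [ha, map_zero, map_zero, map_zero]
  obtain ⟨n, hn⟩ := exists_exp c ha
  obtain ⟨u, hu⟩ := be_form M c hn
  have h1 : pv M (prime_tt (F := F)) (algebraMap _ M (tt F)) = exp (-1) :=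
    pv_self (R := (F⟦X⟧)⟦X⟧) M _
  have h2 : pv M (prime_tt (F := F)) (algebraMap _ M (u : (F⟦X⟧)⟦X⟧)) = 1 :=
    pv_unit (R := (F⟦X⟧)⟦X⟧) M _ u
  rw [hu, map_mul, map_zpow₀, h1, h2, hn, one_mul, ← exp_zsmul]
  simp

/-- the embedding of the tensor product -/
noncomputable def ph0 (P c : Pl F K) : K ⊗[F] K →ₐ[F] M :=
  Algebra.TensorProduct.lift (be M c) (al M P) (fun _ _ => Commute.all _ _)

theorem ph0_tmul (P c : Pl F K) (b a : K) : ph0 M P c (b ⊗ₜ a) = be M c b * al M P a := by
  simp [ph0]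

theorem ph0_injective (P c : Pl F K) : Function.Injective (ph0 M P c) := by
  classical
  rw [injective_iff_map_eq_zero]
  intro t ht
  let b := Basis.ofVectorSpace F K
  obtain ⟨f, rfl⟩ := TensorProduct.eq_repr_basis_left b t
  -- common denominators
  obtain ⟨k, hk⟩ : ∃ k : ℕ, ∀ i ∈ f.support, P.v (f i * unif P ^ k) ≤ 1 := by
    refine ⟨f.support.sup (fun i => (log (P.v (f i))).toNat), fun i hi => ?_⟩
    obtain ⟨n, hn⟩ := exists_exp P (Finsupp.mem_support_iff.1 hi)
    have h1 := Finset.le_sup (f := fun i => (log (P.v (f i))).toNat) hi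
    rw [map_mul, map_pow, v_unif, hn, ← exp_nsmul, ← exp_add, ← exp_zero, exp_le_exp]
    simp only [hn, log_exp] at h1
    have h2 := Int.self_le_toNat n
    simp only [smul_eq_mul, nsmul_eq_mul]
    omega
  obtain ⟨l, hl⟩ : ∃ l : ℕ, ∀ i ∈ f.support, c.v (b i * unif c ^ l) ≤ 1 := by
    refine ⟨f.support.sup (fun i => (log (c.v (b i))).toNat), fun i hi => ?_⟩
    obtain ⟨n, hn⟩ := exists_exp c (b.ne_zero i)
    have h1 := Finset.le_sup (f := fun i => (log (c.v (b i))).toNat) hi
    rw [map_mul, map_pow, v_unif, hn, ← exp_nsmul, ← exp_add, ← exp_zero, exp_le_exp]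
    simp only [hn, log_exp] at h1
    have h2 := Int.self_le_toNat n
    simp only [smul_eq_mul, nsmul_eq_mul]
    omega
  let ga : _ → F⟦X⟧ := fun i => if h : P.v (f i * unif P ^ k) ≤ 1 then
    ex P ⟨_, mem_valSub.2 h⟩ else 0
  let ba : _ → F⟦X⟧ := fun i => if h : c.v (b i * unif c ^ l) ≤ 1 then
    ex c ⟨_, mem_valSub.2 h⟩ else 0
  have hga : ∀ i ∈ f.support, al M P (f i * unif P ^ k) =
      algebraMap _ M (PowerSeries.map C (ga i)) := by
    intro i hi
    unfold al
    rw [emb_of_le _ _ P (hk i hi), psA_apply]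
    simp only [ga]
    rw [dif_pos (hk i hi)]
  have hba : ∀ i ∈ f.support, be M c (b i * unif c ^ l) =
      algebraMap _ M ((C : F⟦X⟧ →+* (F⟦X⟧)⟦X⟧) (ba i)) := by
    intro i hi
    unfold be
    rw [emb_of_le _ _ c (hl i hi), psB_apply]
    simp only [ba]
    rw [dif_pos (hl i hi)]
  have hsum : ∑ i ∈ f.support, (C : F⟦X⟧ →+* (F⟦X⟧)⟦X⟧) (ba i) * PowerSeries.map C (ga i) = 0 := by
    apply IsFractionRing.injective ((F⟦X⟧)⟦X⟧) M
    rw [map_sum, map_zero]
    have h1 : ∑ i ∈ f.support, algebraMap _ M ((C : F⟦X⟧ →+* (F⟦X⟧)⟦X⟧) (ba i) *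
        PowerSeries.map C (ga i)) = (∑ i ∈ f.support, be M c (b i) * al M P (f i)) *
        (be M c (unif c) ^ l * al M P (unif P) ^ k) := by
      rw [Finset.sum_mul]
      refine Finset.sum_congr rfl fun i hi => ?_
      rw [map_mul, ← hga i hi, ← hba i hi, map_mul, map_mul, map_pow, map_pow]
      ring
    rw [h1]
    have h2 : ∑ i ∈ f.support, be M c (b i) * al M P (f i) = 0 := by
      rw [Finsupp.sum, map_sum] at ht
      simpa only [ph0_tmul] using ht
    rw [h2, zero_mul]
  have hcoef : ∀ n : ℕ, ∑ i ∈ f.support, (coeff n (ga i)) • ba i = 0 := by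
    intro n
    have h1 := congrArg (coeff n) hsum
    rw [map_sum, map_zero] at h1
    rw [← h1]
    refine Finset.sum_congr rfl fun i _ => ?_
    rw [coeff_C_mul, coeff_map, mul_comm, smul_eq_C_mul]
  have hlin : ∀ n : ℕ, ∀ i ∈ f.support, coeff n (ga i) = 0 := by
    intro n
    have h1 : ∑ i ∈ f.support, (coeff n (ga i)) • b i = 0 := by
      have h2 : be M c ((∑ i ∈ f.support, (coeff n (ga i)) • b i) * unif c ^ l) = 0 := by
        rw [Finset.sum_mul, map_sum]
        have h3 := congrArg (fun y => algebraMap ((F⟦X⟧)⟦X⟧) M (C y)) (hcoef n)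
        simp only [map_sum, map_zero] at h3
        rw [← h3]
        refine Finset.sum_congr rfl fun i hi => ?_
        rw [smul_mul_assoc, map_smul, hba i hi, smul_eq_C_mul, map_mul, map_mul, Algebra.smul_def,
          IsScalarTower.algebraMap_apply F ((F⟦X⟧)⟦X⟧) M, algC]
      rw [_root_.map_eq_zero, mul_eq_zero] at h2
      rcases h2 with h2 | h2
      · exact h2
      · exact absurd h2 (pow_ne_zero _ (unif_ne_zero c))
    exact linearIndependent_iff'.mp b.linearIndependent f.support _ h1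
  have hf : ∀ i ∈ f.support, f i = 0 := by
    intro i hi
    have h1 : ga i = 0 := by
      ext n
      rw [hlin n i hi, map_zero]
    have h2 := hga i hi
    rw [h1, map_zero, map_zero, _root_.map_eq_zero, mul_eq_zero] at h2
    rcases h2 with h2 | h2
    · exact h2
    · exact absurd h2 (pow_ne_zero _ (unif_ne_zero P))
  rw [Finsupp.sum]
  refine Finset.sum_eq_zero fun i hi => ?_
  rw [hf i hi, tmul_zero]

end Crest.Agent.R013.Tors5_235
end

-- ▼ part R013/Tors6_235
section

/-!
# Row 13, leaf TORS (helper235), part 6: the diagonal of `K ⊗ K`.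
-/

set_option autoImplicit false
set_option linter.all false

namespace Crest.Agent.R013.Tors6_235

open WithZero TensorProduct Module
open Crest.Agent.R013.RR7_948 Crest.Agent.R013.RR11_948 Crest.Agent.R013.CE1_280
open Crest.Agent.R013.RR8_948 Crest.Agent.R013.RR9_948
open Crest.Agent.R013.CE2_280 Crest.Agent.R013.CE3_280

variable (F K : Type*) [Field F] [IsAlgClosed F] [Field K] [Algebra F K]
  [Algebra (RatFunc F) K] [IsScalarTower F (RatFunc F) K] [FiniteDimensional (RatFunc F) K]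
  [Algebra.IsSeparable (RatFunc F) K]

/-- multiplication -/
noncomputable abbrev evd : K ⊗[F] K →ₐ[K] K := CE2_280.ev (AlgHom.id F K)

/-- `1 ⊗ x - x ⊗ 1` -/
noncomputable abbrev piD : K ⊗[F] K := piT F K (xK F K)

variable {F K}

omit [FiniteDimensional (RatFunc F) K] [Algebra.IsSeparable (RatFunc F) K] in
theorem ratFunc_mem (r : RatFunc F) :
    (1 ⊗ₜ algebraMap (RatFunc F) K r - algebraMap (RatFunc F) K r ⊗ₜ 1 : K ⊗[F] K) ∈
      Ideal.span {piD F K} := by
  have ht : Transcendental F (xK F K) := transcendental_x (AlgHom.id F K)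
  have h1 := ratFunc_congr (K := K) ht r
  rwa [← algHom_algebraMap (AlgHom.id F K) ht rfl r] at h1

theorem exists_diag : ∃ e : K ⊗[F] K, evd F K e = 1 ∧
    ∀ s : K, (1 ⊗ₜ s - s ⊗ₜ 1 : K ⊗[F] K) * e ∈ Ideal.span {piD F K} := by
  have hunr : Algebra.FormallyUnramified (RatFunc F) K :=
    Algebra.FormallyUnramified.of_isSeparable (RatFunc F) K
  obtain ⟨t₀, ht₀, ht₁⟩ :=
    (Algebra.FormallyUnramified.iff_exists_tensorProduct (R := RatFunc F) (S := K)).1 hunr
  let J : Ideal (K ⊗[F] K) := Ideal.span {piD F K}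
  let mk : K ⊗[F] K →+* (K ⊗[F] K) ⧸ J := Ideal.Quotient.mk J
  let iL : K →+* K ⊗[F] K := Algebra.TensorProduct.includeLeftRingHom
  let iR : K →+* K ⊗[F] K := (Algebra.TensorProduct.includeRight : K →ₐ[F] K ⊗[F] K).toRingHom
  have hL : ∀ r : RatFunc F, mk (iL (algebraMap (RatFunc F) K r)) =
      algebraMap (RatFunc F) ((K ⊗[F] K) ⧸ J) r := fun r => rfl
  have hR : ∀ r : RatFunc F, mk (iR (algebraMap (RatFunc F) K r)) =
      algebraMap (RatFunc F) ((K ⊗[F] K) ⧸ J) r := by
    intro r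
    rw [← hL]
    show Ideal.Quotient.mk J _ = Ideal.Quotient.mk J _
    rw [Ideal.Quotient.eq]
    exact ratFunc_mem r
  let fL : K →ₐ[RatFunc F] (K ⊗[F] K) ⧸ J := { toRingHom := mk.comp iL, commutes' := hL }
  let fR : K →ₐ[RatFunc F] (K ⊗[F] K) ⧸ J := { toRingHom := mk.comp iR, commutes' := hR }
  let θ : K ⊗[RatFunc F] K →ₐ[RatFunc F] (K ⊗[F] K) ⧸ J :=
    Algebra.TensorProduct.lift fL fR (fun _ _ => Commute.all _ _)
  have hθ : ∀ a b : K, θ (a ⊗ₜ b) = mk (a ⊗ₜ b) := by
    intro a b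
    simp only [θ, Algebra.TensorProduct.lift_tmul]
    show mk (iL a) * mk (iR b) = _
    rw [← map_mul]
    congr 1
    show (a ⊗ₜ[F] (1 : K)) * ((1 : K) ⊗ₜ[F] b) = a ⊗ₜ b
    rw [Algebra.TensorProduct.tmul_mul_tmul, one_mul, mul_one]
  obtain ⟨e, he⟩ := Ideal.Quotient.mk_surjective (θ t₀)
  -- evaluation on the quotient
  have hev0 : ∀ a ∈ J, (evd F K).toRingHom a = 0 := by
    intro a ha
    obtain ⟨c, rfl⟩ := Ideal.mem_span_singleton.1 ha
    show evd F K _ = 0
    rw [map_mul]
    have : evd F K (piD F K) = 0 := by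
      show CE2_280.ev _ _ = 0
      rw [ev_piT]
      exact sub_self _
    rw [this, zero_mul]
  let evq : (K ⊗[F] K) ⧸ J →+* K := Ideal.Quotient.lift J (evd F K).toRingHom hev0
  have hevq : ∀ t : K ⊗[RatFunc F] K, evq (θ t) = Algebra.TensorProduct.lmul' (RatFunc F) t := by
    intro t
    induction t with
    | zero => simp
    | add a b ha hb => rw [map_add, map_add, map_add, ha, hb]
    | tmul a b =>
      rw [hθ]
      show evd F K (a ⊗ₜ b) = _
      rw [Algebra.TensorProduct.lmul'_apply_tmul]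
      show CE2_280.ev _ _ = _
      rw [ev_tmul]
      rfl
  refine ⟨e, ?_, ?_⟩
  · have h1 := hevq t₀
    rw [← he, ht₁] at h1
    exact h1
  · intro s
    have h1 := congrArg θ (ht₀ s)
    rw [map_mul, map_sub, hθ, hθ, ← he, map_zero] at h1
    show _ ∈ J
    rw [← Ideal.Quotient.eq_zero_iff_mem, map_mul, map_sub]
    exact h1

/-- local equation of the diagonal -/
theorem exists_mul_eq {t : K ⊗[F] K} (ht : evd F K t = 0) :
    ∃ e t' : K ⊗[F] K, evd F K e = 1 ∧ e * t = piD F K * t' := by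
  obtain ⟨e, he, hs⟩ := exists_diag (F := F) (K := K)
  have key : ∀ t : K ⊗[F] K, (t - evd F K t ⊗ₜ 1) * e ∈ Ideal.span {piD F K} := by
    intro t
    induction t with
    | zero => simp
    | add a b ha hb =>
      rw [map_add, TensorProduct.add_tmul, add_sub_add_comm, add_mul]
      exact Ideal.add_mem _ ha hb
    | tmul a b =>
      have h1 : evd F K (a ⊗ₜ b) = a * b := by
        show CE2_280.ev _ _ = _
        rw [ev_tmul]
        rfl
      have h2 : (a ⊗ₜ b - evd F K (a ⊗ₜ b) ⊗ₜ 1 : K ⊗[F] K) =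
          (a ⊗ₜ 1) * (1 ⊗ₜ b - b ⊗ₜ 1) := by
        rw [h1, mul_sub, Algebra.TensorProduct.tmul_mul_tmul, Algebra.TensorProduct.tmul_mul_tmul,
          one_mul, mul_one, mul_one]
      rw [h2, mul_assoc]
      exact Ideal.mul_mem_left _ _ (hs b)
  have h1 := key t
  rw [ht, TensorProduct.zero_tmul, sub_zero, Ideal.mem_span_singleton] at h1
  obtain ⟨t', ht'⟩ := h1
  exact ⟨e, t', he, by rw [mul_comm, ht']⟩

end Crest.Agent.R013.Tors6_235
end

-- ▼ part R013/Tors7_235
section

/-!
# Row 13, leaf TORS (helper235), part 7: leading coefficients of functions on the product along the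
diagonal, along `P × C`, and uniqueness of the vertical valuation.
-/

set_option autoImplicit false
set_option linter.all false

namespace Crest.Agent.R013.Tors7_235

open WithZero TensorProduct Module
open Crest.Agent.R013.RR7_948 Crest.Agent.R013.RR11_948 Crest.Agent.R013.CE1_280
open Crest.Agent.R013.RR8_948 Crest.Agent.R013.RR9_948 Crest.Agent.R013.RR14_948
open Crest.Agent.R013.CE2_280 Crest.Agent.R013.CE3_280 Crest.Agent.R013.Tors6_235

section Gen

variable {L : Type*} [Field L] (w : Valuation L ℤᵐ⁰)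

theorem eq_one_of_sub_lt {x y : L} (h : w (x - y) < 1) (hy : w y = 1) : w x = 1 := by
  have h2 := Valuation.map_add_eq_of_lt_right (v := w) (x := x - y) (y := y) (by rw [hy]; exact h)
  rwa [sub_add_cancel, hy] at h2

theorem mul_sub_lt {x y x' y' : L} (h : w (x - x') < 1) (h' : w (y - y') < 1) (hy : w y ≤ 1)
    (hx : w x' ≤ 1) : w (x * y - x' * y') < 1 := by
  have e : x * y - x' * y' = (x - x') * y + x' * (y - y') := by ring
  rw [e]
  refine lt_of_le_of_lt (Valuation.map_add _ _ _) (max_lt ?_ ?_)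
  · rw [map_mul]
    calc _ ≤ w (x - x') * 1 := mul_le_mul_right hy _
      _ < 1 := by rw [mul_one]; exact h
  · rw [map_mul]
    calc _ ≤ 1 * w (y - y') := mul_le_mul_left hx _
      _ < 1 := by rw [one_mul]; exact h'

theorem div_sub_lt {x y x' y' : L} (h : w (x - x') < 1) (h' : w (y - y') < 1) (hy : w y' = 1)
    (hx : w x' = 1) : w (x / y - x' / y') < 1 := by
  have hyy := eq_one_of_sub_lt w h' hy
  have hxx := eq_one_of_sub_lt w h hx
  have hy0 : y ≠ 0 := by rintro rfl; simp at hyy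
  have hy0' : y' ≠ 0 := by rintro rfl; simp at hy
  have e : x / y - x' / y' = ((x - x') * y' - x' * (y - y')) / (y * y') := by
    field_simp
    ring
  rw [e, map_div₀, map_mul, hyy, hy, mul_one, div_one]
  refine lt_of_le_of_lt (Valuation.map_sub _ _ _) (max_lt ?_ ?_)
  · rw [map_mul, hy, mul_one]; exact h
  · rw [map_mul, hx, one_mul]; exact h'

end Gen

variable {F K : Type*} [Field F] [IsAlgClosed F] [Field K] [Algebra F K]
  [Algebra (RatFunc F) K] [IsScalarTower F (RatFunc F) K] [FiniteDimensional (RatFunc F) K]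
  [Algebra.IsSeparable (RatFunc F) K]
  {L : Type*} [Field L] [Algebra K L] [Algebra F L] [IsScalarTower F K L]
  {ι : K →ₐ[F] L}

/-- valuations of `L` centred on the diagonal -/
def AtQ (ι : K →ₐ[F] L) (w : Valuation L ℤᵐ⁰) : Prop :=
  (∀ b : K, b ≠ 0 → w (algebraMap K L b) = 1) ∧ ∀ f : K, w (ι f - algebraMap K L f) < 1

/-- valuations of `L` centred on `P × C` -/
def OverP (ι : K →ₐ[F] L) (P : Pl F K) (w : Valuation L ℤᵐ⁰) : Prop :=
  (∀ b : K, b ≠ 0 → w (algebraMap K L b) = 1) ∧ (∀ f : K, P.v f ≤ 1 → w (ι f) ≤ 1) ∧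
    ∀ f : K, P.v f < 1 → w (ι f) < 1

theorem cle {w : Valuation L ℤᵐ⁰} (hw : ∀ b : K, b ≠ 0 → w (algebraMap K L b) = 1) (b : K) :
    w (algebraMap K L b) ≤ 1 := by
  by_cases hb : b = 0
  · simp [hb]
  · exact (hw b hb).le

theorem clt {w : Valuation L ℤᵐ⁰} (hw : ∀ b : K, b ≠ 0 → w (algebraMap K L b) = 1) {b : K}
    (h : w (algebraMap K L b) < 1) : b = 0 := by
  by_contra hb
  rw [hw b hb] at h
  exact lt_irrefl _ h

theorem evd_tmul (a b : K) : evd F K (a ⊗ₜ b) = a * b := by
  show CE2_280.ev _ _ = _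
  rw [ev_tmul]
  rfl

section Q

variable {w : Valuation L ℤᵐ⁰}

theorem AtQ.ev (h : AtQ ι w) (t : K ⊗[F] K) :
    w (mu ι t - algebraMap K L (evd F K t)) < 1 := by
  induction t with
  | zero => simp
  | add t t' h h' =>
    rw [map_add, map_add, map_add, add_sub_add_comm]
    exact lt_of_le_of_lt (Valuation.map_add _ _ _) (max_lt h h')
  | tmul c f =>
    rw [mu_tmul, evd_tmul, map_mul, ← mul_sub, map_mul]
    calc _ ≤ 1 * w (ι f - algebraMap K L f) :=
          mul_le_mul_left (cle h.1 c) _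
      _ < 1 := by rw [one_mul]; exact h.2 f

theorem AtQ.le_one (h : AtQ ι w) (t : K ⊗[F] K) : w (mu ι t) ≤ 1 := by
  have h1 : mu ι t = (mu ι t - algebraMap K L (evd F K t)) +
      algebraMap K L (evd F K t) := by ring
  rw [h1]
  exact (Valuation.map_add _ _ _).trans (max_le (h.ev t).le (cle h.1 _))

theorem AtQ.lt_one_iff (h : AtQ ι w) (t : K ⊗[F] K) :
    w (mu ι t) < 1 ↔ evd F K t = 0 := by
  constructor
  · intro h1
    apply clt h.1
    have h2 : algebraMap K L (evd F K t) =
        mu ι t - (mu ι t - algebraMap K L (evd F K t)) := by ring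
    rw [h2]
    exact lt_of_le_of_lt (Valuation.map_sub _ _ _) (max_lt h1 (h.ev t))
  · intro h1
    have := h.ev t
    rwa [h1, map_zero, sub_zero] at this

theorem AtQ.eq_one (h : AtQ ι w) {t : K ⊗[F] K} (ht : evd F K t ≠ 0) :
    w (mu ι t) = 1 :=
  le_antisymm (h.le_one t) (not_lt.mp fun h1 => ht ((h.lt_one_iff t).mp h1))

theorem evd_piD : evd F K (piD F K) = 0 := by
  show CE2_280.ev _ _ = 0
  rw [ev_piT]
  exact sub_self _

theorem AtQ.pi_le (h : AtQ ι w) : w (mu ι (piD F K)) ≤ exp (-1) := by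
  rw [← lt_one_iff_le, h.lt_one_iff, evd_piD]


theorem AtQ.exists_form_aux (hι : IsCE K ι) (h : AtQ ι w) (m : ℕ) :
    ∀ t : K ⊗[F] K, t ≠ 0 → exp (-(m : ℤ)) ≤ w (mu ι t) →
    ∃ (k : ℕ) (e t' : K ⊗[F] K), evd F K e ≠ 0 ∧ evd F K t' ≠ 0 ∧
      e * t = piD F K ^ k * t' := by
  induction m with
  | zero =>
    intro t ht hm
    refine ⟨0, 1, t, by rw [map_one]; exact one_ne_zero, ?_, by simp⟩
    intro h0
    rw [← h.lt_one_iff] at h0
    simp at hm
    exact absurd h0 (not_lt.mpr hm)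
  | succ m ih =>
    intro t ht hm
    by_cases h0 : evd F K t = 0
    · obtain ⟨e, t', he, het⟩ := Tors6_235.exists_mul_eq h0
      have he0 : e ≠ 0 := by
        rintro rfl
        rw [map_zero] at he
        exact zero_ne_one he
      have ht' : t' ≠ 0 := by
        rintro rfl
        rw [mul_zero] at het
        exact (mul_ne_zero he0 ht) het
      have h1 := congrArg (fun s => w (mu ι s)) het
      simp only [map_mul] at h1
      rw [h.eq_one (by rw [he]; exact one_ne_zero), one_mul] at h1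
      obtain ⟨k, e', t'', he', ht'', heq⟩ := ih t' ht' (by
        have h2 : exp (-((m + 1 : ℕ) : ℤ)) ≤ exp (-1) * w (mu ι t') := by
          refine hm.trans ?_
          rw [h1]
          exact mul_le_mul_left h.pi_le _
        have h3 : exp (-((m + 1 : ℕ) : ℤ)) = exp (-1) * exp (-(m : ℤ)) := by
          rw [← exp_add]; congr 1; push_cast; ring
        rw [h3] at h2
        exact (mul_le_mul_iff_right₀ (by simp)).mp h2)
      refine ⟨k + 1, e' * e, t'', ?_, ht'', ?_⟩
      · rw [map_mul, he, mul_one]; exact he'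
      · rw [mul_assoc, het, pow_succ, mul_assoc, mul_left_comm, heq]
        ring
    · exact ⟨0, 1, t, by rw [map_one]; exact one_ne_zero, h0, by simp⟩

theorem AtQ.exists_form_T (hι : IsCE K ι) (h : AtQ ι w) {t : K ⊗[F] K} (ht : t ≠ 0) :
    ∃ (k : ℕ) (e t' : K ⊗[F] K), evd F K e ≠ 0 ∧ evd F K t' ≠ 0 ∧
      e * t = piD F K ^ k * t' := by
  have h1 : w (mu ι t) ≠ 0 := (Valuation.ne_zero_iff _).mpr (hι.ne_zero ht)
  refine h.exists_form_aux hι (-log (w (mu ι t))).toNat t ht ?_
  conv_rhs => rw [← exp_log h1]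
  rw [exp_le_exp]
  have h2 := Int.self_le_toNat (-log (w (mu ι t)))
  omega

/-- local form of an element of `L` along the diagonal -/
theorem AtQ.exists_form (hι : IsCE K ι) (h : AtQ ι w) {f : L} (hf : f ≠ 0) :
    ∃ (k : ℤ) (u₁ u₂ : K ⊗[F] K), evd F K u₁ ≠ 0 ∧ evd F K u₂ ≠ 0 ∧
      f * mu ι u₂ = mu ι (piD F K) ^ k * mu ι u₁ := by
  obtain ⟨a, b, hb, hab⟩ := hι.frac f
  have ha : a ≠ 0 := by
    rintro rfl
    rw [map_zero] at hab
    exact (mul_ne_zero hf (hι.ne_zero hb)) hab
  obtain ⟨k, e, t, he, ht, heq⟩ := h.exists_form_T hι ha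
  obtain ⟨k', e', t', he', ht', heq'⟩ := h.exists_form_T hι hb
  have hpi : mu ι (piD F K) ≠ 0 := hι.ne_zero (piT_ne_zero _)
  refine ⟨(k : ℤ) - k', t * e', e * t', ?_, ?_, ?_⟩
  · rw [map_mul]; exact mul_ne_zero ht he'
  · rw [map_mul]; exact mul_ne_zero he ht'
  · have h1 := congrArg (mu ι) heq
    have h2 := congrArg (mu ι) heq'
    rw [map_mul, map_mul, map_pow] at h1 h2
    have h3 : mu ι b ≠ 0 := hι.ne_zero hb
    have hpk : mu ι (piD F K) ^ k' ≠ 0 := pow_ne_zero _ hpi
    rw [zpow_sub₀ hpi, zpow_natCast, zpow_natCast, map_mul, map_mul]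
    rw [div_mul_eq_mul_div, eq_div_iff hpk]
    apply mul_right_cancel₀ h3
    calc f * (mu ι e * mu ι t') * mu ι (piD F K) ^ k' * mu ι b
        = (f * mu ι b) * mu ι e * (mu ι (piD F K) ^ k' * mu ι t') := by ring
      _ = mu ι a * mu ι e * (mu ι e' * mu ι b) := by rw [hab, h2]
      _ = (mu ι e * mu ι a) * mu ι e' * mu ι b := by ring
      _ = _ := by rw [h1]; ring

theorem mu_piD : mu (Ω := K) ι (piD F K) = ι (xK F K) - algebraMap K L (xK F K) := by
  show mu (Ω := K) ι (1 ⊗ₜ xK F K - xK F K ⊗ₜ 1) = _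
  rw [map_sub, mu_tmul, mu_tmul, map_one, map_one, one_mul, mul_one]

/-- the leading coefficient along the diagonal -/
theorem lead_Q (hι : IsCE K ι) (h : AtQ ι w) {f : L} (hf : f ≠ 0) :
    ∃ (k : ℤ) (r : K), r ≠ 0 ∧ ∀ w : Valuation L ℤᵐ⁰, AtQ ι w →
      w (f / (ι (xK F K) - algebraMap K L (xK F K)) ^ k - algebraMap K L r) < 1 := by
  obtain ⟨k, u₁, u₂, h₁, h₂, heq⟩ := h.exists_form hι hf
  refine ⟨k, evd F K u₁ / evd F K u₂, div_ne_zero h₁ h₂, fun w hw => ?_⟩
  have hpi : mu ι (piD F K) ≠ 0 := hι.ne_zero (piT_ne_zero _)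
  have hu₂ : mu ι u₂ ≠ 0 := by
    intro h0
    have := hw.eq_one h₂
    rw [h0, map_zero] at this
    exact zero_ne_one this
  rw [← mu_piD]
  have e : f / mu ι (piD F K) ^ k = mu ι u₁ / mu ι u₂ := by
    rw [div_eq_div_iff (zpow_ne_zero _ hpi) hu₂, heq]
    ring
  rw [e, map_div₀]
  exact div_sub_lt w (hw.ev u₁) (hw.ev u₂) (hw.1 _ h₂) (hw.1 _ h₁)

end Q

section Der

variable {w : Valuation L ℤᵐ⁰}

theorem exists_der (hι : IsCE K ι) (h : AtQ ι w) (f : K) :
    ∃ d : K, ∀ w : Valuation L ℤᵐ⁰, AtQ ι w →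
      w ((ι f - algebraMap K L f) / (ι (xK F K) - algebraMap K L (xK F K)) -
        algebraMap K L d) < 1 := by
  by_cases hf : ι f - algebraMap K L f = 0
  · exact ⟨0, fun w _ => by rw [hf]; simp⟩
  obtain ⟨k, r, hr, hk⟩ := lead_Q hι h hf
  have hpi : ι (xK F K) - algebraMap K L (xK F K) ≠ 0 := by
    rw [← mu_piD]; exact hι.ne_zero (piT_ne_zero _)
  have hk1 : 1 ≤ k := by
    have h1 := eq_one_of_sub_lt w (hk w h) (h.1 r hr)
    have h2 := h.2 f
    have h3 := h.2 (xK F K)
    rw [map_div₀, map_zpow₀] at h1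
    by_contra hcon
    push Not at hcon
    have hw0 : 0 < w (ι (xK F K) - algebraMap K L (xK F K)) := (Valuation.pos_iff w).2 hpi
    have h4 : 1 ≤ w (ι (xK F K) - algebraMap K L (xK F K)) ^ k := by
      obtain ⟨m, rfl⟩ : ∃ m : ℕ, k = -(m : ℤ) := ⟨(-k).toNat, by omega⟩
      rw [zpow_neg, zpow_natCast]
      exact (one_le_inv₀ (pow_pos hw0 m)).2 (pow_le_one₀ zero_le h3.le)
    have h5 : w (ι f - algebraMap K L f) = w (ι (xK F K) - algebraMap K L (xK F K)) ^ k := by
      rwa [div_eq_one_iff_eq (ne_of_gt (lt_of_lt_of_le zero_lt_one h4))] at h1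
    rw [h5] at h2
    exact absurd h4 (not_le.2 h2)
  rcases eq_or_lt_of_le hk1 with hk2 | hk2
  · refine ⟨r, fun w hw => ?_⟩
    have := hk w hw
    rwa [← hk2, zpow_one] at this
  · refine ⟨0, fun w hw => ?_⟩
    rw [map_zero, sub_zero]
    have h1 := eq_one_of_sub_lt w (hk w hw) (hw.1 r hr)
    have e : (ι f - algebraMap K L f) / (ι (xK F K) - algebraMap K L (xK F K)) =
        ((ι f - algebraMap K L f) / (ι (xK F K) - algebraMap K L (xK F K)) ^ k) *
          (ι (xK F K) - algebraMap K L (xK F K)) ^ (k - 1) := by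
      rw [zpow_sub_one₀ hpi, div_mul_eq_mul_div, eq_div_iff (zpow_ne_zero _ hpi), div_eq_mul_inv]
      ring
    rw [e, map_mul, h1, one_mul, map_zpow₀]
    obtain ⟨m, hm⟩ : ∃ m : ℕ, k - 1 = (m + 1 : ℕ) := ⟨(k - 2).toNat, by omega⟩
    rw [hm, zpow_natCast, pow_succ]
    calc _ ≤ 1 * w (ι (xK F K) - algebraMap K L (xK F K)) :=
          mul_le_mul_left (pow_le_one₀ zero_le (hw.2 _).le) _
      _ < 1 := by rw [one_mul]; exact hw.2 _

theorem der_unique (h : AtQ ι w) {y : L} {d d' : K} (h1 : w (y - algebraMap K L d) < 1)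
    (h2 : w (y - algebraMap K L d') < 1) : d = d' := by
  have h3 : w (algebraMap K L (d - d')) < 1 := by
    have : algebraMap K L (d - d') = (y - algebraMap K L d') - (y - algebraMap K L d) := by
      rw [map_sub]; ring
    rw [this]
    exact lt_of_le_of_lt (Valuation.map_sub _ _ _) (max_lt h2 h1)
  exact sub_eq_zero.1 (clt h.1 h3)

/-- **the derivative is the leading coefficient of `f(s) - f(t)`** -/
theorem del_rel (hι : IsCE K ι) (h : AtQ ι w) (f : K) (w' : Valuation L ℤᵐ⁰) (hw' : AtQ ι w') :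
    w' ((ι f - algebraMap K L f) / (ι (xK F K) - algebraMap K L (xK F K)) -
        algebraMap K L (del F K f)) < 1 := by
  choose d hd using exists_der hι h
  have hpi : ι (xK F K) - algebraMap K L (xK F K) ≠ 0 := by
    rw [← mu_piD]; exact hι.ne_zero (piT_ne_zero _)
  have huniq : ∀ f c, w ((ι f - algebraMap K L f) / (ι (xK F K) - algebraMap K L (xK F K)) -
        algebraMap K L c) < 1 → d f = c := fun f c hc => der_unique h (hd f w h) hc
  let D : Derivation F K K := Derivation.mk'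
    { toFun := d
      map_add' := by
        intro f g
        apply huniq
        have e : (ι (f + g) - algebraMap K L (f + g)) / (ι (xK F K) - algebraMap K L (xK F K)) -
            algebraMap K L (d f + d g) =
            ((ι f - algebraMap K L f) / (ι (xK F K) - algebraMap K L (xK F K)) -
              algebraMap K L (d f)) +
            ((ι g - algebraMap K L g) / (ι (xK F K) - algebraMap K L (xK F K)) -
              algebraMap K L (d g)) := by
          rw [map_add, map_add, map_add]; ring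
        rw [e]
        exact lt_of_le_of_lt (Valuation.map_add _ _ _) (max_lt (hd f w h) (hd g w h))
      map_smul' := by
        intro c f
        apply huniq
        have e : (ι (c • f) - algebraMap K L (c • f)) / (ι (xK F K) - algebraMap K L (xK F K)) -
            algebraMap K L (c • d f) = algebraMap K L (algebraMap F K c) *
            ((ι f - algebraMap K L f) / (ι (xK F K) - algebraMap K L (xK F K)) -
              algebraMap K L (d f)) := by
          rw [Algebra.smul_def, Algebra.smul_def, map_mul, map_mul, map_mul, AlgHom.commutes,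
            IsScalarTower.algebraMap_apply F K L]
          ring
        show w ((ι (c • f) - algebraMap K L (c • f)) / (ι (xK F K) - algebraMap K L (xK F K)) -
            algebraMap K L (c • d f)) < 1
        rw [e, map_mul]
        calc _ ≤ 1 * w ((ι f - algebraMap K L f) / (ι (xK F K) - algebraMap K L (xK F K)) -
              algebraMap K L (d f)) := mul_le_mul_left (cle h.1 _) _
          _ < 1 := by rw [one_mul]; exact hd f w h }
    (by
      intro f g
      show d (f * g) = f • d g + g • d f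
      apply huniq
      have e : (ι (f * g) - algebraMap K L (f * g)) / (ι (xK F K) - algebraMap K L (xK F K)) -
            algebraMap K L (f • d g + g • d f) =
            (ι f * ((ι g - algebraMap K L g) / (ι (xK F K) - algebraMap K L (xK F K))) -
              algebraMap K L f * algebraMap K L (d g)) +
            (((ι f - algebraMap K L f) / (ι (xK F K) - algebraMap K L (xK F K))) *
              algebraMap K L g - algebraMap K L (d f) * algebraMap K L g) := by
          rw [smul_eq_mul, smul_eq_mul, map_add, map_mul, map_mul, map_mul, map_mul]; ring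
      rw [e]
      have hle : ∀ f, w ((ι f - algebraMap K L f) / (ι (xK F K) - algebraMap K L (xK F K))) ≤ 1 := by
        intro f
        have h1 : (ι f - algebraMap K L f) / (ι (xK F K) - algebraMap K L (xK F K)) =
          ((ι f - algebraMap K L f) / (ι (xK F K) - algebraMap K L (xK F K)) -
            algebraMap K L (d f)) + algebraMap K L (d f) := by ring
        rw [h1]
        exact (Valuation.map_add _ _ _).trans (max_le (hd f w h).le (cle h.1 _))
      refine lt_of_le_of_lt (Valuation.map_add _ _ _) (max_lt ?_ ?_)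
      · exact mul_sub_lt w (h.2 f) (hd g w h) (hle g) (cle h.1 _)
      · rw [← sub_mul, map_mul]
        calc _ ≤ w ((ι f - algebraMap K L f) / (ι (xK F K) - algebraMap K L (xK F K)) -
              algebraMap K L (d f)) * 1 := mul_le_mul_right (cle h.1 _) _
          _ < 1 := by rw [mul_one]; exact hd f w h)
  have hDx : D (xK F K) = 1 := by
    show d (xK F K) = 1
    apply huniq
    rw [div_self hpi, map_one, sub_self, map_zero]
    exact zero_lt_one
  have hD : ∀ f, D f = del F K f := by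
    intro f
    have h1 := congrArg D.liftKaehlerDifferential (D_eq F K f)
    rw [Derivation.liftKaehlerDifferential_comp_D, map_smul,
      Derivation.liftKaehlerDifferential_comp_D, hDx, smul_eq_mul, mul_one] at h1
    exact h1
  have := hd f w' hw'
  rw [← hD f]
  exact this

end Der

end Crest.Agent.R013.Tors7_235
end

-- ▼ part R013/Tors8_235
section

/-!
# Row 13, leaf TORS (helper235), part 8: leading coefficients along `P × C` and uniqueness of the
vertical valuations.
-/

set_option autoImplicit false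
set_option linter.all false

namespace Crest.Agent.R013.Tors8_235

open WithZero TensorProduct Module
open Crest.Agent.R013.RR7_948 Crest.Agent.R013.RR11_948 Crest.Agent.R013.CE1_280
open Crest.Agent.R013.RR8_948 Crest.Agent.R013.RR9_948 Crest.Agent.R013.RR14_948
open Crest.Agent.R013.CE2_280 Crest.Agent.R013.CE3_280 Crest.Agent.R013.Tors6_235
open Crest.Agent.R013.Tors7_235

variable {F K : Type*} [Field F] [IsAlgClosed F] [Field K] [Algebra F K]
  [Algebra (RatFunc F) K] [IsScalarTower F (RatFunc F) K] [FiniteDimensional (RatFunc F) K]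
  [Algebra.IsSeparable (RatFunc F) K]
  {L : Type*} [Field L] [Algebra K L] [Algebra F L] [IsScalarTower F K L]
  {ι : K →ₐ[F] L}

theorem lead_P_T (P : Pl F K) {u : K} (hu : P.v u = exp (-1)) {t : K ⊗[F] K} (ht : t ≠ 0) :
    ∃ (n : ℤ) (r : K), r ≠ 0 ∧ ∀ w : Valuation L ℤᵐ⁰, OverP ι P w →
      w (mu ι t * ι u ^ n - algebraMap K L r) < 1 := by
  classical
  let b := Basis.ofVectorSpace F K
  obtain ⟨c, rfl⟩ := TensorProduct.eq_repr_basis_left b t
  obtain ⟨n, i₀, hi₀, hle⟩ := exists_max P (c := c) (by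
    rintro rfl; exact ht (by simp))
  have hu0 : u ≠ 0 := by
    rintro rfl; rw [map_zero] at hu; exact exp_ne_zero hu.symm
  have hg : ∀ i, P.v (c i * u ^ n) ≤ 1 := by
    intro i
    rw [map_mul, map_zpow₀, hu, ← exp_zsmul]
    calc _ ≤ exp n * exp (n • (-1)) := mul_le_mul_left (hle i) _
      _ = 1 := by rw [← exp_add]; simp
  choose r hr using fun i => exists_residue P (hg i)
  have hr0 : r i₀ ≠ 0 := by
    intro h0
    have h1 := hr i₀
    rw [h0, map_zero, sub_zero, map_mul, map_zpow₀, hi₀, hu, ← exp_zsmul, ← exp_add] at h1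
    simp at h1
  have hsum : (∑ i ∈ c.support, r i • b i) ≠ 0 := by
    intro h0
    have h1 := linearIndependent_iff'.mp b.linearIndependent c.support r h0 i₀ (by
      rw [Finsupp.mem_support_iff]
      intro h2
      rw [h2, map_zero] at hi₀
      exact exp_ne_zero hi₀.symm)
    exact hr0 h1
  refine ⟨n, ∑ i ∈ c.support, r i • b i, hsum, fun w hw => ?_⟩
  have hdiff : mu ι (c.sum fun i f => b i ⊗ₜ f) * ι u ^ n -
      algebraMap K L (∑ i ∈ c.support, r i • b i) =
      ∑ i ∈ c.support, algebraMap K L (b i) * ι (c i * u ^ n - algebraMap F K (r i)) := by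
    rw [Finsupp.sum, map_sum, Finset.sum_mul, map_sum, ← Finset.sum_sub_distrib]
    refine Finset.sum_congr rfl fun i _ => ?_
    rw [mu_tmul, map_sub, map_mul, map_zpow₀, AlgHom.commutes, Algebra.smul_def, map_mul,
      ← IsScalarTower.algebraMap_apply]
    ring
  rw [hdiff]
  refine Valuation.map_sum_lt _ one_ne_zero fun i _ => ?_
  rw [map_mul]
  calc _ ≤ 1 * w (ι (c i * u ^ n - algebraMap F K (r i))) :=
        mul_le_mul_left (cle hw.1 _) _
    _ < 1 := by rw [one_mul]; exact hw.2.2 _ (hr i)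

/-- the leading coefficient along `P × C` -/
theorem lead_P (hι : IsCE K ι) (P : Pl F K) {u : K} (hu : P.v u = exp (-1)) {f : L} (hf : f ≠ 0) :
    ∃ (k : ℤ) (r : K), r ≠ 0 ∧ ∀ w : Valuation L ℤᵐ⁰, OverP ι P w →
      w (f / ι u ^ k - algebraMap K L r) < 1 := by
  obtain ⟨a, b, hb, hab⟩ := hι.frac f
  have ha : a ≠ 0 := by
    rintro rfl
    rw [map_zero] at hab
    exact (mul_ne_zero hf (hι.ne_zero hb)) hab
  have hu0 : ι u ≠ 0 := by
    intro h0
    rw [_root_.map_eq_zero] at h0
    rw [h0, map_zero] at hu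
    exact exp_ne_zero hu.symm
  obtain ⟨n, r, hr, hn⟩ := lead_P_T (ι := ι) P hu ha
  obtain ⟨m, s, hs, hm⟩ := lead_P_T (ι := ι) P hu hb
  refine ⟨m - n, r / s, div_ne_zero hr hs, fun w hw => ?_⟩
  have hb' : mu ι b ≠ 0 := hι.ne_zero hb
  have e : f / ι u ^ (m - n) = (mu ι a * ι u ^ n) / (mu ι b * ι u ^ m) := by
    rw [div_eq_div_iff (zpow_ne_zero _ hu0) (mul_ne_zero hb' (zpow_ne_zero _ hu0)), ← hab,
      zpow_sub₀ hu0]
    field_simp
  rw [e, map_div₀]
  exact div_sub_lt w (hn w hw) (hm w hw) (hw.1 _ hs) (hw.1 _ hr)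

/-- vertical valuations -/
def Vert (ι : K →ₐ[F] L) (c : Pl F K) (w : Valuation L ℤᵐ⁰) : Prop :=
  (∀ b : K, w (algebraMap K L b) = c.v b) ∧ ∀ f : K, f ≠ 0 → w (ι f) = 1

theorem Vert.gauss {c : Pl F K} {w : Valuation L ℤᵐ⁰} (hw : Vert ι c w) {κ : Type*}
    (b : Basis κ F K) (a : κ →₀ K) (n : ℤ) (hle : ∀ i, c.v (a i) ≤ exp n) {i₀ : κ}
    (hi₀ : c.v (a i₀) = exp n) :
    w (mu ι (a.sum fun i f => f ⊗ₜ b i)) = exp n := by
  classical
  obtain ⟨u, hu⟩ := c.surj (exp (-1))
  have hu0 : u ≠ 0 := by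
    rintro rfl; rw [map_zero] at hu; exact exp_ne_zero hu.symm
  have hg : ∀ i, c.v (a i * u ^ n) ≤ 1 := by
    intro i
    rw [map_mul, map_zpow₀, hu, ← exp_zsmul]
    calc _ ≤ exp n * exp (n • (-1)) := mul_le_mul_left (hle i) _
      _ = 1 := by rw [← exp_add]; simp
  choose r hr using fun i => exists_residue c (hg i)
  have hr0 : r i₀ ≠ 0 := by
    intro h0
    have h1 := hr i₀
    rw [h0, map_zero, sub_zero, map_mul, map_zpow₀, hi₀, hu, ← exp_zsmul, ← exp_add] at h1
    simp at h1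
  have hsum : (∑ i ∈ a.support, r i • b i) ≠ 0 := by
    intro h0
    have h1 := linearIndependent_iff'.mp b.linearIndependent a.support r h0 i₀ (by
      rw [Finsupp.mem_support_iff]
      intro h2
      rw [h2, map_zero] at hi₀
      exact exp_ne_zero hi₀.symm)
    exact hr0 h1
  have hιle : ∀ f : K, w (ι f) ≤ 1 := by
    intro f
    by_cases hf : f = 0
    · simp [hf]
    · exact (hw.2 f hf).le
  have hdiff : mu ι (a.sum fun i f => f ⊗ₜ b i) * algebraMap K L u ^ n -
      ι (∑ i ∈ a.support, r i • b i) =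
      ∑ i ∈ a.support, algebraMap K L (a i * u ^ n - algebraMap F K (r i)) * ι (b i) := by
    rw [Finsupp.sum, map_sum, Finset.sum_mul, map_sum, ← Finset.sum_sub_distrib]
    refine Finset.sum_congr rfl fun i _ => ?_
    rw [mu_tmul, map_sub, map_mul, map_zpow₀, Algebra.smul_def, map_mul, AlgHom.commutes,
      ← IsScalarTower.algebraMap_apply]
    ring
  have h1 : w (mu ι (a.sum fun i f => f ⊗ₜ b i) * algebraMap K L u ^ n) = 1 := by
    apply eq_one_of_sub_lt w (y := ι (∑ i ∈ a.support, r i • b i))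
    · rw [hdiff]
      refine Valuation.map_sum_lt _ one_ne_zero fun i _ => ?_
      rw [map_mul, hw.1]
      calc _ ≤ c.v (a i * u ^ n - algebraMap F K (r i)) * 1 := mul_le_mul_right (hιle _) _
        _ < 1 := by rw [mul_one]; exact hr i
    · exact hw.2 _ hsum
  rw [map_mul, map_zpow₀, hw.1, hu, ← exp_zsmul] at h1
  have h2 := eq_inv_of_mul_eq_one_left h1
  rw [h2, ← exp_neg]
  simp

/-- **uniqueness of the vertical valuation** -/
theorem Vert.unique (hι : IsCE K ι) {c : Pl F K} {w w' : Valuation L ℤᵐ⁰} (hw : Vert ι c w)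
    (hw' : Vert ι c w') (f : L) : w f = w' f := by
  classical
  let b := Basis.ofVectorSpace F K
  have key : ∀ t : K ⊗[F] K, w (mu ι t) = w' (mu ι t) := by
    intro t
    by_cases ht : t = 0
    · simp [ht]
    · obtain ⟨a, rfl⟩ := TensorProduct.eq_repr_basis_right b t
      obtain ⟨n, i₀, hi₀, hle⟩ := exists_max c (c := a) (by
        rintro rfl; exact ht (by simp))
      rw [hw.gauss b a n hle hi₀, hw'.gauss b a n hle hi₀]
  obtain ⟨x, y, hy, hxy⟩ := hι.frac f
  have hy' : mu ι y ≠ 0 := hι.ne_zero hy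
  have e : f = mu ι x / mu ι y := by
    rw [eq_div_iff hy']; exact hxy
  rw [e, map_div₀, map_div₀, key, key]

end Crest.Agent.R013.Tors8_235
end

-- ▼ part R013/Tors9_235
section

/-!
# Row 13, leaf TORS (helper235), part 9: the embeddings of `L` at the points of the surface `C × C`
and the valuations which they induce.
-/

set_option autoImplicit false
set_option linter.all false

namespace Crest.Agent.R013.Tors9_235

open WithZero PowerSeries TensorProduct Module
open Crest.Agent.R013.RR7_948 Crest.Agent.R013.RR11_948 Crest.Agent.R013.CE1_280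
open Crest.Agent.R013.RR8_948 Crest.Agent.R013.RR9_948 Crest.Agent.R013.RR12_948
open Crest.Agent.R013.CE3_280
open Crest.Agent.R013.Tors1_235 Crest.Agent.R013.Tors2_235 Crest.Agent.R013.Tors3_235
open Crest.Agent.R013.Tors4_235 Crest.Agent.R013.Tors5_235 Crest.Agent.R013.Tors7_235
open Crest.Agent.R013.Tors8_235

variable {F K : Type*} [Field F] [IsAlgClosed F] [Field K] [Algebra F K]
  [Algebra (RatFunc F) K] [IsScalarTower F (RatFunc F) K] [FiniteDimensional (RatFunc F) K]
  [Algebra.IsSeparable (RatFunc F) K]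
variable (M : Type*) [Field M] [Algebra F M] [Algebra ((F⟦X⟧)⟦X⟧) M]
  [IsScalarTower F ((F⟦X⟧)⟦X⟧) M] [IsFractionRing ((F⟦X⟧)⟦X⟧) M]
variable {L : Type*} [Field L] [Algebra K L] [Algebra F L] [IsScalarTower F K L]
  {ι : K →ₐ[F] L}

/-- the embedding at the point `(P, c)` -/
theorem exists_ph (hι : IsCE K ι) (P c : Pl F K) : ∃ φ : L →+* M,
    (∀ b : K, φ (algebraMap K L b) = be M c b) ∧ ∀ a : K, φ (ι a) = al M P a := by
  letI : Algebra (K ⊗[F] K) L := (mu (Ω := K) ι).toRingHom.toAlgebra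
  have halg : ∀ t : K ⊗[F] K, algebraMap (K ⊗[F] K) L t = mu ι t := fun t => rfl
  haveI : FaithfulSMul (K ⊗[F] K) L := by
    rw [faithfulSMul_iff_algebraMap_injective]
    exact hι.inj
  haveI : IsFractionRing (K ⊗[F] K) L := by
    apply IsFractionRing.of_field
    intro z
    obtain ⟨a, b, hb, hab⟩ := hι.frac z
    refine ⟨a, b, ?_⟩
    rw [halg, halg, eq_div_iff (hι.ne_zero hb), hab]
  let φ : L →+* M := IsFractionRing.lift (g := (ph0 M P c).toRingHom) (ph0_injective M P c)
  have hφ : ∀ t : K ⊗[F] K, φ (mu ι t) = ph0 M P c t := fun t =>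
    IsFractionRing.lift_algebraMap (K := L) (g := (ph0 M P c).toRingHom) (ph0_injective M P c) t
  refine ⟨φ, fun b => ?_, fun a => ?_⟩
  · have h1 := hφ (b ⊗ₜ 1)
    rw [mu_tmul, ph0_tmul, map_one, map_one, mul_one, mul_one] at h1
    exact h1
  · have h1 := hφ (1 ⊗ₜ a)
    rw [mu_tmul, ph0_tmul, map_one, map_one, one_mul, one_mul] at h1
    exact h1

variable {M}

section Val

variable {P c : Pl F K} {φ : L →+* M} (hb : ∀ b : K, φ (algebraMap K L b) = be M c b)
  (ha : ∀ a : K, φ (ι a) = al M P a)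

include hb in
theorem triv {π : (F⟦X⟧)⟦X⟧} (hπ : Prime π) (h : ¬ π ∣ tt F) (b : K) (hb0 : b ≠ 0) :
    (pv M hπ).comap φ (algebraMap K L b) = 1 := by
  rw [Valuation.comap_apply, hb, pv_be M c hb0 hπ h]

include hb ha in
theorem vert : Vert ι c ((pv M (prime_tt (F := F))).comap φ) := by
  constructor
  · intro b
    rw [Valuation.comap_apply, hb, pvt_be]
  · intro f hf
    rw [Valuation.comap_apply, ha, pv_al M P hf _ not_tt_dvd_X]

include hb ha in
theorem overP : OverP ι P ((pv M (prime_XX (F := F))).comap φ) := by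
  refine ⟨triv hb _ not_X_dvd_tt, fun f hf => ?_, fun f hf => ?_⟩
  · rwa [Valuation.comap_apply, ha, pvX_al]
  · rwa [Valuation.comap_apply, ha, pvX_al]

include ha in
theorem overP_norm : ((pv M (prime_XX (F := F))).comap φ) (ι (unif P)) = exp (-1) := by
  rw [Valuation.comap_apply, ha, pvX_al, v_unif]

theorem dd_dvd (f : F⟦X⟧) : dd F ∣ PowerSeries.map C f - C f := by
  have h1 : (isRed_dd (F := F)).ρ (PowerSeries.map C f) = f := by
    apply (isRed_dd (F := F)).ρ_eq
    have h2 : gs (PowerSeries.map (C : F →+* F⟦X⟧) f) 0 = f := by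
      ext n
      rw [gs, coeff_mk]
      rw [Finset.sum_eq_single ((0 : ℕ), n)]
      · simp
      · rintro ⟨a, b⟩ hab hne
        rw [Finset.HasAntidiagonal.mem_antidiagonal] at hab
        have ha : a ≠ 0 := by
          rintro rfl
          apply hne
          simp only [zero_add] at hab
          rw [hab]
        simp only [coeff_map]
        rw [coeff_C, if_neg ha]
      · intro hn
        exact absurd (by simp) hn
    conv_rhs => rw [← h2]
    refine ⟨PowerSeries.mk fun i => gs (PowerSeries.map (C : F →+* F⟦X⟧) f) (i + 1), ?_⟩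
    rw [h2]
    ext1 i
    cases i with
    | zero =>
      rw [map_sub, coeff_zero_C]
      simp only [dd, sub_mul, map_sub, coeff_zero_X_mul, coeff_C_mul, coeff_mk]
      have h3 := gs_eq (PowerSeries.map (C : F →+* F⟦X⟧) f) 0
      rw [h2] at h3
      rw [zero_add] at h3
      linear_combination (exp := 1) -h3
    | succ i =>
      rw [map_sub, coeff_succ_C]
      simp only [dd, sub_mul, map_sub, coeff_succ_X_mul, coeff_C_mul, coeff_mk]
      rw [gs_eq (PowerSeries.map (C : F →+* F⟦X⟧) f) (i + 1)]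
      ring
  have h3 := (isRed_dd (F := F)).dvd_sub (PowerSeries.map C f)
  rwa [h1] at h3

end Val

section Diag

variable {c : Pl F K} {φ : L →+* M} (hb : ∀ b : K, φ (algebraMap K L b) = be M c b)
  (ha : ∀ a : K, φ (ι a) = al M c a)

include hb ha in
theorem phi_diff (f : K) (hf : c.v f ≤ 1) : ∃ q : (F⟦X⟧)⟦X⟧,
    φ (ι f - algebraMap K L f) = algebraMap _ M (dd F * q) := by
  obtain ⟨q, hq⟩ := dd_dvd (ex c ⟨f, mem_valSub.2 hf⟩)
  refine ⟨q, ?_⟩
  rw [map_sub, ha, hb, al, be, emb_of_le _ _ c hf, emb_of_le _ _ c hf, psA_apply, psB_apply,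
    ← map_sub, hq]

include hb ha in
theorem atQ : AtQ ι ((pv M (prime_dd (F := F))).comap φ) := by
  have htr := triv hb (prime_dd (F := F)) not_dd_dvd_tt
  have hle : ∀ f : K, c.v f ≤ 1 →
      (pv M (prime_dd (F := F))).comap φ (ι f - algebraMap K L f) < 1 := by
    intro f hf
    obtain ⟨q, hq⟩ := phi_diff hb ha f hf
    rw [Valuation.comap_apply, hq]
    have h1 : pv M (prime_dd (F := F)) (algebraMap _ M (dd F * q)) < 1 :=
      (pv_lt_one_iff (R := (F⟦X⟧)⟦X⟧) M _ _).2 (dvd_mul_right _ _)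
    exact h1
  refine ⟨htr, fun f => ?_⟩
  rcases le_or_gt (c.v f) 1 with hf | hf
  · exact hle f hf
  · have hf0 : f ≠ 0 := by rintro rfl; simp at hf
    have h1 : c.v f⁻¹ ≤ 1 := by
      rw [map_inv₀]; exact inv_le_one_of_one_le₀ hf.le
    have h2 := hle _ h1
    have h3 : (pv M (prime_dd (F := F))).comap φ (ι f⁻¹) = 1 := by
      rw [Valuation.comap_apply, ha]
      exact pv_al M c (inv_ne_zero hf0) _ not_dd_dvd_X
    have h4 := htr f⁻¹ (inv_ne_zero hf0)
    have h5 : ι f - algebraMap K L f =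
        - (ι f⁻¹ - algebraMap K L f⁻¹) / (ι f⁻¹ * algebraMap K L f⁻¹) := by
      have h6 : ι f ≠ 0 := by simpa using hf0
      have h7 : algebraMap K L f ≠ 0 := by simpa using hf0
      rw [map_inv₀, map_inv₀]
      field_simp
      ring
    rw [h5, map_div₀, map_mul, h3, h4, mul_one, div_one, Valuation.map_neg]
    exact h2

include hb ha in
theorem phi_unif : φ (ι (unif c) - algebraMap K L (unif c)) = algebraMap _ M (dd F) := by
  rw [map_sub, ha, hb, al_unif, be_unif, ← map_sub]
  rfl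

include hb ha in
theorem atQ_norm : ((pv M (prime_dd (F := F))).comap φ) (ι (unif c) - algebraMap K L (unif c)) =
    exp (-1) := by
  rw [Valuation.comap_apply, phi_unif hb ha]
  exact pv_self (R := (F⟦X⟧)⟦X⟧) M _

end Diag

section Class

variable {P c : Pl F K} {φ : L →+* M} (hb : ∀ b : K, φ (algebraMap K L b) = be M c b)
  (ha : ∀ a : K, φ (ι a) = al M P a)

omit [IsAlgClosed F] in
theorem exists_sep {P Q : Pl F K} (h : P ≠ Q) : ∃ f : K, P.v (f - 1) < 1 ∧ Q.v f < 1 := by
  classical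
  obtain ⟨f, hf⟩ := weak_approx ({P, Q} : Finset (Pl F K)) (fun R => if R = P then 1 else 0) 1
  refine ⟨f, ?_, ?_⟩
  · have h1 := hf P (by simp)
    rw [if_pos rfl] at h1
    rwa [lt_one_iff_le]
  · have h1 := hf Q (by simp)
    rw [if_neg h.symm, sub_zero] at h1
    rwa [lt_one_iff_le]

include ha in
theorem class_overP {P₀ : Pl F K} {π : (F⟦X⟧)⟦X⟧} (hπ : Prime π)
    (h : OverP ι P₀ ((pv M hπ).comap φ)) : P = P₀ ∧ π ∣ X := by
  have hPP : P = P₀ := by
    by_contra hne
    obtain ⟨f, hf1, hf2⟩ := exists_sep hne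
    have h1 := h.2.2 f hf2
    have hPf : P.v f = 1 := eq_one_of_sub_lt P.v hf1 (map_one _)
    obtain ⟨u, hu⟩ := al_form M P (n := 0) (by rw [hPf, exp_zero])
    rw [Valuation.comap_apply, ha, hu, neg_zero, zpow_zero, mul_one, pv_unit] at h1
    exact lt_irrefl _ h1
  refine ⟨hPP, ?_⟩
  subst hPP
  have h1 := h.2.2 (unif P) (v_unif_lt P)
  rw [Valuation.comap_apply, ha, al_unif, pv_lt_one_iff] at h1
  exact h1

include hb ha in
theorem class_atQ {π : (F⟦X⟧)⟦X⟧} (hπ : Prime π)
    (h : AtQ ι ((pv M hπ).comap φ)) : P = c ∧ π ∣ dd F := by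
  have hPc : P = c := by
    by_contra hne
    obtain ⟨f, hf1, hf2⟩ := exists_sep hne
    have h1 := h.2 f
    have hPf : P.v f = 1 := eq_one_of_sub_lt P.v hf1 (map_one _)
    rw [Valuation.comap_apply, map_sub, ha, hb, al, be, emb_of_le _ _ P hPf.le,
      emb_of_le _ _ c hf2.le, psA_apply, psB_apply, ← map_sub, pv_lt_one_iff] at h1
    apply hπ.not_isUnit
    refine isUnit_of_dvd_unit h1 ?_
    rw [PowerSeries.isUnit_iff_constantCoeff, PowerSeries.isUnit_iff_constantCoeff]
    have h2 : constantCoeff (ex c ⟨f, mem_valSub.2 hf2.le⟩) = 0 := by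
      rw [← X_dvd_iff, ← pow_one X, X_pow_dvd_ex, Nat.cast_one, ← lt_one_iff_le]
      exact hf2
    have h3 := ex_isUnit P (f := ⟨f, mem_valSub.2 hPf.le⟩) hPf
    rw [PowerSeries.isUnit_iff_constantCoeff] at h3
    rw [map_sub, map_sub, constantCoeff_C, h2, sub_zero]
    have h4 : constantCoeff (PowerSeries.map C (ex P ⟨f, mem_valSub.2 hPf.le⟩)) =
        (C : F →+* F⟦X⟧) (constantCoeff (ex P ⟨f, mem_valSub.2 hPf.le⟩)) := by
      rw [← coeff_zero_eq_constantCoeff_apply, coeff_map, coeff_zero_eq_constantCoeff_apply]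
    rw [h4, constantCoeff_C]
    exact h3
  refine ⟨hPc, ?_⟩
  subst hPc
  have h1 := h.2 (unif P)
  rw [Valuation.comap_apply, phi_unif hb ha, pv_lt_one_iff] at h1
  exact h1

end Class

end Crest.Agent.R013.Tors9_235
end

-- ▼ part R013/Tors10_235
section

/-!
# Row 13, leaf TORS (helper235), part 10: CORE.  If a function on `C × C` has divisor
`Δ - P₀ × C` modulo `N` (over the generic point of the second factor) then `N ∣ 2 g`.
-/

set_option autoImplicit false
set_option linter.all false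

namespace Crest.Agent.R013.Tors10_235

open WithZero PowerSeries TensorProduct Module
open Crest.Agent.R013.RR7_948 Crest.Agent.R013.RR11_948 Crest.Agent.R013.CE1_280
open Crest.Agent.R013.RR8_948 Crest.Agent.R013.RR9_948 Crest.Agent.R013.RR12_948
open Crest.Agent.R013.RR14_948 Crest.Agent.R013.RR17_948
open Crest.Agent.R013.CE3_280 Crest.Agent.R013.CE5_280
open Crest.Agent.R013.Tors1_235 Crest.Agent.R013.Tors2_235 Crest.Agent.R013.Tors3_235
open Crest.Agent.R013.Tors4_235 Crest.Agent.R013.Tors5_235 Crest.Agent.R013.Tors7_235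
open Crest.Agent.R013.Tors8_235 Crest.Agent.R013.Tors9_235

section Nu

variable {R S : Type*} [CommRing R] [IsDomain R] [WfDvdMonoid R] [CommRing S] [IsDomain S]
  [WfDvdMonoid S] {C : S →+* R} {δ : R} (h : IsRed C δ) (hδ : Prime δ) {τ : S} (hτ : Prime τ)
  {M : Type*} [Field M] [Algebra R M] [IsFractionRing R M]

include hδ hτ in
theorem nu_eq_of_sub {y z : M} (hy : pv M hδ y = 1) (hz : pv M hδ (z - y) < 1) :
    nu h τ z = nu h τ y := by
  have hy0 : y ≠ 0 := by rintro rfl; simp at hy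
  have hz1 : pv M hδ z = 1 := eq_one_of_sub_lt _ hz hy
  have hz0 : z ≠ 0 := by rintro rfl; simp at hz1
  have h1 : nu h τ (z / y) = multiplicity τ (1 : S) := by
    apply nu_of_lt h hδ hτ one_ne_zero
    have e : z / y - algebraMap R M (C 1) = (z - y) / y := by
      rw [map_one, map_one, sub_div, div_self hy0]
    rw [e, map_div₀, hy, div_one]
    exact hz
  rw [multiplicity_of_one_right hτ.not_isUnit] at h1
  have e : z = (z / y) * y := by rw [div_mul_cancel₀ _ hy0]
  rw [e, nu_mul h hδ hτ (div_ne_zero hz0 hy0) hy0, h1]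
  simp

end Nu

variable {F K : Type*} [Field F] [IsAlgClosed F] [Field K] [Algebra F K]
  [Algebra (RatFunc F) K] [IsScalarTower F (RatFunc F) K] [FiniteDimensional (RatFunc F) K]
  [Algebra.IsSeparable (RatFunc F) K]
variable {M : Type*} [Field M] [Algebra F M] [Algebra ((F⟦X⟧)⟦X⟧) M]
  [IsScalarTower F ((F⟦X⟧)⟦X⟧) M] [IsFractionRing ((F⟦X⟧)⟦X⟧) M]
variable {L : Type*} [Field L] [Algebra K L] [Algebra F L] [IsScalarTower F K L]
  {ι : K →ₐ[F] L}

theorem nuX_be (c : Pl F K) {b : K} {n : ℤ} (hb : c.v b = exp n) :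
    nuX (F := F) (be M c b) = -n := by
  obtain ⟨u, hu⟩ := be_form M c hb
  have ht : algebraMap _ M (tt F) ≠ 0 := algebraMap_ne prime_tt.ne_zero
  have h0 := nuX_tt (F := F) (M := M)
  unfold nuX at h0 ⊢
  rw [hu, nu_mul isRed_X prime_XX X_prime (algebraMap_ne u.ne_zero) (zpow_ne_zero _ ht),
    nu_unit isRed_X prime_XX X_prime, nu_zpow isRed_X prime_XX X_prime ht, h0]
  ring

theorem nuD_be (c : Pl F K) {b : K} {n : ℤ} (hb : c.v b = exp n) :
    nuD (F := F) (be M c b) = -n := by
  obtain ⟨u, hu⟩ := be_form M c hb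
  have ht : algebraMap _ M (tt F) ≠ 0 := algebraMap_ne prime_tt.ne_zero
  have h0 := nuD_tt (F := F) (M := M)
  unfold nuD at h0 ⊢
  rw [hu, nu_mul isRed_dd prime_dd X_prime (algebraMap_ne u.ne_zero) (zpow_ne_zero _ ht),
    nu_unit isRed_dd prime_dd X_prime, nu_zpow isRed_dd prime_dd X_prime ht, h0]
  ring

/-- the hypothesis of CORE: the divisor of `h` over `K` is `Q - P₀` modulo `N` -/
structure DivMod (ι : K →ₐ[F] L) (P₀ : Pl F K) (N : ℕ) (h : L) : Prop where
  oth : ∀ w : Valuation L ℤᵐ⁰, (∀ b : K, b ≠ 0 → w (algebraMap K L b) = 1) → ¬ AtQ ι w →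
    ¬ OverP ι P₀ w → (N : ℤ) ∣ log (w h)
  atQ : ∀ w : Valuation L ℤᵐ⁰, AtQ ι w → (∃ f : K, w (ι f - algebraMap K L f) = exp (-1)) →
    (N : ℤ) ∣ log (w h) + 1
  ovr : ∀ w : Valuation L ℤᵐ⁰, OverP ι P₀ w → (∃ f : K, w (ι f) = exp (-1)) →
    (N : ℤ) ∣ log (w h) - 1

section Emb

variable {P c P₀ : Pl F K} {φ : L →+* M} {N : ℕ} {h : L}

/-- the relation at a point of the surface -/
theorem point_key (hb : ∀ b : K, φ (algebraMap K L b) = be M c b)
    (ha : ∀ a : K, φ (ι a) = al M P a) (hN : 0 < N) (h0 : h ≠ 0) (hd : DivMod ι P₀ N h) :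
    (N : ℤ) ∣ nuX (F := F) (φ h) + log (((pv M (prime_tt (F := F))).comap φ) h) +
      log (((pv M (prime_dd (F := F))).comap φ) h) ∧
    (N : ℤ) ∣ nuD (F := F) (φ h) + log (((pv M (prime_tt (F := F))).comap φ) h) +
      log (((pv M (prime_XX (F := F))).comap φ) h) := by
  have hz : φ h ≠ 0 := by simpa using h0
  refine key hN hz ?_
  intro π hπ h1 h2 h3
  have n1 : ¬ π ∣ tt F := fun hd => h1 (hπ.associated_of_dvd prime_tt hd)
  have n2 : ¬ π ∣ X := fun hd => h2 (hπ.associated_of_dvd prime_XX hd)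
  have n3 : ¬ π ∣ dd F := fun hd => h3 (hπ.associated_of_dvd prime_dd hd)
  exact hd.oth ((pv M hπ).comap φ) (triv hb hπ n1) (fun hq => n3 (class_atQ hb ha hπ hq).2)
    (fun hq => n2 (class_overP ha hπ hq).2)

open Classical in
/-- the order along `P × C`, `P ≠ P₀` -/
theorem rel_P (hι : IsCE K ι) (hb : ∀ b : K, φ (algebraMap K L b) = be M c b)
    (ha : ∀ a : K, φ (ι a) = al M P a) (hN : 0 < N) (h0 : h ≠ 0) (hd : DivMod ι P₀ N h)
    (hP : P ≠ P₀) {k : ℤ} {r : K} (hr : r ≠ 0)
    (hk : ∀ w : Valuation L ℤᵐ⁰, OverP ι P w → w (h / ι (unif P) ^ k - algebraMap K L r) < 1) :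
    (N : ℤ) ∣ -log (c.v r) + log (((pv M (prime_tt (F := F))).comap φ) h) -
      (if c = P then 1 else 0) := by
  have h1 := (point_key hb ha hN h0 hd).1
  have hov := overP hb ha
  have h2 := hk _ hov
  rw [Valuation.comap_apply, map_sub, map_div₀, map_zpow₀, hb, ha, al_unif] at h2
  have hX : algebraMap ((F⟦X⟧)⟦X⟧) M X ≠ 0 := algebraMap_ne prime_XX.ne_zero
  have h3 : nuX (F := F) (φ h / algebraMap ((F⟦X⟧)⟦X⟧) M X ^ k) = nuX (F := F) (be M c r) :=
    nu_eq_of_sub isRed_X prime_XX X_prime (pv_be M c hr _ not_X_dvd_tt) h2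
  obtain ⟨n, hn⟩ := exists_exp c hr
  have h4 : nuX (F := F) (φ h) = -n := by
    have e : φ h = (φ h / algebraMap ((F⟦X⟧)⟦X⟧) M X ^ k) * algebraMap ((F⟦X⟧)⟦X⟧) M X ^ k := by
      rw [div_mul_cancel₀ _ (zpow_ne_zero _ hX)]
    have hφ : φ h ≠ 0 := by simpa using h0
    rw [nuX_be c hn] at h3
    have h5 := nuX_X (F := F) (M := M)
    unfold nuX at h3 h5 ⊢
    rw [e, nu_mul isRed_X prime_XX X_prime (div_ne_zero hφ (zpow_ne_zero _ hX))
      (zpow_ne_zero _ hX), nu_zpow isRed_X prime_XX X_prime hX, h5, h3]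
    ring
  rw [h4] at h1
  rw [hn, log_exp]
  -- the diagonal term
  have h5 : (N : ℤ) ∣ log (((pv M (prime_dd (F := F))).comap φ) h) + (if c = P then 1 else 0) := by
    split_ifs with hc
    · subst hc
      exact hd.atQ _ (atQ hb ha) ⟨unif c, atQ_norm hb ha⟩
    · rw [add_zero]
      exact hd.oth _ (triv hb _ not_dd_dvd_tt)
        (fun hq => hc (class_atQ hb ha _ hq).1.symm)
        (fun hq => hP (class_overP ha _ hq).1)
  obtain ⟨a, ha'⟩ := h1
  obtain ⟨b, hb'⟩ := h5
  exact ⟨a - b, by linear_combination ha' - hb'⟩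

open Classical in
/-- the order along the diagonal -/
theorem rel_Q [CharZero F] (hι : IsCE K ι) (hb : ∀ b : K, φ (algebraMap K L b) = be M c b)
    (ha : ∀ a : K, φ (ι a) = al M c a) (hN : 0 < N) (h0 : h ≠ 0) (hd : DivMod ι P₀ N h)
    {k : ℤ} {r : K} (hr : r ≠ 0)
    (hk : ∀ w : Valuation L ℤᵐ⁰, AtQ ι w →
      w (h / (ι (xK F K) - algebraMap K L (xK F K)) ^ k - algebraMap K L r) < 1) :
    (N : ℤ) ∣ canD F K c - log (c.v r) + log (((pv M (prime_tt (F := F))).comap φ) h) +
      (if c = P₀ then 1 else 0) := by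
  have h1 := (point_key hb ha hN h0 hd).2
  have hat := atQ hb ha
  set w := (pv M (prime_dd (F := F))).comap φ with hw
  have hpi : ι (xK F K) - algebraMap K L (xK F K) ≠ 0 := by
    rw [← mu_piD]; exact hι.ne_zero (CE3_280.piT_ne_zero _)
  set D := ι (xK F K) - algebraMap K L (xK F K) with hD
  have hφ : φ h ≠ 0 := by simpa using h0
  have hφD : φ D ≠ 0 := by simpa using hpi
  have hdd : algebraMap _ M (dd F) ≠ 0 := algebraMap_ne prime_dd.ne_zero
  -- the derivative of the uniformizer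
  have hvd := v_del_eq c (v_unif c)
  have hdel0 : del F K (unif c) ≠ 0 := by
    intro h0
    rw [h0, map_zero] at hvd
    exact exp_ne_zero hvd.symm
  have h2 := del_rel hι hat (unif c) w hat
  rw [← hD] at h2
  have h2' := h2
  rw [hw, Valuation.comap_apply, map_sub, map_div₀, phi_unif hb ha, hb] at h2
  have h3 : nuD (F := F) (algebraMap _ M (dd F) / φ D) = nuD (F := F) (be M c (del F K (unif c))) :=
    nu_eq_of_sub isRed_dd prime_dd X_prime (pv_be M c hdel0 _ not_dd_dvd_tt) h2
  have h4 : nuD (F := F) (φ D) = canD F K c := by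
    have h5 := nuD_dd (F := F) (M := M)
    rw [nuD_be c hvd] at h3
    unfold nuD at h3 h5 ⊢
    rw [div_eq_mul_inv, nu_mul isRed_dd prime_dd X_prime hdd (inv_ne_zero hφD),
      nu_inv isRed_dd prime_dd X_prime hφD, h5] at h3
    linarith
  -- the leading coefficient
  have h5 := hk w hat
  have h5' := h5
  rw [hw, Valuation.comap_apply, map_sub, map_div₀, map_zpow₀, hb] at h5
  have h6 : nuD (F := F) (φ h / φ D ^ k) = nuD (F := F) (be M c r) :=
    nu_eq_of_sub isRed_dd prime_dd X_prime (pv_be M c hr _ not_dd_dvd_tt) h5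
  obtain ⟨n, hn⟩ := exists_exp c hr
  have h7 : nuD (F := F) (φ h) = -n + k * canD F K c := by
    have e : φ h = (φ h / φ D ^ k) * φ D ^ k := by
      rw [div_mul_cancel₀ _ (zpow_ne_zero _ hφD)]
    rw [nuD_be c hn] at h6
    unfold nuD at h4 h6 ⊢
    rw [e, nu_mul isRed_dd prime_dd X_prime (div_ne_zero hφ (zpow_ne_zero _ hφD))
      (zpow_ne_zero _ hφD), nu_zpow isRed_dd prime_dd X_prime hφD, h4, h6]
  -- the multiplicity of the diagonal
  have hwD : w D = exp (-1) := by
    have h8 := eq_one_of_sub_lt w h2' (hat.1 _ hdel0)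
    have h9 : w (ι (unif c) - algebraMap K L (unif c)) = exp (-1) := atQ_norm hb ha
    rw [map_div₀, h9] at h8
    have h10 : w D ≠ 0 := (Valuation.ne_zero_iff _).2 hpi
    rw [div_eq_one_iff_eq h10] at h8
    exact h8.symm
  have hk1 : (N : ℤ) ∣ k - 1 := by
    have h8 := eq_one_of_sub_lt w h5' (hat.1 _ hr)
    rw [map_div₀, map_zpow₀, hwD, ← exp_zsmul] at h8
    rw [div_eq_one_iff_eq exp_ne_zero] at h8
    have h9 := hd.atQ w hat ⟨unif c, atQ_norm hb ha⟩
    rw [h8, log_exp] at h9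
    obtain ⟨a, ha'⟩ := h9
    exact ⟨-a, by simp only [smul_eq_mul] at ha'; linear_combination -ha'⟩
  have hX : (N : ℤ) ∣ log (((pv M (prime_XX (F := F))).comap φ) h) -
      (if c = P₀ then 1 else 0) := by
    split_ifs with hc
    · subst hc
      exact hd.ovr _ (overP hb ha) ⟨unif c, overP_norm ha⟩
    · rw [sub_zero]
      exact hd.oth _ (triv hb _ not_X_dvd_tt)
        (fun hq => not_X_dvd_dd (class_atQ hb ha _ hq).2)
        (fun hq => hc (class_overP ha _ hq).1)
  rw [h7] at h1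
  rw [hn, log_exp]
  obtain ⟨a, ha'⟩ := h1
  obtain ⟨b, hb'⟩ := hk1
  obtain ⟨d, hd'⟩ := hX
  exact ⟨a - b * canD F K c - d, by linear_combination ha' - canD F K c * hb' - hd'⟩

end Emb

/-- **CORE** -/
theorem core [CharZero F] (hι : IsCE K ι) {N : ℕ} (hN : 0 < N) {P₀ : Pl F K} {h : L} (h0 : h ≠ 0)
    (hd : DivMod ι P₀ N h) : (N : ℤ) ∣ 2 * (gen F K : ℤ) := by
  classical
  let M := FractionRing ((F⟦X⟧)⟦X⟧)
  obtain ⟨P, hP⟩ := exists_notMem ({P₀} : Finset (Pl F K))
  have hP0 : P ≠ P₀ := by simpa using hP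
  -- a diagonal valuation
  obtain ⟨φ₀, hb₀, ha₀⟩ := exists_ph M hι P₀ P₀
  obtain ⟨k, r, hr, hk⟩ := lead_Q hι (atQ hb₀ ha₀) h0
  obtain ⟨k', r', hr', hk'⟩ := lead_P hι P (v_unif P) h0
  have key : ∀ c : Pl F K, (N : ℤ) ∣ (canD F K + divf r - divf r' + Finsupp.single P₀ 1 +
      Finsupp.single P 1 : Pl F K →₀ ℤ) c := by
    intro c
    obtain ⟨φ, hb, ha⟩ := exists_ph M hι c c
    obtain ⟨φ', hb', ha'⟩ := exists_ph M hι P c
    obtain ⟨a, h1⟩ := rel_Q hι hb ha hN h0 hd hr hk
    obtain ⟨b, h2⟩ := rel_P hι hb' ha' hN h0 hd hP0 hr' hk'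
    have h3 : ((pv M (prime_tt (F := F))).comap φ) h = ((pv M (prime_tt (F := F))).comap φ') h :=
      Vert.unique hι (vert hb ha) (vert hb' ha') h
    rw [h3] at h1
    rw [v_eq hr, log_exp] at h1
    rw [v_eq hr', log_exp] at h2
    simp only [Finsupp.add_apply, Finsupp.sub_apply, Finsupp.single_apply]
    refine ⟨a - b, ?_⟩
    have e1 : (if P₀ = c then (1 : ℤ) else 0) = if c = P₀ then 1 else 0 := by
      by_cases hc : c = P₀
      · rw [if_pos hc, if_pos hc.symm]
      · rw [if_neg hc, if_neg (fun h => hc h.symm)]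
    have e2 : (if P = c then (1 : ℤ) else 0) = if c = P then 1 else 0 := by
      by_cases hc : c = P
      · rw [if_pos hc, if_pos hc.symm]
      · rw [if_neg hc, if_neg (fun h => hc h.symm)]
    rw [e1, e2]
    linear_combination h1 - h2
  have hdeg : degD (canD F K + divf r - divf r' + Finsupp.single P₀ 1 +
      Finsupp.single P 1 : Pl F K →₀ ℤ) =
      2 * (gen F K : ℤ) := by
    rw [degD_add, degD_add, sub_eq_add_neg, degD_add, degD_add, degD_neg, degD_single, degD_single,
      degD_divf hr, degD_divf hr', degD_canD algebraicClosure_eq_bot, degP_eq_one, degP_eq_one]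
    push_cast
    ring
  rw [← hdeg, degD_eq_sum]
  exact Finset.dvd_sum fun c _ => key c

end Crest.Agent.R013.Tors10_235
end

-- ▼ part R013/Tors11_235
section

/-!
# Row 13, leaf TORS (helper235), part 11: algebraic constant extensions are unramified.

`K ⊆ Ω` algebraic, `Ω` algebraically closed, char 0, `W = Ω L`, `P` a place of `W/Ω`: the value group
of `P` on `L` is everything.
-/

set_option autoImplicit false
set_option linter.all false

namespace Crest.Agent.R013.Tors11_235

open WithZero Module Polynomial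
open Crest.Agent.R013.RR7_948 Crest.Agent.R013.RR11_948 Crest.Agent.R013.CE1_280

section Ram

variable {K Ω L W : Type*} [Field K] [Field Ω] [Field L] [Field W] [Algebra K Ω] [Algebra K L]
  [Algebra K W] [Algebra Ω W] [Algebra L W] [IsScalarTower K Ω W] [IsScalarTower K L W]
  [IsAlgClosed Ω] [Algebra.IsAlgebraic K Ω] [CharZero K]
  [Algebra (RatFunc Ω) W] [IsScalarTower Ω (RatFunc Ω) W] [FiniteDimensional (RatFunc Ω) W]
  [Algebra.IsSeparable (RatFunc Ω) W]

/-- regular elements of `L` at `P` -/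
def OL (L : Type*) [Field L] [Algebra L W] (P : Pl Ω W) : Submonoid W where
  carrier := {x | ∃ f : L, algebraMap L W f = x ∧ P.v x ≤ 1}
  one_mem' := ⟨1, by simp, by simp⟩
  mul_mem' := by
    rintro _ _ ⟨f, rfl, hf⟩ ⟨g, rfl, hg⟩
    exact ⟨f * g, map_mul _ _ _, by rw [map_mul]; exact mul_le_one' hf hg⟩

/-- the `Ω`-algebra generated by the regular elements of `L` -/
noncomputable def BB (L : Type*) [Field L] [Algebra L W] (P : Pl Ω W) : Subalgebra Ω W :=
  Algebra.adjoin Ω (OL L P : Set W)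

theorem mem_BB_of {P : Pl Ω W} {f : L} (hf : P.v (algebraMap L W f) ≤ 1) :
    algebraMap L W f ∈ BB L P := Algebra.subset_adjoin ⟨f, rfl, hf⟩

theorem mem_BB_iff {P : Pl Ω W} {z : W} (hz : z ∈ BB L P) :
    ∃ c : W →₀ Ω, (c.support : Set W) ⊆ (OL L P : Set W) ∧ (c.sum fun x r => r • x) = z := by
  rw [BB, ← Subalgebra.mem_toSubmodule, Algebra.adjoin_eq_span, Submonoid.closure_eq] at hz
  rwa [Submodule.mem_span_set] at hz

theorem v_le_of_mem_BB {P : Pl Ω W} {z : W} (hz : z ∈ BB L P) : P.v z ≤ 1 := by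
  obtain ⟨c, hc, rfl⟩ := mem_BB_iff hz
  rw [Finsupp.sum]
  refine Valuation.map_sum_le _ fun x hx => ?_
  obtain ⟨f, _, hf⟩ := hc hx
  rw [Algebra.smul_def, map_mul]
  exact mul_le_one' (v_algebraMap_le P _) hf

theorem aeval_mem_BB {P : Pl Ω W} {x : W} (hx : x ∈ BB L P) (q : (Polynomial Ω)) :
    aeval x q ∈ BB L P := by
  have h1 : Algebra.adjoin Ω ({x} : Set W) ≤ BB L P := by
    rw [Algebra.adjoin_le_iff]
    rintro _ rfl
    exact hx
  exact h1 (aeval_mem_adjoin_singleton Ω x)

/-- values of polynomials -/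
theorem v_aeval_sub_lt {P : Pl Ω W} {θ : W} {t : Ω} (hθ : P.v (θ - algebraMap Ω W t) < 1)
    (q : (Polynomial Ω)) : P.v (aeval θ q - algebraMap Ω W (q.eval t)) < 1 := by
  have h1 : P.v θ ≤ 1 := by
    have e : θ = (θ - algebraMap Ω W t) + algebraMap Ω W t := by ring
    rw [e]
    exact (Valuation.map_add _ _ _).trans (max_le hθ.le (v_algebraMap_le P _))
  obtain ⟨q', hq'⟩ : (X - C t) ∣ q - C (q.eval t) := dvd_iff_isRoot.2 (by simp)
  have h2 : aeval θ q - algebraMap Ω W (q.eval t) = (θ - algebraMap Ω W t) * aeval θ q' := by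
    have := congrArg (aeval θ) hq'
    simpa using this
  rw [h2, map_mul]
  calc _ ≤ P.v (θ - algebraMap Ω W t) * 1 := mul_le_mul_right (RR14_948.v_aeval_le P h1 _) _
    _ < 1 := by rw [mul_one]; exact hθ

/-- the residues of the regular elements of `L` -/
def kap (K : Type*) [Field K] [Algebra K Ω] (L : Type*) [Field L] [Algebra K L] [Algebra L W]
    [Algebra K W] [IsScalarTower K Ω W] [IsScalarTower K L W] (P : Pl Ω W) :
    IntermediateField K Ω where
  carrier := {t | ∃ f : L, P.v (algebraMap L W f) ≤ 1 ∧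
    P.v (algebraMap L W f - algebraMap Ω W t) < 1}
  mul_mem' := by
    rintro s t ⟨f, hf, hf'⟩ ⟨g, hg, hg'⟩
    refine ⟨f * g, by rw [map_mul, map_mul]; exact mul_le_one' hf hg, ?_⟩
    have e : algebraMap L W (f * g) - algebraMap Ω W (s * t) =
      algebraMap L W f * (algebraMap L W g - algebraMap Ω W t) +
        (algebraMap L W f - algebraMap Ω W s) * algebraMap Ω W t := by
      rw [map_mul, map_mul]; ring
    rw [e]
    refine lt_of_le_of_lt (Valuation.map_add _ _ _) (max_lt ?_ ?_)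
    · rw [map_mul]
      calc _ ≤ 1 * P.v (algebraMap L W g - algebraMap Ω W t) := mul_le_mul_left hf _
        _ < 1 := by rw [one_mul]; exact hg'
    · rw [map_mul]
      calc _ ≤ P.v (algebraMap L W f - algebraMap Ω W s) * 1 :=
            mul_le_mul_right (v_algebraMap_le P _) _
        _ < 1 := by rw [mul_one]; exact hf'
  add_mem' := by
    rintro s t ⟨f, hf, hf'⟩ ⟨g, hg, hg'⟩
    refine ⟨f + g, by rw [map_add]; exact (Valuation.map_add _ _ _).trans (max_le hf hg), ?_⟩
    have e : algebraMap L W (f + g) - algebraMap Ω W (s + t) =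
      (algebraMap L W f - algebraMap Ω W s) + (algebraMap L W g - algebraMap Ω W t) := by
      rw [map_add, map_add]; ring
    rw [e]
    exact lt_of_le_of_lt (Valuation.map_add _ _ _) (max_lt hf' hg')
  algebraMap_mem' c := ⟨algebraMap K L c, by
    rw [← IsScalarTower.algebraMap_apply, IsScalarTower.algebraMap_apply K Ω W]
    exact v_algebraMap_le P _, by
    rw [← IsScalarTower.algebraMap_apply, ← IsScalarTower.algebraMap_apply, sub_self, map_zero]
    exact zero_lt_one⟩
  inv_mem' := by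
    rintro t ⟨f, hf, hf'⟩
    by_cases ht : t = 0
    · subst ht
      exact ⟨0, by simp, by simp⟩
    · have h1 : P.v (algebraMap Ω W t) = 1 := P.const t ht
      have h2 : P.v (algebraMap L W f) = 1 := by
        have h3 := Valuation.map_add_eq_of_lt_right (v := P.v)
          (x := algebraMap L W f - algebraMap Ω W t) (y := algebraMap Ω W t) (by rwa [h1])
        rwa [sub_add_cancel, h1] at h3
      have hf0 : algebraMap L W f ≠ 0 := by
        intro h0
        rw [h0, map_zero] at h2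
        exact zero_ne_one h2
      have ht0 : algebraMap Ω W t ≠ 0 := by simpa using ht
      refine ⟨f⁻¹, by rw [map_inv₀, map_inv₀, h2, inv_one], ?_⟩
      have e : algebraMap L W f⁻¹ - algebraMap Ω W t⁻¹ =
          -(algebraMap L W f - algebraMap Ω W t) / (algebraMap L W f * algebraMap Ω W t) := by
        rw [map_inv₀, map_inv₀]
        field_simp
        ring
      rw [e, map_div₀, map_mul, h1, h2, mul_one, div_one, Valuation.map_neg]
      exact hf'

theorem mem_kap {P : Pl Ω W} {t : Ω} : t ∈ kap K L P ↔ ∃ f : L, P.v (algebraMap L W f) ≤ 1 ∧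
    P.v (algebraMap L W f - algebraMap Ω W t) < 1 := Iff.rfl

variable (K) in
include K in
/-- **the key step**: regular elements of `Ω L` which vanish at `P` are divisible by the generator
of the maximal ideal of `L` -/
theorem step {P : Pl Ω W} {ℓ : L} (hℓ0 : ℓ ≠ 0)
    (hℓ : ∀ f : L, P.v (algebraMap L W f) < 1 →
      P.v (algebraMap L W f) ≤ P.v (algebraMap L W ℓ)) {z : W} (hz : z ∈ BB L P)
    (hz1 : P.v z < 1) :
    ∃ b z' : W, b ∈ BB L P ∧ z' ∈ BB L P ∧ P.v b = 1 ∧ b * z = algebraMap L W ℓ * z' := by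
  classical
  obtain ⟨c, hc, hcz⟩ := mem_BB_iff hz
  have hℓW : algebraMap L W ℓ ≠ 0 := by simpa using hℓ0
  -- division by ℓ
  have hdiv : ∀ f : L, P.v (algebraMap L W f) < 1 →
      ∃ g ∈ BB L P, algebraMap L W f = algebraMap L W ℓ * g := by
    intro f hf
    refine ⟨algebraMap L W (f / ℓ), mem_BB_of ?_, ?_⟩
    · rw [map_div₀, map_div₀]
      exact div_le_one_of_le₀ (hℓ f hf) zero_le
    · rw [map_div₀, mul_div_cancel₀ _ hℓW]
  -- residues
  choose! fx hfx hfx1 using fun (x : W) (hx : x ∈ (c.support : Set W)) => hc hx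
  choose! χ hχ using fun (x : W) (hx : P.v x ≤ 1) => exists_residue P hx
  let T : Finset Ω := c.support.image χ
  let E : IntermediateField K Ω := IntermediateField.adjoin K (T : Set Ω)
  haveI : FiniteDimensional K E := IntermediateField.finiteDimensional_adjoin
    (fun x _ => (Algebra.IsAlgebraic.isAlgebraic (R := K) x).isIntegral)
  have hE : E ≤ kap K L P := by
    rw [IntermediateField.adjoin_le_iff]
    intro t ht
    obtain ⟨x, hx, rfl⟩ := Finset.mem_image.1 (Finset.mem_coe.1 ht)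
    have hx' : x ∈ (c.support : Set W) := hx
    exact mem_kap.2 ⟨fx x, by rw [hfx x hx']; exact hfx1 x hx', by
      rw [hfx x hx']; exact hχ x (hfx1 x hx')⟩
  let pb := Field.powerBasisOfFiniteOfSeparable K E
  obtain ⟨θ, hθ1, hθ⟩ := mem_kap.1 (hE pb.gen.2)
  have hpoly : ∀ x ∈ c.support, ∃ g : K[X], χ x = aeval (pb.gen : Ω) g := by
    intro x hx
    have h1 : χ x ∈ E := IntermediateField.subset_adjoin K _
      (Finset.mem_coe.2 (Finset.mem_image_of_mem χ hx))
    obtain ⟨g, hg⟩ := pb.exists_eq_aeval' ⟨χ x, h1⟩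
    refine ⟨g, ?_⟩
    have h2 := congrArg (algebraMap E Ω) hg
    rw [← aeval_algebraMap_apply] at h2
    exact h2
  choose! g hg using hpoly
  -- polynomials over K evaluated at θ lie in L
  have hKL : ∀ q : K[X], aeval (algebraMap L W θ) (q.map (algebraMap K Ω)) =
      algebraMap L W (aeval θ q) := by
    intro q
    rw [aeval_map_algebraMap, aeval_algebraMap_apply]
  let G : (Polynomial Ω) := ∑ x ∈ c.support, C (c x) * (g x).map (algebraMap K Ω)
  have hsub : ∀ x ∈ c.support, P.v (x - algebraMap L W (aeval θ (g x))) < 1 := by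
    intro x hx
    have h1 := v_aeval_sub_lt hθ ((g x).map (algebraMap K Ω))
    rw [hKL] at h1
    have h2 : ((g x).map (algebraMap K Ω)).eval (pb.gen : Ω) = χ x := by
      rw [hg x hx, eval_map_algebraMap]
    rw [h2] at h1
    have e : x - algebraMap L W (aeval θ (g x)) = (x - algebraMap Ω W (χ x)) -
        (algebraMap L W (aeval θ (g x)) - algebraMap Ω W (χ x)) := by ring
    rw [e]
    exact lt_of_le_of_lt (Valuation.map_sub _ _ _) (max_lt (hχ x (hfx1 x hx)) h1)
  have hdiff : ∃ y ∈ BB L P, z - aeval (algebraMap L W θ) G = algebraMap L W ℓ * y := by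
    have h1 : ∀ x ∈ c.support, ∃ y ∈ BB L P, x - algebraMap L W (aeval θ (g x)) =
        algebraMap L W ℓ * y := by
      intro x hx
      have hx' : x ∈ (c.support : Set W) := hx
      have h2 := hsub x hx
      have e : x - algebraMap L W (aeval θ (g x)) = algebraMap L W (fx x - aeval θ (g x)) := by
        rw [map_sub, hfx x hx']
      rw [e] at h2 ⊢
      exact hdiv _ h2
    choose! y hy hy' using h1
    refine ⟨∑ x ∈ c.support, c x • y x, Subalgebra.sum_mem _ fun x hx =>
      Subalgebra.smul_mem _ (hy x hx) _, ?_⟩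
    have e : z - aeval (algebraMap L W θ) G =
        ∑ x ∈ c.support, c x • (x - algebraMap L W (aeval θ (g x))) := by
      rw [← hcz, Finsupp.sum]
      simp only [G, map_sum, map_mul, aeval_C, hKL, Algebra.smul_def, mul_sub,
        Finset.sum_sub_distrib]
    rw [e, Finset.mul_sum]
    refine Finset.sum_congr rfl fun x hx => ?_
    rw [hy' x hx, mul_smul_comm]
  obtain ⟨y, hyB, hy⟩ := hdiff
  -- G vanishes at the residue
  have hG0 : G.eval (pb.gen : Ω) = 0 := by
    apply v_algebraMap_lt P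
    have h1 := v_aeval_sub_lt hθ G
    have h2 : P.v (algebraMap L W ℓ * y) ≤ P.v (algebraMap L W ℓ) := by
      rw [map_mul]
      calc _ ≤ P.v (algebraMap L W ℓ) * 1 := mul_le_mul_right (v_le_of_mem_BB hyB) _
        _ = _ := mul_one _
    by_cases hℓ1 : P.v (algebraMap L W ℓ) < 1
    · have e : algebraMap Ω W (G.eval (pb.gen : Ω)) = z - algebraMap L W ℓ * y -
          (aeval (algebraMap L W θ) G - algebraMap Ω W (G.eval (pb.gen : Ω))) := by
        rw [← hy]; ring
      rw [e]
      refine lt_of_le_of_lt (Valuation.map_sub _ _ _) (max_lt ?_ h1)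
      exact lt_of_le_of_lt (Valuation.map_sub _ _ _) (max_lt hz1 (lt_of_le_of_lt h2 hℓ1))
    · -- then the differences vanish to order `< 1` anyway
      have h3 : P.v (z - aeval (algebraMap L W θ) G) < 1 := by
        have e : z - aeval (algebraMap L W θ) G =
            ∑ x ∈ c.support, c x • (x - algebraMap L W (aeval θ (g x))) := by
          rw [← hcz, Finsupp.sum]
          simp only [G, map_sum, map_mul, aeval_C, hKL, Algebra.smul_def, mul_sub,
            Finset.sum_sub_distrib]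
        rw [e]
        refine Valuation.map_sum_lt _ one_ne_zero fun x hx => ?_
        rw [Algebra.smul_def, map_mul]
        calc _ ≤ 1 * P.v (x - algebraMap L W (aeval θ (g x))) :=
              mul_le_mul_left (v_algebraMap_le P _) _
          _ < 1 := by rw [one_mul]; exact hsub x hx
      have e : algebraMap Ω W (G.eval (pb.gen : Ω)) = z - (z - aeval (algebraMap L W θ) G) -
          (aeval (algebraMap L W θ) G - algebraMap Ω W (G.eval (pb.gen : Ω))) := by
        ring
      rw [e]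
      refine lt_of_le_of_lt (Valuation.map_sub _ _ _) (max_lt ?_ h1)
      exact lt_of_le_of_lt (Valuation.map_sub _ _ _) (max_lt hz1 h3)
  obtain ⟨G₁, hG₁⟩ := dvd_iff_isRoot.2 (show IsRoot G (pb.gen : Ω) from hG0)
  -- the minimal polynomial
  have hint : IsIntegral K (pb.gen : Ω) := (Algebra.IsAlgebraic.isAlgebraic _).isIntegral
  set m : K[X] := minpoly K (pb.gen : Ω) with hm
  have hm0 : (m.map (algebraMap K Ω)).eval (pb.gen : Ω) = 0 := by
    rw [eval_map_algebraMap]; exact minpoly.aeval _ _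
  obtain ⟨m₁, hm₁⟩ := dvd_iff_isRoot.2 (show IsRoot (m.map (algebraMap K Ω)) (pb.gen : Ω) from hm0)
  have hm₁0 : m₁.eval (pb.gen : Ω) ≠ 0 := by
    have hsep : m.Separable := (minpoly.irreducible hint).separable
    have h1 : (derivative (m.map (algebraMap K Ω))).eval (pb.gen : Ω) ≠ 0 := by
      rw [derivative_map, eval_map_algebraMap]
      exact hsep.aeval_derivative_ne_zero (minpoly.aeval _ _)
    rw [hm₁, derivative_mul] at h1
    simpa using h1
  have hbB : aeval (algebraMap L W θ) m₁ ∈ BB L P :=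
    aeval_mem_BB (mem_BB_of hθ1) m₁
  have hGB : aeval (algebraMap L W θ) G₁ ∈ BB L P :=
    aeval_mem_BB (mem_BB_of hθ1) G₁
  have hb1 : P.v (aeval (algebraMap L W θ) m₁) = 1 := by
    have h1 := v_aeval_sub_lt hθ m₁
    have h2 : P.v (algebraMap Ω W (m₁.eval (pb.gen : Ω))) = 1 := P.const _ hm₁0
    have h3 := Valuation.map_add_eq_of_lt_right (v := P.v)
      (x := aeval (algebraMap L W θ) m₁ - algebraMap Ω W (m₁.eval (pb.gen : Ω)))
      (y := algebraMap Ω W (m₁.eval (pb.gen : Ω))) (by rwa [h2])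
    rwa [sub_add_cancel, h2] at h3
  obtain ⟨m', hm'B, hm'⟩ := hdiv (aeval θ m) (by
    rw [← hKL]
    have h1 := v_aeval_sub_lt hθ (m.map (algebraMap K Ω))
    rwa [hm0, map_zero, sub_zero] at h1)
  refine ⟨aeval (algebraMap L W θ) m₁, aeval (algebraMap L W θ) m₁ * y +
    m' * aeval (algebraMap L W θ) G₁, hbB, Subalgebra.add_mem _ (Subalgebra.mul_mem _ hbB hyB)
    (Subalgebra.mul_mem _ hm'B hGB), hb1, ?_⟩
  have h1 : aeval (algebraMap L W θ) m₁ * aeval (algebraMap L W θ) G =
      algebraMap L W ℓ * m' * aeval (algebraMap L W θ) G₁ := by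
    rw [← hm', ← hKL, hm₁, hG₁, map_mul, map_mul]
    ring
  have h2 : z = (z - aeval (algebraMap L W θ) G) + aeval (algebraMap L W θ) G := by ring
  rw [h2, mul_add, h1, hy]
  ring

variable (K) in
include K in
/-- **constant extensions are unramified** -/
theorem exists_unif (hgen : Algebra.adjoin Ω (Set.range (algebraMap L W)) = ⊤)
    [Algebra.IsAlgebraic L W] (P : Pl Ω W) : ∃ ℓ : L, P.v (algebraMap L W ℓ) = exp (-1) := by
  classical
  -- L carries a nontrivial value
  obtain ⟨ℓ₀, hℓ₀⟩ : ∃ f : L, f ≠ 0 ∧ P.v (algebraMap L W f) < 1 := by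
    by_contra hcon
    push Not at hcon
    have h1 : ∀ c : L, c ≠ 0 → P.v (algebraMap L W c) = 1 := by
      intro c hc
      refine le_antisymm ?_ (hcon c hc)
      have h2 := hcon c⁻¹ (inv_ne_zero hc)
      rw [map_inv₀, map_inv₀] at h2
      have h3 : 0 < P.v (algebraMap L W c) := by
        rw [Valuation.pos_iff]; simpa using hc
      exact (one_le_inv₀ h3).1 h2
    obtain ⟨z, hz⟩ := P.surj (exp (-1))
    have hz0 : z ≠ 0 := by rintro rfl; rw [map_zero] at hz; exact exp_ne_zero hz.symm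
    have h4 := CntB2_491.eq_one_of_algebraic (k := L) (k' := W) (L := W) P.v h1 z hz0
    have h5 : P.v z = 1 := h4
    rw [hz, ← exp_zero, exp_inj] at h5
    norm_num at h5
  have hex : ∃ e : ℕ, 0 < e ∧ ∃ f : L, P.v (algebraMap L W f) = exp (-(e : ℤ)) := by
    have h1 : P.v (algebraMap L W ℓ₀) ≠ 0 := by
      rw [Valuation.ne_zero_iff]; simpa using hℓ₀.1
    have h2 := hℓ₀.2
    rw [← exp_log h1, ← exp_zero, exp_lt_exp] at h2
    refine ⟨(-log (P.v (algebraMap L W ℓ₀))).toNat, by omega, ℓ₀, ?_⟩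
    rw [Int.toNat_of_nonneg (by omega), neg_neg, exp_log h1]
  obtain ⟨he0, ℓ, hℓ⟩ := Nat.find_spec hex
  set e := Nat.find hex with he
  have hmin : ∀ f : L, P.v (algebraMap L W f) < 1 →
      P.v (algebraMap L W f) ≤ P.v (algebraMap L W ℓ) := by
    intro f hf
    by_cases hf0 : f = 0
    · rw [hf0, map_zero, map_zero]; exact zero_le
    have h1 : P.v (algebraMap L W f) ≠ 0 := by
      rw [Valuation.ne_zero_iff]; simpa using hf0
    have h2 := hf
    rw [← exp_log h1, ← exp_zero, exp_lt_exp] at h2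
    have h3 : e ≤ (-log (P.v (algebraMap L W f))).toNat := by
      apply Nat.find_min' hex
      refine ⟨by omega, f, ?_⟩
      rw [Int.toNat_of_nonneg (by omega), neg_neg, exp_log h1]
    rw [hℓ, ← exp_log h1, exp_le_exp]
    omega
  have hℓ0 : ℓ ≠ 0 := by
    rintro rfl
    rw [map_zero, map_zero] at hℓ
    exact exp_ne_zero hℓ.symm
  have hℓW : algebraMap L W ℓ ≠ 0 := by simpa using hℓ0
  -- values of BB
  have hdvd : ∀ (n : ℕ) (z : W), z ∈ BB L P → z ≠ 0 → (-log (P.v z)).toNat = n →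
      (e : ℤ) ∣ log (P.v z) := by
    intro n
    induction n using Nat.strong_induction_on with
    | _ n ih =>
      intro z hz hz0 hn
      have hle := v_le_of_mem_BB hz
      have hvz : P.v z ≠ 0 := (Valuation.ne_zero_iff _).2 hz0
      rcases eq_or_lt_of_le hle with h1 | h1
      · rw [h1, ← exp_zero, log_exp]
        exact dvd_zero _
      · obtain ⟨b, z', hb, hz', hb1, hbz⟩ := step K hℓ0 hmin hz h1
        have hz'0 : z' ≠ 0 := by
          rintro rfl
          rw [mul_zero, mul_eq_zero] at hbz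
          rcases hbz with h2 | h2
          · rw [h2, map_zero] at hb1
            exact zero_ne_one hb1
          · exact hz0 h2
        have hvz' : P.v z' ≠ 0 := (Valuation.ne_zero_iff _).2 hz'0
        have h2 := congrArg P.v hbz
        rw [map_mul, map_mul, hb1, one_mul, hℓ] at h2
        have h3 : log (P.v z) = -(e : ℤ) + log (P.v z') := by
          rw [h2, log_mul exp_ne_zero hvz', log_exp]
        rw [← exp_log hvz, ← exp_zero, exp_lt_exp] at h1
        have h4 := v_le_of_mem_BB hz'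
        rw [← exp_log hvz', ← exp_zero, exp_le_exp] at h4
        obtain ⟨k, hk⟩ := ih (-log (P.v z')).toNat (by omega) z' hz' hz'0 rfl
        exact ⟨k - 1, by rw [h3, hk]; ring⟩
  -- a uniformizer
  obtain ⟨u, hu⟩ := P.surj (exp (-1))
  have hu0 : u ≠ 0 := by rintro rfl; rw [map_zero] at hu; exact exp_ne_zero hu.symm
  have huB : ∀ u ∈ Algebra.adjoin Ω (Set.range (algebraMap L W)),
      ∃ k : ℕ, algebraMap L W ℓ ^ k * u ∈ BB L P := by
    intro u hu'
    induction hu' using Algebra.adjoin_induction with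
    | mem x hx =>
      obtain ⟨f, rfl⟩ := hx
      by_cases hf0 : f = 0
      · exact ⟨0, by rw [hf0, map_zero, mul_zero]; exact Subalgebra.zero_mem _⟩
      have h1 : P.v (algebraMap L W f) ≠ 0 := by
        rw [Valuation.ne_zero_iff]; simpa using hf0
      obtain ⟨n, hn⟩ : ∃ n : ℤ, P.v (algebraMap L W f) = exp n := ⟨_, (exp_log h1).symm⟩
      refine ⟨n.toNat, ?_⟩
      rw [← map_pow, ← map_mul]
      apply mem_BB_of
      rw [map_mul, map_mul, map_pow, map_pow, hℓ, ← exp_nsmul, hn, ← exp_add, ← exp_zero,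
        exp_le_exp]
      have h2 := Int.self_le_toNat n
      rw [nsmul_eq_mul]
      have h3 : (1 : ℤ) ≤ e := by exact_mod_cast he0
      have h4 : (0 : ℤ) ≤ (n.toNat : ℤ) := Int.natCast_nonneg _
      nlinarith
    | algebraMap r => exact ⟨0, by rw [pow_zero, one_mul]; exact Subalgebra.algebraMap_mem _ r⟩
    | add x y _ _ hx hy =>
      obtain ⟨k, hk⟩ := hx
      obtain ⟨k', hk'⟩ := hy
      refine ⟨k + k', ?_⟩
      have hℓB : algebraMap L W ℓ ∈ BB L P := mem_BB_of (by
        rw [hℓ, ← exp_zero, exp_le_exp]; omega)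
      have e1 : algebraMap L W ℓ ^ (k + k') * (x + y) =
          algebraMap L W ℓ ^ k' * (algebraMap L W ℓ ^ k * x) +
            algebraMap L W ℓ ^ k * (algebraMap L W ℓ ^ k' * y) := by ring
      rw [e1]
      exact Subalgebra.add_mem _ (Subalgebra.mul_mem _ (Subalgebra.pow_mem _ hℓB _) hk)
        (Subalgebra.mul_mem _ (Subalgebra.pow_mem _ hℓB _) hk')
    | mul x y _ _ hx hy =>
      obtain ⟨k, hk⟩ := hx
      obtain ⟨k', hk'⟩ := hy
      refine ⟨k + k', ?_⟩
      have e1 : algebraMap L W ℓ ^ (k + k') * (x * y) =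
          (algebraMap L W ℓ ^ k * x) * (algebraMap L W ℓ ^ k' * y) := by ring
      rw [e1]
      exact Subalgebra.mul_mem _ hk hk'
  obtain ⟨k, hk⟩ := huB u (by rw [hgen]; trivial)
  have h1 := hdvd _ _ hk (mul_ne_zero (pow_ne_zero _ hℓW) hu0) rfl
  have h2 : log (P.v (algebraMap L W ℓ ^ k * u)) = k * (-(e : ℤ)) + -1 := by
    rw [map_mul, map_pow, hℓ, hu, ← exp_nsmul, ← exp_add, log_exp, nsmul_eq_mul]
  rw [h2] at h1
  have h3 : (e : ℤ) ∣ 1 := by
    obtain ⟨j, hj⟩ := h1
    exact ⟨-k - j, by linear_combination -hj⟩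
  have h4 : e = 1 := by
    have := Int.le_of_dvd one_pos h3
    omega
  refine ⟨ℓ, ?_⟩
  rw [hℓ, h4]
  rfl

end Ram

end Crest.Agent.R013.Tors11_235
end

-- ▼ part R013/Tors12_235
section

/-!
# Row 13, leaf TORS (helper235), part 12: places above a valuation and the Galois action for a
constant extension `W = Ω L`.
-/

set_option autoImplicit false
set_option linter.all false

namespace Crest.Agent.R013.Tors12_235

open WithZero Module
open Crest.Agent.R013.RR7_948 Crest.Agent.R013.RR8_948 Crest.Agent.R013.RR11_948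
open Crest.Agent.R013.RR13_948 Crest.Agent.R013.CE1_280

variable {K Ω L W : Type*} [Field K] [Field Ω] [Field L] [Field W] [Algebra K Ω] [Algebra K L]
  [Algebra K W] [Algebra Ω W] [Algebra L W] [IsScalarTower K Ω W] [IsScalarTower K L W]
  [IsAlgClosed Ω] [Algebra.IsAlgebraic K Ω] [CharZero K]

section Above

variable [Algebra (RatFunc Ω) W] [IsScalarTower Ω (RatFunc Ω) W] [FiniteDimensional (RatFunc Ω) W]
  [Algebra.IsSeparable (RatFunc Ω) W]

/-- every valuation of `L` trivial on `K` extends to a place of `W` -/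
theorem exists_above (w : Valuation L ℤᵐ⁰)
    (hw : ∀ b : K, b ≠ 0 → w (algebraMap K L b) = 1) (hnt : ∃ a : L, w a ≠ 0 ∧ w a ≠ 1) :
    ∃ P : Pl Ω W, w.IsEquiv (P.v.comap (algebraMap L W)) := by
  let A : ValuationSubring L := w.valuationSubring
  have hA : ∀ f : L, f ∈ A ↔ w f ≤ 1 := fun f => Iff.rfl
  obtain ⟨Q, hQ, hQA⟩ := Ideal.exists_ideal_over_maximal_of_isIntegral
    (S := integralClosure A W) (IsLocalRing.maximalIdeal A) (by
      have h1 : Function.Injective (algebraMap A (integralClosure A W)) := by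
        intro a b hab
        have h2 := congrArg Subtype.val hab
        have h3 : algebraMap L W a = algebraMap L W b := h2
        exact Subtype.ext ((algebraMap L W).injective h3)
      rw [(RingHom.injective_iff_ker_eq_bot _).1 h1]
      exact bot_le)
  obtain ⟨V, hV, hQV⟩ := Ideal.image_subset_nonunits_valuationSubring
    (A := (integralClosure A W).toSubring) (Q : Ideal (integralClosure A W).toSubring) hQ.ne_top
  have hVA : ∀ f : L, w f ≤ 1 → V.valuation (algebraMap L W f) ≤ 1 := by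
    intro f hf
    rw [V.valuation_le_one_iff]
    apply hV
    exact (algebraMap A (integralClosure A W) ⟨f, (hA f).2 hf⟩).2
  have hVm : ∀ f : L, w f < 1 → V.valuation (algebraMap L W f) < 1 := by
    intro f hf
    have h1 : (⟨f, (hA f).2 hf.le⟩ : A) ∈ IsLocalRing.maximalIdeal A := by
      rw [IsLocalRing.mem_maximalIdeal, mem_nonunits_iff]
      intro hu
      obtain ⟨g, hg⟩ := isUnit_iff_exists_inv.1 hu
      have h2 := congrArg (fun a : A => w (a : L)) hg
      have h3 : w (f * (g : L)) = 1 := by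
        have : w (f * (g : L)) = w ((1 : A) : L) := h2
        rw [this]
        exact map_one w
      rw [map_mul] at h3
      have h4 : w (g : L) ≤ 1 := (hA _).1 g.2
      have h5 : w f * w (g : L) < 1 := by
        calc _ ≤ w f * 1 := mul_le_mul_right h4 _
          _ < 1 := by rw [mul_one]; exact hf
      exact absurd h3 h5.ne
    rw [← hQA, Ideal.mem_comap] at h1
    exact (V.mem_nonunits_iff).mp (hQV ⟨_, h1, rfl⟩)
  have hVK : ∀ c : K, V.valuation (algebraMap K W c) ≤ 1 := by
    intro c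
    rw [IsScalarTower.algebraMap_apply K L W]
    apply hVA
    by_cases hc : c = 0
    · simp [hc]
    · exact (hw c hc).le
  have hVΩ : ∀ c : Ω, V.valuation (algebraMap Ω W c) ≤ 1 := by
    intro c
    apply le_one_of_integral (S := K) V.valuation hVK
    exact ((Algebra.IsAlgebraic.isAlgebraic (R := K) c).isIntegral).map
      (IsScalarTower.toAlgHom K Ω W)
  obtain ⟨a, ha0, ha1⟩ := hnt
  obtain ⟨a', ha0', ha1'⟩ : ∃ a : L, a ≠ 0 ∧ w a < 1 := by
    have haa : a ≠ 0 := (Valuation.ne_zero_iff _).1 ha0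
    rcases lt_or_gt_of_ne ha1 with h | h
    · exact ⟨a, haa, h⟩
    · exact ⟨a⁻¹, inv_ne_zero haa, by rw [map_inv₀]; exact inv_lt_one_of_one_lt₀ h⟩
  obtain ⟨P, hP⟩ := exists_place (k := Ω) V.valuation (by
    intro c hc
    refine le_antisymm (hVΩ c) ?_
    have h1 := hVΩ c⁻¹
    rw [map_inv₀, map_inv₀] at h1
    have h2 : 0 < V.valuation (algebraMap Ω W c) := by
      rw [Valuation.pos_iff]; simpa using hc
    exact (inv_le_one₀ h2).1 h1) ⟨algebraMap L W a', by
      rw [Valuation.ne_zero_iff]; simpa using ha0', (hVm a' ha1').ne⟩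
  refine ⟨P, ?_⟩
  apply Valuation.isEquiv_of_val_le_one
  intro f
  rw [Valuation.comap_apply]
  constructor
  · intro h
    rw [hP.le_one_iff_le_one]
    exact hVA f h
  · intro h
    by_contra hcon
    push Not at hcon
    have hf0 : f ≠ 0 := by rintro rfl; simp at hcon
    have h1 : w f⁻¹ < 1 := by rw [map_inv₀]; exact inv_lt_one_of_one_lt₀ hcon
    have h2 := hVm _ h1
    rw [← hP.lt_one_iff_lt_one, map_inv₀, map_inv₀] at h2
    have h3 : 0 < P.v (algebraMap L W f) := by
      rw [Valuation.pos_iff]; simpa using hf0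
    rw [inv_lt_one₀ h3] at h2
    exact absurd h (not_le.2 h2)

end Above

section Gal

variable (K Ω L W)

/-- `W` is generated by `L` and `Ω` -/
def Gen : Prop := Algebra.adjoin Ω (Set.range (algebraMap L W)) = ⊤

variable {K Ω L W}

include K in
variable (K) in
theorem isAlgebraic (hgen : Gen Ω L W) : Algebra.IsAlgebraic L W := by
  refine ⟨fun x => ?_⟩
  have hx : x ∈ Algebra.adjoin Ω (Set.range (algebraMap L W)) := by rw [hgen]; trivial
  induction hx using Algebra.adjoin_induction with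
  | mem x hx =>
    obtain ⟨f, rfl⟩ := hx
    exact isAlgebraic_algebraMap f
  | algebraMap r =>
    have h1 : IsIntegral K (algebraMap Ω W r) :=
      ((Algebra.IsAlgebraic.isAlgebraic (R := K) r).isIntegral).map (IsScalarTower.toAlgHom K Ω W)
    exact h1.tower_top.isAlgebraic
  | add x y _ _ hx hy => exact hx.add hy
  | mul x y _ _ hx hy => exact hx.mul hy

include K in
variable (K) in
theorem isGalois (hgen : Gen Ω L W) : IsGalois L W := by
  haveI := isAlgebraic K hgen
  haveI : CharZero L := charZero_of_injective_algebraMap (algebraMap K L).injective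
  have hE : IntermediateField.adjoin L (Set.range (algebraMap Ω W)) = ⊤ := by
    rw [eq_top_iff]
    intro x _
    have hx : x ∈ Algebra.adjoin Ω (Set.range (algebraMap L W)) := by rw [hgen]; trivial
    induction hx using Algebra.adjoin_induction with
    | mem x hx =>
      obtain ⟨f, rfl⟩ := hx
      exact IntermediateField.algebraMap_mem _ f
    | algebraMap r => exact IntermediateField.subset_adjoin L _ ⟨r, rfl⟩
    | add x y _ _ hx hy =>
      exact IntermediateField.add_mem _ (hx IntermediateField.mem_top) (hy IntermediateField.mem_top)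
    | mul x y _ _ hx hy =>
      exact IntermediateField.mul_mem _ (hx IntermediateField.mem_top) (hy IntermediateField.mem_top)
  haveI : Normal L W := by
    rw [normal_iff]
    intro x
    refine ⟨(Algebra.IsAlgebraic.isAlgebraic x).isIntegral, ?_⟩
    apply IntermediateField.splits_of_mem_adjoin L W (S := Set.range (algebraMap Ω W)) (L := W)
    · rintro _ ⟨r, rfl⟩
      refine ⟨(Algebra.IsAlgebraic.isAlgebraic _).isIntegral, ?_⟩
      have hr : IsIntegral K r := (Algebra.IsAlgebraic.isAlgebraic r).isIntegral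
      have h1 : ((minpoly K r).map (algebraMap K Ω)).Splits := IsAlgClosed.splits _
      have h2 := h1.map (algebraMap Ω W)
      rw [Polynomial.map_map, ← IsScalarTower.algebraMap_eq] at h2
      have h3 : minpoly L (algebraMap Ω W r) ∣ (minpoly K r).map (algebraMap K L) := by
        have h4 := minpoly.dvd_map_of_isScalarTower K L (algebraMap Ω W r)
        have h6 : minpoly K (algebraMap Ω W r) = minpoly K r :=
          minpoly.algebraMap_eq (algebraMap Ω W).injective r
        rwa [h6] at h4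
      have h5 := Polynomial.map_dvd (algebraMap L W) h3
      rw [Polynomial.map_map, ← IsScalarTower.algebraMap_eq] at h5
      exact h2.of_dvd (Polynomial.map_ne_zero (minpoly.ne_zero hr)) h5
    · rw [hE]; exact IntermediateField.mem_top
  exact { }

include K in
variable (K) in
/-- `Ω` is stable under `Gal(W/L)` -/
theorem exists_eq (τ : W ≃ₐ[L] W) (c : Ω) : ∃ c' : Ω, algebraMap Ω W c' = τ (algebraMap Ω W c) := by
  have h1 : IsIntegral K (algebraMap Ω W c) :=
    ((Algebra.IsAlgebraic.isAlgebraic (R := K) c).isIntegral).map (IsScalarTower.toAlgHom K Ω W)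
  have h2 : IsIntegral K (τ (algebraMap Ω W c)) :=
    h1.map (τ.toAlgHom.restrictScalars K)
  have h3 : IsIntegral Ω (τ (algebraMap Ω W c)) := h2.tower_top
  exact minpoly.mem_range_of_degree_eq_one Ω _
    (IsAlgClosed.degree_eq_one_of_irreducible Ω (minpoly.irreducible h3))

/-- the action on places -/
noncomputable def tw (K : Type*) [Field K] [CharZero K] [Algebra K Ω] [Algebra K L] [Algebra K W]
    [IsScalarTower K Ω W] [IsScalarTower K L W] [Algebra.IsAlgebraic K Ω]
    (τ : W ≃ₐ[L] W) (P : Pl Ω W) : Pl Ω W where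
  v := P.v.comap (τ : W →+* W)
  const c hc := by
    obtain ⟨c', hc'⟩ := exists_eq K τ c
    rw [Valuation.comap_apply]
    show P.v (τ (algebraMap Ω W c)) = 1
    rw [← hc']
    apply P.const
    rintro rfl
    rw [map_zero] at hc'
    have h1 : algebraMap Ω W c = 0 := by
      rw [← map_eq_zero τ, ← hc']
    exact hc (by simpa using h1)
  surj m := by
    obtain ⟨x, hx⟩ := P.surj m
    refine ⟨τ.symm x, ?_⟩
    rw [Valuation.comap_apply]
    show P.v (τ (τ.symm x)) = m
    rw [AlgEquiv.apply_symm_apply, hx]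

theorem tw_v (τ : W ≃ₐ[L] W) (P : Pl Ω W) (x : W) : (tw K τ P).v x = P.v (τ x) := rfl

theorem tw_symm_tw (τ : W ≃ₐ[L] W) (P : Pl Ω W) : tw K τ (tw K τ.symm P) = P := by
  apply Pl.ext
  ext x
  rw [tw_v, tw_v, AlgEquiv.symm_apply_apply]

theorem tw_tw_symm (τ : W ≃ₐ[L] W) (P : Pl Ω W) : tw K τ.symm (tw K τ P) = P := by
  apply Pl.ext
  ext x
  rw [tw_v, tw_v, AlgEquiv.apply_symm_apply]

variable (K) in
/-- the permutation of the places -/
noncomputable def twE (τ : W ≃ₐ[L] W) : Pl Ω W ≃ Pl Ω W where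
  toFun := tw K τ
  invFun := tw K τ.symm
  left_inv := tw_tw_symm τ
  right_inv := tw_symm_tw τ

end Gal

end Crest.Agent.R013.Tors12_235
end

-- ▼ part R013/Tors13_235
section

/-!
# Row 13, leaf TORS (helper235), part 13: descent of a function whose divisor is invariant modulo `N`
(reduced divisors instead of Hilbert 90).
-/

set_option autoImplicit false
set_option linter.all false

namespace Crest.Agent.R013.Tors13_235

open WithZero Module
open Crest.Agent.R013.RR7_948 Crest.Agent.R013.RR8_948 Crest.Agent.R013.RR9_948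
open Crest.Agent.R013.RR11_948 Crest.Agent.R013.RR12_948
open Crest.Agent.R013.RR13_948 Crest.Agent.R013.CE1_280 Crest.Agent.R013.CE5_280
open Crest.Agent.R013.Tors12_235

section AC

variable {Ω W : Type*} [Field Ω] [Field W] [Algebra Ω W] [IsAlgClosed Ω]
  [Algebra (RatFunc Ω) W] [IsScalarTower Ω (RatFunc Ω) W] [FiniteDimensional (RatFunc Ω) W]
  [Algebra.IsSeparable (RatFunc Ω) W]

theorem ell_step (D : Pl Ω W →₀ ℤ) (P : Pl Ω W) :
    ell D ≤ ell (D - Finsupp.single P 1) + 1 := by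
  have h1 := riemann_roch (algebraicClosure_eq_bot (k := Ω) (K := W)) D
  have h2 := riemann_roch (algebraicClosure_eq_bot (k := Ω) (K := W)) (D - Finsupp.single P 1)
  have h3 : ell (canD Ω W - D) ≤ ell (canD Ω W - (D - Finsupp.single P 1)) := by
    apply ell_mono
    have e : canD Ω W - (D - Finsupp.single P 1) = (canD Ω W - D) + Finsupp.single P 1 := by abel
    rw [e]
    exact le_add_of_nonneg_right (Finsupp.single_nonneg.2 zero_le_one)
  rw [degD_sub, degD_single, degP_eq_one] at h2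
  have h3' : (ell (canD Ω W - D) : ℤ) ≤ ell (canD Ω W - (D - Finsupp.single P 1)) := by
    exact_mod_cast h3
  have h4 : (ell D : ℤ) ≤ ell (D - Finsupp.single P 1) + 1 := by
    rw [h1, h2]
    push_cast
    linarith
  exact_mod_cast h4

theorem exists_of_ell_pos {D : Pl Ω W →₀ ℤ} (h : 0 < ell D) :
    ∃ f : W, f ≠ 0 ∧ 0 ≤ D + divf f := by
  have h2 : LD D ≠ ⊥ := by
    intro h0
    unfold ell at h
    rw [h0] at h
    simp at h
  obtain ⟨f, hf, hf0⟩ := Submodule.exists_mem_ne_zero_of_ne_bot h2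
  exact ⟨f, hf0, (mem_LD_iff hf0).1 hf⟩

/-- reduced representatives -/
theorem reduce (E : Pl Ω W →₀ ℤ) (hE : degD E = 0) (P : Pl Ω W) :
    ∃ (n : ℕ) (f : W), f ≠ 0 ∧ ell (E + Finsupp.single P (n : ℤ)) = 1 ∧
      0 ≤ E + Finsupp.single P (n : ℤ) + divf f := by
  classical
  have hex : ∃ n : ℕ, 0 < ell (E + Finsupp.single P (n : ℤ)) := by
    refine ⟨gen Ω W, ?_⟩
    have h1 := ell_ge (algebraicClosure_eq_bot (k := Ω) (K := W))
      (E + Finsupp.single P ((gen Ω W : ℕ) : ℤ))
    rw [degD_add, hE, degD_single, degP_eq_one] at h1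
    have h2 : (0 : ℤ) < ell (E + Finsupp.single P ((gen Ω W : ℕ) : ℤ)) := by
      push_cast at h1
      linarith
    exact_mod_cast h2
  have hn := Nat.find_spec hex
  set n := Nat.find hex with hndef
  obtain ⟨f, hf, hf'⟩ := exists_of_ell_pos hn
  refine ⟨n, f, hf, ?_, hf'⟩
  have h1 : ell (E + Finsupp.single P (n : ℤ) - Finsupp.single P 1) = 0 := by
    rcases Nat.eq_zero_or_pos n with h0 | h0
    · apply ell_of_degD_neg
      rw [h0, degD_sub, degD_add, hE, degD_single, degD_single, degP_eq_one]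
      norm_num
    · have h2 : ¬ 0 < ell (E + Finsupp.single P ((n - 1 : ℕ) : ℤ)) :=
        Nat.find_min hex (by omega)
      have e : E + Finsupp.single P (n : ℤ) - Finsupp.single P 1 =
          E + Finsupp.single P ((n - 1 : ℕ) : ℤ) := by
        rw [add_sub_assoc, ← Finsupp.single_sub, Nat.cast_sub h0]
        norm_num
      rw [e]
      omega
  have h2 := ell_step (E + Finsupp.single P (n : ℤ)) P
  rw [h1] at h2
  omega

theorem exists_const {f g : W} (hf : f ≠ 0) (hg : g ≠ 0)
    (h : divf (k := Ω) f = divf g) : ∃ c : Ω, c ≠ 0 ∧ f = algebraMap Ω W c * g := by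
  have h1 : ∀ P : Pl Ω W, P.v (f / g) ≤ 1 := by
    intro P
    rw [map_div₀, v_eq hf, v_eq hg, h, div_self exp_ne_zero]
  have h2 : IsAlgebraic Ω (f / g) := isAlgebraic_of_no_poles (k := Ω) h1
  obtain ⟨c, hc⟩ := minpoly.mem_range_of_degree_eq_one Ω (f / g)
    (IsAlgClosed.degree_eq_one_of_irreducible Ω (minpoly.irreducible h2.isIntegral))
  refine ⟨c, ?_, by rw [hc, div_mul_cancel₀ _ hg]⟩
  rintro rfl
  rw [map_zero] at hc
  exact div_ne_zero hf hg hc.symm

theorem divf_eq_zero_of_ell {D : Pl Ω W →₀ ℤ} (hD : 0 ≤ D) (hD1 : ell D = 1) {u : W} (hu : u ≠ 0)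
    (h : 0 ≤ D + divf u) : divf (k := Ω) u = 0 := by
  have h1 : (1 : W) ∈ LD D := by
    rw [mem_LD_iff one_ne_zero, divf_one, add_zero]; exact hD
  have h2 : u ∈ LD D := (mem_LD_iff hu).2 h
  have h3 : finrank Ω (LD D) = 1 := hD1
  obtain ⟨c, hc⟩ := (finrank_eq_one_iff_of_nonzero' (⟨1, h1⟩ : LD D) (by
    intro h0
    exact one_ne_zero (congrArg Subtype.val h0))).1 h3 ⟨u, h2⟩
  have h4 : c • (1 : W) = u := congrArg Subtype.val hc
  have hc0 : c ≠ 0 := by
    rintro rfl
    rw [zero_smul] at h4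
    exact hu h4.symm
  ext P
  have h5 := v_eq hu P
  rw [← h4, Algebra.smul_def, mul_one, P.const c hc0, ← exp_zero, exp_inj] at h5
  rw [Finsupp.zero_apply, ← h4, Algebra.smul_def, mul_one]
  omega

end AC

section Descent

variable {K Ω L W : Type*} [Field K] [Field Ω] [Field L] [Field W] [Algebra K Ω] [Algebra K L]
  [Algebra K W] [Algebra Ω W] [Algebra L W] [IsScalarTower K Ω W] [IsScalarTower K L W]
  [IsAlgClosed Ω] [Algebra.IsAlgebraic K Ω] [CharZero K]
  [Algebra (RatFunc Ω) W] [IsScalarTower Ω (RatFunc Ω) W] [FiniteDimensional (RatFunc Ω) W]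
  [Algebra.IsSeparable (RatFunc Ω) W]

variable (K) in
/-- the action on divisors -/
noncomputable def twD (τ : W ≃ₐ[L] W) (E : Pl Ω W →₀ ℤ) : Pl Ω W →₀ ℤ :=
  E.equivMapDomain (twE K τ).symm

theorem twD_apply (τ : W ≃ₐ[L] W) (E : Pl Ω W →₀ ℤ) (P : Pl Ω W) :
    twD K τ E P = E (tw K τ P) := by
  unfold twD
  rw [Finsupp.equivMapDomain_apply]
  rfl

theorem divf_tau (τ : W ≃ₐ[L] W) {h : W} (h0 : h ≠ 0) :
    divf (k := Ω) (τ h) = twD K τ (divf h) := by
  have h0' : τ h ≠ 0 := by simpa using h0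
  ext P
  rw [twD_apply]
  have h1 := v_eq h0' P
  have h2 := v_eq h0 (tw K τ P)
  rw [tw_v, h1, exp_inj] at h2
  omega

theorem twD_single (τ : W ≃ₐ[L] W) {P : Pl Ω W} (hP : tw K τ P = P) (n : ℤ) :
    twD K τ (Finsupp.single P n) = Finsupp.single P n := by
  classical
  ext R
  rw [twD_apply, Finsupp.single_apply, Finsupp.single_apply]
  by_cases h : P = R
  · subst h
    rw [if_pos hP.symm, if_pos rfl]
  · rw [if_neg h, if_neg]
    intro h1
    apply h
    apply (twE K τ).injective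
    show tw K τ P = tw K τ R
    rw [hP, h1]

theorem twD_add (τ : W ≃ₐ[L] W) (D E : Pl Ω W →₀ ℤ) :
    twD K τ (D + E) = twD K τ D + twD K τ E := by
  ext P
  rw [Finsupp.add_apply, twD_apply, twD_apply, twD_apply, Finsupp.add_apply]

theorem twD_sub (τ : W ≃ₐ[L] W) (D E : Pl Ω W →₀ ℤ) :
    twD K τ (D - E) = twD K τ D - twD K τ E := by
  ext P
  rw [Finsupp.sub_apply, twD_apply, twD_apply, twD_apply, Finsupp.sub_apply]

theorem twD_nonneg (τ : W ≃ₐ[L] W) {D : Pl Ω W →₀ ℤ} (h : 0 ≤ D) : 0 ≤ twD K τ D := by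
  intro P
  rw [twD_apply]
  exact h _

variable (K) in
include K in
/-- **descent** -/
theorem descent (hgen : Gen Ω L W) {N : ℕ} (hN : 0 < N) {P₀ Q₀ : Pl Ω W}
    (hP₀ : ∀ τ : W ≃ₐ[L] W, tw K τ P₀ = P₀) (hQ₀ : ∀ τ : W ≃ₐ[L] W, tw K τ Q₀ = Q₀)
    (hT : ∀ (D : Pl Ω W →₀ ℤ) (f : W), f ≠ 0 → N • D = divf f → ∃ g : W, g ≠ 0 ∧ D = divf g)
    {E : Pl Ω W →₀ ℤ} (hE : degD E = 0) {h : W} (h0 : h ≠ 0)
    (hh : Finsupp.single Q₀ 1 - Finsupp.single P₀ 1 = N • E + divf h) :
    ∃ (h' : L) (E' : Pl Ω W →₀ ℤ), h' ≠ 0 ∧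
      Finsupp.single Q₀ 1 - Finsupp.single P₀ 1 = N • E' + divf (algebraMap L W h') := by
  obtain ⟨n, f, hf, hell, hnn⟩ := reduce E hE P₀
  set E₁ := E + divf f with hE₁
  set h₁ := h / f ^ N with hh₁
  have hfN : f ^ N ≠ 0 := pow_ne_zero _ hf
  have hh₁0 : h₁ ≠ 0 := div_ne_zero h0 hfN
  have hpow : ∀ m : ℕ, divf (k := Ω) (f ^ m) = m • divf f := by
    intro m
    induction m with
    | zero => rw [pow_zero, divf_one, zero_smul]
    | succ m ih => rw [pow_succ, divf_mul (pow_ne_zero m hf) hf, ih, succ_nsmul]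
  have hrel : Finsupp.single Q₀ 1 - Finsupp.single P₀ 1 = N • E₁ + divf h₁ := by
    rw [hh, hE₁, hh₁, div_eq_mul_inv, divf_mul h0 (inv_ne_zero hfN), divf_inv hfN, hpow, smul_add]
    abel
  have hD₁ : 0 ≤ E₁ + Finsupp.single P₀ (n : ℤ) := by
    have e : E₁ + Finsupp.single P₀ (n : ℤ) = E + Finsupp.single P₀ (n : ℤ) + divf f := by
      rw [hE₁]; abel
    rw [e]; exact hnn
  have hell₁ : ell (E₁ + Finsupp.single P₀ (n : ℤ)) = 1 := by
    have e : E₁ + Finsupp.single P₀ (n : ℤ) = E + Finsupp.single P₀ (n : ℤ) + divf f := by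
      rw [hE₁]; abel
    rw [e, ell_add_divf _ hf, hell]
  -- invariance
  have hinv : ∀ τ : W ≃ₐ[L] W, twD K τ E₁ = E₁ ∧ divf (k := Ω) (τ h₁) = divf h₁ := by
    intro τ
    have h1 : τ h₁ ≠ 0 := by simpa using hh₁0
    have h2 : Finsupp.single Q₀ 1 - Finsupp.single P₀ 1 = N • twD K τ E₁ + divf (k := Ω) (τ h₁) := by
      have h3 := congrArg (twD K τ) hrel
      rw [twD_sub, twD_single τ (hQ₀ τ), twD_single τ (hP₀ τ), twD_add, ← divf_tau τ hh₁0] at h3
      rw [h3]
      congr 1
      ext P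
      rw [twD_apply, Finsupp.smul_apply, Finsupp.smul_apply, twD_apply]
    obtain ⟨u, hu, hDu⟩ := hT (twD K τ E₁ - E₁) (h₁ / τ h₁) (div_ne_zero hh₁0 h1) (by
      rw [div_eq_mul_inv, divf_mul hh₁0 (inv_ne_zero h1), divf_inv h1, smul_sub]
      have h3 := hrel.symm.trans h2
      have h4 : N • twD K τ E₁ - N • E₁ = divf (k := Ω) h₁ - divf (τ h₁) := by
        rw [sub_eq_sub_iff_add_eq_add, ← h3]
        abel
      rw [h4]; abel)
    have h3 : divf (k := Ω) u = 0 := by
      apply divf_eq_zero_of_ell hD₁ hell₁ hu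
      have e : E₁ + Finsupp.single P₀ (n : ℤ) + divf u =
          twD K τ (E₁ + Finsupp.single P₀ (n : ℤ)) := by
        rw [twD_add, twD_single τ (hP₀ τ), ← hDu]; abel
      rw [e]
      exact twD_nonneg τ hD₁
    rw [h3] at hDu
    have h4 : twD K τ E₁ = E₁ := sub_eq_zero.1 hDu
    refine ⟨h4, ?_⟩
    rw [h4, hrel] at h2
    exact (add_left_cancel h2).symm
  -- normalisation at `P₀`
  haveI := Tors12_235.isAlgebraic K hgen
  haveI := Tors12_235.isGalois K hgen
  obtain ⟨ℓ, hℓ⟩ := Tors11_235.exists_unif K hgen P₀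
  have hℓ0 : algebraMap L W ℓ ≠ 0 := by
    intro h0
    rw [h0, map_zero] at hℓ
    exact exp_ne_zero hℓ.symm
  obtain ⟨m, hm⟩ : ∃ m : ℤ, P₀.v h₁ = exp m :=
    ⟨log (P₀.v h₁), (exp_log ((Valuation.ne_zero_iff _).2 hh₁0)).symm⟩
  have h1 : P₀.v (h₁ * algebraMap L W ℓ ^ m) = 1 := by
    rw [map_mul, map_zpow₀, hm, hℓ, ← exp_zsmul, ← exp_add]; simp
  obtain ⟨c, hc⟩ := exists_residue P₀ h1.le
  have hc0 : c ≠ 0 := by
    rintro rfl
    rw [map_zero, sub_zero, h1] at hc
    exact lt_irrefl _ hc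
  have hcW : algebraMap Ω W c ≠ 0 := by simpa using hc0
  set h₃ := h₁ / algebraMap Ω W c with hh₃
  have hh₃0 : h₃ ≠ 0 := div_ne_zero hh₁0 hcW
  have hres : P₀.v (h₃ * algebraMap L W ℓ ^ m - 1) < 1 := by
    have e : h₃ * algebraMap L W ℓ ^ m - 1 =
        (h₁ * algebraMap L W ℓ ^ m - algebraMap Ω W c) / algebraMap Ω W c := by
      rw [hh₃]
      field_simp
    rw [e, map_div₀, P₀.const c hc0, div_one]
    exact hc
  have hfix : ∀ τ : W ≃ₐ[L] W, τ h₃ = h₃ := by
    intro τ
    have h1 : τ h₁ ≠ 0 := by simpa using hh₁0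
    obtain ⟨a, ha0, ha⟩ := exists_const (Ω := Ω) h1 hh₁0 (hinv τ).2
    obtain ⟨c', hc'⟩ := exists_eq K τ c
    have hτc : τ (algebraMap Ω W c) ≠ 0 := by simpa using hc0
    have hc'0 : algebraMap Ω W c' ≠ 0 := by rw [hc']; exact hτc
    have hb : ∃ b : Ω, τ h₃ = algebraMap Ω W b * h₃ := by
      refine ⟨a * c / c', ?_⟩
      rw [hh₃, map_div₀, ha, ← hc', map_div₀, map_mul]
      field_simp
    obtain ⟨b, hb⟩ := hb
    have h2 : P₀.v (τ (h₃ * algebraMap L W ℓ ^ m) - 1) < 1 := by
      have h3 : P₀.v (τ (h₃ * algebraMap L W ℓ ^ m - 1)) < 1 := by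
        rw [← tw_v (K := K) τ P₀, hP₀ τ]
        exact hres
      rwa [map_sub, map_one] at h3
    have h3 : τ (h₃ * algebraMap L W ℓ ^ m) = algebraMap Ω W b * (h₃ * algebraMap L W ℓ ^ m) := by
      rw [map_mul, map_zpow₀, AlgEquiv.commutes, hb]
      ring
    rw [h3] at h2
    have h4 : P₀.v (h₃ * algebraMap L W ℓ ^ m) = 1 := by
      have h5 := Valuation.map_add_eq_of_lt_right (v := P₀.v)
        (x := h₃ * algebraMap L W ℓ ^ m - 1) (y := 1) (by rw [map_one]; exact hres)
      rwa [sub_add_cancel, map_one] at h5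
    have h5 : P₀.v (algebraMap Ω W (b - 1)) < 1 := by
      have e : algebraMap Ω W (b - 1) * (h₃ * algebraMap L W ℓ ^ m) =
          (algebraMap Ω W b * (h₃ * algebraMap L W ℓ ^ m) - 1) -
            (h₃ * algebraMap L W ℓ ^ m - 1) := by
        rw [map_sub, map_one]; ring
      have h6 : P₀.v (algebraMap Ω W (b - 1) * (h₃ * algebraMap L W ℓ ^ m)) < 1 := by
        rw [e]
        exact lt_of_le_of_lt (Valuation.map_sub _ _ _) (max_lt h2 hres)
      rwa [map_mul, h4, mul_one] at h6
    have h6 : b = 1 := sub_eq_zero.1 (v_algebraMap_lt P₀ h5)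
    rw [hb, h6, map_one, one_mul]
  obtain ⟨h', hh'⟩ := (InfiniteGalois.mem_range_algebraMap_iff_fixed (k := L) h₃).2 hfix
  refine ⟨h', E₁, ?_, ?_⟩
  · rintro rfl
    rw [map_zero] at hh'
    exact hh₃0 hh'.symm
  · rw [hh', hrel, hh₃, div_eq_mul_inv, divf_mul hh₁0 (inv_ne_zero hcW), divf_inv hcW]
    have h2 : divf (k := Ω) (algebraMap Ω W c) = 0 := by
      ext P
      have h3 := v_eq (k := Ω) hcW P
      rw [P.const c hc0, ← exp_zero, exp_inj] at h3
      rw [Finsupp.zero_apply]
      omega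
    rw [h2, neg_zero, add_zero]

end Descent

end Crest.Agent.R013.Tors13_235
end

-- ▼ part R013/Tors14_235
section

/-!
# Row 13, leaf TORS (helper235), part 14: the subfield `L = Frac (K ⊗ K)` of `W = Frac (Ω ⊗ K)` and the
transfer of divisors.
-/

set_option autoImplicit false
set_option linter.all false

namespace Crest.Agent.R013.Tors14_235

open WithZero Module TensorProduct
open Crest.Agent.R013.RR7_948 Crest.Agent.R013.RR8_948 Crest.Agent.R013.RR9_948
open Crest.Agent.R013.RR11_948 Crest.Agent.R013.RR12_948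
open Crest.Agent.R013.RR13_948 Crest.Agent.R013.CE1_280 Crest.Agent.R013.CE3_280
open Crest.Agent.R013.CE5_280
open Crest.Agent.R013.Tors7_235 Crest.Agent.R013.Tors10_235
open Crest.Agent.R013.Tors12_235 Crest.Agent.R013.Tors13_235

variable {F K Ω W : Type*} [Field F] [IsAlgClosed F] [CharZero F] [Field K] [Algebra F K]
  [Algebra (RatFunc F) K] [IsScalarTower F (RatFunc F) K] [FiniteDimensional (RatFunc F) K]
  [Algebra.IsSeparable (RatFunc F) K]
  [Field Ω] [IsAlgClosed Ω] [Algebra F Ω] [Algebra K Ω] [IsScalarTower F K Ω]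
  [Algebra.IsAlgebraic K Ω]
  [Field W] [Algebra Ω W] [Algebra F W] [IsScalarTower F Ω W] [Algebra K W] [IsScalarTower K Ω W]
  [IsScalarTower F K W]
  {ι : K →ₐ[F] W}

/-- the subfield generated by the two copies of `K` -/
def LL (ι : K →ₐ[F] W) : IntermediateField K W := IntermediateField.adjoin K (Set.range ι)

omit [IsAlgClosed F] [CharZero F] [Algebra (RatFunc F) K] [IsScalarTower F (RatFunc F) K]
  [FiniteDimensional (RatFunc F) K] [Algebra.IsSeparable (RatFunc F) K] [IsScalarTower F K W] in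
theorem mem_LL (f : K) : ι f ∈ LL ι := IntermediateField.subset_adjoin K _ ⟨f, rfl⟩

/-- the second copy of `K` -/
noncomputable def iL (ι : K →ₐ[F] W) : K →ₐ[F] LL ι where
  toFun f := ⟨ι f, mem_LL f⟩
  map_one' := Subtype.ext (map_one ι)
  map_mul' a b := Subtype.ext (map_mul ι a b)
  map_zero' := Subtype.ext (map_zero ι)
  map_add' a b := Subtype.ext (map_add ι a b)
  commutes' c := Subtype.ext (ι.commutes c)

theorem iL_coe (f : K) : algebraMap (LL ι) W (iL ι f) = ι f := rfl

theorem alg_coe (b : K) : algebraMap (LL ι) W (algebraMap K (LL ι) b) = algebraMap K W b := rfl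

/-- `K ⊗ K → Ω ⊗ K` -/
noncomputable def th : K ⊗[F] K →ₐ[F] Ω ⊗[F] K :=
  Algebra.TensorProduct.map (IsScalarTower.toAlgHom F K Ω) (AlgHom.id F K)

theorem th_injective : Function.Injective (th (F := F) (K := K) (Ω := Ω)) := by
  have h := Module.Flat.rTensor_preserves_injective_linearMap (M := K)
    (IsScalarTower.toAlgHom F K Ω).toLinearMap (algebraMap K Ω).injective
  exact h

theorem mu_th (t : K ⊗[F] K) :
    mu (Ω := Ω) ι (th t) = algebraMap (LL ι) W (mu (Ω := K) (iL ι) t) := by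
  induction t with
  | zero => simp
  | add a b ha hb => rw [map_add, map_add, map_add, map_add, ha, hb]
  | tmul a b =>
    rw [mu_tmul, map_mul, alg_coe, iL_coe]
    show mu ι ((algebraMap K Ω a) ⊗ₜ b) = _
    rw [mu_tmul, ← IsScalarTower.algebraMap_apply]

theorem isCE_L (hι : IsCE Ω ι) : IsCE K (iL ι) where
  inj := by
    intro a b h
    apply th_injective (Ω := Ω)
    apply hι.inj
    rw [mu_th, mu_th, h]
  frac := by
    intro f
    obtain ⟨r, hr, s, hs, hf⟩ := IntermediateField.mem_adjoin_iff_div.1 f.2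
    have key : ∀ r ∈ Algebra.adjoin K (Set.range ι), ∃ t : K ⊗[F] K,
        r = algebraMap (LL ι) W (mu (Ω := K) (iL ι) t) := by
      intro r hr
      induction hr using Algebra.adjoin_induction with
      | mem x hx =>
        obtain ⟨g, rfl⟩ := hx
        exact ⟨1 ⊗ₜ g, by rw [mu_tmul, map_one, one_mul, iL_coe]⟩
      | algebraMap b => exact ⟨b ⊗ₜ 1, by rw [mu_tmul, map_one, mul_one, alg_coe]⟩
      | add x y _ _ hx hy =>
        obtain ⟨t, ht⟩ := hx
        obtain ⟨t', ht'⟩ := hy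
        exact ⟨t + t', by rw [map_add, map_add, ht, ht']⟩
      | mul x y _ _ hx hy =>
        obtain ⟨t, ht⟩ := hx
        obtain ⟨t', ht'⟩ := hy
        exact ⟨t * t', by rw [map_mul, map_mul, ht, ht']⟩
    obtain ⟨a, ha⟩ := key r hr
    obtain ⟨b, hb⟩ := key s hs
    by_cases hb0 : b = 0
    · refine ⟨0, 1, one_ne_zero, ?_⟩
      rw [hb0, map_zero, map_zero] at hb
      rw [hb, div_zero] at hf
      have hf0 : f = 0 := Subtype.ext hf
      rw [hf0, map_zero, zero_mul]
    · refine ⟨a, b, hb0, ?_⟩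
      have hs0 : s ≠ 0 := by
        rw [hb]
        intro h0
        apply hb0
        apply th_injective (Ω := Ω)
        apply hι.inj
        rw [mu_th, h0, map_zero, map_zero]
      apply (algebraMap (LL ι) W).injective
      rw [map_mul, ← ha, ← hb]
      show (f : W) * s = r
      rw [hf, div_mul_cancel₀ _ hs0]

theorem gen_L (hι : IsCE Ω ι) : Gen Ω (LL ι) W := by
  unfold Gen
  -- `W` is the ring generated over `LL` by `Ω`
  let S : Subalgebra (LL ι) W := Algebra.adjoin (LL ι) (Set.range (algebraMap Ω W))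
  have hmu : ∀ t : Ω ⊗[F] K, mu (Ω := Ω) ι t ∈ S := by
    intro t
    induction t with
    | zero => rw [map_zero]; exact S.zero_mem
    | add a b ha hb => rw [map_add]; exact S.add_mem ha hb
    | tmul a b =>
      rw [mu_tmul]
      exact S.mul_mem (Algebra.subset_adjoin ⟨a, rfl⟩) (S.algebraMap_mem (iL ι b))
  have hint : ∀ x ∈ S, IsIntegral (LL ι) x := by
    intro x hx
    induction hx using Algebra.adjoin_induction with
    | mem x hx =>
      obtain ⟨r, rfl⟩ := hx
      have h1 : IsIntegral K (algebraMap Ω W r) :=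
        ((Algebra.IsAlgebraic.isAlgebraic (R := K) r).isIntegral).map
          (IsScalarTower.toAlgHom K Ω W)
      exact h1.tower_top
    | algebraMap r => exact isIntegral_algebraMap
    | add x y _ _ hx hy => exact hx.add hy
    | mul x y _ _ hx hy => exact hx.mul hy
  have htop : ∀ x : W, x ∈ S := by
    intro x
    obtain ⟨a, b, hb, hab⟩ := hι.frac x
    have h1 : x = mu ι a * (mu ι b)⁻¹ := by
      rw [← hab, mul_inv_cancel_right₀ (hι.ne_zero hb)]
    rw [h1]
    exact S.mul_mem (hmu a) ((hint _ (hmu b)).inv_mem (hmu b))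
  rw [eq_top_iff]
  intro x _
  have hx := htop x
  induction hx using Algebra.adjoin_induction with
  | mem x hx =>
    obtain ⟨r, rfl⟩ := hx
    exact Subalgebra.algebraMap_mem _ r
  | algebraMap r => exact Algebra.subset_adjoin ⟨r, rfl⟩
  | add x y _ _ hx hy => exact Subalgebra.add_mem _ (hx trivial) (hy trivial)
  | mul x y _ _ hx hy => exact Subalgebra.mul_mem _ (hx trivial) (hy trivial)

section Pt

variable [Algebra (RatFunc Ω) W] [IsScalarTower Ω (RatFunc Ω) W] [FiniteDimensional (RatFunc Ω) W]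
  [Algebra.IsSeparable (RatFunc Ω) W]

/-- the generic point -/
noncomputable def Qg (F K Ω : Type*) [Field F] [Field K] [Algebra F K] [Field Ω] [Algebra F Ω]
    [Algebra K Ω] [IsScalarTower F K Ω] : K →ₐ[F] Ω := IsScalarTower.toAlgHom F K Ω

theorem Qg_coe (f : K) : algebraMap Ω W (Qg F K Ω f) = algebraMap K W f :=
  (IsScalarTower.algebraMap_apply K Ω W f).symm

variable [CharZero K]

theorem tw_Q (hι : IsCE Ω ι) (τ : W ≃ₐ[LL ι] W) :
    tw K τ (plQ hι (Qg F K Ω)) = plQ hι (Qg F K Ω) := by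
  have h1 : At ι (tw K τ (plQ hι (Qg F K Ω))) (Qg F K Ω) := by
    intro f
    rw [tw_v, map_sub, Qg_coe, ← alg_coe (ι := ι), ← iL_coe, AlgEquiv.commutes, AlgEquiv.commutes,
      iL_coe, alg_coe, ← Qg_coe (F := F) (Ω := Ω)]
    exact plQ_At hι (Qg F K Ω) f
  exact h1.unique hι (plQ_At hι _)

theorem tw_P (hι : IsCE Ω ι) (P : Pl F K) (τ : W ≃ₐ[LL ι] W) :
    tw K τ (conP hι P) = conP hι P := by
  have h0 : ∀ f : K, τ (ι f) = ι f := by
    intro f
    rw [← iL_coe, AlgEquiv.commutes]
  have h1 : Over ι (tw K τ (conP hι P)) P := by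
    refine ⟨fun f hf => ?_, fun f hf => ?_⟩
    · rw [tw_v, h0]
      exact (conP_Over hι P).1 f hf
    · rw [tw_v, h0]
      exact (conP_Over hι P).2 f hf
  exact h1.unique hι (conP_Over hι P)

/-- the place of `L` below a place of `W` -/
noncomputable def below (hι : IsCE Ω ι) (P : Pl Ω W) : Pl K (LL ι) where
  v := P.v.comap (algebraMap (LL ι) W)
  const c hc := by
    rw [Valuation.comap_apply, alg_coe, IsScalarTower.algebraMap_apply K Ω W]
    exact P.const _ (by simpa using hc)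
  surj m := by
    haveI := Tors12_235.isAlgebraic K (gen_L hι)
    obtain ⟨ℓ, hℓ⟩ := Tors11_235.exists_unif K (gen_L hι) P
    induction m using WithZero.expRecOn with
    | zero => exact ⟨0, by simp⟩
    | exp m =>
      refine ⟨ℓ ^ (-m), ?_⟩
      rw [Valuation.comap_apply, map_zpow₀, map_zpow₀, hℓ, ← exp_zsmul]
      simp

theorem below_v (hι : IsCE Ω ι) (P : Pl Ω W) (x : LL ι) :
    (below hι P).v x = P.v (algebraMap (LL ι) W x) := rfl

/-- the transfer of a divisor relation to `L` -/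
theorem divMod (hι : IsCE Ω ι) {N : ℕ} {P₀ : Pl F K} {h : LL ι} (h0 : h ≠ 0)
    {E : Pl Ω W →₀ ℤ}
    (hE : Finsupp.single (plQ hι (Qg F K Ω)) 1 - Finsupp.single (conP hι P₀) 1 =
      N • E + divf (algebraMap (LL ι) W h)) : DivMod (iL ι) P₀ N h := by
  classical
  have h0' : algebraMap (LL ι) W h ≠ 0 := by simpa using h0
  -- above
  have habove : ∀ w : Valuation (LL ι) ℤᵐ⁰, (∀ b : K, b ≠ 0 → w (algebraMap K (LL ι) b) = 1) →
      (∃ a : LL ι, w a ≠ 0 ∧ w a ≠ 1) → ∃ P : Pl Ω W, (below hι P).v.IsEquiv w := by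
    intro w hw hnt
    obtain ⟨P, hP⟩ := exists_above (Ω := Ω) (W := W) w hw hnt
    exact ⟨P, hP.symm⟩
  have hval : ∀ P : Pl Ω W, log ((below hι P).v h) =
      (N : ℤ) * E P - ((if plQ hι (Qg F K Ω) = P then 1 else 0) -
        (if conP hι P₀ = P then 1 else 0)) := by
    intro P
    rw [below_v, v_eq h0', log_exp]
    have h1 := congrArg (fun D : Pl Ω W →₀ ℤ => D P) hE
    simp only [Finsupp.sub_apply, Finsupp.add_apply, Finsupp.smul_apply, Finsupp.single_apply,
      nsmul_eq_mul] at h1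
    rw [h1]
    ring
  have hlog : ∀ (w : Valuation (LL ι) ℤᵐ⁰) (P : Pl Ω W), (below hι P).v.IsEquiv w →
      ∃ k : ℤ, 0 < k ∧ ∀ f : LL ι, f ≠ 0 → log (w f) = k * log ((below hι P).v f) := by
    intro w P hP
    obtain ⟨ℓ, hℓ⟩ := (below hι P).surj (exp (-1))
    have hℓ1 := lt_one_of_isEquiv hP hℓ
    have hℓ0 : ℓ ≠ 0 := by
      rintro rfl
      rw [map_zero] at hℓ
      exact exp_ne_zero hℓ.symm
    have hwℓ : w ℓ ≠ 0 := (Valuation.ne_zero_iff _).2 hℓ0
    rw [← exp_log hwℓ, ← exp_zero, exp_lt_exp] at hℓ1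
    refine ⟨-log (w ℓ), by omega, fun f hf => ?_⟩
    have hf' : (below hι P).v f ≠ 0 := (Valuation.ne_zero_iff _).2 hf
    rw [eq_zpow_of_isEquiv hP hℓ (exp_log hf').symm, log_zpow]
    simp only [smul_eq_mul]
    ring
  have hatQ : ∀ (w : Valuation (LL ι) ℤᵐ⁰) (P : Pl Ω W), (below hι P).v.IsEquiv w →
      (∀ b : K, b ≠ 0 → w (algebraMap K (LL ι) b) = 1) →
      (AtQ (iL ι) w ↔ plQ hι (Qg F K Ω) = P) := by
    intro w P hP hw
    constructor
    · intro hq
      have h1 : At ι P (Qg F K Ω) := by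
        intro f
        have h2 := hq.2 f
        rw [← hP.lt_one_iff_lt_one, below_v, map_sub, iL_coe, alg_coe] at h2
        rw [Qg_coe]
        exact h2
      exact (plQ_At hι _).unique hι h1
    · rintro rfl
      refine ⟨hw, fun f => ?_⟩
      rw [← hP.lt_one_iff_lt_one, below_v, map_sub, iL_coe, alg_coe,
        ← Qg_coe (F := F) (Ω := Ω)]
      exact plQ_At hι _ f
  have hovP : ∀ (w : Valuation (LL ι) ℤᵐ⁰) (P : Pl Ω W), (below hι P).v.IsEquiv w →
      (∀ b : K, b ≠ 0 → w (algebraMap K (LL ι) b) = 1) →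
      (OverP (iL ι) P₀ w ↔ conP hι P₀ = P) := by
    intro w P hP hw
    constructor
    · intro hq
      have h1 : Over ι P P₀ := by
        refine ⟨fun f hf => ?_, fun f hf => ?_⟩
        · have h2 := hq.2.1 f hf
          rw [← hP.le_one_iff_le_one, below_v, iL_coe] at h2
          exact h2
        · have h2 := hq.2.2 f hf
          rw [← hP.lt_one_iff_lt_one, below_v, iL_coe] at h2
          exact h2
      exact (conP_Over hι _).unique hι h1
    · rintro rfl
      refine ⟨hw, fun f hf => ?_, fun f hf => ?_⟩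
      · rw [← hP.le_one_iff_le_one, below_v, iL_coe]
        exact (conP_Over hι _).1 f hf
      · rw [← hP.lt_one_iff_lt_one, below_v, iL_coe]
        exact (conP_Over hι _).2 f hf
  have hk1 : ∀ (k n : ℤ), 0 < k → -1 = k * n → k = 1 := by
    intro k n hk h1
    have h2 : k ∣ 1 := ⟨-n, by linear_combination -h1⟩
    have h3 := Int.le_of_dvd one_pos h2
    omega
  constructor
  · intro w hw hnQ hnP
    by_cases hnt : ∃ a : LL ι, w a ≠ 0 ∧ w a ≠ 1
    · obtain ⟨P, hP⟩ := habove w hw hnt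
      obtain ⟨k, -, hk⟩ := hlog w P hP
      rw [hatQ w P hP hw] at hnQ
      rw [hovP w P hP hw] at hnP
      rw [hk h h0, hval, if_neg hnQ, if_neg hnP]
      exact ⟨k * E P, by ring⟩
    · push Not at hnt
      have h1 := hnt h ((Valuation.ne_zero_iff _).2 h0)
      rw [h1, ← exp_zero, log_exp]
      exact dvd_zero _
  · intro w hq hn
    obtain ⟨f, hf⟩ := hn
    have hnt : ∃ a : LL ι, w a ≠ 0 ∧ w a ≠ 1 := ⟨_, by rw [hf]; exact exp_ne_zero, by
      rw [hf, ← exp_zero, Ne, exp_inj]; norm_num⟩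
    obtain ⟨P, hP⟩ := habove w hq.1 hnt
    obtain ⟨k, hkpos, hk⟩ := hlog w P hP
    have h1 := (hatQ w P hP hq.1).1 hq
    have hf0 : iL ι f - algebraMap K (LL ι) f ≠ 0 := by
      intro h2
      rw [h2, map_zero] at hf
      exact exp_ne_zero hf.symm
    have h2 := hk _ hf0
    rw [hf, log_exp] at h2
    have h3 := hk1 _ _ hkpos h2
    rw [hk h h0, h3, hval, if_pos h1, if_neg (by rw [← h1]; exact conP_ne_plQ hι P₀ _)]
    exact ⟨E P, by ring⟩
  · intro w hq hn
    obtain ⟨f, hf⟩ := hn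
    have hnt : ∃ a : LL ι, w a ≠ 0 ∧ w a ≠ 1 := ⟨_, by rw [hf]; exact exp_ne_zero, by
      rw [hf, ← exp_zero, Ne, exp_inj]; norm_num⟩
    obtain ⟨P, hP⟩ := habove w hq.1 hnt
    obtain ⟨k, hkpos, hk⟩ := hlog w P hP
    have h1 := (hovP w P hP hq.1).1 hq
    have hf0 : iL ι f ≠ 0 := by
      intro h2
      rw [h2, map_zero] at hf
      exact exp_ne_zero hf.symm
    have h2 := hk _ hf0
    rw [hf, log_exp] at h2
    have h3 := hk1 _ _ hkpos h2
    rw [hk h h0, h3, hval, if_pos h1, if_neg (by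
      rw [← h1]; exact (conP_ne_plQ hι P₀ _).symm)]
    exact ⟨E P, by ring⟩

end Pt

end Crest.Agent.R013.Tors14_235
end

-- ▼ part R013/Tors15_235

/-!
# Row 13, leaf TORS (helper235), part 15: existence of `l`-torsion.
-/

set_option autoImplicit false
set_option linter.all false

namespace Crest.Agent.R013.Tors15_235

open WithZero Module TensorProduct
open Crest.Agent.R013.RR7_948 Crest.Agent.R013.RR8_948 Crest.Agent.R013.RR9_948
open Crest.Agent.R013.RR11_948 Crest.Agent.R013.RR12_948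
open Crest.Agent.R013.RR13_948 Crest.Agent.R013.CE1_280 Crest.Agent.R013.CE3_280
open Crest.Agent.R013.CE5_280 Crest.Agent.R013.CE9_280
open Crest.Agent.R013.Tors7_235 Crest.Agent.R013.Tors10_235
open Crest.Agent.R013.Tors12_235 Crest.Agent.R013.Tors13_235 Crest.Agent.R013.Tors14_235

section BaseDivf

variable {F Ω K L : Type*} [Field F] [Field Ω] [Algebra F Ω] [Field K] [Algebra F K] [Field L]
  [Algebra Ω L] [Algebra F L] [IsScalarTower F Ω L] [Algebra (RatFunc F) K]
  [IsScalarTower F (RatFunc F) K] [FiniteDimensional (RatFunc F) K]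
  [Algebra.IsSeparable (RatFunc F) K]
  [Algebra (RatFunc Ω) L] [IsScalarTower Ω (RatFunc Ω) L] [FiniteDimensional (RatFunc Ω) L]
  [Algebra.IsSeparable (RatFunc Ω) L] [IsAlgClosed F] [IsAlgClosed Ω] {ι : K →ₐ[F] L}

/-- the conorm of a principal divisor -/
theorem base_divf (hι : IsCE Ω ι) {f : K} (hf : f ≠ 0) :
    base hι (divf f) = divf (ι f) := by
  have hf' : ι f ≠ 0 := by simpa using hf
  ext w
  rcases CE3_280.cases hι w with ⟨P, rfl⟩ | ⟨Q, rfl⟩
  · have h1 := (conP_Over hι P).v_iota hι f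
    rw [v_eq hf', v_eq hf, exp_inj] at h1
    rw [base_conP]
    omega
  · have h1 := (plQ_At hι Q).iota_eq_one hf
    rw [v_eq hf', ← exp_zero, exp_inj] at h1
    rw [base_plQ]
    omega

end BaseDivf

/-- torsion-freeness for a prime implies torsion-freeness for its powers -/
theorem pow_torsion {k K : Type*} [Field k] [Field K] [Algebra k K] [Algebra (RatFunc k) K]
    [IsScalarTower k (RatFunc k) K] [FiniteDimensional (RatFunc k) K]
    [Algebra.IsSeparable (RatFunc k) K] {l : ℕ}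
    (h : ∀ (D : Pl k K →₀ ℤ) (f : K), f ≠ 0 → l • D = divf f → ∃ g : K, g ≠ 0 ∧ D = divf g)
    (m : ℕ) : ∀ (D : Pl k K →₀ ℤ) (f : K), f ≠ 0 → (l ^ m) • D = divf f →
      ∃ g : K, g ≠ 0 ∧ D = divf g := by
  induction m with
  | zero =>
    intro D f hf hD
    exact ⟨f, hf, by rw [← hD, pow_zero, one_smul]⟩
  | succ m ih =>
    intro D f hf hD
    obtain ⟨g, hg, hg'⟩ := h (l ^ m • D) f hf (by rw [← hD, pow_succ', mul_smul])
    exact ih D g hg hg'

/-- **existence of `l`-torsion classes**: over an algebraically closed field of characteristic zero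
a function field of genus `≥ 1` has, for every prime `l`, a non principal divisor `D` with `l D`
principal -/
theorem tors {F : Type*} {K : Type*} [Field F] [IsAlgClosed F] [CharZero F] [Field K]
    [Algebra F K] [Algebra (RatFunc F) K] [IsScalarTower F (RatFunc F) K]
    [FiniteDimensional (RatFunc F) K] [Algebra.IsSeparable (RatFunc F) K]
    (hg : 1 ≤ gen F K) {l : ℕ} (hl : l.Prime) :
    ∃ (D : Pl F K →₀ ℤ) (f : K), f ≠ 0 ∧ l • D = divf f ∧ ∀ g : K, g ≠ 0 → D ≠ divf g := by
  by_contra hcon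
  push Not at hcon
  have hT : ∀ (D : Pl F K →₀ ℤ) (f : K), f ≠ 0 → l • D = divf f →
      ∃ g : K, g ≠ 0 ∧ D = divf g := fun D f hf hD => hcon D f hf hD
  -- a large power of `l`
  obtain ⟨m, hm⟩ : ∃ m : ℕ, 2 * gen F K < l ^ m := ⟨2 * gen F K, Nat.lt_pow_self hl.one_lt⟩
  have hN : 0 < l ^ m := pow_pos hl.pos m
  have hT' := pow_torsion hT m
  -- the constant field extension to the algebraic closure of `K`
  haveI : CharZero K := charZero_of_injective_algebraMap (algebraMap F K).injective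
  let Ω := AlgebraicClosure K
  haveI : CharZero Ω := charZero_of_injective_algebraMap (algebraMap K Ω).injective
  haveI : CharZero (RatFunc Ω) :=
    charZero_of_injective_algebraMap (algebraMap Ω (RatFunc Ω)).injective
  let W := KO F K Ω
  letI algKW : Algebra K W := ((algebraMap Ω W).comp (algebraMap K Ω)).toAlgebra
  haveI tow1 : IsScalarTower K Ω W := IsScalarTower.of_algebraMap_eq fun _ => rfl
  haveI tow2 : IsScalarTower F K W := IsScalarTower.of_algebraMap_eq fun c => by
    rw [IsScalarTower.algebraMap_apply F Ω W, IsScalarTower.algebraMap_apply K Ω W,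
      ← IsScalarTower.algebraMap_apply F K Ω]
  let ι : K →ₐ[F] W := iota F K Ω
  have hι : IsCE Ω ι := isCE F K Ω
  have hx : xK Ω W = ι (xK F K) := xK_eq F K Ω
  obtain ⟨P₀, -⟩ := exists_notMem (∅ : Finset (Pl F K))
  -- divisibility
  have hdeg : degD (Finsupp.single (plQ hι (Qg F K Ω)) 1 - Finsupp.single (conP hι P₀) 1 :
      Pl Ω W →₀ ℤ) = 0 := by
    rw [degD_sub, degD_single, degD_single, degP_eq_one, degP_eq_one]
    norm_num
  obtain ⟨E, h, hh0, hE, hh⟩ := Div6_280.exists_div hN hdeg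
  -- descent
  obtain ⟨h', E', h0', hE'⟩ := descent K (gen_L hι) hN (fun τ => tw_P hι P₀ τ)
    (fun τ => tw_Q hι τ) (by
      intro D f hf hD
      obtain ⟨D₀, f₀, g, hf₀, hg0, hD₀, hDg⟩ := Rig_280.torsion_rigid hι hx hN hf hD
      obtain ⟨g₀, hg₀, hg₀'⟩ := hT' D₀ f₀ hf₀ hD₀
      have hι0 : ι g₀ ≠ 0 := by simpa using hg₀
      refine ⟨ι g₀ * g, mul_ne_zero hι0 hg0, ?_⟩
      rw [hDg, hg₀', divf_mul hι0 hg0, base_divf hι hg₀]) hE hh0 hh
  have hdm := divMod hι h0' hE'
  have hcore := core (isCE_L hι) hN h0' hdm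
  have h1 : l ^ m ∣ 2 * gen F K := by exact_mod_cast hcore
  have h2 := Nat.le_of_dvd (by omega) h1
  omega

end Crest.Agent.R013.Tors15_235
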