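import Mathlib
import Crest.Agent.R013.GR3_921
import Crest.Agent.R013.DescC3_116
import Crest.Agent.R013.CB1d_903
import Crest.Agent.R013.Kapx_275
import Crest.Agent.R013.RZ4_365
import Crest.Agent.R013.CB1f_903
import Crest.Agent.R013.InLift_365
import Crest.Agent.R013.Inh12_770
import Crest.Agent.R013.Tors15_235
import Crest.Agent.R013.RHP2_240
import Crest.Prelude.Def_SectConj
import Crest.Agent.R013.SSDefs_332
import Crest.Agent.R013.EE4_809
import Crest.Agent.R013.DEm1_719
import Crest.Agent.R013.Desc2_372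
import Crest.Agent.R013.TopE1_957
import Crest.Agent.R013.PicD_398
import Crest.Agent.R013.TP1_928
import Crest.Agent.R013.TP10_928
import Crest.Agent.R013.ExKum_903
import Crest.Agent.R013.RR12_948
import Crest.Agent.R013.CE1_280
import Crest.Agent.R013.Red2_332
import Crest.Agent.R013.GR7_921
import Crest.Agent.R013.GR9_921
import Crest.Agent.R013.Div6_280
import Crest.Agent.R013.Red19_332
import Crest.Agent.R013.A2c_398
import Crest.Agent.R013.CAsm2_588

-- ▼ part R013/DCov1_700
section

/-!
# R013 / DCov1: the cyclic étale cover of a torsion class, over algebraically closed constants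
(helper700, leaf D-COV)

`k` algebraically closed of characteristic zero, `K/k(x)` finite, `l` prime, `f : K` with
`divf f = l • D`, `f` not an `l`-th power, `L = K(y)`, `y ^ l = f`:

* `finrank_eq` : `[L : K] = l`; `exists_aut` : `σ : L ≃ₐ[K] L`, `σ y = ζ y`, `σ ≠ 1`;
* `mapPl_ne` : no nontrivial automorphism over `K` fixes a place;
* `eR_eq_one`, `unrEv` : `L/K` is unramified everywhere;
* `gen_eq` : `gen L = l * (gen K - 1) + 1`.
* `exists_cover` : existence, packaged.
-/

set_option autoImplicit false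
set_option linter.all false

namespace Crest.Agent.R013.DCov1_700

open Polynomial WithZero Module
open Crest.Agent.R013.RR1_948 Crest.Agent.R013.RR2_948
open Crest.Agent.R013.RR7_948 Crest.Agent.R013.RR8_948 Crest.Agent.R013.RR9_948
open Crest.Agent.R013.RR11_948 Crest.Agent.R013.RR12_948 Crest.Agent.R013.RR13_948
open Crest.Agent.R013.RR14_948
open Crest.Agent.R013.RR18_948 Crest.Agent.R013.RR19_948 Crest.Agent.R013.RR20_948
open Crest.Agent.R013.RR21_948 Crest.Agent.R013.RR22_948
open Crest.Agent.R013.GR2_921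
open Crest.NumberTheoryR.Sect
open scoped NNReal IntermediateField

section kummer

variable {K : Type*} [Field K] {L : Type*} [Field L] [Algebra K L]

theorem irreducible {l : ℕ} (hl : l.Prime) {f : K} (hn : ∀ g : K, g ^ l ≠ f) :
    Irreducible (X ^ l - C f) := X_pow_sub_C_irreducible_of_prime hl hn

theorem minpoly_eq {l : ℕ} (hl : l.Prime) {f : K} (hn : ∀ g : K, g ^ l ≠ f) {y : L}
    (hy : y ^ l = algebraMap K L f) : minpoly K y = X ^ l - C f := by
  symm
  refine minpoly.eq_of_irreducible_of_monic (irreducible hl hn) ?_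
    (monic_X_pow_sub_C f hl.ne_zero)
  simp [hy]

theorem isIntegral {l : ℕ} (hl : l.Prime) {f : K} {y : L}
    (hy : y ^ l = algebraMap K L f) : IsIntegral K y :=
  ⟨X ^ l - C f, monic_X_pow_sub_C f hl.ne_zero, by simp [hy]⟩

theorem finrank_eq {l : ℕ} (hl : l.Prime) {f : K} (hn : ∀ g : K, g ^ l ≠ f) {y : L}
    (hy : y ^ l = algebraMap K L f) (hgen : K⟮y⟯ = ⊤) : finrank K L = l := by
  have h1 := IntermediateField.adjoin.finrank (isIntegral hl hy)
  rw [minpoly_eq hl hn hy, natDegree_X_pow_sub_C, hgen] at h1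
  rw [← h1]
  exact (IntermediateField.finrank_top' (F := K) (E := L)).symm

theorem exists_aut {l : ℕ} (hl : l.Prime) {f : K} (hn : ∀ g : K, g ^ l ≠ f) {y : L}
    (hy : y ^ l = algebraMap K L f) (hgen : K⟮y⟯ = ⊤) {ζ : K} (hζ : ζ ^ l = 1) :
    ∃ σ : L ≃ₐ[K] L, σ y = algebraMap K L ζ * y := by
  haveI : FiniteDimensional K L := by
    apply FiniteDimensional.of_finrank_pos
    rw [finrank_eq hl hn hy hgen]; exact hl.pos
  have h2 : aeval (algebraMap K L ζ * y) (minpoly K y) = 0 := by
    rw [minpoly_eq hl hn hy, map_sub, map_pow, aeval_X, aeval_C, mul_pow, hy, ← map_pow, hζ]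
    simp
  let pb : PowerBasis K L := (IntermediateField.adjoin.powerBasis (isIntegral hl hy)).map
    ((IntermediateField.equivOfEq hgen).trans IntermediateField.topEquiv)
  have hpb : pb.gen = y := by
    simp [pb, IntermediateField.adjoin.powerBasis_gen]
  have h3 : aeval (algebraMap K L ζ * y) (minpoly K pb.gen) = 0 := by rw [hpb]; exact h2
  let φ : L →ₐ[K] L := pb.lift _ h3
  have hφ : φ y = algebraMap K L ζ * y := by
    have := pb.lift_gen _ h3
    rw [hpb] at this
    exact this
  refine ⟨AlgEquiv.ofBijective φ (Algebra.IsAlgebraic.algHom_bijective φ), ?_⟩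
  exact hφ

end kummer

section cover

variable {k : Type*} [Field k] [IsAlgClosed k] {K : Type*} [Field K] [Algebra k K]
  [Algebra (RatFunc k) K]
  [IsScalarTower k (RatFunc k) K] [FiniteDimensional (RatFunc k) K]
  [Algebra.IsSeparable (RatFunc k) K]
  {L : Type*} [Field L] [Algebra k L] [Algebra K L] [IsScalarTower k K L] [FiniteDimensional K L]
  [Algebra (RatFunc k) L] [IsScalarTower k (RatFunc k) L] [FiniteDimensional (RatFunc k) L]
  [Algebra.IsSeparable (RatFunc k) L] [IsScalarTower (RatFunc k) K L]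

/-- an automorphism multiplying an `l`-th root of `f` by `ζ ≠ 1`, `l | div f`, fixes no place -/
theorem mapPl_ne_of {l : ℕ} (hl0 : l ≠ 0) (hlk : (l : k) ≠ 0) {f : K} (hf : f ≠ 0) {D : Pl k K →₀ ℤ}
    (hD : divf (k := k) f = (l : ℤ) • D) {y : L} (hy : y ^ l = algebraMap K L f)
    {ζ : k} (hζ : ζ ≠ 1) {σ : L ≃ₐ[K] L} (hσ : σ y = algebraMap k L ζ * y)
    (Q : Pl k L) : mapPl (σ.restrictScalars k) Q ≠ Q := by
  intro hQ
  set P : Pl k K := under K Q with hP
  obtain ⟨t, ht⟩ := P.surj (exp (-D P))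
  have ht0 : t ≠ 0 := by
    rintro rfl
    rw [map_zero] at ht
    exact (exp_ne_zero ht.symm)
  have h1 : P.v (f / t ^ l) = 1 := by
    rw [map_div₀, map_pow, ht, v_eq hf, hD]
    rw [div_eq_one_iff_eq (pow_ne_zero _ exp_ne_zero), ← exp_nsmul]
    simp
  set u : L := y / algebraMap K L t with hu
  have htL : algebraMap K L t ≠ 0 := by simpa using ht0
  have hul : u ^ l = algebraMap K L (f / t ^ l) := by
    rw [hu, div_pow, hy, map_div₀, map_pow]
  have hu1 : Q.v u = 1 := by
    have h2 : Q.v u ^ l = 1 := by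
      rw [← map_pow, hul, v_algebraMap, h1, one_pow]
    have hu0 : Q.v u ≠ 0 := by
      intro h
      rw [h, zero_pow hl0] at h2
      exact zero_ne_one h2
    have h3 : Q.v u = exp (log (Q.v u)) := (exp_log hu0).symm
    rw [h3, ← exp_nsmul, ← exp_zero, exp_inj] at h2
    have h4 : log (Q.v u) = 0 := by
      rcases smul_eq_zero.mp h2 with h | h
      · exact absurd h hl0
      · exact h
    rw [h3, h4, exp_zero]
  obtain ⟨c, hc⟩ := exists_const Q hu1.le
  have hc0 : c ≠ 0 := by
    rintro rfl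
    rw [map_zero, sub_zero, hu1] at hc
    exact lt_irrefl _ hc
  have hσu : σ u = algebraMap k L ζ * u := by
    rw [hu, map_div₀, hσ, AlgEquiv.commutes]
    ring
  have h3 : Q.v (σ (u - algebraMap k L c)) < 1 := by
    have : Q.v (σ (u - algebraMap k L c)) = Q.v (u - algebraMap k L c) := by
      conv_lhs => rw [← hQ]
      show Q.v ((σ.restrictScalars k).symm (σ (u - algebraMap k L c))) = _
      congr 1
      exact σ.symm_apply_apply _
    rw [this]; exact hc
  have hσc : σ (algebraMap k L c) = algebraMap k L c := by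
    rw [IsScalarTower.algebraMap_apply k K L, AlgEquiv.commutes]
  have h4 : Q.v (algebraMap k L ((ζ - 1) * c)) < 1 := by
    have : algebraMap k L ((ζ - 1) * c) = σ (u - algebraMap k L c) -
        (algebraMap k L ζ * (u - algebraMap k L c)) := by
      rw [map_sub, hσu, hσc, map_mul, map_sub, map_one]; ring
    rw [this]
    refine lt_of_le_of_lt (Valuation.map_sub _ _ _) (max_lt h3 ?_)
    rw [map_mul]
    have h5 : Q.v (algebraMap k L ζ) ≤ 1 := by
      by_cases hz : ζ = 0
      · rw [hz, map_zero, map_zero]; exact zero_le_one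
      · rw [Q.const _ hz]
    exact lt_of_le_of_lt (mul_le_of_le_one_left' h5) hc
  rw [Q.const _ (mul_ne_zero (sub_ne_zero.mpr hζ) hc0)] at h4
  exact lt_irrefl _ h4

variable [CharZero k]

theorem mapPl_ne {l : ℕ} (hl : l.Prime) {f : K} (hf : f ≠ 0) {D : Pl k K →₀ ℤ}
    (hD : divf (k := k) f = (l : ℤ) • D) (hn : ∀ g : K, g ^ l ≠ f) {y : L}
    (hy : y ^ l = algebraMap K L f) (hgen : K⟮y⟯ = ⊤) {σ : L ≃ₐ[K] L} (hσ : σ ≠ 1) (Q : Pl k L) :
    mapPl (σ.restrictScalars k) Q ≠ Q := by
  have hy0 : y ≠ 0 := by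
    rintro rfl
    rw [zero_pow hl.ne_zero] at hy
    exact hf ((map_eq_zero (algebraMap K L)).mp hy.symm)
  -- `σ y = ζ y`
  have h1 : (σ y / y) ^ l = 1 := by
    rw [div_pow, ← map_pow, hy, AlgEquiv.commutes, ← hy, div_self (pow_ne_zero _ hy0)]
  obtain ⟨ζ, hζ⟩ : ∃ ζ : k, algebraMap k L ζ = σ y / y := by
    have h2 : IsIntegral k (σ y / y) := ⟨X ^ l - 1, monic_X_pow_sub_C 1 hl.ne_zero, by simp [h1]⟩
    have h3 : σ y / y ∈ algebraicClosure k L := by
      rw [mem_algebraicClosure_iff]; exact h2.isAlgebraic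
    rw [hc_of_isAlgClosed, IntermediateField.mem_bot] at h3
    exact h3
  have hσy : σ y = algebraMap k L ζ * y := by
    rw [hζ, div_mul_cancel₀ _ hy0]
  have hζ1 : ζ ≠ 1 := by
    rintro rfl
    rw [map_one, one_mul] at hσy
    apply hσ
    ext z
    have hz : z ∈ K⟮y⟯ := by rw [hgen]; trivial
    have h4 : K⟮y⟯ ≤ IntermediateField.fixedField (Subgroup.zpowers σ) := by
      rw [IntermediateField.adjoin_le_iff, Set.singleton_subset_iff]
      rw [SetLike.mem_coe, IntermediateField.mem_fixedField_iff]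
      intro τ hτ
      obtain ⟨n, rfl⟩ := Subgroup.mem_zpowers_iff.mp hτ
      have h1 : ∀ m : ℕ, (σ ^ m) y = y := by
        intro m
        induction m with
        | zero => simp
        | succ m ih => rw [pow_succ, AlgEquiv.mul_apply, hσy, ih]
      have h2 : ∀ m : ℕ, (σ ^ m)⁻¹ y = y := by
        intro m
        rw [AlgEquiv.aut_inv, AlgEquiv.symm_apply_eq, h1]
      rcases n with m | m
      · simpa using h1 m
      · simpa [zpow_negSucc] using h2 (m + 1)
    exact (IntermediateField.mem_fixedField_iff _ _).mp (h4 hz) σ (Subgroup.mem_zpowers σ)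
  exact mapPl_ne_of hl.ne_zero (by exact_mod_cast hl.ne_zero) hf hD hy hζ1 hσy Q

include k in
theorem isGalois {l : ℕ} (hl : l.Prime) {f : K} (hn : ∀ g : K, g ^ l ≠ f) {y : L}
    (hf : f ≠ 0) (hy : y ^ l = algebraMap K L f) (hgen : K⟮y⟯ = ⊤) :
    ∃ σ : L ≃ₐ[K] L, σ ≠ 1 ∧ IsGalois K L := by
  have hy0 : y ≠ 0 := by
    rintro rfl
    rw [zero_pow hl.ne_zero] at hy
    exact hf ((map_eq_zero (algebraMap K L)).mp hy.symm)
  haveI : NeZero l := ⟨hl.ne_zero⟩
  haveI : NeZero (l : k) := ⟨by exact_mod_cast hl.ne_zero⟩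
  obtain ⟨ζ, hζ⟩ := HasEnoughRootsOfUnity.exists_primitiveRoot k l
  obtain ⟨σ, hσ⟩ := exists_aut hl hn hy hgen (ζ := algebraMap k K ζ)
    (by rw [← map_pow, hζ.pow_eq_one, map_one])
  have h1 : σ ≠ 1 := by
    rintro rfl
    rw [AlgEquiv.one_apply] at hσ
    have h2 : algebraMap K L (algebraMap k K ζ) = 1 := by
      have := congrArg (· / y) hσ
      simp only [div_self hy0, mul_div_cancel_right₀ _ hy0] at this
      exact this.symm
    rw [← IsScalarTower.algebraMap_apply] at h2
    have h3 : ζ = 1 := (algebraMap k L).injective (by rw [h2, map_one])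
    exact hζ.ne_one hl.one_lt h3
  exact ⟨σ, h1, isGalois_of_prime hl (finrank_eq hl hn hy hgen) h1⟩

theorem eR_eq_one {l : ℕ} (hl : l.Prime) {f : K} (hf : f ≠ 0) {D : Pl k K →₀ ℤ}
    (hD : divf (k := k) f = (l : ℤ) • D) (hn : ∀ g : K, g ^ l ≠ f) {y : L}
    (hy : y ^ l = algebraMap K L f) (hgen : K⟮y⟯ = ⊤) (Q : Pl k L) : eR K Q = 1 := by
  classical
  obtain ⟨σ, hσ, hgal⟩ := isGalois (k := k) hl hn hf hy hgen
  have h1 := card_above_mul (K := K) Q
  rw [degP_eq_one, degP_eq_one, finrank_eq hl hn hy hgen] at h1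
  simp only [mul_one, Nat.div_one] at h1
  have h2 : 1 < (above L (under K Q)).card := by
    rw [Finset.one_lt_card]
    refine ⟨Q, mem_above.mpr rfl, mapPl (σ.restrictScalars k) Q, mem_above.mpr ?_,
      fun h => mapPl_ne hl hf hD hn hy hgen hσ Q h.symm⟩
    exact under_mapPl (k := k) σ Q
  have h3 : eR K Q ∣ l := ⟨_, by rw [← h1]; ring⟩
  rcases (Nat.dvd_prime hl).mp h3 with h | h
  · exact h
  · exfalso
    rw [h] at h1
    have := Nat.eq_of_mul_eq_mul_right hl.pos (h1.trans (one_mul l).symm)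
    omega

theorem unrEv {l : ℕ} (hl : l.Prime) {f : K} (hf : f ≠ 0) {D : Pl k K →₀ ℤ}
    (hD : divf (k := k) f = (l : ℤ) • D) (hn : ∀ g : K, g ^ l ≠ f) {y : L}
    (hy : y ^ l = algebraMap K L f) (hgen : K⟮y⟯ = ⊤) : Unr10_957.UnrEv k K L := by
  haveI : CharZero K := charZero_of_injective_algebraMap (algebraMap k K).injective
  haveI : Algebra.IsAlgebraic K L := inferInstance
  haveI : Algebra.IsSeparable K L := Algebra.IsAlgebraic.isSeparable_of_perfectField
  exact DescC_116.eR_eq_one_iff_unrEv.mp (eR_eq_one hl hf hD hn hy hgen)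

theorem gen_eq {l : ℕ} (hl : l.Prime) {f : K} (hf : f ≠ 0) {D : Pl k K →₀ ℤ}
    (hD : divf (k := k) f = (l : ℤ) • D) (hn : ∀ g : K, g ^ l ≠ f) {y : L}
    (hy : y ^ l = algebraMap K L f) (hgen : K⟮y⟯ = ⊤) :
    (gen k L : ℤ) - 1 = l * (gen k K - 1) := by
  haveI : CharZero K := charZero_of_injective_algebraMap (algebraMap k K).injective
  haveI : Algebra.IsSeparable K L := Algebra.IsAlgebraic.isSeparable_of_perfectField
  have h1 := hurwitz_unramified (k := k) (K := K) (L := L) hc_of_isAlgClosed hc_of_isAlgClosed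
    (eR_eq_one hl hf hD hn hy hgen)
  rw [finrank_eq hl hn hy hgen] at h1
  linarith

end cover

section exist

universe u

variable {k : Type*} [Field k] [IsAlgClosed k] [CharZero k] {K : Type u} [Field K] [Algebra k K]
  [Algebra (RatFunc k) K]
  [IsScalarTower k (RatFunc k) K] [FiniteDimensional (RatFunc k) K]
  [Algebra.IsSeparable (RatFunc k) K]


end exist

end Crest.Agent.R013.DCov1_700
end

-- ▼ part R013/GRK1_903
section

/-!
# C-GR: Kummer extensions of degree `p` at a norm with inseparable reduction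
-/

set_option autoImplicit false
set_option linter.unusedSectionVars false

namespace Crest.Agent.R013.GRK_903

open scoped NNReal
open WithZero Polynomial IntermediateField
open Crest.Agent.R013.RR7_948 Crest.Agent.R013.Red332 Crest.Agent.R013.GR3_921
open Crest.Agent.R013.Kumv_275 Crest.Agent.R013.Kumv2_275 Crest.Agent.R013.CB1_903
open Crest.Agent.R013.RR11_948 Crest.Agent.R013.RR12_948

section Ext

variable {C : Type*} [NormedField C] [IsUltrametricDist C] [IsAlgClosed C]
variable {K L : Type*} [Field K] [Field L] [Algebra C K] [Algebra K L] [Algebra C L]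
  [IsScalarTower C K L]

/-- norms extend to algebraic extensions -/
theorem exists_nm [Algebra.IsAlgebraic K L] (w : Nm C K) :
    ∃ W : Nm C L, W.v.comap (algebraMap K L) = w.v := by
  obtain ⟨W, hW⟩ := RZ_365.exists_ext_val (K := L) w.v
  have hcom : W.comap (algebraMap K L) = w.v := by
    ext c
    rw [Valuation.comap_apply, hW]
  refine ⟨⟨W, fun c => ?_, fun f hf => ?_⟩, hcom⟩
  · rw [IsScalarTower.algebraMap_apply C K L, hW, w.hC]
  · obtain ⟨n, hn, b, hb, hfb⟩ := RZ_365.exists_pow_val (F := K) W hf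
      (Algebra.IsAlgebraic.isAlgebraic f)
    obtain ⟨d, hd⟩ := w.val b hb
    obtain ⟨c, hc⟩ := IsAlgClosed.exists_pow_nat_eq d hn
    refine ⟨c, ?_⟩
    have h1 : W f ^ n = ‖c‖₊ ^ n := by
      rw [← map_pow, hfb, hW, hd, ← hc, nnnorm_pow]
    exact (pow_left_inj₀ zero_le zero_le hn.ne').1 h1

variable {l : ℕ} {h : K} {y : L}

/-- **inert case**, no condition on `l` -/
theorem inertP (hl : l.Prime) (hy : y ^ l = algebraMap K L h) (htop : K⟮y⟯ = ⊤)
    (w : Nm C K) (hvh : w.v h = 1) (hno : ∀ b : kap w, b ^ l ≠ red w h) (W : Nm C L)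
    (hW : W.v.comap (algebraMap K L) = w.v) :
    W.v y = 1 ∧ red W y ^ l = kapMap w W hW (red w h) ∧
      ∀ b : kap W, ∃ a : ℕ → kap w,
        b = ∑ j ∈ Finset.range l, kapMap w W hW (a j) * red W y ^ j := by
  have hWv : ∀ a : K, W.v (algebraMap K L a) = w.v a := fun a => DFunLike.congr_fun hW a
  have hg : ∀ g : K, ¬ w.v (h / g ^ l - 1) < 1 := by
    intro g hlt
    have h1 : w.v (h / g ^ l) = 1 := by
      have : h / g ^ l = 1 + (h / g ^ l - 1) := by ring
      rw [this, Valuation.map_add_eq_of_lt_left _ (by rw [map_one]; exact hlt), map_one]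
    have h2 : w.v g = 1 := by
      rw [map_div₀, hvh, map_pow, one_div, inv_eq_one] at h1
      exact (pow_eq_one_iff_of_nonneg zero_le hl.ne_zero).1 h1
    apply hno (red w g)
    have h3 : red w (h / g ^ l) = 1 := by
      rw [← red_one w, red_eq_iff w h1.le (by rw [map_one])]
      exact hlt
    have h4 : g ≠ 0 := by
      rintro rfl
      rw [map_zero] at h2
      exact zero_ne_one h2
    have h5 : h = (h / g ^ l) * g ^ l := by rw [div_mul_cancel₀ _ (pow_ne_zero _ h4)]
    conv_rhs => rw [h5, red_mul w h1.le (by rw [map_pow, h2, one_pow]), h3, one_mul,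
      red_pow w h2.le]
  have hnorm := inert_norm w.v hl hy hvh hg W.v hW
  have hWy : W.v y = 1 := by
    have h1 : W.v y ^ l = 1 := by rw [← map_pow, hy, hWv, hvh]
    exact (pow_eq_one_iff_of_nonneg zero_le hl.ne_zero).mp h1
  refine ⟨hWy, ?_, ?_⟩
  · rw [kapMap_red, ← red_pow W hWy.le, hy]
  · intro b
    obtain ⟨f, hf, rfl⟩ := red_surj W b
    obtain ⟨a, ha⟩ := exists_coeffs hl hy htop f
    have h1 := hnorm a
    rw [← ha] at h1
    have h2 : ∀ j ∈ Finset.range l, w.v (a j) ≤ 1 := by
      intro j hj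
      have h3 := Finset.le_sup (f := fun j => w.v (a j)) hj
      rw [← h1] at h3
      exact h3.trans hf
    refine ⟨fun j => red w (a j), ?_⟩
    have h4 : ∀ j ∈ Finset.range l, W.v (algebraMap K L (a j) * y ^ j) ≤ 1 := by
      intro j hj
      rw [map_mul, map_pow, hWy, one_pow, mul_one, hWv]
      exact h2 j hj
    conv_lhs => rw [ha]
    rw [(Kapx_275.red_sum W _ _ h4).2]
    refine Finset.sum_congr rfl fun j hj => ?_
    rw [red_mul W (by rw [hWv]; exact h2 j hj) (by rw [map_pow, hWy, one_pow]), red_pow W hWy.le,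
      kapMap_red]

/-- the residue field of the inseparable Kummer extension has the same genus -/
theorem hasGen_inertP {p : ℕ} [hp : Fact p.Prime] [CharP (Ct C) p] [IsAlgClosed (Ct C)]
    (hy : y ^ p = algebraMap K L h) (htop : K⟮y⟯ = ⊤)
    (w : Nm C K) (hvh : w.v h = 1) (hno : ∀ b : kap w, b ^ p ≠ red w h) (W : Nm C L)
    (hW : W.v.comap (algebraMap K L) = w.v) {g : ℕ} (hg : HasGen (Ct C) (kap w) g) :
    HasGen (Ct C) (kap W) g := by
  obtain ⟨hWy, h1, h2⟩ := inertP hp.out hy htop w hvh hno W hW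
  let _ := (kapMap w W hW).toAlgebra
  have _ : IsScalarTower (Ct C) (kap w) (kap W) := IsScalarTower.of_algebraMap_eq fun c =>
    (kapMap_algebraMap w W hW c).symm
  have _ : CharP (kap W) p := charP_of_injective_algebraMap (algebraMap (Ct C) (kap W)).injective p
  refine hasGen_of_purelyInsep (K := kap w) (p := p) (fun b => ?_) ⟨red W y, ?_⟩ hg
  · obtain ⟨a, rfl⟩ := h2 b
    have h3 : ∀ j, (kapMap w W hW (a j) * red W y ^ j) ^ p =
        kapMap w W hW (a j ^ p * red w h ^ j) := by
      intro j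
      rw [mul_pow, ← pow_mul, mul_comm j p, pow_mul, h1, map_mul, map_pow, map_pow]
    refine ⟨∑ j ∈ Finset.range p, a j ^ p * red w h ^ j, ?_⟩
    change kapMap w W hW _ = _
    rw [sum_pow_char p, map_sum]
    exact Finset.sum_congr rfl fun j _ => (h3 j).symm
  · rintro ⟨a, ha⟩
    change kapMap w W hW a = _ at ha
    rw [← ha, ← map_pow] at h1
    exact hno a ((kapMap w W hW).injective h1)

end Ext

section Dense

variable {C : Type*} [NormedField C] [IsUltrametricDist C] [IsAlgClosed C]
variable {K L : Type*} [Field K] [Field L] [Algebra C K] [Algebra K L] [Algebra C L]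
  [IsScalarTower C K L]

/-- if `K` is dense in `L`, the residue fields are equal -/
theorem kapMap_bijective_of_dense (w : Nm C K) (W : Nm C L)
    (hW : W.v.comap (algebraMap K L) = w.v)
    (hd : ∀ z : L, ∃ g : K, W.v (algebraMap K L g - z) < 1) :
    Function.Bijective (kapMap w W hW) := by
  refine ⟨(kapMap w W hW).injective, fun b => ?_⟩
  obtain ⟨f, hf, rfl⟩ := red_surj W b
  obtain ⟨g, hg⟩ := hd f
  refine ⟨red w g, ?_⟩
  rw [kapMap_red]
  have h1 : W.v (algebraMap K L g) ≤ 1 := by
    have : algebraMap K L g = f + (algebraMap K L g - f) := by ring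
    rw [this]
    exact (Valuation.map_add _ _ _).trans (max_le hf hg.le)
  rw [red_eq_iff W h1 hf]
  exact hg

theorem hasGen_of_bijective [IsAlgClosed (Ct C)] (w : Nm C K) (W : Nm C L)
    (hW : W.v.comap (algebraMap K L) = w.v) (hb : Function.Bijective (kapMap w W hW)) {g : ℕ}
    (hg : HasGen (Ct C) (kap w) g) : HasGen (Ct C) (kap W) g :=
  hg.transport (RingEquiv.refl (Ct C)) (RingEquiv.ofBijective (kapMap w W hW) hb)
    (fun c => kapMap_algebraMap w W hW c)

/-- **K2**: a norm of a Galois extension of prime degree which is moved by some automorphism -/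
theorem hasGen_of_moved [IsAlgClosed (Ct C)] [FiniteDimensional K L] [IsGalois K L]
    (hprime : (Module.finrank K L).Prime) (hnt : ∃ c : C, c ≠ 0 ∧ ‖c‖ < 1)
    (w : Nm C K) (W : Nm C L)
    (hW : W.v.comap (algebraMap K L) = w.v) (σ : L ≃ₐ[K] L) (hσ : ∃ x, W.v (σ x) ≠ W.v x) {g : ℕ}
    (hg : HasGen (Ct C) (kap w) g) : HasGen (Ct C) (kap W) g := by
  have hWv : ∀ a : K, W.v (algebraMap K L a) = w.v a := fun a => DFunLike.congr_fun hW a
  have hv : ∃ c, w.v c ≠ 0 ∧ w.v c ≠ 1 := by
    obtain ⟨c, hc0, hc1⟩ := hnt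
    refine ⟨algebraMap C K c, ?_, ?_⟩
    · rw [w.hC]; exact nnnorm_ne_zero_iff.2 hc0
    · rw [w.hC]; intro h; exact hc1.ne (by rw [← coe_nnnorm, h]; rfl)
  set W' : Ext L w.v := ⟨W.v, hWv⟩ with hW'
  have hcard : (Nat.card (L ≃ₐ[K] L)).Prime := by rw [IsGalois.card_aut_eq_finrank]; exact hprime
  have : Fact (Nat.card (L ≃ₐ[K] L)).Prime := ⟨hcard⟩
  have hst : MulAction.stabilizer (L ≃ₐ[K] L) W' = ⊥ := by
    rcases (MulAction.stabilizer (L ≃ₐ[K] L) W').eq_bot_or_eq_top_of_prime_card with h | h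
    · exact h
    · exfalso
      have h1 : σ⁻¹ ∈ MulAction.stabilizer (L ≃ₐ[K] L) W' := by rw [h]; trivial
      obtain ⟨x, hx⟩ := hσ
      rw [MulAction.mem_stabilizer_iff] at h1
      have h2 := congrArg (fun z => z.1 x) h1
      exact hx h2
  refine hasGen_of_bijective w W hW (kapMap_bijective_of_dense w W hW fun z => ?_) hg
  exact dense_of_stabilizer hv W' hst z 1 one_pos

end Dense

section Final

universe u

variable {C : Type*} [NormedField C] [IsUltrametricDist C] [IsAlgClosed C] [CharZero C]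

/-- the unramified Kummer extension of prime degree -/
theorem exists_cover {K : Type u} [Field K] [Algebra C K] {p : ℕ} (hp : p.Prime) {g : ℕ}
    (hg : HasGen C K g) (hg1 : 1 ≤ g) (h : K) (h0 : h ≠ 0)
    (hdiv : ∀ P : Pl C K, ∃ m : ℤ, P.v h = exp ((p : ℤ) * m)) (hn : ∀ f : K, f ^ p ≠ h) :
    ∃ (L : Type u) (_ : Field L) (_ : Algebra C L) (_ : Algebra K L) (_ : IsScalarTower C K L)
      (_ : FiniteDimensional K L) (_ : IsGalois K L) (y : L), y ^ p = algebraMap K L h ∧
        K⟮y⟯ = ⊤ ∧ Module.finrank K L = p ∧ UnrPl C K L ∧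
        ∃ g' : ℕ, HasGen C L g' ∧ g' = p * (g - 1) + 1 := by
  obtain ⟨i, j, f, s, hgg⟩ := id hg
  let _ := i
  have _ := j
  have _ := f
  have _ := s
  obtain ⟨L, _, _, _, _, _, _, y, hy, htop⟩ := exists_kummer (C := C) p hp.ne_zero h h0
  refine ⟨L, inferInstance, inferInstance, inferInstance, inferInstance, inferInstance,
    inferInstance, y, hy, htop, DCov1_700.finrank_eq hp hn hy htop,
    unrPl_of_kummer p hp.ne_zero h hdiv y hy htop, ?_⟩
  let _ : Algebra (RatFunc C) L := ((algebraMap K L).comp (algebraMap (RatFunc C) K)).toAlgebra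
  have _ : IsScalarTower (RatFunc C) K L := IsScalarTower.of_algebraMap_eq fun x => rfl
  have _ : IsScalarTower C (RatFunc C) L := IsScalarTower.of_algebraMap_eq fun x => by
    rw [IsScalarTower.algebraMap_apply C K L, IsScalarTower.algebraMap_apply C (RatFunc C) K]
    rfl
  have _ : FiniteDimensional (RatFunc C) L := FiniteDimensional.trans (RatFunc C) K L
  have _ : CharZero (RatFunc C) := charZero_of_injective_algebraMap
    (algebraMap C (RatFunc C)).injective
  have _ : Algebra.IsSeparable (RatFunc C) L := inferInstance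
  refine ⟨gen C L, hasGen_gen C L, ?_⟩
  have h1 : divf (k := C) h = (p : ℤ) •
      (divf (k := C) h).mapRange (fun n => n / (p : ℤ)) (Int.zero_ediv _) := by
    ext P
    rw [Finsupp.smul_apply, Finsupp.mapRange_apply, smul_eq_mul]
    obtain ⟨m, hm⟩ := hdiv P
    rw [v_eq h0, exp_inj] at hm
    exact (Int.mul_ediv_cancel' ⟨-m, by linarith⟩).symm
  have h2 := DCov1_700.gen_eq hp h0 h1 hn hy htop
  rw [hgg] at h2
  zify [hg1]
  linarith

/-- **K1**: the Kummer extension with inseparable reduction -/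
theorem kummer_insep {K : Type u} [Field K] [Algebra C K] {p : ℕ} [hp : Fact p.Prime]
    [CharP (Ct C) p] [IsAlgClosed (Ct C)] {g : ℕ}
    (hg : HasGen C K g) (hg1 : 1 ≤ g) (h : K)
    (hdiv : ∀ P : Pl C K, ∃ m : ℤ, P.v h = exp ((p : ℤ) * m)) (w : Nm C K) (hvh : w.v h = 1)
    (hno : ∀ b : kap w, b ^ p ≠ red w h) {g0 : ℕ} (hg0 : HasGen (Ct C) (kap w) g0) :
    ∃ (L : Type u) (_ : Field L) (_ : Algebra C L) (_ : Algebra K L) (_ : IsScalarTower C K L)
      (_ : FiniteDimensional K L) (_ : IsGalois K L) (y : L), y ^ p = algebraMap K L h ∧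
        K⟮y⟯ = ⊤ ∧ Module.finrank K L = p ∧ UnrPl C K L ∧
        HasGen C L (p * (g - 1) + 1) ∧
        ∃ (W : Nm C L), W.v.comap (algebraMap K L) = w.v ∧ HasGen (Ct C) (kap W) g0 := by
  have h0 : h ≠ 0 := by
    rintro rfl
    rw [map_zero] at hvh
    exact zero_ne_one hvh
  have hn : ∀ f : K, f ^ p ≠ h := by
    intro f hf
    have h1 : w.v f = 1 := by
      have : w.v f ^ p = 1 := by rw [← map_pow, hf, hvh]
      exact (pow_eq_one_iff_of_nonneg zero_le hp.out.ne_zero).1 this
    exact hno (red w f) (by rw [← red_pow w h1.le, hf])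
  obtain ⟨L, _, _, _, _, _, _, y, hy, htop, hfr, hunr, g', hg', rfl⟩ :=
    exists_cover hp.out hg hg1 h h0 hdiv hn
  obtain ⟨W, hW⟩ := exists_nm (L := L) w
  exact ⟨L, inferInstance, inferInstance, inferInstance, inferInstance, inferInstance,
    inferInstance, y, hy, htop, hfr, hunr, hg', W, hW,
    hasGen_inertP hy htop w hvh hno W hW hg0⟩

end Final

end Crest.Agent.R013.GRK_903
end

-- ▼ part R013/GRA_903
section

/-!
# C-GR: final assembly
-/

set_option autoImplicit false
set_option linter.unusedSectionVars false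

namespace Crest.Agent.R013.GRK_903

open scoped NNReal
open WithZero Polynomial IntermediateField
open Crest.Agent.R013.RR7_948 Crest.Agent.R013.Red332 Crest.Agent.R013.GR3_921
open Crest.Agent.R013.CB1_903
open Crest.Agent.R013.RR11_948 Crest.Agent.R013.RR12_948

universe u

section Defs

variable (C : Type*) [NormedField C] [IsUltrametricDist C] (p : ℕ)

omit [IsUltrametricDist C] in
/-- existence of `p`-torsion classes (235), in terms of functions -/
def InTors : Prop :=
  ∀ (K : Type u) [Field K] [Algebra C K] (g : ℕ), HasGen C K g → 1 ≤ g →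
    ∃ h : K, h ≠ 0 ∧ (∀ P : Pl C K, ∃ m : ℤ, P.v h = exp ((p : ℤ) * m)) ∧ ∀ f : K, f ^ p ≠ h

/-- the invariant case (921) -/
def InSig : Prop :=
  ∀ (K L : Type u) [Field K] [Field L] [Algebra C K] [Algebra C L] [Algebra K L]
    [IsScalarTower C K L] [FiniteDimensional K L] [IsGalois K L] (g : ℕ),
    Module.finrank K L = p → UnrPl C K L → HasGen C K g → 1 ≤ g →
    HasGen C L (p * (g - 1) + 1) → ∀ (w : Nm C K) (W : Nm C L),
    W.v.comap (algebraMap K L) = w.v → HasGen (Ct C) (kap w) g →
    (∀ (σ : L ≃ₐ[K] L) x, W.v (σ x) = W.v x) →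
    HasGen (Ct C) (kap W) g ∨ ∃ h : K, w.v h = 1 ∧ (∀ b : kap w, b ^ p ≠ red w h) ∧
      ∀ P : Pl C K, ∃ m : ℤ, P.v h = exp ((p : ℤ) * m)

end Defs

section Main

variable {C : Type*} [NormedField C] [IsUltrametricDist C] [IsAlgClosed C] [CharZero C]

/-- **C-GR** from the invariant case and torsion -/
theorem inGR_of (p : ℕ) [hp : Fact p.Prime] (hpC : ‖(p : C)‖ < 1) [CharP (Ct C) p]
    [IsAlgClosed (Ct C)] (hT : InTors.{u} C p) (hS : InSig.{u} C p) : InGR.{u} C := by
  intro K _ _ g hg h2 w hw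
  obtain ⟨h1, h10, h1div, h1n⟩ := hT K g hg (by omega)
  obtain ⟨L, _, _, _, _, _, _, y, hy, htop, hfr, hunr, g', hg', rfl⟩ :=
    exists_cover hp.out hg (by omega) h1 h10 h1div h1n
  have hlt : g < p * (g - 1) + 1 := by
    have h3 : 2 * (g - 1) ≤ p * (g - 1) := Nat.mul_le_mul_right _ hp.out.two_le
    omega
  obtain ⟨W, hW⟩ := exists_nm (L := L) w
  have hfin : HasGen (Ct C) (kap W) g → ∃ (L : Type u) (_ : Field L) (_ : Algebra C L)
      (_ : Algebra K L) (_ : IsScalarTower C K L) (_ : FiniteDimensional K L), UnrPl C K L ∧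
      ∃ (w' : Nm C L) (g1 g' : ℕ), HasGen C L g' ∧ HasGen (Ct C) (kap w') g1 ∧ 1 ≤ g1 ∧
        g1 < g' := fun h =>
    ⟨L, inferInstance, inferInstance, inferInstance, inferInstance, inferInstance, hunr, W, g, _,
      hg', h, by omega, hlt⟩
  by_cases hmov : ∃ σ : L ≃ₐ[K] L, ∃ x, W.v (σ x) ≠ W.v x
  · obtain ⟨σ, hσ⟩ := hmov
    refine hfin (hasGen_of_moved (by rw [hfr]; exact hp.out)
      ⟨(p : C), Nat.cast_ne_zero.2 hp.out.ne_zero, hpC⟩ w W hW σ hσ hw)
  · push Not at hmov
    rcases hS K L g hfr hunr hg (by omega) hg' w W hW hw hmov with h3 | ⟨h, hh1, hh2, hh3⟩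
    · exact hfin h3
    · obtain ⟨M, _, _, _, _, _, _, z, hz, hztop, hfrM, hunrM, hgM, W', hW', hgW'⟩ :=
        kummer_insep hg (by omega) h hh3 w hh1 hh2 hw
      exact ⟨M, inferInstance, inferInstance, inferInstance, inferInstance, inferInstance, hunrM,
        W', g, _, hgM, hgW', by omega, hlt⟩

end Main

end Crest.Agent.R013.GRK_903
end

-- ▼ part R013/CB1g_903
section

/-!
# C-LIFTN and (A1) with lemma LIFT plugged in
-/

set_option autoImplicit false
set_option linter.unusedSectionVars false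

namespace Crest.Agent.R013.CB1_903

open scoped NNReal
open WithZero Polynomial IntermediateField
open Crest.Agent.R013.RR7_948 Crest.Agent.R013.Red332 Crest.Agent.R013.GR3_921
open Crest.Agent.R013.RR11_948 Crest.Agent.R013.RR12_948
open Crest.Agent.R013.Cell_408 (DiscNorm)
open Crest.Agent.R013.SSK_332 Crest.Agent.R013.GRK_903

universe u

section Lift

variable {k C K : Type*} [NontriviallyNormedField k] [CompleteSpace k] [IsUltrametricDist k]
  [NormedField C] [IsUltrametricDist C] [NormedAlgebra k C] [Algebra.IsAlgebraic k C]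
  [IsAlgClosed C] [hk : Fact (DiscNorm k)] [CharZero C]
  [Field K] [Algebra C K] [Algebra (RatFunc C) K]
  [IsScalarTower C (RatFunc C) K] [FiniteDimensional (RatFunc C) K]
  [Algebra.IsSeparable (RatFunc C) K] (S : SSK k C K)


end Lift

section Final

variable {k C : Type*} [NontriviallyNormedField k] [CompleteSpace k] [IsUltrametricDist k]
  [NormedField C] [IsUltrametricDist C] [NormedAlgebra k C] [Algebra.IsAlgebraic k C]
  [IsAlgClosed C] [hk : Fact (DiscNorm k)] [CharZero C] (p : ℕ) [hp : Fact p.Prime]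
  [NormedAlgebra ℚ_[p] C] [Algebra.IsAlgebraic ℚ_[p] C]

include hp in
omit [Algebra.IsAlgebraic ℚ_[p] C] [CharZero C] in
theorem norm_p_lt_one : ‖(p : C)‖ < 1 := by
  have h2 : (p : C) = algebraMap ℚ_[p] C (p : ℚ_[p]) := by simp
  rw [h2, norm_algebraMap', Padic.norm_p]
  exact inv_lt_one_of_one_lt₀ (by exact_mod_cast hp.out.one_lt)

/-- **(A1)** from `exists_SSK` with a prescribed disc (332), inheritance (770), the invariant case
of C-GR (921) and `p`-torsion (235) -/
theorem a1_final (hD : InDisc.{u} k C) (hI : InInh.{u} k C) (hS : InSig.{u} C p)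
    (hT : InTors.{u} C p) (K : Type u) [Field K] [Algebra C K] (g : ℕ) (hg : HasGen C K g)
    (h2 : 2 ≤ g) : A1 k C K := by
  have _ := TP14_928.charP_Ct (C := C) p
  exact a1_of p hD hI (RZ_365.inLift hk.out (norm_natCast_of_coprime p))
    (inGR_of p (norm_p_lt_one p) hT hS) K g hg h2

end Final

end Crest.Agent.R013.CB1_903
end

-- ▼ part R013/InhC3_770
section

/-!
# Row 13 (helper770): 903's `InInh`
-/

set_option autoImplicit false
set_option linter.all false
open Crest.Agent.R013.Red332 Crest.Agent.R013.SSK_332 Crest.Agent.R013.CB1_903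
open Crest.Agent.R013.Cell_408 (FinDef DiscNorm)

namespace Crest.Agent.R013.Inh_770

universe u

theorem inInh (k C : Type*) [NontriviallyNormedField k] [CompleteSpace k] [IsUltrametricDist k]
    [NormedField C] [IsUltrametricDist C] [NormedAlgebra k C]
    [Algebra.IsAlgebraic k C] [IsAlgClosed C] [Fact (DiscNorm k)] : InInh.{u} k C := by
  intro K L _ _ _ _ _ _ _ _ _ _ _ _ S P
  refine ⟨P.inh, P.vK _, P.vK_nm _, ?_⟩
  have h1 := P.card_Ed P.ffL
  letI := S.fEd
  letI := (P.inh).fEd
  unfold nE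
  rw [← Nat.card_eq_fintype_card, ← Nat.card_eq_fintype_card]
  exact h1

end Crest.Agent.R013.Inh_770
end

-- ▼ part R013/CB1h_903
section

/-!
# (A1) with inheritance (770) and torsion (235) plugged in
-/

set_option autoImplicit false
set_option linter.unusedSectionVars false

namespace Crest.Agent.R013.CB1_903

open scoped NNReal
open WithZero Polynomial IntermediateField
open Crest.Agent.R013.RR7_948 Crest.Agent.R013.Red332 Crest.Agent.R013.GR3_921
open Crest.Agent.R013.RR11_948 Crest.Agent.R013.RR12_948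
open Crest.Agent.R013.Cell_408 (DiscNorm)
open Crest.Agent.R013.SSK_332 Crest.Agent.R013.GRK_903

universe u

theorem inTors {C : Type*} [NormedField C] [IsAlgClosed C] [CharZero C] {p : ℕ} (hp : p.Prime) :
    InTors.{u} C p := by
  intro K _ _ g hg h1
  obtain ⟨i, j, f, s, hgg⟩ := id hg
  let _ := i
  have _ := j
  have _ := f
  have _ := s
  obtain ⟨D, h, h0, hD, hno⟩ := Tors15_235.tors (F := C) (K := K) (by rw [hgg]; exact h1) hp
  have hP : ∀ P : Pl C K, P.v h = exp ((p : ℤ) * (-D P)) := by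
    intro P
    rw [v_eq (k := C) h0 P, ← hD, Finsupp.smul_apply, nsmul_eq_mul]
    congr 1
    ring
  refine ⟨h, h0, fun P => ⟨_, hP P⟩, fun g hg => ?_⟩
  have hg0 : g ≠ 0 := by
    rintro rfl
    rw [zero_pow hp.ne_zero] at hg
    exact h0 hg.symm
  refine hno g hg0 ?_
  ext P
  have h2 := hP P
  rw [← hg, map_pow, v_eq (k := C) hg0 P, ← exp_nsmul, exp_inj, nsmul_eq_mul] at h2
  have h3 : (p : ℤ) ≠ 0 := by exact_mod_cast hp.ne_zero
  have h4 : (p : ℤ) * (D P - divf g P) = 0 := by
    have : (p : ℤ) * -(divf (k := C) g P) = (p : ℤ) * -D P := by exact_mod_cast h2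
    linarith
  rcases mul_eq_zero.1 h4 with h5 | h5
  · exact absurd h5 h3
  · linarith

section Final

variable {k C : Type*} [NontriviallyNormedField k] [CompleteSpace k] [IsUltrametricDist k]
  [NormedField C] [IsUltrametricDist C] [NormedAlgebra k C] [Algebra.IsAlgebraic k C]
  [IsAlgClosed C] [hk : Fact (DiscNorm k)] [CharZero C] (p : ℕ) [hp : Fact p.Prime]
  [NormedAlgebra ℚ_[p] C] [Algebra.IsAlgebraic ℚ_[p] C]

/-- **(A1)** from `exists_SSK` with a prescribed disc (332) and the invariant case of C-GR (921) -/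
theorem a1_two (hD : InDisc.{u} k C) (hS : InSig.{u} C p)
    (K : Type u) [Field K] [Algebra C K] (g : ℕ) (hg : HasGen C K g)
    (h2 : 2 ≤ g) : A1 k C K :=
  a1_final p hD (Inh_770.inInh k C) hS (inTors hp.out) K g hg h2

end Final

end Crest.Agent.R013.CB1_903
end

-- ▼ part R013/CB1i_903
section

/-!
# (A1): the genus of the extension
-/

set_option autoImplicit false
set_option linter.unusedSectionVars false

namespace Crest.Agent.R013.CB1_903

open scoped NNReal
open Crest.Agent.R013.RR7_948 Crest.Agent.R013.Red332 Crest.Agent.R013.GR3_921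
open Crest.Agent.R013.RR11_948 Crest.Agent.R013.RR12_948 Crest.Agent.R013.GR2_921
open Crest.Agent.R013.Cell_408 (DiscNorm)
open Crest.Agent.R013.SSK_332

universe u

/-- the genus does not decrease in finite extensions -/
theorem exists_hasGen_ge {C K L : Type*} [Field C] [IsAlgClosed C] [CharZero C] [Field K]
    [Field L] [Algebra C K] [Algebra C L] [Algebra K L] [IsScalarTower C K L]
    [FiniteDimensional K L] {g : ℕ} (hg : HasGen C K g) : ∃ g', HasGen C L g' ∧ g ≤ g' := by
  obtain ⟨i, j, f, s, hgg⟩ := id hg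
  let _ := i
  have _ := j
  have _ := f
  have _ := s
  let _ : Algebra (RatFunc C) L := ((algebraMap K L).comp (algebraMap (RatFunc C) K)).toAlgebra
  have _ : IsScalarTower (RatFunc C) K L := IsScalarTower.of_algebraMap_eq fun x => rfl
  have _ : IsScalarTower C (RatFunc C) L := IsScalarTower.of_algebraMap_eq fun x => by
    rw [IsScalarTower.algebraMap_apply C K L, IsScalarTower.algebraMap_apply C (RatFunc C) K]
    rfl
  have _ : FiniteDimensional (RatFunc C) L := FiniteDimensional.trans (RatFunc C) K L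
  have _ : CharZero (RatFunc C) := charZero_of_injective_algebraMap
    (algebraMap C (RatFunc C)).injective
  have _ : CharZero K := charZero_of_injective_algebraMap (algebraMap C K).injective
  have _ : Algebra.IsSeparable (RatFunc C) L := inferInstance
  have _ : Algebra.IsSeparable K L := inferInstance
  refine ⟨gen C L, hasGen_gen C L, ?_⟩
  rw [← hgg]
  exact RHP_240.gen_le (K := K) (L := L) hc_of_isAlgClosed hc_of_isAlgClosed

variable {k C : Type*} [NontriviallyNormedField k] [CompleteSpace k]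
  [NormedField C] [IsUltrametricDist C] [NormedAlgebra k C] [Algebra.IsAlgebraic k C]
  [IsAlgClosed C] [CharZero C]

/-- (A1) with the genus -/
theorem A1.genus {K : Type u} [Field K] [Algebra C K] (h : A1 k C K) {g : ℕ}
    (hg : HasGen C K g) (h2 : 2 ≤ g) :
    ∃ (L : Type u) (_ : Field L) (_ : Algebra C L) (_ : Algebra K L) (_ : IsScalarTower C K L)
      (_ : FiniteDimensional K L) (SL : SSK k C L), UnrPl C K L ∧ SL.Conn ∧ nV SL ≤ nE SL ∧
      ∃ g', HasGen C L g' ∧ 2 ≤ g' := by
  obtain ⟨L, _, _, _, _, _, SL, h1, h3, h4⟩ := h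
  obtain ⟨g', hg', hle⟩ := exists_hasGen_ge (L := L) hg
  exact ⟨L, inferInstance, inferInstance, inferInstance, inferInstance, inferInstance, SL, h1, h3,
    h4, g', hg', h2.trans hle⟩

end Crest.Agent.R013.CB1_903
end

-- ▼ part R013/CDefs_588
section

/-!
# Row 13, part C: the definitions used in the assembly of `GOOD` (helper588)

`C` = algebraic closure of `ℚ_[p]`, normed; `K` = a function field over `C` (948's context);
`S : SSK ℚ_[p] C K` a semistable structure (332).

* `SplitPl C K L` : `K` is dense in `L` at all places of `L/C` (i.e. `L/K` is unramified);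
* `NdLe`, `NdLt`, `CN`, `RegAt`, `tw`, `Cary` : norms and reductions of the differential `g dX`,
  written with functions of `K` only;
* `Inh S S'` : the semistable structure of `L` lies over that of `K`;
* the leaves of part C as `def … : Prop`.
-/

set_option autoImplicit false
set_option linter.all false

namespace Crest.Agent.R013.CDefs_588

open scoped NNReal
open WithZero
open Crest.NumberTheoryR.Sect
open Crest.Agent.R013.RR7_948 Crest.Agent.R013.RR8_948 Crest.Agent.R013.RR9_948
open Crest.Agent.R013.RR11_948 Crest.Agent.R013.RR14_948 Crest.Agent.R013.PicD_398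
open Crest.Agent.R013.Red332 Crest.Agent.R013.SSK_332 Crest.Agent.R013.EE809
open Crest.Agent.R013.Cell_408 Crest.Agent.R013.DEm_719 Crest.Agent.R013.Desc_372
open Crest.Agent.R013.GR3_921 Crest.Agent.R013.TP_928
open Crest.Agent.R013.TopE1_957 (SplitAt)

/-! ### differentials -/

section nd

variable {C : Type*} [NormedField C] [IsUltrametricDist C] [CharZero C] {K : Type*} [Field K]
  [Algebra C K] [Algebra (RatFunc C) K] [IsScalarTower C (RatFunc C) K]
  [FiniteDimensional (RatFunc C) K]





/-- `σ (g dX) = (tw σ g) dX` -/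
noncomputable def tw (σ : K ≃ₐ[C] K) (g : K) : K := σ g * del C K (σ (xK C K))

end nd

section ss

variable {p : ℕ} [Fact p.Prime] {C : Type*} [NormedField C] [IsUltrametricDist C]
  [NormedAlgebra ℚ_[p] C] [Algebra.IsAlgebraic ℚ_[p] C]



variable {K : Type*} [Field K] [Algebra C K] {L : Type*} [Field L] [Algebra C L] [Algebra K L]
  [IsScalarTower C K L]

variable (C K L) in
/-- `L/K` is completely split (equivalently: unramified) at all places -/
def SplitPl : Prop := ∀ v : Valuation K ℝ≥0, IsPlace C v → SplitAt v L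


/-- the semistable structure `S'` of `L` lies over the semistable structure `S` of `K`
(770's inheritance) -/
structure Inh (S : SSK ℚ_[p] C K) (S' : SSK ℚ_[p] C L) where
  vm : S'.V → S.V
  nm_vm : ∀ w f, (S'.nm w).v (algebraMap K L f) = (S.nm (vm w)).v f
  vall : ∀ (w : Nm C L) (v : S.V), (∀ f : K, w.v (algebraMap K L f) = (S.nm v).v f) →
    ∃ w' : S'.V, S'.nm w' = w
  dm : S'.Dir → S.Dir
  dm_fst : ∀ d, (dm d).1 = vm d.1
  em_dm : ∀ d f, S'.em d (algebraMap K L f) = S.em (dm d) f
  edm : S'.Ed → S.Ed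
  cc_edm : ∀ e, S'.cc e = S.cc (edm e)
  e0_edm : ∀ e, dm (S'.e0 e) = S.e0 (edm e)
  e1_edm : ∀ e, dm (S'.e1 e) = S.e1 (edm e)
  e0_lift : ∀ (d : S'.Dir) (e : S.Ed), dm d = S.e0 e → ∃ e' : S'.Ed, S'.e0 e' = d
  e1_lift : ∀ (d : S'.Dir) (e : S.Ed), dm d = S.e1 e → ∃ e' : S'.Ed, S'.e1 e' = d
  card_Ed : Nat.card S'.Ed = Module.finrank K L * Nat.card S.Ed
  free : ∀ (σ : L ≃ₐ[K] L) (d : S'.Dir), (∀ f, (S'.nm d.1).v (σ f) = (S'.nm d.1).v f) →
    (∀ f, f ≠ 0 → Red332.od (S'.nm d.1) d.2 (σ f) = Red332.od (S'.nm d.1) d.2 f) → σ = 1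

end ss


/-! ### intermediate fields -/

section inter

variable {C : Type*} [Field C] {K : Type*} [Field K] [Algebra C K] [Algebra (RatFunc C) K]
  [IsScalarTower C (RatFunc C) K] [FiniteDimensional (RatFunc C) K]
  {Ω : Type*} [Field Ω] [Algebra K Ω] [Algebra C Ω] [IsScalarTower C K Ω]
  [Algebra (RatFunc C) Ω] [IsScalarTower (RatFunc C) K Ω]

instance instTowC (L : IntermediateField K Ω) : IsScalarTower C K L :=
  IsScalarTower.of_algebraMap_eq fun x => Subtype.ext (IsScalarTower.algebraMap_apply C K Ω x)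

instance instTowR (L : IntermediateField K Ω) : IsScalarTower (RatFunc C) K L :=
  IsScalarTower.of_algebraMap_eq fun x =>
    Subtype.ext (IsScalarTower.algebraMap_apply (RatFunc C) K Ω x)

instance instTowCR (L : IntermediateField K Ω) : IsScalarTower C (RatFunc C) L :=
  IsScalarTower.of_algebraMap_eq fun x => by
    rw [IsScalarTower.algebraMap_apply (RatFunc C) K L, ← IsScalarTower.algebraMap_apply C (RatFunc C) K,
      ← IsScalarTower.algebraMap_apply C K L]

instance instFD (L : IntermediateField K Ω) [FiniteDimensional K L] :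
    FiniteDimensional (RatFunc C) L :=
  FiniteDimensional.trans (RatFunc C) K L

end inter

/-! ### the leaves -/

section leaves

variable (p : ℕ) [Fact p.Prime] (C : Type) [NormedField C] [IsUltrametricDist C]
  [NormedAlgebra ℚ_[p] C] [Algebra.IsAlgebraic ℚ_[p] C] [IsAlgClosed C] [CharZero C]



/-- **(A1)** (903, 921) an unramified cover with a cycle in its graph -/
def A1 : Prop :=
  ∀ (K : Type) [Field K] [Algebra C K] [Algebra (RatFunc C) K] [IsScalarTower C (RatFunc C) K]
    [FiniteDimensional (RatFunc C) K] (Ω : Type) [Field Ω] [Algebra K Ω] [Algebra C Ω]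
    [IsScalarTower C K Ω] [IsAlgClosed Ω], 2 ≤ gen C K →
    ∃ L : IntermediateField K Ω, FiniteDimensional K L ∧ SplitPl C K L ∧
      ∃ S : SSK ℚ_[p] C L, Nat.card S.V ≤ Nat.card S.Ed ∧
        Nat.card {v : S.V // HasGen (Ct C) (kap (S.nm v)) 0} < Nat.card S.Ed














end leaves

end Crest.Agent.R013.CDefs_588
end

-- ▼ part R013/CB1j_903
section

/-!
# (A1): strict inequality, density at the places, transport; 588's form of (A1)
-/

set_option autoImplicit false
set_option linter.unusedSectionVars false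

namespace Crest.Agent.R013.CB1_903

open scoped NNReal
open WithZero
open Crest.NumberTheoryR.Sect
open Crest.Agent.R013.RR7_948 Crest.Agent.R013.Red332 Crest.Agent.R013.GR3_921
open Crest.Agent.R013.RR11_948 Crest.Agent.R013.RR12_948 Crest.Agent.R013.GR2_921
open Crest.Agent.R013.Cell_408 (DiscNorm)
open Crest.Agent.R013.SSK_332 Crest.Agent.R013.EE809
open Crest.Agent.R013.TopE1_957 (SplitAt)
open Crest.Agent.R013.Inh_770

universe u

section Dense

variable {C K L : Type*} [Field C] [IsAlgClosed C] [Field K] [Field L]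
  [Algebra C K] [Algebra C L] [Algebra K L] [IsScalarTower C K L] [Algebra (RatFunc C) L]
  [IsScalarTower C (RatFunc C) L] [FiniteDimensional (RatFunc C) L]
  [Algebra.IsSeparable (RatFunc C) L]



end Dense

section Strict

variable {k C : Type*} [NontriviallyNormedField k] [CompleteSpace k] [IsUltrametricDist k]
  [NormedField C] [IsUltrametricDist C] [NormedAlgebra k C] [Algebra.IsAlgebraic k C]
  [IsAlgClosed C] [hk : Fact (DiscNorm k)] [CharZero C]

/-- the number of vertices of genus `0` is smaller than the number of edges -/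
theorem card_zero_lt {K : Type*} [Field K] [Algebra C K] (S : SSK k C K) {g : ℕ}
    (hg : HasGen C K g) (h2 : 2 ≤ g) (hle : nV S ≤ nE S) :
    Nat.card {v : S.V // HasGen (Ct C) (kap (S.nm v)) 0} < Nat.card S.Ed := by
  classical
  obtain ⟨i, j, f, s, hgg⟩ := id hg
  let _ := i
  have _ := j
  have _ := f
  have _ := s
  let _ := S.fV
  let _ := S.fEd
  have _ : IsAlgClosed (Ct C) := TP14_928.isAlgClosed_Ct
  have hgv : ∀ v : S.V, ∃ n, HasGen (Ct C) (kap (S.nm v)) n := by
    intro v
    obtain ⟨i, j, f, s⟩ := S.ff v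
    exact ⟨_, hasGen_gen _ _⟩
  choose gv hgv using hgv
  have h1 : g + Fintype.card S.V = (∑ v, gv v) + Fintype.card S.Ed + 1 :=
    RedD_310.genus_hasGen S hg hgv
  have hle' : Fintype.card S.V ≤ Fintype.card S.Ed := hle
  rw [Nat.card_eq_fintype_card (α := S.Ed)]
  have h3 : Nat.card {v : S.V // HasGen (Ct C) (kap (S.nm v)) 0} ≤ Fintype.card S.V := by
    rw [← Nat.card_eq_fintype_card]
    exact Finite.card_subtype_le _
  by_contra hcon
  push Not at hcon
  have h4 : Nat.card {v : S.V // HasGen (Ct C) (kap (S.nm v)) 0} = Nat.card S.V := by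
    rw [Nat.card_eq_fintype_card (α := S.V)]
    omega
  have h5 : ∀ v : S.V, HasGen (Ct C) (kap (S.nm v)) 0 := by
    intro v
    by_contra hv
    have h6 := Finite.card_subtype_lt (p := fun v : S.V => HasGen (Ct C) (kap (S.nm v)) 0) hv
    omega
  have h6 : ∑ v, gv v = 0 := Finset.sum_eq_zero fun v _ => (hgv v).unique (h5 v)
  rw [h6] at h1
  omega

end Strict

section Transport

variable {k C : Type*} [NontriviallyNormedField k] [CompleteSpace k] [IsUltrametricDist k]
  [NormedField C] [IsUltrametricDist C] [NormedAlgebra k C] [Algebra.IsAlgebraic k C]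
  [IsAlgClosed C] [hk : Fact (DiscNorm k)] [CharZero C]


end Transport

end Crest.Agent.R013.CB1_903
end

-- ▼ part R013/DescP2_429
section

/-!
# R013 / DescP2 (helper429): places of `K = K₀ ⊗_k C` and the levels `K₀[k']`

`comapPl s P` (valuation `f ↦ v_P (s f)`), `Inv k' P`: `P` is fixed by `Gam K₀ K k'`.
-/

set_option autoImplicit false
set_option linter.all false

namespace Crest.Agent.R013.DescP_429

open Module WithZero Crest.Agent.R013.Desc_372
open Crest.Agent.R013.RR7_948 Crest.Agent.R013.RR8_948 Crest.Agent.R013.RR9_948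
open Crest.Agent.R013.RR11_948 Crest.Agent.R013.RR12_948

section places

variable (k C : Type*) {K₀ K : Type*} [Field k] [Field C] [Field K₀] [Field K] [Algebra k C]
    [Algebra k K₀]
    [Algebra C K] [Algebra K₀ K] [Algebra k K] [IsScalarTower k C K] [IsScalarTower k K₀ K]





/-- `P` is fixed by `Gam K₀ K k'` -/
def Inv {k C : Type*} (K₀ : Type*) {K : Type*} [Field k] [Field C] [Field K₀] [Field K]
    [Algebra k C] [Algebra k K₀]
    [Algebra C K] [Algebra K₀ K] [Algebra k K] [IsScalarTower k C K] [IsScalarTower k K₀ K]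
    (k' : IntermediateField k C) (P : Pl C K) : Prop :=
  ∀ s ∈ CE.Gam K₀ K k', ∀ f : K, P.v (s f) = P.v f

variable {k C}

theorem Inv.mono {k' k'' : IntermediateField k C} (h : k' ≤ k'') {P : Pl C K}
    (hP : Inv K₀ k' P) : Inv K₀ k'' P := fun s hs => hP s (CE.Gam_anti h hs)


variable [Algebra (RatFunc C) K] [IsScalarTower C (RatFunc C) K] [FiniteDimensional (RatFunc C) K]
  [Algebra.IsSeparable (RatFunc C) K]











end places

end Crest.Agent.R013.DescP_429
end

-- ▼ part R013/DescP3_429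
section

/-!
# R013 / DescP3 (helper429): ends (places of residue fields of norms) and the levels `K₀[k']`

`w : Nm C K` (332), `s` an automorphism of `K/K₀` with `w (s f) = w f`; `autK` the induced
automorphism of the residue field `kap w`.
-/

set_option autoImplicit false
set_option linter.all false

namespace Crest.Agent.R013.DescP_429

open Module WithZero Crest.Agent.R013.Desc_372
open Crest.Agent.R013.RR7_948 Crest.Agent.R013.RR8_948 Crest.Agent.R013.RR9_948
open Crest.Agent.R013.RR11_948 Crest.Agent.R013.RR12_948 Crest.Agent.R013.Red332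
open scoped NNReal

section autK

variable {C K : Type*} [NormedField C] [IsUltrametricDist C] [Field K] [Algebra C K]

/-- the induced map on the valuation ring -/
noncomputable def mapO (w : Nm C K) (s : K ≃+* K) (hs : ∀ f, w.v (s f) = w.v f) :
    w.v.valuationSubring →+* w.v.valuationSubring :=
  (s : K →+* K).restrict _ _ (fun f hf => by
    rw [Valuation.mem_valuationSubring_iff] at hf ⊢
    show w.v (s f) ≤ 1
    rw [hs]; exact hf)

theorem isUnit_O {w : Nm C K} {a : w.v.valuationSubring} : IsUnit a ↔ w.v (a : K) = 1 := by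
  constructor
  · intro h
    obtain ⟨b, hb⟩ := isUnit_iff_exists_inv.1 h
    have h1 : w.v (a : K) * w.v (b : K) = 1 := by
      rw [← map_mul]
      have := congrArg (fun x : w.v.valuationSubring => w.v (x : K)) hb
      simpa using this
    refine le_antisymm a.2 ?_
    rw [← h1]
    exact mul_le_of_le_one_right' b.2
  · intro h
    have ha0 : (a : K) ≠ 0 := by
      intro h0; rw [h0, map_zero] at h; exact zero_ne_one h
    refine isUnit_iff_exists_inv.2 ⟨⟨(a : K)⁻¹, ?_⟩, Subtype.ext (mul_inv_cancel₀ ha0)⟩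
    rw [Valuation.mem_valuationSubring_iff, map_inv₀, h, inv_one]

instance (w : Nm C K) (s : K ≃+* K) (hs : ∀ f, w.v (s f) = w.v f) :
    IsLocalHom (mapO w s hs) where
  map_nonunit a ha := by
    rw [isUnit_O] at ha ⊢
    rw [← hs]; exact ha

/-- the induced map on the residue field -/
noncomputable def autK (w : Nm C K) (s : K ≃+* K) (hs : ∀ f, w.v (s f) = w.v f) :
    kap w →+* kap w := IsLocalRing.ResidueField.map (mapO w s hs)

theorem autK_red (w : Nm C K) (s : K ≃+* K) (hs : ∀ f, w.v (s f) = w.v f) {f : K}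
    (hf : w.v f ≤ 1) : autK w s hs (red w f) = red w (s f) := by
  rw [red_def w hf, red_def w (by rw [hs]; exact hf)]
  rfl

theorem autK_surj (w : Nm C K) (s : K ≃+* K) (hs : ∀ f, w.v (s f) = w.v f) :
    Function.Surjective (autK w s hs) := by
  intro y
  obtain ⟨f, hf, rfl⟩ := red_surj w y
  have h1 : w.v (s.symm f) ≤ 1 := by rw [← hs, s.apply_symm_apply]; exact hf
  exact ⟨red w (s.symm f), by rw [autK_red w s hs h1, s.apply_symm_apply]⟩

end autK

section ends

variable {k C : Type*} [Field k] [NormedField C] [IsUltrametricDist C] [Algebra k C]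
  {K₀ K : Type*} [Field K₀] [Field K] [Algebra k K₀]
    [Algebra C K] [Algebra K₀ K] [Algebra k K] [IsScalarTower k C K] [IsScalarTower k K₀ K]




/-- the end `(w, x)` is fixed by the automorphisms in `Gam K₀ K k'` which preserve `w` -/
def InvX {k C : Type*} [Field k] [NormedField C] [IsUltrametricDist C] [Algebra k C]
    (K₀ : Type*) {K : Type*} [Field K₀] [Field K] [Algebra k K₀]
    [Algebra C K] [Algebra K₀ K] [Algebra k K] [IsScalarTower k C K] [IsScalarTower k K₀ K]
    (k' : IntermediateField k C) (w : Nm C K) (x : Pl (Ct C) (kap w)) : Prop :=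
  ∀ s ∈ CE.Gam K₀ K k', (∀ f, w.v (s f) = w.v f) →
    ∀ f, w.v f ≤ 1 → x.v (red w (s f)) = x.v (red w f)

theorem InvX.mono {k' k'' : IntermediateField k C} (h : k' ≤ k'') {w : Nm C K}
    {x : Pl (Ct C) (kap w)} (hx : InvX K₀ k' w x) : InvX K₀ k'' w x :=
  fun s hs => hx s (CE.Gam_anti h hs)



end ends

end Crest.Agent.R013.DescP_429
end

-- ▼ part R013/GR10_921
section

/-!
# R013 / GR10: the invariant case of C-GR (helper921)

`L/K` cyclic of degree `p`, `W` a norm of `L` over the norm `w` of `K`, fixed by `Gal(L/K)`.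
* `toRed` : `Nm C K` as a `Red`;
* `hasGen_of_trivial` : Galois acts trivially on the residue field ⇒ `gen κ_W = gen κ_w`;
* `resAut`, `finrank_kap_eq` : otherwise `κ_W / κ_w` is cyclic of degree `p`.
-/

set_option autoImplicit false
set_option linter.all false

namespace Crest.Agent.R013.GR10_921

open Polynomial WithZero Module IntermediateField
open scoped NNReal
open Crest.Agent.R013.RR7_948 Crest.Agent.R013.RR8_948 Crest.Agent.R013.RR9_948
open Crest.Agent.R013.RR11_948 Crest.Agent.R013.RR12_948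
open Crest.Agent.R013.RR18_948 Crest.Agent.R013.RR19_948 Crest.Agent.R013.RR20_948
open Crest.Agent.R013.RR21_948 Crest.Agent.R013.RR22_948
open Crest.Agent.R013.GR2_921 Crest.Agent.R013.GR3_921 Crest.Agent.R013.GR4_921
open Crest.Agent.R013.GR5_921 Crest.Agent.R013.GR6_921 Crest.Agent.R013.GR7_921
open Crest.Agent.R013.Red332 Crest.Agent.R013.Kumv2_275 Crest.Agent.R013.GRK_903
open Crest.Agent.R013.CB1_903

section bridge

variable {C : Type*} [NormedField C] [IsUltrametricDist C] {K : Type*} [Field K] [Algebra C K]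

/-- the valuation of `C` -/
noncomputable abbrev vv (C : Type*) [NormedField C] [IsUltrametricDist C] : Valuation C ℝ≥0 :=
  NormedField.valuation (K := C)

theorem isRes_rc : IsRes (vv C) (rc : C → Ct C) where
  add x y hx hy := rc_add hx hy
  mul x y hx hy := rc_mul hx hy
  one := rc_one
  zero_iff x hx := rc_eq_zero_iff hx
  surj y := rc_surj y

theorem isRes_red (w : Nm C K) : IsRes w.v (red w) where
  add x y hx hy := red_add w hx hy
  mul x y hx hy := red_mul w hx hy
  one := red_one w
  zero_iff x hx := red_eq_zero_iff w hx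
  surj y := red_surj w y

/-- a norm `Nm C K` as a `Red` -/
theorem toRed (w : Nm C K) : Red (vv C) (rc : C → Ct C) w.v (red w) where
  resC := isRes_rc
  res := isRes_red w
  norm c := w.hC c
  comp c hc := red_C w c hc
  val f hf := w.val f hf

end bridge

section aut

variable {C : Type*} [NormedField C] [IsUltrametricDist C]
variable {K L : Type*} [Field K] [Field L] [Algebra C K] [Algebra K L] [Algebra C L]
  [IsScalarTower C K L]

/-- the automorphism of the residue field induced by an automorphism preserving the norm -/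
theorem exists_resAut (w : Nm C K) (W : Nm C L) (hW : W.v.comap (algebraMap K L) = w.v)
    (σ : L ≃ₐ[K] L) (hσ : ∀ x, W.v (σ x) = W.v x) :
    letI := (kapMap w W hW).toAlgebra
    ∃ s : kap W ≃ₐ[kap w] kap W, ∀ x, W.v x ≤ 1 → s (red W x) = red W (σ x) := by
  letI := (kapMap w W hW).toAlgebra
  let φ := DescP_429.autK W (σ : L ≃+* L) hσ
  have hφ : Function.Bijective φ := ⟨φ.injective, DescP_429.autK_surj W _ hσ⟩
  have hred : ∀ x, W.v x ≤ 1 → φ (red W x) = red W (σ x) := fun x hx =>
    DescP_429.autK_red W (σ : L ≃+* L) hσ hx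
  refine ⟨AlgEquiv.ofRingEquiv (f := RingEquiv.ofBijective φ hφ) ?_, fun x hx => hred x hx⟩
  intro a
  obtain ⟨f, hf, rfl⟩ := red_surj w a
  show φ (kapMap w W hW (red w f)) = kapMap w W hW (red w f)
  have h0 : W.v (algebraMap K L f) = w.v f := DFunLike.congr_fun hW f
  have h1 : W.v (algebraMap K L f) ≤ 1 := by
    rw [h0]; exact hf
  rw [kapMap_red, hred _ h1, AlgEquiv.commutes]

variable [FiniteDimensional K L]

/-- **trivial action on the residue field** : purely inseparable residue extension -/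
theorem hasGen_of_trivial [IsAlgClosed C] {p : ℕ} [hp : Fact p.Prime] [CharP (Ct C) p]
    [IsAlgClosed (Ct C)]
    [IsGalois K L] (hdeg : finrank K L = p)
    (w : Nm C K) (W : Nm C L) (hW : W.v.comap (algebraMap K L) = w.v)
    (hσ : ∀ (σ : L ≃ₐ[K] L) x, W.v (σ x) = W.v x)
    (htriv : ∀ (σ : L ≃ₐ[K] L) x, W.v x ≤ 1 → red W (σ x) = red W x) {g : ℕ}
    (hg : HasGen (Ct C) (kap w) g) : HasGen (Ct C) (kap W) g := by
  classical
  letI := (kapMap w W hW).toAlgebra
  haveI : IsScalarTower (Ct C) (kap w) (kap W) := IsScalarTower.of_algebraMap_eq fun c =>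
    (kapMap_algebraMap w W hW c).symm
  have hins : ∀ y : kap W, y ^ p ∈ Set.range (algebraMap (kap w) (kap W)) := by
    intro y
    obtain ⟨u, hu, rfl⟩ := red_surj W y
    have h1 : algebraMap K L (Algebra.norm K u) = ∏ σ : L ≃ₐ[K] L, σ u :=
      Algebra.norm_eq_prod_automorphisms K u
    refine ⟨red w (Algebra.norm K u), ?_⟩
    show kapMap w W hW _ = _
    rw [kapMap_red, h1, (isRes_red W).prod _ _ (fun σ _ => by rw [hσ]; exact hu),
      Finset.prod_congr rfl fun σ _ => htriv σ u hu, Finset.prod_const, Finset.card_univ,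
      ← Nat.card_eq_fintype_card, IsGalois.card_aut_eq_finrank, hdeg]
  by_cases hb : ∃ y : kap W, y ∉ Set.range (algebraMap (kap w) (kap W))
  · exact hasGen_of_purelyInsep (K := kap w) (p := p) hins hb hg
  · push Not at hb
    exact hasGen_of_bijective w W hW ⟨(kapMap w W hW).injective, fun y => hb y⟩ hg

/-- **non trivial action**: `κ_W / κ_w` has degree `p` -/
theorem finrank_kap_eq {p : ℕ} (hp : p.Prime) (hdeg : finrank K L = p)
    (w : Nm C K) (W : Nm C L) (hW : W.v.comap (algebraMap K L) = w.v)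
    {σ : L ≃ₐ[K] L} (hσp : σ ^ p = 1) (hσ : ∀ x, W.v (σ x) = W.v x) :
    letI := (kapMap w W hW).toAlgebra
    ∀ s : kap W ≃ₐ[kap w] kap W, (∀ x, W.v x ≤ 1 → s (red W x) = red W (σ x)) → s ≠ 1 →
      FiniteDimensional (kap w) (kap W) ∧ finrank (kap w) (kap W) = p := by
  letI := (kapMap w W hW).toAlgebra
  intro s hs hs1
  obtain ⟨hfin, hle⟩ := Kapx_275.kap_finite w W hW
  rw [hdeg] at hle
  refine ⟨hfin, ?_⟩
  have hpow : ∀ (i : ℕ) x, W.v x ≤ 1 → (s ^ i) (red W x) = red W ((σ ^ i) x) := by
    intro i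
    induction i with
    | zero => intro x _; rfl
    | succ i ih =>
      intro x hx
      rw [pow_succ, pow_succ, AlgEquiv.mul_apply, AlgEquiv.mul_apply, hs x hx,
        ih _ (by rw [hσ]; exact hx)]
  have hsp : s ^ p = 1 := by
    ext y
    obtain ⟨x, hx, rfl⟩ := red_surj W y
    rw [hpow p x hx, hσp]; rfl
  haveI : Fact p.Prime := ⟨hp⟩
  have hord : orderOf s = p := orderOf_eq_prime hsp hs1
  have h1 : finrank (IntermediateField.fixedField (Subgroup.zpowers s)) (kap W) = p := by
    rw [IntermediateField.finrank_fixedField_eq_card, Nat.card_zpowers, hord]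
  have h2 := Module.finrank_mul_finrank (kap w)
    (IntermediateField.fixedField (Subgroup.zpowers s)) (kap W)
  rw [h1] at h2
  have h3 : 0 < finrank (kap w) (IntermediateField.fixedField (Subgroup.zpowers s)) :=
    Module.finrank_pos
  refine le_antisymm hle ?_
  calc p = 1 * p := (one_mul p).symm
    _ ≤ _ * p := Nat.mul_le_mul_right p h3
    _ = _ := h2

end aut

end Crest.Agent.R013.GR10_921
end

-- ▼ part R013/GR11_921
section

/-!
# R013 / GR11: the invariant case of C-GR, conclusion (helper921)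

* `norm_div` : the divisor of `N_{L/K}(f)`, `Q - σ Q = p V + div f`, is divisible by `p`;
* `sig` : **SIG**: `L/K` cyclic unramified of degree `p`, `W` a Galois invariant norm of `L` over `w`,
  `gen κ_w = gen K = g ≥ 1`: either `gen κ_W = g`, or there is a `μ_p`-torsor `h` of `K` whose
  reduction at `w` is inseparable.
-/

set_option autoImplicit false
set_option linter.all false

namespace Crest.Agent.R013.GR11_921

open Polynomial WithZero Module IntermediateField
open scoped NNReal
open Crest.Agent.R013.RR7_948 Crest.Agent.R013.RR8_948 Crest.Agent.R013.RR9_948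
open Crest.Agent.R013.RR11_948 Crest.Agent.R013.RR12_948
open Crest.Agent.R013.RR18_948 Crest.Agent.R013.RR19_948 Crest.Agent.R013.RR20_948
open Crest.Agent.R013.RR21_948 Crest.Agent.R013.RR22_948
open Crest.Agent.R013.GR2_921 Crest.Agent.R013.GR3_921 Crest.Agent.R013.GR4_921
open Crest.Agent.R013.GR5_921 Crest.Agent.R013.GR6_921 Crest.Agent.R013.GR7_921
open Crest.Agent.R013.GR10_921
open Crest.Agent.R013.Red332 Crest.Agent.R013.Kumv2_275 Crest.Agent.R013.GRK_903
open Crest.Agent.R013.CB1_903

section norm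

variable {C : Type*} [Field C] [IsAlgClosed C] [CharZero C] {K : Type*} [Field K] [Algebra C K]
  [Algebra (RatFunc C) K]
  [IsScalarTower C (RatFunc C) K] [FiniteDimensional (RatFunc C) K]
  {L : Type*} [Field L] [Algebra C L] [Algebra K L] [IsScalarTower C K L] [FiniteDimensional K L]
  [Algebra (RatFunc C) L] [IsScalarTower C (RatFunc C) L] [FiniteDimensional (RatFunc C) L]
  [IsScalarTower (RatFunc C) K L]

theorem eR_of_unrPl (hunr : UnrPl C K L) (Q : Pl C L) : eR K Q = 1 := by
  obtain ⟨f, hf⟩ := hunr Q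
  have hf0 : f ≠ 0 := by
    rintro rfl
    rw [map_zero, map_zero] at hf
    exact exp_ne_zero hf.symm
  have h1 := v_algebraMap_exp (K := K) Q (v_eq hf0 (under K Q))
  rw [hf, exp_inj] at h1
  have h2 : ((eR K Q : ℕ) : ℤ) ∣ 1 := ⟨divf (k := C) f (under K Q), by linarith⟩
  exact Nat.dvd_one.mp (by exact_mod_cast h2)

theorem divf_const {c : C} (hc : c ≠ 0) : divf (k := C) (algebraMap C L c) = 0 := by
  have h0 : algebraMap C L c ≠ 0 := by simpa using hc
  ext P
  have h1 := v_eq (k := C) h0 P
  rw [P.const c hc, ← exp_zero, exp_inj] at h1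
  rw [Finsupp.zero_apply]
  linarith

theorem divf_prod_orbit {p : ℕ} {σ : L ≃ₐ[K] L} {Q : Pl C L} {V : Pl C L →₀ ℤ} {f : L} (hf : f ≠ 0)
    (hdiv : Finsupp.single Q 1 - Finsupp.single (mapPl (σ.restrictScalars C) Q) 1
      = (p : ℤ) • V + divf (k := C) f) (n : ℕ) :
    divf (k := C) (∏ i ∈ Finset.range n, (σ ^ i) f)
      = Finsupp.single Q 1 - Finsupp.single (mapPl ((σ ^ n).restrictScalars C) Q) 1
        - (p : ℤ) • ∑ i ∈ Finset.range n, mapD ((σ ^ i).restrictScalars C) V := by
  have hdf : divf (k := C) f = Finsupp.single Q 1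
      - Finsupp.single (mapPl (σ.restrictScalars C) Q) 1 - (p : ℤ) • V := by
    rw [hdiv]; abel
  induction n with
  | zero =>
    have h1 : ((σ ^ 0).restrictScalars C : L ≃ₐ[C] L) = 1 := rfl
    rw [Finset.range_zero, Finset.prod_empty, Finset.sum_empty, divf_one, h1, mapPl_one, smul_zero,
      sub_self, sub_zero]
  | succ n ih =>
    rw [Finset.prod_range_succ, divf_mul
      (Finset.prod_ne_zero_iff.mpr fun i _ => (map_ne_zero (σ ^ i)).mpr hf)
      ((map_ne_zero (σ ^ n)).mpr hf), ih,
      Finset.sum_range_succ]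
    have h1 : divf (k := C) ((σ ^ n) f) = mapD ((σ ^ n).restrictScalars C) (divf f) :=
      divf_map ((σ ^ n).restrictScalars C) f
    have h2 : mapPl ((σ ^ n).restrictScalars C) (mapPl (σ.restrictScalars C) Q)
        = mapPl ((σ ^ (n + 1)).restrictScalars C) Q := by
      rw [← mapPl_mul]
      have : ((σ ^ (n + 1)).restrictScalars C : L ≃ₐ[C] L)
          = ((σ ^ n).restrictScalars C) * (σ.restrictScalars C) := by rw [pow_succ]; rfl
      rw [this]
    rw [h1, hdf, map_sub, map_sub, mapD_single, mapD_single, h2, map_zsmul, smul_add]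
    abel

theorem norm_div {p : ℕ} {σ : L ≃ₐ[K] L} (hσp : σ ^ p = 1) (hunr : UnrPl C K L) {Q : Pl C L}
    {V : Pl C L →₀ ℤ} {f : L} (hf : f ≠ 0)
    (hdiv : Finsupp.single Q 1 - Finsupp.single (mapPl (σ.restrictScalars C) Q) 1
      = (p : ℤ) • V + divf (k := C) f)
    {h0 : K} (hh : algebraMap K L h0 = ∏ i ∈ Finset.range p, (σ ^ i) f) (P : Pl C K) :
    ∃ m : ℤ, P.v h0 = exp ((p : ℤ) * m) := by
  haveI : CharZero K := charZero_of_injective_algebraMap (algebraMap C K).injective
  haveI : Algebra.IsSeparable K L := Algebra.IsAlgebraic.isSeparable_of_perfectField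
  obtain ⟨Q', hQ'⟩ := above_nonempty (L := L) P
  rw [mem_above] at hQ'
  have hL0 : algebraMap K L h0 ≠ 0 := by
    rw [hh]
    exact Finset.prod_ne_zero_iff.mpr fun i _ => (map_ne_zero (σ ^ i)).mpr hf
  have h00 : h0 ≠ 0 := by rintro rfl; exact hL0 (map_zero _)
  have h1 := divf_prod_orbit (C := C) (p := p) hf hdiv p
  have h2 : ((σ ^ p).restrictScalars C : L ≃ₐ[C] L) = 1 := by rw [hσp]; rfl
  rw [h2, mapPl_one, sub_self, zero_sub, ← hh] at h1
  have h3 := v_algebraMap_exp (K := K) Q' (v_eq h00 (under K Q'))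
  rw [eR_of_unrPl hunr, v_eq hL0, exp_inj, h1, hQ', Finsupp.neg_apply, Finsupp.smul_apply,
    smul_eq_mul, Nat.cast_one, one_mul, neg_neg] at h3
  refine ⟨(∑ i ∈ Finset.range p, mapD ((σ ^ i).restrictScalars C) V) Q', ?_⟩
  rw [v_eq h00, exp_inj, ← h3]

end norm

section main

universe u

variable {C : Type*} [NormedField C] [IsUltrametricDist C] [IsAlgClosed C] [CharZero C]
variable {K : Type*} {L : Type u} [Field K] [Field L] [Algebra C K] [Algebra K L] [Algebra C L]
  [IsScalarTower C K L] [FiniteDimensional K L]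

/-- **SIG** -/
theorem sig [IsGalois K L] {p : ℕ} [hpp : Fact p.Prime] (hpC : ‖(p : C)‖ < 1)
    [CharP (Ct C) p] [IsAlgClosed (Ct C)] (hdeg : finrank K L = p) (hunr : UnrPl C K L)
    {g : ℕ} (hg1 : 1 ≤ g) (hgK : HasGen C K g) (hgL : HasGen C L (p * (g - 1) + 1))
    (w : Nm C K) (W : Nm C L) (hW : W.v.comap (algebraMap K L) = w.v)
    (hgw : HasGen (Ct C) (kap w) g) (hσ : ∀ (σ : L ≃ₐ[K] L) x, W.v (σ x) = W.v x) :
    HasGen (Ct C) (kap W) g ∨ ∃ h : K, w.v h = 1 ∧ (∀ b : kap w, b ^ p ≠ red w h) ∧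
      ∀ P : Pl C K, ∃ m : ℤ, P.v h = exp ((p : ℤ) * m) := by
  classical
  by_cases htriv : ∀ (σ : L ≃ₐ[K] L) x, W.v x ≤ 1 → red W (σ x) = red W x
  · exact Or.inl (hasGen_of_trivial hdeg w W hW hσ htriv hgw)
  right
  push Not at htriv
  obtain ⟨σ, x0, hx0, hne⟩ := htriv
  have hp := hpp.out
  have hσ1 : σ ≠ 1 := by rintro rfl; exact hne rfl
  have hσp : σ ^ p = 1 := by
    have : Nat.card (L ≃ₐ[K] L) = p := by rw [IsGalois.card_aut_eq_finrank, hdeg]
    rw [← this]; exact pow_card_eq_one'
  -- structures on `K` and `L`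
  obtain ⟨iK, jK, fK, sK, hK⟩ := hgK
  letI : Algebra (RatFunc C) L := ((algebraMap K L).comp (algebraMap (RatFunc C) K)).toAlgebra
  haveI : IsScalarTower (RatFunc C) K L := IsScalarTower.of_algebraMap_eq fun x => rfl
  haveI : IsScalarTower C (RatFunc C) L := IsScalarTower.of_algebraMap_eq fun x => by
    rw [IsScalarTower.algebraMap_apply C K L, IsScalarTower.algebraMap_apply C (RatFunc C) K]
    rfl
  haveI : FiniteDimensional (RatFunc C) L := FiniteDimensional.trans (RatFunc C) K L
  haveI : CharZero (RatFunc C) := charZero_of_injective_algebraMap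
    (algebraMap C (RatFunc C)).injective
  have hL : gen C L = p * (g - 1) + 1 := hgL.eq_gen
  -- structures on the residue fields
  obtain ⟨iw, jw, fw, sw, hw⟩ := hgw
  letI aκ : Algebra (kap w) (kap W) := (kapMap w W hW).toAlgebra
  haveI : IsScalarTower (Ct C) (kap w) (kap W) := IsScalarTower.of_algebraMap_eq fun c =>
    (kapMap_algebraMap w W hW c).symm
  obtain ⟨s, hs⟩ := exists_resAut w W hW σ (hσ σ)
  have hs1 : s ≠ 1 := by
    rintro rfl
    exact hne (hs x0 hx0).symm
  obtain ⟨hfin, hdegκ⟩ := finrank_kap_eq hp hdeg w W hW hσp (hσ σ) s hs hs1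
  haveI := hfin
  haveI hgal : IsGalois (kap w) (kap W) := isGalois_of_prime hp hdegκ hs1
  letI : Algebra (RatFunc (Ct C)) (kap W) :=
    ((algebraMap (kap w) (kap W)).comp (algebraMap (RatFunc (Ct C)) (kap w))).toAlgebra
  haveI : IsScalarTower (RatFunc (Ct C)) (kap w) (kap W) :=
    IsScalarTower.of_algebraMap_eq fun x => rfl
  haveI : IsScalarTower (Ct C) (RatFunc (Ct C)) (kap W) :=
    IsScalarTower.of_algebraMap_eq fun x => by
      rw [IsScalarTower.algebraMap_apply (Ct C) (kap w) (kap W),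
        IsScalarTower.algebraMap_apply (Ct C) (RatFunc (Ct C)) (kap w)]
      rfl
  haveI : FiniteDimensional (RatFunc (Ct C)) (kap W) :=
    FiniteDimensional.trans (RatFunc (Ct C)) (kap w) (kap W)
  haveI : Algebra.IsSeparable (RatFunc (Ct C)) (kap W) :=
    Algebra.IsSeparable.trans (RatFunc (Ct C)) (kap w) (kap W)
  -- genus comparison
  have h := toRed W
  have hκ : ∃ z : kap W, z ∉ Set.range (algebraMap (Ct C) (kap W)) := exists_notMem_range
  have hpv : vv C (p : C) < 1 := hpC
  have hO : Orth (vv C) W.v := GR9_921.orth h hκ p hpv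
  have hle : gen (Ct C) (kap W) ≤ gen C L := GR7_921.gen_le h hO
  have hge := RHP_240.hurwitz_ge (k := Ct C) (K := kap w) (L := kap W)
    hc_of_isAlgClosed hc_of_isAlgClosed
  rw [hdegκ, hw] at hge
  have hgeq : gen (Ct C) (kap W) = gen C L := by
    refine le_antisymm hle ?_
    rw [hL]
    zify [hg1]
    linarith
  -- no fixed place
  have hfree : ∀ b : Pl (Ct C) (kap W), mapPl (s.restrictScalars (Ct C)) b ≠ b := by
    intro b hb
    have h1 := gen_lower_of_fixed (k := Ct C) (K := kap w) (L := kap W) hp hdegκ hs1 hb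
    rw [hw, hgeq, hL] at h1
    zify [hg1] at h1
    linarith
  obtain ⟨sp, hsp⟩ := exists_sp h hO hgeq
  -- the divisor `Q - σ Q`
  obtain ⟨Q, _⟩ := exists_notMem (k := C) (K := L) ∅
  have hd0 : degD (Finsupp.single Q 1 - Finsupp.single (mapPl (σ.restrictScalars C) Q) 1) = 0 := by
    rw [degD_sub, degD_single, degD_single, degP_mapPl, sub_self]
  obtain ⟨V, f0, hf0, -, hV⟩ := Div6_280.exists_div hp.pos hd0
  obtain ⟨c, hc0, hc, hc1⟩ := h.normalise hf0
  set f := f0 * algebraMap C L c⁻¹ with hfdef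
  have hcL : algebraMap C L c⁻¹ ≠ 0 := by simpa using hc0
  have hfne : f ≠ 0 := mul_ne_zero hf0 hcL
  have hdivf : divf (k := C) f = divf f0 := by
    rw [hfdef, divf_mul hf0 hcL, divf_const (inv_ne_zero hc0), add_zero]
  have hdiv : Finsupp.single Q 1 - Finsupp.single (mapPl (σ.restrictScalars C) Q) 1
      = (p : ℤ) • V + divf (k := C) f := by
    rw [hdivf, hV, natCast_zsmul]
  -- the norm of `f`
  have hfix : σ (∏ i ∈ Finset.range p, (σ ^ i) f) = ∏ i ∈ Finset.range p, (σ ^ i) f := by
    have h1 : σ (∏ i ∈ Finset.range p, (σ ^ i) f) * f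
        = (∏ i ∈ Finset.range p, (σ ^ i) f) * (σ ^ p) f := by
      rw [← Finset.prod_range_succ, Finset.prod_range_succ', map_prod]
      congr 1
      refine Finset.prod_congr rfl fun i _ => ?_
      rw [pow_succ', AlgEquiv.mul_apply]
    rw [hσp, AlgEquiv.one_apply] at h1
    exact mul_right_cancel₀ hfne h1
  obtain ⟨h0, hh⟩ := mem_range_of_fixed hp hdeg hσ1 hfix
  have hσbres : ∀ x, W.v x ≤ 1 → red W (σ x) = s.restrictScalars (Ct C) (red W x) :=
    fun x hx => (hs x hx).symm
  have hmain := main_claim h hsp hp hσp (hσ σ) hσbres hfree hc1 hdiv hh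
  have hWv : ∀ a : K, W.v (algebraMap K L a) = w.v a := fun a => DFunLike.congr_fun hW a
  have hw0 : w.v h0 = 1 := by
    rw [← hWv, hh, map_prod]
    refine Finset.prod_eq_one fun i _ => ?_
    rw [hσ, hc1]
  refine ⟨h0, hw0, fun b hb => hmain ?_, norm_div hσp hunr hfne hdiv hh⟩
  have hb0 : b ≠ 0 := by
    rintro rfl
    rw [zero_pow hp.ne_zero] at hb
    exact red_ne_zero w hw0 hb.symm
  obtain ⟨g0, hg0, rfl⟩ := (isRes_red w).lift hb0
  refine ⟨g0⁻¹, by rw [hWv, map_inv₀, hg0, inv_one], ?_⟩
  have h1 : red w (h0 * g0⁻¹ ^ p) = 1 := by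
    rw [red_mul w hw0.le (by rw [map_pow, map_inv₀, hg0, inv_one, one_pow]), 
      red_pow w (by rw [map_inv₀, hg0, inv_one]), red_inv w hg0, ← hb, ← mul_pow,
      mul_inv_cancel₀ hb0, one_pow]
  rw [← kapMap_red w W hW, h1, map_one]

end main

end Crest.Agent.R013.GR11_921
end

-- ▼ part R013/GR12_921
section

/-!
# R013 / GR12: C-GR without hypotheses (helper921)
-/

set_option autoImplicit false
set_option linter.all false

namespace Crest.Agent.R013.GR12_921

open WithZero
open Crest.Agent.R013.RR7_948 Crest.Agent.R013.RR11_948 Crest.Agent.R013.RR12_948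
open Crest.Agent.R013.Red332 Crest.Agent.R013.GR3_921
open Crest.Agent.R013.GRK_903 Crest.Agent.R013.CB1_903

universe u


section

variable (C : Type*) [NormedField C] [IsUltrametricDist C] [IsAlgClosed C] [CharZero C]

/-- the invariant case -/
theorem inSig (p : ℕ) [hp : Fact p.Prime] (hpC : ‖(p : C)‖ < 1) [CharP (Ct C) p]
    [IsAlgClosed (Ct C)] : InSig.{u} C p := by
  intro K L _ _ _ _ _ _ _ _ g hdeg hunr hgK hg1 hgL w W hW hgw hσ
  exact GR11_921.sig hpC hdeg hunr hg1 hgK hgL w W hW hgw hσ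


end

end Crest.Agent.R013.GR12_921
end

-- ▼ part R013/StA_332

/-!
# R013 / StA_332 : stages (A1) and (A2) of part C, composed

`stageA`: over `C` = an algebraic closure of `ℚ_p`, every function field `KC` of genus `≥ 2` has a
finite unramified extension `K1` with a semistable structure `S1`, `#V ≤ #Ed`, and a cyclic
unramified extension `K'` of `K1` with the data `A2Data` (398).
-/

set_option autoImplicit false
set_option linter.unusedSectionVars false
set_option linter.style.haveILetI false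

universe u

namespace Crest.Agent.R013.StA_332

open scoped NNReal
open Crest.Agent.R013.Cell_408 Crest.Agent.R013.Good_408
open Crest.Agent.R013.RR11_948 Crest.Agent.R013.RR12_948
open Crest.Agent.R013.SSK_332 Crest.Agent.R013.Red332 Crest.Agent.R013.CB1_903
open Crest.Agent.R013.GR3_921
open Crest.Agent.R013.A2_398

variable (p : ℕ) [hp : Fact p.Prime] (k : Type*) {C : Type u} [NontriviallyNormedField k]
  [CompleteSpace k] [IsUltrametricDist k] [NormedField C] [IsUltrametricDist C] [NormedAlgebra k C]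
  [Algebra.IsAlgebraic k C] [IsAlgClosed C] [hk : Fact (DiscNorm k)] [CharZero C]
  [NormedAlgebra ℚ_[p] C] [Algebra.IsAlgebraic ℚ_[p] C]

theorem norm_p_lt {p : ℕ} [hp : Fact p.Prime] {C : Type*} [NormedField C]
    [NormedAlgebra ℚ_[p] C] : ‖(p : C)‖ < 1 := by
  have h1 : ‖algebraMap ℚ_[p] C (p : ℚ_[p])‖ = ‖(p : ℚ_[p])‖ := norm_algebraMap' C _
  rw [map_natCast] at h1
  rw [h1]
  exact Padic.norm_p_lt_one

include p in
/-- **(A1)** from `DirAll` -/
theorem a1_of_dir (dir : DirAll k C) (K : Type u) [Field K] [Algebra C K] (g : ℕ)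
    (hg : HasGen C K g) (h2 : 2 ≤ g) : A1 k C K := by
  haveI := TP14_928.charP_Ct (C := C) p
  haveI : IsAlgClosed (Ct C) := TP14_928.isAlgClosed_Ct
  exact a1_two p (inDisc_of_dir p norm_p_lt dir) (GR12_921.inSig C p norm_p_lt) K g hg h2

/-- **stages (A1) and (A2)** -/
theorem stageA (dir : DirAll k C) (KC : Type u) [Field KC] [Algebra C KC] [Algebra (RatFunc C) KC]
    [IsScalarTower C (RatFunc C) KC] [FiniteDimensional (RatFunc C) KC] (hg : 2 ≤ gen C KC) :
    ∃ (K1 : Type u) (_ : Field K1) (_ : Algebra C K1) (_ : Algebra KC K1)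
      (_ : IsScalarTower C KC K1) (_ : FiniteDimensional KC K1) (_ : Algebra (RatFunc C) K1)
      (_ : IsScalarTower C (RatFunc C) K1) (_ : IsScalarTower (RatFunc C) KC K1)
      (_ : FiniteDimensional (RatFunc C) K1) (S1 : SSK k C K1),
      Unr10_957.UnrEv C KC K1 ∧ nV S1 ≤ nE S1 ∧
      Nat.card {v : S1.V // HasGen (Ct C) (kap (S1.nm v)) 0} < Nat.card S1.Ed ∧
      ∃ (K' : Type u) (_ : Field K') (_ : Algebra C K') (_ : Algebra K1 K')
        (_ : IsScalarTower C K1 K') (_ : FiniteDimensional K1 K') (_ : IsGalois K1 K'),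
        Nonempty (A2Data p S1 K') := by
  haveI : CharZero (RatFunc C) :=
    charZero_of_injective_ringHom (algebraMap C (RatFunc C)).injective
  haveI : CharZero KC := charZero_of_injective_algebraMap (algebraMap C KC).injective
  haveI : Algebra.IsSeparable (RatFunc C) KC := inferInstance
  obtain ⟨K1, i1, i2, i3, i4, i5, S1, h1, -, h3, g', hg', hg2⟩ :=
    (a1_of_dir p k dir KC (gen C KC) (hasGen_gen C KC) hg).genus (hasGen_gen C KC) hg
  letI i6 : Algebra (RatFunc C) K1 :=
    ((algebraMap KC K1).comp (algebraMap (RatFunc C) KC)).toAlgebra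
  haveI i7 : IsScalarTower (RatFunc C) KC K1 := IsScalarTower.of_algebraMap_eq fun x => rfl
  haveI i8 : IsScalarTower C (RatFunc C) K1 := IsScalarTower.of_algebraMap_eq fun x => by
    rw [IsScalarTower.algebraMap_apply C KC K1, IsScalarTower.algebraMap_apply C (RatFunc C) KC]
    rfl
  haveI i9 : FiniteDimensional (RatFunc C) K1 := FiniteDimensional.trans (RatFunc C) KC K1
  haveI : CharZero K1 := charZero_of_injective_algebraMap (algebraMap C K1).injective
  haveI : Algebra.IsSeparable (RatFunc C) K1 := inferInstance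
  haveI : Algebra.IsSeparable KC K1 := inferInstance
  exact ⟨K1, i1, i2, i3, i4, i5, i6, i8, i7, i9, S1, CAsm2_588.unrPl_iff.1 h1, h3,
    card_zero_lt S1 hg' hg2 h3, a2 p S1⟩

end Crest.Agent.R013.StA_332
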