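import Crest.Agent.R013.Red19_332
import Crest.Agent.R013.Dir6_408
import Crest.Agent.R013.StA_332
import Crest.Agent.R013.InhC1_770
import Crest.Agent.R013.Lev6_372_Mg
import Crest.Agent.R013.CAsm2_588
import Crest.Agent.R013.TopS_803
import Crest.Agent.R013.LemD3_623_Mg
import Crest.Agent.R013.KL1_770

-- ▼ part R013/Red20_332
section

/-!
# R013 / Red20_332 : semistable reduction, without hypotheses

`inDisc_final`, `exists_SSK`, `exists_SSK_T`: every function field over an algebraic closure `C` of a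
local field (residue characteristic `p`) has a semistable structure, with finitely many prescribed
discs as vertices.
-/

set_option autoImplicit false
set_option linter.unusedSectionVars false

universe v u

namespace Crest.Agent.R013.Red332

open scoped NNReal
open Crest.Agent.R013.Cell_408 Crest.Agent.R013.Good_408
open Crest.Agent.R013.PL_109 Crest.Agent.R013.LineDec_315
open Crest.Agent.R013.SSG_109 Crest.Agent.R013.SSZorn_315 Crest.Agent.R013.SSK_332

section

variable (k : Type v) {C : Type u} [NontriviallyNormedField k]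
    [CompleteSpace k] [IsUltrametricDist k] [NormedField C] [IsUltrametricDist C] [NormedAlgebra k C]
    [Algebra.IsAlgebraic k C] [IsAlgClosed C] [hk : Fact (DiscNorm k)] [CharZero C]

/-- **(DIR)** for all function fields -/
theorem dirAll (p : ℕ) [hp : Fact p.Prime] (hp1 : ‖(p : C)‖ < 1) : DirAll k C :=
  fun K _ _ _ _ _ => Dir_408.dirIn k hp.out hp1 K (nv C) fun _ => rfl




end

end Crest.Agent.R013.Red332
end

-- ▼ part R013/StA2_332
section

/-!
# R013 / StA2_332 : stages (A1) and (A2) of part C, without hypotheses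
-/

set_option autoImplicit false
set_option linter.unusedSectionVars false

universe u

namespace Crest.Agent.R013.StA_332

open scoped NNReal
open Crest.Agent.R013.Cell_408 Crest.Agent.R013.Good_408
open Crest.Agent.R013.RR11_948 Crest.Agent.R013.RR12_948
open Crest.Agent.R013.SSK_332 Crest.Agent.R013.Red332 Crest.Agent.R013.CB1_903
open Crest.Agent.R013.GR3_921
open Crest.Agent.R013.A2_398

variable (p : ℕ) [hp : Fact p.Prime] (k : Type*) {C : Type u} [NontriviallyNormedField k]
  [CompleteSpace k] [IsUltrametricDist k] [NormedField C] [IsUltrametricDist C] [NormedAlgebra k C]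
  [Algebra.IsAlgebraic k C] [IsAlgClosed C] [hk : Fact (DiscNorm k)] [CharZero C]
  [NormedAlgebra ℚ_[p] C] [Algebra.IsAlgebraic ℚ_[p] C]


/-- **stages (A1) and (A2)** -/
theorem stageA_final (KC : Type u) [Field KC] [Algebra C KC] [Algebra (RatFunc C) KC]
    [IsScalarTower C (RatFunc C) KC] [FiniteDimensional (RatFunc C) KC] (hg : 2 ≤ gen C KC) :
    ∃ (K1 : Type u) (_ : Field K1) (_ : Algebra C K1) (_ : Algebra KC K1)
      (_ : IsScalarTower C KC K1) (_ : FiniteDimensional KC K1) (_ : Algebra (RatFunc C) K1)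
      (_ : IsScalarTower C (RatFunc C) K1) (_ : IsScalarTower (RatFunc C) KC K1)
      (_ : FiniteDimensional (RatFunc C) K1) (S1 : SSK k C K1),
      Unr10_957.UnrEv C KC K1 ∧ nV S1 ≤ nE S1 ∧
      Nat.card {v : S1.V // HasGen (Ct C) (kap (S1.nm v)) 0} < Nat.card S1.Ed ∧
      ∃ (K' : Type u) (_ : Field K') (_ : Algebra C K') (_ : Algebra K1 K')
        (_ : IsScalarTower C K1 K') (_ : FiniteDimensional K1 K') (_ : IsGalois K1 K'),
        Nonempty (A2Data p S1 K') :=
  stageA p k (dirAll k p norm_p_lt) KC hg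

end Crest.Agent.R013.StA_332
end

-- ▼ part R013/CAsm7_588
section

/-!
# Row 13, part C, assembly 7 (helper588): the composition

* `SlopesAll p` : the only input, `SlopesP` (CAsm6) for every semistable structure;
* `coreG : SlopesAll p → CoreG p`;
* `goodpall : SlopesAll p → TopS_803.GOODPall p`.
-/

set_option autoImplicit false
set_option linter.style.haveILetI false
set_option linter.unusedSectionVars false

namespace Crest.Agent.R013.CAsm7_588

open scoped NNReal
open Module WithZero
open Crest.NumberTheoryR.Sect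
open Crest.Agent.R013.RR7_948 Crest.Agent.R013.RR13_948 Crest.Agent.R013.RR11_948
open Crest.Agent.R013.Cell_408 Crest.Agent.R013.Red332
open Crest.Agent.R013.SSK_332 Crest.Agent.R013.Inh_770
open Crest.Agent.R013.TopE4_957
open Crest.Agent.R013.Desc_372 Crest.Agent.R013.CY_957 Crest.Agent.R013.A2_398
open Crest.Agent.R013.Unr10_957 Crest.Agent.R013.Unr7_957
open Crest.Agent.R013.Good5_940 Crest.Agent.R013.CB1_903
open Crest.Agent.R013.CAsm5_588 Crest.Agent.R013.CAsm6_588
open Crest.Agent.R013.GR3_921 Crest.Agent.R013.RR8_948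

/-- **the slopes**, for every semistable structure -/
def SlopesAll (p : ℕ) [Fact p.Prime] : Prop :=
  ∀ (C : Type) [NormedField C] [IsUltrametricDist C] [NormedAlgebra ℚ_[p] C]
    [Algebra.IsAlgebraic ℚ_[p] C] [IsAlgClosed C] [CharZero C] (Y : Type) [Field Y] [Algebra C Y]
    [Algebra (RatFunc C) Y] [IsScalarTower C (RatFunc C) Y] [FiniteDimensional (RatFunc C) Y]
    (S : SSK ℚ_[p] C Y), SlopesP p S

/-- a place of degree one is rational -/
theorem isRationalPlace_plV {κ M : Type*} [Field κ] [CharZero κ] [Field M] [Algebra κ M]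
    [Algebra (RatFunc κ) M] [IsScalarTower κ (RatFunc κ) M] [FiniteDimensional (RatFunc κ) M]
    {Q : Pl κ M} (h : degP Q = 1) : IsRationalPlace κ M (plV Q) := by
  refine (isRationalPlace_iff (isPlace_plV Q) ?_).2 h
  intro r s
  rw [plV_apply, plV_apply]
  exact ((WithZeroMulInt.toNNReal_strictMono (e := 2) one_lt_two).le_iff_le).symm

set_option maxHeartbeats 1000000 in
/-- **part C over the algebraic closure** -/
theorem coreG {p : ℕ} [hpF : Fact p.Prime] (hS : SlopesAll p) : CAsm1_588.CoreG p := by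
  intro k _ _ _ K _ _ _ _ _ C _ _ _ _ _ _ _ _ KC _ _ _ _ _ _ _ _ _ _ hg
  classical
  haveI : CharZero k := charZero_of_injective_algebraMap (algebraMap ℚ_[p] k).injective
  haveI : Algebra.IsAlgebraic k C := Algebra.IsAlgebraic.tower_top (K := ℚ_[p]) k
  haveI hkf : Fact (DiscNorm ℚ_[p]) := inferInstance
  refine GoodP_797.goodP_of_good (good_of_concl p k K fun P x hP hx δ η hδ hη => ?_)
  -- stages (A1), (A2)
  obtain ⟨K1, i1, i2, i3, i4, i5, i6, i7, i8, i9, S1, hU1, hVE, hcard, K', j1, j2, j3, j4, j5, j6,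
    ⟨D⟩⟩ := StA_332.stageA_final p ℚ_[p] KC hg
  -- the loop
  obtain ⟨v, y, hL⟩ := NB_102.exists_loop_of_card S1 hVE
  -- the structures on `K'`
  letI a1 : Algebra KC K' := ((algebraMap K1 K').comp (algebraMap KC K1)).toAlgebra
  haveI b1 : IsScalarTower KC K1 K' := IsScalarTower.of_algebraMap_eq fun _ => rfl
  haveI b2 : IsScalarTower C KC K' := IsScalarTower.of_algebraMap_eq fun c => by
    rw [IsScalarTower.algebraMap_apply KC K1 K', ← IsScalarTower.algebraMap_apply C KC K1,
      ← IsScalarTower.algebraMap_apply C K1 K']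
  letI a2 : Algebra K K' := ((algebraMap KC K').comp (algebraMap K KC)).toAlgebra
  haveI b3 : IsScalarTower K KC K' := IsScalarTower.of_algebraMap_eq fun _ => rfl
  letI a3 : Algebra k K' := ((algebraMap K K').comp (algebraMap k K)).toAlgebra
  haveI b4 : IsScalarTower k K K' := IsScalarTower.of_algebraMap_eq fun _ => rfl
  haveI b5 : IsScalarTower k C K' := IsScalarTower.of_algebraMap_eq fun a => by
    rw [IsScalarTower.algebraMap_apply k K K', IsScalarTower.algebraMap_apply K KC K',
      ← IsScalarTower.algebraMap_apply k K KC, IsScalarTower.algebraMap_apply k C KC,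
      ← IsScalarTower.algebraMap_apply C KC K']
  haveI c1 : FiniteDimensional KC K' := FiniteDimensional.trans KC K1 K'
  letI a4 : Algebra (RatFunc C) K' :=
    ((algebraMap K1 K').comp (algebraMap (RatFunc C) K1)).toAlgebra
  haveI b6 : IsScalarTower (RatFunc C) K1 K' := IsScalarTower.of_algebraMap_eq fun _ => rfl
  haveI b7 : IsScalarTower C (RatFunc C) K' := IsScalarTower.of_algebraMap_eq fun c => by
    rw [IsScalarTower.algebraMap_apply (RatFunc C) K1 K',
      ← IsScalarTower.algebraMap_apply C (RatFunc C) K1, ← IsScalarTower.algebraMap_apply C K1 K']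
  haveI c2 : FiniteDimensional (RatFunc C) K' := FiniteDimensional.trans (RatFunc C) K1 K'
  -- the place of `K'`
  have hU' : UnrEv C KC K' := UnrEv.trans (L := K1) hU1 D.unrEv
  haveI : Algebra.IsAlgebraic K KC := CE.isAlgebraic k C K KC
  haveI : Algebra.IsAlgebraic K K' := Algebra.IsAlgebraic.trans K KC K'
  let φ' : K' →ₐ[K] AlgebraicClosure K := IsAlgClosed.lift
  obtain ⟨Q', hQ'⟩ := exists_plY (p := p) hP hx hU' φ'
  -- the level
  obtain ⟨L⟩ := Lev_372.exists_levData D.spl D.spl.ffL k K KC ∅ Set.finite_empty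
    {y, algebraMap KC K1 (algebraMap K KC x)} (Set.toFinite _) {Q'} (Set.finite_singleton _)
  obtain ⟨y0, hy0⟩ := L.T_mem y (Or.inl rfl)
  obtain ⟨x0, hx0⟩ := L.T_mem (algebraMap KC K1 (algebraMap K KC x)) (Or.inr rfl)
  haveI : Normal L.κ C := Fin_928.normal_C p L.κ
  have hL' := NB_102.loop_of_def_bot L.lvl.df L.norm_κ (v := v) (y := y0) (by rw [hy0]; exact hL)
  obtain ⟨π, hπ⟩ := L.unif
  obtain ⟨Q0, hQ0, -⟩ := L.rat Q' rfl
  -- the degree
  have hn : 2 * finrank ℚ_[p] L.κ < p ^ (2 * finrank ℚ_[p] L.κ) :=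
    Nat.lt_pow_self hpF.out.one_lt
  have hcop : (p ^ (2 * finrank ℚ_[p] L.κ)).Coprime (finrank K1 K') :=
    Nat.Coprime.pow_left _ ((Nat.Prime.coprime_iff_not_dvd hpF.out).2 D.finrank)
  obtain ⟨Z⟩ := stageC D.spl L.norm_κ hπ hL' L.lvlL (plV Q0) (isRationalPlace_plV hQ0) _
    (pow_ne_zero _ hpF.out.ne_zero) hcop
  refine concl_of_yOut (M := L.M) (κ := L.κ) D Z hU1 hP hx hcard φ' Q' hQ' (L.fixed Q' rfl)
    (algebraMap L.U L.M x0) ?_ (hS C Z.Y Z.PY.inh) hn hδ hη
  rw [← IsScalarTower.algebraMap_apply L.U L.M K', IsScalarTower.algebraMap_apply L.U K1 K', hx0,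
    IsScalarTower.algebraMap_apply K KC K', IsScalarTower.algebraMap_apply KC K1 K']

/-- **PART C** from the slopes -/
theorem goodpall {p : ℕ} [hpF : Fact p.Prime] (hS : SlopesAll p) : TopS_803.GOODPall p :=
  fun k _ _ _ K _ _ _ _ _ hc hg => CAsm1_588.goodp_of_core (coreG hS) k K hc hg

end Crest.Agent.R013.CAsm7_588
end

-- ▼ part R013/TopFin_803

/-!
# Row 13: `S0015` and `S0016`
-/

set_option autoImplicit false

namespace Crest.Agent.R013.TopFin_803

open scoped NNReal Topology
open Filter Crest.NumberTheoryR Crest.NumberTheoryR.Sect SE_669 CGood_588 GoodP_797 VData_803 TopB_803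
  TopS_803

/-- **LEMW + ANNU** (623). -/
theorem annP : AnnP_669.AnnP := by
  intro k E Ω U V _ _ _ _ _ _ _ _ _ _ _ _ _ _ y hG ϖ hϖ hd s hs n hn hsn _ _ _ _ d X j σ hNB _ xU
    hjx _ _ hUΩ
  exact LemC623.lemw' hG hϖ hd hs hn hsn X j σ hNB xU hjx hUΩ

/-- **B-MAIN.** -/
theorem bMain (p : ℕ) [Fact p.Prime] : BMain p := TopZ_803.bMain_of_ann annP p

/-- **Part C.** -/
theorem goodPall (p : ℕ) [hp : Fact p.Prime] : GOODPall p := by
  refine CAsm7_588.goodpall ?_
  intro C _ _ _ _ _ _ Y _ _ _ _ _ S lam h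
  exact KL_770.slopes_onto S hp.out.pos lam h

/-- **`S0016`.** -/
theorem s0016 (p : ℕ) [Fact p.Prime] (k : Type) [Field k]
    [Algebra ℚ_[p] k] [FiniteDimensional ℚ_[p] k]
    (K : Type) [Field K] [Algebra k K] [Algebra (RatFunc k) K] [IsScalarTower k (RatFunc k) K]
    [FunctionField k K] (hc : algebraicClosure k K = ⊥) (hg : 2 ≤ genus k K)
    (v : Valuation K ℝ≥0) (hv : ExtendsPadicNorm k K p v)
    (w : Valuation (AlgebraicClosure K) ℝ≥0)
    (hw : w.comap (algebraMap K (AlgebraicClosure K)) = v) :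
    ∀ a : AlgebraicClosure K, ∀ ε : ℝ≥0, 0 < ε →
      ∃ b : maxUnramified k K, w (a - (b : AlgebraicClosure K)) < ε :=
  TopS_803.s0016_of (bMain p) (goodPall p) k K hc hg v hv w hw

/-- **`S0015`.** -/
theorem s0015 (p : ℕ) [Fact p.Prime] (k : Type) [Field k]
    [Algebra ℚ_[p] k] [FiniteDimensional ℚ_[p] k]
    (K : Type) [Field K] [Algebra k K] [Algebra (RatFunc k) K] [IsScalarTower k (RatFunc k) K]
    [FunctionField k K] (hc : algebraicClosure k K = ⊥) (hg : 2 ≤ genus k K) :
    (∀ vt : Valuation (maxUnramified k K) ℝ≥0, LiesOverRationalPlace k K vt →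
        ∃ s : ConstGal k K →* PiGroup k K, IsSection k K s ∧ Set.range s = decomp k K vt) ∧
    (∀ s : ConstGal k K →* PiGroup k K, IsSection k K s →
        ∃ vt : Valuation (maxUnramified k K) ℝ≥0, LiesOverRationalPlace k K vt ∧
          Set.range s = decomp k K vt) ∧
    (∀ vt vt' : Valuation (maxUnramified k K) ℝ≥0, LiesOverRationalPlace k K vt →
        LiesOverRationalPlace k K vt' → decomp k K vt = decomp k K vt' →
        (vt.comap (algebraMap K (maxUnramified k K))).IsEquiv
          (vt'.comap (algebraMap K (maxUnramified k K)))) :=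
  TopR_803.s0015_of (bMain p) (goodPall p) k K hc hg

end Crest.Agent.R013.TopFin_803
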